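import Mathlib

/-!
Row 162, node BE (Brownian endgame of the lower bound), helper482.

* `exists_version`: a Brownian motion has a version all of whose paths are continuous, started at `0`.
* `ss X s l`: the shifted and rescaled process `u ↦ l⁻¹ (X (s + l² u) - X s)`.
* `law_eq`: the law on the path space of a pre-Brownian motion is unique.
* `ae_exists_of_seq`, `ae_frequently_of_seq`: second Borel-Cantelli over disjoint time intervals.
* `ae_forall_interval`: a monotone interval property which holds a.s. on a good event of positive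
  probability at every scale holds a.s. for all intervals.
-/

set_option autoImplicit false

open MeasureTheory ProbabilityTheory Filter Set
open scoped ENNReal NNReal Topology

namespace Crest.Agent.R162.BE

variable {Ω : Type*} {mΩ : MeasurableSpace Ω} {P : Measure Ω}

/-- A Brownian motion has a version with all paths continuous, started at `0`, measurable. -/
theorem exists_version {B : ℝ≥0 → Ω → ℝ} (hB : IsBrownianReal B P) :
    ∃ X : ℝ≥0 → Ω → ℝ, (∀ t, Measurable (X t)) ∧ (∀ ω, Continuous (X · ω)) ∧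
      (∀ ω, X 0 ω = 0) ∧ (∀ᵐ ω ∂P, ∀ t, X t ω = B t ω) ∧ IsBrownianReal X P := by
  classical
  obtain ⟨u, hu⟩ := TopologicalSpace.exists_dense_seq ℝ≥0
  let B' : ℕ → Ω → ℝ := fun n => (hB.aemeasurable (u n)).mk (B (u n))
  have hB'm : ∀ n, Measurable (B' n) := fun n => (hB.aemeasurable (u n)).measurable_mk
  have hgood : ∀ᵐ ω ∂P, Continuous (B · ω) ∧ B 0 ω = 0 ∧ ∀ n, B (u n) ω = B' n ω := by
    have h1 : ∀ᵐ ω ∂P, ∀ n, B (u n) ω = B' n ω :=
      ae_all_iff.2 fun n => (hB.aemeasurable (u n)).ae_eq_mk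
    filter_upwards [hB.cont, hB.eval_zero_ae_eq_zero, h1] with ω a b c using ⟨a, b, c⟩
  obtain ⟨N, hN, hNm, hN0⟩ := exists_measurable_superset_of_null (ae_iff.1 hgood)
  have hgoodN : ∀ ω, ω ∉ N → Continuous (B · ω) ∧ B 0 ω = 0 ∧ ∀ n, B (u n) ω = B' n ω := by
    intro ω hω
    by_contra hcon
    exact hω (hN hcon)
  let X : ℝ≥0 → Ω → ℝ := fun t => Nᶜ.indicator (B t)
  have hXB : ∀ᵐ ω ∂P, ∀ t, X t ω = B t ω := by
    have : ∀ᵐ ω ∂P, ω ∉ N := by
      rw [ae_iff]; simpa using hN0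
    filter_upwards [this] with ω hω t
    exact Set.indicator_of_mem (show ω ∈ Nᶜ from hω) _
  have hcont : ∀ ω, Continuous (X · ω) := by
    intro ω
    by_cases hω : ω ∈ N
    · have : (X · ω) = fun _ => (0 : ℝ) := by
        funext t
        exact Set.indicator_of_notMem (Set.notMem_compl_iff.2 hω) _
      rw [this]; exact continuous_const
    · have : (X · ω) = (B · ω) := by
        funext t
        exact Set.indicator_of_mem (show ω ∈ Nᶜ from hω) _
      rw [this]; exact (hgoodN ω hω).1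
  refine ⟨X, ?_, hcont, ?_, hXB, ?_⟩
  · intro t
    have hmem : t ∈ closure (Set.range u) := hu t
    obtain ⟨v, hv, hvt⟩ := mem_closure_iff_seq_limit.1 hmem
    choose n hn using hv
    refine measurable_of_tendsto_metrizable (f := fun k => Nᶜ.indicator (B' (n k)))
      (fun k => (hB'm (n k)).indicator hNm.compl) ?_
    rw [tendsto_pi_nhds]
    intro ω
    by_cases hω : ω ∈ N
    · have h1 : X t ω = 0 := Set.indicator_of_notMem (Set.notMem_compl_iff.2 hω) _
      have h2 : (fun k => Nᶜ.indicator (B' (n k)) ω) = fun _ => (0 : ℝ) := by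
        funext k
        exact Set.indicator_of_notMem (Set.notMem_compl_iff.2 hω) _
      rw [h1, h2]; exact tendsto_const_nhds
    · have h2 : (fun k => Nᶜ.indicator (B' (n k)) ω) = fun k => X (v k) ω := by
        funext k
        rw [Set.indicator_of_mem (show ω ∈ Nᶜ from hω), ← (hgoodN ω hω).2.2 (n k), hn k]
        exact (Set.indicator_of_mem (show ω ∈ Nᶜ from hω) _).symm
      rw [h2]
      exact ((hcont ω).tendsto t).comp hvt
  · intro ω
    by_cases hω : ω ∈ N
    · exact Set.indicator_of_notMem (Set.notMem_compl_iff.2 hω) _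
    · exact (Set.indicator_of_mem (show ω ∈ Nᶜ from hω) _).trans (hgoodN ω hω).2.1
  · refine ⟨hB.toIsPreBrownianReal.congr fun t => ?_, Eventually.of_forall hcont⟩
    filter_upwards [hXB] with ω hω using (hω t).symm

/-- The shifted and rescaled process. -/
noncomputable def ss (X : ℝ≥0 → Ω → ℝ) (s l : ℝ≥0) : ℝ≥0 → Ω → ℝ :=
  fun u ω => (l : ℝ)⁻¹ * (X (s + l ^ 2 * u) ω - X s ω)

theorem ss_isPre {X : ℝ≥0 → Ω → ℝ} (hX : IsPreBrownianReal X P) (s : ℝ≥0) {l : ℝ≥0}
    (hl : l ≠ 0) : IsPreBrownianReal (ss X s l) P := by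
  have h := (hX.shift s).smul (c := l ^ 2) (pow_ne_zero 2 hl)
  have e : (fun t ω ↦ (√((l ^ 2 : ℝ≥0) : ℝ))⁻¹ * (X (s + l ^ 2 * t) ω - X s ω)) = ss X s l := by
    funext t ω
    unfold ss
    rw [NNReal.coe_pow, Real.sqrt_sq l.coe_nonneg]
  rwa [e] at h

theorem ss_isBrownian {X : ℝ≥0 → Ω → ℝ} (hX : IsBrownianReal X P) (s : ℝ≥0) {l : ℝ≥0}
    (hl : l ≠ 0) : IsBrownianReal (ss X s l) P where
  toIsPreBrownianReal := ss_isPre hX.toIsPreBrownianReal s hl
  cont := by
    filter_upwards [hX.cont] with ω h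
    unfold ss
    fun_prop

theorem ss_measurable {X : ℝ≥0 → Ω → ℝ} (hm : ∀ t, Measurable (X t)) (s l u : ℝ≥0) :
    Measurable (ss X s l u) :=
  ((hm _).sub (hm _)).const_mul _

/-- The path of a process. -/
def path (X : ℝ≥0 → Ω → ℝ) : Ω → ℝ≥0 → ℝ := fun ω t => X t ω

theorem path_measurable {X : ℝ≥0 → Ω → ℝ} (hm : ∀ t, Measurable (X t)) : Measurable (path X) :=
  measurable_pi_lambda _ hm

/-- The law of a pre-Brownian motion on the path space is unique. -/
theorem law_eq {Ω' : Type*} {mΩ' : MeasurableSpace Ω'} {P' : Measure Ω'}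
    {X : ℝ≥0 → Ω → ℝ} {Y : ℝ≥0 → Ω' → ℝ} (hX : IsPreBrownianReal X P)
    (hY : IsPreBrownianReal Y P') (hmX : ∀ t, Measurable (X t)) (hmY : ∀ t, Measurable (Y t)) :
    P.map (path X) = P'.map (path Y) := by
  have := hX.isGaussianProcess.isProbabilityMeasure
  have := hY.isGaussianProcess.isProbabilityMeasure
  have h1 := isProjectiveLimit_map (X := X) (P := P) (path_measurable hmX).aemeasurable
  have h2 := isProjectiveLimit_map (X := Y) (P := P') (path_measurable hmY).aemeasurable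
  have e1 : (fun I : Finset ℝ≥0 ↦ P.map (fun ω ↦ I.restrict (X · ω))) =
      BrownianReal.projectiveFamily := by
    funext I; exact (hX.hasLaw I).map_eq
  have e2 : (fun I : Finset ℝ≥0 ↦ P'.map (fun ω ↦ I.restrict (Y · ω))) =
      BrownianReal.projectiveFamily := by
    funext I; exact (hY.hasLaw I).map_eq
  rw [e1] at h1
  rw [e2] at h2
  exact h1.unique h2

/-- Truncation at time `1`. -/
def tr (x : ℝ≥0 → ℝ) : ℝ≥0 → ℝ := fun u => x (min u 1)

theorem tr_measurable : Measurable tr :=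
  measurable_pi_lambda _ fun _ => measurable_pi_apply _

/-- The event that the piece of path at `[s, s + l²]`, rescaled to `[0,1]`, is in `E`. -/
def ev (X : ℝ≥0 → Ω → ℝ) (E : Set (ℝ≥0 → ℝ)) (s l : ℝ≥0) : Set Ω :=
  {ω | tr (path (ss X s l) ω) ∈ E}

theorem ev_measurable {X : ℝ≥0 → Ω → ℝ} (hm : ∀ t, Measurable (X t)) {E : Set (ℝ≥0 → ℝ)}
    (hE : MeasurableSet E) (s l : ℝ≥0) : MeasurableSet (ev X E s l) :=
  (tr_measurable.comp (path_measurable (ss_measurable hm s l))) hE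

/-- The probability of the event is the same for all pre-Brownian motions, starting times and
scales. -/
theorem ev_prob {Ω' : Type*} {mΩ' : MeasurableSpace Ω'} {P' : Measure Ω'}
    {X : ℝ≥0 → Ω → ℝ} {Y : ℝ≥0 → Ω' → ℝ} (hX : IsPreBrownianReal X P)
    (hY : IsPreBrownianReal Y P') (hmX : ∀ t, Measurable (X t)) (hmY : ∀ t, Measurable (Y t))
    {E : Set (ℝ≥0 → ℝ)} (hE : MeasurableSet E) (s : ℝ≥0) {l : ℝ≥0} (hl : l ≠ 0) :
    P (ev X E s l) = P' {ω | tr (path Y ω) ∈ E} := by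
  have h := law_eq (ss_isPre hX s hl) hY (ss_measurable hmX s l) hmY
  have h1 : P (ev X E s l) = (P.map (path (ss X s l))) (tr ⁻¹' E) := by
    rw [Measure.map_apply (path_measurable (ss_measurable hmX s l)) (tr_measurable hE)]
    rfl
  have h2 : P' {ω | tr (path Y ω) ∈ E} = (P'.map (path Y)) (tr ⁻¹' E) := by
    rw [Measure.map_apply (path_measurable hmY) (tr_measurable hE)]
    rfl
  rw [h1, h2, h]

/-- The avoidance event of finitely many pieces. -/
def avoid (X : ℝ≥0 → Ω → ℝ) (E : Set (ℝ≥0 → ℝ)) (s l : ℕ → ℝ≥0) (n : ℕ) : Set Ω :=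
  ⋂ j ∈ Finset.range n, (ev X E (s j) (l j))ᶜ

theorem avoid_prob {X : ℝ≥0 → Ω → ℝ} (hX : IsPreBrownianReal X P)
    (hm : ∀ t, Measurable (X t)) {E : Set (ℝ≥0 → ℝ)} (hE : MeasurableSet E)
    {s l : ℕ → ℝ≥0} (hl : ∀ n, l n ≠ 0) (hsl : ∀ n, s n + l n ^ 2 ≤ s (n + 1)) (n : ℕ) :
    P (avoid X E s l n) = (1 - P {ω | tr (path X ω) ∈ E}) ^ n := by
  have hprob := hX.isGaussianProcess.isProbabilityMeasure
  induction n with
  | zero => simp [avoid]
  | succ n ih =>
    have hsplit : avoid X E s l (n + 1) = (ev X E (s n) (l n))ᶜ ∩ avoid X E s l n := by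
      unfold avoid
      ext ω
      simp only [Set.mem_iInter, Finset.mem_range, Set.mem_inter_iff]
      constructor
      · intro h
        exact ⟨h n (Nat.lt_succ_self n), fun j hj => h j (Nat.lt_succ_of_lt hj)⟩
      · rintro ⟨h1, h2⟩ j hj
        rcases Nat.lt_succ_iff_lt_or_eq.1 hj with h | h
        · exact h2 j h
        · rw [h]; exact h1
    have hmono : Monotone s := monotone_nat_of_le_succ fun n => le_trans le_self_add (hsl n)
    have hbefore : ∀ j < n, s j + l j ^ 2 ≤ s n := fun j hj =>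
      (hsl j).trans (hmono (Nat.succ_le_of_lt hj))
    -- the independence
    have hind := hX.indepFun_shift (s n)
    -- the event as function of the future
    let F : (ℝ≥0 → ℝ) → (ℝ≥0 → ℝ) := fun y => tr fun u => (l n : ℝ)⁻¹ * y (l n ^ 2 * u)
    have hF : Measurable F := by
      refine tr_measurable.comp (measurable_pi_lambda _ fun u => ?_)
      exact (measurable_pi_apply _).const_mul _
    have hfut : (ev X E (s n) (l n))ᶜ =
        (fun ω t => X (s n + t) ω - X (s n) ω) ⁻¹' (F ⁻¹' Eᶜ) := rfl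
    -- the events before as function of the past
    let G : ℕ → (Set.Iic (s n) → ℝ) → (ℝ≥0 → ℝ) := fun j y =>
      if hj : s j + l j ^ 2 ≤ s n then
        (fun u => (l j : ℝ)⁻¹ * (y ⟨s j + l j ^ 2 * min u 1, (by
            refine le_trans ?_ hj
            gcongr
            exact mul_le_of_le_one_right (by positivity) (min_le_right _ _))⟩ -
          y ⟨s j, le_trans le_self_add hj⟩))
      else fun _ => 0
    have hG : ∀ j, Measurable (G j) := by
      intro j
      by_cases hj : s j + l j ^ 2 ≤ s n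
      · simp only [G, hj, dite_true]
        refine measurable_pi_lambda _ fun u => ?_
        fun_prop
      · simp only [G, hj, dite_false]
        exact measurable_const
    have hpast : avoid X E s l n =
        (fun ω (t : Set.Iic (s n)) => X t ω) ⁻¹' (⋂ j ∈ Finset.range n, (G j) ⁻¹' Eᶜ) := by
      unfold avoid
      ext ω
      simp only [Set.mem_iInter, Finset.mem_range, Set.mem_preimage]
      refine forall_congr' fun j => forall_congr' fun hj => ?_
      have hj' := hbefore j hj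
      have : G j (fun t : Set.Iic (s n) => X t ω) = tr (path (ss X (s j) (l j)) ω) := by
        simp only [G, hj', dite_true]
        rfl
      rw [this]
      rfl
    have hmul := hind.measure_inter_preimage_eq_mul (F ⁻¹' Eᶜ)
      (⋂ j ∈ Finset.range n, (G j) ⁻¹' Eᶜ) (hF hE.compl)
      (Finset.measurableSet_biInter _ fun j _ => hG j hE.compl)
    rw [← hfut, ← hpast] at hmul
    rw [hsplit, hmul, ih, prob_compl_eq_one_sub (ev_measurable hm hE _ _),
      ev_prob hX hX hm hm hE (s n) (hl n), pow_succ, mul_comm]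

/-- **Second Borel-Cantelli** over disjoint time intervals. -/
theorem ae_exists_of_seq {X : ℝ≥0 → Ω → ℝ} (hX : IsPreBrownianReal X P)
    (hm : ∀ t, Measurable (X t)) {E : Set (ℝ≥0 → ℝ)} (hE : MeasurableSet E)
    (hp : P {ω | tr (path X ω) ∈ E} ≠ 0)
    {s l : ℕ → ℝ≥0} (hl : ∀ n, l n ≠ 0) (hsl : ∀ n, s n + l n ^ 2 ≤ s (n + 1)) :
    ∀ᵐ ω ∂P, ∃ n, ω ∈ ev X E (s n) (l n) := by
  have hprob := hX.isGaussianProcess.isProbabilityMeasure
  rw [ae_iff]
  set p := P {ω | tr (path X ω) ∈ E} with hpdef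
  have hlt : 1 - p < 1 := ENNReal.sub_lt_self ENNReal.one_ne_top one_ne_zero hp
  have hlim : Tendsto (fun n : ℕ => (1 - p) ^ n) atTop (𝓝 0) :=
    ENNReal.tendsto_pow_atTop_nhds_zero_of_lt_one hlt
  refine le_antisymm (ge_of_tendsto' hlim fun n => ?_) zero_le
  rw [hpdef, ← avoid_prob hX hm hE hl hsl n]
  refine measure_mono fun ω hω => ?_
  simp only [Set.mem_ofPred_eq, not_exists] at hω
  simp only [avoid, Set.mem_iInter]
  exact fun j _ => hω j

/-- Infinitely often version. -/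
theorem ae_frequently_of_seq {X : ℝ≥0 → Ω → ℝ} (hX : IsPreBrownianReal X P)
    (hm : ∀ t, Measurable (X t)) {E : Set (ℝ≥0 → ℝ)} (hE : MeasurableSet E)
    (hp : P {ω | tr (path X ω) ∈ E} ≠ 0)
    {s l : ℕ → ℝ≥0} (hl : ∀ n, l n ≠ 0) (hsl : ∀ n, s n + l n ^ 2 ≤ s (n + 1)) :
    ∀ᵐ ω ∂P, ∀ N, ∃ n, N ≤ n ∧ ω ∈ ev X E (s n) (l n) := by
  rw [ae_all_iff]
  intro N
  have h := ae_exists_of_seq hX hm hE hp (s := fun n => s (N + n)) (l := fun n => l (N + n))
    (fun n => hl _) (fun n => hsl _)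
  filter_upwards [h] with ω ⟨n, hn⟩
  exact ⟨N + n, le_self_add, hn⟩

/-- starting times accumulating at `b` -/
noncomputable def sSeq (a b : ℝ≥0) (k : ℕ) : ℝ≥0 := a + (b - a) * (1 - (1 / 4) ^ k)

/-- scales -/
noncomputable def lSeq (a b : ℝ≥0) (k : ℕ) : ℝ≥0 := (1 / 2) ^ k * (min 1 (b - a) / 2)

theorem lSeq_ne {a b : ℝ≥0} (h : a < b) (k : ℕ) : lSeq a b k ≠ 0 := by
  unfold lSeq
  have : 0 < b - a := tsub_pos_of_lt h
  have h2 : 0 < min 1 (b - a) := lt_min one_pos this
  positivity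

theorem le_sSeq (a b : ℝ≥0) (k : ℕ) : a ≤ sSeq a b k := le_self_add

theorem sSeq_succ {a b : ℝ≥0} (h : a < b) (k : ℕ) :
    sSeq a b k + lSeq a b k ^ 2 ≤ sSeq a b (k + 1) := by
  have hd : 0 < b - a := tsub_pos_of_lt h
  have hk1 : ((1 : ℝ≥0) / 4) ^ k ≤ 1 := pow_le_one₀ (by positivity) (by
    rw [div_le_one (by norm_num)]; norm_num)
  have hk2 : ((1 : ℝ≥0) / 4) ^ (k + 1) ≤ 1 := pow_le_one₀ (by positivity) (by
    rw [div_le_one (by norm_num)]; norm_num)
  rw [← NNReal.coe_le_coe]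
  unfold sSeq lSeq
  set D := b - a with hD
  have hm0 : (0 : ℝ) < ((min 1 D : ℝ≥0) : ℝ) := NNReal.coe_pos.2 (lt_min one_pos hd)
  have hm1 : ((min 1 D : ℝ≥0) : ℝ) ≤ 1 := by
    have : min 1 D ≤ 1 := min_le_left _ _
    exact_mod_cast this
  have hm2 : ((min 1 D : ℝ≥0) : ℝ) ≤ D := by
    have : min 1 D ≤ D := min_le_right _ _
    exact_mod_cast this
  have hD0 : (0 : ℝ) < D := NNReal.coe_pos.2 hd
  push_cast [NNReal.coe_sub hk1, NNReal.coe_sub hk2]
  have e1 : ((1 / 2 : ℝ) ^ k * (((min 1 D : ℝ≥0) : ℝ) / 2)) ^ 2 =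
      (1 / 4 : ℝ) ^ k * (((min 1 D : ℝ≥0) : ℝ) ^ 2 / 4) := by
    rw [mul_pow, ← pow_mul, mul_comm k 2, pow_mul]
    norm_num
    ring
  have e1' := e1
  push_cast at e1'
  rw [e1']
  have hpos : (0 : ℝ) < (1 / 4 : ℝ) ^ k := by positivity
  have hsq : ((min 1 D : ℝ≥0) : ℝ) ^ 2 ≤ D := by nlinarith
  push_cast at hsq
  have h4 : (1 / 4 : ℝ) ^ k * ((min 1 (D : ℝ)) ^ 2 / 4) ≤ (1 / 4 : ℝ) ^ k * (D / 4) := by
    gcongr
  rw [pow_succ (1 / 4 : ℝ) k]
  have h5 : 0 < (1 / 4 : ℝ) ^ k * (D : ℝ) := by positivity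
  have h6 : (D : ℝ) * (1 - (1 / 4 : ℝ) ^ k * (1 / 4)) - (D : ℝ) * (1 - (1 / 4 : ℝ) ^ k) =
      3 / 4 * ((1 / 4 : ℝ) ^ k * (D : ℝ)) := by ring
  linarith

theorem sSeq_add_le {a b : ℝ≥0} (h : a < b) (k : ℕ) :
    sSeq a b k + lSeq a b k ^ 2 ≤ b := by
  refine (sSeq_succ h k).trans ?_
  unfold sSeq
  calc a + (b - a) * (1 - (1 / 4) ^ (k + 1)) ≤ a + (b - a) * 1 := by
        gcongr
        exact tsub_le_self
    _ = b := by rw [mul_one, add_tsub_cancel_of_le h.le]

theorem lSeq_le (a b : ℝ≥0) (k : ℕ) : lSeq a b k ≤ (1 / 2) ^ k := by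
  unfold lSeq
  have h1 : min 1 (b - a) / 2 ≤ 1 := by
    rw [div_le_one (by norm_num)]
    exact (min_le_left _ _).trans (by norm_num)
  calc (1 / 2) ^ k * (min 1 (b - a) / 2) ≤ (1 / 2 : ℝ≥0) ^ k * 1 := by gcongr
    _ = _ := mul_one _

/-- **Brownian endgame.** Let `Q ω s t` be an interval property which is monotone in the interval
(almost surely). If there is a measurable set `E` of paths which has positive probability for the
Brownian path stopped at time `1` and such that for all fixed `0 < s` and `0 < l` (`l` small)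
`Q ω s (s + l²)` holds a.s. on the event that the path on `[s, s + l²]`, rescaled, is in `E`, then
a.s. `Q ω s t` holds for all `s < t`. -/
theorem ae_forall_interval {X : ℝ≥0 → Ω → ℝ} (hX : IsPreBrownianReal X P)
    (hm : ∀ t, Measurable (X t)) {E : Set (ℝ≥0 → ℝ)} (hE : MeasurableSet E)
    (hp : P {ω | tr (path X ω) ∈ E} ≠ 0) (l₀ : ℝ≥0) (hl₀ : 0 < l₀)
    (Q : Ω → ℝ≥0 → ℝ≥0 → Prop)
    (hmono : ∀ᵐ ω ∂P, ∀ s t s' t', s ≤ s' → s' < t' → t' ≤ t → Q ω s' t' → Q ω s t)
    (hgood : ∀ s l : ℝ≥0, 0 < s → 0 < l → l < l₀ →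
      ∀ᵐ ω ∂P, ω ∈ ev X E s l → Q ω s (s + l ^ 2)) :
    ∀ᵐ ω ∂P, ∀ s t, s < t → Q ω s t := by
  -- rational endpoints
  have key : ∀ a b : ℝ≥0, 0 < a → a < b → ∀ᵐ ω ∂P, Q ω a b := by
    intro a b ha hab
    have h1 := ae_frequently_of_seq hX hm hE hp (s := sSeq a b) (l := lSeq a b)
      (lSeq_ne hab) (sSeq_succ hab)
    have h2 : ∀ᵐ ω ∂P, ∀ k, lSeq a b k < l₀ → ω ∈ ev X E (sSeq a b k) (lSeq a b k) →
        Q ω (sSeq a b k) (sSeq a b k + lSeq a b k ^ 2) := by
      rw [ae_all_iff]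
      intro k
      by_cases hk : lSeq a b k < l₀
      · filter_upwards [hgood (sSeq a b k) (lSeq a b k) (lt_of_lt_of_le ha (le_sSeq a b k))
          (pos_iff_ne_zero.2 (lSeq_ne hab k)) hk] with ω hω _ using hω
      · exact Eventually.of_forall fun ω h => absurd h hk
    obtain ⟨N, hN⟩ : ∃ N : ℕ, (1 / 2 : ℝ≥0) ^ N < l₀ :=
      exists_pow_lt_of_lt_one hl₀ (by
        rw [div_lt_one (by norm_num)]; norm_num)
    filter_upwards [h1, h2, hmono] with ω h1 h2 hmono
    obtain ⟨n, hn, hev⟩ := h1 N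
    have hln : lSeq a b n < l₀ := by
      refine lt_of_le_of_lt (lSeq_le a b n) (lt_of_le_of_lt ?_ hN)
      exact pow_le_pow_of_le_one (by positivity) (by
        rw [div_le_one (by norm_num)]; norm_num) hn
    refine hmono a b _ _ (le_sSeq a b n) ?_ (sSeq_add_le hab n) (h2 n hln hev)
    exact lt_add_of_pos_right _ (pow_pos (pos_iff_ne_zero.2 (lSeq_ne hab n)) 2)
  have hall : ∀ᵐ ω ∂P, ∀ q : ℚ × ℚ, 0 < Real.toNNReal q.1 →
      Real.toNNReal q.1 < Real.toNNReal q.2 →
      Q ω (Real.toNNReal q.1) (Real.toNNReal q.2) := by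
    rw [ae_all_iff]
    intro q
    by_cases h0 : 0 < Real.toNNReal q.1
    · by_cases h1 : Real.toNNReal q.1 < Real.toNNReal q.2
      · filter_upwards [key _ _ h0 h1] with ω hω _ _ using hω
      · exact Eventually.of_forall fun ω _ h => absurd h h1
    · exact Eventually.of_forall fun ω h => absurd h h0
  filter_upwards [hall, hmono] with ω hω hmono s t hst
  obtain ⟨q1, h1, h1'⟩ := exists_rat_btwn (NNReal.coe_lt_coe.2 hst)
  obtain ⟨q2, h2, h2'⟩ := exists_rat_btwn h1'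
  have hq1 : (0 : ℝ) < q1 := lt_of_le_of_lt s.coe_nonneg h1
  have hq2 : (0 : ℝ) < q2 := hq1.trans h2
  have e1 : s ≤ Real.toNNReal (q1 : ℝ) := by
    rw [← NNReal.coe_le_coe, Real.coe_toNNReal _ hq1.le]; exact h1.le
  have e2 : Real.toNNReal (q2 : ℝ) ≤ t := by
    rw [← NNReal.coe_le_coe, Real.coe_toNNReal _ hq2.le]; exact h2'.le
  have e3 : Real.toNNReal (q1 : ℝ) < Real.toNNReal (q2 : ℝ) := by
    rw [Real.toNNReal_lt_toNNReal_iff hq2]; exact h2
  exact hmono s t _ _ e1 e3 e2 (hω (q1, q2) (Real.toNNReal_pos.2 hq1) e3)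

end Crest.Agent.R162.BE
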