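import Crest.Prelude.Def_Loewner
import Crest.Agent.R162.BE

/-!
Row 162, node BE4 (Brownian endgame of the lower bound: glue with `gaugeMeasure`), helper482.
-/

set_option autoImplicit false

open MeasureTheory ProbabilityTheory Filter Set
open Crest.ProbabilityR.Loewner
open scoped ENNReal NNReal Topology

namespace Crest.Agent.R162.BE

variable {Ω : Type*} {mΩ : MeasurableSpace Ω} {P : Measure Ω}

/-- Positivity of the gauge measure of all segments from positivity on a good event (a measurable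
set `E` of paths on `[0,1]` of positive probability) at each fixed small scale. -/
theorem gauge_pos_all {κ : ℝ} {X : ℝ≥0 → Ω → ℝ} (hX : IsPreBrownianReal X P)
    (hm : ∀ t, Measurable (X t)) {E : Set (ℝ≥0 → ℝ)} (hE : MeasurableSet E)
    (hp : P {ω | tr (path X ω) ∈ E} ≠ 0) (l₀ : ℝ≥0) (hl₀ : 0 < l₀) (γ : Ω → ℝ → ℂ)
    (hgood : ∀ s l : ℝ≥0, 0 < s → 0 < l → l < l₀ →
      ∀ᵐ ω ∂P, ω ∈ ev X E s l → 0 < gaugeMeasure κ (γ ω '' Set.Icc (s : ℝ) (s + l ^ 2))) :
    ∀ᵐ ω ∂P, ∀ s t : ℝ, 0 < s → s < t → 0 < gaugeMeasure κ (γ ω '' Set.Icc s t) := by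
  have h := ae_forall_interval hX hm hE hp l₀ hl₀
    (fun ω s t => 0 < gaugeMeasure κ (γ ω '' Set.Icc (s : ℝ) t))
    (Eventually.of_forall fun ω s t s' t' hs _ ht h => by
      refine lt_of_lt_of_le h (measure_mono (Set.image_mono (Set.Icc_subset_Icc ?_ ?_)))
      · exact_mod_cast hs
      · exact_mod_cast ht)
    (fun s l hs hl hll => by
      filter_upwards [hgood s l hs hl hll] with ω hω hev
      have := hω hev
      push_cast
      exact this)
  filter_upwards [h] with ω hω s t hs hst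
  have := hω (Real.toNNReal s) (Real.toNNReal t) ((Real.toNNReal_lt_toNNReal_iff (hs.trans hst)).2 hst)
  rwa [Real.coe_toNNReal _ hs.le, Real.coe_toNNReal _ (hs.trans hst).le] at this

/-- The same for a Brownian motion `B` (no measurability assumption), with the good event given
for one (or all) path-continuous measurable version(s) `X`. -/
theorem gauge_pos_all' {κ : ℝ} {B : ℝ≥0 → Ω → ℝ} (hB : IsBrownianReal B P)
    {E : Set (ℝ≥0 → ℝ)} (hE : MeasurableSet E)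
    (hp : ∀ X : ℝ≥0 → Ω → ℝ, IsBrownianReal X P → (∀ t, Measurable (X t)) →
      (∀ ω, Continuous (X · ω)) → (∀ ω, X 0 ω = 0) → P {ω | tr (path X ω) ∈ E} ≠ 0)
    (l₀ : ℝ≥0) (hl₀ : 0 < l₀) (γ : Ω → ℝ → ℂ)
    (hgood : ∀ X : ℝ≥0 → Ω → ℝ, IsBrownianReal X P → (∀ t, Measurable (X t)) →
      (∀ ω, Continuous (X · ω)) → (∀ ω, X 0 ω = 0) → (∀ᵐ ω ∂P, ∀ t, X t ω = B t ω) →
      ∀ s l : ℝ≥0, 0 < s → 0 < l → l < l₀ →
      ∀ᵐ ω ∂P, ω ∈ ev X E s l → 0 < gaugeMeasure κ (γ ω '' Set.Icc (s : ℝ) (s + l ^ 2))) :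
    ∀ᵐ ω ∂P, ∀ s t : ℝ, 0 < s → s < t → 0 < gaugeMeasure κ (γ ω '' Set.Icc s t) := by
  obtain ⟨X, hXm, hXc, hX0, hXB, hXb⟩ := exists_version hB
  exact gauge_pos_all hXb.toIsPreBrownianReal hXm hE (hp X hXb hXm hXc hX0) l₀ hl₀ γ
    (hgood X hXb hXm hXc hX0 hXB)

end Crest.Agent.R162.BE
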