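import Mathlib

/-!
Row 162 (S0243), node FL: definitions of the (deterministic) chordal Loewner flow.
-/

set_option autoImplicit false

open Set

namespace Crest.Agent.R162.FL

/-- `g` solves Loewner's equation from `z` on `[0,t]`, staying in the half-plane. -/
structure IsFlow (W : ℝ → ℝ) (z : ℂ) (t : ℝ) (g : ℝ → ℂ) : Prop where
  init : g 0 = z
  im_pos : ∀ s ∈ Set.Icc 0 t, 0 < (g s).im
  deriv : ∀ s ∈ Set.Icc 0 t, HasDerivWithinAt g (2 / (g s - W s)) (Set.Icc 0 t) s

/-- the point `z` is still alive at time `t` -/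
def Alive (W : ℝ → ℝ) (z : ℂ) (t : ℝ) : Prop := 0 ≤ t ∧ ∃ g, IsFlow W z t g

/-- the domain of the flow at time `t` -/
def Dom (W : ℝ → ℝ) (t : ℝ) : Set ℂ := {z | Alive W z t}

open Classical in
/-- the Loewner flow -/
noncomputable def gfl (W : ℝ → ℝ) (t : ℝ) (z : ℂ) : ℂ :=
  if h : Alive W z t then h.2.choose t else 0

/-- the centred Loewner flow -/
noncomputable def Zfl (W : ℝ → ℝ) (t : ℝ) (z : ℂ) : ℂ := gfl W t z - W t

/-- the driving function after time `s` -/
def shift (W : ℝ → ℝ) (s : ℝ) : ℝ → ℝ := fun u => W (s + u) - W s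

/-- the scaled driving function -/
noncomputable def scl (l : ℝ) (W : ℝ → ℝ) : ℝ → ℝ := fun t => l⁻¹ * W (l ^ 2 * t)

end Crest.Agent.R162.FL
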