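import Mathlib
import Crest.Agent.R162.FLDef

/-!
Row 162 (S0243): frozen common definitions of one-point functionals of the Loewner flow
(used by the nodes OP, U*, LB*).  `W` is the driving function, `t ≥ 0` the time, `z` the point.
For a dead point `gfl W t z = 0`, so `ups = 0`, `sfl = 0` and `gr = 0`.
-/

set_option autoImplicit false

open Set

namespace Crest.Agent.R162.OP

open Crest.Agent.R162.FL

/-- conformal radius process `Υ_t(z) = Im g_t(z) / |g_t'(z)|` (exponential form) -/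
noncomputable def ups (W : ℝ → ℝ) (t : ℝ) (z : ℂ) : ℝ :=
  (gfl W t z).im * Real.exp (∫ s in (0 : ℝ)..t, 2 * (((Zfl W s z) ^ 2)⁻¹).re)

/-- the `K`-time `a_t(z) = ∫_0^t |Z_s|^{-2} ds` -/
noncomputable def ath (W : ℝ → ℝ) (t : ℝ) (z : ℂ) : ℝ :=
  ∫ s in (0 : ℝ)..t, 1 / ‖Zfl W s z‖ ^ 2

/-- `S_t(z) = sin Θ_t = Im Z_t / |Z_t|` -/
noncomputable def sfl (W : ℝ → ℝ) (t : ℝ) (z : ℂ) : ℝ :=
  (Zfl W t z).im / ‖Zfl W t z‖

/-- `x_t(z) = log tan (Θ_t / 2)`, i.e. `sinh x = - Re Z / Im Z`, `cosh x = 1 / S` -/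
noncomputable def xfl (W : ℝ → ℝ) (t : ℝ) (z : ℂ) : ℝ :=
  Real.arsinh (-(Zfl W t z).re / (Zfl W t z).im)

/-- SLE Green's function process `G_t(z) = Υ^{d-2} S^b`, `d - 2 = κ/8 - 1`, `b = 8/κ - 1` -/
noncomputable def gr (κ : ℝ) (W : ℝ → ℝ) (t : ℝ) (z : ℂ) : ℝ :=
  ups W t z ^ (κ / 8 - 1) * sfl W t z ^ (8 / κ - 1)

/-- `w` is alive at some time `t ≥ 0` with `Υ_t(w) ≤ r` (the event `τ_r(w) < ∞`) -/
def Reach (W : ℝ → ℝ) (w : ℂ) (r : ℝ) : Prop :=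
  ∃ t, 0 ≤ t ∧ Alive W w t ∧ ups W t w ≤ r

end Crest.Agent.R162.OP
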