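import Mathlib
import Crest.Agent.R162.FLDef

/-!
Row 162 (S0243), node FL: the truncated Loewner field, global existence, Gronwall comparison.
-/

set_option autoImplicit false

open Set Metric
open scoped NNReal

namespace Crest.Agent.R162.FL

/-- truncation of the imaginary part from below -/
noncomputable def tr (δ : ℝ) (x : ℂ) : ℂ := ⟨x.re, max x.im δ⟩

/-- truncated Loewner field -/
noncomputable def vf (U : ℝ → ℝ) (δ : ℝ) (s : ℝ) (x : ℂ) : ℂ := 2 / (tr δ x - U s)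

@[simp] lemma tr_im (δ : ℝ) (x : ℂ) : (tr δ x).im = max x.im δ := rfl
@[simp] lemma tr_re (δ : ℝ) (x : ℂ) : (tr δ x).re = x.re := rfl

lemma tr_of_le {δ : ℝ} {x : ℂ} (h : δ ≤ x.im) : tr δ x = x := by
  apply Complex.ext
  · rfl
  · simp [h]

lemma vf_of_le {U : ℝ → ℝ} {δ s : ℝ} {x : ℂ} (h : δ ≤ x.im) : vf U δ s x = 2 / (x - U s) := by
  rw [vf, tr_of_le h]

lemma le_norm_of_im {δ : ℝ} {x : ℂ} (u : ℝ) (h : δ ≤ x.im) : δ ≤ ‖x - u‖ := by
  have h1 := Complex.abs_im_le_norm (x - u)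
  simp only [Complex.sub_im, Complex.ofReal_im, sub_zero] at h1
  exact h.trans ((le_abs_self _).trans h1)

lemma le_norm_tr_sub (δ : ℝ) (x : ℂ) (u : ℝ) : δ ≤ ‖tr δ x - u‖ :=
  le_norm_of_im u (by simp)

lemma norm_tr_sub_tr_le (δ : ℝ) (x y : ℂ) : ‖tr δ x - tr δ y‖ ≤ ‖x - y‖ := by
  rw [Complex.norm_def, Complex.norm_def]
  apply Real.sqrt_le_sqrt
  rw [Complex.normSq_apply, Complex.normSq_apply]
  simp only [Complex.sub_re, tr_re, Complex.sub_im, tr_im]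
  have h := abs_max_sub_max_le_abs x.im y.im δ
  have h2 := sq_le_sq.2 h
  nlinarith

lemma lip_inv {δ : ℝ} (hδ : 0 < δ) {a b : ℂ} (ha : δ ≤ ‖a‖) (hb : δ ≤ ‖b‖) :
    ‖2 / a - 2 / b‖ ≤ 2 / δ ^ 2 * ‖a - b‖ := by
  have ha0 : a ≠ 0 := norm_pos_iff.1 (hδ.trans_le ha)
  have hb0 : b ≠ 0 := norm_pos_iff.1 (hδ.trans_le hb)
  have : 2 / a - 2 / b = 2 * (b - a) / (a * b) := by field_simp
  rw [this, norm_div, norm_mul, norm_mul, norm_sub_rev b a]
  have h2 : ‖(2:ℂ)‖ = 2 := by norm_num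
  rw [h2]
  rw [div_mul_eq_mul_div, div_le_div_iff₀ (by positivity) (by positivity)]
  have : δ ^ 2 ≤ ‖a‖ * ‖b‖ := by nlinarith
  nlinarith [norm_nonneg (a - b)]

/-- Lipschitz constant of the truncated field -/
noncomputable def KK (δ : ℝ) : ℝ≥0 := Real.toNNReal (2 / δ ^ 2)

lemma KK_coe (δ : ℝ) : (KK δ : ℝ) = 2 / δ ^ 2 := Real.coe_toNNReal _ (by positivity)

lemma norm_vf_sub_vf_le {δ : ℝ} (hδ : 0 < δ) (U V : ℝ → ℝ) (s : ℝ) (x y : ℂ) :
    ‖vf U δ s x - vf V δ s y‖ ≤ 2 / δ ^ 2 * (‖x - y‖ + |U s - V s|) := by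
  rw [vf, vf]
  refine (lip_inv hδ (le_norm_tr_sub _ _ _) (le_norm_tr_sub _ _ _)).trans ?_
  refine mul_le_mul_of_nonneg_left ?_ (by positivity)
  have h1 : tr δ x - ↑(U s) - (tr δ y - ↑(V s)) = (tr δ x - tr δ y) - ((U s - V s : ℝ) : ℂ) := by
    push_cast; ring
  rw [h1]
  refine (norm_sub_le _ _).trans ?_
  rw [Complex.norm_real, Real.norm_eq_abs]
  exact add_le_add (norm_tr_sub_tr_le _ _ _) le_rfl

lemma lipschitzWith_vf {δ : ℝ} (hδ : 0 < δ) (U : ℝ → ℝ) (s : ℝ) {c : ℂ} (hc : ‖c‖ ≤ 1) :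
    LipschitzWith (KK δ) (fun x => c * vf U δ s x) := by
  refine LipschitzWith.of_dist_le_mul fun x y => ?_
  rw [dist_eq_norm, dist_eq_norm, KK_coe, ← mul_sub, norm_mul]
  have h := norm_vf_sub_vf_le hδ U U s x y
  simp only [sub_self, abs_zero, add_zero] at h
  nlinarith [norm_nonneg (vf U δ s x - vf U δ s y), norm_nonneg c]

lemma norm_vf_le {δ : ℝ} (hδ : 0 < δ) (U : ℝ → ℝ) (s : ℝ) (x : ℂ) : ‖vf U δ s x‖ ≤ 2 / δ := by
  rw [vf, norm_div]
  have h2 : ‖(2:ℂ)‖ = 2 := by norm_num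
  rw [h2]
  exact div_le_div_of_nonneg_left (by norm_num) hδ (le_norm_tr_sub _ _ _)

/-- global existence for the truncated field -/
theorem exists_sol_trunc {U : ℝ → ℝ} {T : ℝ} (hT : 0 ≤ T) (hU : ContinuousOn U (Icc 0 T))
    {δ : ℝ} (hδ : 0 < δ) {c : ℂ} (hc : ‖c‖ ≤ 1) (z : ℂ) :
    ∃ g : ℝ → ℂ, g 0 = z ∧
      ∀ s ∈ Icc 0 T, HasDerivWithinAt g (c * vf U δ s (g s)) (Icc 0 T) s := by
  have hpl : IsPicardLindelof (fun s x => c * vf U δ s x) (tmin := 0) (tmax := T)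
      ⟨0, by simp [hT]⟩ z (Real.toNNReal (2 / δ * T)) 0 (Real.toNNReal (2 / δ)) (KK δ) := by
    constructor
    · intro t _
      exact (lipschitzWith_vf hδ U t hc).lipschitzOnWith
    · intro x _
      refine ContinuousOn.mul continuousOn_const ?_
      refine ContinuousOn.div continuousOn_const ?_ ?_
      · exact continuousOn_const.sub (Complex.continuous_ofReal.comp_continuousOn hU)
      · intro s _ h0
        have := le_norm_tr_sub δ x (U s)
        rw [h0, norm_zero] at this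
        linarith
    · intro t _ x _
      rw [norm_mul, Real.coe_toNNReal _ (by positivity)]
      have := norm_vf_le hδ U t x
      nlinarith [norm_nonneg c, norm_nonneg (vf U δ t x)]
    · rw [Real.coe_toNNReal _ (by positivity), Real.coe_toNNReal _ (by positivity)]
      simp [hT]
  obtain ⟨α, h0, hα⟩ := hpl.exists_eq_forall_mem_Icc_hasDerivWithinAt₀
  exact ⟨α, h0, hα⟩

lemma hasDerivWithinAt_Ici_of_Icc {g : ℝ → ℂ} {g' : ℂ} {T s : ℝ} (hs : s ∈ Ico 0 T)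
    (h : HasDerivWithinAt g g' (Icc 0 T) s) : HasDerivWithinAt g g' (Ici s) s := by
  refine (h.mono (Icc_subset_Icc hs.1 le_rfl)).mono_of_mem_nhdsWithin ?_
  exact Icc_mem_nhdsGE hs.2

/-- Gronwall comparison of two solutions of truncated equations -/
theorem gronwall_trunc {U V : ℝ → ℝ} {T : ℝ} {δ : ℝ} (hδ : 0 < δ) {c : ℂ} (hc : ‖c‖ ≤ 1)
    {g h : ℝ → ℂ} {η ε : ℝ}
    (hg : ∀ s ∈ Icc 0 T, HasDerivWithinAt g (c * vf U δ s (g s)) (Icc 0 T) s)
    (hh : ∀ s ∈ Icc 0 T, HasDerivWithinAt h (c * vf V δ s (h s)) (Icc 0 T) s)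
    (hUV : ∀ s ∈ Icc 0 T, |U s - V s| ≤ ε) (h0 : ‖g 0 - h 0‖ ≤ η) :
    ∀ s ∈ Icc 0 T, ‖g s - h s‖ ≤ (η + ε) * Real.exp (2 / δ ^ 2 * s) := by
  intro s hs
  have hT : 0 ≤ T := hs.1.trans hs.2
  have hε : 0 ≤ ε := (abs_nonneg _).trans (hUV 0 (by simp [hT]))
  have hgc : ContinuousOn g (Icc 0 T) := fun t ht => (hg t ht).continuousWithinAt
  have hhc : ContinuousOn h (Icc 0 T) := fun t ht => (hh t ht).continuousWithinAt
  have key := dist_le_of_approx_trajectories_ODE (v := fun s x => c * vf U δ s x) (K := KK δ)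
    (f := g) (g := h) (f' := fun s => c * vf U δ s (g s)) (g' := fun s => c * vf V δ s (h s))
    (a := 0) (b := T) (εf := 0) (εg := 2 / δ ^ 2 * ε) (δ := η)
    (fun t => lipschitzWith_vf hδ U t hc) hgc
    (fun t ht => hasDerivWithinAt_Ici_of_Icc ht (hg t (Ico_subset_Icc_self ht)))
    (fun t ht => by simp) hhc
    (fun t ht => hasDerivWithinAt_Ici_of_Icc ht (hh t (Ico_subset_Icc_self ht)))
    (fun t ht => by
      rw [dist_eq_norm, ← mul_sub, norm_mul]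
      have h1 := norm_vf_sub_vf_le hδ V U t (h t) (h t)
      rw [sub_self, norm_zero, zero_add, abs_sub_comm] at h1
      have h2 := hUV t (Ico_subset_Icc_self ht)
      have h3 : ‖vf V δ t (h t) - vf U δ t (h t)‖ ≤ 2 / δ ^ 2 * ε :=
        h1.trans (mul_le_mul_of_nonneg_left h2 (by positivity))
      nlinarith [norm_nonneg (vf V δ t (h t) - vf U δ t (h t)), norm_nonneg c])
    (by rw [dist_eq_norm]; exact h0) s hs
  rw [dist_eq_norm] at key
  refine key.trans ?_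
  rw [gronwallBound_of_K_ne_0 (by rw [KK_coe]; positivity)]
  simp only [KK_coe, sub_zero, zero_add]
  have h1 : 2 / δ ^ 2 * ε / (2 / δ ^ 2) = ε := by
    field_simp
  rw [h1]
  nlinarith [Real.exp_pos (2 / δ ^ 2 * s)]

end Crest.Agent.R162.FL
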