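import Mathlib
import Crest.Agent.R162.FL1

/-!
Row 162 (S0243), node FL-A, second part: difference formula, shift, scaling.
-/

set_option autoImplicit false

open Set Metric Topology
open scoped NNReal

namespace Crest.Agent.R162.FL

variable {W V : ℝ → ℝ} {z w : ℂ} {s t u δ : ℝ} {g h : ℝ → ℂ}

/-- derivative of the primitive of a function continuous on `[0,t]` -/
lemma hasDerivWithinAt_primitive {f : ℝ → ℂ} (hf : ContinuousOn f (Icc 0 t)) (hs : s ∈ Icc 0 t) :
    HasDerivWithinAt (fun r => ∫ u in (0 : ℝ)..r, f u) (f s) (Icc 0 t) s := by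
  have ht : (0 : ℝ) ≤ t := hs.1.trans hs.2
  set F : ℝ → ℂ := IccExtend ht ((Icc 0 t).domRestrict f) with hF
  have hFc : Continuous F := (continuousOn_iff_continuous_domRestrict.1 hf).Icc_extend'
  have hFe : ∀ r ∈ Icc 0 t, F r = f r := fun r hr => by
    rw [hF, IccExtend_of_mem ht _ hr]; rfl
  have h1 : HasDerivAt (fun r => ∫ u in (0 : ℝ)..r, F u) (F s) s :=
    intervalIntegral.integral_hasDerivAt_right (hFc.intervalIntegrable _ _)
      (hFc.stronglyMeasurableAtFilter _ _) hFc.continuousAt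
  rw [hFe s hs] at h1
  have he : ∀ r ∈ Icc 0 t, (∫ u in (0 : ℝ)..r, f u) = ∫ u in (0 : ℝ)..r, F u := by
    intro r hr
    refine intervalIntegral.integral_congr fun v hv => ?_
    rw [uIcc_of_le hr.1] at hv
    exact (hFe v ⟨hv.1, hv.2.trans hr.2⟩).symm
  exact h1.hasDerivWithinAt.congr he (he s hs)

lemma continuousOn_Zfl (hW : ContinuousOn W (Ici 0)) (h : Alive W z t) :
    ContinuousOn (fun r => Zfl W r z) (Icc 0 t) :=
  (continuousOn_gfl h).sub
    (Complex.continuous_ofReal.comp_continuousOn (hW.mono Icc_subset_Ici_self))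

lemma hasDerivWithinAt_gfl' (h : Alive W z t) (hs : s ∈ Icc 0 t) :
    HasDerivWithinAt (fun r => gfl W r z) (2 / Zfl W s z) (Icc 0 t) s :=
  hasDerivWithinAt_gfl h hs

/-- difference formula -/
theorem gfl_sub (hW : ContinuousOn W (Ici 0)) (hz : Alive W z t) (hw : Alive W w t) :
    gfl W t z - gfl W t w =
      (z - w) * Complex.exp (-∫ s in (0 : ℝ)..t, 2 / (Zfl W s z * Zfl W s w)) := by
  have ht := hz.1
  set f : ℝ → ℂ := fun s => 2 / (Zfl W s z * Zfl W s w) with hf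
  have hne : ∀ r ∈ Icc 0 t, Zfl W r z * Zfl W r w ≠ 0 := fun r hr =>
    mul_ne_zero (Zfl_ne_zero (hz.mono hr.1 hr.2)) (Zfl_ne_zero (hw.mono hr.1 hr.2))
  have hfc : ContinuousOn f (Icc 0 t) :=
    continuousOn_const.div ((continuousOn_Zfl hW hz).mul (continuousOn_Zfl hW hw)) hne
  set I : ℝ → ℂ := fun r => ∫ u in (0 : ℝ)..r, f u with hI
  have hId : ∀ r ∈ Icc 0 t, HasDerivWithinAt I (f r) (Icc 0 t) r := fun r hr =>
    hasDerivWithinAt_primitive hfc hr
  set φ : ℝ → ℂ := fun r => (gfl W r z - gfl W r w) * Complex.exp (I r) with hφ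
  have hφd : ∀ r ∈ Icc 0 t, HasDerivWithinAt φ 0 (Icc 0 t) r := by
    intro r hr
    have h1 := (hasDerivWithinAt_gfl' hz hr).sub (hasDerivWithinAt_gfl' hw hr)
    have h2 := (hId r hr).cexp
    refine (h1.mul h2).congr_deriv ?_
    have hz0 := Zfl_ne_zero (hz.mono hr.1 hr.2)
    have hw0 := Zfl_ne_zero (hw.mono hr.1 hr.2)
    have e : gfl W r z - gfl W r w = Zfl W r z - Zfl W r w := by simp [Zfl]
    simp only [Pi.sub_apply]
    rw [e, hf]
    field_simp
    ring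
  have hconst := constant_of_has_deriv_right_zero (f := φ) (a := 0) (b := t)
    (fun r hr => (hφd r hr).continuousWithinAt)
    (fun r hr => hasDerivWithinAt_Ici_of_Icc hr (hφd r (Ico_subset_Icc_self hr))) t ⟨ht, le_rfl⟩
  simp only [hφ, hI, intervalIntegral.integral_same, Complex.exp_zero, mul_one] at hconst
  rw [gfl_zero' hz, gfl_zero' hw] at hconst
  rw [Complex.exp_neg, ← hconst, mul_assoc, mul_inv_cancel₀ (Complex.exp_ne_zero _), mul_one]

lemma continuousOn_shift (hW : ContinuousOn W (Ici 0)) (hs : 0 ≤ s) :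
    ContinuousOn (shift W s) (Ici 0) := by
  refine (hW.comp (by fun_prop) fun r hr => ?_).sub continuousOn_const
  exact add_nonneg hs hr

@[simp] lemma shift_zero (W : ℝ → ℝ) (s : ℝ) : shift W s 0 = 0 := by simp [shift]

lemma IsFlow.shift (hg : IsFlow W z (s + u) g) (hs : 0 ≤ s) :
    IsFlow (shift W s) (g s - W s) u (fun r => g (s + r) - W s) := by
  have hmem : ∀ r ∈ Icc 0 u, s + r ∈ Icc 0 (s + u) := fun r hr =>
    ⟨add_nonneg hs hr.1, by linarith [hr.2]⟩
  refine ⟨by simp, fun r hr => ?_, fun r hr => ?_⟩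
  · have := hg.im_pos (s + r) (hmem r hr)
    simpa using this
  · have h1 := hg.deriv (s + r) (hmem r hr)
    have h2 : HasDerivWithinAt (fun r : ℝ => s + r) 1 (Icc 0 u) r :=
      ((hasDerivAt_id r).const_add s).hasDerivWithinAt
    have h3 := (h1.scomp r h2 (fun x hx => hmem x hx)).sub_const (c := (W s : ℂ))
    refine (h3.congr_deriv ?_)
    rw [one_smul, FL.shift]
    push_cast
    congr 1
    ring

theorem alive_shift_right (h : Alive W z (s + u)) (hs : 0 ≤ s) (hu : 0 ≤ u) :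
    Alive (shift W s) (Zfl W s z) u :=
  ⟨hu, _, h.isFlow.shift hs⟩

/-- **shift property** (cocycle) -/
theorem Zfl_add (h : Alive W z (s + u)) (hs : 0 ≤ s) (hu : 0 ≤ u) :
    Zfl W (s + u) z = Zfl (shift W s) u (Zfl W s z) := by
  have h1 := (h.isFlow.shift hs).eq_gfl (s := u) ⟨hu, le_rfl⟩
  have h2 : gfl W (s + u) z - W s = gfl (shift W s) u (Zfl W s z) := h1
  rw [Zfl, Zfl, ← h2, shift]
  push_cast
  ring

/-- gluing -/
theorem alive_of_shift (hW : ContinuousOn W (Ici 0)) (h1 : Alive W z s)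
    (h2 : Alive (shift W s) (Zfl W s z) u) : Alive W z (s + u) := by
  have hs := h1.1
  have hu := h2.1
  set δ := min (gfl W s z).im (gfl (shift W s) u (Zfl W s z)).im with hδd
  have hδ : 0 < δ := lt_min (gfl_im_pos h1) (gfl_im_pos h2)
  have hsu : (0 : ℝ) ≤ s + u := add_nonneg hs hu
  obtain ⟨G, hG0, hG⟩ := exists_sol_trunc hsu (hW.mono Icc_subset_Ici_self) hδ (c := 1)
    (by simp) z
  have hlow1 : ∀ r ∈ Icc 0 s, δ ≤ (gfl W r z).im := fun r hr =>
    (min_le_left _ _).trans (h1.isFlow.lower r hr)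
  have hlow2 : ∀ r ∈ Icc 0 u, δ ≤ (gfl (shift W s) r (Zfl W s z)).im := fun r hr =>
    (min_le_right _ _).trans (h2.isFlow.lower r hr)
  have hsub : Icc 0 s ⊆ Icc 0 (s + u) := Icc_subset_Icc le_rfl (by linarith)
  have heq1 : ∀ r ∈ Icc 0 s, G r = gfl W r z := by
    intro r hr
    have key := gronwall_trunc (η := 0) (ε := 0) hδ (c := 1) (by simp)
      (fun r hr => (hG r (hsub hr)).mono hsub) (h1.isFlow.trunc hlow1) (by simp)
      (by
        show ‖G 0 - gfl W 0 z‖ ≤ 0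
        rw [hG0, gfl_zero' h1]; simp) r hr
    simp only [add_zero, zero_mul] at key
    exact sub_eq_zero.1 (norm_eq_zero.1 (le_antisymm key (norm_nonneg _)))
  have hmem : ∀ r ∈ Icc 0 u, s + r ∈ Icc 0 (s + u) := fun r hr =>
    ⟨add_nonneg hs hr.1, by linarith [hr.2]⟩
  have hH : ∀ r ∈ Icc 0 u, HasDerivWithinAt (fun r => G (s + r) - W s)
      (1 * vf (shift W s) δ r (G (s + r) - W s)) (Icc 0 u) r := by
    intro r hr
    have a1 := hG (s + r) (hmem r hr)
    have a2 : HasDerivWithinAt (fun r : ℝ => s + r) 1 (Icc 0 u) r :=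
      ((hasDerivAt_id r).const_add s).hasDerivWithinAt
    have a3 := (a1.scomp r a2 (fun x hx => hmem x hx)).sub_const (c := (W s : ℂ))
    refine a3.congr_deriv ?_
    rw [one_smul, one_mul, one_mul, vf, vf, FL.shift]
    have : tr δ (G (s + r) - W s) = tr δ (G (s + r)) - W s := by
      apply Complex.ext <;> simp
    rw [this]
    push_cast
    congr 1
    ring
  have heq2 : ∀ r ∈ Icc 0 u, G (s + r) - W s = gfl (shift W s) r (Zfl W s z) := by
    intro r hr
    have key := gronwall_trunc (η := 0) (ε := 0) hδ (c := 1) (by simp)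
      hH (h2.isFlow.trunc hlow2) (by simp)
      (by
        show ‖(G (s + 0) - W s) - gfl (shift W s) 0 (Zfl W s z)‖ ≤ 0
        rw [gfl_zero' h2, add_zero, heq1 s ⟨hs, le_rfl⟩]; simp [Zfl]) r hr
    simp only [add_zero, zero_mul] at key
    exact sub_eq_zero.1 (norm_eq_zero.1 (le_antisymm key (norm_nonneg _)))
  refine ⟨hsu, G, isFlow_of_trunc hδ hG0 hG fun r hr => ?_⟩
  rcases le_total r s with hrs | hrs
  · rw [heq1 r ⟨hr.1, hrs⟩]; exact hlow1 r ⟨hr.1, hrs⟩
  · have hm : r - s ∈ Icc 0 u := ⟨sub_nonneg.2 hrs, by linarith [hr.2]⟩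
    have e := heq2 (r - s) hm
    have e2 : (G r).im = (gfl (shift W s) (r - s) (Zfl W s z)).im := by
      rw [← e]
      simp
    rw [e2]
    exact hlow2 _ hm

theorem alive_shift (hW : ContinuousOn W (Ici 0)) (hs : 0 ≤ s) (hu : 0 ≤ u) :
    Alive W z (s + u) ↔ Alive W z s ∧ Alive (shift W s) (Zfl W s z) u :=
  ⟨fun h => ⟨h.mono hs (by linarith), alive_shift_right h hs hu⟩,
    fun h => alive_of_shift hW h.1 h.2⟩

lemma continuousOn_scl {l : ℝ} (hW : ContinuousOn W (Ici 0)) :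
    ContinuousOn (scl l W) (Ici 0) := by
  refine continuousOn_const.mul (hW.comp (by fun_prop) fun r hr => ?_)
  exact mul_nonneg (sq_nonneg l) (mem_Ici.1 hr)

lemma IsFlow.scl {l : ℝ} (hl : 0 < l) (hg : IsFlow W (l * z) (l ^ 2 * t) g) :
    IsFlow (scl l W) z t (fun r => (l : ℂ)⁻¹ * g (l ^ 2 * r)) := by
  have hl0 : (l : ℂ) ≠ 0 := Complex.ofReal_ne_zero.2 hl.ne'
  have hl2 : 0 < l ^ 2 := by positivity
  have hmem : ∀ r ∈ Icc 0 t, l ^ 2 * r ∈ Icc 0 (l ^ 2 * t) := fun r hr =>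
    ⟨mul_nonneg hl2.le hr.1, mul_le_mul_of_nonneg_left hr.2 hl2.le⟩
  refine ⟨?_, fun r hr => ?_, fun r hr => ?_⟩
  · simp [hg.init, hl0]
  · have h1 := hg.im_pos _ (hmem r hr)
    have : ((l : ℂ)⁻¹ * g (l ^ 2 * r)).im = l⁻¹ * (g (l ^ 2 * r)).im := by
      rw [← Complex.ofReal_inv, Complex.im_ofReal_mul]
    rw [this]
    positivity
  · have h1 := hg.deriv _ (hmem r hr)
    have h2 : HasDerivWithinAt (fun r : ℝ => l ^ 2 * r) (l ^ 2) (Icc 0 t) r := by
      simpa using ((hasDerivAt_id r).const_mul (l ^ 2)).hasDerivWithinAt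
    have h3 := (h1.scomp r h2 (fun x hx => hmem x hx)).const_mul ((l : ℂ)⁻¹)
    refine h3.congr_deriv ?_
    have hne : g (l ^ 2 * r) - W (l ^ 2 * r) ≠ 0 := by
      intro h0
      have h4 := hg.im_pos _ (hmem r hr)
      have h5 := congrArg Complex.im h0
      simp at h5
      linarith
    have e : (l : ℂ)⁻¹ * g (l ^ 2 * r) - ((FL.scl l W r : ℝ) : ℂ)
        = (l : ℂ)⁻¹ * (g (l ^ 2 * r) - W (l ^ 2 * r)) := by
      rw [FL.scl]; push_cast; ring
    rw [e, Complex.real_smul]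
    push_cast
    field_simp

lemma scl_inv_scl {l : ℝ} (hl : 0 < l) (W : ℝ → ℝ) : scl l⁻¹ (scl l W) = W := by
  funext r
  simp only [scl]
  have : l ^ 2 * (l⁻¹ ^ 2 * r) = r := by field_simp
  rw [this]
  field_simp

/-- **scaling property** -/
theorem alive_scl {l : ℝ} (hl : 0 < l) :
    Alive (scl l W) z t ↔ Alive W (l * z) (l ^ 2 * t) := by
  have hl0 : (l : ℂ) ≠ 0 := Complex.ofReal_ne_zero.2 hl.ne'
  have hl2 : 0 < l ^ 2 := by positivity
  constructor
  · rintro ⟨ht, g, hg⟩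
    have hg' : IsFlow (scl l W) ((l⁻¹ : ℝ) * (l * z)) (l⁻¹ ^ 2 * (l ^ 2 * t)) g := by
      have e1 : (((l⁻¹ : ℝ) : ℂ) * (l * z)) = z := by
        push_cast; field_simp
      have e2 : l⁻¹ ^ 2 * (l ^ 2 * t) = t := by field_simp
      rw [e1, e2]; exact hg
    have := hg'.scl (inv_pos.2 hl)
    rw [scl_inv_scl hl] at this
    exact ⟨mul_nonneg hl2.le ht, _, this⟩
  · rintro ⟨ht, g, hg⟩
    exact ⟨by
      rcases lt_or_ge t 0 with h | h
      · nlinarith
      · exact h, _, hg.scl hl⟩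

theorem gfl_scl {l : ℝ} (hl : 0 < l) (h : Alive W (l * z) (l ^ 2 * t)) :
    gfl (scl l W) t z = (l : ℂ)⁻¹ * gfl W (l ^ 2 * t) (l * z) := by
  have ht : 0 ≤ t := ((alive_scl hl).2 h).1
  exact ((h.isFlow.scl hl).eq_gfl (s := t) ⟨ht, le_rfl⟩).symm

theorem Zfl_scl {l : ℝ} (hl : 0 < l) (h : Alive W (l * z) (l ^ 2 * t)) :
    Zfl (scl l W) t z = (l : ℂ)⁻¹ * Zfl W (l ^ 2 * t) (l * z) := by
  rw [Zfl, Zfl, gfl_scl hl h, scl]
  push_cast
  ring

end Crest.Agent.R162.FL
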