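import Mathlib

/-! # Row 162, node FL-C: backward Loewner ODE, difference formula, holomorphy of the inverse -/

set_option autoImplicit false

open Set MeasureTheory Complex Filter Topology

namespace Crest.Agent.R162.FLC

/-- `g` solves the chordal Loewner equation driven by `W` on `[0,t]`, inside the upper half-plane. -/
def IsSol (W : ℝ → ℝ) (t : ℝ) (g : ℝ → ℂ) : Prop :=
  ∀ s ∈ Icc (0 : ℝ) t, 0 < (g s).im ∧
    HasDerivWithinAt g (2 / (g s - W s)) (Icc 0 t) s

variable {W : ℝ → ℝ} {t : ℝ} {g g₁ g₂ : ℝ → ℂ}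

lemma IsSol.im_pos (h : IsSol W t g) {s : ℝ} (hs : s ∈ Icc (0 : ℝ) t) : 0 < (g s).im := (h s hs).1

lemma IsSol.hasDeriv (h : IsSol W t g) {s : ℝ} (hs : s ∈ Icc (0 : ℝ) t) :
    HasDerivWithinAt g (2 / (g s - W s)) (Icc 0 t) s := (h s hs).2

lemma IsSol.continuousOn (h : IsSol W t g) : ContinuousOn g (Icc 0 t) :=
  fun _ hs => (h.hasDeriv hs).continuousWithinAt

lemma sub_ofReal_im (z : ℂ) (x : ℝ) : (z - (x : ℂ)).im = z.im := by simp

lemma sub_ofReal_ne {z : ℂ} (hz : 0 < z.im) (x : ℝ) : z - (x : ℂ) ≠ 0 := by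
  intro h
  have := congrArg Complex.im h
  simp at this
  linarith

lemma im_le_norm_sub (z : ℂ) (x : ℝ) : z.im ≤ ‖z - (x : ℂ)‖ := by
  have := Complex.abs_im_le_norm (z - (x : ℂ))
  rw [sub_ofReal_im] at this
  exact (le_abs_self _).trans this

lemma im_two_div (z : ℂ) (x : ℝ) : (2 / (z - (x : ℂ))).im = - (2 * z.im / Complex.normSq (z - x)) := by
  rw [Complex.div_im]
  simp

/-! ## The difference formula -/

/-- the kernel `2 / ((g₁ - W) (g₂ - W))` -/
noncomputable def ker (W : ℝ → ℝ) (g₁ g₂ : ℝ → ℂ) (s : ℝ) : ℂ :=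
  2 / ((g₁ s - W s) * (g₂ s - W s))

lemma continuousOn_ker (hW : ContinuousOn W (Icc 0 t)) (h₁ : IsSol W t g₁) (h₂ : IsSol W t g₂) :
    ContinuousOn (ker W g₁ g₂) (Icc 0 t) := by
  unfold ker
  have hWc : ContinuousOn (fun s => (W s : ℂ)) (Icc 0 t) :=
    Complex.continuous_ofReal.comp_continuousOn hW
  refine ContinuousOn.div continuousOn_const
    ((h₁.continuousOn.sub hWc).mul (h₂.continuousOn.sub hWc)) ?_
  intro s hs
  exact mul_ne_zero (sub_ofReal_ne (h₁.im_pos hs) _) (sub_ofReal_ne (h₂.im_pos hs) _)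

/-- integral of a function continuous on `[0,t]`, as a function with derivative within `[0,t]`. -/
lemma hasDerivWithinAt_integral {q : ℝ → ℂ} (ht : 0 ≤ t) (hq : ContinuousOn q (Icc 0 t)) {s : ℝ}
    (hs : s ∈ Icc (0 : ℝ) t) :
    HasDerivWithinAt (fun x => ∫ r in (0 : ℝ)..x, q r) (q s) (Icc 0 t) s := by
  set p : ℝ → ℂ := fun x => q (projIcc 0 t ht x) with hp
  have hpc : Continuous p := by
    have : Continuous (fun y : Icc (0 : ℝ) t => q y) := continuousOn_iff_continuous_domRestrict.1 hq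
    exact this.comp continuous_projIcc
  have hd : HasDerivAt (fun x => ∫ r in (0 : ℝ)..x, p r) (p s) s :=
    intervalIntegral.integral_hasDerivAt_right (hpc.intervalIntegrable _ _)
      (hpc.stronglyMeasurableAtFilter _ _) hpc.continuousAt
  have hps : ∀ x ∈ Icc (0 : ℝ) t, p x = q x := by
    intro x hx
    simp only [hp, projIcc_of_mem ht hx]
  rw [← hps s hs]
  refine hd.hasDerivWithinAt.congr_of_mem ?_ hs
  intro x hx
  refine intervalIntegral.integral_congr ?_
  intro r hr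
  rw [uIcc_of_le hx.1] at hr
  exact (hps r ⟨hr.1, hr.2.trans hx.2⟩).symm

theorem diff_formula (ht : 0 ≤ t) (hW : ContinuousOn W (Icc 0 t)) (h₁ : IsSol W t g₁)
    (h₂ : IsSol W t g₂) {s : ℝ} (hs : s ∈ Icc (0 : ℝ) t) :
    g₁ s - g₂ s = (g₁ 0 - g₂ 0) * Complex.exp (- ∫ r in (0 : ℝ)..s, ker W g₁ g₂ r) := by
  have hq := continuousOn_ker hW h₁ h₂
  set φ : ℝ → ℂ := fun x => (g₁ x - g₂ x) * Complex.exp (∫ r in (0 : ℝ)..x, ker W g₁ g₂ r) with hφ
  have hder : ∀ x ∈ Icc (0 : ℝ) t, HasDerivWithinAt φ 0 (Icc 0 t) x := by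
    intro x hx
    have d1 := (h₁.hasDeriv hx).sub (h₂.hasDeriv hx)
    have d2 := (hasDerivWithinAt_integral ht hq hx).cexp
    have d3 := d1.mul d2
    refine d3.congr_deriv ?_
    have e1 := sub_ofReal_ne (h₁.im_pos hx) (W x)
    have e2 := sub_ofReal_ne (h₂.im_pos hx) (W x)
    simp only [Pi.sub_apply]
    generalize Complex.exp (∫ r in (0 : ℝ)..x, ker W g₁ g₂ r) = E
    simp only [ker]
    field_simp
    ring
  have hc : ContinuousOn φ (Icc 0 t) := fun x hx => (hder x hx).continuousWithinAt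
  have key := constant_of_has_deriv_right_zero hc (fun x hx => by
    refine (hder x (Ico_subset_Icc_self hx)).mono_of_mem_nhdsWithin ?_
    exact Icc_mem_nhdsGE_of_mem hx) s hs
  simp only [hφ, intervalIntegral.integral_same, Complex.exp_zero, mul_one] at key
  rw [Complex.exp_neg, ← key, mul_assoc, mul_inv_cancel₀ (Complex.exp_ne_zero _), mul_one]

/-- uniqueness from the terminal (or any) value -/
theorem IsSol.unique (ht : 0 ≤ t) (hW : ContinuousOn W (Icc 0 t)) (h₁ : IsSol W t g₁)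
    (h₂ : IsSol W t g₂) {r : ℝ} (hr : r ∈ Icc (0 : ℝ) t) (h : g₁ r = g₂ r) :
    ∀ s ∈ Icc (0 : ℝ) t, g₁ s = g₂ s := by
  have h0 : g₁ 0 - g₂ 0 = 0 := by
    have := diff_formula ht hW h₁ h₂ hr
    rw [h, sub_self] at this
    exact (mul_eq_zero.1 this.symm).resolve_right (Complex.exp_ne_zero _)
  intro s hs
  have := diff_formula ht hW h₁ h₂ hs
  rw [h0, zero_mul] at this
  exact sub_eq_zero.1 this

/-- the difference formula read from the terminal time -/
theorem diff_formula_back (ht : 0 ≤ t) (hW : ContinuousOn W (Icc 0 t)) (h₁ : IsSol W t g₁)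
    (h₂ : IsSol W t g₂) {s : ℝ} (hs : s ∈ Icc (0 : ℝ) t) :
    g₁ s - g₂ s = (g₁ t - g₂ t) * Complex.exp (∫ r in s..t, ker W g₁ g₂ r) := by
  have hq := continuousOn_ker hW h₁ h₂
  have e1 := diff_formula ht hW h₁ h₂ hs
  have e2 := diff_formula ht hW h₁ h₂ (right_mem_Icc.2 ht)
  have hadd : (∫ r in (0 : ℝ)..s, ker W g₁ g₂ r) + (∫ r in s..t, ker W g₁ g₂ r) =
      ∫ r in (0 : ℝ)..t, ker W g₁ g₂ r := by
    refine intervalIntegral.integral_add_adjacent_intervals ?_ ?_
    · refine (hq.mono ?_).intervalIntegrable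
      rw [uIcc_of_le hs.1]
      exact Icc_subset_Icc_right hs.2
    · refine (hq.mono ?_).intervalIntegrable
      rw [uIcc_of_le hs.2]
      exact Icc_subset_Icc_left hs.1
  rw [e1, e2, ← hadd, mul_assoc, ← Complex.exp_add]
  congr 2
  ring

/-! ## Backward existence -/

/-- truncation of the imaginary part at height `δ` -/
noncomputable def cut (δ : ℝ) (h : ℂ) : ℂ := ⟨h.re, max h.im δ⟩

lemma cut_of_le {δ : ℝ} {h : ℂ} (hh : δ ≤ h.im) : cut δ h = h := by
  apply Complex.ext <;> simp [cut, hh]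

lemma cut_im_ge (δ : ℝ) (h : ℂ) : δ ≤ (cut δ h).im := le_max_right _ _

lemma norm_cut_sub_le (δ : ℝ) (h h' : ℂ) : ‖cut δ h - cut δ h'‖ ≤ ‖h - h'‖ := by
  rw [Complex.norm_def, Complex.norm_def]
  refine Real.sqrt_le_sqrt ?_
  rw [Complex.normSq_apply, Complex.normSq_apply]
  have h1 : |max h.im δ - max h'.im δ| ≤ |h.im - h'.im| := abs_max_sub_max_le_abs _ _ _
  have h2 := mul_self_le_mul_self (abs_nonneg _) h1
  rw [abs_mul_abs_self, abs_mul_abs_self] at h2
  simp only [cut, Complex.sub_re, Complex.sub_im]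
  linarith

lemma two_div_lip {δ : ℝ} (hδ : 0 < δ) {a b : ℂ} (x : ℝ) (ha : δ ≤ a.im) (hb : δ ≤ b.im) :
    ‖2 / (a - (x : ℂ)) - 2 / (b - (x : ℂ))‖ ≤ 2 / δ ^ 2 * ‖a - b‖ := by
  have ha' := sub_ofReal_ne (lt_of_lt_of_le hδ ha) x
  have hb' := sub_ofReal_ne (lt_of_lt_of_le hδ hb) x
  have e : 2 / (a - (x : ℂ)) - 2 / (b - (x : ℂ)) = 2 * (b - a) / ((a - x) * (b - x)) := by
    field_simp
    ring
  rw [e, norm_div, norm_mul, norm_mul, norm_sub_rev b a, Complex.norm_ofNat]
  have h1 : δ ≤ ‖a - (x : ℂ)‖ := ha.trans (im_le_norm_sub a x)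
  have h2 : δ ≤ ‖b - (x : ℂ)‖ := hb.trans (im_le_norm_sub b x)
  rw [div_mul_eq_mul_div, sq]
  gcongr

theorem exists_backward (ht : 0 ≤ t) (hW : ContinuousOn W (Icc 0 t)) {z : ℂ} (hz : 0 < z.im) :
    ∃ g : ℝ → ℂ, g t = z ∧ IsSol W t g ∧ ∀ s ∈ Icc (0 : ℝ) t, z.im ≤ (g s).im := by
  set δ := z.im with hδ
  set F : ℝ → ℂ → ℂ := fun s h => 2 / (cut δ h - W s) with hF
  have hδ2 : (0 : ℝ) ≤ 2 / δ ^ 2 := by positivity
  have hbd : ∀ s h, ‖F s h‖ ≤ 2 / δ := by
    intro s h
    simp only [hF, norm_div, Complex.norm_ofNat]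
    have : δ ≤ ‖cut δ h - (W s : ℂ)‖ := (cut_im_ge δ h).trans (im_le_norm_sub _ _)
    gcongr
  have hPL : IsPicardLindelof F (tmin := 0) (tmax := t) ⟨t, ht, le_rfl⟩ z
      (Real.toNNReal (2 / δ * t)) 0 (Real.toNNReal (2 / δ)) (Real.toNNReal (2 / δ ^ 2)) := by
    constructor
    · intro s _
      refine LipschitzOnWith.of_dist_le_mul ?_
      intro a _ b _
      rw [Real.coe_toNNReal _ hδ2, dist_eq_norm, dist_eq_norm]
      refine (two_div_lip hz (W s) (cut_im_ge δ a) (cut_im_ge δ b)).trans ?_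
      gcongr
      exact norm_cut_sub_le δ a b
    · intro x _
      have hWc : ContinuousOn (fun s => (W s : ℂ)) (Icc 0 t) :=
        Complex.continuous_ofReal.comp_continuousOn hW
      refine ContinuousOn.div continuousOn_const (continuousOn_const.sub hWc) ?_
      intro s _
      exact sub_ofReal_ne (lt_of_lt_of_le hz (cut_im_ge δ x)) _
    · intro s _ x _
      rw [Real.coe_toNNReal _ (by positivity)]
      exact hbd s x
    · rw [Real.coe_toNNReal _ (by positivity), Real.coe_toNNReal _ (by positivity)]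
      simp [ht]
  obtain ⟨g, hgt, hg⟩ := hPL.exists_eq_forall_mem_Icc_hasDerivWithinAt₀
  have hgt' : g t = z := hgt
  have him : ∀ s ∈ Icc (0 : ℝ) t, HasDerivWithinAt (fun x => (g x).im) (F s (g s)).im (Icc 0 t) s := by
    intro s hs
    exact (Complex.imCLM.hasFDerivAt (x := g s)).comp_hasDerivWithinAt s (hg s hs)
  have hanti : AntitoneOn (fun x => (g x).im) (Icc 0 t) := by
    refine antitoneOn_of_deriv_nonpos (convex_Icc 0 t)
      (fun s hs => (him s hs).continuousWithinAt) ?_ ?_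
    · intro s hs
      rw [interior_Icc] at hs
      exact ((him s (Ioo_subset_Icc_self hs)).hasDerivAt
        (Icc_mem_nhds hs.1 hs.2)).differentiableAt.differentiableWithinAt
    · intro s hs
      rw [interior_Icc] at hs
      rw [((him s (Ioo_subset_Icc_self hs)).hasDerivAt (Icc_mem_nhds hs.1 hs.2)).deriv]
      simp only [hF]
      rw [im_two_div]
      have h1 : 0 ≤ (cut δ (g s)).im := hz.le.trans (cut_im_ge δ _)
      have h2 := Complex.normSq_nonneg (cut δ (g s) - (W s : ℂ))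
      have : 0 ≤ 2 * (cut δ (g s)).im / Complex.normSq (cut δ (g s) - (W s : ℂ)) := by positivity
      linarith
  have hge : ∀ s ∈ Icc (0 : ℝ) t, δ ≤ (g s).im := by
    intro s hs
    have := hanti hs (right_mem_Icc.2 ht) hs.2
    simpa [hgt'] using this
  refine ⟨g, hgt', ?_, hge⟩
  intro s hs
  refine ⟨lt_of_lt_of_le hz (hge s hs), ?_⟩
  have := hg s hs
  simp only [hF, cut_of_le (hge s hs)] at this
  exact this

end Crest.Agent.R162.FLC
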