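import Mathlib
import Crest.Agent.R162.FLDef
import Crest.Agent.R162.FLC

/-! # Row 162, node FL-C: the inverse flow `ffl W t : ℍ → Dom W t` -/

set_option autoImplicit false

open Set MeasureTheory Complex Filter Topology

open Classical in
/-- the inverse of the centred flow: `ffl W t z` is the point `w` with `gfl W t w = z + W t` -/
noncomputable def Crest.Agent.R162.FL.ffl (W : ℝ → ℝ) (t : ℝ) (z : ℂ) : ℂ :=
  if h : ∃ w, Crest.Agent.R162.FL.Alive W w t ∧ Crest.Agent.R162.FL.gfl W t w = z + W t then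
    h.choose else z

namespace Crest.Agent.R162.FLC

open Crest.Agent.R162.FL

variable {W : ℝ → ℝ} {t : ℝ} {g g₁ g₂ : ℝ → ℂ}

lemma isSol_of_isFlow {z : ℂ} (h : IsFlow W z t g) : IsSol W t g :=
  fun s hs => ⟨h.im_pos s hs, h.deriv s hs⟩

lemma isFlow_of_isSol (h : IsSol W t g) : IsFlow W (g 0) t g :=
  ⟨rfl, fun _ hs => (h _ hs).1, fun _ hs => (h _ hs).2⟩

lemma isSol_mono (h : IsSol W t g) {s : ℝ} (hs : s ≤ t) : IsSol W s g := by
  intro r hr
  have hr' : r ∈ Icc (0 : ℝ) t := ⟨hr.1, hr.2.trans hs⟩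
  exact ⟨(h r hr').1, (h r hr').2.mono (Icc_subset_Icc_right hs)⟩

lemma contOn_Icc (hW : ContinuousOn W (Ici 0)) (t : ℝ) : ContinuousOn W (Icc 0 t) :=
  hW.mono (fun _ hx => hx.1)

lemma alive_of_isSol (h : IsSol W t g) {s : ℝ} (hs : s ∈ Icc (0 : ℝ) t) : Alive W (g 0) s :=
  ⟨hs.1, g, isFlow_of_isSol (isSol_mono h hs.2)⟩

lemma gfl_eq_of_isSol (hW : ContinuousOn W (Ici 0)) (h : IsSol W t g) {s : ℝ}
    (hs : s ∈ Icc (0 : ℝ) t) : gfl W s (g 0) = g s := by
  have ha := alive_of_isSol h hs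
  unfold gfl
  rw [dif_pos ha]
  have hc := ha.2.choose_spec
  exact IsSol.unique hs.1 (contOn_Icc hW s) (isSol_of_isFlow hc) (isSol_mono h hs.2)
    (left_mem_Icc.2 hs.1) hc.init s (right_mem_Icc.2 hs.1)

/-- the flow of an alive point is a solution -/
lemma isSol_of_alive (hW : ContinuousOn W (Ici 0)) {z : ℂ} (h : Alive W z t) :
    IsSol W t (fun s => gfl W s z) := by
  obtain ⟨ht, g, hg⟩ := h
  have hs := isSol_of_isFlow hg
  have hz : g 0 = z := hg.init
  have he : ∀ s ∈ Icc (0 : ℝ) t, gfl W s z = g s := by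
    intro s hs'
    rw [← hz]
    exact gfl_eq_of_isSol hW hs hs'
  intro s hs'
  refine ⟨?_, ?_⟩
  · simp only [he s hs']; exact (hs s hs').1
  · simp only [he s hs']
    exact (hs s hs').2.congr_of_mem he hs'

lemma gfl_zero_of_im_pos (hW : ContinuousOn W (Ici 0)) {z : ℂ} (h : Alive W z t) :
    gfl W 0 z = z := by
  obtain ⟨ht, g, hg⟩ := h
  have := gfl_eq_of_isSol hW (isSol_of_isFlow hg) (left_mem_Icc.2 ht)
  rw [hg.init] at this
  exact this

lemma exists_preimage (hW : ContinuousOn W (Ici 0)) (ht : 0 ≤ t) {z : ℂ} (hz : 0 < z.im) :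
    ∃ w, Alive W w t ∧ gfl W t w = z := by
  obtain ⟨g, hgt, hg, -⟩ := exists_backward ht (contOn_Icc hW t) hz
  exact ⟨g 0, alive_of_isSol hg (right_mem_Icc.2 ht), by
    rw [gfl_eq_of_isSol hW hg (right_mem_Icc.2 ht), hgt]⟩

lemma injOn_gfl' (hW : ContinuousOn W (Ici 0)) {z w : ℂ} (hz : Alive W z t) (hw : Alive W w t)
    (h : gfl W t z = gfl W t w) : z = w := by
  have ht := hz.1
  have := IsSol.unique ht (contOn_Icc hW t) (isSol_of_alive hW hz) (isSol_of_alive hW hw)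
    (right_mem_Icc.2 ht) h 0 (left_mem_Icc.2 ht)
  simp only [gfl_zero_of_im_pos hW hz, gfl_zero_of_im_pos hW hw] at this
  exact this

lemma add_im {z : ℂ} (x : ℝ) : (z + (x : ℂ)).im = z.im := by simp

section basic

variable (hW : ContinuousOn W (Ici 0)) (ht : 0 ≤ t) {z w : ℂ} (hz : 0 < z.im) (hw : 0 < w.im)
include hW ht hz

lemma ffl_spec : Alive W (ffl W t z) t ∧ gfl W t (ffl W t z) = z + W t := by
  have h : ∃ w, Alive W w t ∧ gfl W t w = z + W t :=
    exists_preimage hW ht (by rw [add_im]; exact hz)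
  unfold ffl
  rw [dif_pos h]
  exact h.choose_spec

lemma ffl_alive : Alive W (ffl W t z) t := (ffl_spec hW ht hz).1

lemma gfl_ffl : gfl W t (ffl W t z) = z + W t := (ffl_spec hW ht hz).2

lemma Zfl_ffl : Zfl W t (ffl W t z) = z := by
  rw [Zfl, gfl_ffl hW ht hz]; ring

lemma isSol_ffl : IsSol W t (fun s => gfl W s (ffl W t z)) :=
  isSol_of_alive hW (ffl_alive hW ht hz)

/-- along the flow of `ffl W t z` the imaginary part stays `≥ z.im` -/
lemma im_le_gfl_ffl {s : ℝ} (hs : s ∈ Icc (0 : ℝ) t) : z.im ≤ (gfl W s (ffl W t z)).im := by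
  have hz' : 0 < (z + (W t : ℂ)).im := by rw [add_im]; exact hz
  obtain ⟨g, hgt, hg, hge⟩ := exists_backward ht (contOn_Icc hW t) hz'
  have := IsSol.unique ht (contOn_Icc hW t) hg (isSol_ffl hW ht hz) (right_mem_Icc.2 ht)
    (by rw [hgt]; exact (gfl_ffl hW ht hz).symm) s hs
  have h2 := hge s hs
  rw [add_im] at h2
  rw [this] at h2
  exact h2

lemma im_le_Zfl_ffl {s : ℝ} (hs : s ∈ Icc (0 : ℝ) t) : z.im ≤ (Zfl W s (ffl W t z)).im := by
  rw [Zfl, sub_ofReal_im]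
  exact im_le_gfl_ffl hW ht hz hs

lemma gfl_zero_ffl : gfl W 0 (ffl W t z) = ffl W t z :=
  gfl_zero_of_im_pos hW (ffl_alive hW ht hz)

lemma im_le_ffl : z.im ≤ (ffl W t z).im := by
  have := im_le_gfl_ffl hW ht hz (left_mem_Icc.2 ht)
  rwa [gfl_zero_ffl hW ht hz] at this

lemma ffl_im_pos : 0 < (ffl W t z).im := lt_of_lt_of_le hz (im_le_ffl hW ht hz)

include hw in
/-- the difference formula for the inverse flow at intermediate times -/
lemma gfl_ffl_sub {s : ℝ} (hs : s ∈ Icc (0 : ℝ) t) :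
    gfl W s (ffl W t z) - gfl W s (ffl W t w) =
      (z - w) * Complex.exp (∫ r in s..t, 2 / (Zfl W r (ffl W t z) * Zfl W r (ffl W t w))) := by
  have := diff_formula_back ht (contOn_Icc hW t) (isSol_ffl hW ht hz) (isSol_ffl hW ht hw) hs
  rw [this, gfl_ffl hW ht hz, gfl_ffl hW ht hw]
  congr 1
  ring

include hw in
lemma ffl_sub :
    ffl W t z - ffl W t w =
      (z - w) * Complex.exp (∫ r in (0:ℝ)..t, 2 / (Zfl W r (ffl W t z) * Zfl W r (ffl W t w))) := by
  have := gfl_ffl_sub hW ht hz hw (left_mem_Icc.2 ht)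
  rwa [gfl_zero_ffl hW ht hz, gfl_zero_ffl hW ht hw] at this

end basic

lemma injOn_ffl (hW : ContinuousOn W (Ici 0)) (ht : 0 ≤ t) : InjOn (ffl W t) {z | 0 < z.im} := by
  intro z hz w hw h
  have h1 := gfl_ffl hW ht hz
  have h2 := gfl_ffl hW ht hw
  rw [h, h2] at h1
  exact (add_right_cancel h1).symm

lemma ffl_Zfl (hW : ContinuousOn W (Ici 0)) {z : ℂ} (h : Alive W z t) :
    ffl W t (Zfl W t z) = z := by
  have ht := h.1
  have him : 0 < (Zfl W t z).im := by
    rw [Zfl, sub_ofReal_im]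
    exact (isSol_of_alive hW h t (right_mem_Icc.2 ht)).1
  refine injOn_gfl' hW (ffl_alive hW ht him) h ?_
  rw [gfl_ffl hW ht him, Zfl]; ring

lemma Zfl_im_pos (hW : ContinuousOn W (Ici 0)) {z : ℂ} (h : Alive W z t) :
    0 < (Zfl W t z).im := by
  rw [Zfl, sub_ofReal_im]
  exact (isSol_of_alive hW h t (right_mem_Icc.2 h.1)).1

lemma ffl_image (hW : ContinuousOn W (Ici 0)) (ht : 0 ≤ t) :
    ffl W t '' {z | 0 < z.im} = Dom W t := by
  ext w
  constructor
  · rintro ⟨z, hz, rfl⟩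
    exact ffl_alive hW ht hz
  · intro hw
    exact ⟨Zfl W t w, Zfl_im_pos hW hw, ffl_Zfl hW hw⟩

lemma gfl_image (hW : ContinuousOn W (Ici 0)) (ht : 0 ≤ t) :
    gfl W t '' Dom W t = {z | 0 < z.im} := by
  ext w
  constructor
  · rintro ⟨z, hz, rfl⟩
    exact (isSol_of_alive hW hz t (right_mem_Icc.2 ht)).1
  · intro hw
    obtain ⟨z, hz, h⟩ := exists_preimage hW ht hw
    exact ⟨z, hz, h⟩

/-! ## displacement bound -/

lemma norm_kernel_le {y y' : ℝ} (hy : 0 < y) (hy' : 0 < y') {a b : ℂ} (ha : y ≤ a.im)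
    (hb : y' ≤ b.im) : ‖2 / (a * b)‖ ≤ 2 / (y * y') := by
  rw [norm_div, norm_mul, Complex.norm_ofNat]
  have h1 : y ≤ ‖a‖ := ha.trans ((le_abs_self _).trans (Complex.abs_im_le_norm a))
  have h2 : y' ≤ ‖b‖ := hb.trans ((le_abs_self _).trans (Complex.abs_im_le_norm b))
  gcongr

lemma norm_sol_sub_le (_ht : 0 ≤ t) {y : ℝ} (hy : 0 < y) (h : IsSol W t g)
    (hge : ∀ s ∈ Icc (0 : ℝ) t, y ≤ (g s).im) {r s : ℝ} (hr : r ∈ Icc (0 : ℝ) t)
    (hs : s ∈ Icc (0 : ℝ) t) : ‖g s - g r‖ ≤ 2 / y * |s - r| := by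
  have := (convex_Icc (0 : ℝ) t).norm_image_sub_le_of_norm_hasDerivWithin_le
    (f := g) (f' := fun s => 2 / (g s - W s)) (C := 2 / y)
    (fun x hx => (h x hx).2) (fun x hx => by
      rw [norm_div, Complex.norm_ofNat]
      have : y ≤ ‖g x - (W x : ℂ)‖ := (hge x hx).trans (im_le_norm_sub _ _)
      gcongr) hr hs
  simpa [Real.norm_eq_abs] using this

section disp
variable (hW : ContinuousOn W (Ici 0)) (ht : 0 ≤ t) {z w : ℂ} (hz : 0 < z.im) (hw : 0 < w.im)
include hW ht hz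

lemma norm_gfl_ffl_sub_le {s : ℝ} (hs : s ∈ Icc (0 : ℝ) t) :
    ‖gfl W s (ffl W t z) - (z + W t)‖ ≤ 2 / z.im * (t - s) := by
  have := norm_sol_sub_le ht hz (isSol_ffl hW ht hz) (fun s hs => im_le_gfl_ffl hW ht hz hs)
    (right_mem_Icc.2 ht) hs
  simp only [gfl_ffl hW ht hz] at this
  rwa [abs_sub_comm, abs_of_nonneg (sub_nonneg.2 hs.2)] at this

lemma norm_ffl_sub_le : ‖ffl W t z - (z + W t)‖ ≤ 2 * t / z.im := by
  have := norm_gfl_ffl_sub_le hW ht hz (left_mem_Icc.2 ht)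
  rw [gfl_zero_ffl hW ht hz] at this
  refine this.trans (le_of_eq ?_)
  ring

include hw in
lemma norm_integral_kernel_le {s : ℝ} (hs : s ∈ Icc (0 : ℝ) t) :
    ‖∫ r in s..t, 2 / (Zfl W r (ffl W t z) * Zfl W r (ffl W t w))‖ ≤
      2 / (z.im * w.im) * (t - s) := by
  have := intervalIntegral.norm_integral_le_of_norm_le_const (a := s) (b := t)
    (f := fun r => 2 / (Zfl W r (ffl W t z) * Zfl W r (ffl W t w))) (C := 2 / (z.im * w.im)) (by
      intro r hr
      rw [uIoc_of_le hs.2] at hr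
      have hr' : r ∈ Icc (0 : ℝ) t := ⟨hs.1.trans hr.1.le, hr.2⟩
      exact norm_kernel_le hz hw (im_le_Zfl_ffl hW ht hz hr') (im_le_Zfl_ffl hW ht hw hr'))
  rwa [abs_of_nonneg (sub_nonneg.2 hs.2)] at this

include hw in
/-- the inverse flow is locally Lipschitz at all intermediate times -/
lemma norm_gfl_ffl_sub_gfl_ffl_le {s : ℝ} (hs : s ∈ Icc (0 : ℝ) t) :
    ‖gfl W s (ffl W t z) - gfl W s (ffl W t w)‖ ≤
      ‖z - w‖ * Real.exp (2 / (z.im * w.im) * t) := by
  rw [gfl_ffl_sub hW ht hz hw hs, norm_mul]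
  refine mul_le_mul_of_nonneg_left ?_ (norm_nonneg _)
  refine (Complex.norm_exp_le_exp_norm _).trans (Real.exp_le_exp.2 ?_)
  refine (norm_integral_kernel_le hW ht hz hw hs).trans ?_
  have : 0 ≤ 2 / (z.im * w.im) := by positivity
  nlinarith [hs.1]

include hw in
lemma norm_ffl_sub_ffl_le :
    ‖ffl W t z - ffl W t w‖ ≤ ‖z - w‖ * Real.exp (2 / (z.im * w.im) * t) := by
  have := norm_gfl_ffl_sub_gfl_ffl_le hW ht hz hw (left_mem_Icc.2 ht)
  rwa [gfl_zero_ffl hW ht hz, gfl_zero_ffl hW ht hw] at this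

end disp


/-! ## derivative of the inverse flow -/

lemma kernel_diff_le {y y' : ℝ} (hy : 0 < y) (hy' : 0 < y') {a a' b : ℂ} (ha : y ≤ a.im)
    (hb : y ≤ b.im) (ha' : y' ≤ a'.im) :
    ‖2 / (a' * b) - 2 / (a * b)‖ ≤ 2 / (y' * y * y) * ‖a' - a‖ := by
  have h0 : ∀ {c : ℂ} {x : ℝ}, 0 < x → x ≤ c.im → c ≠ 0 := by
    intro c x hx hc h
    rw [h] at hc
    simp at hc
    linarith
  have na := h0 hy ha
  have nb := h0 hy hb
  have na' := h0 hy' ha'
  have e : 2 / (a' * b) - 2 / (a * b) = 2 * (a - a') / (a' * b * a) := by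
    field_simp
  have h1 : ∀ {c : ℂ} {x : ℝ}, x ≤ c.im → x ≤ ‖c‖ := fun hc =>
    hc.trans ((le_abs_self _).trans (Complex.abs_im_le_norm _))
  rw [e, norm_div, norm_mul, norm_mul, norm_mul, Complex.norm_ofNat, norm_sub_rev a a',
    div_mul_eq_mul_div]
  have i1 := h1 ha
  have i2 := h1 hb
  have i3 := h1 ha'
  gcongr

/-- `f_t'(z) = exp ∫_0^t 2/Z_s(f_t z)^2 ds`. -/
theorem hasDerivAt_ffl (hW : ContinuousOn W (Ici 0)) (ht : 0 ≤ t) {z : ℂ} (hz : 0 < z.im) :
    HasDerivAt (ffl W t)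
      (Complex.exp (∫ r in (0:ℝ)..t, 2 / (Zfl W r (ffl W t z)) ^ 2)) z := by
  rw [hasDerivAt_iff_tendsto_slope]
  set K : ℂ → ℂ := fun w => ∫ r in (0:ℝ)..t, 2 / (Zfl W r (ffl W t w) * Zfl W r (ffl W t z)) with hK
  have hKz : K z = ∫ r in (0:ℝ)..t, 2 / (Zfl W r (ffl W t z)) ^ 2 := by
    simp only [hK, sq]
  have hnhds : ∀ᶠ w in 𝓝 z, z.im / 2 < w.im :=
    (Complex.continuous_im.tendsto z).eventually_const_lt (by linarith)
  have hint : ∀ w : ℂ, 0 < w.im → IntervalIntegrable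
      (fun r => 2 / (Zfl W r (ffl W t w) * Zfl W r (ffl W t z))) volume 0 t := by
    intro w hw
    refine ContinuousOn.intervalIntegrable ?_
    rw [uIcc_of_le ht]
    exact continuousOn_ker (contOn_Icc hW t) (isSol_ffl hW ht hw) (isSol_ffl hW ht hz)
  have hKlip : ∀ᶠ w in 𝓝 z, ‖K w - K z‖ ≤
      (2 / (z.im / 2 * z.im * z.im) * Real.exp (2 / (z.im / 2 * z.im) * t) * t) * ‖w - z‖ := by
    filter_upwards [hnhds] with w hw
    have hw0 : 0 < w.im := by linarith
    simp only [hK]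
    rw [← intervalIntegral.integral_sub (hint w hw0) (hint z hz)]
    have := intervalIntegral.norm_integral_le_of_norm_le_const (a := 0) (b := t)
      (f := fun r => 2 / (Zfl W r (ffl W t w) * Zfl W r (ffl W t z)) -
        2 / (Zfl W r (ffl W t z) * Zfl W r (ffl W t z)))
      (C := 2 / (z.im / 2 * z.im * z.im) * Real.exp (2 / (z.im / 2 * z.im) * t) * ‖w - z‖) (by
        intro r hr
        rw [uIoc_of_le ht] at hr
        have hr' : r ∈ Icc (0 : ℝ) t := ⟨hr.1.le, hr.2⟩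
        refine (kernel_diff_le hz (by positivity : (0 : ℝ) < z.im / 2) (im_le_Zfl_ffl hW ht hz hr')
          (im_le_Zfl_ffl hW ht hz hr') (hw.le.trans (im_le_Zfl_ffl hW ht hw0 hr'))).trans ?_
        rw [mul_assoc (2 / (z.im / 2 * z.im * z.im))]
        have hpos : (0 : ℝ) ≤ 2 / (z.im / 2 * z.im * z.im) := by positivity
        refine mul_le_mul_of_nonneg_left ?_ hpos
        have e : Zfl W r (ffl W t w) - Zfl W r (ffl W t z) =
            gfl W r (ffl W t w) - gfl W r (ffl W t z) := by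
          simp only [Zfl]; ring
        rw [e, mul_comm]
        refine (norm_gfl_ffl_sub_gfl_ffl_le hW ht hw0 hz hr').trans ?_
        refine mul_le_mul_of_nonneg_left (Real.exp_le_exp.2 ?_) (norm_nonneg _)
        refine mul_le_mul_of_nonneg_right ?_ ht
        gcongr)
    rw [sub_zero, abs_of_nonneg ht] at this
    refine this.trans (le_of_eq ?_)
    ring
  have hKc : Tendsto K (𝓝 z) (𝓝 (K z)) := by
    rw [tendsto_iff_norm_sub_tendsto_zero]
    refine squeeze_zero' (Eventually.of_forall fun _ => norm_nonneg _) hKlip ?_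
    have : Tendsto (fun w : ℂ => ‖w - z‖) (𝓝 z) (𝓝 (0 : ℝ)) := by
      have hc : Continuous fun w : ℂ => ‖w - z‖ := (continuous_id.sub continuous_const).norm
      have := hc.tendsto z
      simpa using this
    simpa using this.const_mul
      (2 / (z.im / 2 * z.im * z.im) * Real.exp (2 / (z.im / 2 * z.im) * t) * t)
  have hexp : Tendsto (fun w => Complex.exp (K w)) (𝓝[≠] z) (𝓝 (Complex.exp (K z))) :=
    ((Complex.continuous_exp.tendsto _).comp hKc).mono_left nhdsWithin_le_nhds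
  rw [← hKz]
  refine hexp.congr' ?_
  filter_upwards [nhdsWithin_le_nhds hnhds, self_mem_nhdsWithin] with w hw hne
  have hw0 : 0 < w.im := by linarith
  have hsub := ffl_sub hW ht hw0 hz
  have hne' : w - z ≠ 0 := sub_ne_zero.2 hne
  rw [slope_def_field, hsub, mul_comm, mul_div_assoc, div_self hne', mul_one]

lemma differentiableOn_ffl (hW : ContinuousOn W (Ici 0)) (ht : 0 ≤ t) :
    DifferentiableOn ℂ (ffl W t) {z | 0 < z.im} :=
  fun _ hz => (hasDerivAt_ffl hW ht hz).differentiableAt.differentiableWithinAt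

lemma deriv_ffl (hW : ContinuousOn W (Ici 0)) (ht : 0 ≤ t) {z : ℂ} (hz : 0 < z.im) :
    deriv (ffl W t) z = Complex.exp (∫ r in (0:ℝ)..t, 2 / (Zfl W r (ffl W t z)) ^ 2) :=
  (hasDerivAt_ffl hW ht hz).deriv

lemma deriv_ffl_ne (hW : ContinuousOn W (Ici 0)) (ht : 0 ≤ t) {z : ℂ} (hz : 0 < z.im) :
    deriv (ffl W t) z ≠ 0 := by
  rw [deriv_ffl hW ht hz]; exact Complex.exp_ne_zero _

/-! ## cocycle property -/

theorem ffl_add (hW : ContinuousOn W (Ici 0)) {s u : ℝ} (hs : 0 ≤ s) (hu : 0 ≤ u) {z : ℂ}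
    (hz : 0 < z.im) : ffl W (s + u) z = ffl W s (ffl (shift W s) u z) := by
  have hsu : 0 ≤ s + u := add_nonneg hs hu
  have hsh : ContinuousOn (shift W s) (Ici 0) := by
    refine (hW.comp ((continuous_const.add continuous_id).continuousOn) ?_).sub continuousOn_const
    intro x hx
    exact add_nonneg hs hx
  have hsol := isSol_ffl hW hsu hz
  set G : ℝ → ℂ := fun r => gfl W r (ffl W (s + u) z) with hG
  -- the shifted solution
  have h2 : IsSol (shift W s) u (fun v => G (s + v) - W s) := by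
    intro v hv
    have hv' : s + v ∈ Icc (0 : ℝ) (s + u) := ⟨add_nonneg hs hv.1, by linarith [hv.2]⟩
    obtain ⟨p, d⟩ := hsol (s + v) hv'
    refine ⟨by simpa [sub_ofReal_im] using p, ?_⟩
    have hmap : MapsTo (fun v : ℝ => s + v) (Icc 0 u) (Icc 0 (s + u)) := by
      intro x hx
      exact ⟨add_nonneg hs hx.1, by linarith [hx.2]⟩
    have d1 : HasDerivWithinAt (fun v : ℝ => s + v) 1 (Icc 0 u) v :=
      ((hasDerivAt_id v).const_add s).hasDerivWithinAt
    have d2 := HasDerivWithinAt.scomp v d d1 hmap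
    have d3 := d2.sub_const (W s : ℂ)
    have e : (2 : ℂ) / (G (s + v) - W s - (shift W s v : ℝ)) = (1 : ℝ) • (2 / (G (s + v) - W (s + v))) := by
      rw [one_smul]
      simp only [shift]
      push_cast
      congr 1
      ring
    rw [e]
    exact d3
  have h3 : ffl (shift W s) u z = G s - W s := by
    have ha := alive_of_isSol h2 (right_mem_Icc.2 hu)
    have hg := gfl_eq_of_isSol hsh h2 (right_mem_Icc.2 hu)
    have e0 : G (s + 0) - (W s : ℂ) = G s - W s := by rw [add_zero]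
    rw [e0] at ha hg
    refine injOn_gfl' hsh (ffl_alive hsh hu hz) ha ?_
    rw [gfl_ffl hsh hu hz, hg]
    have : G (s + u) = z + W (s + u) := gfl_ffl hW hsu hz
    rw [this]
    simp only [shift]
    push_cast
    ring
  have hmem : s ∈ Icc (0 : ℝ) (s + u) := ⟨hs, by linarith⟩
  have ha : Alive W (ffl W (s + u) z) s := by
    have h5 : G 0 = ffl W (s + u) z := gfl_zero_ffl hW hsu hz
    have := alive_of_isSol hsol hmem
    rwa [h5] at this
  have h4 : Zfl W s (ffl W (s + u) z) = ffl (shift W s) u z := by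
    rw [h3]; rfl
  rw [← h4, ffl_Zfl hW ha]

/-! ## node FL2: hull estimates -/

lemma norm_exp_sub_one_le_exp (w : ℂ) : ‖Complex.exp w - 1‖ ≤ Real.exp ‖w‖ - 1 := by
  have h := NormedSpace.exp_series_hasSum_exp' (𝕂 := ℂ) w
  have := Complex.norm_exp_sub_sum_le_exp_norm_sub_sum w 1
  simpa using this

section FL2
variable (hW : ContinuousOn W (Ici 0)) {T r y : ℝ} (hT : 0 ≤ T) (hTr : T ≤ r ^ 2)
  (hWr : |W T| ≤ r) (hy : 0 < y) (hry : 10 * r ≤ y)
include hW hT hTr hy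

include hWr hry in
/-- FL2a: `|f_T(iy) - iy| ≤ 3 ρ_T` (in fact for any `r ≥ |W_T|`, `r² ≥ T`, `y ≥ 10 r`). -/
theorem norm_ffl_I_sub_le : ‖ffl W T (y * I) - y * I‖ ≤ 3 * r := by
  have hr : 0 ≤ r := (abs_nonneg _).trans hWr
  have hz : 0 < ((y : ℂ) * I).im := by simpa using hy
  have h1 := norm_ffl_sub_le hW hT hz
  have e1 : ((y : ℂ) * I).im = y := by simp
  rw [e1] at h1
  have h2 : 2 * T / y ≤ r := by
    rw [div_le_iff₀ hy]
    nlinarith
  have h3 : ffl W T (y * I) - y * I = (ffl W T (y * I) - (y * I + W T)) + (W T : ℂ) := by ring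
  rw [h3]
  refine (norm_add_le _ _).trans ?_
  have h4 : ‖(W T : ℂ)‖ ≤ r := by rwa [Complex.norm_real, Real.norm_eq_abs]
  linarith

/-- FL2b: `|∫_0^T 2/Z_s(f_T(iy))² ds| ≤ 2 ρ_T²/y²`. -/
theorem norm_integral_I_le :
    ‖∫ s in (0:ℝ)..T, 2 / (Zfl W s (ffl W T (y * I))) ^ 2‖ ≤ 2 * r ^ 2 / y ^ 2 := by
  have hz : 0 < ((y : ℂ) * I).im := by simpa using hy
  have h1 := norm_integral_kernel_le hW hT hz hz (left_mem_Icc.2 hT)
  have e1 : ((y : ℂ) * I).im = y := by simp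
  rw [e1] at h1
  simp only [← sq] at h1
  refine h1.trans ?_
  rw [sub_zero, div_mul_eq_mul_div]
  gcongr

/-- the derivative at `iy` is close to one -/
theorem norm_deriv_ffl_I_sub_one_le :
    ‖deriv (ffl W T) (y * I) - 1‖ ≤ Real.exp (2 * r ^ 2 / y ^ 2) - 1 := by
  have hz : 0 < ((y : ℂ) * I).im := by simpa using hy
  rw [deriv_ffl hW hT hz]
  refine (norm_exp_sub_one_le_exp _).trans ?_
  have := Real.exp_le_exp.2 (norm_integral_I_le hW hT hTr hy)
  linarith

end FL2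

end Crest.Agent.R162.FLC
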