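import Mathlib
import Crest.Agent.R162.FLDef

/-!
Row 162 (S0243), node FL-D: stability of the chordal Loewner flow in the driving function, and
measurability of the flow (helper899).
-/

set_option autoImplicit false

open Set MeasureTheory Filter Topology
open scoped NNReal

namespace Crest.Agent.R162.FLD

open Crest.Agent.R162.FL

/-! ### Truncated field -/

/-- raise the imaginary part to at least `δ` -/
noncomputable def trD (δ : ℝ) (x : ℂ) : ℂ := ⟨x.re, max x.im δ⟩

lemma trD_of_le {δ : ℝ} {x : ℂ} (h : δ ≤ x.im) : trD δ x = x := by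
  apply Complex.ext <;> simp [trD, h]

lemma norm_trD_sub_le (δ : ℝ) (x y : ℂ) : ‖trD δ x - trD δ y‖ ≤ ‖x - y‖ := by
  rw [Complex.norm_def, Complex.norm_def]
  apply Real.sqrt_le_sqrt
  rw [Complex.normSq_apply, Complex.normSq_apply]
  simp only [trD, Complex.sub_re, Complex.sub_im]
  have h := sq_le_sq.2 (abs_max_sub_max_le_abs x.im y.im δ)
  nlinarith [h]

lemma le_norm_trD_sub {δ : ℝ} (x : ℂ) (w : ℝ) : δ ≤ ‖trD δ x - w‖ := by
  have h := Complex.abs_im_le_norm (trD δ x - w)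
  have h2 : (trD δ x - w).im = max x.im δ := by simp [trD]
  rw [h2] at h
  exact (le_max_right _ _).trans ((le_abs_self _).trans h)

lemma norm_two_div_sub_le {δ : ℝ} (hδ : 0 < δ) {a b : ℂ} (ha : δ ≤ ‖a‖) (hb : δ ≤ ‖b‖) :
    ‖2 / a - 2 / b‖ ≤ 2 / δ ^ 2 * ‖a - b‖ := by
  have ha0 : a ≠ 0 := norm_pos_iff.1 (hδ.trans_le ha)
  have hb0 : b ≠ 0 := norm_pos_iff.1 (hδ.trans_le hb)
  have h : 2 / a - 2 / b = 2 * (b - a) / (a * b) := by field_simp
  rw [h, norm_div, norm_mul, norm_mul, norm_sub_rev b a, Complex.norm_ofNat, div_mul_eq_mul_div]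
  have h2 : δ ^ 2 ≤ ‖a‖ * ‖b‖ := by
    rw [sq]; exact mul_le_mul ha hb hδ.le (norm_nonneg _)
  exact div_le_div_of_nonneg_left (by positivity) (by positivity) h2

/-- the truncated Loewner field -/
noncomputable def vD (W : ℝ → ℝ) (δ s : ℝ) (x : ℂ) : ℂ := 2 / (trD δ x - W s)

lemma norm_vD_sub_le {W : ℝ → ℝ} {δ : ℝ} (hδ : 0 < δ) (s : ℝ) (x y : ℂ) :
    ‖vD W δ s x - vD W δ s y‖ ≤ 2 / δ ^ 2 * ‖x - y‖ := by
  refine (norm_two_div_sub_le hδ (le_norm_trD_sub x _) (le_norm_trD_sub y _)).trans ?_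
  have : trD δ x - (W s : ℂ) - (trD δ y - W s) = trD δ x - trD δ y := by ring
  rw [this]
  gcongr
  exact norm_trD_sub_le δ x y

lemma norm_vD_le {W : ℝ → ℝ} {δ : ℝ} (hδ : 0 < δ) (s : ℝ) (x : ℂ) :
    ‖vD W δ s x‖ ≤ 2 / δ := by
  rw [vD, norm_div, Complex.norm_ofNat]
  exact div_le_div_of_nonneg_left (by norm_num) hδ (le_norm_trD_sub x _)

lemma continuousOn_vD {W : ℝ → ℝ} {δ T : ℝ} (hδ : 0 < δ) (hW : ContinuousOn W (Icc 0 T))
    (x : ℂ) : ContinuousOn (fun s => vD W δ s x) (Icc 0 T) := by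
  unfold vD
  refine ContinuousOn.div continuousOn_const ?_ ?_
  · exact continuousOn_const.sub (Complex.continuous_ofReal.comp_continuousOn hW)
  · intro s _
    exact norm_pos_iff.1 (hδ.trans_le (le_norm_trD_sub x _))

lemma exists_trunc {W : ℝ → ℝ} {δ T : ℝ} (hT : 0 ≤ T) (hδ : 0 < δ)
    (hW : ContinuousOn W (Icc 0 T)) (z : ℂ) :
    ∃ X : ℝ → ℂ, X 0 = z ∧
      ∀ s ∈ Icc 0 T, HasDerivWithinAt X (vD W δ s (X s)) (Icc 0 T) s := by
  have h1 : ((Real.toNNReal (2 / δ * T) : ℝ≥0) : ℝ) = 2 / δ * T :=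
    Real.coe_toNNReal _ (by positivity)
  have h2 : ((Real.toNNReal (2 / δ) : ℝ≥0) : ℝ) = 2 / δ :=
    Real.coe_toNNReal _ (by positivity)
  have h3 : ((Real.toNNReal (2 / δ ^ 2) : ℝ≥0) : ℝ) = 2 / δ ^ 2 :=
    Real.coe_toNNReal _ (by positivity)
  have hpl : IsPicardLindelof (vD W δ) (⟨0, left_mem_Icc.2 hT⟩ : Icc (0:ℝ) T) z
      (Real.toNNReal (2 / δ * T)) 0 (Real.toNNReal (2 / δ)) (Real.toNNReal (2 / δ ^ 2)) := by
    refine ⟨?_, ?_, ?_, ?_⟩
    · intro t _
      apply LipschitzWith.lipschitzOnWith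
      apply LipschitzWith.of_dist_le_mul
      intro x y
      rw [dist_eq_norm, dist_eq_norm, h3]
      exact norm_vD_sub_le hδ t x y
    · intro x _
      exact continuousOn_vD hδ hW x
    · intro t _ x _
      rw [h2]
      exact norm_vD_le hδ t x
    · rw [h1, h2]
      simp [hT]
  obtain ⟨X, h0, h1⟩ := hpl.exists_eq_forall_mem_Icc_hasDerivWithinAt₀
  exact ⟨X, h0, h1⟩

lemma hasDerivWithinAt_Ici {f : ℝ → ℂ} {f' : ℂ} {T t : ℝ} (ht : t ∈ Ico 0 T)
    (h : HasDerivWithinAt f f' (Icc 0 T) t) : HasDerivWithinAt f f' (Ici t) t :=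
  h.mono_of_mem_nhdsWithin (Icc_mem_nhdsGE_of_mem ht)

/-- Gronwall: a flow and a truncated flow. -/
lemma gronwall_trunc {W W' : ℝ → ℝ} {z z' : ℂ} {δ T η : ℝ} {g X : ℝ → ℂ} (hδ : 0 < δ)
    (hη : 0 ≤ η) (hg0 : g 0 = z) (hgδ : ∀ s ∈ Icc 0 T, δ ≤ (g s).im)
    (hg : ∀ s ∈ Icc 0 T, HasDerivWithinAt g (2 / (g s - W s)) (Icc 0 T) s)
    (hX0 : X 0 = z') (hX : ∀ s ∈ Icc 0 T, HasDerivWithinAt X (vD W' δ s (X s)) (Icc 0 T) s)
    (hWW : ∀ s ∈ Icc 0 T, |W s - W' s| ≤ η) (hzz : ‖z - z'‖ ≤ η) :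
    ∀ s ∈ Icc 0 T, ‖g s - X s‖ ≤ 2 * Real.exp (2 / δ ^ 2 * T) * η := by
  intro s hs
  have hK : (0:ℝ) < 2 / δ ^ 2 := by positivity
  have h3 : ((Real.toNNReal (2 / δ ^ 2) : ℝ≥0) : ℝ) = 2 / δ ^ 2 :=
    Real.coe_toNNReal _ hK.le
  have key := dist_le_of_approx_trajectories_ODE (v := vD W' δ) (f := g) (g := X)
    (f' := fun s => 2 / (g s - W s)) (g' := fun s => vD W' δ s (X s)) (a := 0) (b := T)
    (K := Real.toNNReal (2 / δ ^ 2)) (εf := 2 / δ ^ 2 * η) (εg := 0) (δ := η) ?_ ?_ ?_ ?_ ?_ ?_ ?_ ?_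
    s hs
  · rw [dist_eq_norm] at key
    refine key.trans ?_
    rw [h3, gronwallBound_of_K_ne_0 hK.ne']
    simp only [add_zero, sub_zero]
    have h1 : 2 / δ ^ 2 * η / (2 / δ ^ 2) = η := by field_simp
    rw [h1]
    have h2 : Real.exp (2 / δ ^ 2 * s) ≤ Real.exp (2 / δ ^ 2 * T) := by
      apply Real.exp_le_exp.2
      exact mul_le_mul_of_nonneg_left hs.2 hK.le
    nlinarith [Real.exp_pos (2 / δ ^ 2 * s)]
  · intro t
    apply LipschitzWith.of_dist_le_mul
    intro x y
    rw [dist_eq_norm, dist_eq_norm, h3]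
    exact norm_vD_sub_le hδ t x y
  · exact fun t ht => (hg t ht).continuousWithinAt
  · exact fun t ht => hasDerivWithinAt_Ici ht (hg t (Ico_subset_Icc_self ht))
  · intro t ht
    have ht' := Ico_subset_Icc_self ht
    have hgt := hgδ t ht'
    have e1 : (2 : ℂ) / (g t - W t) = 2 / (trD δ (g t) - W t) := by rw [trD_of_le hgt]
    rw [dist_eq_norm, e1, vD]
    refine (norm_two_div_sub_le hδ (le_norm_trD_sub _ _) (le_norm_trD_sub _ _)).trans ?_
    have : trD δ (g t) - (W t : ℂ) - (trD δ (g t) - W' t) = ((W' t - W t : ℝ) : ℂ) := by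
      push_cast; ring
    rw [this, Complex.norm_real, Real.norm_eq_abs, abs_sub_comm]
    gcongr
    exact hWW t ht'
  · exact fun t ht => (hX t ht).continuousWithinAt
  · exact fun t ht => hasDerivWithinAt_Ici ht (hX t (Ico_subset_Icc_self ht))
  · intro t _
    simp
  · rw [hg0, hX0, dist_eq_norm]
    exact hzz

lemma IsFlow.continuousOn' {W : ℝ → ℝ} {z : ℂ} {T : ℝ} {g : ℝ → ℂ} (hg : IsFlow W z T g) :
    ContinuousOn g (Icc 0 T) := fun s hs => (hg.deriv s hs).continuousWithinAt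

lemma exists_im_lower {W : ℝ → ℝ} {z : ℂ} {T : ℝ} {g : ℝ → ℂ} (hT : 0 ≤ T)
    (hg : IsFlow W z T g) : ∃ m, 0 < m ∧ ∀ s ∈ Icc 0 T, m ≤ (g s).im := by
  have hc : ContinuousOn (fun s => (g s).im) (Icc 0 T) :=
    Complex.continuous_im.comp_continuousOn (IsFlow.continuousOn' hg)
  obtain ⟨s0, hs0, hmin⟩ := isCompact_Icc.exists_isMinOn (nonempty_Icc.2 hT) hc
  exact ⟨(g s0).im, hg.im_pos s0 hs0, fun s hs => hmin hs⟩

/-- **Stability of the Loewner flow** in the driving function and in the starting point. -/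
theorem stab {W : ℝ → ℝ} {z : ℂ} {T : ℝ} {g : ℝ → ℂ} (hT : 0 ≤ T) (hg : IsFlow W z T g) :
    ∃ C η0 : ℝ, 0 < C ∧ 0 < η0 ∧ ∀ (W' : ℝ → ℝ) (z' : ℂ) (η : ℝ), 0 ≤ η → η ≤ η0 →
      ContinuousOn W' (Icc 0 T) → (∀ s ∈ Icc 0 T, |W s - W' s| ≤ η) → ‖z - z'‖ ≤ η →
      ∃ g', IsFlow W' z' T g' ∧ ∀ s ∈ Icc 0 T, ‖g s - g' s‖ ≤ C * η := by
  obtain ⟨m, hm, hmg⟩ := exists_im_lower hT hg
  set δ := m / 2 with hδdef
  have hδ : 0 < δ := by positivity
  set C := 2 * Real.exp (2 / δ ^ 2 * T) with hC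
  have hCpos : 0 < C := by positivity
  refine ⟨C, δ / C, hCpos, by positivity, ?_⟩
  intro W' z' η hη hη0 hW' hWW hzz
  obtain ⟨X, hX0, hX⟩ := exists_trunc hT hδ hW' z'
  have hclose := gronwall_trunc hδ hη hg.init (fun s hs => (by linarith [hmg s hs] : δ ≤ (g s).im))
    hg.deriv hX0 hX hWW hzz
  have him : ∀ s ∈ Icc 0 T, δ ≤ (X s).im := by
    intro s hs
    have h1 := hclose s hs
    have h2 : C * η ≤ δ := by
      have := mul_le_mul_of_nonneg_left hη0 hCpos.le
      rwa [mul_div_cancel₀ _ hCpos.ne'] at this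
    have h3 := Complex.abs_im_le_norm (g s - X s)
    rw [Complex.sub_im] at h3
    have h4 := (le_abs_self _).trans (h3.trans (h1.trans h2))
    linarith [hmg s hs]
  refine ⟨X, ⟨hX0, fun s hs => hδ.trans_le (him s hs), fun s hs => ?_⟩, hclose⟩
  have := hX s hs
  rwa [vD, trD_of_le (him s hs)] at this

/-- **Uniqueness of the Loewner flow.** -/
theorem eqOn_of_isFlow {W W' : ℝ → ℝ} {z : ℂ} {T : ℝ} {g g' : ℝ → ℂ} (hT : 0 ≤ T)
    (hg : IsFlow W z T g) (hg' : IsFlow W' z T g') (hWW : ∀ s ∈ Icc 0 T, W s = W' s) :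
    ∀ s ∈ Icc 0 T, g s = g' s := by
  obtain ⟨m, hm, hmg⟩ := exists_im_lower hT hg
  obtain ⟨m', hm', hmg'⟩ := exists_im_lower hT hg'
  set δ := min m m' with hδdef
  have hδ : 0 < δ := lt_min hm hm'
  intro s hs
  have h := gronwall_trunc (W := W) (W' := W') (z := z) (z' := z) (η := 0) (X := g') hδ le_rfl
    hg.init (fun s hs => (min_le_left _ _).trans (hmg s hs)) hg.deriv hg'.init (fun s hs => ?_)
    (fun s hs => by rw [hWW s hs]; simp) (by simp) s hs
  · simp only [mul_zero] at h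
    exact sub_eq_zero.1 (norm_le_zero_iff.1 h)
  · have := hg'.deriv s hs
    rwa [vD, trD_of_le ((min_le_right _ _).trans (hmg' s hs))]

lemma IsFlow.mono' {W : ℝ → ℝ} {z : ℂ} {T s : ℝ} {g : ℝ → ℂ} (hsT : s ≤ T)
    (hg : IsFlow W z T g) : IsFlow W z s g :=
  ⟨hg.init, fun u hu => hg.im_pos u ⟨hu.1, hu.2.trans hsT⟩,
    fun u hu => (hg.deriv u ⟨hu.1, hu.2.trans hsT⟩).mono (Icc_subset_Icc_right hsT)⟩

lemma gfl_eq {W : ℝ → ℝ} {z : ℂ} {T s : ℝ} {g : ℝ → ℂ} (hg : IsFlow W z T g)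
    (hs : s ∈ Icc 0 T) : gfl W s z = g s := by
  have hA : Alive W z s := ⟨hs.1, g, IsFlow.mono' hs.2 hg⟩
  rw [gfl, dif_pos hA]
  exact eqOn_of_isFlow hs.1 hA.2.choose_spec (IsFlow.mono' hs.2 hg) (fun _ _ => rfl) s
    (right_mem_Icc.2 hs.1)

lemma gfl_of_not_alive {W : ℝ → ℝ} {z : ℂ} {t : ℝ} (h : ¬ Alive W z t) : gfl W t z = 0 := by
  rw [gfl, dif_neg h]

lemma IsFlow.congr_drive {W W' : ℝ → ℝ} {z : ℂ} {T : ℝ} {g : ℝ → ℂ} (hg : IsFlow W z T g)
    (hWW : ∀ s ∈ Icc 0 T, W s = W' s) : IsFlow W' z T g :=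
  ⟨hg.init, hg.im_pos, fun s hs => by rw [← hWW s hs]; exact hg.deriv s hs⟩

/-- the flow up to time `T` depends only on the driving function on `[0,T]` -/
lemma alive_congr {W W' : ℝ → ℝ} {z : ℂ} {T : ℝ} (hWW : ∀ s ∈ Icc 0 T, W s = W' s) :
    Alive W z T ↔ Alive W' z T :=
  ⟨fun ⟨h0, g, hg⟩ => ⟨h0, g, IsFlow.congr_drive hg hWW⟩,
    fun ⟨h0, g, hg⟩ => ⟨h0, g, IsFlow.congr_drive hg fun s hs => (hWW s hs).symm⟩⟩

lemma gfl_congr {W W' : ℝ → ℝ} {z : ℂ} {T : ℝ} (hWW : ∀ s ∈ Icc 0 T, W s = W' s) :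
    gfl W T z = gfl W' T z := by
  by_cases h : Alive W z T
  · obtain ⟨h0, g, hg⟩ := h
    rw [gfl_eq hg (right_mem_Icc.2 h0), gfl_eq (IsFlow.congr_drive hg hWW) (right_mem_Icc.2 h0)]
  · rw [gfl_of_not_alive h, gfl_of_not_alive (fun h' => h ((alive_congr hWW).2 h'))]

/-! ### Path space -/

/-- restriction of a path to `[0,T]`, reparametrised by the unit interval -/
noncomputable def toI (T : ℝ) (hT : 0 ≤ T) (w : ℝ → ℝ) (h : ContinuousOn w (Icc 0 T)) :
    C(unitInterval, ℝ) :=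
  ⟨fun u => w (T * u), by
    refine h.comp_continuous (by fun_prop) (fun u => ⟨by have := u.2.1; positivity, ?_⟩)
    exact mul_le_of_le_one_right hT u.2.2⟩

/-- the path on the line given by a path on the unit interval -/
noncomputable def ofI (T : ℝ) (p : C(unitInterval, ℝ)) : ℝ → ℝ :=
  fun s => p (projIcc 0 1 zero_le_one (s / T))

lemma continuous_ofI (T : ℝ) (p : C(unitInterval, ℝ)) : Continuous (ofI T p) := by
  unfold ofI
  exact p.continuous.comp (continuous_projIcc.comp (continuous_id.div_const T))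

lemma ofI_toI {T : ℝ} (hT : 0 < T) (w : ℝ → ℝ) (h : ContinuousOn w (Icc 0 T)) :
    ∀ s ∈ Icc 0 T, w s = ofI T (toI T hT.le w h) s := by
  intro s hs
  have h1 : s / T ∈ Icc (0:ℝ) 1 := ⟨div_nonneg hs.1 hT.le, (div_le_one hT).2 hs.2⟩
  simp only [ofI, toI, ContinuousMap.coe_mk]
  rw [projIcc_of_mem _ h1]
  congr 1
  simp only
  field_simp

lemma abs_ofI_sub_le (T : ℝ) (p q : C(unitInterval, ℝ)) (s : ℝ) :
    |ofI T p s - ofI T q s| ≤ dist p q := by
  rw [← Real.dist_eq]
  exact ContinuousMap.dist_apply_le_dist _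

/-- Borel σ-algebra on path space (local instance only) -/
@[reducible] def instMSC : MeasurableSpace C(unitInterval, ℝ) := borel _
attribute [local instance] instMSC
local instance instBSC : BorelSpace C(unitInterval, ℝ) := ⟨rfl⟩

section

variable {Ω : Type*} {m : MeasurableSpace Ω}

lemma measurable_toI {T : ℝ} (hT : 0 ≤ T) {W : Ω → ℝ → ℝ}
    (hc : ∀ ω, ContinuousOn (W ω) (Icc 0 T))
    (hm : ∀ s ∈ Icc 0 T, Measurable (fun ω => W ω s)) :
    Measurable (fun ω => toI T hT (W ω) (hc ω)) := by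
  refine measurable_of_tendsto_metrizable
    (f := fun n ω => bernsteinApproximation n (toI T hT (W ω) (hc ω))) ?_ ?_
  · intro n
    have h1 : Continuous (fun v : Fin (n + 1) → ℝ =>
        ∑ k : Fin (n + 1), v k • (bernstein n k : C(unitInterval, ℝ))) := by
      fun_prop
    have h2 : Measurable (fun ω => fun k : Fin (n + 1) =>
        toI T hT (W ω) (hc ω) (bernstein.z k)) := by
      refine measurable_pi_lambda _ (fun k => ?_)
      simp only [toI, ContinuousMap.coe_mk]
      apply hm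
      refine ⟨?_, ?_⟩
      · have := (bernstein.z k).2.1
        positivity
      · exact mul_le_of_le_one_right hT (bernstein.z k).2.2
    have h3 := h1.measurable.comp h2
    convert h3 using 1
    funext ω
    ext x
    simp [bernsteinApproximation, mul_comm]
  · rw [tendsto_pi_nhds]
    intro ω
    exact bernsteinApproximation_uniform _

end

/-! ### Continuity on path space -/

/-- clamp of a time to `[0,T]` -/
noncomputable def clampT (T s : ℝ) : ℝ := max 0 (min s T)

lemma clampT_mem {T : ℝ} (hT : 0 ≤ T) (s : ℝ) : clampT T s ∈ Icc 0 T :=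
  ⟨le_max_left _ _, max_le hT (min_le_right _ _)⟩

lemma clampT_of_mem {T s : ℝ} (hs : s ∈ Icc 0 T) : clampT T s = s := by
  rw [clampT, min_eq_left hs.2, max_eq_right hs.1]

lemma continuous_clampT (T : ℝ) : Continuous (clampT T) := by
  unfold clampT; fun_prop

/-- the set of pairs (path, point) alive at time `T` -/
def aliveC (T : ℝ) : Set (C(unitInterval, ℝ) × ℂ) := {p | Alive (ofI T p.1) p.2 T}

lemma stabC {T : ℝ} (hT : 0 ≤ T) {p : C(unitInterval, ℝ) × ℂ} {g : ℝ → ℂ}
    (hg : IsFlow (ofI T p.1) p.2 T g) :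
    ∃ C η0 : ℝ, 0 < C ∧ 0 < η0 ∧ ∀ q : C(unitInterval, ℝ) × ℂ, dist p q ≤ η0 →
      ∃ g', IsFlow (ofI T q.1) q.2 T g' ∧ ∀ s ∈ Icc 0 T, ‖g s - g' s‖ ≤ C * dist p q := by
  obtain ⟨C, η0, hC, hη0, h⟩ := stab hT hg
  refine ⟨C, η0, hC, hη0, fun q hq => ?_⟩
  refine h (ofI T q.1) q.2 (dist p q) dist_nonneg hq (continuous_ofI T q.1).continuousOn
    (fun s _ => (abs_ofI_sub_le T _ _ s).trans ?_) ?_
  · rw [Prod.dist_eq]; exact le_max_left _ _
  · rw [← dist_eq_norm, Prod.dist_eq]; exact le_max_right _ _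

lemma isOpen_aliveC {T : ℝ} (hT : 0 ≤ T) : IsOpen (aliveC T) := by
  rw [Metric.isOpen_iff]
  rintro p ⟨-, g, hg⟩
  obtain ⟨C, η0, hC, hη0, h⟩ := stabC hT hg
  refine ⟨η0, hη0, fun q hq => ?_⟩
  obtain ⟨g', hg', -⟩ := h q (by rw [dist_comm]; exact (Metric.mem_ball.1 hq).le)
  exact ⟨hT, g', hg'⟩

/-- the flow on path space -/
noncomputable def FC (T : ℝ) (x : (C(unitInterval, ℝ) × ℂ) × ℝ) : ℂ :=
  gfl (ofI T x.1.1) (clampT T x.2) x.1.2

lemma continuousOn_FC {T : ℝ} (hT : 0 ≤ T) :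
    ContinuousOn (FC T) {x | x.1 ∈ aliveC T} := by
  rintro ⟨p, s⟩ hp
  obtain ⟨-, g, hg⟩ := hp
  obtain ⟨C, η0, hC, hη0, h⟩ := stabC hT hg
  have hgc : Continuous (fun u => g (clampT T u)) :=
    (IsFlow.continuousOn' hg).comp_continuous (continuous_clampT T) (clampT_mem hT)
  apply ContinuousAt.continuousWithinAt
  rw [ContinuousAt, tendsto_iff_dist_tendsto_zero]
  have hev : ∀ᶠ x : (C(unitInterval, ℝ) × ℂ) × ℝ in 𝓝 (p, s),
      dist (FC T x) (FC T (p, s)) ≤ C * dist p x.1 + dist (g (clampT T x.2)) (g (clampT T s)) := by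
    have h1 : ∀ᶠ x : (C(unitInterval, ℝ) × ℂ) × ℝ in 𝓝 (p, s), dist x.1 p < η0 := by
      have : Tendsto (fun x : (C(unitInterval, ℝ) × ℂ) × ℝ => x.1) (𝓝 (p, s)) (𝓝 p) :=
        continuous_fst.tendsto _
      exact this.eventually (Metric.ball_mem_nhds p hη0)
    filter_upwards [h1] with x hx
    obtain ⟨g', hg', hd⟩ := h x.1 (by rw [dist_comm]; exact hx.le)
    have e1 : FC T x = g' (clampT T x.2) := gfl_eq hg' (clampT_mem hT _)
    have e2 : FC T (p, s) = g (clampT T s) := gfl_eq hg (clampT_mem hT _)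
    rw [e1, e2]
    refine (dist_triangle _ (g (clampT T x.2)) _).trans ?_
    gcongr
    rw [dist_comm, dist_eq_norm]
    exact hd _ (clampT_mem hT _)
  have hlim : Tendsto (fun x : (C(unitInterval, ℝ) × ℂ) × ℝ =>
      C * dist p x.1 + dist (g (clampT T x.2)) (g (clampT T s))) (𝓝 (p, s)) (𝓝 0) := by
    have hcont : Continuous (fun x : (C(unitInterval, ℝ) × ℂ) × ℝ =>
        C * dist p x.1 + dist (g (clampT T x.2)) (g (clampT T s))) := by
      have h2 : Continuous (fun x : (C(unitInterval, ℝ) × ℂ) × ℝ => g (clampT T x.2)) :=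
        hgc.comp continuous_snd
      exact (continuous_const.mul (continuous_const.dist continuous_fst)).add
        (h2.dist continuous_const)
    have := hcont.tendsto (p, s)
    simpa using this
  exact squeeze_zero' (Eventually.of_forall fun _ => dist_nonneg) hev hlim

section

variable {Ω : Type*} {m : MeasurableSpace Ω} {W : Ω → ℝ → ℝ}

/-- the alive set is jointly measurable in `(ω, z)` -/
theorem measurableSet_alive_prod {T : ℝ} (hT : 0 < T)
    (hc : ∀ ω, ContinuousOn (W ω) (Icc 0 T))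
    (hm : ∀ s ∈ Icc 0 T, Measurable (fun ω => W ω s)) :
    MeasurableSet {p : Ω × ℂ | Alive (W p.1) p.2 T} := by
  have h1 : Measurable (fun p : Ω × ℂ => (toI T hT.le (W p.1) (hc p.1), p.2)) :=
    ((measurable_toI hT.le hc hm).comp measurable_fst).prodMk measurable_snd
  have h2 := h1 (isOpen_aliveC hT.le).measurableSet
  convert h2 using 1
  ext p
  simp only [mem_ofPred_eq, mem_preimage, aliveC]
  exact alive_congr (ofI_toI hT (W p.1) (hc p.1))

/-- the flow up to time `T` on the event that the point is alive at time `T`, jointly measurable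
in `(ω, z, s)` -/
theorem measurable_gfl_prod {T : ℝ} (hT : 0 < T)
    (hc : ∀ ω, ContinuousOn (W ω) (Icc 0 T))
    (hm : ∀ s ∈ Icc 0 T, Measurable (fun ω => W ω s)) :
    Measurable (fun x : (Ω × ℂ) × ℝ =>
      {p : Ω × ℂ | Alive (W p.1) p.2 T}.indicator (fun p => gfl (W p.1) (clampT T x.2) p.2) x.1) := by
  classical
  have h1 : Measurable (fun x : (Ω × ℂ) × ℝ =>
      ((toI T hT.le (W x.1.1) (hc x.1.1), x.1.2), x.2)) :=
    (((measurable_toI hT.le hc hm).comp (measurable_fst.comp measurable_fst)).prodMk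
      (measurable_snd.comp measurable_fst)).prodMk measurable_snd
  have hopen : IsOpen {x : (C(unitInterval, ℝ) × ℂ) × ℝ | x.1 ∈ aliveC T} :=
    (isOpen_aliveC hT.le).preimage continuous_fst
  have h2 : Measurable ({x : (C(unitInterval, ℝ) × ℂ) × ℝ | x.1 ∈ aliveC T}.piecewise
      (FC T) (fun _ => 0)) :=
    (continuousOn_FC hT.le).measurable_piecewise continuousOn_const hopen.measurableSet
  convert h2.comp h1 using 1
  funext x
  have hagree := ofI_toI hT (W x.1.1) (hc x.1.1)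
  simp only [Function.comp, Set.piecewise, mem_ofPred_eq, aliveC, indicator]
  by_cases h : Alive (W x.1.1) x.1.2 T
  · rw [if_pos h, if_pos ((alive_congr hagree).1 h)]
    simp only [FC]
    exact gfl_congr fun s hs => hagree s ⟨hs.1, hs.2.trans (clampT_mem hT.le _).2⟩
  · rw [if_neg h, if_neg (fun h' => h ((alive_congr hagree).2 h'))]

end

/-! ### Slightly longer life -/

lemma IsFlow.alive' {W : ℝ → ℝ} {z : ℂ} {T s : ℝ} (h : Alive W z T) (hs : s ∈ Icc 0 T) :
    Alive W z s := by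
  obtain ⟨-, g, hg⟩ := h
  exact ⟨hs.1, g, IsFlow.mono' hs.2 hg⟩

/-- a point alive at time `s < T` lives a bit longer (only continuity on `[0,T]` is used) -/
theorem exists_alive_gt {W : ℝ → ℝ} {z : ℂ} {s T : ℝ} (hW : ContinuousOn W (Icc 0 T))
    (hsT : s < T) (h : Alive W z s) : ∃ u, s < u ∧ u ≤ T ∧ Alive W z u := by
  obtain ⟨hs0, g, hg⟩ := h
  obtain ⟨m', hm', hmg⟩ := exists_im_lower hs0 hg
  set δ := m' / 2 with hδdef
  have hδ : 0 < δ := by positivity
  have hT : 0 ≤ T := hs0.trans hsT.le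
  obtain ⟨X, hX0, hX⟩ := exists_trunc hT hδ hW z
  have hXg : ∀ u ∈ Icc 0 s, g u = X u := by
    intro u hu
    have h := gronwall_trunc (W := W) (W' := W) (z := z) (z' := z) (η := 0) (X := X) hδ le_rfl
      hg.init (fun v hv => (by linarith [hmg v hv] : δ ≤ (g v).im)) hg.deriv hX0
      (fun v hv => (hX v ⟨hv.1, hv.2.trans hsT.le⟩).mono (Icc_subset_Icc_right hsT.le))
      (fun v _ => by simp) (by simp) u hu
    simp only [mul_zero] at h
    exact sub_eq_zero.1 (norm_le_zero_iff.1 h)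
  have hXc : ContinuousOn (fun v => (X v).im) (Icc 0 T) :=
    Complex.continuous_im.comp_continuousOn fun v hv => (hX v hv).continuousWithinAt
  have hXs : δ < (X s).im := by
    rw [← hXg s (right_mem_Icc.2 hs0)]
    linarith [hmg s (right_mem_Icc.2 hs0)]
  have hev : ∀ᶠ v in 𝓝[Icc 0 T] s, δ < (X v).im :=
    (hXc s ⟨hs0, hsT.le⟩).eventually (lt_mem_nhds hXs)
  rw [eventually_nhdsWithin_iff, Metric.eventually_nhds_iff] at hev
  obtain ⟨ε, hε, hball⟩ := hev
  refine ⟨min T (s + ε / 2), lt_min hsT (by linarith), min_le_left _ _, ?_⟩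
  have hu : min T (s + ε / 2) ≤ s + ε / 2 := min_le_right _ _
  have huT : min T (s + ε / 2) ≤ T := min_le_left _ _
  have him : ∀ v ∈ Icc 0 (min T (s + ε / 2)), δ ≤ (X v).im := by
    intro v hv
    rcases le_or_gt v s with hvs | hvs
    · rw [← hXg v ⟨hv.1, hvs⟩]
      linarith [hmg v ⟨hv.1, hvs⟩]
    · refine (hball ?_ ⟨hv.1, hv.2.trans huT⟩).le
      rw [Real.dist_eq, abs_of_pos (by linarith)]
      linarith [hv.2]
  refine ⟨le_min hT (by linarith), X, hX0, fun v hv => hδ.trans_le (him v hv), fun v hv => ?_⟩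
  have := (hX v ⟨hv.1, hv.2.trans huT⟩).mono (Icc_subset_Icc_right huT)
  rwa [vD, trD_of_le (him v hv)] at this

section

variable {Ω : Type*} {m : MeasurableSpace Ω} {W : Ω → ℝ → ℝ}

lemma measurable_of_cover {α β ι : Type*} [MeasurableSpace α] [MeasurableSpace β] [Countable ι]
    {f : α → β} (S : ι → Set α) (F : ι → α → β) (hS : ∀ i, MeasurableSet (S i))
    (hcov : ∀ x, ∃ i, x ∈ S i) (hF : ∀ i, Measurable (F i)) (h : ∀ i, ∀ x ∈ S i, f x = F i x) :
    Measurable f := by
  intro A hA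
  have : f ⁻¹' A = ⋃ i, S i ∩ (F i) ⁻¹' A := by
    ext x
    simp only [mem_preimage, mem_iUnion, mem_inter_iff]
    constructor
    · intro hx
      obtain ⟨i, hi⟩ := hcov x
      exact ⟨i, hi, by rw [← h i x hi]; exact hx⟩
    · rintro ⟨i, hi, hx⟩
      rw [h i x hi]; exact hx
  rw [this]
  exact MeasurableSet.iUnion fun i => (hS i).inter (hF i hA)

/-- the alive set is jointly measurable in `(ω, z, s)`, `s ≤ T` -/
theorem measurableSet_alive_joint {T : ℝ}
    (hc : ∀ ω, ContinuousOn (W ω) (Icc 0 T))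
    (hm : ∀ s ∈ Icc 0 T, Measurable (fun ω => W ω s)) :
    MeasurableSet {x : (Ω × ℂ) × ℝ | x.2 ≤ T ∧ Alive (W x.1.1) x.1.2 x.2} := by
  have hset : {x : (Ω × ℂ) × ℝ | x.2 ≤ T ∧ Alive (W x.1.1) x.1.2 x.2} =
      (⋃ q : ℚ, if 0 < (q : ℝ) ∧ (q : ℝ) ≤ T then
        {x : (Ω × ℂ) × ℝ | 0 ≤ x.2 ∧ x.2 < q} ∩ {x | Alive (W x.1.1) x.1.2 q} else ∅) ∪
      (if 0 < T then {x : (Ω × ℂ) × ℝ | x.2 = T} ∩ {x | Alive (W x.1.1) x.1.2 T} else
        if T = 0 then {x : (Ω × ℂ) × ℝ | x.2 = 0 ∧ 0 < x.1.2.im} else ∅) := by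
    ext x
    simp only [mem_ofPred_eq, mem_union, mem_iUnion]
    constructor
    · rintro ⟨hxT, hA⟩
      rcases hxT.lt_or_eq with hlt | heq
      · left
        obtain ⟨u, hu1, hu2, hu3⟩ := exists_alive_gt (hc x.1.1) hlt hA
        obtain ⟨q, hq1, hq2⟩ := exists_rat_btwn hu1
        refine ⟨q, ?_⟩
        rw [if_pos ⟨hA.1.trans_lt hq1, (hq2.le).trans hu2⟩]
        exact ⟨⟨hA.1, hq1⟩, IsFlow.alive' hu3 ⟨hA.1.trans hq1.le, hq2.le⟩⟩
      · right
        rcases hA.1.lt_or_eq with hpos | hzero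
        · rw [if_pos (heq ▸ hpos)]
          exact ⟨heq, by rw [mem_ofPred_eq, ← heq]; exact hA⟩
        · have hT0 : T = 0 := by rw [← heq, ← hzero]
          rw [if_neg (by rw [hT0]; exact lt_irrefl _), if_pos hT0]
          refine ⟨hzero.symm, ?_⟩
          obtain ⟨-, g, hg⟩ := hA
          have := hg.im_pos 0 ⟨le_rfl, by rw [← hzero]⟩
          rwa [hg.init] at this
    · rintro (⟨q, hq⟩ | h)
      · split_ifs at hq with hcase
        · obtain ⟨⟨h0, h1⟩, h2⟩ := hq
          exact ⟨h1.le.trans hcase.2, IsFlow.alive' h2 ⟨h0, h1.le⟩⟩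
        · exact absurd hq (notMem_empty _)
      · split_ifs at h with h1 h2
        · obtain ⟨h3, h4⟩ := h
          rw [mem_ofPred_eq] at h3 h4
          rw [h3]; exact ⟨le_rfl, h4⟩
        · obtain ⟨h3, h4⟩ := h
          rw [h3, h2]
          refine ⟨le_rfl, le_rfl, fun _ => x.1.2, rfl, fun _ _ => h4, ?_⟩
          intro s hs
          have hs0 : s = 0 := le_antisymm hs.2 hs.1
          subst hs0
          simp only [Icc_self]
          exact hasDerivWithinAt_iff_hasFDerivWithinAt.2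
            (HasFDerivWithinAt.of_finite (finite_singleton _))
        · exact absurd h (notMem_empty _)
  rw [hset]
  refine MeasurableSet.union (MeasurableSet.iUnion fun q => ?_) ?_
  · split_ifs with h
    · refine MeasurableSet.inter ?_ ?_
      · exact (measurableSet_le measurable_const measurable_snd).inter
          (measurableSet_lt measurable_snd measurable_const)
      · have := measurableSet_alive_prod (W := W) h.1
          (fun ω => (hc ω).mono (Icc_subset_Icc_right h.2))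
          (fun s hs => hm s ⟨hs.1, hs.2.trans h.2⟩)
        exact measurable_fst this
    · exact MeasurableSet.empty
  · split_ifs with h1 h2
    · refine MeasurableSet.inter ?_ ?_
      · exact measurableSet_eq_fun measurable_snd measurable_const
      · exact measurable_fst (measurableSet_alive_prod (W := W) h1 hc hm)
    · exact (measurableSet_eq_fun measurable_snd measurable_const).inter
        (measurableSet_lt measurable_const
          (Complex.measurable_im.comp (measurable_snd.comp measurable_fst)))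
    · exact MeasurableSet.empty

lemma gfl_zero_time {w : ℝ → ℝ} {z : ℂ} (h : Alive w z 0) : gfl w 0 z = z := by
  obtain ⟨h0, g, hg⟩ := h
  rw [gfl_eq hg ⟨le_rfl, le_rfl⟩, hg.init]

/-- **the flow `(ω, z, s) ↦ gfl (W ω) s z`, `s ≤ T`, is jointly measurable** (value `0` for points
which are not alive and for `s > T`) -/
theorem measurable_gfl_joint {T : ℝ}
    (hc : ∀ ω, ContinuousOn (W ω) (Icc 0 T))
    (hm : ∀ s ∈ Icc 0 T, Measurable (fun ω => W ω s)) :
    Measurable (fun x : (Ω × ℂ) × ℝ =>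
      (Iic T).indicator (fun s => gfl (W x.1.1) s x.1.2) x.2) := by
  classical
  have hAll := measurableSet_alive_joint (W := W) hc hm
  -- the cover
  let S : Option (Option (Option ℚ)) → Set ((Ω × ℂ) × ℝ) := fun o =>
    match o with
    | none => {x | x.2 ≤ T ∧ Alive (W x.1.1) x.1.2 x.2}ᶜ
    | some none => {x | x.2 = 0} ∩ {x | x.2 ≤ T ∧ Alive (W x.1.1) x.1.2 x.2}
    | some (some none) => if 0 < T then
        {x : (Ω × ℂ) × ℝ | x.2 = T} ∩ {x | Alive (W x.1.1) x.1.2 T} else ∅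
    | some (some (some q)) => if 0 < (q : ℝ) ∧ (q : ℝ) ≤ T then
        {x : (Ω × ℂ) × ℝ | 0 ≤ x.2 ∧ x.2 < q} ∩ {x | Alive (W x.1.1) x.1.2 q} else ∅
  let F : Option (Option (Option ℚ)) → (Ω × ℂ) × ℝ → ℂ := fun o =>
    match o with
    | none => fun _ => 0
    | some none => fun x => x.1.2
    | some (some none) => fun x =>
        {p : Ω × ℂ | Alive (W p.1) p.2 T}.indicator
          (fun p => gfl (W p.1) (clampT T x.2) p.2) x.1
    | some (some (some q)) => fun x =>
        {p : Ω × ℂ | Alive (W p.1) p.2 (q : ℝ)}.indicator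
          (fun p => gfl (W p.1) (clampT q x.2) p.2) x.1
  let F' : Option (Option (Option ℚ)) → (Ω × ℂ) × ℝ → ℂ := fun o =>
    match o with
    | none => fun _ => 0
    | some none => fun x => x.1.2
    | some (some none) => if 0 < T then F (some (some none)) else fun _ => 0
    | some (some (some q)) =>
        if 0 < (q : ℝ) ∧ (q : ℝ) ≤ T then F (some (some (some q))) else fun _ => 0
  refine measurable_of_cover S F' ?_ ?_ ?_ ?_
  · rintro (_ | _ | _ | q)
    · exact hAll.compl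
    · exact (measurableSet_eq_fun measurable_snd measurable_const).inter hAll
    · simp only [S]
      split_ifs with h1
      · exact (measurableSet_eq_fun measurable_snd measurable_const).inter
          (measurable_fst (measurableSet_alive_prod (W := W) h1 hc hm))
      · exact MeasurableSet.empty
    · simp only [S]
      split_ifs with h
      · refine MeasurableSet.inter ?_ ?_
        · exact (measurableSet_le measurable_const measurable_snd).inter
            (measurableSet_lt measurable_snd measurable_const)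
        · exact measurable_fst (measurableSet_alive_prod (W := W) h.1
            (fun ω => (hc ω).mono (Icc_subset_Icc_right h.2))
            (fun s hs => hm s ⟨hs.1, hs.2.trans h.2⟩))
      · exact MeasurableSet.empty
  · intro x
    by_cases hx : x.2 ≤ T ∧ Alive (W x.1.1) x.1.2 x.2
    · rcases eq_or_ne x.2 0 with h0 | h0
      · exact ⟨some none, h0, hx⟩
      · have hpos : 0 < x.2 := lt_of_le_of_ne hx.2.1 (Ne.symm h0)
        rcases hx.1.lt_or_eq with hlt | heq
        · obtain ⟨u, hu1, hu2, hu3⟩ := exists_alive_gt (hc x.1.1) hlt hx.2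
          obtain ⟨q, hq1, hq2⟩ := exists_rat_btwn hu1
          refine ⟨some (some (some q)), ?_⟩
          simp only [S]
          rw [if_pos ⟨hpos.trans hq1, (hq2.le).trans hu2⟩]
          exact ⟨⟨hpos.le, hq1⟩, IsFlow.alive' hu3 ⟨hpos.le.trans hq1.le, hq2.le⟩⟩
        · refine ⟨some (some none), ?_⟩
          simp only [S]
          rw [if_pos (heq ▸ hpos)]
          exact ⟨heq, by rw [mem_ofPred_eq, ← heq]; exact hx.2⟩
    · exact ⟨none, hx⟩
  · rintro (_ | _ | _ | q)
    · exact measurable_const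
    · exact measurable_snd.comp measurable_fst
    · simp only [F', F]
      split_ifs with h1
      · exact measurable_gfl_prod h1 hc hm
      · exact measurable_const
    · simp only [F', F]
      split_ifs with h
      · exact measurable_gfl_prod h.1
            (fun ω => (hc ω).mono (Icc_subset_Icc_right h.2))
            (fun s hs => hm s ⟨hs.1, hs.2.trans h.2⟩)
      · exact measurable_const
  · rintro (_ | _ | _ | q) x hx
    · simp only [F']
      simp only [S, mem_compl_iff, mem_ofPred_eq, not_and] at hx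
      by_cases hxT : x.2 ≤ T
      · rw [indicator_of_mem (mem_Iic.2 hxT), gfl_of_not_alive (hx hxT)]
      · rw [indicator_of_notMem (by simpa using hxT)]
    · simp only [F']
      obtain ⟨h1, h2, h3⟩ := hx
      rw [mem_ofPred_eq] at h1
      rw [indicator_of_mem (mem_Iic.2 h2), h1]
      rw [h1] at h3
      exact gfl_zero_time h3
    · simp only [S] at hx
      split_ifs at hx with hcase
      · obtain ⟨h1, h2⟩ := hx
        rw [mem_ofPred_eq] at h1 h2
        simp only [F', F, if_pos hcase]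
        rw [indicator_of_mem (mem_Iic.2 h1.le), h1,
          indicator_of_mem (by rw [mem_ofPred_eq]; exact h2),
          clampT_of_mem ⟨hcase.le, le_rfl⟩]
      · exact absurd hx (notMem_empty _)
    · simp only [S] at hx
      split_ifs at hx with hcase
      · obtain ⟨⟨h0, h1⟩, h2⟩ := hx
        rw [mem_ofPred_eq] at h2
        simp only [F', F, if_pos hcase]
        rw [indicator_of_mem (mem_Iic.2 (h1.le.trans hcase.2)),
          indicator_of_mem (by rw [mem_ofPred_eq]; exact h2),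
          clampT_of_mem ⟨h0, h1.le⟩]
      · exact absurd hx (notMem_empty _)

/-- the driving path is jointly measurable on `Ω × [0,T]` -/
theorem measurable_drive_joint {T : ℝ}
    (hc : ∀ ω, ContinuousOn (W ω) (Icc 0 T))
    (hm : ∀ s ∈ Icc 0 T, Measurable (fun ω => W ω s)) :
    Measurable (fun x : Ω × ℝ => (Icc 0 T).indicator (fun s => W x.1 s) x.2) := by
  classical
  rcases lt_trichotomy T 0 with hT | hT | hT
  · have : (fun x : Ω × ℝ => (Icc 0 T).indicator (fun s => W x.1 s) x.2) = fun _ => 0 := by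
      funext x
      rw [Icc_eq_empty (not_le.2 hT), indicator_empty]
    rw [this]; exact measurable_const
  · subst hT
    have : (fun x : Ω × ℝ => (Icc 0 0).indicator (fun s => W x.1 s) x.2) =
        fun x => ({0} : Set ℝ).indicator (fun _ => W x.1 0) x.2 := by
      funext x
      rw [Icc_self]
      by_cases h : x.2 = 0
      · rw [indicator_of_mem (by simpa using h), indicator_of_mem (by simpa using h), h]
      · rw [indicator_of_notMem (by simpa using h), indicator_of_notMem (by simpa using h)]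
    rw [this]
    have h0 : Measurable (fun x : Ω × ℝ => W x.1 0) :=
      (hm 0 ⟨le_rfl, le_rfl⟩).comp measurable_fst
    have : (fun x : Ω × ℝ => ({0} : Set ℝ).indicator (fun _ => W x.1 0) x.2) =
        (Prod.snd ⁻¹' ({0} : Set ℝ)).indicator (fun x : Ω × ℝ => W x.1 0) := by
      funext x
      simp only [indicator, mem_preimage]
    rw [this]
    exact h0.indicator (measurable_snd (measurableSet_singleton 0))
  · have h1 : Measurable (fun x : Ω × ℝ =>
        (toI T hT.le (W x.1) (hc x.1), projIcc (0:ℝ) 1 zero_le_one (x.2 / T))) :=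
      ((measurable_toI hT.le hc hm).comp measurable_fst).prodMk
        (continuous_projIcc.measurable.comp (measurable_snd.div_const T))
    have h2 : Continuous (fun y : C(unitInterval, ℝ) × unitInterval => y.1 y.2) := by fun_prop
    have h3 := (h2.measurable.comp h1).indicator
      (measurable_snd (measurableSet_Icc (a := (0:ℝ)) (b := T)))
    convert h3 using 1
    funext x
    simp only [indicator, mem_preimage, Function.comp]
    by_cases h : x.2 ∈ Icc 0 T
    · rw [if_pos h, if_pos h]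
      exact ofI_toI hT (W x.1) (hc x.1) x.2 h
    · rw [if_neg h, if_neg h]

/-! ### Corollaries (final interface) -/

/-- `{ω | Alive (W ω) z t}` is measurable (use with `m := F t`) -/
theorem measurableSet_alive {t : ℝ} (z : ℂ)
    (hc : ∀ ω, ContinuousOn (W ω) (Icc 0 t))
    (hm : ∀ s ∈ Icc 0 t, Measurable (fun ω => W ω s)) :
    MeasurableSet {ω | Alive (W ω) z t} := by
  have h := measurableSet_alive_joint (W := W) hc hm
  have h2 : Measurable (fun ω : Ω => (((ω, z), t) : (Ω × ℂ) × ℝ)) :=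
    (measurable_id.prodMk measurable_const).prodMk measurable_const
  have h3 := h2 h
  convert h3 using 1
  ext ω
  simp

/-- `ω ↦ gfl (W ω) s z` is measurable (use with `m := F t`, `s ≤ t`) -/
theorem measurable_gfl {t s : ℝ} (z : ℂ) (hst : s ≤ t)
    (hc : ∀ ω, ContinuousOn (W ω) (Icc 0 t))
    (hm : ∀ s ∈ Icc 0 t, Measurable (fun ω => W ω s)) :
    Measurable (fun ω => gfl (W ω) s z) := by
  have h := measurable_gfl_joint (W := W) hc hm
  have h2 : Measurable (fun ω : Ω => (((ω, z), s) : (Ω × ℂ) × ℝ)) :=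
    (measurable_id.prodMk measurable_const).prodMk measurable_const
  convert h.comp h2 using 1
  funext ω
  simp only [Function.comp]
  rw [indicator_of_mem (mem_Iic.2 hst)]

/-- `(ω, z) ↦ gfl (W ω) s z` is measurable -/
theorem measurable_gfl_pt {t s : ℝ} (hst : s ≤ t)
    (hc : ∀ ω, ContinuousOn (W ω) (Icc 0 t))
    (hm : ∀ s ∈ Icc 0 t, Measurable (fun ω => W ω s)) :
    Measurable (fun p : Ω × ℂ => gfl (W p.1) s p.2) := by
  have h := measurable_gfl_joint (W := W) hc hm
  have h2 : Measurable (fun p : Ω × ℂ => ((p, s) : (Ω × ℂ) × ℝ)) :=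
    measurable_id.prodMk measurable_const
  convert h.comp h2 using 1
  funext ω
  simp only [Function.comp]
  rw [indicator_of_mem (mem_Iic.2 hst)]

/-- `(ω, z) ↦ ∫ s in 0..t, φ (s, gfl (W ω) s z, W ω s)` is measurable, with no aliveness
assumption -/
theorem measurable_integral {E : Type*} [NormedAddCommGroup E] [NormedSpace ℝ E]
    [SecondCountableTopology E] [MeasurableSpace E] [BorelSpace E]
    {t : ℝ} (ht : 0 ≤ t)
    (hc : ∀ ω, ContinuousOn (W ω) (Icc 0 t))
    (hm : ∀ s ∈ Icc 0 t, Measurable (fun ω => W ω s))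
    {φ : ℝ × ℂ × ℝ → E} (hφ : Measurable φ) :
    Measurable (fun p : Ω × ℂ => ∫ s in (0:ℝ)..t, φ (s, gfl (W p.1) s p.2, W p.1 s)) := by
  have h1 := measurable_gfl_joint (W := W) hc hm
  have h2 := measurable_drive_joint (W := W) hc hm
  have h3 : Measurable (fun x : (Ω × ℂ) × ℝ => φ (x.2,
      (Iic t).indicator (fun s => gfl (W x.1.1) s x.1.2) x.2,
      (Icc 0 t).indicator (fun s => W x.1.1 s) x.2)) := by
    refine hφ.comp (measurable_snd.prodMk (h1.prodMk ?_))
    have : Measurable (fun x : (Ω × ℂ) × ℝ => (x.1.1, x.2)) :=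
      (measurable_fst.comp measurable_fst).prodMk measurable_snd
    exact h2.comp this
  have h4 := (h3.stronglyMeasurable.integral_prod_right'
    (ν := volume.restrict (Ioc 0 t))).measurable
  convert h4 using 1
  funext p
  rw [intervalIntegral.integral_of_le ht]
  refine setIntegral_congr_fun measurableSet_Ioc (fun s hs => ?_)
  simp only
  have hs' : s ∈ Icc 0 t := ⟨hs.1.le, hs.2⟩
  rw [indicator_of_mem (mem_Iic.2 hs.2), indicator_of_mem hs']

/-- `(ω, z) ↦ ∫_0^t ‖Z_s‖⁻² ds` (K-time) is measurable -/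
theorem measurable_ath {t : ℝ} (ht : 0 ≤ t)
    (hc : ∀ ω, ContinuousOn (W ω) (Icc 0 t))
    (hm : ∀ s ∈ Icc 0 t, Measurable (fun ω => W ω s)) :
    Measurable (fun p : Ω × ℂ => ∫ s in (0:ℝ)..t, 1 / ‖Zfl (W p.1) s p.2‖ ^ 2) := by
  have hφ : Measurable (fun x : ℝ × ℂ × ℝ => (1:ℝ) / ‖x.2.1 - (x.2.2 : ℂ)‖ ^ 2) := by
    fun_prop
  exact measurable_integral ht hc hm hφ

/-- `(ω, z) ↦ Υ_t(z) = Im g_t exp(∫_0^t Re (2/Z_s²) ds)` is measurable -/
theorem measurable_ups {t : ℝ} (ht : 0 ≤ t)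
    (hc : ∀ ω, ContinuousOn (W ω) (Icc 0 t))
    (hm : ∀ s ∈ Icc 0 t, Measurable (fun ω => W ω s)) :
    Measurable (fun p : Ω × ℂ => (gfl (W p.1) t p.2).im *
      Real.exp (∫ s in (0:ℝ)..t, 2 * ((Zfl (W p.1) s p.2) ^ 2)⁻¹.re)) := by
  have hφ : Measurable (fun x : ℝ × ℂ × ℝ => 2 * ((x.2.1 - (x.2.2 : ℂ)) ^ 2)⁻¹.re) := by
    fun_prop
  refine (Complex.measurable_im.comp (measurable_gfl_pt le_rfl hc hm)).mul
    (Real.measurable_exp.comp ?_)
  exact measurable_integral ht hc hm hφ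

end

end Crest.Agent.R162.FLD
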