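import Mathlib

/-!
Row 162, frozen conventions of the nodes OS, SM, OP, U*, LB* (helper9).
Times are `ℝ≥0`-valued; stopping times are finite functions `Ω → ℝ≥0` (capped hitting times);
everything probabilistic is written in set-integral form over `A ∈ F_σ` (`EvST`).
-/

set_option autoImplicit false

open MeasureTheory ProbabilityTheory
open scoped NNReal ENNReal

namespace Crest.Agent.R162.OS

variable {Ω : Type*} {m : MeasurableSpace Ω}

/-- `τ` is a finite stopping time of the raw filtration `F`. -/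
def IsST (F : Filtration ℝ≥0 m) (τ : Ω → ℝ≥0) : Prop :=
  ∀ t, MeasurableSet[F t] {ω | τ ω ≤ t}

/-- `A ∈ F_τ`. -/
def EvST (F : Filtration ℝ≥0 m) (τ : Ω → ℝ≥0) (A : Set Ω) : Prop :=
  ∀ t, MeasurableSet[F t] (A ∩ {ω | τ ω ≤ t})

/-- First `t ≥ σ` with `X t ω ∈ K`, capped at `max T σ`. -/
noncomputable def hit {E : Type*} (X : ℝ≥0 → Ω → E) (K : Set E) (σ : Ω → ℝ≥0) (T : ℝ≥0)
    (ω : Ω) : ℝ≥0 :=
  sInf ({t | σ ω ≤ t ∧ X t ω ∈ K} ∪ {max T (σ ω)})

/-- Brownian set-up: all paths continuous, started at `0`, adapted to `F`, Gaussian increments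
independent of the past `F s`. -/
structure IsBM (F : Filtration ℝ≥0 m) (B : ℝ≥0 → Ω → ℝ) (P : Measure Ω) : Prop where
  cont : ∀ ω, Continuous fun t => B t ω
  zero : ∀ ω, B 0 ω = 0
  adapted : ∀ t, Measurable[F t] (B t)
  law : ∀ s u, P.map (fun ω => B (s + u) ω - B s ω) = gaussianReal 0 u
  indep : ∀ s, Indep
    (MeasurableSpace.comap (fun ω (u : ℝ≥0) => B (s + u) ω - B s ω) MeasurableSpace.pi) (F s) P

end Crest.Agent.R162.OS
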