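import Mathlib
import Crest.Prelude.Def_Loewner
import Crest.Agent.R162.FLE

/-!
Row 162 (S0243), node FL-E, part 2: the concrete measurability statements for the driving function
`driving κ B ω = √κ B_·(ω)` of a Brownian motion with filtration (`OS.IsBM`), at stopping times and at
measurable times (helper899).
-/

set_option autoImplicit false

open Set MeasureTheory Filter Topology ProbabilityTheory
open scoped NNReal ENNReal

namespace Crest.Agent.R162.FLD

open Crest.Agent.R162.FL Crest.Agent.R162.OP Crest.Agent.R162.OS Crest.ProbabilityR.Loewner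

section generic

variable {Ω : Type*} {m' : MeasurableSpace Ω} {W : Ω → ℝ → ℝ} {T : ℝ}

/-- joint measurability in `(ω, s)` for one point -/
lemma JM.pt {E : Type*} [MeasurableSpace E] [Zero E] {f : Ω × ℂ → ℝ → E}
    (hf : JM (m := m') T f) (z : ℂ) :
    Measurable (fun x : Ω × ℝ => (Icc 0 T).indicator (f (x.1, z)) x.2) := by
  unfold JM at hf
  have : Measurable (fun x : Ω × ℝ => ((x.1, z), x.2)) :=
    (measurable_fst.prodMk measurable_const).prodMk measurable_snd
  exact Measurable.comp hf this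

lemma JM.set {E : Type*} [MeasurableSpace E] [Zero E] {f : Ω × ℂ → ℝ → E}
    (hf : JM (m := m') T f) {A : Set E} (hA : MeasurableSet A) :
    MeasurableSet {x : (Ω × ℂ) × ℝ | x.2 ∈ Icc 0 T ∧ f x.1 x.2 ∈ A} := by
  unfold JM at hf
  have h := (hf hA).inter (measurable_snd (measurableSet_Icc (a := (0:ℝ)) (b := T)))
  convert h using 1
  ext x
  simp only [mem_ofPred_eq, mem_inter_iff, mem_preimage]
  constructor
  · rintro ⟨h1, h2⟩
    refine ⟨?_, h1⟩
    rwa [indicator_of_mem h1]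
  · rintro ⟨h1, h2⟩
    rw [indicator_of_mem h2] at h1
    exact ⟨h2, h1⟩

lemma measurableSet_section {S : Set ((Ω × ℂ) × ℝ)} (hS : MeasurableSet S) (z : ℂ) :
    MeasurableSet {x : Ω × ℝ | ((x.1, z), x.2) ∈ S} := by
  have : Measurable (fun x : Ω × ℝ => ((x.1, z), x.2)) :=
    (measurable_fst.prodMk measurable_const).prodMk measurable_snd
  exact this hS

end generic

section brownian

variable {Ω : Type*} {m : MeasurableSpace Ω} {F : Filtration ℝ≥0 m} {P : Measure Ω}
  {B : ℝ≥0 → Ω → ℝ}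

lemma driving_cont (hB : IsBM F B P) (κ : ℝ) (ω : Ω) : Continuous (driving κ B ω) := by
  unfold driving
  exact continuous_const.mul ((hB.cont ω).comp continuous_real_toNNReal)

lemma driving_meas (hB : IsBM F B P) (κ : ℝ) {t : ℝ≥0} {s : ℝ} (hs : s ∈ Icc 0 (t : ℝ)) :
    Measurable[F t] (fun ω => driving κ B ω s) := by
  have h1 : Measurable[F t] (B s.toNNReal) := by
    refine (hB.adapted s.toNNReal).mono (F.mono ?_) le_rfl
    rw [Real.toNNReal_le_iff_le_coe]
    exact hs.2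
  exact h1.const_mul _

lemma driving_meas' (hB : IsBM F B P) (κ : ℝ) (s : ℝ) :
    Measurable (fun ω => driving κ B ω s) := by
  have h1 : Measurable (B s.toNNReal) := (hB.adapted s.toNNReal).mono (F.le _) le_rfl
  exact h1.const_mul _

/-! #### joint measurability (progressive form: `m := F t`) -/

theorem jmF_gfl (hB : IsBM F B P) (κ : ℝ) (t : ℝ≥0) :
    JM (m := F t) (t : ℝ) (fun p s => gfl (driving κ B p.1) s p.2) :=
  jm_gfl (m := F t) (fun ω => (driving_cont hB κ ω).continuousOn) (fun _ hs => driving_meas hB κ hs)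

theorem jmF_Zfl (hB : IsBM F B P) (κ : ℝ) (t : ℝ≥0) :
    JM (m := F t) (t : ℝ) (fun p s => Zfl (driving κ B p.1) s p.2) :=
  jm_Zfl (m := F t) (fun ω => (driving_cont hB κ ω).continuousOn) (fun _ hs => driving_meas hB κ hs)

theorem jmF_ups (hB : IsBM F B P) (κ : ℝ) (t : ℝ≥0) :
    JM (m := F t) (t : ℝ) (fun p s => ups (driving κ B p.1) s p.2) :=
  jm_ups (m := F t) (fun ω => (driving_cont hB κ ω).continuousOn) (fun _ hs => driving_meas hB κ hs)

theorem jmF_ath (hB : IsBM F B P) (κ : ℝ) (t : ℝ≥0) :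
    JM (m := F t) (t : ℝ) (fun p s => ath (driving κ B p.1) s p.2) :=
  jm_ath (m := F t) (fun ω => (driving_cont hB κ ω).continuousOn) (fun _ hs => driving_meas hB κ hs)

theorem jmF_sfl (hB : IsBM F B P) (κ : ℝ) (t : ℝ≥0) :
    JM (m := F t) (t : ℝ) (fun p s => sfl (driving κ B p.1) s p.2) :=
  jm_sfl (m := F t) (fun ω => (driving_cont hB κ ω).continuousOn) (fun _ hs => driving_meas hB κ hs)

theorem jmF_xfl (hB : IsBM F B P) (κ : ℝ) (t : ℝ≥0) :
    JM (m := F t) (t : ℝ) (fun p s => xfl (driving κ B p.1) s p.2) :=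
  jm_xfl (m := F t) (fun ω => (driving_cont hB κ ω).continuousOn) (fun _ hs => driving_meas hB κ hs)

theorem jmF_gr (hB : IsBM F B P) (κ κ' : ℝ) (t : ℝ≥0) :
    JM (m := F t) (t : ℝ) (fun p s => gr κ' (driving κ B p.1) s p.2) :=
  jm_gr κ' (m := F t) (fun ω => (driving_cont hB κ ω).continuousOn)
    (fun _ hs => driving_meas hB κ hs)

theorem measF_alive (hB : IsBM F B P) (κ : ℝ) (t : ℝ≥0) :
    MeasurableSet[((F t).prod (borel ℂ)).prod (borel ℝ)]
      {x : (Ω × ℂ) × ℝ | x.2 ∈ Icc 0 (t : ℝ) ∧ Alive (driving κ B x.1.1) x.1.2 x.2} :=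
  measurableSet_alive_Icc (m := F t) (fun ω => (driving_cont hB κ ω).continuousOn)
    (fun _ hs => driving_meas hB κ hs)

/-! #### events at stopping times -/

/-- events of the form `(Φ_τ(z)) ∈ A` for a progressively measurable `Φ` -/
theorem evST_of_jm {E : Type*} [MeasurableSpace E] [Zero E] {f : Ω × ℂ → ℝ → E}
    (hf : ∀ t : ℝ≥0, JM (m := F t) (t : ℝ) f) {A : Set E} (hA : MeasurableSet A)
    {τ : Ω → ℝ≥0} (hτ : IsST F τ) (z : ℂ) : EvST F τ {ω | f (ω, z) (τ ω) ∈ A} := by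
  refine evST_of_joint (Q := fun ω s => f (ω, z) s ∈ A) (fun t => ?_) hτ
  exact measurableSet_section (m' := F t) ((hf t).set (m' := F t) hA) z

theorem evST_alive (hB : IsBM F B P) (κ : ℝ) (z : ℂ) {τ : Ω → ℝ≥0} (hτ : IsST F τ) :
    EvST F τ {ω | Alive (driving κ B ω) z (τ ω)} := by
  refine evST_of_joint (Q := fun ω s => Alive (driving κ B ω) z s) (fun t => ?_) hτ
  exact measurableSet_section (m' := F t) (measF_alive hB κ t) z

lemma evST_inter {τ : Ω → ℝ≥0} {A A' : Set Ω} (hA : EvST F τ A) (hA' : EvST F τ A') :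
    EvST F τ (A ∩ A') := by
  intro t
  have := (hA t).inter (hA' t)
  convert this using 1
  ext ω
  simp only [mem_inter_iff]
  tauto

/-- `Υ_τ(z) ∈ A` is in `F_τ` -/
theorem evST_ups (hB : IsBM F B P) (κ : ℝ) (z : ℂ) {A : Set ℝ} (hA : MeasurableSet A)
    {τ : Ω → ℝ≥0} (hτ : IsST F τ) : EvST F τ {ω | ups (driving κ B ω) (τ ω) z ∈ A} :=
  evST_of_jm (f := fun p s => ups (driving κ B p.1) s p.2) (fun t => jmF_ups hB κ t) hA hτ z

theorem evST_ath (hB : IsBM F B P) (κ : ℝ) (z : ℂ) {A : Set ℝ} (hA : MeasurableSet A)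
    {τ : Ω → ℝ≥0} (hτ : IsST F τ) : EvST F τ {ω | ath (driving κ B ω) (τ ω) z ∈ A} :=
  evST_of_jm (f := fun p s => ath (driving κ B p.1) s p.2) (fun t => jmF_ath hB κ t) hA hτ z

theorem evST_sfl (hB : IsBM F B P) (κ : ℝ) (z : ℂ) {A : Set ℝ} (hA : MeasurableSet A)
    {τ : Ω → ℝ≥0} (hτ : IsST F τ) : EvST F τ {ω | sfl (driving κ B ω) (τ ω) z ∈ A} :=
  evST_of_jm (f := fun p s => sfl (driving κ B p.1) s p.2) (fun t => jmF_sfl hB κ t) hA hτ z

theorem evST_xfl (hB : IsBM F B P) (κ : ℝ) (z : ℂ) {A : Set ℝ} (hA : MeasurableSet A)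
    {τ : Ω → ℝ≥0} (hτ : IsST F τ) : EvST F τ {ω | xfl (driving κ B ω) (τ ω) z ∈ A} :=
  evST_of_jm (f := fun p s => xfl (driving κ B p.1) s p.2) (fun t => jmF_xfl hB κ t) hA hτ z

theorem evST_gr (hB : IsBM F B P) (κ κ' : ℝ) (z : ℂ) {A : Set ℝ} (hA : MeasurableSet A)
    {τ : Ω → ℝ≥0} (hτ : IsST F τ) : EvST F τ {ω | gr κ' (driving κ B ω) (τ ω) z ∈ A} :=
  evST_of_jm (f := fun p s => gr κ' (driving κ B p.1) s p.2) (fun t => jmF_gr hB κ κ' t) hA hτ z

theorem evST_gfl (hB : IsBM F B P) (κ : ℝ) (z : ℂ) {A : Set ℂ} (hA : MeasurableSet A)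
    {τ : Ω → ℝ≥0} (hτ : IsST F τ) : EvST F τ {ω | gfl (driving κ B ω) (τ ω) z ∈ A} :=
  evST_of_jm (f := fun p s => gfl (driving κ B p.1) s p.2) (fun t => jmF_gfl hB κ t) hA hτ z

theorem evST_Zfl (hB : IsBM F B P) (κ : ℝ) (z : ℂ) {A : Set ℂ} (hA : MeasurableSet A)
    {τ : Ω → ℝ≥0} (hτ : IsST F τ) : EvST F τ {ω | Zfl (driving κ B ω) (τ ω) z ∈ A} :=
  evST_of_jm (f := fun p s => Zfl (driving κ B p.1) s p.2) (fun t => jmF_Zfl hB κ t) hA hτ z

/-- (M1) of helper620 -/
theorem evST_alive_ups (hB : IsBM F B P) (κ : ℝ) (z : ℂ) (c : ℝ) {τ : Ω → ℝ≥0}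
    (hτ : IsST F τ) :
    EvST F τ {ω | Alive (driving κ B ω) z (τ ω) ∧ c ≤ ups (driving κ B ω) (τ ω) z} :=
  evST_inter (evST_alive hB κ z hτ) (evST_ups hB κ z (A := Ici c) measurableSet_Ici hτ)

/-! #### measurable times, jointly in `(ω, z)` -/

section global

variable {τ : Ω → ℝ≥0}

theorem measurable_ups_at (hB : IsBM F B P) (κ : ℝ) (hτ : Measurable τ) :
    Measurable (fun p : Ω × ℂ => ups (driving κ B p.1) (τ p.1) p.2) :=
  measurable_at (α := Ω × ℂ) (f := fun p s => ups (driving κ B p.1) s p.2)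
    (fun _ => jm_ups (fun ω => (driving_cont hB κ ω).continuousOn) (fun _ _ => driving_meas' hB κ _))
    (τ := fun p => τ p.1) (hτ.comp measurable_fst)

theorem measurable_ath_at (hB : IsBM F B P) (κ : ℝ) (hτ : Measurable τ) :
    Measurable (fun p : Ω × ℂ => ath (driving κ B p.1) (τ p.1) p.2) :=
  measurable_at (α := Ω × ℂ) (f := fun p s => ath (driving κ B p.1) s p.2)
    (fun _ => jm_ath (fun ω => (driving_cont hB κ ω).continuousOn) (fun _ _ => driving_meas' hB κ _))
    (τ := fun p => τ p.1) (hτ.comp measurable_fst)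

theorem measurable_sfl_at (hB : IsBM F B P) (κ : ℝ) (hτ : Measurable τ) :
    Measurable (fun p : Ω × ℂ => sfl (driving κ B p.1) (τ p.1) p.2) :=
  measurable_at (α := Ω × ℂ) (f := fun p s => sfl (driving κ B p.1) s p.2)
    (fun _ => jm_sfl (fun ω => (driving_cont hB κ ω).continuousOn) (fun _ _ => driving_meas' hB κ _))
    (τ := fun p => τ p.1) (hτ.comp measurable_fst)

theorem measurable_xfl_at (hB : IsBM F B P) (κ : ℝ) (hτ : Measurable τ) :
    Measurable (fun p : Ω × ℂ => xfl (driving κ B p.1) (τ p.1) p.2) :=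
  measurable_at (α := Ω × ℂ) (f := fun p s => xfl (driving κ B p.1) s p.2)
    (fun _ => jm_xfl (fun ω => (driving_cont hB κ ω).continuousOn) (fun _ _ => driving_meas' hB κ _))
    (τ := fun p => τ p.1) (hτ.comp measurable_fst)

theorem measurable_gr_at (hB : IsBM F B P) (κ κ' : ℝ) (hτ : Measurable τ) :
    Measurable (fun p : Ω × ℂ => gr κ' (driving κ B p.1) (τ p.1) p.2) :=
  measurable_at (α := Ω × ℂ) (f := fun p s => gr κ' (driving κ B p.1) s p.2)
    (fun _ => jm_gr κ' (fun ω => (driving_cont hB κ ω).continuousOn)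
      (fun _ _ => driving_meas' hB κ _))
    (τ := fun p => τ p.1) (hτ.comp measurable_fst)

theorem measurable_gfl_at (hB : IsBM F B P) (κ : ℝ) (hτ : Measurable τ) :
    Measurable (fun p : Ω × ℂ => gfl (driving κ B p.1) (τ p.1) p.2) :=
  measurable_at (α := Ω × ℂ) (f := fun p s => gfl (driving κ B p.1) s p.2)
    (fun _ => jm_gfl (fun ω => (driving_cont hB κ ω).continuousOn) (fun _ _ => driving_meas' hB κ _))
    (τ := fun p => τ p.1) (hτ.comp measurable_fst)

theorem measurable_Zfl_at (hB : IsBM F B P) (κ : ℝ) (hτ : Measurable τ) :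
    Measurable (fun p : Ω × ℂ => Zfl (driving κ B p.1) (τ p.1) p.2) :=
  measurable_at (α := Ω × ℂ) (f := fun p s => Zfl (driving κ B p.1) s p.2)
    (fun _ => jm_Zfl (fun ω => (driving_cont hB κ ω).continuousOn) (fun _ _ => driving_meas' hB κ _))
    (τ := fun p => τ p.1) (hτ.comp measurable_fst)

theorem measurableSet_alive_at (hB : IsBM F B P) (κ : ℝ) (hτ : Measurable τ) :
    MeasurableSet {p : Ω × ℂ | Alive (driving κ B p.1) p.2 (τ p.1)} :=
  measurableSet_at (α := Ω × ℂ) (Q := fun p s => Alive (driving κ B p.1) p.2 s)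
    (fun _ => measurableSet_alive_Icc (fun ω => (driving_cont hB κ ω).continuousOn)
      (fun _ _ => driving_meas' hB κ _))
    (τ := fun p => τ p.1) (hτ.comp measurable_fst)

/-- (M2a) of helper620 -/
theorem measurableSet_alive_ups_at (hB : IsBM F B P) (κ c : ℝ) (hτ : Measurable τ) :
    MeasurableSet {p : Ω × ℂ | 0 < p.2.im ∧ Alive (driving κ B p.1) p.2 (τ p.1) ∧
      c ≤ ups (driving κ B p.1) (τ p.1) p.2} :=
  (measurableSet_lt measurable_const (Complex.measurable_im.comp measurable_snd)).inter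
    ((measurableSet_alive_at hB κ hτ).inter
      (measurableSet_le measurable_const (measurable_ups_at hB κ hτ)))

/-- (M2b) of helper620 -/
theorem measurable_gr_indicator_at (hB : IsBM F B P) (κ κ' : ℝ) (hτ : Measurable τ) :
    Measurable (fun p : Ω × ℂ =>
      ({p : Ω × ℂ | 0 < p.2.im ∧ Alive (driving κ B p.1) p.2 (τ p.1)}.indicator
        (fun p => gr κ' (driving κ B p.1) (τ p.1) p.2)) p) :=
  (measurable_gr_at hB κ κ' hτ).indicator
    ((measurableSet_lt measurable_const (Complex.measurable_im.comp measurable_snd)).inter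
      (measurableSet_alive_at hB κ hτ))

end global

end brownian

end Crest.Agent.R162.FLD
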