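import Mathlib
import Crest.Agent.R162.FLE2
import Crest.Agent.R162.FLC3

/-!
Row 162 (S0243), node FL-E, part 3: the inverse flow `ffl W t z` — stability in the driving function,
locality, joint continuity on path space, joint (progressive) measurability of `ffl` and of its
derivative in `(ω, z, t)` (helper899).
-/

set_option autoImplicit false

open Set MeasureTheory Filter Topology ProbabilityTheory
open scoped NNReal ENNReal

namespace Crest.Agent.R162.FLF

open Crest.Agent.R162.FL Crest.Agent.R162.OP Crest.Agent.R162.OS Crest.Agent.R162.FLC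
open Crest.Agent.R162.FLD Crest.ProbabilityR.Loewner

/-! ### stability in the driving function, locality -/

lemma back_sol {W : ℝ → ℝ} {t : ℝ} {z : ℂ} (hW : ContinuousOn W (Ici 0)) (ht : 0 ≤ t)
    (hz : 0 < z.im) :
    ∀ s ∈ Icc 0 t, HasDerivWithinAt (fun s => gfl W (t - s) (ffl W t z))
      ((-1 : ℂ) * vf (fun s => W (t - s)) z.im s (gfl W (t - s) (ffl W t z))) (Icc 0 t) s := by
  intro s hs
  have hs' : t - s ∈ Icc (0:ℝ) t := ⟨by linarith [hs.2], by linarith [hs.1]⟩
  have h1 := (isSol_ffl hW ht hz (t - s) hs').2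
  have h2 : HasDerivWithinAt (fun s : ℝ => t - s) (-1) (Icc 0 t) s := by
    simpa using ((hasDerivAt_id s).const_sub t).hasDerivWithinAt
  have h3 := h1.scomp s h2 (fun r hr => ⟨by linarith [hr.2], by linarith [hr.1]⟩)
  rw [vf_of_le (im_le_gfl_ffl hW ht hz hs')]
  refine HasDerivWithinAt.congr_deriv h3 ?_
  simp

/-- **stability** of the inverse flow in the driving function -/
theorem norm_ffl_sub_drive_le {V W : ℝ → ℝ} {t : ℝ} {z : ℂ} (hV : ContinuousOn V (Ici 0))
    (hW : ContinuousOn W (Ici 0)) (ht : 0 ≤ t) (hz : 0 < z.im) {ε : ℝ}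
    (hε : ∀ s ∈ Icc 0 t, |V s - W s| ≤ ε) :
    ‖ffl V t z - ffl W t z‖ ≤ (|V t - W t| + ε) * Real.exp (2 / z.im ^ 2 * t) := by
  have h := gronwall_trunc (U := fun s => V (t - s)) (V := fun s => W (t - s)) (T := t)
    (δ := z.im) hz (c := (-1 : ℂ)) (by simp) (g := fun s => gfl V (t - s) (ffl V t z))
    (h := fun s => gfl W (t - s) (ffl W t z)) (η := |V t - W t|) (ε := ε)
    (back_sol hV ht hz) (back_sol hW ht hz)
    (fun s hs => hε (t - s) ⟨by linarith [hs.2], by linarith [hs.1]⟩) (by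
      simp only [sub_zero]
      rw [gfl_ffl hV ht hz, gfl_ffl hW ht hz]
      have : z + (V t : ℂ) - (z + (W t : ℂ)) = ((V t - W t : ℝ) : ℂ) := by push_cast; ring
      rw [this, Complex.norm_real, Real.norm_eq_abs]) t ⟨ht, le_rfl⟩
  simp only [sub_self] at h
  rwa [gfl_zero_ffl hV ht hz, gfl_zero_ffl hW ht hz] at h

open Classical in
/-- the choice in the definition of `ffl` -/
private noncomputable def chs (Q : ℂ → Prop) (z : ℂ) : ℂ := if h : ∃ w, Q w then h.choose else z

/-- **locality**: `ffl W t` depends only on `W` on `[0,t]` -/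
theorem ffl_congr {W W' : ℝ → ℝ} {t : ℝ} (h : ∀ s ∈ Icc 0 t, W s = W' s) :
    ffl W t = ffl W' t := by
  funext z
  have e : ∀ V : ℝ → ℝ, ffl V t z = chs (fun w => Alive V w t ∧ gfl V t w = z + V t) z :=
    fun V => rfl
  rw [e, e]
  congr 1
  funext w
  by_cases ht : 0 ≤ t
  · have h1 : W t = W' t := h t ⟨ht, le_rfl⟩
    rw [alive_congr h, gfl_congr h, h1]
  · refine propext ⟨fun h2 => absurd h2.1.1 ht, fun h2 => absurd h2.1.1 ht⟩

/-! ### path space -/

section path

attribute [local instance] instMSC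
local instance instBSC'' : BorelSpace C(unitInterval, ℝ) := ⟨rfl⟩

lemma dist_ffl_path_le {T t : ℝ} (p q : C(unitInterval, ℝ)) {z : ℂ} (hz : 0 < z.im) (ht : 0 ≤ t) :
    ‖ffl (ofI T p) t z - ffl (ofI T q) t z‖ ≤ 2 * dist p q * Real.exp (2 / z.im ^ 2 * t) := by
  refine (norm_ffl_sub_drive_le (continuous_ofI T p).continuousOn (continuous_ofI T q).continuousOn
    ht hz (ε := dist p q) (fun s _ => abs_ofI_sub_le T p q s)).trans ?_
  refine mul_le_mul_of_nonneg_right ?_ (Real.exp_pos _).le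
  linarith [abs_ofI_sub_le T p q t]

/-- the inverse flow on path space -/
noncomputable def fC (T : ℝ) (x : (C(unitInterval, ℝ) × ℂ) × ℝ) : ℂ := ffl (ofI T x.1.1) x.2 x.1.2

def dC : Set ((C(unitInterval, ℝ) × ℂ) × ℝ) := {x | 0 < x.1.2.im ∧ 0 ≤ x.2}

/-- **joint continuity of the inverse flow** in (path, point, time) -/
theorem continuousOn_fC (T : ℝ) : ContinuousOn (fC T) dC := by
  rintro ⟨⟨p0, z0⟩, t0⟩ ⟨hz0, ht0⟩
  simp only at hz0 ht0
  -- the second term
  have hcont := continuousOn_ffl (W := ofI T p0) (continuous_ofI T p0).continuousOn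
  have h2 : Tendsto (fun x : (C(unitInterval, ℝ) × ℂ) × ℝ => ffl (ofI T p0) x.2 x.1.2)
      (𝓝[dC] ((p0, z0), t0)) (𝓝 (ffl (ofI T p0) t0 z0)) := by
    have h3 : Tendsto (fun x : (C(unitInterval, ℝ) × ℂ) × ℝ => (x.2, x.1.2))
        (𝓝[dC] ((p0, z0), t0)) (𝓝[Ici 0 ×ˢ {z : ℂ | 0 < z.im}] (t0, z0)) := by
      refine tendsto_nhdsWithin_iff.2 ⟨?_, ?_⟩
      · have : Continuous (fun x : (C(unitInterval, ℝ) × ℂ) × ℝ => (x.2, x.1.2)) := by fun_prop
        exact (this.tendsto ((p0, z0), t0)).mono_left nhdsWithin_le_nhds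
      · filter_upwards [self_mem_nhdsWithin] with x hx
        exact ⟨hx.2, hx.1⟩
    exact (hcont (t0, z0) ⟨ht0, hz0⟩).tendsto.comp h3
  -- the first term
  have h1 : Tendsto (fun x : (C(unitInterval, ℝ) × ℂ) × ℝ =>
      fC T x - ffl (ofI T p0) x.2 x.1.2) (𝓝[dC] ((p0, z0), t0)) (𝓝 0) := by
    refine squeeze_zero_norm' (a := fun x => 2 * dist x.1.1 p0 * Real.exp (2 / x.1.2.im ^ 2 * x.2))
      ?_ ?_
    · filter_upwards [self_mem_nhdsWithin] with x hx
      exact dist_ffl_path_le x.1.1 p0 hx.1 hx.2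
    · have hc : ContinuousAt (fun x : (C(unitInterval, ℝ) × ℂ) × ℝ =>
          2 * dist x.1.1 p0 * Real.exp (2 / x.1.2.im ^ 2 * x.2)) ((p0, z0), t0) := by
        have hne : (z0.im) ^ 2 ≠ 0 := by positivity
        have e1 : ContinuousAt (fun x : (C(unitInterval, ℝ) × ℂ) × ℝ => x.1.2.im ^ 2)
            ((p0, z0), t0) := by fun_prop
        have e2 : ContinuousAt (fun x : (C(unitInterval, ℝ) × ℂ) × ℝ => 2 / x.1.2.im ^ 2)
            ((p0, z0), t0) := continuousAt_const.div e1 hne
        have e3 : ContinuousAt (fun x : (C(unitInterval, ℝ) × ℂ) × ℝ => x.2)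
            ((p0, z0), t0) := by fun_prop
        have e4 : ContinuousAt (fun x : (C(unitInterval, ℝ) × ℂ) × ℝ => 2 * dist x.1.1 p0)
            ((p0, z0), t0) := by fun_prop
        exact e4.mul (Real.continuous_exp.continuousAt.comp (e2.mul e3))
      have h0 := hc.tendsto
      simp only [dist_self, mul_zero, zero_mul] at h0
      exact h0.mono_left nhdsWithin_le_nhds
  have h3 := h1.add h2
  simp only [sub_add_cancel, zero_add] at h3
  exact h3

end path

/-! ### joint measurability -/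

section meas

variable {Ω : Type*} {m : MeasurableSpace Ω} {W : Ω → ℝ → ℝ} {T : ℝ}

lemma measurableSet_H : MeasurableSet {z : ℂ | 0 < z.im} :=
  measurableSet_lt measurable_const Complex.measurable_im

lemma ffl_zero_time {w : ℝ → ℝ} (hw : ContinuousOn w (Ici 0)) {z : ℂ} (hz : 0 < z.im) :
    ffl w 0 z = z + w 0 := by
  have h1 := gfl_ffl hw le_rfl hz
  rwa [gfl_zero_ffl hw le_rfl hz] at h1

/-- continuous extension of a path on `[0,T]`, `0 ≤ T` -/
lemma exists_ext {w : ℝ → ℝ} (hT : 0 ≤ T) (hw : ContinuousOn w (Icc 0 T)) :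
    ∃ v : ℝ → ℝ, Continuous v ∧ ∀ s ∈ Icc 0 T, w s = v s :=
  ⟨fun s => w (clampT T s), hw.comp_continuous (continuous_clampT T) (clampT_mem hT),
    fun s hs => by simp only; rw [clampT_of_mem hs]⟩

/-- joint measurability of the inverse flow -/
theorem jm_ffl (hc : ∀ ω, ContinuousOn (W ω) (Icc 0 T))
    (hm : ∀ s ∈ Icc 0 T, Measurable (fun ω => W ω s)) :
    JM (m := m) T (fun p s => {z : ℂ | 0 < z.im}.indicator (ffl (W p.1) s) p.2) := by
  classical
  rcases lt_trichotomy 0 T with hT | hT | hT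
  · let _ := instMSC
    have : BorelSpace C(unitInterval, ℝ) := ⟨rfl⟩
    have h1 : Measurable (fun x : (Ω × ℂ) × ℝ =>
        ((toI T hT.le (W x.1.1) (hc x.1.1), x.1.2), x.2)) :=
      (((measurable_toI hT.le hc hm).comp (measurable_fst.comp measurable_fst)).prodMk
        (measurable_snd.comp measurable_fst)).prodMk measurable_snd
    have hd : MeasurableSet dC :=
      (measurable_snd.comp measurable_fst measurableSet_H).inter
        (measurableSet_le measurable_const measurable_snd)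
    have h2 : Measurable (dC.piecewise (fC T) (fun _ => 0)) :=
      (continuousOn_fC T).measurable_piecewise continuousOn_const hd
    refine JM.of_eq (h2.comp h1) (fun x hx => ?_)
    simp only [Function.comp, Set.piecewise, indicator, mem_ofPred_eq, dC]
    by_cases h : 0 < x.1.2.im
    · rw [if_pos h, if_pos ⟨h, hx.1⟩]
      simp only [fC]
      rw [ffl_congr (fun s hs => ofI_toI hT (W x.1.1) (hc x.1.1) s ⟨hs.1, hs.2.trans hx.2⟩)]
    · rw [if_neg h, if_neg (fun h' => h h'.1)]
  · subst hT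
    have h0 : Measurable (fun ω => W ω 0) := hm 0 (by simp)
    have h1 : Measurable (fun x : (Ω × ℂ) × ℝ => x.1.2 + ((W x.1.1 0 : ℝ) : ℂ)) :=
      (measurable_snd.comp measurable_fst).add
        (Complex.measurable_ofReal.comp (h0.comp (measurable_fst.comp measurable_fst)))
    have h2 := h1.indicator (s := {x : (Ω × ℂ) × ℝ | 0 < x.1.2.im})
      (measurable_snd.comp measurable_fst measurableSet_H)
    refine JM.of_eq h2 (fun x hx => ?_)
    have hx0 : x.2 = 0 := le_antisymm hx.2 hx.1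
    rw [hx0]
    simp only [indicator, mem_ofPred_eq]
    by_cases h : 0 < x.1.2.im
    · rw [if_pos h, if_pos h]
      obtain ⟨v, hv, hv'⟩ := exists_ext le_rfl (hc x.1.1)
      rw [ffl_congr hv', ffl_zero_time hv.continuousOn h, hv' 0 (by simp)]
    · rw [if_neg h, if_neg h]
  · refine JM.of_eq (F := fun _ => 0) measurable_const (fun x hx => ?_)
    exact absurd (hx.1.trans hx.2) (not_le.2 hT)

lemma JM.space {E : Type*} [MeasurableSpace E] [Zero E] {f : Ω × ℂ → ℝ → E}
    (hf : JM (m := m) T f) {φ : ℂ → ℂ} (hφ : Measurable φ) :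
    JM (m := m) T (fun p s => f (p.1, φ p.2) s) := by
  unfold JM at hf
  have : Measurable (fun x : (Ω × ℂ) × ℝ => ((x.1.1, φ x.1.2), x.2)) :=
    ((measurable_fst.comp measurable_fst).prodMk
      (hφ.comp (measurable_snd.comp measurable_fst))).prodMk measurable_snd
  exact Measurable.comp hf this

/-- the inverse flow is continuous in the point, for a driving function continuous on `[0,T]` -/
lemma hasDerivAt_ffl_Icc {w : ℝ → ℝ} (hw : ContinuousOn w (Icc 0 T)) {s : ℝ} (hs : s ∈ Icc 0 T)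
    {z : ℂ} (hz : 0 < z.im) : HasDerivAt (ffl w s) (deriv (ffl w s) z) z := by
  obtain ⟨v, hv, hv'⟩ := exists_ext (hs.1.trans hs.2) hw
  rw [ffl_congr (fun r hr => hv' r ⟨hr.1, hr.2.trans hs.2⟩)]
  exact (hasDerivAt_ffl hv.continuousOn hs.1 hz).differentiableAt.hasDerivAt

/-- joint measurability of the derivative of the inverse flow -/
theorem jm_dffl (hc : ∀ ω, ContinuousOn (W ω) (Icc 0 T))
    (hm : ∀ s ∈ Icc 0 T, Measurable (fun ω => W ω s)) :
    JM (m := m) T (fun p s => {z : ℂ | 0 < z.im}.indicator (deriv (ffl (W p.1) s)) p.2) := by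
  classical
  have h1 := jm_ffl (m := m) hc hm
  have h2 : ∀ n : ℕ, JM (m := m) T (fun p s =>
      ((n : ℂ) + 1) * ({z : ℂ | 0 < z.im}.indicator (ffl (W p.1) s) (p.2 + 1 / ((n : ℂ) + 1)) -
        {z : ℂ | 0 < z.im}.indicator (ffl (W p.1) s) p.2)) := by
    intro n
    have h3 := JM.space h1 (φ := fun z => z + 1 / ((n : ℂ) + 1)) (by fun_prop)
    have hφ : Measurable (fun x : ℂ × ℂ => ((n : ℂ) + 1) * (x.1 - x.2)) := by fun_prop
    exact h3.comp₂ h1 hφ
  unfold JM at h2 ⊢
  refine measurable_of_tendsto_metrizable h2 ?_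
  rw [tendsto_pi_nhds]
  intro x
  by_cases hx : x.2 ∈ Icc 0 T
  · simp only [indicator_of_mem hx]
    by_cases hz : 0 < x.1.2.im
    · have him : ∀ n : ℕ, 0 < (x.1.2 + 1 / ((n : ℂ) + 1)).im := by
        intro n
        have : (1 / ((n : ℂ) + 1)) = ((1 / ((n : ℝ) + 1) : ℝ) : ℂ) := by push_cast; ring
        rw [this, Complex.add_im, Complex.ofReal_im, add_zero]
        exact hz
      have e : ∀ n : ℕ, ((n : ℂ) + 1) * ({z : ℂ | 0 < z.im}.indicator (ffl (W x.1.1) x.2)
          (x.1.2 + 1 / ((n : ℂ) + 1)) - {z : ℂ | 0 < z.im}.indicator (ffl (W x.1.1) x.2) x.1.2) =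
          (((1 : ℂ) / ((n : ℂ) + 1)))⁻¹ • (ffl (W x.1.1) x.2 (x.1.2 + 1 / ((n : ℂ) + 1)) -
            ffl (W x.1.1) x.2 x.1.2) := by
        intro n
        rw [indicator_of_mem (show (x.1.2 + 1 / ((n : ℂ) + 1)) ∈ {z : ℂ | 0 < z.im} from him n),
          indicator_of_mem (show x.1.2 ∈ {z : ℂ | 0 < z.im} from hz), smul_eq_mul, one_div, inv_inv]
      simp only [e]
      rw [indicator_of_mem (show x.1.2 ∈ {z : ℂ | 0 < z.im} from hz)]
      have hd := hasDerivAt_ffl_Icc (hc x.1.1) hx hz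
      have hd' := hd.tendsto_slope_zero
      refine hd'.comp ?_
      refine tendsto_nhdsWithin_iff.2 ⟨?_, ?_⟩
      · exact tendsto_one_div_add_atTop_nhds_zero_nat (𝕜 := ℂ)
      · refine Eventually.of_forall fun n => ?_
        simp only [mem_compl_iff, mem_singleton_iff]
        have : (n : ℂ) + 1 ≠ 0 := by exact_mod_cast Nat.succ_ne_zero n
        exact one_div_ne_zero this
    · have e : ∀ n : ℕ, {z : ℂ | 0 < z.im}.indicator (ffl (W x.1.1) x.2)
          (x.1.2 + 1 / ((n : ℂ) + 1)) = 0 := by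
        intro n
        refine indicator_of_notMem ?_ _
        have : (1 / ((n : ℂ) + 1)) = ((1 / ((n : ℝ) + 1) : ℝ) : ℂ) := by push_cast; ring
        simp only [mem_ofPred_eq]
        rw [this, Complex.add_im, Complex.ofReal_im, add_zero]
        exact hz
      simp only [e]
      rw [indicator_of_notMem (show x.1.2 ∉ {z : ℂ | 0 < z.im} from hz),
        indicator_of_notMem (show x.1.2 ∉ {z : ℂ | 0 < z.im} from hz)]
      simp
  · simp only [indicator_of_notMem hx]
    exact tendsto_const_nhds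

/-- composition with a fixed continuous function on the half plane (779's fixed-`f` format) -/
theorem jm_comp_ffl {E : Type*} [TopologicalSpace E] [MeasurableSpace E] [BorelSpace E] [Zero E]
    {f : ℂ → E} (hf : ContinuousOn f {z : ℂ | 0 < z.im})
    (hc : ∀ ω, ContinuousOn (W ω) (Icc 0 T))
    (hm : ∀ s ∈ Icc 0 T, Measurable (fun ω => W ω s)) :
    JM (m := m) T (fun p s => {z : ℂ | 0 < z.im}.indicator (fun z => f (ffl (W p.1) s z)) p.2) := by
  classical
  have hf' : Measurable ({z : ℂ | 0 < z.im}.piecewise f (fun _ => 0)) :=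
    hf.measurable_piecewise continuousOn_const measurableSet_H
  have h1 := (jm_ffl (m := m) hc hm).comp hf'
  unfold JM at h1
  have h2 := h1.indicator (s := {x : (Ω × ℂ) × ℝ | 0 < x.1.2.im})
    (measurable_snd.comp measurable_fst measurableSet_H)
  refine JM.of_eq h2 (fun x hx => ?_)
  by_cases hz : 0 < x.1.2.im
  · rw [indicator_of_mem (show x.1.2 ∈ {z : ℂ | 0 < z.im} from hz),
      indicator_of_mem (show x ∈ {x : (Ω × ℂ) × ℝ | 0 < x.1.2.im} from hz), indicator_of_mem hx]
    beta_reduce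
    rw [indicator_of_mem (show x.1.2 ∈ {z : ℂ | 0 < z.im} from hz), piecewise_eq_of_mem]
    obtain ⟨v, hv, hv'⟩ := exists_ext (hx.1.trans hx.2) (hc x.1.1)
    rw [ffl_congr (fun r hr => hv' r ⟨hr.1, hr.2.trans hx.2⟩)]
    exact ffl_im_pos hv.continuousOn hx.1 hz
  · rw [indicator_of_notMem (show x.1.2 ∉ {z : ℂ | 0 < z.im} from hz),
      indicator_of_notMem (show x ∉ {x : (Ω × ℂ) × ℝ | 0 < x.1.2.im} from hz)]

/-- adaptedness for one point and one time -/
theorem measurable_ffl_pt {t : ℝ} (ht : 0 ≤ t) {z : ℂ} (hz : 0 < z.im)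
    (hc : ∀ ω, ContinuousOn (W ω) (Icc 0 t))
    (hm : ∀ s ∈ Icc 0 t, Measurable (fun ω => W ω s)) :
    Measurable (fun ω => ffl (W ω) t z) := by
  have h := jm_ffl (m := m) hc hm
  unfold JM at h
  have h2 : Measurable (fun ω : Ω => ((ω, z), t)) :=
    (measurable_id.prodMk measurable_const).prodMk measurable_const
  have h3 := Measurable.comp h h2
  convert h3 using 1
  funext ω
  simp only [Function.comp]
  rw [indicator_of_mem (right_mem_Icc.2 ht),
    indicator_of_mem (show z ∈ {z : ℂ | 0 < z.im} from hz)]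

theorem measurable_dffl_pt {t : ℝ} (ht : 0 ≤ t) {z : ℂ} (hz : 0 < z.im)
    (hc : ∀ ω, ContinuousOn (W ω) (Icc 0 t))
    (hm : ∀ s ∈ Icc 0 t, Measurable (fun ω => W ω s)) :
    Measurable (fun ω => deriv (ffl (W ω) t) z) := by
  have h := jm_dffl (m := m) hc hm
  unfold JM at h
  have h2 : Measurable (fun ω : Ω => ((ω, z), t)) :=
    (measurable_id.prodMk measurable_const).prodMk measurable_const
  have h3 := Measurable.comp h h2
  convert h3 using 1
  funext ω
  simp only [Function.comp]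
  rw [indicator_of_mem (right_mem_Icc.2 ht),
    indicator_of_mem (show z ∈ {z : ℂ | 0 < z.im} from hz)]

end meas

end Crest.Agent.R162.FLF
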