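import Mathlib
import Crest.Agent.R162.FLF

/-!
Row 162 (S0243), node FL-E, part 4: the inverse flow `ffl` and its derivative for the driving function
`driving κ B ω` (`OS.IsBM`): adaptedness, progressive joint measurability, stopping times, measurable
times, joint measurability with respect to an arbitrary σ-algebra (Carathéodory) (helper899).
-/

set_option autoImplicit false

open Set MeasureTheory Filter Topology ProbabilityTheory
open scoped NNReal ENNReal

namespace Crest.Agent.R162.FLF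

open Crest.Agent.R162.FL Crest.Agent.R162.OP Crest.Agent.R162.OS Crest.Agent.R162.FLC
open Crest.Agent.R162.FLD Crest.ProbabilityR.Loewner

section brownian

variable {Ω : Type*} {m : MeasurableSpace Ω} {F : Filtration ℝ≥0 m} {P : Measure Ω}
  {B : ℝ≥0 → Ω → ℝ}

theorem jmF_ffl (hB : IsBM F B P) (κ : ℝ) (t : ℝ≥0) :
    JM (m := F t) (t : ℝ) (fun p s => {z : ℂ | 0 < z.im}.indicator (ffl (driving κ B p.1) s) p.2) :=
  jm_ffl (m := F t) (fun ω => (driving_cont hB κ ω).continuousOn) (fun _ hs => driving_meas hB κ hs)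

theorem jmF_dffl (hB : IsBM F B P) (κ : ℝ) (t : ℝ≥0) :
    JM (m := F t) (t : ℝ)
      (fun p s => {z : ℂ | 0 < z.im}.indicator (deriv (ffl (driving κ B p.1) s)) p.2) :=
  jm_dffl (m := F t) (fun ω => (driving_cont hB κ ω).continuousOn) (fun _ hs => driving_meas hB κ hs)

theorem jmF_comp_ffl {E : Type*} [TopologicalSpace E] [MeasurableSpace E] [BorelSpace E] [Zero E]
    {f : ℂ → E} (hf : ContinuousOn f {z : ℂ | 0 < z.im}) (hB : IsBM F B P) (κ : ℝ) (t : ℝ≥0) :
    JM (m := F t) (t : ℝ)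
      (fun p s => {z : ℂ | 0 < z.im}.indicator (fun z => f (ffl (driving κ B p.1) s z)) p.2) :=
  jm_comp_ffl (m := F t) hf (fun ω => (driving_cont hB κ ω).continuousOn)
    (fun _ hs => driving_meas hB κ hs)

/-- adaptedness of `f_t(z)` -/
theorem adapted_ffl (hB : IsBM F B P) (κ : ℝ) {z : ℂ} (hz : 0 < z.im) (t : ℝ≥0) :
    Measurable[F t] (fun ω => ffl (driving κ B ω) t z) :=
  measurable_ffl_pt (m := F t) t.2 hz (fun ω => (driving_cont hB κ ω).continuousOn)
    (fun _ hs => driving_meas hB κ hs)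

/-- adaptedness of `f_t'(z)` -/
theorem adapted_dffl (hB : IsBM F B P) (κ : ℝ) {z : ℂ} (hz : 0 < z.im) (t : ℝ≥0) :
    Measurable[F t] (fun ω => deriv (ffl (driving κ B ω) t) z) :=
  measurable_dffl_pt (m := F t) t.2 hz (fun ω => (driving_cont hB κ ω).continuousOn)
    (fun _ hs => driving_meas hB κ hs)

/-- continuity in `(t,z)`, `t : ℝ≥0` -/
theorem continuousOn_ffl_nn (hB : IsBM F B P) (κ : ℝ) (ω : Ω) :
    ContinuousOn (fun p : ℝ≥0 × ℂ => ffl (driving κ B ω) p.1 p.2) {p | 0 < p.2.im} := by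
  have h := continuousOn_ffl (W := driving κ B ω) (driving_cont hB κ ω).continuousOn
  refine h.comp (f := fun p : ℝ≥0 × ℂ => ((p.1 : ℝ), p.2)) (by fun_prop) ?_
  intro p hp
  exact ⟨p.1.2, hp⟩

theorem continuousOn_dffl_nn (hB : IsBM F B P) (κ : ℝ) (ω : Ω) :
    ContinuousOn (fun p : ℝ≥0 × ℂ => deriv (ffl (driving κ B ω) p.1) p.2) {p | 0 < p.2.im} := by
  have h := continuousOn_deriv_ffl (W := driving κ B ω) (driving_cont hB κ ω).continuousOn
  refine h.comp (f := fun p : ℝ≥0 × ℂ => ((p.1 : ℝ), p.2)) (by fun_prop) ?_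
  intro p hp
  exact ⟨p.1.2, hp⟩

/-! #### at stopping times -/

theorem evST_ffl (hB : IsBM F B P) (κ : ℝ) {z : ℂ} (hz : 0 < z.im) {A : Set ℂ}
    (hA : MeasurableSet A) {τ : Ω → ℝ≥0} (hτ : IsST F τ) :
    EvST F τ {ω | ffl (driving κ B ω) (τ ω) z ∈ A} := by
  have h := evST_of_jm (f := fun p s => {z : ℂ | 0 < z.im}.indicator (ffl (driving κ B p.1) s) p.2)
    (fun t => jmF_ffl hB κ t) hA hτ z
  simp only [indicator_of_mem (show z ∈ {z : ℂ | 0 < z.im} from hz)] at h
  exact h

theorem evST_dffl (hB : IsBM F B P) (κ : ℝ) {z : ℂ} (hz : 0 < z.im) {A : Set ℂ}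
    (hA : MeasurableSet A) {τ : Ω → ℝ≥0} (hτ : IsST F τ) :
    EvST F τ {ω | deriv (ffl (driving κ B ω) (τ ω)) z ∈ A} := by
  have h := evST_of_jm
    (f := fun p s => {z : ℂ | 0 < z.im}.indicator (deriv (ffl (driving κ B p.1) s)) p.2)
    (fun t => jmF_dffl hB κ t) hA hτ z
  simp only [indicator_of_mem (show z ∈ {z : ℂ | 0 < z.im} from hz)] at h
  exact h

/-! #### at measurable times, jointly in `(ω, z)` -/

section global

variable {τ : Ω → ℝ≥0}

theorem measurable_ffl_at (hB : IsBM F B P) (κ : ℝ) (hτ : Measurable τ) :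
    Measurable (fun p : Ω × ℂ =>
      {z : ℂ | 0 < z.im}.indicator (ffl (driving κ B p.1) (τ p.1)) p.2) :=
  measurable_at (α := Ω × ℂ)
    (f := fun p s => {z : ℂ | 0 < z.im}.indicator (ffl (driving κ B p.1) s) p.2)
    (fun _ => jm_ffl (fun ω => (driving_cont hB κ ω).continuousOn) (fun _ _ => driving_meas' hB κ _))
    (τ := fun p => τ p.1) (hτ.comp measurable_fst)

theorem measurable_dffl_at (hB : IsBM F B P) (κ : ℝ) (hτ : Measurable τ) :
    Measurable (fun p : Ω × ℂ =>
      {z : ℂ | 0 < z.im}.indicator (deriv (ffl (driving κ B p.1) (τ p.1))) p.2) :=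
  measurable_at (α := Ω × ℂ)
    (f := fun p s => {z : ℂ | 0 < z.im}.indicator (deriv (ffl (driving κ B p.1) s)) p.2)
    (fun _ => jm_dffl (fun ω => (driving_cont hB κ ω).continuousOn)
      (fun _ _ => driving_meas' hB κ _))
    (τ := fun p => τ p.1) (hτ.comp measurable_fst)

end global

end brownian

/-! ### Carathéodory on the half-plane -/

section cara

variable {Ω : Type*} {G : MeasurableSpace Ω}

/-- a function on `Ω × ℍ`, measurable in `ω` and continuous in the point, is jointly measurable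
(for any σ-algebra `G` on `Ω`) -/
theorem measurable_caratheodory_H {E : Type*} [TopologicalSpace E]
    [TopologicalSpace.PseudoMetrizableSpace E] [MeasurableSpace E] [BorelSpace E] [Zero E]
    {f : Ω → ℂ → E} (hc : ∀ ω, ContinuousOn (f ω) {z : ℂ | 0 < z.im})
    (hm : ∀ z : ℂ, 0 < z.im → Measurable (fun ω => f ω z)) :
    Measurable (fun p : Ω × ℂ => {z : ℂ | 0 < z.im}.indicator (f p.1) p.2) := by
  let φ : ℝ × ℝ → ℂ := fun x => ⟨x.1, Real.exp x.2⟩
  have hφ : Continuous φ := by
    have : φ = fun x : ℝ × ℝ => (x.1 : ℂ) + ((Real.exp x.2 : ℝ) : ℂ) * Complex.I := by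
      funext x
      apply Complex.ext
      · simp [φ, -Complex.ofReal_exp]
      · simp [φ, -Complex.ofReal_exp]
    rw [this]
    fun_prop
  have h1 : Measurable (Function.uncurry (fun (x : ℝ × ℝ) (ω : Ω) => f ω (φ x))) := by
    refine measurable_uncurry_of_continuous_of_measurable (fun ω => ?_) (fun x => ?_)
    · exact (hc ω).comp_continuous hφ (fun x => Real.exp_pos _)
    · exact hm _ (Real.exp_pos _)
  have h2 : Measurable (fun p : Ω × ℂ => (((p.2.re, Real.log p.2.im) : ℝ × ℝ), p.1)) := by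
    fun_prop
  have h3 := (h1.comp h2).indicator (s := {p : Ω × ℂ | 0 < p.2.im})
    (measurable_snd measurableSet_H)
  convert h3 using 1
  funext p
  by_cases hp : 0 < p.2.im
  · rw [indicator_of_mem (show p.2 ∈ {z : ℂ | 0 < z.im} from hp),
      indicator_of_mem (show p ∈ {p : Ω × ℂ | 0 < p.2.im} from hp)]
    simp only [Function.comp, Function.uncurry, φ, Real.exp_log hp]
  · rw [indicator_of_notMem (show p.2 ∉ {z : ℂ | 0 < z.im} from hp),
      indicator_of_notMem (show p ∉ {p : Ω × ℂ | 0 < p.2.im} from hp)]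

end cara

end Crest.Agent.R162.FLF
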