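import Mathlib
import Crest.Agent.Lib.Bieberbach
import Crest.Agent.Lib.InjHolo

set_option autoImplicit false

namespace Crest.Agent.R162.KB

open Metric Set Filter Topology
open scoped ComplexConjugate Real
open Crest.Agent.Lib.Bieberbach

theorem hasDerivAt_log_norm {h : ℝ → ℂ} {h' : ℂ} {s : ℝ} (hh : HasDerivAt h h' s)
    (h0 : h s ≠ 0) : HasDerivAt (fun s => Real.log ‖h s‖) (h' / h s).re s := by
  have h1 := hh.norm_sq
  have hp : 0 < ‖h s‖ := norm_pos_iff.2 h0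
  have hne : ‖h s‖ ^ 2 ≠ 0 := (pow_pos hp 2).ne'
  have h2 := (h1.log hne).const_mul (1/2 : ℝ)
  have e : (fun s => (1/2 : ℝ) * Real.log (‖h s‖ ^ 2)) = fun s => Real.log ‖h s‖ := by
    funext s
    rw [Real.log_pow]; push_cast; ring
  rw [e] at h2
  have e2 : (1/2 : ℝ) * (2 * inner ℝ (h s) h' / ‖h s‖ ^ 2) = (h' / h s).re := by
    rw [Complex.div_re, Complex.inner, Complex.mul_re, Complex.conj_re, Complex.conj_im,
      Complex.normSq_eq_norm_sq]
    field_simp
    ring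
  rw [e2] at h2
  exact h2

/-- derivative along a ray of the log of the derivative -/
theorem ray_deriv {g : ℂ → ℂ} (hg : DifferentiableOn ℂ g (ball 0 1))
    (hinj : InjOn g (ball 0 1)) {u : ℂ} (hu : ‖u‖ = 1) {s : ℝ} (hs0 : 0 ≤ s) (hs1 : s < 1) :
    ∃ D : ℝ, HasDerivAt (fun s : ℝ => Real.log ‖deriv g (s * u)‖) D s ∧
      |(1 - s ^ 2) * D - 2 * s| ≤ 4 := by
  have hz : ‖(s : ℂ) * u‖ = s := by
    rw [norm_mul, hu, mul_one, Complex.norm_real, Real.norm_of_nonneg hs0]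
  have hzb : (s : ℂ) * u ∈ ball (0:ℂ) 1 := by rw [mem_ball_zero_iff, hz]; exact hs1
  have hne : deriv g (s * u) ≠ 0 :=
    Crest.Agent.Lib.deriv_ne_zero_of_injOn isOpen_ball hg hinj hzb
  have hd2 : HasDerivAt (deriv g) (deriv (deriv g) (s * u)) (s * u) :=
    ((hg.deriv isOpen_ball).differentiableAt (isOpen_ball.mem_nhds hzb)).hasDerivAt
  have hl : HasDerivAt (fun s : ℝ => (s : ℂ) * u) u s := by
    simpa using (Complex.ofRealCLM.hasDerivAt (x := s)).mul_const u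
  have hc : HasDerivAt (fun s : ℝ => deriv g (s * u)) (deriv (deriv g) (s * u) * u) s := by
    have := hd2.comp s hl
    exact this
  refine ⟨_, hasDerivAt_log_norm hc hne, ?_⟩
  have hb := bieberbach_disc hg hinj (z := (s : ℂ) * u) (by rw [hz]; exact hs1)
  rw [hz] at hb
  set A := deriv (deriv g) (s * u) with hA
  set B := deriv g (s * u) with hB
  have hBp : 0 < ‖B‖ := norm_pos_iff.2 hne
  have huu : conj u * u = 1 := by
    rw [mul_comm, Complex.mul_conj, Complex.normSq_eq_norm_sq, hu]; norm_num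
  have key : ‖((1 - s ^ 2 : ℝ) : ℂ) * (A * u / B) - 2 * s‖ ≤ 4 := by
    have e : ((1 - s ^ 2 : ℝ) : ℂ) * (A * u / B) - 2 * s =
        (((1 - s ^ 2 : ℝ) : ℂ) * A - 2 * conj ((s : ℂ) * u) * B) * u / B := by
      rw [map_mul, Complex.conj_ofReal]
      field_simp
      linear_combination (2 * s * B) * huu
    rw [e, norm_div, norm_mul, hu, mul_one, div_le_iff₀ hBp]
    exact hb
  have h3 := (Complex.abs_re_le_norm _).trans key
  have e4 : (((1 - s ^ 2 : ℝ) : ℂ) * (A * u / B) - 2 * s).re =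
      (1 - s ^ 2) * (A * u / B).re - 2 * s := by
    rw [Complex.sub_re, Complex.re_ofReal_mul]
    simp
  rw [e4] at h3
  exact h3

theorem deriv_ne {g : ℂ → ℂ} (hg : DifferentiableOn ℂ g (ball 0 1))
    (hinj : InjOn g (ball 0 1)) {z : ℂ} (hz : ‖z‖ < 1) : deriv g z ≠ 0 :=
  Crest.Agent.Lib.deriv_ne_zero_of_injOn isOpen_ball hg hinj (by simpa using hz)

/-- log form of the distortion theorem along a ray -/
theorem ray_log {g : ℂ → ℂ} (hg : DifferentiableOn ℂ g (ball 0 1))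
    (hinj : InjOn g (ball 0 1)) {u : ℂ} (hu : ‖u‖ = 1) {r : ℝ} (hr0 : 0 ≤ r) (hr1 : r < 1) :
    Real.log ‖deriv g (r * u)‖ ≤ Real.log ‖deriv g 0‖ + Real.log (1 + r) - 3 * Real.log (1 - r) ∧
    Real.log ‖deriv g 0‖ + Real.log (1 - r) - 3 * Real.log (1 + r) ≤
      Real.log ‖deriv g (r * u)‖ := by
  have hsub : ∀ s ∈ Ico (0:ℝ) 1, 0 ≤ s ∧ s < 1 := fun s hs => hs
  choose! D hD hDb using fun (s : ℝ) (hs : 0 ≤ s ∧ s < 1) => ray_deriv hg hinj hu hs.1 hs.2
  have hp : ∀ s : ℝ, s ∈ Ico (0:ℝ) 1 → HasDerivAt (fun s : ℝ => Real.log (1 + s)) (1 / (1 + s)) s := by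
    intro s hs
    have := ((hasDerivAt_id s).const_add 1).log (by simp only [id]; linarith [hs.1] : (1 + id s) ≠ 0)
    simpa using this
  have hm : ∀ s : ℝ, s ∈ Ico (0:ℝ) 1 → HasDerivAt (fun s : ℝ => Real.log (1 - s)) (-1 / (1 - s)) s := by
    intro s hs
    have := ((hasDerivAt_id s).const_sub 1).log (by simp only [id]; linarith [hs.2] : (1 - id s) ≠ 0)
    simpa using this
  constructor
  · set ψ : ℝ → ℝ := fun s => Real.log ‖deriv g (s * u)‖ - (Real.log (1 + s) - 3 * Real.log (1 - s))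
      with hψ
    have hψd : ∀ s ∈ Ico (0:ℝ) 1, HasDerivAt ψ (D s - (1 / (1 + s) - 3 * (-1 / (1 - s)))) s := by
      intro s hs
      exact (hD s hs).sub ((hp s hs).sub ((hm s hs).const_mul 3))
    have hanti : AntitoneOn ψ (Ico (0:ℝ) 1) := by
      apply antitoneOn_of_deriv_nonpos (convex_Ico 0 1)
      · exact fun s hs => (hψd s hs).continuousAt.continuousWithinAt
      · intro s hs
        rw [interior_Ico] at hs
        exact (hψd s ⟨hs.1.le, hs.2⟩).differentiableAt.differentiableWithinAt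
      · intro s hs
        rw [interior_Ico] at hs
        rw [(hψd s ⟨hs.1.le, hs.2⟩).deriv]
        have hb := (abs_le.1 (hDb s ⟨hs.1.le, hs.2⟩)).2
        have h1 : 0 < 1 + s := by linarith [hs.1]
        have h2 : 0 < 1 - s := by linarith [hs.2]
        have h3 : D s ≤ (4 + 2 * s) / (1 - s ^ 2) := by
          rw [le_div_iff₀ (by nlinarith)]
          linarith
        have h4 : (4 + 2 * s) / (1 - s ^ 2) = 1 / (1 + s) - 3 * (-1 / (1 - s)) := by
          have : 1 - s ^ 2 = (1 + s) * (1 - s) := by ring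
          rw [this]
          field_simp
          ring
        linarith
    have h := hanti (show (0:ℝ) ∈ Ico (0:ℝ) 1 by simp) (show r ∈ Ico (0:ℝ) 1 from ⟨hr0, hr1⟩) hr0
    simp only [hψ] at h
    simp only [Complex.ofReal_zero, zero_mul, add_zero, Real.log_one, sub_zero, mul_zero] at h
    linarith
  · set ψ : ℝ → ℝ := fun s => Real.log ‖deriv g (s * u)‖ - (Real.log (1 - s) - 3 * Real.log (1 + s))
      with hψ
    have hψd : ∀ s ∈ Ico (0:ℝ) 1, HasDerivAt ψ (D s - (-1 / (1 - s) - 3 * (1 / (1 + s)))) s := by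
      intro s hs
      exact (hD s hs).sub ((hm s hs).sub ((hp s hs).const_mul 3))
    have hmono : MonotoneOn ψ (Ico (0:ℝ) 1) := by
      apply monotoneOn_of_deriv_nonneg (convex_Ico 0 1)
      · exact fun s hs => (hψd s hs).continuousAt.continuousWithinAt
      · intro s hs
        rw [interior_Ico] at hs
        exact (hψd s ⟨hs.1.le, hs.2⟩).differentiableAt.differentiableWithinAt
      · intro s hs
        rw [interior_Ico] at hs
        rw [(hψd s ⟨hs.1.le, hs.2⟩).deriv]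
        have hb := (abs_le.1 (hDb s ⟨hs.1.le, hs.2⟩)).1
        have h1 : 0 < 1 + s := by linarith [hs.1]
        have h2 : 0 < 1 - s := by linarith [hs.2]
        have h3 : (2 * s - 4) / (1 - s ^ 2) ≤ D s := by
          rw [div_le_iff₀ (by nlinarith)]
          linarith
        have h4 : (2 * s - 4) / (1 - s ^ 2) = -1 / (1 - s) - 3 * (1 / (1 + s)) := by
          have : 1 - s ^ 2 = (1 + s) * (1 - s) := by ring
          rw [this]
          field_simp
          ring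
        linarith
    have h := hmono (show (0:ℝ) ∈ Ico (0:ℝ) 1 by simp) (show r ∈ Ico (0:ℝ) 1 from ⟨hr0, hr1⟩) hr0
    simp only [hψ] at h
    simp only [Complex.ofReal_zero, zero_mul, add_zero, Real.log_one, sub_zero, mul_zero] at h
    linarith

theorem exists_ray {z : ℂ} : ∃ u : ℂ, ‖u‖ = 1 ∧ z = (‖z‖ : ℝ) * u := by
  by_cases h : z = 0
  · exact ⟨1, by simp, by simp [h]⟩
  · refine ⟨z / ‖z‖, ?_, ?_⟩
    · rw [norm_div, Complex.norm_real, norm_norm, div_self (norm_ne_zero_iff.2 h)]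
    · have : (‖z‖ : ℂ) ≠ 0 := by exact_mod_cast norm_ne_zero_iff.2 h
      field_simp

/-- **Distortion theorem**, upper bound. -/
theorem distortion_upper {g : ℂ → ℂ} (hg : DifferentiableOn ℂ g (ball 0 1))
    (hinj : InjOn g (ball 0 1)) {z : ℂ} (hz : ‖z‖ < 1) :
    ‖deriv g z‖ ≤ ‖deriv g 0‖ * (1 + ‖z‖) / (1 - ‖z‖) ^ 3 := by
  obtain ⟨u, hu, hzu⟩ := exists_ray (z := z)
  have h := (ray_log hg hinj hu (norm_nonneg z) hz).1
  rw [← hzu] at h
  have h1 : 0 < ‖deriv g z‖ := norm_pos_iff.2 (deriv_ne hg hinj hz)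
  have h2 : 0 < ‖deriv g 0‖ := norm_pos_iff.2 (deriv_ne hg hinj (by simp))
  have h3 : 0 < 1 + ‖z‖ := by positivity
  have h4 : 0 < 1 - ‖z‖ := by linarith
  have e : Real.log ‖deriv g 0‖ + Real.log (1 + ‖z‖) - 3 * Real.log (1 - ‖z‖) =
      Real.log (‖deriv g 0‖ * (1 + ‖z‖) / (1 - ‖z‖) ^ 3) := by
    rw [Real.log_div (by positivity) (by positivity), Real.log_mul h2.ne' h3.ne', Real.log_pow]
    norm_num
  rw [e] at h
  exact (Real.log_le_log_iff h1 (by positivity)).1 h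

/-- **Distortion theorem**, lower bound. -/
theorem distortion_lower {g : ℂ → ℂ} (hg : DifferentiableOn ℂ g (ball 0 1))
    (hinj : InjOn g (ball 0 1)) {z : ℂ} (hz : ‖z‖ < 1) :
    ‖deriv g 0‖ * (1 - ‖z‖) / (1 + ‖z‖) ^ 3 ≤ ‖deriv g z‖ := by
  obtain ⟨u, hu, hzu⟩ := exists_ray (z := z)
  have h := (ray_log hg hinj hu (norm_nonneg z) hz).2
  rw [← hzu] at h
  have h1 : 0 < ‖deriv g z‖ := norm_pos_iff.2 (deriv_ne hg hinj hz)
  have h2 : 0 < ‖deriv g 0‖ := norm_pos_iff.2 (deriv_ne hg hinj (by simp))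
  have h3 : 0 < 1 + ‖z‖ := by positivity
  have h4 : 0 < 1 - ‖z‖ := by linarith
  have e : Real.log ‖deriv g 0‖ + Real.log (1 - ‖z‖) - 3 * Real.log (1 + ‖z‖) =
      Real.log (‖deriv g 0‖ * (1 - ‖z‖) / (1 + ‖z‖) ^ 3) := by
    rw [Real.log_div (by positivity) (by positivity), Real.log_mul h2.ne' h4.ne', Real.log_pow]
    norm_num
  rw [e] at h
  exact (Real.log_le_log_iff (by positivity) h1).1 h

/-- **Growth theorem**, upper bound. -/
theorem growth_upper {g : ℂ → ℂ} (hg : DifferentiableOn ℂ g (ball 0 1))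
    (hinj : InjOn g (ball 0 1)) {z : ℂ} (hz : ‖z‖ < 1) :
    ‖g z - g 0‖ ≤ ‖deriv g 0‖ * ‖z‖ / (1 - ‖z‖) ^ 2 := by
  obtain ⟨u, hu, hzu⟩ := exists_ray (z := z)
  set r := ‖z‖ with hr
  have hr0 : 0 ≤ r := norm_nonneg z
  set a := ‖deriv g 0‖ with ha
  have hnu : ∀ s : ℝ, 0 ≤ s → ‖(s : ℂ) * u‖ = s := by
    intro s hs
    rw [norm_mul, hu, mul_one, Complex.norm_real, Real.norm_of_nonneg hs]
  have hF : ∀ s ∈ Icc (0:ℝ) r, HasDerivAt (fun s : ℝ => g (s * u) - g 0) (deriv g (s * u) * u) s := by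
    intro s hs
    have hzb : (s : ℂ) * u ∈ ball (0:ℂ) 1 := by
      rw [mem_ball_zero_iff, hnu s hs.1]; linarith [hs.2]
    have hd : HasDerivAt g (deriv g (s * u)) (s * u) :=
      (hg.differentiableAt (isOpen_ball.mem_nhds hzb)).hasDerivAt
    have hl : HasDerivAt (fun s : ℝ => (s : ℂ) * u) u s := by
      simpa using (Complex.ofRealCLM.hasDerivAt (x := s)).mul_const u
    exact (hd.comp s hl).sub_const _
  have hB : ∀ s : ℝ, s < 1 → HasDerivAt (fun s : ℝ => a * s / (1 - s) ^ 2)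
      (a * (1 + s) / (1 - s) ^ 3) s := by
    intro s hs
    have hne : (1 - s) ≠ 0 := by linarith
    have h1 : HasDerivAt (fun s : ℝ => a * s) a s := by
      simpa using (hasDerivAt_id s).const_mul a
    have h2 : HasDerivAt (fun s : ℝ => (1 - s) ^ 2) (2 * (1 - s) ^ 1 * (-1)) s := by
      simpa using ((hasDerivAt_id s).const_sub 1).fun_pow 2
    have h3 := h1.fun_div h2 (pow_ne_zero 2 hne)
    have e : (a * (1 - s) ^ 2 - a * s * (2 * (1 - s) ^ 1 * (-1))) / ((1 - s) ^ 2) ^ 2 =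
        a * (1 + s) / (1 - s) ^ 3 := by
      field_simp
      ring
    rw [e] at h3
    exact h3
  have key := image_norm_le_of_norm_deriv_right_le_deriv_boundary'
    (f := fun s : ℝ => g (s * u) - g 0) (f' := fun s : ℝ => deriv g (s * u) * u)
    (a := 0) (b := r) (B := fun s : ℝ => a * s / (1 - s) ^ 2)
    (B' := fun s : ℝ => a * (1 + s) / (1 - s) ^ 3)
    (fun s hs => (hF s hs).continuousAt.continuousWithinAt)
    (fun s hs => (hF s ⟨hs.1, hs.2.le⟩).hasDerivWithinAt)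
    (by simp)
    (fun s hs => ((hB s (by linarith [hs.2] : s < 1)).continuousAt).continuousWithinAt)
    (fun s hs => (hB s (by linarith [hs.2] : s < 1)).hasDerivWithinAt)
    (fun s hs => by
      rw [norm_mul, hu, mul_one]
      have := distortion_upper hg hinj (z := (s : ℂ) * u) (by rw [hnu s hs.1]; linarith [hs.2])
      rwa [hnu s hs.1] at this)
  have := key (show r ∈ Icc (0:ℝ) r from ⟨hr0, le_rfl⟩)
  simp only [← hzu] at this
  exact this

/-- **Koebe one-quarter theorem** -/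
theorem koebe_quarter {g : ℂ → ℂ} (hg : DifferentiableOn ℂ g (ball 0 1))
    (hinj : InjOn g (ball 0 1)) : ball (g 0) (‖deriv g 0‖ / 4) ⊆ g '' (ball 0 1) := by
  intro w hw
  by_contra hnot
  have h0b : (0:ℂ) ∈ ball (0:ℂ) 1 := mem_ball_self one_pos
  have hnh : ball (0:ℂ) 1 ∈ 𝓝 (0:ℂ) := ball_mem_nhds 0 one_pos
  have hne : deriv g 0 ≠ 0 := deriv_ne hg hinj (by simp)
  have hav : ∀ z ∈ ball (0:ℂ) 1, w - g z ≠ 0 := by
    intro z hz h
    exact hnot ⟨z, hz, (sub_eq_zero.1 h).symm⟩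
  set c : ℂ := w - g 0 with hc
  have hc0 : c ≠ 0 := hav 0 h0b
  -- h z = c (g z - g 0) / (w - g z)
  set h : ℂ → ℂ := fun z => (w - g z)⁻¹ with hh
  have hhd : DifferentiableOn ℂ h (ball 0 1) := by
    intro z hz
    exact ((hg z hz).const_sub w).fun_inv (hav z hz)
  have hhi : InjOn h (ball 0 1) := by
    intro x hx y hy hxy
    apply hinj hx hy
    have := inv_injective hxy
    exact sub_right_injective this
  have hb := bieberbach hhd hhi
  have hb0 := bieberbach hg hinj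
  have hder : ∀ z ∈ ball (0:ℂ) 1, HasDerivAt h (deriv g z / (w - g z) ^ 2) z := by
    intro z hz
    have h1 : HasDerivAt g (deriv g z) z :=
      (hg.differentiableAt (isOpen_ball.mem_nhds hz)).hasDerivAt
    have h2 := (h1.const_sub w).fun_inv (hav z hz)
    rw [neg_neg] at h2
    exact h2
  have hd1 : deriv h 0 = deriv g 0 / c ^ 2 := (hder 0 h0b).deriv
  have hd2 : deriv (deriv h) 0 = deriv (deriv g) 0 / c ^ 2 + 2 * deriv g 0 ^ 2 / c ^ 3 := by
    have a1 : HasDerivAt (deriv g) (deriv (deriv g) 0) 0 :=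
      ((hg.deriv isOpen_ball).differentiableAt hnh).hasDerivAt
    have a2 : HasDerivAt g (deriv g 0) 0 := (hg.differentiableAt hnh).hasDerivAt
    have a3 : HasDerivAt (fun z => (w - g z) ^ 2) (2 * (w - g 0) ^ 1 * (- deriv g 0)) 0 := by
      simpa using (a2.const_sub w).fun_pow 2
    have a4 := a1.div a3 (pow_ne_zero 2 hc0)
    have a5 : HasDerivAt (deriv h) ((deriv (deriv g) 0 * (w - g 0) ^ 2 -
        deriv g 0 * (2 * (w - g 0) ^ 1 * (- deriv g 0))) / ((w - g 0) ^ 2) ^ 2) 0 := by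
      apply a4.congr_of_eventuallyEq
      filter_upwards [hnh] with z hz
      exact (hder z hz).deriv
    rw [a5.deriv, ← hc]
    field_simp
    ring
  rw [hd1, hd2] at hb
  have hcp : 0 < ‖c‖ := norm_pos_iff.2 hc0
  have hap : 0 < ‖deriv g 0‖ := norm_pos_iff.2 hne
  have e1 : (deriv (deriv g) 0 / c ^ 2 + 2 * deriv g 0 ^ 2 / c ^ 3) * c ^ 2 =
      deriv (deriv g) 0 + 2 * deriv g 0 ^ 2 / c := by
    field_simp
  have h3 : ‖deriv (deriv g) 0 + 2 * deriv g 0 ^ 2 / c‖ ≤ 4 * ‖deriv g 0‖ := by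
    rw [← e1, norm_mul]
    have : ‖deriv g 0 / c ^ 2‖ * ‖c ^ 2‖ = ‖deriv g 0‖ := by
      rw [← norm_mul, div_mul_cancel₀ _ (pow_ne_zero 2 hc0)]
    calc _ ≤ (4 * ‖deriv g 0 / c ^ 2‖) * ‖c ^ 2‖ := by gcongr
      _ = 4 * (‖deriv g 0 / c ^ 2‖ * ‖c ^ 2‖) := by ring
      _ = _ := by rw [this]
  have h4 : ‖2 * deriv g 0 ^ 2 / c‖ ≤ 8 * ‖deriv g 0‖ := by
    calc ‖2 * deriv g 0 ^ 2 / c‖ = ‖(deriv (deriv g) 0 + 2 * deriv g 0 ^ 2 / c) - deriv (deriv g) 0‖ := by
          congr 1; ring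
      _ ≤ _ := norm_sub_le _ _
      _ ≤ 4 * ‖deriv g 0‖ + 4 * ‖deriv g 0‖ := add_le_add h3 hb0
      _ = _ := by ring
  rw [norm_div, norm_mul, norm_pow, div_le_iff₀ hcp] at h4
  have h5 : ‖(2:ℂ)‖ = 2 := by norm_num
  rw [h5] at h4
  have h6 : ‖deriv g 0‖ ≤ 4 * ‖c‖ := by
    have : ‖deriv g 0‖ * (2 * ‖deriv g 0‖) ≤ ‖deriv g 0‖ * (8 * ‖c‖) := by nlinarith
    have := le_of_mul_le_mul_left this hap
    linarith
  rw [mem_ball, dist_eq_norm] at hw
  have : ‖w - g 0‖ = ‖c‖ := rfl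
  rw [this] at hw
  linarith

end Crest.Agent.R162.KB
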