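import Mathlib
import Crest.Agent.R162.KB0

set_option autoImplicit false

namespace Crest.Agent.R162.KB

open Metric Set Filter Topology
open scoped ComplexConjugate Real

theorem isOpen_hp : IsOpen {z : ℂ | 0 < z.im} := isOpen_lt continuous_const Complex.continuous_im

/-- chart of the half-plane on the disc, `0 ↦ x` -/
noncomputable def mob (x ζ : ℂ) : ℂ := conj x + (x - conj x) * (1 - ζ)⁻¹

/-- the inverse chart -/
noncomputable def bom (x w : ℂ) : ℂ := (w - x) / (w - conj x)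

theorem sub_conj_eq (x : ℂ) : x - conj x = 2 * x.im * Complex.I := by
  rw [Complex.sub_conj]; push_cast; ring

theorem sub_conj_ne {x : ℂ} (hx : 0 < x.im) : x - conj x ≠ 0 := by
  rw [sub_conj_eq]; simp [hx.ne']

theorem norm_sub_conj {x : ℂ} (hx : 0 < x.im) : ‖x - conj x‖ = 2 * x.im := by
  rw [sub_conj_eq]; simp [abs_of_pos hx]

theorem one_sub_ne {ζ : ℂ} (hζ : ‖ζ‖ < 1) : 1 - ζ ≠ 0 := by
  intro h
  have : ζ = 1 := (sub_eq_zero.1 h).symm
  rw [this, norm_one] at hζ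
  exact lt_irrefl _ hζ

theorem conj_sub_ne {x w : ℂ} (hx : 0 < x.im) (hw : 0 < w.im) : w - conj x ≠ 0 := by
  intro h
  have := congrArg Complex.im h
  simp at this
  linarith

@[simp] theorem mob_zero (x : ℂ) : mob x 0 = x := by simp [mob]

@[simp] theorem bom_self (x : ℂ) : bom x x = 0 := by simp [bom]

theorem mob_im (x ζ : ℂ) (hζ : ‖ζ‖ < 1) :
    (mob x ζ).im = x.im * (1 - ‖ζ‖ ^ 2) / ‖1 - ζ‖ ^ 2 := by
  have hz := one_sub_ne hζ
  have hns : 0 < Complex.normSq (1 - ζ) := Complex.normSq_pos.2 hz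
  rw [← Complex.normSq_eq_norm_sq, ← Complex.normSq_eq_norm_sq, mob, sub_conj_eq,
    Complex.add_im, Complex.conj_im, Complex.mul_im, Complex.inv_re, Complex.inv_im]
  have e2 : (2 * (x.im : ℂ) * Complex.I).re = 0 := by simp
  have e3 : (2 * (x.im : ℂ) * Complex.I).im = 2 * x.im := by simp
  rw [e2, e3]
  have e4 : Complex.normSq (1 - ζ) = 1 - 2 * ζ.re + Complex.normSq ζ := by
    simp [Complex.normSq_apply]; ring
  have e5 : (1 - ζ).re = 1 - ζ.re := by simp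
  rw [e5]
  field_simp
  rw [e4]; ring

theorem mob_mapsTo {x : ℂ} (hx : 0 < x.im) : MapsTo (mob x) (ball 0 1) {z | 0 < z.im} := by
  intro ζ hζ
  rw [mem_ball_zero_iff] at hζ
  show 0 < (mob x ζ).im
  rw [mob_im x ζ hζ]
  have h1 : 0 < 1 - ‖ζ‖ ^ 2 := by have := norm_nonneg ζ; nlinarith
  have h2 : 0 < ‖1 - ζ‖ := norm_pos_iff.2 (one_sub_ne hζ)
  positivity

theorem mob_hasDerivAt (x : ℂ) {ζ : ℂ} (hζ : ‖ζ‖ < 1) :
    HasDerivAt (mob x) ((x - conj x) * ((1 - ζ) ^ 2)⁻¹) ζ := by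
  have h1 : HasDerivAt (fun ζ : ℂ => 1 - ζ) (-1) ζ := by
    simpa using (hasDerivAt_id ζ).const_sub 1
  have h2 := ((h1.fun_inv (one_sub_ne hζ)).const_mul (x - conj x)).const_add (conj x)
  have h3 : (x - conj x) * (- -1 / (1 - ζ) ^ 2) = (x - conj x) * ((1 - ζ) ^ 2)⁻¹ := by
    rw [neg_neg, one_div]
  rw [h3] at h2
  exact h2

theorem mob_differentiableOn (x : ℂ) : DifferentiableOn ℂ (mob x) (ball 0 1) := fun ζ hζ =>
  (mob_hasDerivAt x (by simpa using hζ)).differentiableAt.differentiableWithinAt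

theorem mob_injOn {x : ℂ} (hx : 0 < x.im) : InjOn (mob x) (ball 0 1) := by
  intro p hp q hq hpq
  have h1 := mul_left_cancel₀ (sub_conj_ne hx) (add_left_cancel hpq)
  have h2 := inv_injective h1
  exact sub_right_injective h2

theorem bom_norm_lt {x w : ℂ} (hx : 0 < x.im) (hw : 0 < w.im) : ‖bom x w‖ < 1 := by
  have hne := conj_sub_ne hx hw
  rw [bom, norm_div, div_lt_one (norm_pos_iff.2 hne)]
  apply lt_of_pow_lt_pow_left₀ 2 (norm_nonneg _)
  rw [← Complex.normSq_eq_norm_sq, ← Complex.normSq_eq_norm_sq]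
  simp only [Complex.normSq_apply, Complex.sub_re, Complex.sub_im, Complex.conj_re,
    Complex.conj_im]
  nlinarith [mul_pos hx hw]

theorem mob_bom {x w : ℂ} (hx : 0 < x.im) (hw : 0 < w.im) : mob x (bom x w) = w := by
  have hne := conj_sub_ne hx hw
  have hne2 := sub_conj_ne hx
  have e : 1 - bom x w = (x - conj x) / (w - conj x) := by
    rw [bom]; field_simp; ring
  rw [mob, e]
  field_simp
  ring

theorem bom_mob {x ζ : ℂ} (hx : 0 < x.im) (hζ : ‖ζ‖ < 1) : bom x (mob x ζ) = ζ := by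
  have hm : 0 < (mob x ζ).im := mob_mapsTo hx (by simpa using hζ)
  apply mob_injOn hx (by simpa using bom_norm_lt hx hm) (by simpa using hζ)
  exact mob_bom hx hm

theorem bom_hasDerivAt {x w : ℂ} (hx : 0 < x.im) (hw : 0 < w.im) :
    HasDerivAt (bom x) ((x - conj x) / (w - conj x) ^ 2) w := by
  have hne := conj_sub_ne hx hw
  have h1 : HasDerivAt (fun w : ℂ => w - x) 1 w := (hasDerivAt_id w).sub_const x
  have h2 : HasDerivAt (fun w : ℂ => w - conj x) 1 w := (hasDerivAt_id w).sub_const _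
  have h3 := h1.fun_div h2 hne
  have e : (1 * (w - conj x) - (w - x) * 1) / (w - conj x) ^ 2 = (x - conj x) / (w - conj x) ^ 2 := by
    congr 1; ring
  rw [e] at h3
  exact h3

/-- the transferred map -/
theorem comp_differentiableOn {f : ℂ → ℂ} (hf : DifferentiableOn ℂ f {z | 0 < z.im}) {x : ℂ}
    (hx : 0 < x.im) : DifferentiableOn ℂ (f ∘ mob x) (ball 0 1) :=
  hf.comp (mob_differentiableOn x) (mob_mapsTo hx)

theorem comp_injOn {f : ℂ → ℂ} (hi : InjOn f {z | 0 < z.im}) {x : ℂ}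
    (hx : 0 < x.im) : InjOn (f ∘ mob x) (ball 0 1) :=
  hi.comp (mob_injOn hx) (mob_mapsTo hx)

theorem comp_deriv {f : ℂ → ℂ} (hf : DifferentiableOn ℂ f {z | 0 < z.im}) {x ζ : ℂ}
    (hx : 0 < x.im) (hζ : ‖ζ‖ < 1) :
    deriv (f ∘ mob x) ζ = deriv f (mob x ζ) * ((x - conj x) * ((1 - ζ) ^ 2)⁻¹) := by
  have hm : mob x ζ ∈ {z : ℂ | 0 < z.im} := mob_mapsTo hx (by simpa using hζ)
  have h1 : HasDerivAt f (deriv f (mob x ζ)) (mob x ζ) :=
    (hf.differentiableAt (isOpen_hp.mem_nhds hm)).hasDerivAt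
  exact (h1.comp ζ (mob_hasDerivAt x hζ)).deriv

theorem comp_deriv_zero {f : ℂ → ℂ} (hf : DifferentiableOn ℂ f {z | 0 < z.im}) {x : ℂ}
    (hx : 0 < x.im) : ‖deriv (f ∘ mob x) 0‖ = 2 * (x.im * ‖deriv f x‖) := by
  rw [comp_deriv hf hx (by simp)]
  simp only [mob_zero, sub_zero, one_pow, inv_one, mul_one, norm_mul, norm_sub_conj hx]
  ring

/-- conformal distance density: `Ups f (mob x ζ) = (1-|ζ|²)|(f∘mob x)'(ζ)|/2`. -/
theorem ups_mob {f : ℂ → ℂ} (hf : DifferentiableOn ℂ f {z | 0 < z.im}) {x ζ : ℂ}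
    (hx : 0 < x.im) (hζ : ‖ζ‖ < 1) :
    (mob x ζ).im * ‖deriv f (mob x ζ)‖ = (1 - ‖ζ‖ ^ 2) * ‖deriv (f ∘ mob x) ζ‖ / 2 := by
  have h2 : 0 < ‖1 - ζ‖ := norm_pos_iff.2 (one_sub_ne hζ)
  rw [comp_deriv hf hx hζ, mob_im x ζ hζ]
  simp only [norm_mul, norm_inv, norm_pow, norm_sub_conj hx]
  field_simp

/-- Harnack-type upper bound for `Ups`. -/
theorem ups_upper {f : ℂ → ℂ} (hf : DifferentiableOn ℂ f {z | 0 < z.im})
    (hi : InjOn f {z | 0 < z.im}) {x w : ℂ} (hx : 0 < x.im) (hw : 0 < w.im) :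
    w.im * ‖deriv f w‖ ≤ x.im * ‖deriv f x‖ * ((1 + ‖bom x w‖) / (1 - ‖bom x w‖)) ^ 2 := by
  have hρ := bom_norm_lt hx hw
  have h1 := distortion_upper (comp_differentiableOn hf hx) (comp_injOn hi hx) hρ
  have h2 := ups_mob hf hx hρ
  rw [mob_bom hx hw] at h2
  rw [comp_deriv_zero hf hx] at h1
  rw [h2]
  set ρ := ‖bom x w‖
  have h0 : 0 ≤ ρ := norm_nonneg _
  have h3 : 0 < 1 - ρ := by linarith
  have h4 : (0:ℝ) ≤ (1 - ρ ^ 2) / 2 := by nlinarith
  calc (1 - ρ ^ 2) * ‖deriv (f ∘ mob x) (bom x w)‖ / 2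
      = (1 - ρ ^ 2) / 2 * ‖deriv (f ∘ mob x) (bom x w)‖ := by ring
    _ ≤ (1 - ρ ^ 2) / 2 * (2 * (x.im * ‖deriv f x‖) * (1 + ρ) / (1 - ρ) ^ 3) :=
        mul_le_mul_of_nonneg_left h1 h4
    _ = x.im * ‖deriv f x‖ * ((1 + ρ) / (1 - ρ)) ^ 2 := by
        have e : 1 - ρ ^ 2 = (1 - ρ) * (1 + ρ) := by ring
        rw [e]
        field_simp

/-- Harnack-type lower bound for `Ups`. -/
theorem ups_lower {f : ℂ → ℂ} (hf : DifferentiableOn ℂ f {z | 0 < z.im})
    (hi : InjOn f {z | 0 < z.im}) {x w : ℂ} (hx : 0 < x.im) (hw : 0 < w.im) :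
    x.im * ‖deriv f x‖ * ((1 - ‖bom x w‖) / (1 + ‖bom x w‖)) ^ 2 ≤ w.im * ‖deriv f w‖ := by
  have hρ := bom_norm_lt hx hw
  have h1 := distortion_lower (comp_differentiableOn hf hx) (comp_injOn hi hx) hρ
  have h2 := ups_mob hf hx hρ
  rw [mob_bom hx hw] at h2
  rw [comp_deriv_zero hf hx] at h1
  rw [h2]
  set ρ := ‖bom x w‖
  have h0 : 0 ≤ ρ := norm_nonneg _
  have h3 : 0 < 1 - ρ := by linarith
  have h4 : (0:ℝ) ≤ (1 - ρ ^ 2) / 2 := by nlinarith
  calc x.im * ‖deriv f x‖ * ((1 - ρ) / (1 + ρ)) ^ 2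
      = (1 - ρ ^ 2) / 2 * (2 * (x.im * ‖deriv f x‖) * (1 - ρ) / (1 + ρ) ^ 3) := by
        have e : 1 - ρ ^ 2 = (1 - ρ) * (1 + ρ) := by ring
        rw [e]
        field_simp
    _ ≤ (1 - ρ ^ 2) / 2 * ‖deriv (f ∘ mob x) (bom x w)‖ := mul_le_mul_of_nonneg_left h1 h4
    _ = (1 - ρ ^ 2) * ‖deriv (f ∘ mob x) (bom x w)‖ / 2 := by ring

/-- growth theorem on the half-plane -/
theorem growth_hp {f : ℂ → ℂ} (hf : DifferentiableOn ℂ f {z | 0 < z.im})
    (hi : InjOn f {z | 0 < z.im}) {x w : ℂ} (hx : 0 < x.im) (hw : 0 < w.im) :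
    ‖f w - f x‖ ≤ 2 * (x.im * ‖deriv f x‖) * ‖bom x w‖ / (1 - ‖bom x w‖) ^ 2 := by
  have hρ := bom_norm_lt hx hw
  have h1 := growth_upper (comp_differentiableOn hf hx) (comp_injOn hi hx) hρ
  rw [comp_deriv_zero hf hx] at h1
  simp only [Function.comp, mob_zero, mob_bom hx hw] at h1
  exact h1

/-- **KB2**: Koebe 1/4 theorem on the half-plane. -/
theorem kb2 {f : ℂ → ℂ} (hf : DifferentiableOn ℂ f {z | 0 < z.im})
    (hi : InjOn f {z | 0 < z.im}) {x : ℂ} (hx : 0 < x.im) :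
    ball (f x) (x.im * ‖deriv f x‖ / 2) ⊆ f '' {z | 0 < z.im} := by
  have h1 := koebe_quarter (comp_differentiableOn hf hx) (comp_injOn hi hx)
  rw [comp_deriv_zero hf hx] at h1
  simp only [Function.comp, mob_zero] at h1
  have e : 2 * (x.im * ‖deriv f x‖) / 4 = x.im * ‖deriv f x‖ / 2 := by ring
  rw [e] at h1
  intro w hw
  obtain ⟨ζ, hζ, hζw⟩ := h1 hw
  exact ⟨mob x ζ, mob_mapsTo hx hζ, hζw⟩

/-- **KB3**: Schwarz lemma for maps of a ball into the half-plane. -/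
theorem kb3 {g : ℂ → ℂ} {w : ℂ} {r : ℝ} (hr : 0 < r) (hg : DifferentiableOn ℂ g (ball w r))
    (hm : MapsTo g (ball w r) {z | 0 < z.im}) : r * ‖deriv g w‖ ≤ 2 * (g w).im := by
  have hwb : w ∈ ball w r := mem_ball_self hr
  have hgw : 0 < (g w).im := hm hwb
  set h : ℂ → ℂ := bom (g w) ∘ g with hh
  have hd : DifferentiableOn ℂ h (ball w r) := by
    intro z hz
    have h1 : HasDerivAt g (deriv g z) z :=
      (hg.differentiableAt (isOpen_ball.mem_nhds hz)).hasDerivAt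
    exact ((bom_hasDerivAt hgw (hm hz)).comp z h1).differentiableAt.differentiableWithinAt
  have hmaps : MapsTo h (ball w r) (closedBall (h w) 1) := by
    intro z hz
    have e : h w = 0 := by simp [hh]
    rw [e, mem_closedBall_zero_iff]
    exact (bom_norm_lt hgw (hm hz)).le
  have hb := Complex.norm_deriv_le_div_of_mapsTo_ball hd hmaps hr
  have h1 : HasDerivAt g (deriv g w) w :=
    (hg.differentiableAt (isOpen_ball.mem_nhds hwb)).hasDerivAt
  have h2 : deriv h w = (g w - conj (g w)) / (g w - conj (g w)) ^ 2 * deriv g w :=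
    ((bom_hasDerivAt hgw hgw).comp w h1).deriv
  have hne := sub_conj_ne hgw
  have e : (g w - conj (g w)) / (g w - conj (g w)) ^ 2 * deriv g w =
      deriv g w / (g w - conj (g w)) := by
    field_simp
  rw [h2, e, norm_div, norm_sub_conj hgw, div_le_div_iff₀ (by positivity) hr] at hb
  linarith

/-- **KB3'**: if `ball (f x) r ⊆ f(H)` then `r ≤ 2 Ups f x`. -/
theorem kb3' {f : ℂ → ℂ} (hf : DifferentiableOn ℂ f {z | 0 < z.im})
    (hi : InjOn f {z | 0 < z.im}) {x : ℂ} (hx : 0 < x.im) {r : ℝ}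
    (hr : ball (f x) r ⊆ f '' {z | 0 < z.im}) : r ≤ 2 * (x.im * ‖deriv f x‖) := by
  rcases le_or_gt r 0 with h0 | h0
  · exact h0.trans (by positivity)
  obtain ⟨φ, hφd, -, hφm, hφ1, -⟩ := Crest.Agent.Lib.exists_holomorphic_inverse isOpen_hp hf hi
  have hxU : x ∈ {z : ℂ | 0 < z.im} := hx
  have hmaps : MapsTo φ (ball (f x) r) {z | 0 < z.im} := by
    intro w hw
    rw [← hφm]
    exact mem_image_of_mem φ (hr hw)
  have h1 := kb3 h0 (hφd.mono hr) hmaps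
  rw [hφ1 x hxU] at h1
  have hne : deriv f x ≠ 0 := Crest.Agent.Lib.deriv_ne_zero_of_injOn isOpen_hp hf hi hx
  have hder : deriv φ (f x) = (deriv f x)⁻¹ := by
    have hφ : HasDerivAt φ (deriv φ (f x)) (f x) :=
      ((hφd.mono hr).differentiableAt (isOpen_ball.mem_nhds (mem_ball_self h0))).hasDerivAt
    have hfx : HasDerivAt f (deriv f x) x :=
      (hf.differentiableAt (isOpen_hp.mem_nhds hx)).hasDerivAt
    have h2 := hφ.comp x hfx
    have h3 : HasDerivAt (φ ∘ f) 1 x := by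
      refine (hasDerivAt_id x).congr_of_eventuallyEq ?_
      filter_upwards [isOpen_hp.mem_nhds hx] with z hz
      exact hφ1 z hz
    have h4 := h2.unique h3
    exact eq_inv_of_mul_eq_one_left h4
  rw [hder, norm_inv] at h1
  have hp : 0 < ‖deriv f x‖ := norm_pos_iff.2 hne
  rw [← div_eq_mul_inv, div_le_iff₀ hp] at h1
  linarith

/-- distance form of KB3 -/
theorem infDist_le {f : ℂ → ℂ} (hf : DifferentiableOn ℂ f {z | 0 < z.im})
    (hi : InjOn f {z | 0 < z.im}) {x : ℂ} (hx : 0 < x.im) :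
    Metric.infDist (f x) (f '' {z | 0 < z.im})ᶜ ≤ 2 * (x.im * ‖deriv f x‖) := by
  apply kb3' hf hi hx
  intro w hw
  by_contra hn
  rw [mem_ball, dist_comm] at hw
  exact absurd (Metric.infDist_le_dist_of_mem (x := f x) hn) (not_le.2 hw)

/-- distance form of KB2 -/
theorem le_infDist {f : ℂ → ℂ} (hf : DifferentiableOn ℂ f {z | 0 < z.im})
    (hi : InjOn f {z | 0 < z.im}) {x : ℂ} (hx : 0 < x.im)
    (hne : ((f '' {z | 0 < z.im})ᶜ).Nonempty) :
    x.im * ‖deriv f x‖ / 2 ≤ Metric.infDist (f x) (f '' {z | 0 < z.im})ᶜ := by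
  rw [Metric.le_infDist hne]
  intro y hy
  by_contra hlt
  rw [not_le] at hlt
  apply hy
  apply kb2 hf hi hx
  rw [mem_ball, dist_comm]
  exact hlt

end Crest.Agent.R162.KB
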