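import Mathlib
import Crest.Agent.R162.FLDef
import Crest.Agent.R162.Base
import Crest.Agent.R162.FL1b
import Crest.Agent.R162.FLC2
import Crest.Agent.R162.KB2

/-!
Row 162 (S0243), node LB7a: the deterministic bound for `Lambda_sigma`.
-/

set_option autoImplicit false

open Set Metric MeasureTheory
open scoped ComplexConjugate ENNReal

namespace Crest.Agent.R162.LB7a

open Crest.Agent.R162.FL Crest.Agent.R162.OP

variable {W : ℝ → ℝ} {z z' : ℂ} {s t r δ : ℝ}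

/-! ## `ups` and the inverse flow -/

/-- `Υ_t(f_t(z)) = Im z |f_t'(z)|` -/
theorem ups_ffl (hW : ContinuousOn W (Ici 0)) (ht : 0 ≤ t) (hz : 0 < z.im) :
    ups W t (ffl W t z) = z.im * ‖deriv (ffl W t) z‖ := by
  have ha := FLC.ffl_alive hW ht hz
  rw [FLC.deriv_ffl hW ht hz, Complex.norm_exp, ups, FLC.gfl_ffl hW ht hz]
  congr 1
  · simp
  · congr 1
    have hcont : ContinuousOn (fun s => 2 / (Zfl W s (ffl W t z)) ^ 2) (Icc 0 t) := by
      refine continuousOn_const.div ((continuousOn_Zfl hW ha).pow 2) fun r hr => ?_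
      exact pow_ne_zero _ (Zfl_ne_zero (ha.mono hr.1 hr.2))
    have hint : IntervalIntegrable (fun s => 2 / (Zfl W s (ffl W t z)) ^ 2) volume 0 t := by
      apply ContinuousOn.intervalIntegrable
      rwa [uIcc_of_le ht]
    have h1 := Complex.reCLM.intervalIntegral_comp_comm hint
    simp only [Complex.reCLM_apply] at h1
    rw [← h1]
    refine intervalIntegral.integral_congr fun r _ => ?_
    simp only [div_eq_mul_inv, Complex.mul_re]
    simp

theorem ups_eq (hW : ContinuousOn W (Ici 0)) (h : Alive W z t) :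
    ups W t z = (Zfl W t z).im * ‖deriv (ffl W t) (Zfl W t z)‖ := by
  rw [← ups_ffl hW h.1 (FLC.Zfl_im_pos hW h), FLC.ffl_Zfl hW h]

theorem ups_pos (h : Alive W z t) : 0 < ups W t z :=
  mul_pos (gfl_im_pos h) (Real.exp_pos _)

/-- Koebe: `B(z, Υ/2)` is in the domain -/
theorem ball_subset_Dom (hW : ContinuousOn W (Ici 0)) (h : Alive W z t) :
    ball z (ups W t z / 2) ⊆ Dom W t := by
  have h1 := KB.kb2 (FLC.differentiableOn_ffl hW h.1) (FLC.injOn_ffl hW h.1) (FLC.Zfl_im_pos hW h)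
  rw [FLC.ffl_Zfl hW h, FLC.ffl_image hW h.1, ← ups_eq hW h] at h1
  exact h1

/-- Schwarz: a ball in the domain has radius at most `2 Υ` -/
theorem le_two_ups (hW : ContinuousOn W (Ici 0)) (h : Alive W z t) (hr : ball z r ⊆ Dom W t) :
    r ≤ 2 * ups W t z := by
  rw [ups_eq hW h]
  apply KB.kb3' (FLC.differentiableOn_ffl hW h.1) (FLC.injOn_ffl hW h.1) (FLC.Zfl_im_pos hW h)
  rwa [FLC.ffl_Zfl hW h, FLC.ffl_image hW h.1]

/-- `Υ ≤ 2 Im` -/
theorem ups_le_two_im (hW : ContinuousOn W (Ici 0)) (h : Alive W z t) :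
    ups W t z / 2 ≤ z.im := by
  by_contra hlt
  rw [not_le] at hlt
  have hz : 0 < z.im := h.im_pos
  have h1 : z - (z.im : ℂ) * Complex.I ∈ ball z (ups W t z / 2) := by
    rw [mem_ball, dist_eq_norm]
    simpa [abs_of_pos hz] using hlt
  have h2 : Alive W (z - (z.im : ℂ) * Complex.I) t := ball_subset_Dom hW h h1
  have h3 := h2.im_pos
  simp at h3

/-- the centred flow is holomorphic on the domain -/
theorem differentiableOn_Zfl (hW : ContinuousOn W (Ici 0)) (ht : 0 ≤ t) :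
    DifferentiableOn ℂ (Zfl W t) (Dom W t) := by
  obtain ⟨φ, hφd, -, -, hφ1, -⟩ := Crest.Agent.Lib.exists_holomorphic_inverse KB.isOpen_hp
    (FLC.differentiableOn_ffl hW ht) (FLC.injOn_ffl hW ht)
  rw [FLC.ffl_image hW ht] at hφd
  refine hφd.congr fun w hw => ?_
  have h1 := hφ1 (Zfl W t w) (FLC.Zfl_im_pos hW hw)
  rw [FLC.ffl_Zfl hW hw] at h1
  exact h1.symm

/-! ## Harnack -/

/-- Schwarz lemma for the flow, pseudo-hyperbolic form -/
theorem schwarz_flow (hW : ContinuousOn W (Ici 0)) (ht : 0 ≤ t) (hr : 0 < r)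
    (hb : ball z r ⊆ Dom W t) (hδ : ‖z' - z‖ ≤ δ * r) (hz' : ‖z' - z‖ < r) :
    ‖Zfl W t z' - Zfl W t z‖ ≤ δ * ‖Zfl W t z' - conj (Zfl W t z)‖ := by
  have hzb : z ∈ ball z r := mem_ball_self hr
  have hz'b : z' ∈ ball z r := by rwa [mem_ball, dist_eq_norm]
  have hgz : 0 < (Zfl W t z).im := FLC.Zfl_im_pos hW (hb hzb)
  have hgz' : 0 < (Zfl W t z').im := FLC.Zfl_im_pos hW (hb hz'b)
  set h : ℂ → ℂ := KB.bom (Zfl W t z) ∘ Zfl W t with hh
  have hd : DifferentiableOn ℂ h (ball z r) := by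
    intro w hw
    have h1 : HasDerivAt (Zfl W t) (deriv (Zfl W t) w) w :=
      (((differentiableOn_Zfl hW ht).mono hb).differentiableAt (isOpen_ball.mem_nhds hw)).hasDerivAt
    exact ((KB.bom_hasDerivAt hgz (FLC.Zfl_im_pos hW (hb hw))).comp w
      h1).differentiableAt.differentiableWithinAt
  have e : h z = 0 := by simp [hh]
  have hmaps : MapsTo h (ball z r) (closedBall (h z) 1) := by
    intro w hw
    rw [e, mem_closedBall_zero_iff]
    exact (KB.bom_norm_lt hgz (FLC.Zfl_im_pos hW (hb hw))).le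
  have h2 := Complex.dist_le_div_mul_dist_of_mapsTo_ball hd hmaps hz'b
  rw [e, dist_zero_right, dist_eq_norm] at h2
  have hne : 0 < ‖Zfl W t z' - conj (Zfl W t z)‖ := norm_pos_iff.2 (KB.conj_sub_ne hgz hgz')
  have h3 : ‖h z'‖ = ‖Zfl W t z' - Zfl W t z‖ / ‖Zfl W t z' - conj (Zfl W t z)‖ := by
    simp [hh, KB.bom]
  rw [h3] at h2
  have h4 : 1 / r * ‖z' - z‖ ≤ δ := by
    rw [one_div, inv_mul_le_iff₀ hr]; linarith
  exact (div_le_iff₀ hne).1 (h2.trans h4)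

/-- **Harnack**: on `B(z,r/2)` with `B(z,r)` in the domain, `Im g_t` changes at most by a factor `3` -/
theorem harnack (hW : ContinuousOn W (Ici 0)) (ht : 0 ≤ t) (hr : 0 < r)
    (hb : ball z r ⊆ Dom W t) (hz' : ‖z' - z‖ ≤ r / 2) :
    (gfl W t z').im ≤ 3 * (gfl W t z).im ∧ (gfl W t z).im ≤ 3 * (gfl W t z').im := by
  have h1 := schwarz_flow (z' := z') (δ := 1 / 2) hW ht hr hb (by linarith) (by linarith)
  have hzb : z ∈ ball z r := mem_ball_self hr
  have hz'b : z' ∈ ball z r := by rw [mem_ball, dist_eq_norm]; linarith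
  have hgz : 0 < (Zfl W t z).im := FLC.Zfl_im_pos hW (hb hzb)
  have hgz' : 0 < (Zfl W t z').im := FLC.Zfl_im_pos hW (hb hz'b)
  rw [← Zfl_im, ← Zfl_im]
  set a := Zfl W t z'
  set b := Zfl W t z
  have h2 : ‖a - b‖ ^ 2 ≤ 1 / 4 * ‖a - conj b‖ ^ 2 := by
    have := pow_le_pow_left₀ (norm_nonneg _) h1 2
    rw [mul_pow] at this
    linarith
  rw [← Complex.normSq_eq_norm_sq, ← Complex.normSq_eq_norm_sq] at h2
  simp only [Complex.normSq_apply, Complex.sub_re, Complex.sub_im, Complex.conj_re,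
    Complex.conj_im] at h2
  have h3 : 3 * (a.im + b.im) ^ 2 ≤ 16 * (a.im * b.im) := by nlinarith [sq_nonneg (a.re - b.re)]
  constructor
  · by_contra hlt
    rw [not_le] at hlt
    nlinarith
  · by_contra hlt
    rw [not_le] at hlt
    nlinarith

/-- a point close to `z` on the normal line has large `S` -/
theorem sfl_ge (hW : ContinuousOn W (Ici 0)) (h : Alive W z t) {y : ℝ} (hy : 0 < y)
    (hz : Zfl W t z = y * Complex.I) (hz' : ‖z' - z‖ ≤ ups W t z / 10) :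
    1 / 3 ≤ sfl W t z' := by
  have hu := ups_pos h
  have hb := ball_subset_Dom hW h
  have h1 := schwarz_flow (z' := z') (δ := 1 / 5) hW h.1 (by linarith) hb (by linarith) (by linarith)
  have hz'b : z' ∈ ball z (ups W t z / 2) := by rw [mem_ball, dist_eq_norm]; linarith
  have hgz' : 0 < (Zfl W t z').im := FLC.Zfl_im_pos hW (hb hz'b)
  rw [hz] at h1
  set a := Zfl W t z' with ha
  have h2 : ‖a - conj ((y : ℂ) * Complex.I)‖ ≤ ‖a - y * Complex.I‖ + 2 * y := by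
    have e : a - conj ((y : ℂ) * Complex.I) = (a - y * Complex.I) + 2 * (y * Complex.I) := by
      simp; ring
    rw [e]
    refine (norm_add_le _ _).trans ?_
    simp [abs_of_pos hy]
  have h3 : ‖a - y * Complex.I‖ ≤ y / 2 := by linarith
  have h4 : y / 2 ≤ a.im := by
    have := Complex.abs_im_le_norm (a - y * Complex.I)
    simp at this
    have := (abs_le.1 (this.trans h3)).1
    linarith
  have h5 : ‖a‖ ≤ 3 / 2 * y := by
    have : a = (a - y * Complex.I) + y * Complex.I := by ring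
    rw [this]
    refine (norm_add_le _ _).trans ?_
    simp [abs_of_pos hy]
    linarith
  have hapos : 0 < ‖a‖ := by
    rw [norm_pos_iff]
    intro h0
    rw [h0] at hgz'
    simp at hgz'
  rw [sfl, ← ha, le_div_iff₀ hapos]
  linarith

/-! ## the `K`-time and the imaginary part -/

theorem ath_sub (hW : ContinuousOn W (Ici 0)) (h : Alive W z t) (hs : 0 ≤ s) (hst : s ≤ t) :
    Real.exp (2 * (ath W t z - ath W s z)) * (gfl W t z).im = (gfl W s z).im := by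
  have ht := h.1
  set q : ℝ → ℝ := fun r => 1 / ‖Zfl W r z‖ ^ 2 with hq
  have hqc : ContinuousOn q (Icc 0 t) := by
    refine continuousOn_const.div ((continuousOn_Zfl hW h).norm.pow 2) fun r hr => ?_
    exact pow_ne_zero _ (norm_ne_zero_iff.2 (Zfl_ne_zero (h.mono hr.1 hr.2)))
  set φ : ℝ → ℝ := fun x => Real.exp (2 * ∫ r in (0 : ℝ)..x, q r) * (gfl W x z).im with hφ
  have hqi : ∀ x ∈ Icc (0 : ℝ) t,
      HasDerivWithinAt (fun x => ∫ r in (0 : ℝ)..x, q r) (q x) (Icc 0 t) x := by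
    intro x hx
    have h1 := hasDerivWithinAt_primitive (f := fun r => ((q r : ℝ) : ℂ))
      (Complex.continuous_ofReal.comp_continuousOn hqc) hx
    have h2 := hasDerivWithinAt_re h1
    simp only [intervalIntegral.integral_ofReal, Complex.ofReal_re] at h2
    exact h2
  have hder : ∀ x ∈ Icc (0 : ℝ) t, HasDerivWithinAt φ 0 (Icc 0 t) x := by
    intro x hx
    have h1 := ((hqi x hx).const_mul 2).exp
    have h2 := hasDerivWithinAt_im (hasDerivWithinAt_gfl' h hx)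
    have h3 := h1.mul h2
    have hax := h.mono hx.1 hx.2
    have e : (2 / Zfl W x z).im = -(2 * q x) * (gfl W x z).im := by
      rw [Complex.div_im, ← Zfl_im, hq]
      have : Complex.normSq (Zfl W x z) ≠ 0 := by
        rw [Ne, Complex.normSq_eq_zero]; exact Zfl_ne_zero hax
      simp only [Complex.re_ofNat, Complex.im_ofNat, zero_mul, zero_div, zero_sub,
        ← Complex.normSq_eq_norm_sq]
      field_simp
    rw [e] at h3
    have e0 : Real.exp (2 * ∫ r in (0 : ℝ)..x, q r) * (2 * q x) * (gfl W x z).im +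
        Real.exp (2 * ∫ r in (0 : ℝ)..x, q r) * (-(2 * q x) * (gfl W x z).im) = 0 := by ring
    rw [e0] at h3
    exact h3
  have hconst : φ s = φ t := by
    have h1 := (convex_Icc (0 : ℝ) t).norm_image_sub_le_of_norm_hasDerivWithin_le
      (f := φ) (f' := fun _ => 0) (C := 0) hder (fun x _ => by simp)
      (x := t) ⟨ht, le_rfl⟩ (y := s) ⟨hs, hst⟩
    rw [zero_mul] at h1
    exact sub_eq_zero.1 (norm_le_zero_iff.1 h1)
  simp only [hφ] at hconst
  have e1 : ath W t z = ∫ r in (0 : ℝ)..t, q r := rfl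
  have e2 : ath W s z = ∫ r in (0 : ℝ)..s, q r := rfl
  rw [← e1, ← e2] at hconst
  rw [mul_sub, Real.exp_sub, div_mul_eq_mul_div, ← hconst]
  field_simp


/-! ## the grid -/

/-- radii of the annuli -/
noncomputable def rad (R : ℝ) (j : ℕ) : ℝ := 4 * R * 2 ^ j

/-- the grid of spacing `ρ e^{-m}/40` around `w0` -/
noncomputable def grid (w0 : ℂ) (ρ : ℝ) (m : ℕ) : Finset ℂ :=
  ((Finset.Icc (-⌈80 * Real.exp m⌉) ⌈80 * Real.exp m⌉) ×ˢ
    (Finset.Icc (-⌈80 * Real.exp m⌉) ⌈80 * Real.exp m⌉)).image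
    fun kl : ℤ × ℤ => w0 + ((kl.1 : ℂ) + kl.2 * Complex.I) *
      ((ρ * Real.exp (-(m : ℝ)) / 40 : ℝ) : ℂ)

theorem card_grid (w0 : ℂ) (ρ : ℝ) (m : ℕ) :
    ((grid w0 ρ m).card : ℝ) ≤ 26569 * Real.exp (2 * m) := by
  have h1 : (grid w0 ρ m).card ≤
      (Finset.Icc (-⌈80 * Real.exp m⌉) ⌈80 * Real.exp m⌉).card *
      (Finset.Icc (-⌈80 * Real.exp m⌉) ⌈80 * Real.exp m⌉).card := by
    rw [← Finset.card_product]
    exact Finset.card_image_le
  have he : 1 ≤ Real.exp (m : ℝ) := Real.one_le_exp (Nat.cast_nonneg m)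
  have hc0 : 0 ≤ ⌈80 * Real.exp m⌉ := Int.ceil_nonneg (by positivity)
  have h2 : ((Finset.Icc (-⌈80 * Real.exp m⌉) ⌈80 * Real.exp m⌉).card : ℝ) ≤
      163 * Real.exp m := by
    rw [Int.card_Icc]
    have h3 : (0 : ℤ) ≤ ⌈80 * Real.exp m⌉ + 1 - -⌈80 * Real.exp m⌉ := by omega
    have h4 : (((⌈80 * Real.exp m⌉ + 1 - -⌈80 * Real.exp m⌉).toNat : ℤ) : ℝ) =
        ((⌈80 * Real.exp m⌉ + 1 - -⌈80 * Real.exp m⌉ : ℤ) : ℝ) := by
      rw [Int.toNat_of_nonneg h3]
    rw [← Int.cast_natCast, h4]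
    push_cast
    have h5 := Int.ceil_lt_add_one (80 * Real.exp m)
    linarith
  calc ((grid w0 ρ m).card : ℝ) ≤ ((Finset.Icc (-⌈80 * Real.exp m⌉) ⌈80 * Real.exp m⌉).card : ℝ) *
      ((Finset.Icc (-⌈80 * Real.exp m⌉) ⌈80 * Real.exp m⌉).card : ℝ) := by exact_mod_cast h1
    _ ≤ (163 * Real.exp m) * (163 * Real.exp m) := by gcongr
    _ = 26569 * Real.exp (2 * m) := by
      rw [two_mul, Real.exp_add]; ring

theorem grid_cover {w0 p : ℂ} {ρ : ℝ} (hρ : 0 < ρ) (m : ℕ) (hp : ‖p - w0‖ ≤ ρ) :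
    ∃ p' ∈ grid w0 ρ m, ‖p' - p‖ ≤ ρ * Real.exp (-(m : ℝ)) / 40 := by
  set h : ℝ := ρ * Real.exp (-(m : ℝ)) / 40 with hh
  have hpos : 0 < h := by positivity
  have hρh : ρ = 40 * Real.exp m * h := by
    rw [hh, Real.exp_neg]; field_simp
  have he : 1 ≤ Real.exp (m : ℝ) := Real.one_le_exp (Nat.cast_nonneg m)
  have key : ∀ x : ℝ, |x| ≤ ρ → round (x / h) ∈
      Finset.Icc (-⌈80 * Real.exp m⌉) ⌈80 * Real.exp m⌉ ∧ |(round (x / h) : ℝ) * h - x| ≤ h / 2 := by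
    intro x hx
    have h1 := abs_sub_round (x / h)
    have h2 : |x / h| ≤ 40 * Real.exp m := by
      rw [abs_div, abs_of_pos hpos, div_le_iff₀ hpos]
      rwa [← hρh]
    have h3 := abs_le.1 h1
    have h4 := abs_le.1 h2
    have h5 := Int.le_ceil (80 * Real.exp m)
    refine ⟨?_, ?_⟩
    · rw [Finset.mem_Icc]
      constructor
      · have : ((-⌈80 * Real.exp m⌉ : ℤ) : ℝ) ≤ (round (x / h) : ℝ) := by
          push_cast; linarith [h3.1, h3.2, h4.1]
        exact_mod_cast this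
      · have : (round (x / h) : ℝ) ≤ ((⌈80 * Real.exp m⌉ : ℤ) : ℝ) := by
          linarith [h3.1, h3.2, h4.2]
        exact_mod_cast this
    · have e : (round (x / h) : ℝ) * h - x = -((x / h - round (x / h)) * h) := by
        field_simp; ring
      rw [e, abs_neg, abs_mul, abs_of_pos hpos]
      calc |x / h - (round (x / h) : ℝ)| * h ≤ 1 / 2 * h := by gcongr
        _ = h / 2 := by ring
  have hre := key (p - w0).re ((Complex.abs_re_le_norm _).trans hp)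
  have him := key (p - w0).im ((Complex.abs_im_le_norm _).trans hp)
  refine ⟨w0 + (((round ((p - w0).re / h) : ℤ) : ℂ) + ((round ((p - w0).im / h) : ℤ) : ℂ) *
    Complex.I) * ((h : ℝ) : ℂ), ?_, ?_⟩
  · rw [grid, Finset.mem_image]
    exact ⟨(round ((p - w0).re / h), round ((p - w0).im / h)),
      Finset.mem_product.2 ⟨hre.1, him.1⟩, rfl⟩
  · refine (Complex.norm_le_abs_re_add_abs_im _).trans ?_
    have e1 : (w0 + (((round ((p - w0).re / h) : ℤ) : ℂ) + ((round ((p - w0).im / h) : ℤ) : ℂ) *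
        Complex.I) * ((h : ℝ) : ℂ) - p).re = (round ((p - w0).re / h) : ℝ) * h - (p - w0).re := by
      simp; ring
    have e2 : (w0 + (((round ((p - w0).re / h) : ℤ) : ℂ) + ((round ((p - w0).im / h) : ℤ) : ℂ) *
        Complex.I) * ((h : ℝ) : ℂ) - p).im = (round ((p - w0).im / h) : ℝ) * h - (p - w0).im := by
      simp; ring
    rw [e1, e2]
    linarith [hre.2, him.2]

/-! ## the one-point estimate -/

open Classical in
/-- reference height of the annulus -/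
noncomputable def amp (W : ℝ → ℝ) (w0 : ℂ) (K ρ s : ℝ) : ℝ :=
  if s = 0 ∧ w0.im ≤ K * ρ then ρ else (gfl W s w0).im

theorem amp_pos {w0 : ℂ} {K ρ s : ℝ} (hρ : 0 < ρ) (h : Alive W w0 s) : 0 < amp W w0 K ρ s := by
  unfold amp
  split_ifs
  · exact hρ
  · exact gfl_im_pos h

theorem key_interval {K ρ M σ : ℝ} {w0 : ℂ} {m : ℕ} (hW : ContinuousOn W (Ici 0)) (hK : 4 ≤ K)
    (hρ : 0 < ρ) (hw0 : Alive W w0 σ) (hs0 : 0 ≤ s) (hs1 : s ≤ σ)
    (hs : (s = 0 ∧ w0.im ≤ K * ρ) ∨ K * ρ ≤ ups W s w0)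
    (hgrid : ∀ p ∈ grid w0 ρ m, Alive W p σ → 1 / 3 ≤ sfl W σ p → ath W σ p - ath W s p ≤ M)
    {y : ℝ} (hy : 0 < y) (hp : ‖ffl W σ (y * Complex.I) - w0‖ ≤ ρ)
    (hu : ρ * Real.exp (-(m : ℝ)) ≤ y * ‖deriv (ffl W σ) (y * Complex.I)‖) :
    amp W w0 K ρ s * (Real.exp (-(m + 2 * M)) / 27) ≤ y ∧ y ≤ amp W w0 K ρ s * (K + 1) := by
  have hyI : 0 < ((y : ℂ) * Complex.I).im := by simpa using hy
  have hσ := hw0.1
  set p := ffl W σ (y * Complex.I) with hpd
  have hpa : Alive W p σ := FLC.ffl_alive hW hσ hyI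
  have hZp : Zfl W σ p = y * Complex.I := FLC.Zfl_ffl hW hσ hyI
  have hup : ups W σ p = y * ‖deriv (ffl W σ) (y * Complex.I)‖ := by
    rw [hpd, ups_ffl hW hσ hyI]; simp
  rw [← hup] at hu
  have hyim : (gfl W σ p).im = y := by rw [← Zfl_im, hZp]; simp
  have hups : 0 < ups W σ p := ups_pos hpa
  obtain ⟨p', hp'g, hp'⟩ := grid_cover hρ m hp
  have hp'2 : ‖p' - p‖ ≤ ups W σ p / 10 := by linarith
  have hbσ := ball_subset_Dom hW hpa
  have hbs : ball p (ups W σ p / 2) ⊆ Dom W s := hbσ.trans (Dom_anti hs0 hs1)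
  have hp'b : p' ∈ ball p (ups W σ p / 2) := by rw [mem_ball, dist_eq_norm]; linarith
  have hp'a : Alive W p' σ := hbσ hp'b
  have hS := sfl_ge hW hpa hy hZp hp'2
  have hath := hgrid p' hp'g hp'a hS
  have hH1 := harnack (z' := p') hW hσ (by linarith) hbσ (by linarith)
  have hH2 := harnack (z' := p') hW hs0 (by linarith) hbs (by linarith)
  rw [hyim] at hH1
  have hsub := ath_sub hW hp'a hs0 hs1
  have hexp : Real.exp (2 * (ath W σ p' - ath W s p')) ≤ Real.exp (2 * M) :=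
    Real.exp_le_exp.2 (by linarith)
  have hg' : 0 < (gfl W σ p').im := gfl_im_pos hp'a
  -- lower bound by the height at time `s`
  have hlow : (gfl W s p).im * (Real.exp (-(2 * M)) / 9) ≤ y := by
    have h1 : (gfl W s p').im ≤ Real.exp (2 * M) * (3 * y) := by
      rw [← hsub]
      calc Real.exp (2 * (ath W σ p' - ath W s p')) * (gfl W σ p').im
          ≤ Real.exp (2 * M) * (gfl W σ p').im := by gcongr
        _ ≤ Real.exp (2 * M) * (3 * y) := by gcongr; exact hH1.1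
    have h2 : (gfl W s p).im ≤ 9 * Real.exp (2 * M) * y := by linarith [hH2.2]
    rw [Real.exp_neg]
    have h3 : 0 < Real.exp (2 * M) := Real.exp_pos _
    calc (gfl W s p).im * ((Real.exp (2 * M))⁻¹ / 9)
        ≤ (9 * Real.exp (2 * M) * y) * ((Real.exp (2 * M))⁻¹ / 9) := by gcongr
      _ = y := by field_simp
  have hup2 : y ≤ (gfl W s p).im := by
    have := im_anti hpa hs0 hs1
    rwa [hyim] at this
  have hm0 : Real.exp (-(m + 2 * M)) ≤ Real.exp (-(2 * M)) :=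
    Real.exp_le_exp.2 (by have : (0:ℝ) ≤ m := Nat.cast_nonneg m; linarith)
  by_cases hc : s = 0 ∧ w0.im ≤ K * ρ
  · have hA : amp W w0 K ρ s = ρ := if_pos hc
    rw [hA]
    obtain ⟨hc1, hc2⟩ := hc
    subst hc1
    rw [gfl_zero' hpa] at hlow hup2
    have h1 : ups W σ p / 2 ≤ p.im := ups_le_two_im hW hpa
    constructor
    · have h2 : ρ * Real.exp (-(m : ℝ)) / 2 ≤ p.im := by linarith
      have e : Real.exp (-(m + 2 * M)) = Real.exp (-(m : ℝ)) * Real.exp (-(2 * M)) := by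
        rw [← Real.exp_add]; ring_nf
      rw [e]
      refine le_trans ?_ hlow
      have h3 : 0 < Real.exp (-(2 * M)) := Real.exp_pos _
      have h4 : 0 < ρ * Real.exp (-(m : ℝ)) := by positivity
      calc ρ * (Real.exp (-(m : ℝ)) * Real.exp (-(2 * M)) / 27)
          = (ρ * Real.exp (-(m : ℝ)) / 27) * Real.exp (-(2 * M)) := by ring
        _ ≤ (p.im / 9) * Real.exp (-(2 * M)) :=
          mul_le_mul_of_nonneg_right (by linarith) h3.le
        _ = p.im * (Real.exp (-(2 * M)) / 9) := by ring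
    · have h2 : (p - w0).im ≤ ρ := (le_abs_self _).trans ((Complex.abs_im_le_norm _).trans hp)
      rw [Complex.sub_im] at h2
      nlinarith
  · have hA : amp W w0 K ρ s = (gfl W s w0).im := if_neg hc
    rw [hA]
    have hs' : K * ρ ≤ ups W s w0 := hs.resolve_left hc
    have hw0s : Alive W w0 s := hw0.mono hs0 hs1
    have hb : ball w0 (2 * ρ) ⊆ Dom W s := by
      refine Subset.trans (ball_subset_ball ?_) (ball_subset_Dom hW hw0s)
      nlinarith
    have hH3 := harnack (z' := p) hW hs0 (by linarith) hb (by linarith)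
    have hY : 0 < (gfl W s w0).im := gfl_im_pos hw0s
    constructor
    · refine le_trans ?_ hlow
      calc (gfl W s w0).im * (Real.exp (-(m + 2 * M)) / 27)
          ≤ (3 * (gfl W s p).im) * (Real.exp (-(2 * M)) / 27) :=
            mul_le_mul hH3.2 (by linarith) (by positivity) (by linarith [hH3.2])
        _ = (gfl W s p).im * (Real.exp (-(2 * M)) / 9) := by ring
    · calc y ≤ (gfl W s p).im := hup2
        _ ≤ 3 * (gfl W s w0).im := hH3.1
        _ ≤ (gfl W s w0).im * (K + 1) := by nlinarith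


/-! ## the covering lemma -/

theorem lintegral_inv_Icc {a b B : ℝ} (ha : 0 < a) (hab : a ≤ b) (hB : 0 ≤ B) :
    ∫⁻ y in Icc a b, ENNReal.ofReal (B / y) = ENNReal.ofReal (B * Real.log (b / a)) := by
  have hb : 0 < b := ha.trans_le hab
  have hcont : ContinuousOn (fun y : ℝ => B / y) (Icc a b) :=
    continuousOn_const.div continuousOn_id fun y hy => (ha.trans_le hy.1).ne'
  have hint : IntegrableOn (fun y : ℝ => B / y) (Icc a b) := hcont.integrableOn_Icc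
  rw [← ofReal_integral_eq_lintegral_ofReal hint]
  · congr 1
    rw [integral_Icc_eq_integral_Ioc, ← intervalIntegral.integral_of_le hab]
    have e : ∀ y : ℝ, B / y = B * (1 / y) := fun y => by ring
    simp_rw [e]
    rw [intervalIntegral.integral_const_mul, integral_one_div_of_pos ha hb]
  · rw [Filter.EventuallyLE, ae_restrict_iff' measurableSet_Icc]
    exact Filter.Eventually.of_forall fun y hy => div_nonneg hB (ha.le.trans hy.1)

theorem lintegral_cover {F : ℝ → ℝ≥0∞} {A : ℕ → ℝ} (hA : ∀ j, 0 < A j) {c : ℝ} (hc : 1 ≤ c)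
    {B L : ℕ → ℕ → ℝ} (hB : ∀ j k, 0 ≤ B j k) (hL : ∀ j k, 0 ≤ L j k)
    (h : ∀ y, 0 < y → ∃ j k, y ∈ Icc (A j * Real.exp (-L j k)) (A j * c) ∧
      F y ≤ ENNReal.ofReal (B j k / y)) :
    ∫⁻ y in Ioi 0, F y ≤ ∑' (j : ℕ), ∑' (k : ℕ), ENNReal.ofReal (B j k * (Real.log c + L j k)) := by
  set I : ℕ → ℕ → Set ℝ := fun j k => Icc (A j * Real.exp (-L j k)) (A j * c) with hI
  set G : ℕ → ℕ → ℝ → ℝ≥0∞ := fun j k => (I j k).indicator fun y => ENNReal.ofReal (B j k / y)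
    with hG
  have hGm : ∀ j k, Measurable (G j k) := fun j k =>
    (Measurable.ennreal_ofReal (measurable_const.div measurable_id)).indicator measurableSet_Icc
  have h1 : ∫⁻ y in Ioi 0, F y ≤ ∫⁻ y in Ioi 0, ∑' (j : ℕ), ∑' (k : ℕ), G j k y := by
    refine setLIntegral_mono' measurableSet_Ioi fun y hy => ?_
    obtain ⟨j, k, hyI, hF⟩ := h y hy
    refine hF.trans ?_
    have h2 : ENNReal.ofReal (B j k / y) = G j k y := by
      simp only [hG]
      rw [indicator_of_mem hyI]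
    rw [h2]
    exact (ENNReal.le_tsum (f := fun k => G j k y) k).trans
      (ENNReal.le_tsum (f := fun j => ∑' k, G j k y) j)
  refine h1.trans ((setLIntegral_le_lintegral _ _).trans ?_)
  rw [lintegral_tsum fun j => (Measurable.tsum fun k => hGm j k).aemeasurable]
  refine ENNReal.tsum_le_tsum fun j => ?_
  rw [lintegral_tsum fun k => (hGm j k).aemeasurable]
  refine ENNReal.tsum_le_tsum fun k => ?_
  simp only [hG]
  rw [lintegral_indicator measurableSet_Icc]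
  have he : Real.exp (-L j k) ≤ 1 := Real.exp_le_one_iff.2 (by linarith [hL j k])
  have hle : A j * Real.exp (-L j k) ≤ A j * c :=
    mul_le_mul_of_nonneg_left (he.trans hc) (hA j).le
  rw [lintegral_inv_Icc (mul_pos (hA j) (Real.exp_pos _)) hle (hB j k)]
  refine le_of_eq ?_
  congr 2
  have hAj := hA j
  rw [mul_div_mul_left _ _ hAj.ne', Real.log_div (by positivity) (Real.exp_pos _).ne', Real.log_exp]
  ring

theorem summable_aux {r : ℝ} (h0 : 0 ≤ r) (h1 : r < 1) :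
    Summable fun n : ℕ => (1 + (n : ℝ)) * r ^ n := by
  have hr : ‖r‖ < 1 := by rwa [Real.norm_of_nonneg h0]
  have h2 := summable_pow_mul_geometric_of_norm_lt_one 1 hr
  have h3 := summable_geometric_of_norm_lt_one hr
  refine (h3.add h2).congr fun n => ?_
  rw [pow_one]; ring

theorem tsum_bound {r1 r2 X : ℝ} (h10 : 0 ≤ r1) (h11 : r1 < 1) (h20 : 0 ≤ r2) (h21 : r2 < 1)
    (hX : 0 ≤ X) {T : ℕ → ℕ → ℝ}
    (hT : ∀ j k, T j k ≤ X * (((1 + (j : ℝ)) * r1 ^ j) * ((1 + (k : ℝ)) * r2 ^ k))) :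
    ∑' (j : ℕ), ∑' (k : ℕ), ENNReal.ofReal (T j k) ≤
      ENNReal.ofReal (X * ((∑' j : ℕ, (1 + (j : ℝ)) * r1 ^ j) * ∑' k : ℕ, (1 + (k : ℝ)) * r2 ^ k)) := by
  have ha : ∀ j : ℕ, 0 ≤ (1 + (j : ℝ)) * r1 ^ j := fun j => by positivity
  have hb : ∀ j : ℕ, 0 ≤ (1 + (j : ℝ)) * r2 ^ j := fun j => by positivity
  calc ∑' (j : ℕ), ∑' (k : ℕ), ENNReal.ofReal (T j k)
      ≤ ∑' (j : ℕ), ∑' (k : ℕ), ENNReal.ofReal X * (ENNReal.ofReal ((1 + (j : ℝ)) * r1 ^ j) *
          ENNReal.ofReal ((1 + (k : ℝ)) * r2 ^ k)) := by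
        refine ENNReal.tsum_le_tsum fun j => ENNReal.tsum_le_tsum fun k => ?_
        rw [← ENNReal.ofReal_mul (ha j), ← ENNReal.ofReal_mul hX]
        exact ENNReal.ofReal_le_ofReal (hT j k)
    _ = ENNReal.ofReal X * ((∑' (j : ℕ), ENNReal.ofReal ((1 + (j : ℝ)) * r1 ^ j)) *
          ∑' (k : ℕ), ENNReal.ofReal ((1 + (k : ℝ)) * r2 ^ k)) := by
        simp_rw [ENNReal.tsum_mul_left, ENNReal.tsum_mul_right]
    _ = ENNReal.ofReal (X * ((∑' j : ℕ, (1 + (j : ℝ)) * r1 ^ j) *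
          ∑' k : ℕ, (1 + (k : ℝ)) * r2 ^ k)) := by
        rw [ENNReal.ofReal_mul hX, ENNReal.ofReal_mul (tsum_nonneg ha),
          ENNReal.ofReal_tsum_of_nonneg ha (summable_aux h10 h11),
          ENNReal.ofReal_tsum_of_nonneg hb (summable_aux h20 h21)]


theorem psi_bound {q η u U x D : ℝ} (hq : 0 < q) (hη : 0 < η) {j : ℕ} (hu : 0 < u)
    (hD : (2 : ℝ) ^ j ≤ D) (hU : D ≤ U) (hx : 0 < x)
    (hux : u ≤ 4 * Real.exp 1 * x * max u U) :
    u ^ q * (max u U) ^ (-q - η) ≤ (4 * Real.exp 1) ^ q * (x ^ q * ((2 : ℝ) ^ j) ^ (-η)) := by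
  have h2 : (0 : ℝ) < 2 ^ j := by positivity
  set M := max u U with hM
  have hM0 : 0 < M := lt_of_lt_of_le hu (le_max_left _ _)
  have hDM : (2 : ℝ) ^ j ≤ M := (hD.trans hU).trans (le_max_right _ _)
  have e1 : M ^ (-q - η) = (M ^ q)⁻¹ * M ^ (-η) := by
    rw [sub_eq_add_neg, Real.rpow_add hM0, Real.rpow_neg hM0.le]
  have h3 : u ^ q ≤ (4 * Real.exp 1 * x * M) ^ q := Real.rpow_le_rpow hu.le hux hq.le
  have h4 : (4 * Real.exp 1 * x * M) ^ q = (4 * Real.exp 1) ^ q * x ^ q * M ^ q := by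
    rw [Real.mul_rpow (by positivity) hM0.le, Real.mul_rpow (by positivity) hx.le]
  have h5 : M ^ (-η) ≤ ((2 : ℝ) ^ j) ^ (-η) :=
    Real.rpow_le_rpow_of_nonpos h2 hDM (by linarith)
  have hMq : 0 < M ^ q := Real.rpow_pos_of_pos hM0 q
  rw [e1]
  calc u ^ q * ((M ^ q)⁻¹ * M ^ (-η))
      ≤ ((4 * Real.exp 1) ^ q * x ^ q * M ^ q) * ((M ^ q)⁻¹ * ((2 : ℝ) ^ j) ^ (-η)) := by
        rw [← h4]
        gcongr
    _ = (4 * Real.exp 1) ^ q * (x ^ q * ((2 : ℝ) ^ j) ^ (-η)) := by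
        field_simp

theorem exp_four : (27 : ℝ) ≤ Real.exp 4 := by
  have h1 : (2.7 : ℝ) ≤ Real.exp 1 := by linarith [Real.exp_one_gt_d9]
  have h2 : Real.exp 4 = Real.exp 1 ^ 4 := by
    rw [← Real.exp_nat_mul]; norm_num
  rw [h2]
  calc (27 : ℝ) ≤ 2.7 ^ 4 := by norm_num
    _ ≤ Real.exp 1 ^ 4 := by gcongr

theorem rad_pos {R : ℝ} (hR : 1 ≤ R) (j : ℕ) : 0 < rad R j := by
  unfold rad; positivity

theorem pointwise {q η CA K : ℝ} (hq : 0 < q) (hη : 0 < η) (hCA : 0 ≤ CA) (hK : 4 ≤ K)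
    {w0 : ℂ} {R N σ : ℝ} {s : ℕ → ℝ} {u0 : ℂ → ℝ} (hW : ContinuousOn W (Ici 0)) (hR : 1 ≤ R)
    (hN : 1 ≤ N) (hRN : Real.log R ≤ N) (hw0 : Alive W w0 σ)
    (hu0 : ∀ p, max 1 (‖p - w0‖ - R) ≤ u0 p)
    (hs : ∀ j, 0 ≤ s j ∧ s j ≤ σ ∧
      ((s j = 0 ∧ w0.im ≤ K * rad R j) ∨ K * rad R j ≤ ups W (s j) w0))
    (hgrid : ∀ j m : ℕ, ∀ p ∈ grid w0 (rad R j) m, Alive W p σ → 1 / 3 ≤ sfl W σ p →
        ath W σ p - ath W (s j) p ≤ CA * (N + j + m))
    {y : ℝ} (hy : 0 < y) :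
    ∃ j k : ℕ, y ∈ Icc (amp W w0 K (rad R j) (s j) *
        Real.exp (-((6 + 6 * CA) * N * ((1 + j) * (1 + k))))) (amp W w0 K (rad R j) (s j) * (K + 1)) ∧
      (y * ‖deriv (ffl W σ) (y * Complex.I)‖) ^ q *
        (max (y * ‖deriv (ffl W σ) (y * Complex.I)‖) (u0 (ffl W σ (y * Complex.I)))) ^ (-q - η) ≤
      (4 * Real.exp 1) ^ q * ((Real.exp (-q)) ^ k * ((2 : ℝ) ^ (-η)) ^ j) := by
  have hyI : 0 < ((y : ℂ) * Complex.I).im := by simpa using hy
  have hσ := hw0.1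
  set p := ffl W σ (y * Complex.I) with hpd
  set u := y * ‖deriv (ffl W σ) (y * Complex.I)‖ with hu
  have hu0' : 0 < u := mul_pos hy (norm_pos_iff.2 (FLC.deriv_ffl_ne hW hσ hyI))
  -- the annulus
  have hexj : ∃ j : ℕ, ‖p - w0‖ ≤ rad R j := by
    obtain ⟨n, hn⟩ := pow_unbounded_of_one_lt ‖p - w0‖ (one_lt_two)
    refine ⟨n, hn.le.trans ?_⟩
    unfold rad
    have : (0 : ℝ) < 2 ^ n := by positivity
    nlinarith
  classical
  obtain ⟨j, hj, hjmin⟩ : ∃ j : ℕ, ‖p - w0‖ ≤ rad R j ∧ ∀ i < j, ¬ ‖p - w0‖ ≤ rad R i :=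
    ⟨Nat.find hexj, Nat.find_spec hexj, fun i hi => Nat.find_min hexj hi⟩
  set ρ := rad R j with hρd
  have hρ : 0 < ρ := rad_pos hR j
  obtain ⟨m1, D, hm1, hD1, hD2, hD3⟩ : ∃ (m1 : ℕ) (D : ℝ), (m1 : ℝ) ≤ 2 * N ∧
      ρ * Real.exp (-(m1 : ℝ)) ≤ 4 * D ∧ (2 : ℝ) ^ j ≤ D ∧ D ≤ u0 p := by
    have hlog : 0 ≤ Real.log R := Real.log_nonneg hR
    rcases Nat.eq_zero_or_pos j with h0 | h0
    · refine ⟨⌈Real.log R⌉₊, 1, ?_, ?_, ?_, ?_⟩
      · have := Nat.ceil_lt_add_one hlog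
        linarith
      · have h1 : R ≤ Real.exp (⌈Real.log R⌉₊ : ℝ) := by
          calc R = Real.exp (Real.log R) := (Real.exp_log (by linarith)).symm
            _ ≤ _ := Real.exp_le_exp.2 (Nat.le_ceil _)
        have h2 : R * Real.exp (-(⌈Real.log R⌉₊ : ℝ)) ≤ 1 := by
          rw [Real.exp_neg, ← div_eq_mul_inv, div_le_one (Real.exp_pos _)]
          exact h1
        rw [hρd, h0]
        unfold rad
        rw [pow_zero]
        linarith
      · rw [h0, pow_zero]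
      · exact (le_max_left _ _).trans (hu0 p)
    · refine ⟨0, R * 2 ^ j, by simp; linarith, ?_, ?_, ?_⟩
      · simp [hρd, rad, mul_assoc]
      · have : (0 : ℝ) < 2 ^ j := by positivity
        nlinarith
      · have h1 := hjmin (j - 1) (by omega)
        rw [not_le] at h1
        have h2 : (2 : ℝ) ^ j = 2 * 2 ^ (j - 1) := by
          rw [← pow_succ']; congr 1; omega
        have h3 : (1 : ℝ) ≤ 2 ^ (j - 1) := one_le_pow₀ one_le_two
        refine le_trans ?_ ((le_max_right _ _).trans (hu0 p))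
        unfold rad at h1
        rw [h2]
        nlinarith
  -- the size class
  have hexk : ∃ k : ℕ, ρ * Real.exp (-((m1 : ℝ) + k)) ≤ u := by
    obtain ⟨k, hk⟩ := exists_nat_gt (Real.log (ρ / u))
    refine ⟨k, ?_⟩
    have h1 : ρ / u ≤ Real.exp k := by
      rw [← Real.log_le_iff_le_exp (by positivity)]
      exact hk.le
    have h2 : Real.exp (-((m1 : ℝ) + k)) ≤ Real.exp (-(k : ℝ)) :=
      Real.exp_le_exp.2 (by have : (0 : ℝ) ≤ m1 := Nat.cast_nonneg _; linarith)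
    have h3 : 0 < Real.exp (k : ℝ) := Real.exp_pos _
    rw [div_le_iff₀ hu0'] at h1
    calc ρ * Real.exp (-((m1 : ℝ) + k)) ≤ (Real.exp k * u) * Real.exp (-(k : ℝ)) := by gcongr
      _ = u := by rw [Real.exp_neg]; field_simp
  obtain ⟨k, hk, hkmin⟩ : ∃ k : ℕ, ρ * Real.exp (-((m1 : ℝ) + k)) ≤ u ∧
      ∀ i < k, ¬ ρ * Real.exp (-((m1 : ℝ) + i)) ≤ u :=
    ⟨Nat.find hexk, Nat.find_spec hexk, fun i hi => Nat.find_min hexk hi⟩
  have hmax0 : 0 < max u (u0 p) := lt_of_lt_of_le hu0' (le_max_left _ _)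
  have he1 : (1 : ℝ) ≤ Real.exp 1 := Real.one_le_exp zero_le_one
  have hux : u ≤ 4 * Real.exp 1 * Real.exp (-(k : ℝ)) * max u (u0 p) := by
    rcases Nat.eq_zero_or_pos k with h0 | h0
    · rw [h0]
      simp only [Nat.cast_zero, neg_zero, Real.exp_zero, mul_one]
      calc u ≤ max u (u0 p) := le_max_left _ _
        _ ≤ 4 * Real.exp 1 * max u (u0 p) := by nlinarith
    · obtain ⟨k', rfl⟩ : ∃ k', k = k' + 1 := ⟨k - 1, by omega⟩
      have h1 := hkmin k' (by omega)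
      rw [not_le] at h1
      have e1 : Real.exp (-((m1 : ℝ) + k')) = Real.exp (-(m1 : ℝ)) *
          (Real.exp 1 * Real.exp (-((k' + 1 : ℕ) : ℝ))) := by
        rw [← Real.exp_add, ← Real.exp_add]
        congr 1
        push_cast; ring
      rw [e1, ← mul_assoc] at h1
      have h2 : 0 < Real.exp 1 * Real.exp (-((k' + 1 : ℕ) : ℝ)) := by positivity
      calc u ≤ ρ * Real.exp (-(m1 : ℝ)) * (Real.exp 1 * Real.exp (-((k' + 1 : ℕ) : ℝ))) := h1.le
        _ ≤ (4 * D) * (Real.exp 1 * Real.exp (-((k' + 1 : ℕ) : ℝ))) := by gcongr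
        _ ≤ (4 * max u (u0 p)) * (Real.exp 1 * Real.exp (-((k' + 1 : ℕ) : ℝ))) := by
            gcongr
            exact hD3.trans (le_max_right _ _)
        _ = _ := by ring
  refine ⟨j, k, ?_, ?_⟩
  · obtain ⟨hs0, hs1, hs2⟩ := hs j
    have hj0 : (0 : ℝ) ≤ j := Nat.cast_nonneg j
    have hk0 : (0 : ℝ) ≤ k := Nat.cast_nonneg k
    have hm0 : (0 : ℝ) ≤ m1 := Nat.cast_nonneg m1
    have h1 := key_interval (m := m1 + k) (M := CA * (N + j + (m1 + k : ℕ))) hW hK hρ hw0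
      hs0 hs1 hs2 (fun p' hp' ha hS => hgrid j (m1 + k) p' hp' ha hS) hy hj
      (by push_cast; exact hk)
    refine ⟨le_trans ?_ h1.1, h1.2⟩
    have hA := amp_pos (K := K) hρ (hw0.mono hs0 hs1)
    refine mul_le_mul_of_nonneg_left ?_ hA.le
    have h27 : Real.exp (-4) ≤ 1 / 27 := by
      rw [Real.exp_neg, ← one_div]
      exact one_div_le_one_div_of_le (by norm_num) exp_four
    have hP : 1 + (j : ℝ) + k ≤ (1 + j) * (1 + k) := by nlinarith
    have hNP : N + j + k ≤ N * ((1 + j) * (1 + k)) := by nlinarith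
    have hcA : 0 ≤ CA * (N * ((1 + j) * (1 + k)) - (N + j + k)) :=
      mul_nonneg hCA (by linarith)
    have hcA2 : CA * (N + j + ((m1 : ℝ) + k)) ≤ 3 * CA * N * ((1 + j) * (1 + k)) := by
      have h5 : N + j + ((m1 : ℝ) + k) ≤ 3 * (N * ((1 + j) * (1 + k))) := by nlinarith
      calc CA * (N + j + ((m1 : ℝ) + k)) ≤ CA * (3 * (N * ((1 + j) * (1 + k)))) := by gcongr
        _ = _ := by ring
    have h6 : ((m1 : ℝ) + k) ≤ 2 * (N * ((1 + j) * (1 + k))) := by nlinarith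
    have h7 : 1 ≤ N * ((1 + (j : ℝ)) * (1 + k)) := by nlinarith
    calc Real.exp (-((6 + 6 * CA) * N * ((1 + j) * (1 + k))))
        ≤ Real.exp (-(((m1 + k : ℕ) : ℝ) + 2 * (CA * (N + j + (m1 + k : ℕ)))) + (-4)) := by
          apply Real.exp_le_exp.2
          push_cast
          nlinarith
      _ = Real.exp (-(((m1 + k : ℕ) : ℝ) + 2 * (CA * (N + j + (m1 + k : ℕ))))) * Real.exp (-4) :=
          Real.exp_add _ _
      _ ≤ Real.exp (-(((m1 + k : ℕ) : ℝ) + 2 * (CA * (N + j + (m1 + k : ℕ))))) * (1 / 27) := by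
          gcongr
      _ = _ := by ring
  · have h1 := psi_bound (x := Real.exp (-(k : ℝ))) hq hη hu0' hD2 hD3 (Real.exp_pos _) hux
    refine h1.trans (le_of_eq ?_)
    congr 2
    · rw [← Real.exp_mul, ← Real.exp_nat_mul]
      congr 1; ring
    · rw [← Real.rpow_natCast, ← Real.rpow_natCast, ← Real.rpow_mul (by norm_num),
        ← Real.rpow_mul (by norm_num)]
      congr 1; ring

/-- **LB7a** without the (unneeded) bound on `ups W σ w0`. -/
theorem lb7a' {q η CA K : ℝ} (hq : 0 < q) (hη : 0 < η) (hCA : 0 ≤ CA) (hK : 4 ≤ K) :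
    ∃ C' > 0, ∀ (W : ℝ → ℝ) (w0 : ℂ) (R N σ : ℝ) (s : ℕ → ℝ) (u0 : ℂ → ℝ),
      ContinuousOn W (Ici 0) → 1 ≤ R → 1 ≤ N → Real.log R ≤ N → Alive W w0 σ →
      (∀ p, max 1 (‖p - w0‖ - R) ≤ u0 p) →
      (∀ j, 0 ≤ s j ∧ s j ≤ σ ∧
        ((s j = 0 ∧ w0.im ≤ K * rad R j) ∨ K * rad R j ≤ ups W (s j) w0)) →
      (∀ j m : ℕ, ∀ p ∈ grid w0 (rad R j) m, Alive W p σ → 1 / 3 ≤ sfl W σ p →
        ath W σ p - ath W (s j) p ≤ CA * (N + j + m)) →
      ∫⁻ (y : ℝ) in Ioi 0, ENNReal.ofReal ((y * ‖deriv (ffl W σ) (y * Complex.I)‖) ^ q *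
        (max (y * ‖deriv (ffl W σ) (y * Complex.I)‖) (u0 (ffl W σ (y * Complex.I)))) ^ (-q - η) / y)
        ≤ ENNReal.ofReal (C' * N) := by
  set r1 : ℝ := (2 : ℝ) ^ (-η) with hr1
  set r2 : ℝ := Real.exp (-q) with hr2
  have h10 : 0 ≤ r1 := by positivity
  have h11 : r1 < 1 := Real.rpow_lt_one_of_one_lt_of_neg one_lt_two (by linarith)
  have h20 : 0 ≤ r2 := (Real.exp_pos _).le
  have h21 : r2 < 1 := by
    calc r2 < Real.exp 0 := Real.exp_lt_exp.2 (by linarith)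
      _ = 1 := Real.exp_zero
  set S1 := ∑' j : ℕ, (1 + (j : ℝ)) * r1 ^ j with hS1
  set S2 := ∑' k : ℕ, (1 + (k : ℝ)) * r2 ^ k with hS2
  have hS10 : 0 ≤ S1 := tsum_nonneg fun j => by positivity
  have hS20 : 0 ≤ S2 := tsum_nonneg fun j => by positivity
  set C1 : ℝ := (4 * Real.exp 1) ^ q with hC1
  have hC10 : 0 < C1 := by positivity
  have hlogK : 0 ≤ Real.log (K + 1) := Real.log_nonneg (by linarith)
  set C2 : ℝ := Real.log (K + 1) + (6 + 6 * CA) with hC2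
  have hC20 : 0 < C2 := by positivity
  refine ⟨C1 * C2 * (S1 * S2) + 1, by positivity, ?_⟩
  intro W w0 R N σ s u0 hW hR hN hRN hw0 hu0 hs hgrid
  have hcov := lintegral_cover
    (F := fun y => ENNReal.ofReal ((y * ‖deriv (ffl W σ) (y * Complex.I)‖) ^ q *
        (max (y * ‖deriv (ffl W σ) (y * Complex.I)‖)
          (u0 (ffl W σ (y * Complex.I)))) ^ (-q - η) / y))
    (A := fun j => amp W w0 K (rad R j) (s j))
    (fun j => amp_pos (rad_pos hR j) (hw0.mono (hs j).1 (hs j).2.1))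
    (c := K + 1) (by linarith)
    (B := fun j k => C1 * (r2 ^ k * r1 ^ j))
    (L := fun j k => (6 + 6 * CA) * N * ((1 + j) * (1 + k)))
    (fun j k => by positivity) (fun j k => by positivity) (by
      intro y hy
      obtain ⟨j, k, hmem, hle⟩ := pointwise hq hη hCA hK hW hR hN hRN hw0 hu0 hs hgrid hy
      refine ⟨j, k, hmem, ENNReal.ofReal_le_ofReal ?_⟩
      exact div_le_div_of_nonneg_right hle hy.le)
  refine hcov.trans ((tsum_bound (X := C1 * C2 * N) h10 h11 h20 h21 (by positivity) ?_).trans ?_)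
  · intro j k
    have hj0 : (0 : ℝ) ≤ j := Nat.cast_nonneg j
    have hk0 : (0 : ℝ) ≤ k := Nat.cast_nonneg k
    have h6 : 1 ≤ (1 + (j : ℝ)) * (1 + k) := by nlinarith [mul_nonneg hj0 hk0]
    have h7 : 1 ≤ N * ((1 + (j : ℝ)) * (1 + k)) := one_le_mul_of_one_le_of_one_le hN h6
    have h8 : Real.log (K + 1) + (6 + 6 * CA) * N * ((1 + j) * (1 + k)) ≤
        C2 * (N * ((1 + (j : ℝ)) * (1 + k))) := by
      rw [hC2]; nlinarith
    calc C1 * (r2 ^ k * r1 ^ j) * (Real.log (K + 1) + (6 + 6 * CA) * N * ((1 + j) * (1 + k)))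
        ≤ C1 * (r2 ^ k * r1 ^ j) * (C2 * (N * ((1 + (j : ℝ)) * (1 + k)))) := by gcongr
      _ = _ := by ring
  · refine ENNReal.ofReal_le_ofReal ?_
    have e : C1 * C2 * N * (S1 * S2) = C1 * C2 * (S1 * S2) * N := by ring
    rw [e]
    nlinarith

/-- **LB7a**: the deterministic bound `Λ_σ ≤ C' N` from the grid estimates of the `K`-time. -/
theorem lb7a {q η CA K9 K : ℝ} (hq : 0 < q) (hη : 0 < η) (hCA : 0 ≤ CA) (_hK9 : 0 ≤ K9)
    (hK : 4 ≤ K) :
    ∃ C' > 0, ∀ (W : ℝ → ℝ) (w0 : ℂ) (R N σ : ℝ) (s : ℕ → ℝ) (u0 : ℂ → ℝ),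
      ContinuousOn W (Ici 0) → 1 ≤ R → 1 ≤ N → Real.log R ≤ N → Alive W w0 σ →
      ups W σ w0 ≤ K9 * R → (∀ p, max 1 (‖p - w0‖ - R) ≤ u0 p) →
      (∀ j, 0 ≤ s j ∧ s j ≤ σ ∧
        ((s j = 0 ∧ w0.im ≤ K * rad R j) ∨ K * rad R j ≤ ups W (s j) w0)) →
      (∀ j m : ℕ, ∀ p ∈ grid w0 (rad R j) m, Alive W p σ → 1 / 3 ≤ sfl W σ p →
        ath W σ p - ath W (s j) p ≤ CA * (N + j + m)) →
      ∫⁻ (y : ℝ) in Ioi 0, ENNReal.ofReal ((y * ‖deriv (ffl W σ) (y * Complex.I)‖) ^ q *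
        (max (y * ‖deriv (ffl W σ) (y * Complex.I)‖) (u0 (ffl W σ (y * Complex.I)))) ^ (-q - η) / y)
        ≤ ENNReal.ofReal (C' * N) := by
  obtain ⟨C', hC', h⟩ := lb7a' (K := K) hq hη hCA hK
  exact ⟨C', hC', fun W w0 R N σ s u0 hW hR hN hRN hw0 _ hu0 hs hgrid =>
    h W w0 R N σ s u0 hW hR hN hRN hw0 hu0 hs hgrid⟩

end Crest.Agent.R162.LB7a
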