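import Mathlib
import Crest.Agent.R162.LB7a
import Crest.Agent.R162.LBDefs

/-!
Row 162 (S0243), node LB7a in the notation of `LBDefs`: `Λ(f_σ) ≤ C' N`.
-/

set_option autoImplicit false

open Set MeasureTheory

namespace Crest.Agent.R162.LB7a

open Crest.Agent.R162.FL Crest.Agent.R162.OP

theorem Lam_eq (u0 : ℂ → ℝ) (q η : ℝ) (f : ℂ → ℂ) :
    LB.Lam u0 q η f = ∫⁻ (y : ℝ) in Ioi 0, ENNReal.ofReal
      ((y * ‖deriv f (y * Complex.I)‖) ^ q *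
        (max (y * ‖deriv f (y * Complex.I)‖) (u0 (f (y * Complex.I)))) ^ (-q - η) / y) := by
  simp only [LB.Lam, LB.Psi, LB.mm, KB1.ups]
  refine setLIntegral_congr_fun measurableSet_Ioi fun y _ => ?_
  simp

/-- **LB7a** for `LB.Lam` -/
theorem lam_le {q η CA K : ℝ} (hq : 0 < q) (hη : 0 < η) (hCA : 0 ≤ CA) (hK : 4 ≤ K) :
    ∃ C' > 0, ∀ (W : ℝ → ℝ) (w0 : ℂ) (R N σ : ℝ) (s : ℕ → ℝ) (u0 : ℂ → ℝ),
      ContinuousOn W (Ici 0) → 1 ≤ R → 1 ≤ N → Real.log R ≤ N → Alive W w0 σ →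
      (∀ p, max 1 (‖p - w0‖ - R) ≤ u0 p) →
      (∀ j, 0 ≤ s j ∧ s j ≤ σ ∧
        ((s j = 0 ∧ w0.im ≤ K * rad R j) ∨ K * rad R j ≤ ups W (s j) w0)) →
      (∀ j m : ℕ, ∀ p ∈ grid w0 (rad R j) m, Alive W p σ → 1 / 3 ≤ sfl W σ p →
        ath W σ p - ath W (s j) p ≤ CA * (N + j + m)) →
      LB.Lam u0 q η (ffl W σ) ≤ ENNReal.ofReal (C' * N) := by
  obtain ⟨C', hC', h⟩ := lb7a' (K := K) hq hη hCA hK
  refine ⟨C', hC', fun W w0 R N σ s u0 hW hR hN hRN hw0 hu0 hs hgrid => ?_⟩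
  rw [Lam_eq]
  exact h W w0 R N σ s u0 hW hR hN hRN hw0 hu0 hs hgrid

end Crest.Agent.R162.LB7a
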