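import Mathlib
import Crest.Agent.R162.RadCore

/-!
Row 162, node LB7b: complements on the radial process `Rad.OneP`: events of the past of `τ_s`
given by the state at `τ_s`; capped level times `min (τ_s, T)`.
-/

set_option autoImplicit false

open MeasureTheory ProbabilityTheory Filter Set
open scoped NNReal ENNReal Topology

namespace Crest.Agent.R162.Rad.OneP

open Crest.Agent.R162.OS

variable {Ω : Type*} {m : MeasurableSpace Ω} {F : Filtration ℝ≥0 m} {P : Measure Ω}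
  {gen : (St → ℝ) → St → ℝ} {s₀ : ℝ}

variable (D : OneP F P gen s₀)

lemma meas_lim {α : Type*} (mα : MeasurableSpace α) {f : ℕ → α → St} {g : α → St}
    (hf : ∀ i, Measurable[mα] (f i)) (lim : Tendsto f atTop (𝓝 g)) : Measurable[mα] g :=
  measurable_of_tendsto_metrizable hf lim

/-- `F t`-measurability of the state at a random time `≤ t`. -/
lemma measurable_at' {τ : Ω → ℝ≥0} {t : ℝ≥0} {B : Set Ω}
    (hB : ∀ r : ℝ≥0, MeasurableSet[F t] (B ∩ {ω | τ ω ≤ r}))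
    (hBt : ∀ ω ∈ B, τ ω ≤ t) (hal : ∀ ω ∈ B, D.al (τ ω) ω) :
    Measurable[F t] (B.indicator fun ω => D.st (τ ω) ω) := by
  have hB0 : MeasurableSet[F t] B := by
    have h := hB t
    have : B ∩ {ω | τ ω ≤ t} = B := inter_eq_left.2 fun ω hω => hBt ω hω
    rwa [this] at h
  -- dyadic approximation from the left
  let Z : ℕ → Ω → St := fun k ω => D.st ((⌊(2 : ℝ≥0) ^ k * τ ω⌋₊ : ℝ≥0) / 2 ^ k) ω
  have hfl : ∀ k j : ℕ, MeasurableSet[F t] (B ∩ {ω | ⌊(2 : ℝ≥0) ^ k * τ ω⌋₊ = j}) := by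
    intro k j
    have hlt : ∀ r : ℝ≥0, MeasurableSet[F t] (B ∩ {ω | τ ω < r}) := by
      intro r
      have : B ∩ {ω | τ ω < r} = ⋃ q ∈ {q : ℚ | Real.toNNReal q < r},
          (B ∩ {ω | τ ω ≤ Real.toNNReal q}) := by
        ext ω
        simp only [mem_inter_iff, mem_ofPred_eq, mem_iUnion, exists_prop]
        constructor
        · rintro ⟨h1, h2⟩
          obtain ⟨q, hq1, hq2⟩ := exists_rat_btwn (show (τ ω : ℝ) < r from h2)
          have hq0 : (0:ℝ) ≤ q := (NNReal.coe_nonneg _).trans hq1.le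
          refine ⟨q, ?_, h1, ?_⟩
          · rw [← NNReal.coe_lt_coe, Real.coe_toNNReal _ hq0]; exact hq2
          · rw [← NNReal.coe_le_coe, Real.coe_toNNReal _ hq0]; exact hq1.le
        · rintro ⟨q, h1, h2, h3⟩
          exact ⟨h2, h3.trans_lt h1⟩
      rw [this]
      exact MeasurableSet.biUnion (Set.to_countable _) fun q _ => hB _
    have : B ∩ {ω | ⌊(2 : ℝ≥0) ^ k * τ ω⌋₊ = j} =
        (B ∩ {ω | τ ω < ((j : ℝ≥0) + 1) / 2 ^ k}) \ (B ∩ {ω | τ ω < (j : ℝ≥0) / 2 ^ k}) := by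
      ext ω
      simp only [mem_inter_iff, mem_ofPred_eq, Set.mem_sdiff, not_and, not_lt]
      have h2k : (0 : ℝ≥0) < 2 ^ k := by positivity
      rw [Nat.floor_eq_iff (by positivity), lt_div_iff₀ h2k, div_le_iff₀ h2k]
      constructor
      · rintro ⟨h1, h2, h3⟩
        refine ⟨⟨h1, ?_⟩, fun _ => ?_⟩
        · rwa [mul_comm]
        · rwa [mul_comm]
      · rintro ⟨⟨h1, h2⟩, h3⟩
        refine ⟨h1, ?_, ?_⟩
        · rw [mul_comm]; exact h3 h1
        · rwa [mul_comm]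
    rw [this]
    exact (hlt _).diff (hlt _)
  have hle : ∀ (k : ℕ) (ω : Ω), ((⌊(2 : ℝ≥0) ^ k * τ ω⌋₊ : ℝ≥0) / 2 ^ k) ≤ τ ω := by
    intro k ω
    rw [div_le_iff₀ (by positivity), mul_comm]
    exact Nat.floor_le (by positivity)
  have hZ : ∀ k, Measurable[F t] (B.indicator (Z k)) := by
    intro k S hS
    classical
    have hrw : (B.indicator (Z k)) ⁻¹' S =
        (⋃ j ∈ {j : ℕ | (j : ℝ≥0) / 2 ^ k ≤ t}, (B ∩ {ω | ⌊(2 : ℝ≥0) ^ k * τ ω⌋₊ = j}) ∩
          (D.st ((j : ℝ≥0) / 2 ^ k)) ⁻¹' S) ∪ (if (0 : St) ∈ S then Bᶜ else ∅) := by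
      ext ω
      simp only [mem_preimage, mem_iUnion, mem_inter_iff, mem_ofPred_eq, mem_union, exists_prop]
      by_cases hω : ω ∈ B
      · rw [indicator_of_mem hω]
        have hn : ω ∉ (if (0 : St) ∈ S then Bᶜ else ∅) := by
          split_ifs
          · simpa using hω
          · simp
        simp only [hn, or_false]
        constructor
        · intro h
          exact ⟨_, (hle k ω).trans (hBt ω hω), ⟨hω, rfl⟩, h⟩
        · rintro ⟨j, _, ⟨_, rfl⟩, h⟩; exact h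
      · rw [indicator_of_notMem hω]
        by_cases h0 : (0 : St) ∈ S
        · simp [h0, hω]
        · simp [h0, hω]
    rw [hrw]
    refine MeasurableSet.union ?_ ?_
    · refine MeasurableSet.biUnion (Set.to_countable _) fun j hj => ?_
      exact (hfl k j).inter (F.mono hj _ (D.st_meas _ hS))
    · split_ifs
      · exact hB0.compl
      · exact @MeasurableSet.empty _ (F t)
  refine meas_lim (F t) (f := fun k => B.indicator (Z k)) hZ ?_
  rw [tendsto_pi_nhds]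
  intro ω
  by_cases hω : ω ∈ B
  · simp only [indicator_of_mem hω]
    have hal' := hal ω hω
    have hc := (D.st_cont ω) (τ ω) hal'
    refine Tendsto.comp (g := fun t => D.st t ω) hc ?_
    rw [tendsto_nhdsWithin_iff]
    refine ⟨?_, Eventually.of_forall fun k => D.al_anti ω _ _ (hle k ω) hal'⟩
    rw [← NNReal.tendsto_coe]
    have hlow : ∀ k : ℕ, (τ ω : ℝ) - (1/2)^k ≤ (((⌊(2 : ℝ≥0) ^ k * τ ω⌋₊ : ℝ≥0) / 2 ^ k : ℝ≥0) : ℝ) := by
      intro k
      have h1 : (2 : ℝ≥0) ^ k * τ ω < ⌊(2 : ℝ≥0) ^ k * τ ω⌋₊ + 1 := Nat.lt_floor_add_one _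
      have h2 : (2 : ℝ) ^ k * τ ω < ⌊(2 : ℝ≥0) ^ k * τ ω⌋₊ + 1 := by exact_mod_cast h1
      push_cast
      rw [le_div_iff₀ (by positivity)]
      have h3 : ((1:ℝ)/2)^k * 2^k = 1 := by rw [← mul_pow]; norm_num
      nlinarith
    have hlim : Tendsto (fun k : ℕ => (τ ω : ℝ) - (1/2)^k) atTop (𝓝 ((τ ω : ℝ) - 0)) :=
      tendsto_const_nhds.sub (tendsto_pow_atTop_nhds_zero_of_lt_one (by norm_num) (by norm_num))
    rw [sub_zero] at hlim
    exact tendsto_of_tendsto_of_tendsto_of_le_of_le hlim tendsto_const_nhds hlow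
      (fun k => by exact_mod_cast hle k ω)
  · simp only [indicator_of_notMem hω]
    exact tendsto_const_nhds

/-- events given by the state at `τ_s` are in the past of `τ_s`. -/
lemma past_st {s : ℝ} {A : Set Ω} (hA : D.Past s A) {S : Set St} (hS : MeasurableSet S) :
    D.Past s (A ∩ {ω | D.st (D.tau s ω) ω ∈ S}) := by
  refine ⟨inter_subset_left.trans hA.1, fun t => ?_⟩
  set B : Set Ω := A ∩ {ω | D.tau s ω ≤ t} with hBdef
  have hB : ∀ r : ℝ≥0, MeasurableSet[F t] (B ∩ {ω | D.tau s ω ≤ r}) := by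
    intro r
    have : B ∩ {ω | D.tau s ω ≤ r} = A ∩ {ω | D.tau s ω ≤ min t r} := by
      ext ω
      simp only [hBdef, mem_inter_iff, mem_ofPred_eq, le_min_iff]
      tauto
    rw [this]
    exact F.mono (min_le_left _ _) _ (hA.2 _)
  have hm := D.measurable_at' hB (fun ω hω => hω.2) (fun ω hω => (D.tau_mem (hA.1 hω.1)).1)
  have h2 := (hA.2 t).inter (hm hS)
  convert h2 using 1
  ext ω
  simp only [mem_inter_iff, mem_ofPred_eq, mem_preimage, hBdef]
  constructor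
  · rintro ⟨⟨h1, h3⟩, h4⟩
    refine ⟨⟨h1, h4⟩, ?_⟩
    rw [indicator_of_mem (show ω ∈ A ∩ {ω | D.tau s ω ≤ t} from ⟨h1, h4⟩)]
    exact h3
  · rintro ⟨⟨h1, h4⟩, h5⟩
    rw [indicator_of_mem (show ω ∈ A ∩ {ω | D.tau s ω ≤ t} from ⟨h1, h4⟩)] at h5
    exact ⟨⟨h1, h5⟩, h4⟩

open Classical in
/-- `min (τ_s, T)` (equal to `T` if the level is never reached). -/
noncomputable def kap (s : ℝ) (T : ℝ≥0) (ω : Ω) : ℝ≥0 :=
  if ω ∈ D.alive s then min (D.tau s ω) T else T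

lemma kap_le (s : ℝ) (T : ℝ≥0) (ω : Ω) : D.kap s T ω ≤ T := by
  unfold kap; split_ifs
  · exact min_le_right _ _
  · exact le_rfl

lemma kap_eq {s : ℝ} {T : ℝ≥0} {ω : Ω} (h : ω ∈ D.alive s) (hT : D.tau s ω ≤ T) :
    D.kap s T ω = D.tau s ω := by
  unfold kap; rw [if_pos h, min_eq_left hT]

lemma kap_ST (s : ℝ) (T : ℝ≥0) : IsST F (D.kap s T) := by
  intro t
  by_cases hTt : T ≤ t
  · have : {ω | D.kap s T ω ≤ t} = univ := by
      ext ω; simp only [mem_ofPred_eq, mem_univ, iff_true]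
      exact (D.kap_le s T ω).trans hTt
    rw [this]; exact MeasurableSet.univ
  · have : {ω | D.kap s T ω ≤ t} = D.alive s ∩ {ω | D.tau s ω ≤ t} := by
      ext ω
      simp only [mem_ofPred_eq, mem_inter_iff, kap]
      split_ifs with h
      · simp [h, hTt]
      · simp [h, hTt]
    rw [this]
    exact D.tau_meas s t

lemma kap_EvST {s : ℝ} {T : ℝ≥0} {A : Set Ω} (hA : D.Past s A) :
    EvST F (D.kap s T) (A ∩ {ω | D.tau s ω ≤ T}) := by
  intro t
  have : (A ∩ {ω | D.tau s ω ≤ T}) ∩ {ω | D.kap s T ω ≤ t} =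
      A ∩ {ω | D.tau s ω ≤ min T t} := by
    ext ω
    simp only [mem_inter_iff, mem_ofPred_eq, le_min_iff]
    constructor
    · rintro ⟨⟨h1, h2⟩, h3⟩
      rw [D.kap_eq (hA.1 h1) h2] at h3
      exact ⟨h1, h2, h3⟩
    · rintro ⟨h1, h2, h3⟩
      exact ⟨⟨h1, h2⟩, by rw [D.kap_eq (hA.1 h1) h2]; exact h3⟩
  rw [this]
  exact F.mono (min_le_right _ _) _ (hA.2 _)

lemma al_zero (ω : Ω) : D.al 0 ω := (D.e_KK 0 ω 0 (zero_le)).1

lemma alive_base : D.alive s₀ = univ := by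
  ext ω
  simp only [mem_univ, iff_true]
  exact ⟨0, D.al_zero ω, (D.L_zero ω).le⟩

lemma tau_base (ω : Ω) : D.tau s₀ ω = 0 :=
  le_antisymm (D.tau_le (D.al_zero ω) (D.L_zero ω).le) zero_le

/-- a monotone-limit principle over the cap `T`. -/
lemma measure_le_of_cap {s : ℝ} {A E : Set Ω} {C : ℝ≥0∞}
    (h : ∀ n : ℕ, P (E ∩ {ω | D.tau s ω ≤ (n : ℝ≥0)}) ≤ C * P (A ∩ {ω | D.tau s ω ≤ (n : ℝ≥0)})) :
    P E ≤ C * P A := by
  have hE : E = ⋃ n : ℕ, E ∩ {ω | D.tau s ω ≤ (n : ℝ≥0)} := by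
    ext ω
    simp only [mem_iUnion, mem_inter_iff, mem_ofPred_eq]
    constructor
    · intro h
      obtain ⟨n, hn⟩ := exists_nat_ge (D.tau s ω)
      exact ⟨n, h, hn⟩
    · rintro ⟨n, h, _⟩; exact h
  have hmono : Monotone fun n : ℕ => E ∩ {ω | D.tau s ω ≤ (n : ℝ≥0)} := by
    intro a b hab ω hω
    exact ⟨hω.1, le_trans (show D.tau s ω ≤ (a : ℝ≥0) from hω.2) (by exact_mod_cast hab)⟩
  rw [hE, hmono.measure_iUnion]
  refine iSup_le fun n => (h n).trans ?_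
  gcongr
  exact inter_subset_left

end Crest.Agent.R162.Rad.OneP
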