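import Crest.Agent.R162.LB7b

/-!
Row 162, node LB7b (abstract part 2): the weighted union bound, and LB7c (abstract part):
splitting on `{Λ_σ ≤ C'N}`.
-/

set_option autoImplicit false

open MeasureTheory
open scoped ENNReal

namespace Crest.Agent.R162.LB7

variable {Ω : Type*} {m0 : MeasurableSpace Ω} {P : Measure Ω}

/-- **Weighted union bound (LB7b).** `gs` is the weight at `σ`, `gj j` the weight at `σ_j ≤ σ`,
`E j m` the bad event for annulus `j`, scale `m`. -/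
theorem union_bound {gs : Ω → ℝ≥0∞} {gj : ℕ → Ω → ℝ≥0∞} {E : ℕ → ℕ → Set Ω} {gmax g0 : ℝ≥0∞}
    {ε lam CA N K1 K2 : ℝ}
    (hε0 : 0 < ε) (hε1 : ε < 1) (hlam : 0 < lam) (hCA : 3 ≤ ε * lam * CA) (hN : 0 ≤ N)
    (hK1 : 0 ≤ K1) (hgmax : gmax ≠ ⊤)
    (hgsm : ∀ ω, gs ω ≤ gmax) (hgjm : ∀ j, Measurable (gj j))
    (h1 : ∀ (j : ℕ) (c : ℝ≥0∞), ∫⁻ ω in {ω | gj j ω ≤ c}, gs ω ∂P ≤
      ∫⁻ ω in {ω | gj j ω ≤ c}, gj j ω ∂P)
    (h2 : ∀ (j m : ℕ) (c : ℝ≥0∞), P (E j m ∩ {ω | gj j ω ≤ c}ᶜ) ≤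
      ENNReal.ofReal (K1 * Real.exp (2 * m) * Real.exp (-(lam * CA * (N + j + m)))) *
        P {ω | gj j ω ≤ c}ᶜ)
    (h3 : ∀ j : ℕ, gmax ^ ε * ∫⁻ ω, gj j ω ^ (1 - ε) ∂P ≤ ENNReal.ofReal (K2 * 2 ^ j) * g0)
    (hK2 : 0 ≤ K2) :
    ∫⁻ ω in ⋃ jm : ℕ × ℕ, E jm.1 jm.2, gs ω ∂P ≤
      ENNReal.ofReal (4 * K1 ^ ε * K2 * Real.exp (-2 * N)) * g0 := by
  calc ∫⁻ ω in ⋃ jm : ℕ × ℕ, E jm.1 jm.2, gs ω ∂P
      ≤ ∑' jm : ℕ × ℕ, ∫⁻ ω in E jm.1 jm.2, gs ω ∂P := lintegral_iUnion_le _ _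
    _ ≤ ∑' jm : ℕ × ℕ, ENNReal.ofReal
          ((2 : ℝ) ^ jm.1 * (K1 * Real.exp (2 * jm.2) *
            Real.exp (-(lam * CA * (N + jm.1 + jm.2)))) ^ ε) * (ENNReal.ofReal K2 * g0) := by
        refine ENNReal.tsum_le_tsum fun jm => ?_
        obtain ⟨j, m⟩ := jm
        simp only
        set p : ℝ := K1 * Real.exp (2 * m) * Real.exp (-(lam * CA * (N + j + m))) with hp
        have hp0 : 0 ≤ p := by positivity
        have hw := weight (P := P) (gs := gs) (gj := gj j) (E := E j m) (gmax := gmax)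
          (p := ENNReal.ofReal p) hε0 hε1 hgmax ENNReal.ofReal_ne_top hgsm (hgjm j)
          (h1 j _) (h2 j m _)
        refine hw.trans ?_
        rw [ENNReal.mul_rpow_of_nonneg _ _ hε0.le]
        calc gmax ^ ε * ENNReal.ofReal p ^ ε * ∫⁻ ω, gj j ω ^ (1 - ε) ∂P
            = ENNReal.ofReal p ^ ε * (gmax ^ ε * ∫⁻ ω, gj j ω ^ (1 - ε) ∂P) := by ring
          _ ≤ ENNReal.ofReal p ^ ε * (ENNReal.ofReal (K2 * 2 ^ j) * g0) := by
              exact mul_le_mul_right (h3 j) _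
          _ = ENNReal.ofReal (2 ^ j * p ^ ε) * (ENNReal.ofReal K2 * g0) := by
              rw [ENNReal.ofReal_rpow_of_nonneg hp0 hε0.le, ENNReal.ofReal_mul hK2,
                ENNReal.ofReal_mul (by positivity : (0:ℝ) ≤ 2 ^ j)]
              ring
    _ = (∑' jm : ℕ × ℕ, ENNReal.ofReal
          ((2 : ℝ) ^ jm.1 * (K1 * Real.exp (2 * jm.2) *
            Real.exp (-(lam * CA * (N + jm.1 + jm.2)))) ^ ε)) * (ENNReal.ofReal K2 * g0) :=
        ENNReal.tsum_mul_right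
    _ ≤ ENNReal.ofReal (4 * K1 ^ ε * Real.exp (-2 * N)) * (ENNReal.ofReal K2 * g0) := by
        gcongr
        exact series hε0 hε1 hlam hCA hN hK1
    _ = ENNReal.ofReal (4 * K1 ^ ε * K2 * Real.exp (-2 * N)) * g0 := by
        rw [← mul_assoc, ← ENNReal.ofReal_mul (by positivity)]
        congr 2; ring

/-- `x ≤ e^{c x} / c`. -/
theorem le_exp_div {c x : ℝ} (hc : 0 < c) : x ≤ Real.exp (c * x) / c := by
  rw [le_div_iff₀ hc]
  have := Real.add_one_le_exp (c * x)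
  nlinarith

/-- `E[X; X > M] ≤ c⁻¹ e^{-cM/...}`: exponential Markov in the form needed: if
`∫ exp(2 c X) ≤ B` then `∫_{X > M} X ≤ c⁻¹ e^{-cM} B`. -/
theorem exp_markov {X : Ω → ℝ} (hX : Measurable X) {H : Set Ω} {c M : ℝ} (hc : 0 < c)
    (B : ℝ≥0∞) (hB : ∫⁻ ω in H, ENNReal.ofReal (Real.exp (2 * c * X ω)) ∂P ≤ B) :
    ∫⁻ ω in H ∩ {ω | M < X ω}, ENNReal.ofReal (X ω) ∂P ≤
      ENNReal.ofReal (c⁻¹ * Real.exp (-(c * M))) * B := by
  have key : ∀ ω ∈ H ∩ {ω | M < X ω}, ENNReal.ofReal (X ω) ≤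
      ENNReal.ofReal (c⁻¹ * Real.exp (-(c * M))) *
        ENNReal.ofReal (Real.exp (2 * c * X ω)) := by
    intro ω hω
    rw [← ENNReal.ofReal_mul (by positivity)]
    refine ENNReal.ofReal_le_ofReal ?_
    have hM : M < X ω := hω.2
    calc X ω ≤ Real.exp (c * X ω) / c := le_exp_div hc
      _ = c⁻¹ * Real.exp (c * X ω) := by rw [div_eq_inv_mul]
      _ ≤ c⁻¹ * Real.exp (-(c * M) + 2 * c * X ω) := by
          refine mul_le_mul_of_nonneg_left (Real.exp_le_exp.mpr ?_) (by positivity)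
          nlinarith
      _ = c⁻¹ * Real.exp (-(c * M)) * Real.exp (2 * c * X ω) := by
          rw [Real.exp_add]; ring
  calc ∫⁻ ω in H ∩ {ω | M < X ω}, ENNReal.ofReal (X ω) ∂P
      ≤ ∫⁻ ω in H ∩ {ω | M < X ω}, ENNReal.ofReal (c⁻¹ * Real.exp (-(c * M))) *
        ENNReal.ofReal (Real.exp (2 * c * X ω)) ∂P :=
        setLIntegral_mono (by fun_prop) key
    _ ≤ ∫⁻ ω in H, ENNReal.ofReal (c⁻¹ * Real.exp (-(c * M))) *
        ENNReal.ofReal (Real.exp (2 * c * X ω)) ∂P :=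
        lintegral_mono_set Set.inter_subset_left
    _ = ENNReal.ofReal (c⁻¹ * Real.exp (-(c * M))) *
        ∫⁻ ω in H, ENNReal.ofReal (Real.exp (2 * c * X ω)) ∂P :=
        lintegral_const_mul' _ _ ENNReal.ofReal_ne_top
    _ ≤ _ := mul_le_mul_right hB _

/-- **LB7c (abstract).** Splitting `E[X; X > C_μ N]` into the good part (`Λ_σ ≤ C'N`, exponential
moment) and the bad part (weight). -/
theorem lb7c_abs {X : Ω → ℝ} (hX : Measurable X) {H Good : Set Ω} {gs : Ω → ℝ≥0∞} {g0 : ℝ≥0∞}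
    {c C1 C2 C3 C4 R N : ℝ} (hc : 0 < c) (hC2 : 0 ≤ C2) (hC3 : 0 ≤ C3)
    (hC4 : 0 ≤ C4) (hGm : MeasurableSet Good) (hHm : MeasurableSet H)
    (hoff : ∀ ω, ω ∉ H → X ω ≤ 0)
    (hA : ∫⁻ ω in Good, ENNReal.ofReal (Real.exp (2 * c * X ω)) ∂P ≤
      ENNReal.ofReal (Real.exp (C1 * N)) * P H)
    (hU1 : P H ≤ ENNReal.ofReal (C2 * R ^ 2) * g0)
    (hB : ∫⁻ ω in H \ Good, ENNReal.ofReal (X ω) ∂P ≤
      ENNReal.ofReal (C3 * R ^ 2) * ∫⁻ ω in H \ Good, gs ω ∂P)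
    (hW : ∫⁻ ω in H \ Good, gs ω ∂P ≤ ENNReal.ofReal (C4 * Real.exp (-2 * N)) * g0) :
    ∫⁻ ω in {ω | (C1 + 2) / c * N < X ω}, ENNReal.ofReal (X ω) ∂P ≤
      ENNReal.ofReal ((c⁻¹ * C2 + C3 * C4) * R ^ 2 * Real.exp (-2 * N)) * g0 := by
  set M : ℝ := (C1 + 2) / c * N with hM
  have hcM : c * M = (C1 + 2) * N := by rw [hM]; field_simp
  have hS : MeasurableSet {ω | M < X ω} := measurableSet_lt measurable_const hX
  -- good part
  have hg := exp_markov (P := P) hX (H := Good) (M := M) hc _ hA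
  have hg' : ∫⁻ ω in Good ∩ {ω | M < X ω}, ENNReal.ofReal (X ω) ∂P ≤
      ENNReal.ofReal (c⁻¹ * C2 * R ^ 2 * Real.exp (-2 * N)) * g0 := by
    refine hg.trans ?_
    calc ENNReal.ofReal (c⁻¹ * Real.exp (-(c * M))) * (ENNReal.ofReal (Real.exp (C1 * N)) * P H)
        ≤ ENNReal.ofReal (c⁻¹ * Real.exp (-(c * M))) * (ENNReal.ofReal (Real.exp (C1 * N)) *
            (ENNReal.ofReal (C2 * R ^ 2) * g0)) := by gcongr
      _ = ENNReal.ofReal (c⁻¹ * C2 * R ^ 2 * Real.exp (-2 * N)) * g0 := by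
          rw [← mul_assoc, ← mul_assoc, ← ENNReal.ofReal_mul (by positivity),
            ← ENNReal.ofReal_mul (by positivity)]
          congr 2
          rw [hcM]
          have : Real.exp (-((C1 + 2) * N)) * Real.exp (C1 * N) = Real.exp (-2 * N) := by
            rw [← Real.exp_add]; congr 1; ring
          calc c⁻¹ * Real.exp (-((C1 + 2) * N)) * Real.exp (C1 * N) * (C2 * R ^ 2)
              = c⁻¹ * C2 * R ^ 2 * (Real.exp (-((C1 + 2) * N)) * Real.exp (C1 * N)) := by ring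
            _ = _ := by rw [this]
  -- bad part
  have hb' : ∫⁻ ω in H \ Good, ENNReal.ofReal (X ω) ∂P ≤
      ENNReal.ofReal (C3 * C4 * R ^ 2 * Real.exp (-2 * N)) * g0 := by
    calc ∫⁻ ω in H \ Good, ENNReal.ofReal (X ω) ∂P
        ≤ ENNReal.ofReal (C3 * R ^ 2) * ∫⁻ ω in H \ Good, gs ω ∂P := hB
      _ ≤ ENNReal.ofReal (C3 * R ^ 2) * (ENNReal.ofReal (C4 * Real.exp (-2 * N)) * g0) := by
          gcongr
      _ = _ := by
          rw [← mul_assoc, ← ENNReal.ofReal_mul (by positivity)]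
          congr 2; ring
  -- split
  have hsplit : ∫⁻ ω in {ω | M < X ω}, ENNReal.ofReal (X ω) ∂P ≤
      ∫⁻ ω in Good ∩ {ω | M < X ω}, ENNReal.ofReal (X ω) ∂P +
        (∫⁻ ω in H \ Good, ENNReal.ofReal (X ω) ∂P + ∫⁻ ω in Hᶜ, ENNReal.ofReal (X ω) ∂P) := by
    refine (lintegral_mono_set (t := (Good ∩ {ω | M < X ω}) ∪ ((H \ Good) ∪ Hᶜ)) ?_).trans ?_
    · intro ω hω
      by_cases h1 : ω ∈ Good
      · exact Or.inl ⟨h1, hω⟩
      · by_cases h2 : ω ∈ H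
        · exact Or.inr (Or.inl ⟨h2, h1⟩)
        · exact Or.inr (Or.inr h2)
    · refine (lintegral_union_le _ _ _).trans ?_
      exact add_le_add_right (lintegral_union_le _ _ _) _
  have hzero : ∫⁻ ω in Hᶜ, ENNReal.ofReal (X ω) ∂P = 0 := by
    rw [setLIntegral_congr_fun hHm.compl (g := fun _ => 0)
      (fun ω hω => ENNReal.ofReal_of_nonpos (hoff ω hω))]
    simp
  rw [hzero, add_zero] at hsplit
  refine hsplit.trans ((add_le_add hg' hb').trans ?_)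
  rw [← add_mul, ← ENNReal.ofReal_add (by positivity) (by positivity)]
  apply le_of_eq; congr 2; ring

end Crest.Agent.R162.LB7
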