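import Mathlib
import Crest.Prelude.Def_Loewner
import Crest.Agent.R162.Base
import Crest.Agent.R162.OSDefs

/-!
Row 162, frozen definitions of the one-point layer (helper9): conformal-radius functional `ups`,
radial clock, state process `(X, Y, L, a)` of one point, generator.
-/

set_option autoImplicit false

open MeasureTheory ProbabilityTheory
open scoped NNReal ENNReal
open Crest.ProbabilityR.Loewner

namespace Crest.Agent.R162.OP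

open FL OS

variable {Ω : Type*} {m : MeasurableSpace Ω}

/-- the state `(X, Y, L, a)` of the point `z` at time `t`: `X + iY = Z_t(z)`, `L = log Υ`. -/
noncomputable def stW (W : ℝ → ℝ) (t : ℝ) (z : ℂ) : ℝ × ℝ × ℝ × ℝ :=
  ((Zfl W t z).re, (Zfl W t z).im, Real.log (ups W t z), ath W t z)

/-- the state process of the point `z`, driving function `√κ B`. -/
noncomputable def stP (κ : ℝ) (B : ℝ≥0 → Ω → ℝ) (z : ℂ) (t : ℝ≥0) (ω : Ω) : ℝ × ℝ × ℝ × ℝ :=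
  stW (driving κ B ω) (t : ℝ) z

/-- the point `z` is alive at time `t`. -/
def AliveP (κ : ℝ) (B : ℝ≥0 → Ω → ℝ) (z : ℂ) (t : ℝ≥0) (ω : Ω) : Prop :=
  Alive (driving κ B ω) z (t : ℝ)

/-- `S = sin arg Z` as a function of the state. -/
noncomputable def sinq (q : ℝ × ℝ × ℝ × ℝ) : ℝ := q.2.1 / Real.sqrt (q.1 ^ 2 + q.2.1 ^ 2)

/-- `x = log tan (Θ/2) = arsinh (-X/Y)` as a function of the state. -/
noncomputable def xq (q : ℝ × ℝ × ℝ × ℝ) : ℝ := Real.arsinh (-q.1 / q.2.1)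

/-- the Green weight `G = Υ^{κ/8-1} S^{8/κ-1} = exp((κ/8-1) L) S^b` as a function of the state. -/
noncomputable def Gq (κ : ℝ) (q : ℝ × ℝ × ℝ × ℝ) : ℝ :=
  Real.exp ((κ / 8 - 1) * q.2.2.1) * sinq q ^ (8 / κ - 1)

/-- the generator of the state process:
`(κ/2) F_XX + 2X/(X²+Y²) F_X - 2Y/(X²+Y²) F_Y - 4Y²/(X²+Y²)² F_L + 1/(X²+Y²) F_a`. -/
noncomputable def gen (κ : ℝ) (F : ℝ × ℝ × ℝ × ℝ → ℝ) (q : ℝ × ℝ × ℝ × ℝ) : ℝ :=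
  κ / 2 * deriv (deriv fun x => F (x, q.2)) q.1
  + 2 * q.1 / (q.1 ^ 2 + q.2.1 ^ 2) * deriv (fun x => F (x, q.2)) q.1
  - 2 * q.2.1 / (q.1 ^ 2 + q.2.1 ^ 2) * deriv (fun y => F (q.1, y, q.2.2)) q.2.1
  - 4 * q.2.1 ^ 2 / (q.1 ^ 2 + q.2.1 ^ 2) ^ 2 * deriv (fun l => F (q.1, q.2.1, l, q.2.2.2)) q.2.2.1
  + 1 / (q.1 ^ 2 + q.2.1 ^ 2) * deriv (fun a => F (q.1, q.2.1, q.2.2.1, a)) q.2.2.2

universe u

/-- THE MASTER ONE-POINT STATEMENT (Dynkin formula between stopping times). -/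
def OPM : Prop :=
  ∀ {Ω : Type u} {m : MeasurableSpace Ω} {P : Measure Ω} [IsProbabilityMeasure P]
    {Fl : Filtration ℝ≥0 m} {B : ℝ≥0 → Ω → ℝ} (_ : IsBM Fl B P) {κ : ℝ} (_ : 0 < κ)
    {w : ℂ} (_ : 0 < w.im) {D : Set (ℝ × ℝ × ℝ × ℝ)} (_ : IsOpen D) (_ : ∀ q ∈ D, 0 < q.2.1)
    {f : ℝ × ℝ × ℝ × ℝ → ℝ} (_ : ContDiffOn ℝ 3 f D) {K : Set (ℝ × ℝ × ℝ × ℝ)}
    (_ : IsCompact K) (_ : K ⊆ D)
    {σ τ : Ω → ℝ≥0} (_ : IsST Fl σ) (_ : IsST Fl τ) {T : ℝ≥0} (_ : ∀ ω, τ ω ≤ T)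
    {A : Set Ω} (_ : EvST Fl σ A) (_ : ∀ ω ∈ A, σ ω ≤ τ ω)
    (_ : ∀ ω ∈ A, ∀ t : ℝ≥0, σ ω ≤ t → t ≤ τ ω → AliveP κ B w t ω ∧ stP κ B w t ω ∈ K),
    ∫ ω in A, f (stP κ B w (τ ω) ω) ∂P = ∫ ω in A, f (stP κ B w (σ ω) ω) ∂P
      + ∫ ω in A, (∫ s in (σ ω : ℝ)..(τ ω : ℝ), gen κ f (stW (driving κ B ω) s w)) ∂P

end Crest.Agent.R162.OP
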