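import Mathlib
import Crest.Agent.R162.FL0
import Crest.Agent.R162.FL1
import Crest.Agent.R162.OPDefs

/-!
Row 162, node OPM part 1 (helper9): the global truncated flow and the truncated state process.
-/

set_option autoImplicit false

open MeasureTheory ProbabilityTheory Set
open scoped NNReal ENNReal Topology

namespace Crest.Agent.R162.OPTr

open FL

variable {W : ℝ → ℝ} {δ : ℝ} {z : ℂ}

/-- uniqueness for the truncated field -/
lemma trunc_unique (hδ : 0 < δ) {T : ℝ} {g h : ℝ → ℂ}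
    (hg : ∀ s ∈ Icc 0 T, HasDerivWithinAt g (vf W δ s (g s)) (Icc 0 T) s)
    (hh : ∀ s ∈ Icc 0 T, HasDerivWithinAt h (vf W δ s (h s)) (Icc 0 T) s)
    (h0 : g 0 = h 0) : EqOn g h (Icc 0 T) := by
  intro s hs
  have := gronwall_trunc (U := W) (V := W) hδ (c := 1) (by simp) (η := 0) (ε := 0)
    (g := g) (h := h) (T := T) (by simpa using hg) (by simpa using hh) (by simp)
    (by simp [h0]) s hs
  simpa [sub_eq_zero] using this

/-- existence of the global truncated flow -/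
theorem exists_glob (hW : Continuous W) (hδ : 0 < δ) (z : ℂ) :
    ∃ h : ℝ → ℂ, h 0 = z ∧ ∀ T, ∀ s ∈ Icc 0 T, HasDerivWithinAt h (vf W δ s (h s)) (Icc 0 T) s := by
  have hex : ∀ n : ℕ, ∃ g : ℝ → ℂ, g 0 = z ∧
      ∀ s ∈ Icc (0:ℝ) n, HasDerivWithinAt g (vf W δ s (g s)) (Icc 0 (n:ℝ)) s := by
    intro n
    obtain ⟨g, h0, hg⟩ := exists_sol_trunc (T := (n:ℝ)) (U := W) (by positivity)
      hW.continuousOn hδ (c := 1) (by simp) z
    exact ⟨g, h0, by simpa using hg⟩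
  choose g hg0 hg using hex
  have hEq : ∀ n k : ℕ, n ≤ k → EqOn (g n) (g k) (Icc 0 (n:ℝ)) := by
    intro n k hnk
    refine trunc_unique hδ (hg n) (fun s hs => ?_) (by rw [hg0, hg0])
    have hnk' : (n:ℝ) ≤ k := by exact_mod_cast hnk
    exact (hg k s ⟨hs.1, hs.2.trans hnk'⟩).mono (Icc_subset_Icc le_rfl hnk')
  refine ⟨fun t => g (⌈t⌉₊ + 1) t, hg0 _, fun T s hs => ?_⟩
  set N := ⌈T⌉₊ + 1 with hN
  have hTN : T ≤ N := (Nat.le_ceil T).trans (by rw [hN]; push_cast; linarith)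
  have hval : ∀ r ∈ Icc 0 T, g (⌈r⌉₊ + 1) r = g N r := by
    intro r hr
    refine hEq _ _ ?_ ⟨hr.1, ?_⟩
    · rw [hN]; exact Nat.add_le_add_right (Nat.ceil_mono hr.2) 1
    · exact (Nat.le_ceil r).trans (by push_cast; linarith)
  have h1 : HasDerivWithinAt (g N) (vf W δ s (g N s)) (Icc 0 T) s :=
    (hg N s ⟨hs.1, hs.2.trans hTN⟩).mono (Icc_subset_Icc le_rfl hTN)
  have h2 := h1.congr (f₁ := fun t => g (⌈t⌉₊ + 1) t) (fun r hr => hval r hr) (hval s hs)
  simpa [hval s hs] using h2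

open Classical in
/-- the global truncated flow -/
noncomputable def hfl (δ : ℝ) (W : ℝ → ℝ) (z : ℂ) : ℝ → ℂ :=
  if h : Continuous W ∧ 0 < δ then (exists_glob h.1 h.2 z).choose else fun _ => z

lemma hfl_zero : hfl δ W z 0 = z := by
  unfold hfl
  split_ifs with h
  · exact (exists_glob h.1 h.2 z).choose_spec.1
  · rfl

lemma hfl_deriv (hW : Continuous W) (hδ : 0 < δ) (T : ℝ) :
    ∀ s ∈ Icc 0 T, HasDerivWithinAt (hfl δ W z) (vf W δ s (hfl δ W z s)) (Icc 0 T) s := by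
  have h : Continuous W ∧ 0 < δ := ⟨hW, hδ⟩
  have hx : hfl δ W z = (exists_glob h.1 h.2 z).choose := by
    unfold hfl; rw [dif_pos h]
  rw [hx]
  exact (exists_glob h.1 h.2 z).choose_spec.2 T

lemma hfl_contOn (hW : Continuous W) (hδ : 0 < δ) : ContinuousOn (hfl δ W z) (Ici 0) := by
  intro s hs
  have h1 := (hfl_deriv (z := z) hW hδ (s + 1) s ⟨hs, by linarith⟩).continuousWithinAt
  refine h1.mono_of_mem_nhdsWithin ?_
  refine mem_nhdsWithin.2 ⟨Iio (s + 1), isOpen_Iio, by simp, ?_⟩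
  rintro x ⟨hx1, hx2⟩
  exact ⟨hx2, le_of_lt hx1⟩

/-- while the true flow stays above `δ`, it coincides with the truncated one -/
lemma hfl_eq (hW : Continuous W) (hδ : 0 < δ) {t : ℝ} (ha : Alive W z t)
    (hl : δ ≤ (gfl W t z).im) : ∀ s ∈ Icc 0 t, hfl δ W z s = gfl W s z := by
  have h1 : ∀ s ∈ Icc 0 t, HasDerivWithinAt (fun s => gfl W s z) (vf W δ s (gfl W s z))
      (Icc 0 t) s := by
    intro s hs
    have hle : δ ≤ (gfl W s z).im := hl.trans (im_anti ha hs.1 hs.2)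
    rw [vf_of_le hle]
    exact hasDerivWithinAt_gfl ha hs
  exact trunc_unique hδ (hfl_deriv hW hδ t) h1 (by rw [hfl_zero, gfl_zero' ha])

/-- conversely: if the truncated flow stays above `δ` (weakly) then the point is alive -/
lemma alive_of_hfl (hW : Continuous W) (hδ : 0 < δ) {t : ℝ} (ht : 0 ≤ t)
    (hl : ∀ s ∈ Icc 0 t, δ ≤ (hfl δ W z s).im) : Alive W z t ∧ δ ≤ (gfl W t z).im := by
  have h1 : IsFlow W z t (hfl δ W z) := by
    refine isFlow_of_trunc hδ hfl_zero (fun s hs => by simpa using hfl_deriv (z := z) hW hδ t s hs) hl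
  have ha : Alive W z t := ⟨ht, _, h1⟩
  refine ⟨ha, ?_⟩
  rw [← h1.eq_gfl ⟨ht, le_rfl⟩]
  exact hl t ⟨ht, le_rfl⟩

/-- truncated height -/
noncomputable def mh (δ : ℝ) (q : ℝ × ℝ × ℝ × ℝ) : ℝ := max q.2.1 δ

/-- truncated drift field of the state `(X, Y, L, a)` -/
noncomputable def cf (δ : ℝ) (q : ℝ × ℝ × ℝ × ℝ) : ℝ × ℝ × ℝ × ℝ :=
  (2 * q.1 / (q.1 ^ 2 + mh δ q ^ 2), -(2 * mh δ q / (q.1 ^ 2 + mh δ q ^ 2)),
    -(4 * mh δ q ^ 2 / (q.1 ^ 2 + mh δ q ^ 2) ^ 2), 1 / (q.1 ^ 2 + mh δ q ^ 2))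

/-- the truncated pair `(X, Y)` -/
noncomputable def xy (δ : ℝ) (W : ℝ → ℝ) (z : ℂ) (t : ℝ) : ℝ × ℝ :=
  ((hfl δ W z t).re - W t, (hfl δ W z t).im)

/-- helper: `-4 m² / (X² + m²)²` for a pair -/
noncomputable def cL (δ : ℝ) (p : ℝ × ℝ) : ℝ :=
  -(4 * (max p.2 δ) ^ 2 / (p.1 ^ 2 + (max p.2 δ) ^ 2) ^ 2)

/-- helper: `1 / (X² + m²)` for a pair -/
noncomputable def ca (δ : ℝ) (p : ℝ × ℝ) : ℝ := 1 / (p.1 ^ 2 + (max p.2 δ) ^ 2)

/-- the truncated state process -/
noncomputable def stD (δ : ℝ) (W : ℝ → ℝ) (t : ℝ) (z : ℂ) : ℝ × ℝ × ℝ × ℝ :=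
  ((xy δ W z t).1, (xy δ W z t).2, Real.log z.im + ∫ s in (0:ℝ)..t, cL δ (xy δ W z s),
    ∫ s in (0:ℝ)..t, ca δ (xy δ W z s))

lemma cL_cont (hδ : 0 < δ) : Continuous (cL δ) := by
  unfold cL
  refine Continuous.neg (Continuous.div (by fun_prop) (by fun_prop) ?_)
  intro p
  have : 0 < max p.2 δ := lt_max_of_lt_right hδ
  positivity

lemma ca_cont (hδ : 0 < δ) : Continuous (ca δ) := by
  unfold ca
  refine Continuous.div (by fun_prop) (by fun_prop) ?_
  intro p
  have : 0 < max p.2 δ := lt_max_of_lt_right hδ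
  positivity

lemma xy_contOn (hW : Continuous W) (hδ : 0 < δ) : ContinuousOn (xy δ W z) (Ici 0) := by
  unfold xy
  have h := hfl_contOn (z := z) hW hδ
  exact ((Complex.continuous_re.comp_continuousOn h).sub hW.continuousOn).prodMk
    (Complex.continuous_im.comp_continuousOn h)

/-- log Im of the flow: derivative -/
lemma log_im_eq {t : ℝ} (ha : Alive W z t) (hWc : Continuous W) :
    Real.log (gfl W t z).im = Real.log z.im + ∫ s in (0:ℝ)..t, -(2 / ‖Zfl W s z‖ ^ 2) := by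
  have ht := ha.1
  have hc : ContinuousOn (fun s => gfl W s z) (Icc 0 t) := continuousOn_gfl ha
  have hpos : ∀ s ∈ Icc 0 t, 0 < (gfl W s z).im := fun s hs => gfl_im_pos (ha.mono hs.1 hs.2)
  have hZc : ContinuousOn (fun s => Zfl W s z) (Icc 0 t) := by
    unfold Zfl
    exact hc.sub (Complex.continuous_ofReal.comp_continuousOn hWc.continuousOn)
  have hZne : ∀ s ∈ Icc 0 t, Zfl W s z ≠ 0 := fun s hs => Zfl_ne_zero (ha.mono hs.1 hs.2)
  have hnc : ContinuousOn (fun s => -(2 / ‖Zfl W s z‖ ^ 2)) (Icc 0 t) := by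
    refine (ContinuousOn.div continuousOn_const (hZc.norm.pow 2) ?_).neg
    intro s hs
    exact pow_ne_zero 2 (norm_ne_zero_iff.2 (hZne s hs))
  have hderiv : ∀ s ∈ Ioo 0 t, HasDerivAt (fun s => Real.log (gfl W s z).im)
      (-(2 / ‖Zfl W s z‖ ^ 2)) s := by
    intro s hs
    have hs' : s ∈ Icc 0 t := Ioo_subset_Icc_self hs
    have h2 : HasDerivAt (fun s => (gfl W s z).im) ((2 / (gfl W s z - W s)).im) s :=
      (hasDerivWithinAt_im (hasDerivWithinAt_gfl ha hs')).hasDerivAt (Icc_mem_nhds hs.1 hs.2)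
    have h3 := h2.log (hpos s hs').ne'
    convert h3 using 1
    have hZ : gfl W s z - W s = Zfl W s z := rfl
    have hne := hZne s hs'
    have hns : Complex.normSq (Zfl W s z) = ‖Zfl W s z‖ ^ 2 := Complex.normSq_eq_norm_sq _
    rw [im_two_div, hZ, hns]
    have : (0:ℝ) < ‖Zfl W s z‖ ^ 2 := by positivity
    field_simp
    rw [div_self (hpos s hs').ne']
  have hcl : ContinuousOn (fun s => Real.log (gfl W s z).im) (Icc 0 t) := by
    refine ContinuousOn.log (Complex.continuous_im.comp_continuousOn hc) ?_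
    intro s hs
    exact (hpos s hs).ne'
  have hint : IntervalIntegrable (fun s => -(2 / ‖Zfl W s z‖ ^ 2)) volume 0 t :=
    ContinuousOn.intervalIntegrable_of_Icc ht hnc
  have := intervalIntegral.integral_eq_sub_of_hasDerivAt_of_le ht hcl hderiv hint
  rw [this, gfl_zero' ha]
  ring

/-- on the part above `δ` the truncated state coincides with the true one -/
theorem stD_eq (hW : Continuous W) (hδ : 0 < δ) {t : ℝ} (ha : Alive W z t)
    (hl : δ ≤ (gfl W t z).im) : stD δ W t z = OP.stW W t z := by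
  have ht := ha.1
  have he := hfl_eq hW hδ ha hl
  have hpos : ∀ s ∈ Icc 0 t, 0 < (gfl W s z).im := fun s hs => gfl_im_pos (ha.mono hs.1 hs.2)
  have hge : ∀ s ∈ Icc 0 t, δ ≤ (gfl W s z).im := fun s hs => hl.trans (im_anti ha hs.1 hs.2)
  have hxy : ∀ s ∈ Icc 0 t, xy δ W z s = ((Zfl W s z).re, (Zfl W s z).im) := by
    intro s hs
    unfold xy
    rw [he s hs, Zfl_re, Zfl_im]
  have hn : ∀ s, ‖Zfl W s z‖ ^ 2 = (Zfl W s z).re ^ 2 + (Zfl W s z).im ^ 2 := by
    intro s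
    rw [← Complex.normSq_eq_norm_sq, Complex.normSq_apply]; ring
  have hm : ∀ s ∈ Icc 0 t, max (Zfl W s z).im δ = (Zfl W s z).im := by
    intro s hs
    rw [Zfl_im]; exact max_eq_left (hge s hs)
  have hu : uIcc 0 t = Icc 0 t := uIcc_of_le ht
  have hZc : ContinuousOn (fun s => Zfl W s z) (Icc 0 t) := by
    unfold Zfl
    exact (continuousOn_gfl ha).sub (Complex.continuous_ofReal.comp_continuousOn hW.continuousOn)
  have hZne : ∀ s ∈ Icc 0 t, Zfl W s z ≠ 0 := fun s hs => Zfl_ne_zero (ha.mono hs.1 hs.2)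
  have ha' : ∫ s in (0:ℝ)..t, ca δ (xy δ W z s) = OP.ath W t z := by
    unfold OP.ath
    refine intervalIntegral.integral_congr fun s hs => ?_
    rw [hu] at hs
    simp only [ca, hxy s hs, hm s hs, hn s]
  have hnpos : ∀ s ∈ Icc 0 t, 0 < ‖Zfl W s z‖ ^ 2 := fun s hs => by
    have := norm_pos_iff.2 (hZne s hs); positivity
  have hi1 : IntervalIntegrable (fun s => -(2 / ‖Zfl W s z‖ ^ 2)) volume 0 t := by
    refine ContinuousOn.intervalIntegrable_of_Icc ht ?_
    refine (ContinuousOn.div continuousOn_const (hZc.norm.pow 2) ?_).neg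
    intro s hs
    exact (hnpos s hs).ne'
  have hi2 : IntervalIntegrable (fun s => 2 * (((Zfl W s z) ^ 2)⁻¹).re) volume 0 t := by
    refine ContinuousOn.intervalIntegrable_of_Icc ht ?_
    refine continuousOn_const.mul (Complex.continuous_re.comp_continuousOn ?_)
    refine (hZc.pow 2).inv₀ ?_
    intro s hs
    exact pow_ne_zero 2 (hZne s hs)
  have hL : Real.log z.im + ∫ s in (0:ℝ)..t, cL δ (xy δ W z s) = Real.log (OP.ups W t z) := by
    unfold OP.ups
    rw [Real.log_mul (hpos t ⟨ht, le_rfl⟩).ne' (Real.exp_pos _).ne', Real.log_exp,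
      log_im_eq ha hW, add_assoc, ← intervalIntegral.integral_add hi1 hi2]
    congr 1
    refine intervalIntegral.integral_congr fun s hs => ?_
    rw [hu] at hs
    simp only [cL, hxy s hs, hm s hs]
    have h1 := hnpos s hs
    rw [hn s] at h1 ⊢
    set x := (Zfl W s z).re
    set y := (Zfl W s z).im
    have h2 : (((Zfl W s z) ^ 2)⁻¹).re = (x ^ 2 - y ^ 2) / (x ^ 2 + y ^ 2) ^ 2 := by
      rw [Complex.inv_re, Complex.normSq_eq_norm_sq, norm_pow, hn s]
      congr 1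
      rw [sq, Complex.mul_re]; ring
    rw [h2]
    field_simp
    ring
  unfold stD OP.stW
  rw [hxy t ⟨ht, le_rfl⟩, ha', hL]

end Crest.Agent.R162.OPTr
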