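import Mathlib

/-!
# Row 162, nodes U1P / U2P (abstract one-point survival bounds, set-integral form)

`Radial P` packages what the one-point radial process of a fixed point `w` looks like at radial
levels: σ-algebras `F s` (the past of `τ_s`), the events `alive s = {τ_s < ∞}`, and the value
`S s` of `sin Θ` at `τ_s`. The relation `R D c u v` says
`∫_{A ∩ alive (s+c)} u (S_{s+c}) ≤ ∫_A v (S_s)` for every level `s ≥ s₀` and every
`A ∈ F s`, `A ⊆ alive s`.
-/

set_option autoImplicit false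

namespace Crest.Agent.R162.U1P

open MeasureTheory ENNReal

/-- Radial data of a fixed point (levels `s ≥ s₀`). -/
structure Radial {Ω : Type*} [mΩ : MeasurableSpace Ω] (s₀ : ℝ) where
  /-- the past of `τ_s` -/
  F : ℝ → Set Ω → Prop
  /-- `{τ_s < ∞}` -/
  alive : ℝ → Set Ω
  /-- `sin Θ` at `τ_s` -/
  S : ℝ → Ω → ℝ
  anti : ∀ s t : ℝ, s₀ ≤ s → s ≤ t → alive t ⊆ alive s
  step : ∀ s t : ℝ, s₀ ≤ s → s ≤ t → ∀ A : Set Ω, F s A → A ⊆ alive s → F t (A ∩ alive t)
  meas : ∀ s : ℝ, s₀ ≤ s → ∀ A : Set Ω, F s A → A ⊆ alive s → MeasurableSet A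
  S_pos : ∀ s : ℝ, s₀ ≤ s → ∀ ω ∈ alive s, 0 < S s ω
  S_le : ∀ s : ℝ, s₀ ≤ s → ∀ ω ∈ alive s, S s ω ≤ 1

variable {Ω : Type*} [MeasurableSpace Ω] {s₀ : ℝ}

/-- `R D P c u v`: the radial supermartingale inequality over a radial time `c`. -/
def R (D : Radial (Ω := Ω) s₀) (P : Measure Ω) (c : ℝ) (u v : ℝ → ℝ) : Prop :=
  ∀ s : ℝ, s₀ ≤ s → ∀ A : Set Ω, D.F s A → A ⊆ D.alive s →
    ∫⁻ ω in A ∩ D.alive (s + c), ENNReal.ofReal (u (D.S (s + c) ω)) ∂P ≤
      ∫⁻ ω in A, ENNReal.ofReal (v (D.S s ω)) ∂P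

variable {D : Radial (Ω := Ω) s₀} {P : Measure Ω}

/-- monotonicity of the relation in the two functions (only values on `(0,1]` matter). -/
theorem R.mono {c : ℝ} (hc : 0 ≤ c) {u v u' v' : ℝ → ℝ} (h : R D P c u v)
    (hu : ∀ x, 0 < x → x ≤ 1 → u' x ≤ u x) (hv : ∀ x, 0 < x → x ≤ 1 → v x ≤ v' x) :
    R D P c u' v' := by
  intro s hs A hA hAs
  have hm : MeasurableSet (A ∩ D.alive (s + c)) :=
    D.meas (s + c) (by linarith) _ (D.step s (s + c) hs (by linarith) A hA hAs)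
      Set.inter_subset_right
  have hmA : MeasurableSet A := D.meas s hs A hA hAs
  refine le_trans (setLIntegral_mono' hm fun ω hω => ?_) (le_trans (h s hs A hA hAs)
    (setLIntegral_mono' hmA fun ω hω => ?_))
  · exact ENNReal.ofReal_le_ofReal (hu _ (D.S_pos _ (by linarith) ω hω.2)
      (D.S_le _ (by linarith) ω hω.2))
  · exact ENNReal.ofReal_le_ofReal (hv _ (D.S_pos _ hs ω (hAs hω)) (D.S_le _ hs ω (hAs hω)))

/-- scaling by a nonnegative constant. -/
theorem R.smul {c : ℝ} {u v : ℝ → ℝ} (h : R D P c u v) {K : ℝ} (hK : 0 ≤ K) :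
    R D P c (fun x => K * u x) (fun x => K * v x) := by
  intro s hs A hA hAs
  simp only [ENNReal.ofReal_mul hK]
  rw [lintegral_const_mul' _ _ ENNReal.ofReal_ne_top, lintegral_const_mul' _ _ ENNReal.ofReal_ne_top]
  exact mul_le_mul_right (h s hs A hA hAs) _

/-- composition over consecutive radial intervals. -/
theorem R.comp {c₁ c₂ : ℝ} (h1 : 0 ≤ c₁) (h2 : 0 ≤ c₂) {u v w : ℝ → ℝ}
    (huv : R D P c₁ u v) (hvw : R D P c₂ v w) : R D P (c₁ + c₂) u w := by
  intro s hs A hA hAs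
  have hB := D.step s (s + c₂) hs (by linarith) A hA hAs
  have e1 := huv (s + c₂) (by linarith) (A ∩ D.alive (s + c₂)) hB Set.inter_subset_right
  have e2 := hvw s hs A hA hAs
  have hss : s + c₂ + c₁ = s + (c₁ + c₂) := by ring
  rw [hss] at e1
  have hset : A ∩ D.alive (s + c₂) ∩ D.alive (s + (c₁ + c₂)) = A ∩ D.alive (s + (c₁ + c₂)) := by
    have := D.anti (s + c₂) (s + (c₁ + c₂)) (by linarith) (by linarith)
    ext ω; constructor
    · rintro ⟨⟨a, _⟩, c⟩; exact ⟨a, c⟩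
    · rintro ⟨a, c⟩; exact ⟨⟨a, this c⟩, c⟩
  rw [hset] at e1
  exact le_trans e1 e2

/-- **U1 (abstract).** Suppose the radial process has the three-stage supermartingale inequalities
for powers of `S`: (a) `S^p → S^{p'}` for `0 ≤ p`, `0 < p' ≤ p + 2`, `p' < b`; (b) `S^p → S^b` for
`b + η - 2 ≤ p`. Then `P(A ∩ alive (s + c)) ≤ C ∫_A S_s^b`. -/
theorem survival {b η : ℝ} (hb : 0 < b) (hη : 0 < η) (hη2 : η < 2)
    (ha : ∀ c > 0, ∀ p p' : ℝ, 0 ≤ p → p < b → 0 < p' → p' ≤ p + 2 → p' < b →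
      ∃ C ≥ 0, R D P c (fun x => x ^ p) (fun x => C * x ^ p'))
    (hl : ∀ c > 0, ∀ p : ℝ, 0 ≤ p → p < b → b + η - 2 ≤ p →
      ∃ C ≥ 0, R D P c (fun x => x ^ p) (fun x => C * x ^ b))
    (c : ℝ) (hc : 0 < c) :
    ∃ C ≥ 0, R D P c (fun _ => 1) (fun x => C * x ^ b) := by
  -- by induction: for every k, min (k*(2 - η)) .. is reached
  have key : ∀ k : ℕ, ∀ c > 0, ∀ p : ℝ, 0 ≤ p → p < b → b - p ≤ (k + 1) * (2 - η) →
      ∃ C ≥ 0, R D P c (fun x => x ^ p) (fun x => C * x ^ b) := by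
    intro k
    induction k with
    | zero =>
      intro c hc p hp hpb hle
      exact hl c hc p hp hpb (by norm_num at hle; linarith)
    | succ k ih =>
      intro c hc p hp hpb hle
      by_cases hlast : b + η - 2 ≤ p
      · exact hl c hc p hp hpb hlast
      · rw [not_le] at hlast
        -- p' = p + (2 - η) < b
        have hp'b : p + (2 - η) < b := by linarith
        obtain ⟨C₁, hC₁, h₁⟩ := ha (c / 2) (by positivity) p (p + (2 - η)) hp hpb (by linarith)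
          (by linarith) hp'b
        obtain ⟨C₂, hC₂, h₂⟩ := ih (c / 2) (by positivity) (p + (2 - η)) (by linarith) hp'b (by
          push_cast at hle ⊢
          linarith)
        refine ⟨C₁ * C₂, mul_nonneg hC₁ hC₂, ?_⟩
        have h₃ := h₂.smul hC₁
        have h₄ := R.comp (D := D) (P := P) (by positivity : (0:ℝ) ≤ c / 2)
          (by positivity : (0:ℝ) ≤ c / 2) h₁ h₃
        rw [show c / 2 + c / 2 = c by ring] at h₄
        exact h₄.mono hc.le (fun x _ _ => le_rfl) (fun x _ _ => by rw [mul_assoc])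
  obtain ⟨k, hk⟩ := exists_nat_gt (b / (2 - η))
  have h2 : (0:ℝ) < 2 - η := by linarith
  obtain ⟨C, hC, h⟩ := key k c hc 0 le_rfl hb (by
    rw [div_lt_iff₀ h2] at hk
    nlinarith)
  exact ⟨C, hC, h.mono hc.le (fun x _ _ => by simp) (fun x _ _ => le_rfl)⟩

end Crest.Agent.R162.U1P
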