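import Mathlib
import Crest.Agent.R162.RadCore
import Crest.Agent.R162.U1P
import Crest.Agent.R162.OPDefs
import Crest.Agent.R162.OPTr
import Crest.Agent.R162.FLD
import Crest.Agent.R162.FL1

/-!
Row 162, node RAD (helper953): the one-point process of a point `w` of the half-plane as an instance
of `Rad.OneP`, from `IsBM`, the master Dynkin formula `OPM` and FL.
-/

set_option autoImplicit false

open MeasureTheory ProbabilityTheory Filter Set
open scoped NNReal ENNReal Topology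
open Crest.ProbabilityR.Loewner

namespace Crest.Agent.R162.Rad

open FL OS OP OPTr

/-! ### Deterministic facts on `stW` -/

section det

variable {W : ℝ → ℝ} {z : ℂ}

/-- primitive of a function continuous on `[0,∞)` is continuous there. -/
lemma contOn_primitive {f : ℝ → ℝ} (hf : ContinuousOn f (Ici 0)) :
    ContinuousOn (fun t => ∫ s in (0:ℝ)..t, f s) (Ici 0) := by
  have h2 : Continuous (fun s => f (max s 0)) :=
    hf.comp_continuous (by fun_prop) (fun s => le_max_right s 0)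
  have h3 : Continuous (fun t => ∫ s in (0:ℝ)..t, f (max s 0)) :=
    intervalIntegral.continuous_primitive (fun a b => h2.intervalIntegrable a b) 0
  refine h3.continuousOn.congr fun t ht => ?_
  refine intervalIntegral.integral_congr fun s hs => ?_
  rw [uIcc_of_le ht] at hs
  simp only [max_eq_left hs.1]

lemma stD_contOn {δ : ℝ} (hW : Continuous W) (hδ : 0 < δ) :
    ContinuousOn (fun t => stD δ W t z) (Ici 0) := by
  have hxy := xy_contOn (z := z) hW hδ
  have h1 : ContinuousOn (fun t => ∫ s in (0:ℝ)..t, cL δ (xy δ W z s)) (Ici 0) :=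
    contOn_primitive ((cL_cont hδ).comp_continuousOn hxy)
  have h2 : ContinuousOn (fun t => ∫ s in (0:ℝ)..t, ca δ (xy δ W z s)) (Ici 0) :=
    contOn_primitive ((ca_cont hδ).comp_continuousOn hxy)
  unfold stD
  exact (continuous_fst.comp_continuousOn hxy).prodMk
    ((continuous_snd.comp_continuousOn hxy).prodMk
      ((continuousOn_const.add h1).prodMk h2))

lemma stW_eq_stD (hW : Continuous W) {T : ℝ} (hT : Alive W z T) {t : ℝ} (ht : t ∈ Icc 0 T) :
    stW W t z = stD (gfl W T z).im W t z :=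
  (stD_eq hW (gfl_im_pos hT) (hT.mono ht.1 ht.2) (im_anti hT ht.1 ht.2)).symm

lemma stW_contOn (hW : Continuous W) {T : ℝ} (hT : Alive W z T) :
    ContinuousOn (fun t => stW W t z) (Icc 0 T) :=
  ((stD_contOn hW (gfl_im_pos hT)).mono Icc_subset_Ici_self).congr
    fun t ht => stW_eq_stD hW hT ht

lemma cL_nonpos {δ : ℝ} (p : ℝ × ℝ) : cL δ p ≤ 0 := by
  unfold cL
  rw [neg_nonpos]
  positivity

lemma cL_ge {δ : ℝ} (hδ : 0 < δ) (p : ℝ × ℝ) : -(4 / δ ^ 2) ≤ cL δ p := by
  unfold cL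
  have hm : δ ≤ max p.2 δ := le_max_right _ _
  have hm0 : 0 < max p.2 δ := hδ.trans_le hm
  rw [neg_le_neg_iff, div_le_div_iff₀ (by positivity) (by positivity)]
  have h1 : δ ^ 2 ≤ (max p.2 δ) ^ 2 := by gcongr
  have h2 : (max p.2 δ) ^ 2 ≤ p.1 ^ 2 + (max p.2 δ) ^ 2 := by nlinarith [sq_nonneg p.1]
  have h3 : (max p.2 δ) ^ 2 * δ ^ 2 ≤ (p.1 ^ 2 + (max p.2 δ) ^ 2) ^ 2 := by
    rw [sq (p.1 ^ 2 + (max p.2 δ) ^ 2)]
    exact mul_le_mul h2 (h1.trans h2) (by positivity) (by positivity)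
  nlinarith

lemma ca_nonneg {δ : ℝ} (p : ℝ × ℝ) : 0 ≤ ca δ p := by unfold ca; positivity

lemma ca_le {δ : ℝ} (hδ : 0 < δ) (p : ℝ × ℝ) : ca δ p ≤ 1 / δ ^ 2 := by
  unfold ca
  have hm : δ ≤ max p.2 δ := le_max_right _ _
  have h1 : δ ^ 2 ≤ (max p.2 δ) ^ 2 := by gcongr
  refine one_div_le_one_div_of_le (by positivity) ?_
  nlinarith [sq_nonneg p.1]

lemma stW_L_anti (hW : Continuous W) {s t : ℝ} (hs : 0 ≤ s) (hst : s ≤ t) (ht : Alive W z t) :
    (stW W t z).2.2.1 ≤ (stW W s z).2.2.1 := by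
  have hδ := gfl_im_pos ht
  rw [stW_eq_stD hW ht ⟨hs.trans hst, le_rfl⟩, stW_eq_stD hW ht ⟨hs, hst⟩]
  have hxy := xy_contOn (z := z) hW hδ
  have hc : ContinuousOn (fun s => cL (gfl W t z).im (xy (gfl W t z).im W z s)) (Ici 0) :=
    (cL_cont hδ).comp_continuousOn hxy
  have hi : ∀ a b : ℝ, 0 ≤ a → a ≤ b → IntervalIntegrable
      (fun s => cL (gfl W t z).im (xy (gfl W t z).im W z s)) volume a b := fun a b ha hab =>
    ContinuousOn.intervalIntegrable_of_Icc hab (hc.mono fun x hx => ha.trans hx.1)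
  have h1 := intervalIntegral.integral_add_adjacent_intervals (hi 0 s le_rfl hs) (hi s t hs hst)
  have h2 : ∫ r in s..t, cL (gfl W t z).im (xy (gfl W t z).im W z r) ≤ 0 := by
    have := intervalIntegral.integral_mono_on hst (hi s t hs hst)
      (intervalIntegrable_const (c := (0:ℝ))) (fun r _ => cL_nonpos _)
    simpa using this
  simp only [stD]
  linarith

lemma stW_L_ge (hW : Continuous W) {t : ℝ} (ht : Alive W z t) {δ : ℝ} (hδ : 0 < δ)
    (hle : δ ≤ (gfl W t z).im) : Real.log z.im - 4 / δ ^ 2 * t ≤ (stW W t z).2.2.1 := by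
  have ht0 := ht.1
  rw [← stD_eq hW hδ ht hle]
  have hxy := xy_contOn (z := z) hW hδ
  have hc : ContinuousOn (fun s => cL δ (xy δ W z s)) (Ici 0) := (cL_cont hδ).comp_continuousOn hxy
  have hi : IntervalIntegrable (fun s => cL δ (xy δ W z s)) volume 0 t :=
    ContinuousOn.intervalIntegrable_of_Icc ht0 (hc.mono Icc_subset_Ici_self)
  have := intervalIntegral.integral_mono_on ht0 (intervalIntegrable_const (c := -(4 / δ ^ 2))) hi
    (fun r _ => cL_ge hδ _)
  simp only [intervalIntegral.integral_const, sub_zero, smul_eq_mul] at this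
  simp only [stD]
  nlinarith

lemma stW_a_mem (hW : Continuous W) {t : ℝ} (ht : Alive W z t) {δ : ℝ} (hδ : 0 < δ)
    (hle : δ ≤ (gfl W t z).im) : 0 ≤ (stW W t z).2.2.2 ∧ (stW W t z).2.2.2 ≤ 1 / δ ^ 2 * t := by
  have ht0 := ht.1
  rw [← stD_eq hW hδ ht hle]
  have hxy := xy_contOn (z := z) hW hδ
  have hc : ContinuousOn (fun s => ca δ (xy δ W z s)) (Ici 0) := (ca_cont hδ).comp_continuousOn hxy
  have hi : IntervalIntegrable (fun s => ca δ (xy δ W z s)) volume 0 t :=
    ContinuousOn.intervalIntegrable_of_Icc ht0 (hc.mono Icc_subset_Ici_self)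
  have h1 := intervalIntegral.integral_mono_on ht0 hi (intervalIntegrable_const (c := 1 / δ ^ 2))
    (fun r _ => ca_le hδ _)
  have h2 := intervalIntegral.integral_mono_on ht0 (intervalIntegrable_const (c := (0:ℝ))) hi
    (fun r _ => ca_nonneg _)
  simp only [intervalIntegral.integral_const, sub_zero, smul_eq_mul, mul_zero] at h1 h2
  simp only [stD]
  exact ⟨h2, by linarith⟩

lemma stW_zero (hz : 0 < z.im) : stW W 0 z = (z.re - W 0, z.im, Real.log z.im, 0) := by
  simp [stW, Zfl, gfl_zero hz, ups, ath]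

end det

/-! ### The probabilistic set-up -/

section prob

universe u

variable {Ω : Type u} {m : MeasurableSpace Ω} {P : Measure Ω} {Fl : Filtration ℝ≥0 m}
  {B : ℝ≥0 → Ω → ℝ} {κ : ℝ} {w : ℂ}

lemma driving_cont (hB : IsBM Fl B P) (κ : ℝ) (ω : Ω) : Continuous (driving κ B ω) := by
  unfold driving
  exact continuous_const.mul ((hB.cont ω).comp continuous_real_toNNReal)

lemma driving_zero (hB : IsBM Fl B P) (κ : ℝ) (ω : Ω) : driving κ B ω 0 = 0 := by
  simp [driving, hB.zero ω]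

lemma driving_meas (hB : IsBM Fl B P) (κ : ℝ) {t : ℝ≥0} {s : ℝ} (hs : s ≤ t) :
    Measurable[Fl t] (fun ω => driving κ B ω s) := by
  have h1 : Measurable[Fl (Real.toNNReal s)] (B (Real.toNNReal s)) := hB.adapted _
  have h2 : Measurable[Fl t] (B (Real.toNNReal s)) :=
    h1.mono (Fl.mono (Real.toNNReal_le_iff_le_coe.2 hs)) le_rfl
  exact (measurable_const_mul (Real.sqrt κ)).comp h2

lemma aliveP_meas (hB : IsBM Fl B P) (κ : ℝ) (w : ℂ) (t : ℝ≥0) :
    MeasurableSet[Fl t] {ω | AliveP κ B w t ω} := by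
  exact @FLD.measurableSet_alive Ω (Fl t) (fun ω => driving κ B ω) (t : ℝ) w
    (fun ω => (driving_cont hB κ ω).continuousOn) (fun s hs => driving_meas hB κ hs.2)

lemma meas_slice {Ω' : Type*} {m' : MeasurableSpace Ω'} {f : Ω' × ℂ → ℝ} (hf : Measurable f)
    (w : ℂ) : Measurable (fun ω => f (ω, w)) :=
  hf.comp (measurable_id.prodMk measurable_const)

lemma stP_meas (hB : IsBM Fl B P) (κ : ℝ) (w : ℂ) (t : ℝ≥0) :
    Measurable[Fl t] (stP κ B w t) := by
  have hc : ∀ ω, ContinuousOn (driving κ B ω) (Icc 0 (t:ℝ)) :=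
    fun ω => (driving_cont hB κ ω).continuousOn
  have hm : ∀ s ∈ Icc 0 (t:ℝ), Measurable[Fl t] (fun ω => driving κ B ω s) :=
    fun s hs => driving_meas hB κ hs.2
  have h1 : Measurable[Fl t] (fun ω => gfl (driving κ B ω) (t:ℝ) w) :=
    @FLD.measurable_gfl Ω (Fl t) (fun ω => driving κ B ω) (t : ℝ) t w le_rfl hc hm
  have hW : Measurable[Fl t] (fun ω => driving κ B ω (t:ℝ)) := driving_meas hB κ le_rfl
  have hZ : Measurable[Fl t] (fun ω => Zfl (driving κ B ω) (t:ℝ) w) := by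
    unfold Zfl
    exact h1.sub (Complex.measurable_ofReal.comp hW)
  have h2 : Measurable[Fl t] (fun ω => ups (driving κ B ω) (t:ℝ) w) :=
    meas_slice (@FLD.measurable_ups Ω (Fl t) (fun ω => driving κ B ω) (t : ℝ) t.coe_nonneg hc hm) w
  have h3 : Measurable[Fl t] (fun ω => ath (driving κ B ω) (t:ℝ) w) :=
    meas_slice (@FLD.measurable_ath Ω (Fl t) (fun ω => driving κ B ω) (t : ℝ) t.coe_nonneg hc hm) w
  exact (Complex.measurable_re.comp hZ).prodMk ((Complex.measurable_im.comp hZ).prodMk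
    ((Real.measurable_log.comp h2).prodMk h3))

/-! ### localising times -/

/-- the open box `O_n` -/
def On (w : ℂ) (n : ℕ) : Set St := {p | |p.1| < |w.re| + (n + 1) ∧ w.im / (n + 2) < p.2.1}

/-- the compact box `K_n` -/
def Kn (w : ℂ) (n : ℕ) : Set St :=
  Icc (-(|w.re| + (n + 1))) (|w.re| + (n + 1)) ×ˢ (Icc (w.im / (n + 2)) w.im ×ˢ
    (Icc (Real.log w.im - 4 / (w.im / (n + 2)) ^ 2 * n) (Real.log w.im) ×ˢ
      Icc 0 (1 / (w.im / (n + 2)) ^ 2 * n)))

lemma isOpen_On (w : ℂ) (n : ℕ) : IsOpen (On w n) := by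
  have h1 : IsOpen {p : St | |p.1| < |w.re| + (n + 1)} :=
    isOpen_lt (f := fun p : St => |p.1|) (by fun_prop) continuous_const
  have h2 : IsOpen {p : St | w.im / (n + 2) < p.2.1} :=
    isOpen_lt (g := fun p : St => p.2.1) continuous_const (by fun_prop)
  exact h1.inter h2

lemma isCompact_Kn (w : ℂ) (n : ℕ) : IsCompact (Kn w n) :=
  isCompact_Icc.prod (isCompact_Icc.prod (isCompact_Icc.prod isCompact_Icc))

lemma Kn_pos (hw : 0 < w.im) (n : ℕ) : ∀ p ∈ Kn w n, 0 < p.2.1 := by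
  rintro ⟨x, y, l, a⟩ ⟨_, h, _⟩
  exact (by positivity : 0 < w.im / (n + 2)).trans_le h.1

lemma On_mono (hw : 0 < w.im) {n k : ℕ} (h : n ≤ k) : On w n ⊆ On w k := by
  rintro p ⟨h1, h2⟩
  have h' : (n:ℝ) ≤ k := by exact_mod_cast h
  refine ⟨h1.trans_le (by linarith), lt_of_le_of_lt ?_ h2⟩
  gcongr

/-- the bad set of times at stage `n` -/
def Bad (κ : ℝ) (B : ℝ≥0 → Ω → ℝ) (w : ℂ) (n : ℕ) (ω : Ω) : Set ℝ≥0 :=
  {t | ¬ AliveP κ B w t ω ∨ stP κ B w t ω ∉ On w n ∨ (n : ℝ≥0) ≤ t}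

/-- the localising time `e_n` -/
noncomputable def en (κ : ℝ) (B : ℝ≥0 → Ω → ℝ) (w : ℂ) (n : ℕ) (ω : Ω) : ℝ≥0 :=
  sInf (Bad κ B w n ω)

lemma aliveP_anti {ω : Ω} {s t : ℝ≥0} (hst : s ≤ t) (h : AliveP κ B w t ω) : AliveP κ B w s ω :=
  Alive.mono h s.coe_nonneg (by exact_mod_cast hst)

lemma aliveP_right (hB : IsBM Fl B P) {ω : Ω} {t : ℝ≥0} (h : AliveP κ B w t ω) :
    ∃ t', t < t' ∧ AliveP κ B w t' ω := by
  obtain ⟨t', ht', δ, hδ, hh⟩ := Alive.exists_gt (driving_cont hB κ ω).continuousOn h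
  have h0 : 0 ≤ t' := (t.coe_nonneg).trans ht'.le
  refine ⟨⟨t', h0⟩, by exact_mod_cast ht', ?_⟩
  have := hh w (by simpa using hδ)
  exact this

lemma isOpen_aliveP (hB : IsBM Fl B P) (ω : Ω) : IsOpen {t | AliveP κ B w t ω} := by
  rw [isOpen_iff_mem_nhds]
  intro t ht
  obtain ⟨t', h1, h2⟩ := aliveP_right hB ht
  filter_upwards [Iio_mem_nhds h1] with s hs
  exact aliveP_anti (le_of_lt hs) h2

lemma stP_contOn (hB : IsBM Fl B P) (ω : Ω) :
    ContinuousOn (fun t => stP κ B w t ω) {t | AliveP κ B w t ω} := by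
  intro t ht
  obtain ⟨t', h1, h2⟩ := aliveP_right hB ht
  have hc := stW_contOn (driving_cont hB κ ω) h2
  have h3 : ContinuousWithinAt (fun s : ℝ≥0 => stW (driving κ B ω) (s : ℝ) w) (Iio t') t := by
    have h4 := hc (t : ℝ) ⟨t.coe_nonneg, by exact_mod_cast h1.le⟩
    exact ContinuousWithinAt.comp (f := fun s : ℝ≥0 => (s : ℝ)) (t := Icc 0 (t' : ℝ)) h4
      NNReal.continuous_coe.continuousWithinAt
      (fun s hs => ⟨s.coe_nonneg, by exact_mod_cast (le_of_lt hs)⟩)
  exact (h3.continuousAt (Iio_mem_nhds h1)).continuousWithinAt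

lemma en_le (n : ℕ) (ω : Ω) : en κ B w n ω ≤ n :=
  csInf_le (OrderBot.bddBelow _) (Or.inr (Or.inr le_rfl))

lemma isClosed_Bad (hB : IsBM Fl B P) (n : ℕ) (ω : Ω) : IsClosed (Bad κ B w n ω) := by
  rw [← isOpen_compl_iff]
  have hset : (Bad κ B w n ω)ᶜ = ({t | AliveP κ B w t ω} ∩ (fun t => stP κ B w t ω) ⁻¹' (On w n)) ∩
      Iio (n : ℝ≥0) := by
    ext t
    simp only [Bad, mem_compl_iff, mem_ofPred_eq, not_or, not_not, not_le, mem_inter_iff,
      mem_preimage, mem_Iio]
    tauto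
  rw [hset]
  exact ((stP_contOn hB ω).isOpen_inter_preimage (isOpen_aliveP hB ω) (isOpen_On w n)).inter
    isOpen_Iio

lemma en_mem (hB : IsBM Fl B P) (n : ℕ) (ω : Ω) : en κ B w n ω ∈ Bad κ B w n ω :=
  (isClosed_Bad hB n ω).csInf_mem ⟨n, Or.inr (Or.inr le_rfl)⟩ (OrderBot.bddBelow _)

lemma good_of_lt_en {n : ℕ} {ω : Ω} {t : ℝ≥0} (h : t < en κ B w n ω) :
    AliveP κ B w t ω ∧ stP κ B w t ω ∈ On w n := by
  have : t ∉ Bad κ B w n ω := fun hh => absurd (csInf_le (OrderBot.bddBelow _) hh) (not_le.2 h)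
  simp only [Bad, mem_ofPred_eq, not_or, not_not] at this
  exact ⟨this.1, this.2.1⟩

lemma en_KK (hB : IsBM Fl B P) (hw : 0 < w.im) {n : ℕ} {ω : Ω} {t : ℝ≥0}
    (h : t ≤ en κ B w n ω) : AliveP κ B w t ω ∧ stP κ B w t ω ∈ Kn w n := by
  have hWc := driving_cont hB κ ω
  have hδ : 0 < w.im / ((n : ℝ) + 2) := by positivity
  -- alive
  have hal : AliveP κ B w t ω := by
    refine alive_of_apriori hWc.continuousOn hw t.coe_nonneg hδ ?_
    intro s hs0 hst hs
    have hs' : (⟨s, hs0⟩ : ℝ≥0) < en κ B w n ω := lt_of_lt_of_le (by exact_mod_cast hst) h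
    have := (good_of_lt_en hs').2.2
    simp only [stP, stW, Zfl_im] at this
    exact le_of_lt this
  refine ⟨hal, ?_⟩
  -- the closed bounds for X and Y
  have hcl : |(stP κ B w t ω).1| ≤ |w.re| + (n + 1) ∧ w.im / (n + 2) ≤ (stP κ B w t ω).2.1 := by
    rcases eq_or_lt_of_le (show (0 : ℝ≥0) ≤ t from zero_le) with h0 | h0
    · rw [← h0]
      have : stP κ B w 0 ω = (w.re, w.im, Real.log w.im, 0) := by
        simp [stP, stW_zero hw, driving_zero hB]
      rw [this]
      simp only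
      refine ⟨by have : (0:ℝ) ≤ n := Nat.cast_nonneg n
                 linarith, ?_⟩
      rw [div_le_iff₀ (by positivity)]
      have : (0:ℝ) ≤ n := Nat.cast_nonneg n
      nlinarith
    · have hc : Tendsto (fun s => stP κ B w s ω) (𝓝[<] t) (𝓝 (stP κ B w t ω)) :=
        ((stP_contOn hB ω) t hal).mono_left
          (nhdsWithin_mono _ fun s hs => aliveP_anti (le_of_lt hs) hal)
      have : (𝓝[<] t).NeBot := nhdsLT_neBot_of_exists_lt ⟨0, h0⟩
      have hX : Tendsto (fun s => |(stP κ B w s ω).1|) (𝓝[<] t) (𝓝 |(stP κ B w t ω).1|) :=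
        ((continuous_abs.comp continuous_fst).tendsto _).comp hc
      have hY : Tendsto (fun s => (stP κ B w s ω).2.1) (𝓝[<] t) (𝓝 (stP κ B w t ω).2.1) :=
        ((continuous_fst.comp continuous_snd).tendsto _).comp hc
      refine ⟨le_of_tendsto hX ?_, ge_of_tendsto hY ?_⟩
      · filter_upwards [self_mem_nhdsWithin] with s hs
        exact (good_of_lt_en (lt_of_lt_of_le hs h)).2.1.le
      · filter_upwards [self_mem_nhdsWithin] with s hs
        exact (good_of_lt_en (lt_of_lt_of_le hs h)).2.2.le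
  have htn : (t : ℝ) ≤ n := by exact_mod_cast h.trans (en_le n ω)
  have hYg : w.im / (n + 2) ≤ (gfl (driving κ B ω) t w).im := by
    have := hcl.2
    simpa only [stP, stW, Zfl_im] using this
  have hYle : (stP κ B w t ω).2.1 ≤ w.im := by
    simp only [stP, stW, Zfl_im]
    exact im_anti' hal
  have hL1 : (stP κ B w t ω).2.2.1 ≤ Real.log w.im := by
    have := stW_L_anti hWc le_rfl t.coe_nonneg hal
    rw [stW_zero hw] at this
    exact this
  have hL2 := stW_L_ge hWc hal hδ hYg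
  have ha := stW_a_mem hWc hal hδ hYg
  have hf : (0:ℝ) ≤ 4 / (w.im / (n + 2)) ^ 2 := by positivity
  have hf2 : (0:ℝ) ≤ 1 / (w.im / (n + 2)) ^ 2 := by positivity
  refine ⟨abs_le.1 hcl.1, ⟨hcl.2, hYle⟩, ⟨?_, hL1⟩, ha.1, ha.2.trans ?_⟩
  · have : 4 / (w.im / (n + 2)) ^ 2 * (t:ℝ) ≤ 4 / (w.im / (n + 2)) ^ 2 * n := by gcongr
    simp only [stP]
    linarith
  · gcongr

lemma en_exh (hB : IsBM Fl B P) (hw : 0 < w.im) {ω : Ω} {t : ℝ≥0} (h : AliveP κ B w t ω) :
    ∃ n, t < en κ B w n ω := by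
  obtain ⟨t', h1, h2⟩ := aliveP_right hB h
  have hWc := driving_cont hB κ ω
  have hc := stW_contOn hWc h2
  obtain ⟨C, hC⟩ := isCompact_Icc.exists_bound_of_continuousOn hc
  obtain ⟨n1, hn1⟩ := exists_nat_gt C
  have hpos : 0 < (gfl (driving κ B ω) t' w).im := gfl_im_pos h2
  obtain ⟨n2, hn2⟩ := exists_nat_gt (w.im / (gfl (driving κ B ω) t' w).im)
  obtain ⟨n3, hn3⟩ := exists_nat_gt (t' : ℝ≥0)
  set n := max n1 (max n2 n3) with hn
  refine ⟨n, lt_of_lt_of_le h1 (le_csInf ⟨n, Or.inr (Or.inr le_rfl)⟩ ?_)⟩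
  intro s hs
  by_contra hlt
  push Not at hlt
  have hsal : AliveP κ B w s ω := aliveP_anti hlt.le h2
  have hn1' : (n1 : ℝ) ≤ n := by exact_mod_cast le_max_left _ _
  have hn2' : (n2 : ℝ) ≤ n := by exact_mod_cast (le_max_left _ _).trans (le_max_right _ _)
  have hn3' : (n3 : ℝ≥0) ≤ n := by exact_mod_cast (le_max_right _ _).trans (le_max_right _ _)
  rcases hs with hs | hs | hs
  · exact hs hsal
  · refine hs ⟨?_, ?_⟩
    · have := hC (s : ℝ) ⟨s.coe_nonneg, by exact_mod_cast hlt.le⟩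
      have h3 : ‖(stW (driving κ B ω) (s:ℝ) w).1‖ ≤ ‖stW (driving κ B ω) (s:ℝ) w‖ := norm_fst_le _
      rw [Real.norm_eq_abs] at h3
      simp only [stP]
      have h4 := abs_nonneg w.re
      linarith
    · have h3 : (gfl (driving κ B ω) t' w).im ≤ (gfl (driving κ B ω) s w).im :=
        im_anti h2 s.coe_nonneg (by exact_mod_cast hlt.le)
      simp only [stP, stW, Zfl_im]
      refine lt_of_lt_of_le ?_ h3
      rw [div_lt_iff₀ hpos] at hn2
      rw [div_lt_iff₀ (by positivity)]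
      nlinarith
  · exact absurd (hs.trans hlt.le) (not_le.2 (hn3.trans_le hn3'))

lemma en_mono (hw : 0 < w.im) (ω : Ω) : Monotone fun n => en κ B w n ω := by
  intro n k hnk
  refine le_csInf ⟨k, Or.inr (Or.inr le_rfl)⟩ ?_
  intro s hs
  refine csInf_le (OrderBot.bddBelow _) ?_
  rcases hs with hs | hs | hs
  · exact Or.inl hs
  · exact Or.inr (Or.inl fun h => hs (On_mono hw hnk h))
  · exact Or.inr (Or.inr ((by exact_mod_cast hnk : (n : ℝ≥0) ≤ k).trans hs))

lemma en_lt_iff (hB : IsBM Fl B P) {n : ℕ} {ω : Ω} {t : ℝ≥0} :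
    t < en κ B w n ω ↔ t < (n : ℝ≥0) ∧ AliveP κ B w t ω ∧ w.im / (n + 2) < (stP κ B w t ω).2.1 ∧
      ∃ k : ℕ, |(stP κ B w t ω).1| ≤ |w.re| + (n + 1) - 1 / (k + 1) ∧
        ∀ q : ℚ, 0 ≤ q → Real.toNNReal q ≤ t →
          |(stP κ B w (Real.toNNReal q) ω).1| ≤ |w.re| + (n + 1) - 1 / (k + 1) := by
  constructor
  · intro h
    obtain ⟨hal, hO⟩ := good_of_lt_en h
    refine ⟨h.trans_le (en_le n ω), hal, hO.2, ?_⟩
    -- maximum of |X| on [0,t]
    have hcont : ContinuousOn (fun s : ℝ≥0 => |(stP κ B w s ω).1|) (Icc 0 t) :=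
      (continuous_abs.comp continuous_fst).comp_continuousOn
        ((stP_contOn hB ω).mono fun s hs => aliveP_anti hs.2 hal)
    obtain ⟨s, hs, hmax⟩ := (isCompact_Icc (a := (0:ℝ≥0)) (b := t)).exists_isMaxOn
      ⟨t, zero_le, le_rfl⟩ hcont
    have hlt : |(stP κ B w s ω).1| < |w.re| + (n + 1) :=
      (good_of_lt_en (lt_of_le_of_lt hs.2 h)).2.1
    obtain ⟨k, hk⟩ := exists_nat_one_div_lt (sub_pos.2 hlt)
    refine ⟨k, ?_, fun q hq hqt => ?_⟩
    · have := hmax (show t ∈ Icc 0 t from ⟨zero_le, le_rfl⟩)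
      simp only [mem_ofPred_eq] at this
      linarith
    · have := hmax (show Real.toNNReal q ∈ Icc 0 t from ⟨zero_le, hqt⟩)
      simp only [mem_ofPred_eq] at this
      linarith
  · rintro ⟨htn, hal, hY, k, hk, hq⟩
    have hk0 : (0:ℝ) < 1 / ((k:ℝ) + 1) := by positivity
    rcases lt_or_ge t (en κ B w n ω) with h | h
    · exact h
    · exfalso
      rcases en_mem (κ := κ) (w := w) hB n ω with hs | hs | hs
      · exact hs (aliveP_anti h hal)
      · refine hs ⟨?_, ?_⟩
        · rcases eq_or_lt_of_le h with heq | hlt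
          · rw [heq]; linarith
          · -- density of the rationals
            have hc : ContinuousAt (fun s => |(stP κ B w s ω).1|) (en κ B w n ω) :=
              (continuous_abs.comp continuous_fst).continuousAt.comp
                ((stP_contOn hB ω).continuousAt ((isOpen_aliveP hB ω).mem_nhds
                  (aliveP_anti h hal)))
            have hle : |(stP κ B w (en κ B w n ω) ω).1| ≤ |w.re| + (n + 1) - 1 / (k + 1) := by
              by_contra hcon
              push Not at hcon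
              have hev := hc.eventually (lt_mem_nhds hcon)
              obtain ⟨v, hv, hvs⟩ := exists_Ico_subset_of_mem_nhds hev ⟨t, hlt⟩
              obtain ⟨q, hq1, hq2⟩ := exists_rat_btwn
                (show ((en κ B w n ω : ℝ≥0) : ℝ) < ((min v t : ℝ≥0) : ℝ) by
                  exact_mod_cast lt_min hv hlt)
              have hq0 : (0:ℝ) ≤ q := (NNReal.coe_nonneg _).trans hq1.le
              have e1 : en κ B w n ω ≤ Real.toNNReal q := by
                rw [← NNReal.coe_le_coe, Real.coe_toNNReal _ hq0]; exact hq1.le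
              have e2 : Real.toNNReal q < min v t := by
                rw [← NNReal.coe_lt_coe, Real.coe_toNNReal _ hq0]; exact hq2
              have e3 := hvs ⟨e1, e2.trans_le (min_le_left _ _)⟩
              have e4 := hq q (by exact_mod_cast hq0) (e2.le.trans (min_le_right _ _))
              simp only [mem_ofPred_eq] at e3
              linarith
            linarith
        · have h3 : (gfl (driving κ B ω) t w).im ≤ (gfl (driving κ B ω) (en κ B w n ω) w).im :=
            im_anti hal (NNReal.coe_nonneg _) (by exact_mod_cast h)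
          simp only [stP, stW, Zfl_im] at hY ⊢
          linarith
      · exact absurd (hs.trans h) (not_le.2 htn)

lemma en_ST (hB : IsBM Fl B P) (n : ℕ) : IsST Fl (en κ B w n) := by
  intro t
  have hcompl : {ω | en κ B w n ω ≤ t} = {ω | t < en κ B w n ω}ᶜ := by
    ext ω; simp
  rw [hcompl]
  refine MeasurableSet.compl ?_
  have hset : {ω | t < en κ B w n ω} = {ω | t < (n : ℝ≥0)} ∩ ({ω | AliveP κ B w t ω} ∩
      ({ω | w.im / (n + 2) < (stP κ B w t ω).2.1} ∩
      ⋃ k : ℕ, ({ω | |(stP κ B w t ω).1| ≤ |w.re| + (n + 1) - 1 / (k + 1)} ∩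
        ⋂ q ∈ {q : ℚ | 0 ≤ q ∧ Real.toNNReal q ≤ t},
          {ω | |(stP κ B w (Real.toNNReal q) ω).1| ≤ |w.re| + (n + 1) - 1 / (k + 1)}))) := by
    ext ω
    simp only [mem_ofPred_eq, en_lt_iff hB, mem_inter_iff, mem_iUnion, mem_iInter, and_imp]
  rw [hset]
  have hX : ∀ (r : ℝ≥0) (_ : r ≤ t) (c : ℝ), MeasurableSet[Fl t] {ω | |(stP κ B w r ω).1| ≤ c} := by
    intro r hr c
    refine Fl.mono hr _ ?_
    have hm : Measurable (fun p : St => |p.1|) := by fun_prop
    exact (hm.comp (stP_meas hB κ w r)) measurableSet_Iic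
  have hY : MeasurableSet[Fl t] {ω | w.im / (n + 2) < (stP κ B w t ω).2.1} := by
    have hm : Measurable (fun p : St => p.2.1) := by fun_prop
    exact (hm.comp (stP_meas hB κ w t)) measurableSet_Ioi
  refine MeasurableSet.inter (MeasurableSet.const _) ((aliveP_meas hB κ w t).inter (hY.inter ?_))
  refine MeasurableSet.iUnion fun k => (hX t le_rfl _).inter ?_
  exact MeasurableSet.biInter (Set.to_countable _) fun q hq => hX _ hq.2 _

/-- **The one-point process of `w`** as an instance of `Rad.OneP`. -/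
noncomputable def oneP [IsProbabilityMeasure P] (hM : OPM.{u}) (hB : IsBM Fl B P) (hκ : 0 < κ)
    (hw : 0 < w.im) : OneP Fl P (gen κ) (-Real.log w.im) where
  al := AliveP κ B w
  st := stP κ B w
  al_anti ω s t hst h := aliveP_anti hst h
  al_right ω t h := aliveP_right hB h
  al_meas t := aliveP_meas hB κ w t
  st_meas t := stP_meas hB κ w t
  st_cont ω := stP_contOn hB ω
  y_pos ω t h := by
    simp only [stP, stW, Zfl_im]
    exact gfl_im_pos h
  L_anti ω s t hst h := stW_L_anti (driving_cont hB κ ω) s.coe_nonneg (by exact_mod_cast hst) h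
  L_zero ω := by simp [stP, stW_zero hw]
  e := en κ B w
  e_ST n := en_ST hB n
  e_mono ω := en_mono hw ω
  e_le n := ⟨n, fun ω => en_le n ω⟩
  KK := Kn w
  KK_compact := isCompact_Kn w
  KK_pos := Kn_pos hw
  e_KK n ω t h := en_KK hB hw h
  e_exh ω t h := en_exh hB hw h
  opm := by
    intro Φ K hΦ hK hKp hgen σ τ hσ hτ T hT A hA hmem
    have hop : IsOpen {p : St | 0 < p.2.1} :=
      isOpen_lt (g := fun p : St => p.2.1) continuous_const (by fun_prop)
    have h := hM hB hκ hw hop (fun q hq => hq) hΦ hK (fun p hp => hKp p hp) hσ hτ hT hA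
      (fun ω hω => (hmem ω hω).1) (fun ω hω t h1 h2 => (hmem ω hω).2 t h1 h2)
    rw [h]
    have hmA : MeasurableSet A := by
      have : A = ⋃ n : ℕ, A ∩ {ω | σ ω ≤ (n : ℝ≥0)} := by
        ext ω
        simp only [mem_iUnion, mem_inter_iff, mem_ofPred_eq]
        constructor
        · intro h
          obtain ⟨n, hn⟩ := exists_nat_ge (σ ω)
          exact ⟨n, h, hn⟩
        · rintro ⟨n, h, _⟩; exact h
      rw [this]
      exact MeasurableSet.iUnion fun n => Fl.le _ _ (hA n)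
    have hneg : ∫ ω in A, (∫ s in (σ ω : ℝ)..(τ ω : ℝ), gen κ Φ (stW (driving κ B ω) s w)) ∂P ≤ 0 := by
      refine setIntegral_nonpos hmA fun ω hω => ?_
      obtain ⟨hle, hh⟩ := hmem ω hω
      have hle' : (σ ω : ℝ) ≤ τ ω := by exact_mod_cast hle
      rw [intervalIntegral.integral_of_le hle']
      refine setIntegral_nonpos measurableSet_Ioc fun s hs => ?_
      have hs0 : 0 ≤ s := (NNReal.coe_nonneg _).trans hs.1.le
      exact hgen _ (hh ⟨s, hs0⟩ (by exact_mod_cast hs.1.le) (by exact_mod_cast hs.2)).2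
    linarith

end prob

end Crest.Agent.R162.Rad
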