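import Mathlib
import Crest.Prelude.Def_Loewner
import Crest.Agent.R162.OPDefs

/-!
Row 162, node SUPG (helper613), part a: the Green weight `Gq κ` is smooth on `{Y > 0}` and is
annihilated by the generator `OP.gen κ`.
-/

set_option autoImplicit false

open Set Filter Topology

namespace Crest.Agent.R162.SUPG

open OP

/-- the half-plane part of the state space -/
def DD : Set (ℝ × ℝ × ℝ × ℝ) := {q | 0 < q.2.1}

lemma isOpen_DD : IsOpen DD := isOpen_lt continuous_const (by fun_prop)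

lemma sq_pos_of_im {x y : ℝ} (hy : 0 < y) : 0 < x ^ 2 + y ^ 2 := by positivity

lemma sinq_pos {q : ℝ × ℝ × ℝ × ℝ} (hq : 0 < q.2.1) : 0 < sinq q :=
  div_pos hq (Real.sqrt_pos.2 (sq_pos_of_im hq))

lemma Gq_pos {κ : ℝ} {q : ℝ × ℝ × ℝ × ℝ} (hq : 0 < q.2.1) : 0 < Gq κ q :=
  mul_pos (Real.exp_pos _) (Real.rpow_pos_of_pos (sinq_pos hq) _)

/-- explicit form on `Y > 0` -/
lemma Gq_eq {κ : ℝ} {x y l a : ℝ} (hy : 0 < y) :
    Gq κ (x, y, l, a) = Real.exp ((κ / 8 - 1) * l) *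
      (y ^ (8 / κ - 1) * (x ^ 2 + y ^ 2) ^ (-((8 / κ - 1) / 2))) := by
  have hR : 0 < x ^ 2 + y ^ 2 := sq_pos_of_im hy
  unfold Gq sinq
  simp only
  rw [Real.div_rpow hy.le (Real.sqrt_nonneg _), Real.sqrt_eq_rpow, ← Real.rpow_mul hR.le,
    Real.rpow_neg hR.le, show (1 / 2 : ℝ) * (8 / κ - 1) = (8 / κ - 1) / 2 by ring]
  rfl

lemma contDiffOn_Gq {κ : ℝ} {n : WithTop ℕ∞} : ContDiffOn ℝ n (Gq κ) DD := by
  unfold Gq sinq
  apply ContDiffOn.mul
  · apply ContDiff.contDiffOn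
    fun_prop
  · apply ContDiffOn.rpow_const_of_ne
    · apply ContDiffOn.div
      · exact ContDiff.contDiffOn (by fun_prop)
      · apply ContDiffOn.sqrt
        · exact ContDiff.contDiffOn (by fun_prop)
        · intro q hq
          exact (sq_pos_of_im hq).ne'
      · intro q hq
        exact (Real.sqrt_pos.2 (sq_pos_of_im hq)).ne'
    · intro q hq
      exact (sinq_pos (q := q) hq).ne'

section gen

variable {κ x y l a : ℝ}

lemma hasDeriv_X (hy : 0 < y) (x : ℝ) :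
    HasDerivAt (fun x => Gq κ (x, y, l, a))
      (Real.exp ((κ / 8 - 1) * l) * (y ^ (8 / κ - 1) *
        (-(8 / κ - 1) * x * (x ^ 2 + y ^ 2) ^ (-((8 / κ - 1) / 2) - 1)))) x := by
  have h1 : (fun x => Gq κ (x, y, l, a)) = fun x => Real.exp ((κ / 8 - 1) * l) *
      (y ^ (8 / κ - 1) * (x ^ 2 + y ^ 2) ^ (-((8 / κ - 1) / 2))) := by
    funext x; exact Gq_eq hy
  rw [h1]
  have h2 : HasDerivAt (fun x : ℝ => x ^ 2 + y ^ 2) (2 * x) x := by
    simpa using ((hasDerivAt_pow 2 x).add_const (y ^ 2))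
  have h3 := h2.rpow_const (p := -((8 / κ - 1) / 2)) (Or.inl (sq_pos_of_im hy).ne')
  refine ((h3.const_mul (y ^ (8 / κ - 1))).const_mul (Real.exp ((κ / 8 - 1) * l))).congr_deriv ?_
  ring

lemma hasDeriv_XX (hy : 0 < y) (x : ℝ) :
    HasDerivAt (deriv fun x => Gq κ (x, y, l, a))
      (Real.exp ((κ / 8 - 1) * l) * (y ^ (8 / κ - 1) *
        (-(8 / κ - 1) * (x ^ 2 + y ^ 2) ^ (-((8 / κ - 1) / 2) - 1) +
          (8 / κ - 1) * (8 / κ - 1 + 2) * x ^ 2 *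
            (x ^ 2 + y ^ 2) ^ (-((8 / κ - 1) / 2) - 1 - 1)))) x := by
  have h1 : (deriv fun x => Gq κ (x, y, l, a)) = fun x =>
      Real.exp ((κ / 8 - 1) * l) * (y ^ (8 / κ - 1) *
        (-(8 / κ - 1) * x * (x ^ 2 + y ^ 2) ^ (-((8 / κ - 1) / 2) - 1))) := by
    funext x; exact (hasDeriv_X hy x).deriv
  rw [h1]
  have h2 : HasDerivAt (fun x : ℝ => x ^ 2 + y ^ 2) (2 * x) x := by
    simpa using ((hasDerivAt_pow 2 x).add_const (y ^ 2))
  have h3 := h2.rpow_const (p := -((8 / κ - 1) / 2) - 1) (Or.inl (sq_pos_of_im hy).ne')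
  have h4 : HasDerivAt (fun x : ℝ => -(8 / κ - 1) * x) (-(8 / κ - 1)) x := by
    simpa using (hasDerivAt_id x).const_mul (-(8 / κ - 1))
  refine (((h4.mul h3).const_mul (y ^ (8 / κ - 1))).const_mul
    (Real.exp ((κ / 8 - 1) * l))).congr_deriv ?_
  ring

lemma hasDeriv_Y (hy : 0 < y) :
    HasDerivAt (fun y => Gq κ (x, y, l, a))
      (Real.exp ((κ / 8 - 1) * l) *
        ((8 / κ - 1) * y ^ (8 / κ - 1 - 1) * (x ^ 2 + y ^ 2) ^ (-((8 / κ - 1) / 2)) +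
          y ^ (8 / κ - 1) *
            (-(8 / κ - 1) * y * (x ^ 2 + y ^ 2) ^ (-((8 / κ - 1) / 2) - 1)))) y := by
  have h1 : (fun y => Gq κ (x, y, l, a)) =ᶠ[𝓝 y] fun y => Real.exp ((κ / 8 - 1) * l) *
      (y ^ (8 / κ - 1) * (x ^ 2 + y ^ 2) ^ (-((8 / κ - 1) / 2))) := by
    filter_upwards [lt_mem_nhds hy] with y' hy'
    exact Gq_eq hy'
  refine HasDerivAt.congr_of_eventuallyEq ?_ h1
  have h2 : HasDerivAt (fun y : ℝ => x ^ 2 + y ^ 2) (2 * y) y := by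
    simpa using ((hasDerivAt_pow 2 y).const_add (x ^ 2))
  have h3 := h2.rpow_const (p := -((8 / κ - 1) / 2)) (Or.inl (sq_pos_of_im hy).ne')
  have h4 := (hasDerivAt_id y).rpow_const (p := 8 / κ - 1) (Or.inl hy.ne')
  refine ((h4.mul h3).const_mul (Real.exp ((κ / 8 - 1) * l))).congr_deriv ?_
  simp only [id]
  ring

lemma hasDeriv_L :
    HasDerivAt (fun l => Gq κ (x, y, l, a)) ((κ / 8 - 1) * Gq κ (x, y, l, a)) l := by
  unfold Gq sinq
  simp only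
  have h1 : HasDerivAt (fun l : ℝ => Real.exp ((κ / 8 - 1) * l))
      (Real.exp ((κ / 8 - 1) * l) * (κ / 8 - 1)) l := by
    have := (hasDerivAt_id l).const_mul (κ / 8 - 1)
    simpa using this.exp
  refine (h1.mul_const ((y / Real.sqrt (x ^ 2 + y ^ 2)) ^ (8 / κ - 1))).congr_deriv ?_
  ring

lemma hasDeriv_a : HasDerivAt (fun a => Gq κ (x, y, l, a)) 0 a := by
  unfold Gq sinq
  simp only
  exact hasDerivAt_const _ _

end gen

/-- the Green weight is annihilated by the generator -/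
theorem gen_Gq {κ : ℝ} (hκ : 0 < κ) {q : ℝ × ℝ × ℝ × ℝ} (hq : 0 < q.2.1) :
    gen κ (Gq κ) q = 0 := by
  obtain ⟨x, y, l, a⟩ := q
  simp only at hq
  have hR : 0 < x ^ 2 + y ^ 2 := sq_pos_of_im hq
  unfold gen
  simp only
  rw [(hasDeriv_XX hq x).deriv, (hasDeriv_X hq x).deriv, (hasDeriv_Y hq).deriv,
    hasDeriv_L.deriv, hasDeriv_a.deriv, Gq_eq hq]
  have e1 : (x ^ 2 + y ^ 2) ^ (-((8 / κ - 1) / 2)) =
      (x ^ 2 + y ^ 2) ^ (-((8 / κ - 1) / 2) - 1 - 1) * (x ^ 2 + y ^ 2) * (x ^ 2 + y ^ 2) := by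
    rw [← Real.rpow_add_one hR.ne', ← Real.rpow_add_one hR.ne']
    congr 1; ring
  have e2 : (x ^ 2 + y ^ 2) ^ (-((8 / κ - 1) / 2) - 1) =
      (x ^ 2 + y ^ 2) ^ (-((8 / κ - 1) / 2) - 1 - 1) * (x ^ 2 + y ^ 2) := by
    rw [← Real.rpow_add_one hR.ne']
    congr 1; ring
  have e3 : y ^ (8 / κ - 1) = y ^ (8 / κ - 1 - 1) * y := by
    rw [← Real.rpow_add_one hq.ne']
    congr 1; ring
  rw [e1, e2, e3]
  set P := (x ^ 2 + y ^ 2) ^ (-((8 / κ - 1) / 2) - 1 - 1) with hP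
  set Q := y ^ (8 / κ - 1 - 1) with hQ
  set E := Real.exp ((κ / 8 - 1) * l) with hE
  clear_value P Q E
  field_simp
  ring

end Crest.Agent.R162.SUPG
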