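import Mathlib

set_option autoImplicit false

/-!
Row 162, node U4: the weighted recursion over the blocks, in set-integral form.
-/

open MeasureTheory Filter Topology

namespace Crest.Agent.R162.U4

variable {Ω : Type*} {m0 : MeasurableSpace Ω}

/-- Supermartingale in set-integral form, several levels at once. -/
theorem super_le {P : Measure Ω} {ℱ : Filtration ℕ m0} {G : ℕ → Ω → ℝ}
    (hsuper : ∀ (j : ℕ) (A : Set Ω), MeasurableSet[ℱ j] A →
      ∫ ω in A, G (j + 1) ω ∂P ≤ ∫ ω in A, G j ω ∂P)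
    {j k : ℕ} (hjk : j ≤ k) {A : Set Ω} (hA : MeasurableSet[ℱ j] A) :
    ∫ ω in A, G k ω ∂P ≤ ∫ ω in A, G j ω ∂P := by
  induction k, hjk using Nat.le_induction with
  | base => exact le_rfl
  | succ k hk ih => exact (hsuper k A (ℱ.mono hk A hA)).trans ih

/-- The set of outcomes without trigger in the blocks `0, …, I-1`. -/
def noTrig (trig : ℕ → Set Ω) : ℕ → Set Ω
  | 0 => Set.univ
  | I + 1 => noTrig trig I ∩ (trig I)ᶜ

theorem mem_noTrig {trig : ℕ → Set Ω} {I : ℕ} {ω : Ω} :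
    ω ∈ noTrig trig I ↔ ∀ i < I, ω ∉ trig i := by
  induction I with
  | zero => simp [noTrig]
  | succ I ih =>
    rw [noTrig, Set.mem_inter_iff, ih, Set.mem_compl_iff]
    constructor
    · rintro ⟨h1, h2⟩ i hi
      rcases Nat.lt_succ_iff_lt_or_eq.mp hi with h | h
      · exact h1 i h
      · subst h; exact h2
    · intro h
      exact ⟨fun i hi => h i (hi.trans (Nat.lt_succ_self I)), h I (Nat.lt_succ_self I)⟩

/-- **U4, recursion.**  `G j ≥ 0` is a supermartingale (set-integral form); one level brings the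
weight `≥ 1/2` into the good set; from a good state the trigger of the block has weight
`≥ q` (`q = c p_N`).  Then the weight of "no trigger in `I` blocks" is at most
`(1 - q/2)^I`. -/
theorem recursion {P : Measure Ω} {ℱ : Filtration ℕ m0} {G : ℕ → Ω → ℝ}
    (hnn : ∀ j ω, 0 ≤ G j ω) (hint : ∀ j, Integrable (G j) P)
    (hsuper : ∀ (j : ℕ) (A : Set Ω), MeasurableSet[ℱ j] A →
      ∫ ω in A, G (j + 1) ω ∂P ≤ ∫ ω in A, G j ω ∂P)
    {Good : ℕ → Set Ω} (hGood : ∀ j, MeasurableSet[ℱ j] (Good j))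
    {J : ℕ → ℕ} {l0 : ℕ} (hJ0 : 1 ≤ J 0) (hJ : ∀ i, J i + l0 < J (i + 1))
    (hU2 : ∀ (i : ℕ) (A : Set Ω), MeasurableSet[ℱ (J i - 1)] A →
      ∫ ω in A ∩ (Good (J i))ᶜ, G (J i) ω ∂P ≤ (1 / 2) * ∫ ω in A, G (J i - 1) ω ∂P)
    {trig : ℕ → Set Ω} (htrig : ∀ i, MeasurableSet[ℱ (J i + l0)] (trig i))
    {q : ℝ} (hq0 : 0 ≤ q) (hq1 : q ≤ 1)
    (hU3 : ∀ (i : ℕ) (A : Set Ω), MeasurableSet[ℱ (J i)] A → A ⊆ Good (J i) →
      q * ∫ ω in A, G (J i) ω ∂P ≤ ∫ ω in A ∩ trig i, G (J i + l0) ω ∂P)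
    (I : ℕ) :
    MeasurableSet[ℱ (J I - 1)] (noTrig trig I) ∧
      ∀ k, J I - 1 ≤ k →
        ∫ ω in noTrig trig I, G k ω ∂P ≤ (1 - q / 2) ^ I * ∫ ω, G 0 ω ∂P := by
  have key : ∀ I, MeasurableSet[ℱ (J I - 1)] (noTrig trig I) ∧
      ∫ ω in noTrig trig I, G (J I - 1) ω ∂P ≤ (1 - q / 2) ^ I * ∫ ω, G 0 ω ∂P := by
    intro I
    induction I with
    | zero =>
      refine ⟨MeasurableSet.univ, ?_⟩
      have := super_le (P := P) hsuper (Nat.zero_le (J 0 - 1)) (A := Set.univ)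
        MeasurableSet.univ
      simpa [noTrig] using this
    | succ I ih =>
      obtain ⟨hm, hle⟩ := ih
      have hJI : 1 ≤ J I := by
        rcases Nat.eq_zero_or_pos I with h | h
        · subst h; exact hJ0
        · obtain ⟨i, rfl⟩ := Nat.exists_eq_succ_of_ne_zero h.ne'
          have := hJ i; simp only [Nat.succ_eq_add_one] at *; omega
      have hJs := hJ I
      have hlev1 : J I - 1 ≤ J I := Nat.sub_le _ _
      have hlev2 : J I + l0 ≤ J (I + 1) - 1 := by omega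
      have hlev3 : J I - 1 ≤ J (I + 1) - 1 := by omega
      set A := noTrig trig I with hAdef
      have hAJ : MeasurableSet[ℱ (J I)] A := ℱ.mono hlev1 A hm
      have hA0 : MeasurableSet A := ℱ.le _ A hm
      have hG0 : MeasurableSet (Good (J I)) := ℱ.le _ _ (hGood _)
      have ht0 : MeasurableSet (trig I) := ℱ.le _ _ (htrig I)
      have hmeas : MeasurableSet[ℱ (J (I + 1) - 1)] (noTrig trig (I + 1)) :=
        (ℱ.mono hlev3 A hm).inter (ℱ.mono hlev2 _ (htrig I)).compl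
      refine ⟨hmeas, ?_⟩
      -- step down to the level `J I + l0`
      have h1 : ∫ ω in noTrig trig (I + 1), G (J (I + 1) - 1) ω ∂P
          ≤ ∫ ω in A ∩ (trig I)ᶜ, G (J I + l0) ω ∂P := by
        have hAl : MeasurableSet[ℱ (J I + l0)] (A ∩ (trig I)ᶜ) :=
          (ℱ.mono (by omega) A hm).inter (htrig I).compl
        exact super_le hsuper hlev2 hAl
      -- split off the trigger
      have hsplit : ∫ ω in A ∩ (trig I)ᶜ, G (J I + l0) ω ∂P
          = ∫ ω in A, G (J I + l0) ω ∂P - ∫ ω in A ∩ trig I, G (J I + l0) ω ∂P := by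
        have := integral_inter_add_sdiff (μ := P) (s := A) ht0 (hint (J I + l0)).integrableOn
        rw [← Set.sdiff_eq]; linarith
      have hAl0 : ∫ ω in A, G (J I + l0) ω ∂P ≤ ∫ ω in A, G (J I) ω ∂P :=
        super_le hsuper (Nat.le_add_right _ _) hAJ
      have hgood : q * ∫ ω in A ∩ Good (J I), G (J I) ω ∂P
          ≤ ∫ ω in A ∩ trig I, G (J I + l0) ω ∂P := by
        refine (hU3 I (A ∩ Good (J I)) (hAJ.inter (hGood _)) Set.inter_subset_right).trans ?_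
        refine setIntegral_mono_set (hint _).integrableOn
          (Eventually.of_forall fun ω => hnn _ ω) ?_
        exact LE.le.eventuallyLE
          (Set.inter_subset_inter_left _ Set.inter_subset_left)
      have hsplit2 : ∫ ω in A ∩ Good (J I), G (J I) ω ∂P
          = ∫ ω in A, G (J I) ω ∂P - ∫ ω in A ∩ (Good (J I))ᶜ, G (J I) ω ∂P := by
        have := integral_inter_add_sdiff (μ := P) (s := A) hG0 (hint (J I)).integrableOn
        rw [← Set.sdiff_eq]; linarith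
      have hbad := hU2 I A hm
      have hb : ∫ ω in A, G (J I) ω ∂P ≤ ∫ ω in A, G (J I - 1) ω ∂P :=
        super_le hsuper hlev1 hm
      have ha0 : 0 ≤ ∫ ω in A, G (J I - 1) ω ∂P :=
        setIntegral_nonneg hA0 fun ω _ => hnn _ ω
      have hfin : ∫ ω in noTrig trig (I + 1), G (J (I + 1) - 1) ω ∂P
          ≤ (1 - q / 2) * ∫ ω in A, G (J I - 1) ω ∂P := by
        nlinarith
      calc ∫ ω in noTrig trig (I + 1), G (J (I + 1) - 1) ω ∂P
          ≤ (1 - q / 2) * ∫ ω in A, G (J I - 1) ω ∂P := hfin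
        _ ≤ (1 - q / 2) * ((1 - q / 2) ^ I * ∫ ω, G 0 ω ∂P) :=
            mul_le_mul_of_nonneg_left hle (by linarith)
        _ = (1 - q / 2) ^ (I + 1) * ∫ ω, G 0 ω ∂P := by ring
  refine ⟨(key I).1, fun k hk => ?_⟩
  exact (super_le hsuper hk (key I).1).trans (key I).2


/-- **U4, conclusion**: survival to level `K` without any trigger. -/
theorem survival {P : Measure Ω} {ℱ : Filtration ℕ m0} {G : ℕ → Ω → ℝ}
    (hnn : ∀ j ω, 0 ≤ G j ω) (hint : ∀ j, Integrable (G j) P)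
    (hsuper : ∀ (j : ℕ) (A : Set Ω), MeasurableSet[ℱ j] A →
      ∫ ω in A, G (j + 1) ω ∂P ≤ ∫ ω in A, G j ω ∂P)
    {Good : ℕ → Set Ω} (hGood : ∀ j, MeasurableSet[ℱ j] (Good j))
    {J : ℕ → ℕ} {l0 : ℕ} (hJ0 : 1 ≤ J 0) (hJ : ∀ i, J i + l0 < J (i + 1))
    (hU2 : ∀ (i : ℕ) (A : Set Ω), MeasurableSet[ℱ (J i - 1)] A →
      ∫ ω in A ∩ (Good (J i))ᶜ, G (J i) ω ∂P ≤ (1 / 2) * ∫ ω in A, G (J i - 1) ω ∂P)
    {trig : ℕ → Set Ω} (htrig : ∀ i, MeasurableSet[ℱ (J i + l0)] (trig i))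
    {q : ℝ} (hq0 : 0 ≤ q) (hq1 : q ≤ 1)
    (hU3 : ∀ (i : ℕ) (A : Set Ω), MeasurableSet[ℱ (J i)] A → A ⊆ Good (J i) →
      q * ∫ ω in A, G (J i) ω ∂P ≤ ∫ ω in A ∩ trig i, G (J i + l0) ω ∂P)
    {I K : ℕ} (hIK : J I - 1 ≤ K) {Surv : Set Ω} {c1 : ℝ} (hc1 : 0 ≤ c1)
    (hU1 : ∀ A : Set Ω, MeasurableSet[ℱ K] A → P.real (A ∩ Surv) ≤ c1 * ∫ ω in A, G K ω ∂P) :
    P.real (noTrig trig I ∩ Surv) ≤ c1 * ((1 - q / 2) ^ I * ∫ ω, G 0 ω ∂P) := by
  obtain ⟨hm, hle⟩ := recursion hnn hint hsuper hGood hJ0 hJ hU2 htrig hq0 hq1 hU3 I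
  exact (hU1 _ (ℱ.mono hIK _ hm)).trans (mul_le_mul_of_nonneg_left (hle K hIK) hc1)

/-- `K^{1/4}` beats `log K`. -/
theorem ev_sqrt_le {a : ℝ} (ha : 0 < a) :
    ∀ᶠ K : ℕ in atTop, Real.sqrt K ≤ a * ((K : ℝ) ^ (3 / 4 : ℝ) / Real.log K) := by
  have h := (isLittleO_log_rpow_atTop (r := (1 / 4 : ℝ)) (by norm_num)).def ha
  have h' := tendsto_natCast_atTop_atTop.eventually h
  filter_upwards [h', eventually_ge_atTop 3] with K hK hK3
  have hK3' : (3 : ℝ) ≤ K := by exact_mod_cast hK3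
  have hKpos : (0 : ℝ) < K := by linarith
  have hlog : 0 < Real.log K := Real.log_pos (by linarith)
  rw [Real.norm_of_nonneg hlog.le, Real.norm_of_nonneg (Real.rpow_nonneg hKpos.le _)] at hK
  rw [← mul_div_assoc, le_div_iff₀ hlog]
  have hs : Real.sqrt K = (K : ℝ) ^ (1 / 2 : ℝ) := Real.sqrt_eq_rpow _
  have hsplit : (K : ℝ) ^ (3 / 4 : ℝ) = (K : ℝ) ^ (1 / 2 : ℝ) * (K : ℝ) ^ (1 / 4 : ℝ) := by
    rw [← Real.rpow_add hKpos]; norm_num
  rw [hs, hsplit]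
  have := mul_le_mul_of_nonneg_left hK (Real.rpow_nonneg hKpos.le (1 / 2 : ℝ))
  nlinarith [this]

/-- General numerical step. -/
theorem numeric_gen {a : ℝ} (ha : 0 < a) {q : ℕ → ℝ} {I : ℕ → ℕ}
    (hq1 : ∀ᶠ K : ℕ in atTop, q K ≤ 1)
    (hqI : ∀ᶠ K : ℕ in atTop, a * ((K : ℝ) ^ (3 / 4 : ℝ) / Real.log K) ≤ q K * I K) :
    ∀ᶠ K : ℕ in atTop, (1 - q K / 2) ^ I K ≤ Real.exp (-Real.sqrt K) := by
  filter_upwards [hq1, hqI, ev_sqrt_le (half_pos ha)] with K h1 h2 h3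
  have hx : (1 - q K / 2) ≤ Real.exp (-(q K / 2)) := by
    have := Real.add_one_le_exp (-(q K / 2)); linarith
  have h0 : 0 ≤ 1 - q K / 2 := by linarith
  calc (1 - q K / 2) ^ I K ≤ (Real.exp (-(q K / 2))) ^ I K := pow_le_pow_left₀ h0 hx _
    _ = Real.exp (-(q K * I K / 2)) := by
        rw [← Real.exp_nat_mul]; congr 1; ring
    _ ≤ Real.exp (-Real.sqrt K) := by
        apply Real.exp_le_exp.mpr
        have : a / 2 * ((K : ℝ) ^ (3 / 4 : ℝ) / Real.log K)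
            = (a * ((K : ℝ) ^ (3 / 4 : ℝ) / Real.log K)) / 2 := by ring
        linarith

/-- The block length. -/
noncomputable def blockLen (Cg : ℝ) (l0 : ℕ) (N : ℕ) : ℕ := ⌈Cg * Real.log N⌉₊ + l0

/-- `N = ⌊ε₀ log K⌋`. -/
noncomputable def NN (ε0 : ℝ) (K : ℕ) : ℕ := ⌊ε0 * Real.log K⌋₊

theorem NN_le {ε0 : ℝ} (hε : 0 ≤ ε0) {K : ℕ} (hK : 1 ≤ K) :
    (NN ε0 K : ℝ) ≤ ε0 * Real.log K :=
  Nat.floor_le (mul_nonneg hε (Real.log_nonneg (by exact_mod_cast hK)))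

theorem tendsto_NN {ε0 : ℝ} (hε : 0 < ε0) : Tendsto (NN ε0) atTop atTop := by
  unfold NN
  exact tendsto_nat_floor_atTop.comp
    ((Real.tendsto_log_atTop.comp tendsto_natCast_atTop_atTop).const_mul_atTop hε)

theorem exp_NN_ge {C ε0 : ℝ} (hC : 0 ≤ C) (hε : 0 ≤ ε0) (hCε : C * ε0 ≤ 1 / 4) {K : ℕ}
    (hK : 1 ≤ K) : (K : ℝ) ^ (-(1 / 4) : ℝ) ≤ Real.exp (-(C * NN ε0 K)) := by
  have hKpos : (0 : ℝ) < K := by exact_mod_cast hK
  have hlog : 0 ≤ Real.log K := Real.log_nonneg (by exact_mod_cast hK)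
  rw [Real.rpow_def_of_pos hKpos]
  apply Real.exp_le_exp.mpr
  have h1 := mul_le_mul_of_nonneg_left (NN_le hε hK) hC
  have h2 := mul_le_mul_of_nonneg_right hCε hlog
  nlinarith

theorem blockLen_le {ε0 Cg : ℝ} (hε : 0 ≤ ε0) (hCg : 0 ≤ Cg) (l0 : ℕ) {K : ℕ} (hK : 3 ≤ K) :
    (blockLen Cg l0 (NN ε0 K) : ℝ) ≤ (Cg * ε0 + 1 + l0) * Real.log K := by
  have hK1 : 1 ≤ K := by omega
  have hlog1 : 1 ≤ Real.log K := by
    have h3 : Real.exp 1 ≤ K := by
      have := Real.exp_one_lt_d9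
      have h3' : (3 : ℝ) ≤ K := by exact_mod_cast hK
      linarith
    have := Real.log_le_log (Real.exp_pos 1) h3
    rwa [Real.log_exp] at this
  have hlogN : Real.log (NN ε0 K) ≤ ε0 * Real.log K := by
    refine le_trans ?_ (NN_le hε hK1)
    exact Real.log_le_self (Nat.cast_nonneg _)
  have hnn : 0 ≤ Cg * Real.log (NN ε0 K) :=
    mul_nonneg hCg (Real.log_natCast_nonneg _)
  unfold blockLen
  push_cast
  have h1 : (⌈Cg * Real.log (NN ε0 K)⌉₊ : ℝ) < Cg * Real.log (NN ε0 K) + 1 :=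
    Nat.ceil_lt_add_one hnn
  have h2 := mul_le_mul_of_nonneg_left hlogN hCg
  have hl0 : (0 : ℝ) ≤ l0 := Nat.cast_nonneg _
  nlinarith

/-- Number of blocks. -/
noncomputable def nBlocks (ε0 Cg : ℝ) (l0 : ℕ) (K : ℕ) : ℕ := K / (4 * blockLen Cg l0 (NN ε0 K))

theorem nBlocks_ge {ε0 Cg : ℝ} (hε : 0 ≤ ε0) (hCg : 0 ≤ Cg) {l0 : ℕ} (hl0 : 1 ≤ l0) :
    ∀ᶠ K : ℕ in atTop, (K : ℝ) / (8 * (Cg * ε0 + 1 + l0) * Real.log K)
      ≤ nBlocks ε0 Cg l0 K := by
  set D : ℝ := Cg * ε0 + 1 + l0 with hD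
  have hDpos : 0 < D := by positivity
  have hsmall := (Real.isLittleO_log_id_atTop).def (c := 1 / (8 * D)) (by positivity)
  have hsmall' := tendsto_natCast_atTop_atTop.eventually hsmall
  filter_upwards [hsmall', eventually_ge_atTop 3] with K hKs hK
  have hK3 : (3 : ℝ) ≤ K := by exact_mod_cast hK
  have hKpos : (0 : ℝ) < K := by linarith
  have hlog : 0 < Real.log K := Real.log_pos (by linarith)
  rw [Real.norm_of_nonneg hlog.le, id, Real.norm_of_nonneg hKpos.le] at hKs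
  set g := blockLen Cg l0 (NN ε0 K) with hg
  have hg1 : 1 ≤ g := by rw [hg, blockLen]; omega
  have hgR : (1 : ℝ) ≤ g := by exact_mod_cast hg1
  have hgle : (g : ℝ) ≤ D * Real.log K := blockLen_le hε hCg l0 hK
  have hKs' : 8 * D * Real.log K ≤ K := by
    rw [div_mul_eq_mul_div, one_mul, le_div_iff₀ (by positivity)] at hKs
    linarith
  have hdiv : (K : ℝ) / (4 * g) - 1 < nBlocks ε0 Cg l0 K := by
    have h := Nat.lt_floor_add_one ((K : ℝ) / (4 * g))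
    have h2 : ⌊(K : ℝ) / (4 * g)⌋₊ = nBlocks ε0 Cg l0 K := by
      unfold nBlocks
      rw [← hg]
      have : ((4 * g : ℕ) : ℝ) = 4 * (g : ℝ) := by push_cast; ring
      rw [← this, Nat.floor_div_eq_div]
    rw [h2] at h
    linarith
  have h4g : (0 : ℝ) < 4 * g := by linarith
  have hA : (K : ℝ) / (8 * D * Real.log K) ≤ (K : ℝ) / (4 * g) / 2 := by
    rw [div_div]
    apply div_le_div_of_nonneg_left hKpos.le (by positivity)
    nlinarith
  have hB : (1 : ℝ) ≤ (K : ℝ) / (4 * g) / 2 := by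
    rw [div_div, le_div_iff₀ (by positivity)]
    nlinarith
  linarith

/-- **U4, numerical step**: with `p_N = e^{-C N}`, `N = ⌊ε₀ log K⌋`, `C ε₀ ≤ 1/4`, and
`K/(4 g)` blocks of length `g = ⌈Cg log N⌉ + l0`: `(1 - c p_N/2)^I ≤ exp(-√K)` for large `K`. -/
theorem numeric {c C ε0 Cg : ℝ} (hc : 0 < c) (hc1 : c ≤ 1) (hC : 0 ≤ C) (hε : 0 < ε0)
    (hCε : C * ε0 ≤ 1 / 4) (hCg : 0 ≤ Cg) {l0 : ℕ} (hl0 : 1 ≤ l0) :
    ∀ᶠ K : ℕ in atTop,
      (1 - c * Real.exp (-(C * NN ε0 K)) / 2) ^ (nBlocks ε0 Cg l0 K)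
        ≤ Real.exp (-Real.sqrt K) := by
  set D : ℝ := Cg * ε0 + 1 + l0 with hD
  have hDpos : 0 < D := by positivity
  refine numeric_gen (a := c / (8 * D)) (by positivity)
    (q := fun K => c * Real.exp (-(C * NN ε0 K))) ?_ ?_
  · refine Eventually.of_forall fun K => ?_
    have h1 : Real.exp (-(C * (NN ε0 K : ℝ))) ≤ 1 := by
      rw [Real.exp_le_one_iff]
      have := mul_nonneg hC (Nat.cast_nonneg (α := ℝ) (NN ε0 K)); linarith
    have h0 := Real.exp_pos (-(C * (NN ε0 K : ℝ)))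
    calc c * Real.exp (-(C * NN ε0 K)) ≤ 1 * 1 :=
          mul_le_mul hc1 h1 h0.le zero_le_one
      _ = 1 := one_mul 1
  · filter_upwards [nBlocks_ge hε.le hCg hl0, eventually_ge_atTop 3] with K hI hK
    have hK1 : 1 ≤ K := by omega
    have hK3 : (3 : ℝ) ≤ K := by exact_mod_cast hK
    have hKpos : (0 : ℝ) < K := by linarith
    have hlog : 0 < Real.log K := Real.log_pos (by linarith)
    have hp := exp_NN_ge hC hε.le hCε hK1
    have hpp : 0 ≤ (K : ℝ) ^ (-(1 / 4) : ℝ) := Real.rpow_nonneg hKpos.le _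
    have hIpos : 0 ≤ (K : ℝ) / (8 * D * Real.log K) := by positivity
    have e34 : (K : ℝ) ^ (3 / 4 : ℝ) = (K : ℝ) ^ (-(1 / 4) : ℝ) * K := by
      nth_rewrite 3 [← Real.rpow_one (K : ℝ)]
      rw [← Real.rpow_add hKpos]; norm_num
    calc c / (8 * D) * ((K : ℝ) ^ (3 / 4 : ℝ) / Real.log K)
        = c * (K : ℝ) ^ (-(1 / 4) : ℝ) * ((K : ℝ) / (8 * D * Real.log K)) := by
          rw [e34]; field_simp
      _ ≤ (c * Real.exp (-(C * NN ε0 K))) * (nBlocks ε0 Cg l0 K) := by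
          apply mul_le_mul _ hI hIpos (by positivity)
          exact mul_le_mul_of_nonneg_left hp hc.le

end Crest.Agent.R162.U4
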