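import Mathlib
import Crest.Prelude.Def_Loewner
import Crest.Agent.R162.Base
import Crest.Agent.R162.OSDefs
import Crest.Agent.R162.U4

/-!
Row 162 (S0243), UPPER BOUND: frozen statements of the nodes (helper744).
See the blueprint notes 14457 and 14475 of helper779.
-/

set_option autoImplicit false

open MeasureTheory ProbabilityTheory Set Metric
open scoped NNReal ENNReal

namespace Crest.Agent.R162.UB

open Crest.Agent.R162.FL Crest.Agent.R162.OP Crest.Agent.R162.OS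
open Crest.ProbabilityR.Loewner

/-- the path of the trigger: slope `-1` from `x0` to `-M`, constant `-M` on a `K`-time interval of
length `N`, then slope `+1`; `M = (log N)/2`. -/
noncomputable def psi (N x0 a : ℝ) : ℝ :=
  max (x0 - a) (max (-(Real.log N / 2)) (a - x0 - N - Real.log N))

/-- total `K`-duration of the trigger: at that time `psi = -2`. -/
noncomputable def dur (N x0 : ℝ) : ℝ := x0 + N + Real.log N - 2

/-- the trigger of `w` at scale `r`: `σ` is the time with `Υ_σ(w) = r`, at which `S ≥ δ`; up to the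
time `T` the coordinate `x` follows `psi` at distance `≤ 1`. -/
structure TrigAt (W : ℝ → ℝ) (w : ℂ) (r N δ σ T : ℝ) : Prop where
  nonneg : 0 ≤ σ
  le : σ ≤ T
  alive : Alive W w T
  ups_eq : ups W σ w = r
  sfl_ge : δ ≤ sfl W σ w
  dur_eq : ath W T w - ath W σ w = dur N (xfl W σ w)
  tube : ∀ t ∈ Set.Icc σ T, |xfl W t w - psi N (xfl W σ w) (ath W t w - ath W σ w)| ≤ 1

/-- the trigger of `w` at scale `r` occurs -/
def Trig (W : ℝ → ℝ) (w : ℂ) (r N δ : ℝ) : Prop := ∃ σ T, TrigAt W w r N δ σ T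

/-- Green's function of SLE in the half-plane at time `0` -/
noncomputable def green (κ : ℝ) (z : ℂ) : ℝ :=
  z.im ^ (κ / 8 - 1) * (z.im / ‖z‖) ^ (8 / κ - 1)

/-- the set charged by the trigger `(w, r)` at time `T` -/
def chargeSet (W : ℝ → ℝ) (w : ℂ) (r N C₆ c₅ T : ℝ) : Set ℂ :=
  {z | Alive W z T ∧ ‖z - w‖ ≤ C₆ * r ∧ c₅ * r * N ^ (-(1 / 2 : ℝ)) ≤ ups W T z}

/-- NODE U5 (deterministic geometry of the trigger), final form. -/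
def U5Stmt (κ : ℝ) : Prop :=
  ∀ δ : ℝ, 0 < δ → ∃ C₆ c₅ c N₀ : ℝ, 1 ≤ C₆ ∧ 0 < c₅ ∧ 0 < c ∧ 1 ≤ N₀ ∧
    ∀ (W : ℝ → ℝ) (w : ℂ) (r N σ T : ℝ), ContinuousOn W (Set.Ici 0) → W 0 = 0 → N₀ ≤ N → 0 < r →
      TrigAt W w r N δ σ T →
      ENNReal.ofReal (c * r ^ dimParam κ * N ^ ((2 - dimParam κ) / 2)) ≤
        ∫⁻ z in chargeSet W w r N C₆ c₅ T, ENNReal.ofReal (gr κ W T z)

/-- NODE UD (from KB2, KB3): conformal radii of two alive points. -/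
def UDStmt : Prop :=
  ∀ (W : ℝ → ℝ) (z w : ℂ) (T : ℝ), ContinuousOn W (Set.Ici 0) → Alive W z T → Alive W w T →
    ups W T z ≤ 2 * ‖z - w‖ + 4 * ups W T w

/-- level of the `i`-th trigger for `K`: `K/2 + i g`, `g = blockLen 2 l₀ N`, `N = NN ε₀ K` -/
noncomputable def lev (ε₀ : ℝ) (l₀ K i : ℕ) : ℕ := K / 2 + i * U4.blockLen 2 l₀ (U4.NN ε₀ K)

/-- scale of the `i`-th trigger for `K` -/
noncomputable def rsc (ε₀ : ℝ) (l₀ K i : ℕ) : ℝ := Real.exp (-(lev ε₀ l₀ K i : ℝ))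

/-- no trigger of `w` in the blocks `i < U4.nBlocks ε₀ 2 l₀ K` -/
def NoTrig (W : ℝ → ℝ) (w : ℂ) (ε₀ δ : ℝ) (l₀ K : ℕ) : Prop :=
  ∀ i : ℕ, i < U4.nBlocks ε₀ 2 l₀ K → ¬ Trig W w (rsc ε₀ l₀ K i) (U4.NN ε₀ K : ℝ) δ

/-- NODE U4 (one-point probability of reaching level `K` without any trigger), final form. -/
def U4Stmt (κ : ℝ) {Ω : Type*} {m : MeasurableSpace Ω} (P : Measure Ω)
    (B : ℝ≥0 → Ω → ℝ) : Prop :=
  ∃ δ : ℝ, 0 < δ ∧ ∃ l₁ : ℕ, ∀ l₀ : ℕ, l₁ ≤ l₀ → ∃ ε₀ : ℝ, 0 < ε₀ ∧ ε₀ ≤ 1 ∧ ∃ C : ℝ,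
    0 < C ∧ ∀ᶠ K : ℕ in Filter.atTop, ∀ w : ℂ, Real.exp (-((K : ℝ) / 8)) ≤ w.im →
      P {ω | Reach (driving κ B ω) w (Real.exp (-((K : ℝ) - 1))) ∧
          NoTrig (driving κ B ω) w ε₀ δ l₀ K} ≤
        ENNReal.ofReal (C * Real.exp (-((2 - dimParam κ) * K)) * green κ w *
          Real.exp (-Real.sqrt K))

/-- NODE U6 (selection and charging), final form: `J` = finite set of pairs `(w, r)`. -/
def U6Stmt (κ : ℝ) {Ω : Type*} {m : MeasurableSpace Ω} (P : Measure Ω)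
    (B : ℝ≥0 → Ω → ℝ) : Prop :=
  ∀ (δ C₆ c₅ c N R : ℝ), 0 < δ → 1 ≤ C₆ → 0 < c₅ → 0 < c → 1 ≤ N →
    ∀ (J : Finset (ℂ × ℝ)), (∀ p ∈ J, 0 < p.1.im ∧ 0 < p.2 ∧ p.2 < p.1.im ∧ ‖p.1‖ + C₆ * p.2 ≤ R) →
    (∀ p ∈ J, ∀ q ∈ J, p.2 < q.2 → (2 * C₆ + 4) * N ^ (1 / 2 : ℝ) * p.2 < c₅ * q.2) →
    (∀ (W : ℝ → ℝ) (σ T : ℝ), ContinuousOn W (Set.Ici 0) → W 0 = 0 → ∀ p ∈ J,
      TrigAt W p.1 p.2 N δ σ T →
      ENNReal.ofReal (c * p.2 ^ dimParam κ * N ^ ((2 - dimParam κ) / 2)) ≤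
        ∫⁻ z in chargeSet W p.1 p.2 N C₆ c₅ T, ENNReal.ofReal (gr κ W T z)) →
    ∃ sel : ℂ × ℝ → Set Ω,
      (∀ ω, ∀ q ∈ J, Trig (driving κ B ω) q.1 q.2 N δ →
        ∃ p ∈ J, ω ∈ sel p ∧ ‖q.1 - p.1‖ ≤ 10 * C₆ * p.2) ∧
      ∑ p ∈ J, P (sel p) * ENNReal.ofReal (c * p.2 ^ dimParam κ * N ^ ((2 - dimParam κ) / 2)) ≤
        ∫⁻ z in {z : ℂ | 0 < z.im ∧ ‖z‖ ≤ R}, ENNReal.ofReal (green κ z)

/-- NODE TR3 (deterministic): a trace that enters `ball w r` makes `w` lose its radius. -/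
def TR3Stmt : Prop :=
  ∀ (W : ℝ → ℝ) (γ : ℝ → ℂ) (w : ℂ) (r t : ℝ), ContinuousOn W (Set.Ici 0) → IsChordalTrace W γ →
    0 ≤ t → 0 < r → ball w r ⊆ halfPlane → γ t ∈ ball w r → Reach W w (2 * r)

end Crest.Agent.R162.UB
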