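import Mathlib
import Crest.Prelude.Def_Loewner
import Crest.Agent.R162.OPDefs
import Crest.Agent.R162.UBDefs
import Crest.Agent.R162.FLB
import Crest.Agent.R162.SUPGa

/-!
Row 162, node SUPG (helper613): `gr` versus `Gq`, initial value.
-/

set_option autoImplicit false

open MeasureTheory ProbabilityTheory Filter Set
open scoped NNReal ENNReal Topology

namespace Crest.Agent.R162.SUPG

open Crest.Agent.R162.FL Crest.Agent.R162.OS Crest.Agent.R162.OP Crest.Agent.R162.UB
open Crest.ProbabilityR.Loewner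

variable {W : ℝ → ℝ} {t κ : ℝ} {z : ℂ}

lemma norm_eq_sqrt (ζ : ℂ) : ‖ζ‖ = Real.sqrt (ζ.re ^ 2 + ζ.im ^ 2) := by
  rw [Complex.norm_eq_sqrt_sq_add_sq]

lemma sinq_stW : sinq (stW W t z) = sfl W t z := by
  unfold sinq stW sfl
  simp only
  rw [norm_eq_sqrt]

/-- on an alive point the Green process is the state function `Gq` -/
theorem gr_eq_Gq (h : Alive W z t) : gr κ W t z = Gq κ (stW W t z) := by
  unfold gr Gq
  rw [sinq_stW]
  congr 1
  simp only [stW]
  rw [Real.rpow_def_of_pos (ups_pos h), mul_comm]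

/-- on a dead point the Green process vanishes -/
theorem gr_of_dead (hκ8 : κ < 8) (h : ¬ Alive W z t) : gr κ W t z = 0 := by
  unfold gr
  have h1 : κ / 8 - 1 ≠ 0 := by
    intro h0
    linarith
  rw [ups_of_not_alive h, Real.zero_rpow h1, zero_mul]

lemma driving_zero {Ω : Type*} {m : MeasurableSpace Ω} {F : Filtration ℝ≥0 m}
    {P : Measure Ω} {B : ℝ≥0 → Ω → ℝ} (hB : IsBM F B P) (κ : ℝ) (ω : Ω) :
    driving κ B ω 0 = 0 := by
  simp [driving, hB.zero ω]

lemma continuous_driving {Ω : Type*} {m : MeasurableSpace Ω} {F : Filtration ℝ≥0 m}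
    {P : Measure Ω} {B : ℝ≥0 → Ω → ℝ} (hB : IsBM F B P) (κ : ℝ) (ω : Ω) :
    Continuous (driving κ B ω) :=
  continuous_const.mul ((hB.cont ω).comp continuous_real_toNNReal)

/-- initial value -/
theorem Gq_stW_zero (hW : W 0 = 0) (hz : 0 < z.im) : Gq κ (stW W 0 z) = green κ z := by
  rw [← gr_eq_Gq (alive_zero hz)]
  unfold gr green sfl
  rw [ups_zero hz]
  simp only [Zfl, gfl_zero hz, hW, Complex.ofReal_zero, sub_zero]

end Crest.Agent.R162.SUPG
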