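import Mathlib
import Crest.Agent.R162.LB7r
import Crest.Agent.R162.LB7u
import Crest.Agent.R162.SUPGa
import Crest.Agent.R162.SUPGb
import Crest.Agent.R162.Rad

/-!
Row 162, node LB7b: the Green weight at radial levels: supermartingale inequality, bounds and
moments `gmax^ε ∫ G_l^{1-ε}`.
-/

set_option autoImplicit false

open MeasureTheory ProbabilityTheory Filter Set
open scoped NNReal ENNReal Topology

namespace Crest.Agent.R162.LB7

open Crest.Agent.R162.OS Crest.Agent.R162.Rad Crest.Agent.R162.OP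

variable {Ω : Type*} {m : MeasurableSpace Ω} {F : Filtration ℝ≥0 m} {P : Measure Ω}
  {κ s₀ : ℝ}

/-- the Green weight at level `s` (zero if the level is not reached). -/
noncomputable def gw (D : OneP F P (gen κ) s₀) (s : ℝ) (ω : Ω) : ℝ≥0∞ :=
  (D.alive s).indicator (fun ω => ENNReal.ofReal (Gq κ (D.st (D.tau s ω) ω))) ω

lemma measurable_sinq : Measurable sinq := by
  unfold sinq; fun_prop

lemma measurable_Gq : Measurable (Gq κ) := by
  unfold Gq
  have := measurable_sinq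
  fun_prop

variable (D : OneP F P (gen κ) s₀)

lemma gw_of_mem {s : ℝ} {ω : Ω} (h : ω ∈ D.alive s) :
    gw D s ω = ENNReal.ofReal (Gq κ (D.st (D.tau s ω) ω)) := by
  unfold gw; rw [indicator_of_mem h]

lemma gw_of_notMem {s : ℝ} {ω : Ω} (h : ω ∉ D.alive s) : gw D s ω = 0 := by
  unfold gw; rw [indicator_of_notMem h]

/-- `{c < gw}` is in the past of `τ_s`. -/
lemma past_gw (s : ℝ) (c : ℝ≥0∞) : D.Past s {ω | gw D s ω ≤ c}ᶜ := by
  have hS : MeasurableSet {q : St | c < ENNReal.ofReal (Gq κ q)} :=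
    measurableSet_lt measurable_const (measurable_Gq.ennreal_ofReal)
  have h := D.past_st (D.alive_past s) hS
  convert h using 1
  ext ω
  simp only [mem_compl_iff, mem_ofPred_eq, not_le, mem_inter_iff]
  constructor
  · intro hlt
    by_cases hal : ω ∈ D.alive s
    · exact ⟨hal, by rwa [gw_of_mem D hal] at hlt⟩
    · rw [gw_of_notMem D hal] at hlt
      exact absurd hlt (by simp)
  · rintro ⟨h1, h2⟩
    rwa [gw_of_mem D h1]

lemma past_gw' (s : ℝ) (c : ℝ≥0∞) : D.Past s (D.alive s ∩ {ω | gw D s ω ≤ c}) := by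
  have hS : MeasurableSet {q : St | ENNReal.ofReal (Gq κ q) ≤ c} :=
    measurableSet_le (measurable_Gq.ennreal_ofReal) measurable_const
  have h := D.past_st (D.alive_past s) hS
  convert h using 1
  ext ω
  simp only [mem_ofPred_eq, mem_inter_iff]
  constructor
  · rintro ⟨h1, h2⟩
    exact ⟨h1, by rwa [gw_of_mem D h1] at h2⟩
  · rintro ⟨h1, h2⟩
    exact ⟨h1, by rwa [gw_of_mem D h1]⟩

lemma measurable_gw (s : ℝ) : Measurable (gw D s) := by
  refine measurable_of_Iic fun c => ?_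
  have h := OneP.Past.measurableSet D (past_gw D s c)
  have h2 := h.compl
  rwa [compl_compl] at h2

/-- supermartingale inequality on the events `{gw s ≤ c}`. -/
lemma gw_super [IsFiniteMeasure P] (hκ : 0 < κ) {s t : ℝ} (hs : s₀ ≤ s) (hst : s ≤ t)
    (c : ℝ≥0∞) :
    ∫⁻ ω in {ω | gw D s ω ≤ c}, gw D t ω ∂P ≤ ∫⁻ ω in {ω | gw D s ω ≤ c}, gw D s ω ∂P := by
  have hcore := D.core (P := P) (s := s) (c := t - s) hs (by linarith) (Φ := Gq κ)
    (SUPG.contDiffOn_Gq) (fun p hp _ _ => (SUPG.Gq_pos hp).le)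
    (fun p hp _ _ => (SUPG.gen_Gq hκ hp).le) (past_gw' D s c)
  rw [show s + (t - s) = t by ring] at hcore
  have hm1 : MeasurableSet {ω | gw D s ω ≤ c} := measurableSet_le (measurable_gw D s)
    measurable_const
  have hmt := D.measurableSet_alive t
  have hms := D.measurableSet_alive s
  have e1 : ∫⁻ ω in {ω | gw D s ω ≤ c}, gw D t ω ∂P =
      ∫⁻ ω in D.alive s ∩ {ω | gw D s ω ≤ c} ∩ D.alive t,
        ENNReal.ofReal (Gq κ (D.st (D.tau t ω) ω)) ∂P := by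
    have : D.alive s ∩ {ω | gw D s ω ≤ c} ∩ D.alive t = {ω | gw D s ω ≤ c} ∩ D.alive t := by
      ext ω; constructor
      · rintro ⟨⟨_, h2⟩, h3⟩; exact ⟨h2, h3⟩
      · rintro ⟨h2, h3⟩; exact ⟨⟨D.alive_anti hst h3, h2⟩, h3⟩
    rw [this, inter_comm, ← Measure.restrict_restrict hmt, ← lintegral_indicator hmt]
    rfl
  have e2 : ∫⁻ ω in {ω | gw D s ω ≤ c}, gw D s ω ∂P =
      ∫⁻ ω in D.alive s ∩ {ω | gw D s ω ≤ c},
        ENNReal.ofReal (Gq κ (D.st (D.tau s ω) ω)) ∂P := by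
    rw [← Measure.restrict_restrict hms, ← lintegral_indicator hms]
    rfl
  rw [e1, e2]
  exact hcore

lemma sinq_le_one (q : St) : sinq q ≤ 1 := by
  unfold sinq
  refine div_le_one_of_le₀ ?_ (Real.sqrt_nonneg _)
  exact Real.le_sqrt_of_sq_le (by nlinarith [sq_nonneg q.1])

/-- value of `Gq` at level `s`. -/
lemma Gq_tau {s : ℝ} (hs : s₀ ≤ s) {ω : Ω} (h : ω ∈ D.alive s) :
    Gq κ (D.st (D.tau s ω) ω) =
      Real.exp ((1 - κ / 8) * s) * sinq (D.st (D.tau s ω) ω) ^ (8 / κ - 1) := by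
  unfold Gq
  rw [D.L_tau hs h]
  congr 2; ring

lemma sinq_tau_pos {s : ℝ} {ω : Ω} (h : ω ∈ D.alive s) : 0 < sinq (D.st (D.tau s ω) ω) :=
  SUPG.sinq_pos (D.y_pos ω _ (D.tau_mem h).1)

lemma gw_le (hκ : 0 < κ) (hκ8 : κ < 8) {s : ℝ} (hs : s₀ ≤ s) (ω : Ω) :
    gw D s ω ≤ ENNReal.ofReal (Real.exp ((1 - κ / 8) * s)) := by
  by_cases h : ω ∈ D.alive s
  · rw [gw_of_mem D h, Gq_tau D hs h]
    refine ENNReal.ofReal_le_ofReal ?_
    have h1 : sinq (D.st (D.tau s ω) ω) ^ (8 / κ - 1) ≤ 1 := by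
      refine Real.rpow_le_one (sinq_tau_pos D h).le (sinq_le_one _) ?_
      rw [sub_nonneg, le_div_iff₀ hκ]; linarith
    have := Real.exp_pos ((1 - κ / 8) * s)
    nlinarith
  · rw [gw_of_notMem D h]; exact zero_le

/-- pointwise interpolation: `gmax^ε G_l^{1-ε} = e^{ε (1-κ/8)(t-l)} G_l S^{-bε}`. -/
lemma gw_rpow {ε l t : ℝ} (hε0 : 0 < ε) (hε1 : ε < 1) (hl : s₀ ≤ l) (ω : Ω) :
    ENNReal.ofReal (Real.exp ((1 - κ / 8) * t)) ^ ε * gw D l ω ^ (1 - ε) =
      (D.alive l).indicator (fun ω => ENNReal.ofReal (Real.exp (ε * (1 - κ / 8) * (t - l))) *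
        ENNReal.ofReal (Gq κ (D.st (D.tau l ω) ω) *
          sinq (D.st (D.tau l ω) ω) ^ (-((8 / κ - 1) * ε)))) ω := by
  by_cases h : ω ∈ D.alive l
  · rw [indicator_of_mem h, gw_of_mem D h]
    have hS := sinq_tau_pos D h
    set S := sinq (D.st (D.tau l ω) ω) with hSdef
    have hG0 : 0 < Gq κ (D.st (D.tau l ω) ω) := SUPG.Gq_pos (D.y_pos ω _ (D.tau_mem h).1)
    rw [ENNReal.ofReal_rpow_of_nonneg (Real.exp_pos _).le hε0.le,
      ENNReal.ofReal_rpow_of_nonneg hG0.le (by linarith), ← ENNReal.ofReal_mul (by positivity),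
      ← ENNReal.ofReal_mul (by positivity)]
    congr 1
    rw [Gq_tau D hl h, ← hSdef]
    have hE := Real.exp_pos ((1 - κ / 8) * l)
    rw [Real.mul_rpow hE.le (Real.rpow_nonneg hS.le _), ← Real.exp_mul, ← Real.exp_mul,
      ← Real.rpow_mul hS.le]
    have e1 : Real.exp ((1 - κ / 8) * t * ε) * (Real.exp ((1 - κ / 8) * l * (1 - ε)) *
        S ^ ((8 / κ - 1) * (1 - ε))) =
        (Real.exp ((1 - κ / 8) * t * ε) * Real.exp ((1 - κ / 8) * l * (1 - ε))) *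
        S ^ ((8 / κ - 1) * (1 - ε)) := by ring
    have e2 : Real.exp (ε * (1 - κ / 8) * (t - l)) * (Real.exp ((1 - κ / 8) * l) *
        S ^ (8 / κ - 1) * S ^ (-((8 / κ - 1) * ε))) =
        (Real.exp (ε * (1 - κ / 8) * (t - l)) * Real.exp ((1 - κ / 8) * l)) *
        (S ^ (8 / κ - 1) * S ^ (-((8 / κ - 1) * ε))) := by ring
    rw [e1, e2, ← Real.exp_add, ← Real.exp_add, ← Real.rpow_add hS]
    congr 2
    · ring
    · ring
  · rw [indicator_of_notMem h, gw_of_notMem D h, ENNReal.zero_rpow_of_pos (by linarith), mul_zero]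

/-- total mass of the weight at level `l` at most the initial weight. -/
lemma gw_total [IsFiniteMeasure P] (hκ : 0 < κ) {l : ℝ} (hl : s₀ ≤ l) :
    ∫⁻ ω in D.alive l, ENNReal.ofReal (Gq κ (D.st (D.tau l ω) ω)) ∂P ≤
      ∫⁻ ω, ENNReal.ofReal (Gq κ (D.st 0 ω)) ∂P := by
  have hcore := D.core (P := P) (s := s₀) (c := l - s₀) le_rfl (by linarith) (Φ := Gq κ)
    (SUPG.contDiffOn_Gq) (fun p hp _ _ => (SUPG.Gq_pos hp).le)
    (fun p hp _ _ => (SUPG.gen_Gq hκ hp).le) (D.alive_past s₀)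
  rw [show s₀ + (l - s₀) = l by ring, D.alive_base, univ_inter, Measure.restrict_univ] at hcore
  refine hcore.trans (le_of_eq ?_)
  refine lintegral_congr fun ω => ?_
  rw [D.tau_base ω]

/-- moment bound at the levels used. -/
lemma moment [IsFiniteMeasure P] (hκ : 0 < κ) {ε l t cS Cq : ℝ} (hε0 : 0 < ε)
    (hε1 : ε < 1) (hl : s₀ ≤ l) (hcS : 0 < cS) (hCq : 0 ≤ Cq)
    (hb : 0 ≤ 8 / κ - 1)
    (hS0 : ∀ ω, cS ≤ sinq (D.st 0 ω)) (hlc : l = s₀ ∨ s₀ + 1 ≤ l)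
    (hU2 : ∀ s, s₀ ≤ s → ∫⁻ ω in D.alive (s + 1), ENNReal.ofReal
        (Gq κ (D.st (D.tau (s + 1) ω) ω) *
          sinq (D.st (D.tau (s + 1) ω) ω) ^ (-((8 / κ - 1) * ε))) ∂P ≤
      ENNReal.ofReal Cq * ∫⁻ ω in D.alive s, ENNReal.ofReal (Gq κ (D.st (D.tau s ω) ω)) ∂P) :
    ENNReal.ofReal (Real.exp ((1 - κ / 8) * t)) ^ ε * ∫⁻ ω, gw D l ω ^ (1 - ε) ∂P ≤
      ENNReal.ofReal (Real.exp (ε * (1 - κ / 8) * (t - l)) *
        (Cq + cS ^ (-((8 / κ - 1) * ε)))) * ∫⁻ ω, ENNReal.ofReal (Gq κ (D.st 0 ω)) ∂P := by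
  have hml := D.measurableSet_alive l
  have hfin : ENNReal.ofReal (Real.exp ((1 - κ / 8) * t)) ^ ε ≠ ⊤ :=
    ENNReal.rpow_ne_top_of_nonneg hε0.le ENNReal.ofReal_ne_top
  rw [← lintegral_const_mul' _ _ hfin]
  simp_rw [gw_rpow D hε0 hε1 hl]
  rw [lintegral_indicator hml, lintegral_const_mul' _ _ ENNReal.ofReal_ne_top,
    ENNReal.ofReal_mul (Real.exp_pos _).le,
    mul_assoc (ENNReal.ofReal (Real.exp (ε * (1 - κ / 8) * (t - l))))]
  refine mul_le_mul' le_rfl ?_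
  rcases hlc with h | h
  · -- `l = s₀`
    subst h
    rw [D.alive_base, Measure.restrict_univ, ← lintegral_const_mul' _ _ ENNReal.ofReal_ne_top]
    refine lintegral_mono fun ω => ?_
    rw [D.tau_base ω]
    have hG0 : 0 < Gq κ (D.st 0 ω) := SUPG.Gq_pos (D.y_pos ω _ (D.al_zero ω))
    have hS := hcS.trans_le (hS0 ω)
    rw [← ENNReal.ofReal_mul (by positivity)]
    refine ENNReal.ofReal_le_ofReal ?_
    have h1 : sinq (D.st 0 ω) ^ (-((8 / κ - 1) * ε)) ≤ cS ^ (-((8 / κ - 1) * ε)) := by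
      refine Real.rpow_le_rpow_of_nonpos hcS (hS0 ω) ?_
      have := mul_nonneg hb hε0.le
      linarith
    nlinarith [mul_nonneg hCq hG0.le, mul_le_mul_of_nonneg_left h1 hG0.le]
  · -- `l ≥ s₀ + 1`
    have h2 := hU2 (l - 1) (by linarith)
    rw [show l - 1 + 1 = l by ring] at h2
    refine h2.trans ?_
    calc ENNReal.ofReal Cq * ∫⁻ ω in D.alive (l - 1),
          ENNReal.ofReal (Gq κ (D.st (D.tau (l - 1) ω) ω)) ∂P
        ≤ ENNReal.ofReal Cq * ∫⁻ ω, ENNReal.ofReal (Gq κ (D.st 0 ω)) ∂P :=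
          mul_le_mul_right (gw_total D hκ (by linarith)) _
      _ ≤ _ := by
          gcongr
          have : 0 ≤ cS ^ (-((8 / κ - 1) * ε)) := Real.rpow_nonneg hcS.le _
          linarith

end Crest.Agent.R162.LB7
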