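import Mathlib
import Crest.Agent.R162.LB7m
import Crest.Agent.R162.LBDefs

/-!
Row 162, node LB7b: `∫_{σ<∞, Λ_σ > C'N} G_σ(w₀) ≤ C e^{-2N} G_0(w₀)`, from OP1, U2 and LB7a.
-/

set_option autoImplicit false

open MeasureTheory ProbabilityTheory Filter Set
open scoped NNReal ENNReal Topology

namespace Crest.Agent.R162.LB7

open Crest.Agent.R162.OS Crest.Agent.R162.Rad Crest.Agent.R162.OP Crest.Agent.R162.FL
open Crest.ProbabilityR.Loewner

universe u

/-- OP1 (149). -/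
def OP1Stmt (κ : ℝ) : Prop :=
  ∀ c0 : ℝ, 0 < c0 → ∃ C lam : ℝ, 0 < C ∧ 0 < lam ∧
    ∀ {Ω : Type u} {m : MeasurableSpace Ω} {P : Measure Ω} [IsProbabilityMeasure P]
    {Fl : Filtration ℝ≥0 m} {B : ℝ≥0 → Ω → ℝ} (_ : IsBM Fl B P) {w : ℂ} (_ : 0 < w.im)
    {σ : Ω → ℝ≥0} (_ : IsST Fl σ) {A : Set Ω} (_ : EvST Fl σ A) (a : ℝ),
    P.real {ω | ω ∈ A ∧ ∃ t : ℝ≥0, σ ω ≤ t ∧ AliveP κ B w t ω ∧ c0 ≤ sfl (driving κ B ω) t w ∧
      a ≤ ath (driving κ B ω) t w - ath (driving κ B ω) (σ ω) w} ≤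
      C * Real.exp (-(lam * a)) * P.real A

section

variable {Ω : Type u} {m : MeasurableSpace Ω} {P : Measure Ω} [IsProbabilityMeasure P]
  {Fl : Filtration ℝ≥0 m} {B : ℝ≥0 → Ω → ℝ} {κ s₀ : ℝ}

/-- OP1 from a radial level of `w₀` (uncapped). -/
lemma op1_past {c0 C lam : ℝ} (hC : 0 < C) {w : ℂ}
    (h : ∀ {σ : Ω → ℝ≥0} (_ : IsST Fl σ) {A : Set Ω} (_ : EvST Fl σ A) (a : ℝ),
    P.real {ω | ω ∈ A ∧ ∃ t : ℝ≥0, σ ω ≤ t ∧ AliveP κ B w t ω ∧ c0 ≤ sfl (driving κ B ω) t w ∧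
      a ≤ ath (driving κ B ω) t w - ath (driving κ B ω) (σ ω) w} ≤
      C * Real.exp (-(lam * a)) * P.real A)
    (D : OneP Fl P (gen κ) s₀) {s : ℝ} {A : Set Ω} (hA : D.Past s A) (a : ℝ) :
    P {ω | ω ∈ A ∧ ∃ t : ℝ≥0, D.tau s ω ≤ t ∧ AliveP κ B w t ω ∧
      c0 ≤ sfl (driving κ B ω) t w ∧
      a ≤ ath (driving κ B ω) t w - ath (driving κ B ω) (D.tau s ω) w} ≤
      ENNReal.ofReal (C * Real.exp (-(lam * a))) * P A := by
  refine D.measure_le_of_cap (s := s) fun n => ?_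
  have h1 := h (D.kap_ST s n) (D.kap_EvST (T := n) hA) a
  have hset : {ω | ω ∈ A ∧ ∃ t : ℝ≥0, D.tau s ω ≤ t ∧ AliveP κ B w t ω ∧
      c0 ≤ sfl (driving κ B ω) t w ∧
      a ≤ ath (driving κ B ω) t w - ath (driving κ B ω) (D.tau s ω) w} ∩
      {ω | D.tau s ω ≤ (n : ℝ≥0)} =
      {ω | ω ∈ A ∩ {ω | D.tau s ω ≤ (n : ℝ≥0)} ∧ ∃ t : ℝ≥0, D.kap s n ω ≤ t ∧ AliveP κ B w t ω ∧
      c0 ≤ sfl (driving κ B ω) t w ∧
      a ≤ ath (driving κ B ω) t w - ath (driving κ B ω) (D.kap s n ω) w} := by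
    ext ω
    simp only [mem_inter_iff, mem_ofPred_eq]
    constructor
    · rintro ⟨⟨h1, h2⟩, h3⟩
      rw [D.kap_eq (hA.1 h1) h3]
      exact ⟨⟨h1, h3⟩, h2⟩
    · rintro ⟨⟨h1, h3⟩, h2⟩
      rw [D.kap_eq (hA.1 h1) h3] at h2
      exact ⟨⟨h1, h2⟩, h3⟩
  rw [hset]
  rw [← ENNReal.ofReal_toReal (measure_ne_top P (A ∩ {ω | D.tau s ω ≤ (n : ℝ≥0)})),
    ← ENNReal.ofReal_mul (by positivity), ← ENNReal.ofReal_toReal (measure_ne_top P _)]
  exact ENNReal.ofReal_le_ofReal h1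

end

/-- LB7a (470), for a family of grids. -/
def LB7aStmt (grid : ℂ → ℝ → ℕ → Finset ℂ) (q η CA K9 K : ℝ) : Prop :=
  ∃ C' : ℝ, 0 < C' ∧ ∀ (W : ℝ → ℝ) (w0 : ℂ) (R N σ : ℝ) (s : ℕ → ℝ) (u0 : ℂ → ℝ),
    ContinuousOn W (Ici 0) → 1 ≤ R → 1 ≤ N → Real.log R ≤ N → Alive W w0 σ →
    ups W σ w0 ≤ K9 * R → (∀ p, max 1 (‖p - w0‖ - R) ≤ u0 p) →
    (∀ j : ℕ, 0 ≤ s j ∧ s j ≤ σ ∧
      ((s j = 0 ∧ w0.im ≤ K * (4 * R * 2 ^ j)) ∨ K * (4 * R * 2 ^ j) ≤ ups W (s j) w0)) →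
    (∀ j m : ℕ, ∀ p ∈ grid w0 (4 * R * 2 ^ j) m, Alive W p σ → 1 / 3 ≤ sfl W σ p →
      ath W σ p - ath W (s j) p ≤ CA * (N + j + m)) →
    LB.Lam u0 q η (ffl W σ) ≤ ENNReal.ofReal (C' * N)

/-- U2 (953), for the Loewner one-point process. -/
def U2Stmt {κ : ℝ} (hM : OPM.{u}) (hκ : 0 < κ) : Prop :=
  ∀ q' : ℝ, 0 < q' → q' < 8 / κ - 1 → q' ≤ 2 → ∃ Cq : ℝ, 0 ≤ Cq ∧
    ∀ {Ω : Type u} {m : MeasurableSpace Ω} {P : Measure Ω} [IsProbabilityMeasure P]
    {Fl : Filtration ℝ≥0 m} {B : ℝ≥0 → Ω → ℝ} (hB : IsBM Fl B P) {w : ℂ} (hw : 0 < w.im)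
    (s : ℝ), -Real.log w.im ≤ s →
    ∫⁻ ω in (oneP hM hB hκ hw).alive (s + 1), ENNReal.ofReal
        (Gq κ (stP κ B w ((oneP hM hB hκ hw).tau (s + 1) ω) ω) *
          sinq (stP κ B w ((oneP hM hB hκ hw).tau (s + 1) ω) ω) ^ (-q')) ∂P ≤
      ENNReal.ofReal Cq * ∫⁻ ω in (oneP hM hB hκ hw).alive s,
        ENNReal.ofReal (Gq κ (stP κ B w ((oneP hM hB hκ hw).tau s ω) ω)) ∂P

/-- **LB7b.** -/
theorem lb7b {κ : ℝ} (hκ : 0 < κ) (hκ8 : κ < 8) (hM : OPM.{u}) (hop1 : OP1Stmt.{u} κ)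
    (hU2 : U2Stmt.{u} hM hκ) (grid : ℂ → ℝ → ℕ → Finset ℂ) {Cg : ℝ} (hCg : 0 ≤ Cg)
    (hcard : ∀ (w : ℂ) (ρ : ℝ) (m : ℕ), ((grid w ρ m).card : ℝ) ≤ Cg * Real.exp (2 * m))
    (hlb7a : ∀ {q η CA K9 K : ℝ}, 0 < q → 0 < η → 0 ≤ CA → 0 ≤ K9 → 4 ≤ K →
      LB7aStmt grid q η CA K9 K)
    {q η K9 cS : ℝ} (hq : 0 < q) (hη : 0 < η) (hK9 : 0 < K9) (hcS : 0 < cS) :
    ∃ C' C : ℝ, 0 < C' ∧ 0 < C ∧
      ∀ {Ω : Type u} {m : MeasurableSpace Ω} {P : Measure Ω} [IsProbabilityMeasure P]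
      {Fl : Filtration ℝ≥0 m} {B : ℝ≥0 → Ω → ℝ} (hB : IsBM Fl B P) {w0 : ℂ} (hw : 0 < w0.im)
      (R N : ℝ) (u0 : ℂ → ℝ), 1 ≤ R → 1 ≤ N → Real.log R ≤ N → K9 * R ≤ w0.im →
      cS * ‖w0‖ ≤ w0.im → (∀ p, max 1 (‖p - w0‖ - R) ≤ u0 p) →
      ∫⁻ ω in {ω | ω ∈ (oneP hM hB hκ hw).alive (-Real.log (K9 * R)) ∧
          ENNReal.ofReal (C' * N) < LB.Lam u0 q η (ffl (driving κ B ω)
            ((oneP hM hB hκ hw).tau (-Real.log (K9 * R)) ω))},
        gw (oneP hM hB hκ hw) (-Real.log (K9 * R)) ω ∂P ≤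
        ENNReal.ofReal (C * Real.exp (-2 * N)) * ENNReal.ofReal (UB.green κ w0) := by
  have hb : 0 < 8 / κ - 1 := by rw [sub_pos, lt_div_iff₀ hκ]; linarith
  set b : ℝ := 8 / κ - 1 with hbdef
  set ε : ℝ := min (1 / 2) (1 / b) with hεdef
  have hε0 : 0 < ε := lt_min (by norm_num) (by positivity)
  have hε2 : ε ≤ 1 / 2 := min_le_left _ _
  have hε1 : ε < 1 := by linarith
  have hbε : b * ε ≤ 1 := by
    have : ε ≤ 1 / b := min_le_right _ _
    calc b * ε ≤ b * (1 / b) := by gcongr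
      _ = 1 := by field_simp
  obtain ⟨Cq, hCq, hU⟩ := hU2 (b * ε) (by positivity) (by nlinarith) (by linarith)
  obtain ⟨C1, lam, hC1, hlam, hO⟩ := hop1 (1 / 3) (by norm_num)
  set CA : ℝ := 3 / (ε * lam) with hCAdef
  have hCA0 : 0 < CA := by positivity
  have hCA : 3 ≤ ε * lam * CA := by
    rw [hCAdef]; field_simp; exact le_rfl
  set K : ℝ := max 4 K9 with hKdef
  have hK4 : 4 ≤ K := le_max_left _ _
  have hK9K : K9 ≤ K := le_max_right _ _
  obtain ⟨C', hC', h7a⟩ := hlb7a (q := q) (η := η) (CA := CA) (K9 := K9) (K := K) hq hη hCA0.le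
    hK9.le hK4
  set K2 : ℝ := 4 * Real.exp 1 * K / K9 * (Cq + cS ^ (-(b * ε))) with hK2def
  have hcSr : 0 < cS ^ (-(b * ε)) := Real.rpow_pos_of_pos hcS _
  have hK2 : 0 < K2 := by positivity
  refine ⟨C', 4 * (Cg * C1) ^ ε * K2 + 1, hC', by positivity, ?_⟩
  intro Ω m P _ Fl B hB w0 hw R N u0 hR hN hRN hRw hSw hu0
  set D := oneP hM hB hκ hw with hD
  set sσ : ℝ := -Real.log (K9 * R) with hsσ
  have hK9R : 0 < K9 * R := by positivity
  -- the levels
  set rj : ℕ → ℝ := fun j => K * (4 * R * 2 ^ j) with hrj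
  have hrj0 : ∀ j, 0 < rj j := fun j => by simp only [hrj]; positivity
  set lv : ℕ → ℝ := fun j =>
    if w0.im ≤ Real.exp 1 * rj j then -Real.log w0.im else -Real.log (rj j) with hlv
  have hlv0 : ∀ j, -Real.log w0.im ≤ lv j := by
    intro j
    simp only [hlv]
    split_ifs with h
    · exact le_rfl
    · push Not at h
      have h2 : rj j ≤ w0.im := by
        have : 1 ≤ Real.exp 1 := Real.one_le_exp (by norm_num)
        have := hrj0 j
        nlinarith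
      exact neg_le_neg (Real.log_le_log (hrj0 j) h2)
  have hlvσ : ∀ j, lv j ≤ sσ := by
    intro j
    simp only [hlv, hsσ]
    have h2 : K9 * R ≤ rj j := by
      simp only [hrj]
      have h2j : (1 : ℝ) ≤ 2 ^ j := one_le_pow₀ (by norm_num)
      have : K9 * R ≤ K * R := by gcongr
      have h3 : K * R ≤ K * (4 * R * 2 ^ j) := by
        have : R ≤ 4 * R * 2 ^ j := by nlinarith
        gcongr
      linarith
    split_ifs with h
    · exact neg_le_neg (Real.log_le_log hK9R hRw)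
    · exact neg_le_neg (Real.log_le_log hK9R h2)
  have hlvc : ∀ j, lv j = -Real.log w0.im ∨ -Real.log w0.im + 1 ≤ lv j := by
    intro j
    simp only [hlv]
    split_ifs with h
    · exact Or.inl rfl
    · right
      push Not at h
      have h2 := Real.log_le_log (mul_pos (Real.exp_pos 1) (hrj0 j)) h.le
      rw [Real.log_mul (Real.exp_pos 1).ne' (hrj0 j).ne', Real.log_exp] at h2
      linarith
  have hlvX : ∀ j, sσ - lv j ≤ Real.log (4 * Real.exp 1 * K / K9 * 2 ^ j) := by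
    intro j
    have e1 : 4 * Real.exp 1 * K / K9 * 2 ^ j = Real.exp 1 * rj j / (K9 * R) := by
      simp only [hrj]; field_simp
    rw [e1, Real.log_div (mul_pos (Real.exp_pos 1) (hrj0 j)).ne' hK9R.ne']
    simp only [hlv, hsσ]
    split_ifs with h
    · have := Real.log_le_log hw h
      linarith
    · have : Real.log (rj j) ≤ Real.log (Real.exp 1 * rj j) := by
        apply Real.log_le_log (hrj0 j)
        have : 1 ≤ Real.exp 1 := Real.one_le_exp (by norm_num)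
        have := hrj0 j
        nlinarith
      linarith
  -- the bad events
  set Ev : ℕ → ℕ → Set Ω := fun j n => {ω | ω ∈ D.alive sσ ∧ ∃ p ∈ grid w0 (4 * R * 2 ^ j) n,
    Alive (driving κ B ω) p (D.tau sσ ω) ∧ 1 / 3 ≤ sfl (driving κ B ω) (D.tau sσ ω) p ∧
    CA * (N + j + n) < ath (driving κ B ω) (D.tau sσ ω) p -
      ath (driving κ B ω) (D.tau (lv j) ω) p} with hEv
  -- inclusion
  have hincl : {ω | ω ∈ D.alive sσ ∧ ENNReal.ofReal (C' * N) <
      LB.Lam u0 q η (ffl (driving κ B ω) (D.tau sσ ω))} ⊆ ⋃ jm : ℕ × ℕ, Ev jm.1 jm.2 := by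
    rintro ω ⟨hal, hL⟩
    by_contra hcon
    simp only [mem_iUnion, not_exists] at hcon
    have hτ := D.tau_mem hal
    refine absurd hL (not_lt.2 ?_)
    refine h7a (driving κ B ω) w0 R N (D.tau sσ ω) (fun j => (D.tau (lv j) ω : ℝ)) u0
      (driving_cont hB κ ω).continuousOn hR hN hRN hτ.1 ?_ hu0 ?_ ?_
    · have h1 : Real.log (ups (driving κ B ω) (D.tau sσ ω) w0) ≤ -sσ := hτ.2
      have h2 : 0 < ups (driving κ B ω) (D.tau sσ ω) w0 := ups_pos hτ.1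
      rw [hsσ, neg_neg] at h1
      exact (Real.log_le_log_iff h2 hK9R).1 h1
    · intro j
      refine ⟨NNReal.coe_nonneg _, by exact_mod_cast D.tau_mono (hlvσ j) hal, ?_⟩
      by_cases h : w0.im ≤ Real.exp 1 * rj j
      · have hl : lv j = -Real.log w0.im := by simp only [hlv]; rw [if_pos h]
        have ht0 : D.tau (lv j) ω = 0 := by rw [hl]; exact D.tau_base ω
        by_cases h2 : w0.im ≤ K * (4 * R * 2 ^ j)
        · left
          exact ⟨by rw [ht0]; simp, h2⟩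
        · right
          push Not at h2
          rw [ht0, NNReal.coe_zero, ups_zero hw]
          exact h2.le
      · have hl : lv j = -Real.log (rj j) := by simp only [hlv]; rw [if_neg h]
        right
        have hal' := D.alive_anti (hlvσ j) hal
        have h1 : Real.log (ups (driving κ B ω) (D.tau (lv j) ω) w0) = -lv j :=
          D.L_tau (hlv0 j) hal'
        have h2 : 0 < ups (driving κ B ω) (D.tau (lv j) ω) w0 := ups_pos (D.tau_mem hal').1
        rw [hl, neg_neg, ← hl] at h1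
        have h3 : ups (driving κ B ω) (D.tau (lv j) ω) w0 = rj j :=
          Real.log_injOn_pos h2 (hrj0 j) h1
        rw [h3]
    · intro j n p hp hpal hps
      by_contra hlt
      push Not at hlt
      exact hcon (j, n) ⟨hal, p, hp, hpal, hps, hlt⟩
  -- the union bound
  have hg0 : ∫⁻ ω, ENNReal.ofReal (Gq κ (D.st 0 ω)) ∂P = ENNReal.ofReal (UB.green κ w0) := by
    have : ∀ ω, Gq κ (D.st 0 ω) = UB.green κ w0 := by
      intro ω
      have : D.st 0 ω = stW (driving κ B ω) 0 w0 := rfl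
      rw [this]
      exact SUPG.Gq_stW_zero (driving_zero hB κ ω) hw
    simp_rw [this]
    simp
  have hub := union_bound (P := P) (gs := gw D sσ) (gj := fun j => gw D (lv j)) (E := Ev)
    (gmax := ENNReal.ofReal (Real.exp ((1 - κ / 8) * sσ))) (g0 := ENNReal.ofReal (UB.green κ w0))
    (ε := ε) (lam := lam) (CA := CA) (N := N) (K1 := Cg * C1) (K2 := K2) hε0 hε1 hlam hCA
    (by linarith) (by positivity) ENNReal.ofReal_ne_top
    (fun ω => gw_le D hκ hκ8 ((hlv0 0).trans (hlvσ 0)) ω) (fun j => measurable_gw D _)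
    (fun j c => gw_super D hκ (hlv0 j) (hlvσ j) c) ?_ ?_ hK2.le
  · refine (lintegral_mono_set hincl).trans (hub.trans ?_)
    gcongr
    linarith
  · -- OP1 over the grid
    intro j n c
    set A : Set Ω := {ω | gw D (lv j) ω ≤ c}ᶜ with hA
    have hPast : D.Past (lv j) A := past_gw D (lv j) c
    set S : ℂ → Set Ω := fun p => {ω | ω ∈ A ∧ ∃ t : ℝ≥0, D.tau (lv j) ω ≤ t ∧
      AliveP κ B p t ω ∧ 1 / 3 ≤ sfl (driving κ B ω) t p ∧
      CA * (N + j + n) ≤ ath (driving κ B ω) t p - ath (driving κ B ω) (D.tau (lv j) ω) p} with hS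
    have hsub : Ev j n ∩ A ⊆ ⋃ p ∈ grid w0 (4 * R * 2 ^ j) n, S p := by
      rintro ω ⟨⟨hal, p, hp, h1, h2, h3⟩, hωA⟩
      simp only [mem_iUnion]
      exact ⟨p, hp, hωA, D.tau sσ ω, D.tau_mono (hlvσ j) hal, h1, h2, h3.le⟩
    have hSp : ∀ p, P (S p) ≤ ENNReal.ofReal (C1 * Real.exp (-(lam * (CA * (N + j + n))))) * P A := by
      intro p
      by_cases hp : 0 < p.im
      · exact op1_past hC1 (fun hσ _ hA' a => hO hB hp hσ hA' a) D hPast _
      · have : S p = ∅ := by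
          rw [eq_empty_iff_forall_notMem]
          rintro ω ⟨_, t, _, h1, _⟩
          exact hp (FL.Alive.im_pos h1)
        rw [this]; simp
    calc P (Ev j n ∩ A) ≤ P (⋃ p ∈ grid w0 (4 * R * 2 ^ j) n, S p) := measure_mono hsub
      _ ≤ ∑ p ∈ grid w0 (4 * R * 2 ^ j) n, P (S p) := measure_biUnion_finset_le _ _
      _ ≤ ∑ _p ∈ grid w0 (4 * R * 2 ^ j) n,
          ENNReal.ofReal (C1 * Real.exp (-(lam * (CA * (N + j + n))))) * P A :=
          Finset.sum_le_sum fun p _ => hSp p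
      _ = ((grid w0 (4 * R * 2 ^ j) n).card : ℝ≥0∞) *
          (ENNReal.ofReal (C1 * Real.exp (-(lam * (CA * (N + j + n))))) * P A) := by
          rw [Finset.sum_const, nsmul_eq_mul]
      _ ≤ ENNReal.ofReal (Cg * Real.exp (2 * n)) *
          (ENNReal.ofReal (C1 * Real.exp (-(lam * (CA * (N + j + n))))) * P A) := by
          gcongr
          rw [← ENNReal.ofReal_natCast]
          exact ENNReal.ofReal_le_ofReal (hcard _ _ _)
      _ = _ := by
          rw [← mul_assoc, ← ENNReal.ofReal_mul (by positivity)]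
          congr 2
          rw [show lam * (CA * (N + j + n)) = lam * CA * (N + j + n) by ring]
          ring
  · -- moments
    intro j
    have hmom := moment (P := P) D hκ (ε := ε) (l := lv j) (t := sσ) (cS := cS) (Cq := Cq) hε0 hε1
      (hlv0 j) hcS hCq hb.le ?_ (hlvc j) (fun s hs => hU hB hw s hs)
    · rw [hg0] at hmom
      refine hmom.trans (mul_le_mul' (ENNReal.ofReal_le_ofReal ?_) le_rfl)
      have hθ0 : 0 ≤ ε * (1 - κ / 8) := mul_nonneg hε0.le (by linarith)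
      have hθ1 : ε * (1 - κ / 8) ≤ 1 := by nlinarith
      set X : ℝ := 4 * Real.exp 1 * K / K9 * 2 ^ j with hX
      have hX1 : 1 ≤ X := by
        have h2j : (1 : ℝ) ≤ 2 ^ j := one_le_pow₀ (by norm_num)
        have he : 1 ≤ Real.exp 1 := Real.one_le_exp (by norm_num)
        have h1 : 1 ≤ K / K9 := by rw [le_div_iff₀ hK9]; linarith
        have h2 : 4 * Real.exp 1 * K / K9 = (4 * Real.exp 1) * (K / K9) := by ring
        have h3 : 1 ≤ 4 * Real.exp 1 * K / K9 := by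
          rw [h2]; exact one_le_mul_of_one_le_of_one_le (by linarith) h1
        exact one_le_mul_of_one_le_of_one_le h3 h2j
      have hlogX : 0 ≤ Real.log X := Real.log_nonneg hX1
      have hexp : Real.exp (ε * (1 - κ / 8) * (sσ - lv j)) ≤ X := by
        calc Real.exp (ε * (1 - κ / 8) * (sσ - lv j)) ≤ Real.exp (Real.log X) := by
              refine Real.exp_le_exp.2 ?_
              calc ε * (1 - κ / 8) * (sσ - lv j) ≤ ε * (1 - κ / 8) * Real.log X := by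
                    gcongr; exact hlvX j
                _ ≤ 1 * Real.log X := by gcongr
                _ = Real.log X := one_mul _
          _ = X := Real.exp_log (by linarith)
      calc Real.exp (ε * (1 - κ / 8) * (sσ - lv j)) * (Cq + cS ^ (-(b * ε)))
          ≤ X * (Cq + cS ^ (-(b * ε))) := by gcongr
        _ = K2 * 2 ^ j := by rw [hX, hK2def]; ring
    · intro ω
      have : D.st 0 ω = stW (driving κ B ω) 0 w0 := rfl
      rw [this, SUPG.sinq_stW]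
      unfold sfl
      have h0 : Zfl (driving κ B ω) 0 w0 = w0 := by
        simp [Zfl, gfl_zero hw, driving_zero hB κ ω]
      rw [h0, le_div_iff₀ (norm_pos_iff.2 (by rintro rfl; simp at hw))]
      exact hSw

end Crest.Agent.R162.LB7
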