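import Mathlib
import Crest.Agent.R162.OPTr

/-!
Row 162, node OPM (helper443 for helper9): the truncated drift `cf δ` is bounded and Lipschitz.
-/

set_option autoImplicit false

open Set
open scoped NNReal ENNReal Topology

namespace Crest.Agent.R162.OPTr

variable {δ : ℝ}

/-- the complex number `2 / (X + i max(Y, δ))` -/
noncomputable def zt (δ : ℝ) (q : ℝ × ℝ × ℝ × ℝ) : ℂ := 2 / (⟨q.1, mh δ q⟩ : ℂ)

lemma mh_pos (hδ : 0 < δ) (q : ℝ × ℝ × ℝ × ℝ) : 0 < mh δ q := lt_max_of_lt_right hδ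

lemma zt_re (q : ℝ × ℝ × ℝ × ℝ) : (zt δ q).re = 2 * q.1 / (q.1 ^ 2 + mh δ q ^ 2) := by
  have h : ∀ x y : ℝ, (2 / (⟨x, y⟩ : ℂ)).re = 2 * x / (x ^ 2 + y ^ 2) := by
    intro x y
    rw [Complex.div_re]
    simp only [Complex.re_ofNat, Complex.im_ofNat, Complex.normSq_mk, zero_mul, zero_div, add_zero]
    ring_nf
  exact h _ _

lemma zt_im (q : ℝ × ℝ × ℝ × ℝ) : (zt δ q).im = -(2 * mh δ q / (q.1 ^ 2 + mh δ q ^ 2)) := by
  have h : ∀ x y : ℝ, (2 / (⟨x, y⟩ : ℂ)).im = -(2 * y / (x ^ 2 + y ^ 2)) := by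
    intro x y
    rw [Complex.div_im]
    simp only [Complex.re_ofNat, Complex.im_ofNat, Complex.normSq_mk, zero_mul, zero_div, zero_sub]
    ring_nf
  exact h _ _

lemma cf_eq (hδ : 0 < δ) (q : ℝ × ℝ × ℝ × ℝ) :
    cf δ q = ((zt δ q).re, (zt δ q).im, -(zt δ q).im ^ 2,
      ((zt δ q).re ^ 2 + (zt δ q).im ^ 2) / 4) := by
  have hm := mh_pos hδ q
  have hD : 0 < q.1 ^ 2 + mh δ q ^ 2 := by positivity
  rw [zt_re, zt_im]
  unfold cf
  refine Prod.ext rfl (Prod.ext rfl (Prod.ext ?_ ?_))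
  · show -(4 * mh δ q ^ 2 / (q.1 ^ 2 + mh δ q ^ 2) ^ 2) = _
    show _ = -(-(2 * mh δ q / (q.1 ^ 2 + mh δ q ^ 2))) ^ 2
    field_simp
    ring
  · show 1 / (q.1 ^ 2 + mh δ q ^ 2) = _
    show _ = ((2 * q.1 / (q.1 ^ 2 + mh δ q ^ 2)) ^ 2
      + (-(2 * mh δ q / (q.1 ^ 2 + mh δ q ^ 2))) ^ 2) / 4
    field_simp
    ring

lemma le_norm_den (hδ : 0 < δ) (q : ℝ × ℝ × ℝ × ℝ) : δ ≤ ‖(⟨q.1, mh δ q⟩ : ℂ)‖ := by
  have h1 : mh δ q ≤ ‖(⟨q.1, mh δ q⟩ : ℂ)‖ := by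
    have := Complex.abs_im_le_norm (⟨q.1, mh δ q⟩ : ℂ)
    exact (le_abs_self _).trans this
  exact (le_max_right _ _).trans h1

lemma zt_norm (hδ : 0 < δ) (q : ℝ × ℝ × ℝ × ℝ) : ‖zt δ q‖ ≤ 2 / δ := by
  unfold zt
  rw [norm_div]
  have h2 : ‖(2:ℂ)‖ = 2 := by norm_num
  rw [h2]
  exact div_le_div_of_nonneg_left (by norm_num) hδ (le_norm_den hδ q)

lemma zt_lip (hδ : 0 < δ) (q q' : ℝ × ℝ × ℝ × ℝ) :
    ‖zt δ q - zt δ q'‖ ≤ 4 / δ ^ 2 * ‖q - q'‖ := by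
  unfold zt
  refine (FL.lip_inv hδ (le_norm_den hδ q) (le_norm_den hδ q')).trans ?_
  have h1 : ‖(⟨q.1, mh δ q⟩ : ℂ) - (⟨q'.1, mh δ q'⟩ : ℂ)‖ ≤ |q.1 - q'.1| + |mh δ q - mh δ q'| := by
    have := Complex.norm_le_abs_re_add_abs_im ((⟨q.1, mh δ q⟩ : ℂ) - (⟨q'.1, mh δ q'⟩ : ℂ))
    simpa using this
  have h2 : |q.1 - q'.1| ≤ ‖q - q'‖ := by
    have := norm_fst_le (q - q')
    simpa [Real.norm_eq_abs] using this
  have h3 : |mh δ q - mh δ q'| ≤ ‖q - q'‖ := by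
    have h4 : |mh δ q - mh δ q'| ≤ |q.2.1 - q'.2.1| := abs_max_sub_max_le_abs _ _ _
    refine h4.trans ?_
    have h5 := norm_snd_le (q - q')
    have h6 := norm_fst_le (q - q').2
    have h7 : |q.2.1 - q'.2.1| = ‖(q - q').2.1‖ := by simp [Real.norm_eq_abs]
    rw [h7]
    exact h6.trans h5
  have h4 : (0:ℝ) < 2 / δ ^ 2 := by positivity
  calc 2 / δ ^ 2 * ‖(⟨q.1, mh δ q⟩ : ℂ) - (⟨q'.1, mh δ q'⟩ : ℂ)‖
      ≤ 2 / δ ^ 2 * (‖q - q'‖ + ‖q - q'‖) :=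
        mul_le_mul_of_nonneg_left (h1.trans (add_le_add h2 h3)) h4.le
    _ = 4 / δ ^ 2 * ‖q - q'‖ := by ring

/-- the truncated drift field is bounded and Lipschitz -/
theorem cf_lip (hδ : 0 < δ) : ∃ K : ℝ, 0 ≤ K ∧
    (∀ z z', ‖OPTr.cf δ z - OPTr.cf δ z'‖ ≤ K * ‖z - z'‖) ∧ ∀ z, ‖OPTr.cf δ z‖ ≤ K := by
  set R : ℝ := 2 / δ with hR
  set L : ℝ := 4 / δ ^ 2 with hL
  have hR0 : 0 < R := by positivity
  have hL0 : 0 < L := by positivity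
  have hRL : 0 < R * L := by positivity
  refine ⟨L + 2 * (R * L) + R + R ^ 2, by positivity, fun z z' => ?_, fun z => ?_⟩
  · rw [cf_eq hδ, cf_eq hδ]
    set a := zt δ z with ha
    set b := zt δ z' with hb
    set d := ‖z - z'‖ with hd
    have hd0 : 0 ≤ d := norm_nonneg _
    have hab : ‖a - b‖ ≤ L * d := zt_lip hδ z z'
    have hre : |a.re - b.re| ≤ L * d := by
      have := Complex.abs_re_le_norm (a - b); rw [Complex.sub_re] at this; exact this.trans hab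
    have him : |a.im - b.im| ≤ L * d := by
      have := Complex.abs_im_le_norm (a - b); rw [Complex.sub_im] at this; exact this.trans hab
    have hra : |a.re| ≤ R := (Complex.abs_re_le_norm a).trans (zt_norm hδ z)
    have hrb : |b.re| ≤ R := (Complex.abs_re_le_norm b).trans (zt_norm hδ z')
    have hia : |a.im| ≤ R := (Complex.abs_im_le_norm a).trans (zt_norm hδ z)
    have hib : |b.im| ≤ R := (Complex.abs_im_le_norm b).trans (zt_norm hδ z')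
    have hLd : 0 ≤ L * d := by positivity
    have key : ∀ x y : ℝ, |x| ≤ R → |y| ≤ R → |x - y| ≤ L * d →
        |x ^ 2 - y ^ 2| ≤ 2 * (R * L) * d := by
      intro x y hx hy hxy
      have h1 : x ^ 2 - y ^ 2 = (x + y) * (x - y) := by ring
      rw [h1, abs_mul]
      have h2 : |x + y| ≤ 2 * R := (abs_add_le x y).trans (by linarith)
      calc |x + y| * |x - y| ≤ (2 * R) * (L * d) :=
            mul_le_mul h2 hxy (abs_nonneg _) (by positivity)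
        _ = 2 * (R * L) * d := by ring
    have k1 := key _ _ hia hib him
    have k2 := key _ _ hra hrb hre
    have hRLd : 0 ≤ R * L * d := by positivity
    have hRd : 0 ≤ R * d := by positivity
    have hR2d : 0 ≤ R ^ 2 * d := by positivity
    simp only [Prod.mk_sub_mk]
    refine norm_prod_le_iff.2 ⟨?_, norm_prod_le_iff.2 ⟨?_, norm_prod_le_iff.2 ⟨?_, ?_⟩⟩⟩
    · show ‖a.re - b.re‖ ≤ _
      rw [Real.norm_eq_abs]; nlinarith
    · show ‖a.im - b.im‖ ≤ _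
      rw [Real.norm_eq_abs]; nlinarith
    · show ‖-a.im ^ 2 - -b.im ^ 2‖ ≤ _
      rw [Real.norm_eq_abs, show -a.im ^ 2 - -b.im ^ 2 = -(a.im ^ 2 - b.im ^ 2) by ring, abs_neg]
      nlinarith
    · show ‖(a.re ^ 2 + a.im ^ 2) / 4 - (b.re ^ 2 + b.im ^ 2) / 4‖ ≤ _
      rw [Real.norm_eq_abs, show (a.re ^ 2 + a.im ^ 2) / 4 - (b.re ^ 2 + b.im ^ 2) / 4
        = ((a.re ^ 2 - b.re ^ 2) + (a.im ^ 2 - b.im ^ 2)) / 4 by ring, abs_div]
      have h4 : |(4:ℝ)| = 4 := by norm_num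
      rw [h4]
      have h5 := abs_add_le (a.re ^ 2 - b.re ^ 2) (a.im ^ 2 - b.im ^ 2)
      rw [div_le_iff₀ (by norm_num)]
      nlinarith
  · rw [cf_eq hδ]
    set a := zt δ z with ha
    have hra : |a.re| ≤ R := (Complex.abs_re_le_norm a).trans (zt_norm hδ z)
    have hia : |a.im| ≤ R := (Complex.abs_im_le_norm a).trans (zt_norm hδ z)
    have h1 : a.re ^ 2 ≤ R ^ 2 := sq_le_sq' (by linarith [(abs_le.1 hra).1]) (abs_le.1 hra).2
    have h2 : a.im ^ 2 ≤ R ^ 2 := sq_le_sq' (by linarith [(abs_le.1 hia).1]) (abs_le.1 hia).2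
    have hR2 : 0 < R ^ 2 := by positivity
    refine norm_prod_le_iff.2 ⟨?_, norm_prod_le_iff.2 ⟨?_, norm_prod_le_iff.2 ⟨?_, ?_⟩⟩⟩
    · show ‖a.re‖ ≤ _
      rw [Real.norm_eq_abs]; nlinarith
    · show ‖a.im‖ ≤ _
      rw [Real.norm_eq_abs]; nlinarith
    · show ‖-a.im ^ 2‖ ≤ _
      rw [Real.norm_eq_abs, abs_neg, abs_of_nonneg (sq_nonneg _)]
      nlinarith
    · show ‖(a.re ^ 2 + a.im ^ 2) / 4‖ ≤ _
      rw [Real.norm_eq_abs, abs_of_nonneg (by positivity)]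
      nlinarith

end Crest.Agent.R162.OPTr
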