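import Mathlib
import Crest.Agent.R162.OSDefs

set_option autoImplicit false

/-!
Row 162, node OS (helper365): optional stopping in continuous time, raw filtration, index `ℝ≥0`,
everything in set-integral form.
-/

open MeasureTheory ProbabilityTheory Filter Topology
open scoped NNReal ENNReal

namespace Crest.Agent.R162.OS

variable {Ω : Type*} {m : MeasurableSpace Ω} {F : Filtration ℝ≥0 m} {P : Measure Ω}

lemma IsST.toStopping {τ : Ω → ℝ≥0} (h : IsST F τ) :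
    IsStoppingTime F (fun ω => ((τ ω : ℝ≥0) : WithTop ℝ≥0)) := by
  intro t
  have := h t
  simpa only [WithTop.coe_le_coe] using this

lemma IsST.const (c : ℝ≥0) : IsST F (fun _ : Ω => c) := by
  intro t
  by_cases h : c ≤ t
  · simp [h]
  · simp [h]

protected lemma IsST.min {σ τ : Ω → ℝ≥0} (hσ : IsST F σ) (hτ : IsST F τ) :
    IsST F (fun ω => min (σ ω) (τ ω)) := by
  intro t
  have : {ω | min (σ ω) (τ ω) ≤ t} = {ω | σ ω ≤ t} ∪ {ω | τ ω ≤ t} := by
    ext ω; simp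
  rw [this]
  exact (hσ t).union (hτ t)

protected lemma IsST.max {σ τ : Ω → ℝ≥0} (hσ : IsST F σ) (hτ : IsST F τ) :
    IsST F (fun ω => max (σ ω) (τ ω)) := by
  intro t
  have : {ω | max (σ ω) (τ ω) ≤ t} = {ω | σ ω ≤ t} ∩ {ω | τ ω ≤ t} := by
    ext ω; simp
  rw [this]
  exact (hσ t).inter (hτ t)

lemma IsST.measurableSet_lt {τ : Ω → ℝ≥0} (h : IsST F τ) (t : ℝ≥0) :
    MeasurableSet[F t] {ω | τ ω < t} := by
  have := h.toStopping.measurableSet_lt t
  simpa only [WithTop.coe_lt_coe] using this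

lemma IsST.measurable {τ : Ω → ℝ≥0} (h : IsST F τ) : Measurable τ := by
  refine measurable_of_Iic fun t => ?_
  exact F.le t _ (h t)

lemma IsST.add_const {τ : Ω → ℝ≥0} (h : IsST F τ) (c : ℝ≥0) :
    IsST F (fun ω => τ ω + c) := by
  intro t
  by_cases hc : c ≤ t
  · have : {ω | τ ω + c ≤ t} = {ω | τ ω ≤ t - c} := by
      ext ω
      simp only [Set.mem_ofPred_eq]
      exact (le_tsub_iff_right hc).symm
    rw [this]
    exact F.mono (tsub_le_self) _ (h (t - c))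
  · have : {ω | τ ω + c ≤ t} = ∅ := by
      ext ω
      simp only [Set.mem_ofPred_eq, Set.mem_empty_iff_false, iff_false, not_le]
      exact lt_of_lt_of_le (not_le.1 hc) (le_add_of_nonneg_left (zero_le))
    rw [this]
    exact @MeasurableSet.empty _ (F t)

lemma EvST.measurableSet {τ : Ω → ℝ≥0} {A : Set Ω} (h : EvST F τ A) : MeasurableSet A := by
  have : A = ⋃ n : ℕ, A ∩ {ω | τ ω ≤ n} := by
    ext ω
    simp only [Set.mem_iUnion, Set.mem_inter_iff, Set.mem_ofPred_eq]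
    constructor
    · intro hω
      obtain ⟨n, hn⟩ := exists_nat_ge (τ ω)
      exact ⟨n, hω, hn⟩
    · rintro ⟨n, hω, _⟩
      exact hω
  rw [this]
  exact MeasurableSet.iUnion fun n => F.le _ _ (h n)

lemma EvST.univ {τ : Ω → ℝ≥0} (hτ : IsST F τ) : EvST F τ Set.univ := by
  intro t
  rw [Set.univ_inter]
  exact hτ t

lemma EvST.inter {τ : Ω → ℝ≥0} {A B : Set Ω} (hA : EvST F τ A) (hB : EvST F τ B) :
    EvST F τ (A ∩ B) := by
  intro t
  have : A ∩ B ∩ {ω | τ ω ≤ t} = (A ∩ {ω | τ ω ≤ t}) ∩ (B ∩ {ω | τ ω ≤ t}) := by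
    ext ω; simp only [Set.mem_inter_iff, Set.mem_ofPred_eq]; tauto
  rw [this]
  exact (hA t).inter (hB t)

lemma EvST.compl {τ : Ω → ℝ≥0} {A : Set Ω} (hτ : IsST F τ) (hA : EvST F τ A) :
    EvST F τ Aᶜ := by
  intro t
  have : Aᶜ ∩ {ω | τ ω ≤ t} = {ω | τ ω ≤ t} \ (A ∩ {ω | τ ω ≤ t}) := by
    ext ω
    simp only [Set.mem_inter_iff, Set.mem_compl_iff, Set.mem_sdiff, Set.mem_ofPred_eq]
    tauto
  rw [this]
  exact (hτ t).diff (hA t)

lemma EvST.iUnion {ι : Type*} [Countable ι] {τ : Ω → ℝ≥0} {A : ι → Set Ω}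
    (hA : ∀ i, EvST F τ (A i)) : EvST F τ (⋃ i, A i) := by
  intro t
  rw [Set.iUnion_inter]
  exact MeasurableSet.iUnion fun i => hA i t

/-- monotonicity: the past of `σ` is contained in the past of `τ ≥ σ`. -/
lemma EvST.mono {σ τ : Ω → ℝ≥0} {A : Set Ω} (hτ : IsST F τ) (hle : ∀ ω, σ ω ≤ τ ω)
    (hA : EvST F σ A) : EvST F τ A := by
  intro t
  have : A ∩ {ω | τ ω ≤ t} = (A ∩ {ω | σ ω ≤ t}) ∩ {ω | τ ω ≤ t} := by
    ext ω
    simp only [Set.mem_inter_iff, Set.mem_ofPred_eq]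
    constructor
    · rintro ⟨h1, h2⟩
      exact ⟨⟨h1, (hle ω).trans h2⟩, h2⟩
    · rintro ⟨⟨h1, _⟩, h2⟩
      exact ⟨h1, h2⟩
  rw [this]
  exact (hA t).inter (hτ t)

lemma EvST.inter_lt {τ : Ω → ℝ≥0} {A : Set Ω} (hτ : IsST F τ) (hA : EvST F τ A) (t : ℝ≥0) :
    MeasurableSet[F t] (A ∩ {ω | τ ω < t}) := by
  have : A ∩ {ω | τ ω < t} = (A ∩ {ω | τ ω ≤ t}) ∩ {ω | τ ω < t} := by
    ext ω
    simp only [Set.mem_inter_iff, Set.mem_ofPred_eq]
    constructor
    · rintro ⟨h1, h2⟩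
      exact ⟨⟨h1, h2.le⟩, h2⟩
    · rintro ⟨⟨h1, _⟩, h2⟩
      exact ⟨h1, h2⟩
  rw [this]
  exact (hA t).inter (hτ.measurableSet_lt t)

/-- an event of `F s` is in the past of the constant time `s` -/
lemma EvST.of_const {s : ℝ≥0} {A : Set Ω} (hA : MeasurableSet[F s] A) :
    EvST F (fun _ => s) A := by
  intro t
  by_cases h : s ≤ t
  · simp only [h, Set.ofPred_true, Set.inter_univ]
    exact F.mono h _ hA
  · simp only [h, Set.ofPred_false, Set.inter_empty]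
    exact @MeasurableSet.empty _ (F t)

/-- comparison events of stopping times -/
lemma EvST.le_set {σ τ : Ω → ℝ≥0} (hσ : IsST F σ) (hτ : IsST F τ) :
    EvST F σ {ω | σ ω ≤ τ ω} := by
  intro t
  have h2 := (IsStoppingTime.measurableSet_le_stopping_time hσ.toStopping hτ.toStopping)
  have h3 := h2.2 t
  have e : {ω | σ ω ≤ τ ω} ∩ {ω | σ ω ≤ t} =
      {ω | ((σ ω : ℝ≥0) : WithTop ℝ≥0) ≤ ((τ ω : ℝ≥0) : WithTop ℝ≥0)} ∩
        {ω | ((σ ω : ℝ≥0) : WithTop ℝ≥0) ≤ (t : WithTop ℝ≥0)} := by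
    ext ω
    simp only [Set.mem_inter_iff, Set.mem_ofPred_eq, WithTop.coe_le_coe]
  rw [e]
  exact h3

/-! ### dyadic approximation from above -/

/-- dyadic approximation from above -/
noncomputable def up (n : ℕ) (x : ℝ≥0) : ℝ≥0 := ((⌊2 ^ n * x⌋₊ + 1 : ℕ) : ℝ≥0) / 2 ^ n

lemma lt_up (n : ℕ) (x : ℝ≥0) : x < up n x := by
  unfold up
  rw [lt_div_iff₀ (by positivity)]
  have := Nat.lt_floor_add_one (2 ^ n * x)
  push_cast
  rw [mul_comm]
  exact this

lemma up_le (n : ℕ) (x : ℝ≥0) : up n x ≤ x + 1 / 2 ^ n := by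
  unfold up
  have h : ((⌊2 ^ n * x⌋₊ : ℕ) : ℝ≥0) ≤ 2 ^ n * x := Nat.floor_le (by positivity)
  rw [div_le_iff₀ (by positivity)]
  push_cast
  rw [add_mul, one_div, inv_mul_cancel₀ (by positivity), mul_comm x]
  exact add_le_add_left h 1

lemma tendsto_up (x : ℝ≥0) : Tendsto (fun n => up n x) atTop (𝓝 x) := by
  have h1 : Tendsto (fun n : ℕ => x + 1 / (2 : ℝ≥0) ^ n) atTop (𝓝 (x + 0)) := by
    refine Tendsto.const_add x ?_
    have : Tendsto (fun n : ℕ => ((1 / 2 : ℝ≥0)) ^ n) atTop (𝓝 0) := by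
      exact NNReal.tendsto_pow_atTop_nhds_zero_of_lt_one (NNReal.half_lt_self one_ne_zero)
    refine this.congr fun n => ?_
    rw [one_div, one_div, inv_pow]
  rw [add_zero] at h1
  exact tendsto_of_tendsto_of_tendsto_of_le_of_le tendsto_const_nhds h1
    (fun n => (lt_up n x).le) (fun n => up_le n x)

lemma telesc (Y : ℕ → ℝ) (a b K : ℕ) (hab : a ≤ b) (hbK : b ≤ K) :
    ∑ k ∈ Finset.range K, (if a ≤ k ∧ k < b then Y (k + 1) - Y k else 0) = Y b - Y a := by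
  have h1 : ∑ k ∈ Finset.range K, (if a ≤ k ∧ k < b then Y (k + 1) - Y k else 0)
      = ∑ k ∈ Finset.Ico a b, (Y (k + 1) - Y k) := by
    rw [← Finset.sum_filter]
    congr 1
    ext k
    simp only [Finset.mem_filter, Finset.mem_range, Finset.mem_Ico]
    constructor
    · rintro ⟨_, h⟩; exact h
    · intro h; exact ⟨lt_of_lt_of_le h.2 hbK, h⟩
  rw [h1, Finset.sum_Ico_eq_sub _ hab, Finset.sum_range_sub, Finset.sum_range_sub]
  ring

lemma measurable_comp_up {M : ℝ≥0 → Ω → ℝ} (hM : ∀ t, Measurable (M t)) {τ : Ω → ℝ≥0}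
    (hτ : Measurable τ) (n : ℕ) : Measurable (fun ω => M (up n (τ ω)) ω) := by
  have h1 : Measurable (fun p : ℕ × Ω => M (((p.1 + 1 : ℕ) : ℝ≥0) / 2 ^ n) p.2) := by
    apply measurable_from_prod_countable_right
    intro k
    exact hM (((k + 1 : ℕ) : ℝ≥0) / 2 ^ n)
  have h2 : Measurable (fun ω => ((⌊2 ^ n * τ ω⌋₊, ω) : ℕ × Ω)) := by
    refine Measurable.prodMk ?_ measurable_id
    exact Nat.measurable_floor.comp (measurable_const.mul hτ)
  have h3 := h1.comp h2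
  simp only [Function.comp_def] at h3
  simp only [up]
  exact h3

/-! ### optional stopping -/

/-- the discrete step: comparison at the dyadic approximations -/
lemma super_up [IsFiniteMeasure P] {M : ℝ≥0 → Ω → ℝ} (hM : Supermartingale M F P)
    {σ τ : Ω → ℝ≥0} (hσ : IsST F σ) (hτ : IsST F τ) (hle : ∀ ω, σ ω ≤ τ ω) {T : ℝ≥0}
    (hT : ∀ ω, τ ω ≤ T) {A : Set Ω} (hA : EvST F σ A) (n : ℕ)
    (hi1 : Integrable (fun ω => M (up n (τ ω)) ω) P)
    (hi2 : Integrable (fun ω => M (up n (σ ω)) ω) P) :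
    ∫ ω in A, M (up n (τ ω)) ω ∂P ≤ ∫ ω in A, M (up n (σ ω)) ω ∂P := by
  set K : ℕ := ⌊2 ^ n * T⌋₊ + 1 with hK
  set q : ℕ → ℝ≥0 := fun k => ((k : ℕ) : ℝ≥0) / 2 ^ n with hq
  have hAm : MeasurableSet A := hA.measurableSet
  have hpos : (0 : ℝ≥0) < 2 ^ n := by positivity
  -- the events
  set S : ℕ → Set Ω := fun k => (A ∩ {ω | σ ω < q k}) ∩ {ω | q k ≤ τ ω} with hS
  have hSm : ∀ k, MeasurableSet[F (q k)] (S k) := by
    intro k
    refine (hA.inter_lt hσ (q k)).inter ?_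
    have : {ω | q k ≤ τ ω} = {ω | τ ω < q k}ᶜ := by
      ext ω; simp
    rw [this]
    exact (hτ.measurableSet_lt (q k)).compl
  have hkey : ∀ ω, ω ∈ A → M (up n (τ ω)) ω - M (up n (σ ω)) ω =
      ∑ k ∈ Finset.range K, (S k).indicator (fun ω => M (q (k + 1)) ω - M (q k) ω) ω := by
    intro ω hω
    have hab : ⌊2 ^ n * σ ω⌋₊ + 1 ≤ ⌊2 ^ n * τ ω⌋₊ + 1 := by
      have := Nat.floor_le_floor (mul_le_mul_right (hle ω) ((2 : ℝ≥0) ^ n))
      omega
    have hbK : ⌊2 ^ n * τ ω⌋₊ + 1 ≤ K := by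
      have := Nat.floor_le_floor (mul_le_mul_right (hT ω) ((2 : ℝ≥0) ^ n))
      omega
    have ht := telesc (fun k => M (q k) ω) _ _ K hab hbK
    have e1 : M (up n (τ ω)) ω - M (up n (σ ω)) ω =
        M (q (⌊2 ^ n * τ ω⌋₊ + 1)) ω - M (q (⌊2 ^ n * σ ω⌋₊ + 1)) ω := by
      simp only [hq, up]
    rw [e1, ← ht]
    refine Finset.sum_congr rfl fun k _ => ?_
    have hcond : (⌊2 ^ n * σ ω⌋₊ + 1 ≤ k ∧ k < ⌊2 ^ n * τ ω⌋₊ + 1) ↔ ω ∈ S k := by
      simp only [hS, Set.mem_inter_iff, Set.mem_ofPred_eq, hω, true_and, hq]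
      have a1 : ⌊2 ^ n * σ ω⌋₊ + 1 ≤ k ↔ σ ω < (k : ℝ≥0) / 2 ^ n := by
        rw [Nat.add_one_le_iff, Nat.floor_lt (by positivity), lt_div_iff₀ hpos, mul_comm]
      have a2 : k < ⌊2 ^ n * τ ω⌋₊ + 1 ↔ (k : ℝ≥0) / 2 ^ n ≤ τ ω := by
        rw [Nat.lt_add_one_iff, Nat.le_floor_iff (by positivity), div_le_iff₀ hpos, mul_comm]
      rw [a1, a2]
    by_cases hc : ω ∈ S k
    · rw [if_pos (hcond.2 hc), Set.indicator_of_mem hc]
    · rw [if_neg (fun h => hc (hcond.1 h)), Set.indicator_of_notMem hc]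
  have hint : ∀ k, Integrable (fun ω => M (q (k + 1)) ω - M (q k) ω) P := fun k =>
    (hM.integrable _).sub (hM.integrable _)
  have hSm' : ∀ k, MeasurableSet (S k) := fun k => F.le _ _ (hSm k)
  have h1 : ∫ ω in A, (M (up n (τ ω)) ω - M (up n (σ ω)) ω) ∂P =
      ∑ k ∈ Finset.range K, ∫ ω in S k, (M (q (k + 1)) ω - M (q k) ω) ∂P := by
    rw [setIntegral_congr_fun hAm (g := fun ω => ∑ k ∈ Finset.range K,
      (S k).indicator (fun ω => M (q (k + 1)) ω - M (q k) ω) ω) (fun ω hω => hkey ω hω)]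
    rw [integral_finsetSum _ (fun k _ => ((hint k).indicator (hSm' k)).integrableOn)]
    refine Finset.sum_congr rfl fun k _ => ?_
    rw [setIntegral_indicator (hSm' k)]
    congr 2
    have : A ∩ S k = S k := by
      ext ω
      simp only [hS, Set.mem_inter_iff]
      tauto
    rw [this]
  have h2 : ∀ k ∈ Finset.range K, ∫ ω in S k, (M (q (k + 1)) ω - M (q k) ω) ∂P ≤ 0 := by
    intro k _
    rw [integral_sub (hM.integrable _).integrableOn (hM.integrable _).integrableOn]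
    have hqle : q k ≤ q (k + 1) := by
      simp only [hq]
      refine div_le_div_of_nonneg_right ?_ hpos.le
      exact_mod_cast Nat.le_succ k
    have := hM.setIntegral_le hqle (hSm k)
    linarith
  have h3 := Finset.sum_nonpos h2
  rw [← h1, integral_sub hi1.integrableOn hi2.integrableOn] at h3
  linarith

/-- **Optional stopping** for supermartingales with continuous paths, dominated up to time `T+1`. -/
theorem super_stop_dom [IsFiniteMeasure P] {M : ℝ≥0 → Ω → ℝ} (hM : Supermartingale M F P)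
    {T : ℝ≥0} {g : Ω → ℝ} (hg : Integrable g P)
    (hc : ∀ᵐ ω ∂P, Continuous fun t => M t ω)
    (hb : ∀ᵐ ω ∂P, ∀ t, t ≤ T + 1 → |M t ω| ≤ g ω)
    {σ τ : Ω → ℝ≥0} (hσ : IsST F σ) (hτ : IsST F τ) (hle : ∀ ω, σ ω ≤ τ ω)
    (hT : ∀ ω, τ ω ≤ T) {A : Set Ω} (hA : EvST F σ A) :
    ∫ ω in A, M (τ ω) ω ∂P ≤ ∫ ω in A, M (σ ω) ω ∂P := by
  have hMm : ∀ t, Measurable (M t) := fun t =>
    (hM.stronglyMeasurable t).measurable.mono (F.le t) le_rfl
  have hup : ∀ n x, x ≤ T → up n x ≤ T + 1 := by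
    intro n x hx
    refine (up_le n x).trans (add_le_add hx ?_)
    rw [div_le_one (by positivity)]
    exact one_le_pow₀ (by norm_num)
  have gen : ∀ ρ : Ω → ℝ≥0, IsST F ρ → (∀ ω, ρ ω ≤ T) →
      (∀ n, Integrable (fun ω => M (up n (ρ ω)) ω) P) ∧
      Tendsto (fun n => ∫ ω in A, M (up n (ρ ω)) ω ∂P) atTop (𝓝 (∫ ω in A, M (ρ ω) ω ∂P)) := by
    intro ρ hρ hρT
    have hms : ∀ n, Measurable (fun ω => M (up n (ρ ω)) ω) := fun n =>
      measurable_comp_up hMm hρ.measurable n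
    have hbn : ∀ n, ∀ᵐ ω ∂P, ‖M (up n (ρ ω)) ω‖ ≤ g ω := by
      intro n
      filter_upwards [hb] with ω hω
      rw [Real.norm_eq_abs]
      exact hω _ (hup n _ (hρT ω))
    refine ⟨fun n => hg.mono' (hms n).aestronglyMeasurable (hbn n), ?_⟩
    refine tendsto_integral_of_dominated_convergence g
      (fun n => (hms n).aestronglyMeasurable) hg.integrableOn
      (fun n => ae_restrict_of_ae (hbn n)) ?_
    refine ae_restrict_of_ae ?_
    filter_upwards [hc] with ω hω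
    exact (hω.tendsto (ρ ω)).comp (tendsto_up (ρ ω))
  obtain ⟨i1, t1⟩ := gen τ hτ hT
  obtain ⟨i2, t2⟩ := gen σ hσ (fun ω => (hle ω).trans (hT ω))
  refine le_of_tendsto_of_tendsto' t1 t2 fun n => ?_
  exact super_up hM hσ hτ hle hT hA n (i1 n) (i2 n)

/-- **Optional stopping**, bounded supermartingales. -/
theorem super_stop [IsFiniteMeasure P] {M : ℝ≥0 → Ω → ℝ} (hM : Supermartingale M F P)
    {C : ℝ} (hc : ∀ᵐ ω ∂P, Continuous fun t => M t ω) (hb : ∀ᵐ ω ∂P, ∀ t, |M t ω| ≤ C)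
    {σ τ : Ω → ℝ≥0} (hσ : IsST F σ) (hτ : IsST F τ) (hle : ∀ ω, σ ω ≤ τ ω)
    {T : ℝ≥0} (hT : ∀ ω, τ ω ≤ T) {A : Set Ω} (hA : EvST F σ A) :
    ∫ ω in A, M (τ ω) ω ∂P ≤ ∫ ω in A, M (σ ω) ω ∂P :=
  super_stop_dom hM (g := fun _ => C) (integrable_const C) hc
    (by filter_upwards [hb] with ω hω t _ using hω t) hσ hτ hle hT hA

/-- **Optional stopping**, bounded submartingales. -/
theorem sub_stop [IsFiniteMeasure P] {M : ℝ≥0 → Ω → ℝ} (hM : Submartingale M F P)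
    {C : ℝ} (hc : ∀ᵐ ω ∂P, Continuous fun t => M t ω) (hb : ∀ᵐ ω ∂P, ∀ t, |M t ω| ≤ C)
    {σ τ : Ω → ℝ≥0} (hσ : IsST F σ) (hτ : IsST F τ) (hle : ∀ ω, σ ω ≤ τ ω)
    {T : ℝ≥0} (hT : ∀ ω, τ ω ≤ T) {A : Set Ω} (hA : EvST F σ A) :
    ∫ ω in A, M (σ ω) ω ∂P ≤ ∫ ω in A, M (τ ω) ω ∂P := by
  have h := super_stop (M := -M) hM.neg (C := C)
    (by filter_upwards [hc] with ω hω using hω.neg)
    (by filter_upwards [hb] with ω hω t using (by simpa using hω t)) hσ hτ hle hT hA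
  simp only [Pi.neg_apply, integral_neg] at h
  linarith

/-- **Optional stopping**, bounded martingales. -/
theorem mart_stop [IsFiniteMeasure P] {M : ℝ≥0 → Ω → ℝ} (hM : Martingale M F P)
    {C : ℝ} (hc : ∀ᵐ ω ∂P, Continuous fun t => M t ω) (hb : ∀ᵐ ω ∂P, ∀ t, |M t ω| ≤ C)
    {σ τ : Ω → ℝ≥0} (hσ : IsST F σ) (hτ : IsST F τ) (hle : ∀ ω, σ ω ≤ τ ω)
    {T : ℝ≥0} (hT : ∀ ω, τ ω ≤ T) {A : Set Ω} (hA : EvST F σ A) :
    ∫ ω in A, M (τ ω) ω ∂P = ∫ ω in A, M (σ ω) ω ∂P :=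
  le_antisymm (super_stop hM.supermartingale hc hb hσ hτ hle hT hA)
    (sub_stop hM.submartingale hc hb hσ hτ hle hT hA)

/-! ### stopped processes -/

/-- the value of a continuous adapted process at a stopping time capped at `t` is `F t`-measurable -/
lemma stronglyMeasurable_stopped {E : Type*} [TopologicalSpace E]
    [TopologicalSpace.PseudoMetrizableSpace E] {X : ℝ≥0 → Ω → E}
    (hX : StronglyAdapted F X) (hc : ∀ ω, Continuous fun t => X t ω)
    {τ : Ω → ℝ≥0} (hτ : IsST F τ) (t : ℝ≥0) :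
    StronglyMeasurable[F t] (fun ω => X (min t (τ ω)) ω) := by
  have h := (hX.isStronglyProgressive_of_continuous hc).stronglyAdapted_stoppedProcess
    hτ.toStopping t
  have e : stoppedProcess X (fun ω => ((τ ω : ℝ≥0) : WithTop ℝ≥0)) t =
      fun ω => X (min t (τ ω)) ω := by
    funext ω
    simp only [stoppedProcess]
    rw [← WithTop.coe_min]
    rfl
  rw [e] at h
  exact h

/-- `{X_τ ∈ B}` belongs to the past of `τ` (continuous adapted `X`) -/
lemma EvST.preimage {E : Type*} [TopologicalSpace E]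
    [TopologicalSpace.PseudoMetrizableSpace E] [MeasurableSpace E] [BorelSpace E]
    {X : ℝ≥0 → Ω → E}
    (hX : StronglyAdapted F X) (hc : ∀ ω, Continuous fun t => X t ω)
    {τ : Ω → ℝ≥0} (hτ : IsST F τ) {B : Set E} (hB : MeasurableSet B) :
    EvST F τ {ω | X (τ ω) ω ∈ B} := by
  intro t
  have e : {ω | X (τ ω) ω ∈ B} ∩ {ω | τ ω ≤ t} =
      {ω | X (min t (τ ω)) ω ∈ B} ∩ {ω | τ ω ≤ t} := by
    ext ω
    simp only [Set.mem_inter_iff, Set.mem_ofPred_eq]
    constructor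
    · rintro ⟨h1, h2⟩
      rw [min_eq_right h2]
      exact ⟨h1, h2⟩
    · rintro ⟨h1, h2⟩
      rw [min_eq_right h2] at h1
      exact ⟨h1, h2⟩
  rw [e]
  refine MeasurableSet.inter ?_ (hτ t)
  exact (stronglyMeasurable_stopped hX hc hτ t).measurable hB

lemma stronglyMeasurable_at {E : Type*} [TopologicalSpace E]
    [TopologicalSpace.PseudoMetrizableSpace E] {X : ℝ≥0 → Ω → E}
    (hX : StronglyAdapted F X) (hc : ∀ ω, Continuous fun t => X t ω)
    {τ : Ω → ℝ≥0} (hτ : IsST F τ) {T : ℝ≥0} (hT : ∀ ω, τ ω ≤ T) :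
    StronglyMeasurable[F T] (fun ω => X (τ ω) ω) := by
  have := stronglyMeasurable_stopped hX hc hτ T
  have e : (fun ω => X (min T (τ ω)) ω) = fun ω => X (τ ω) ω := by
    funext ω
    rw [min_eq_right (hT ω)]
  rw [e] at this
  exact this

/-- the part of an event of `F s` where `τ > s` is in the past of `min s τ`. -/
lemma EvST.inter_gt {τ : Ω → ℝ≥0} (hτ : IsST F τ) {s : ℝ≥0} {A : Set Ω}
    (hA : MeasurableSet[F s] A) : EvST F (fun ω => min s (τ ω)) (A ∩ {ω | s < τ ω}) := by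
  intro t
  by_cases h : s ≤ t
  · have e : A ∩ {ω | s < τ ω} ∩ {ω | min s (τ ω) ≤ t} = A ∩ {ω | τ ω ≤ s}ᶜ := by
      ext ω
      simp only [Set.mem_inter_iff, Set.mem_ofPred_eq, Set.mem_compl_iff, not_le]
      constructor
      · rintro ⟨h1, _⟩; exact h1
      · intro h1; exact ⟨h1, (min_le_left _ _).trans h⟩
    rw [e]
    exact F.mono h _ (hA.inter (hτ s).compl)
  · have e : A ∩ {ω | s < τ ω} ∩ {ω | min s (τ ω) ≤ t} = ∅ := by
      ext ω
      simp only [Set.mem_inter_iff, Set.mem_ofPred_eq, Set.mem_empty_iff_false, iff_false]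
      rintro ⟨⟨_, h1⟩, h2⟩
      rw [min_eq_left h1.le] at h2
      exact h h2
    rw [e]
    exact @MeasurableSet.empty _ (F t)

lemma stopped_setIntegral_le [IsFiniteMeasure P] {M : ℝ≥0 → Ω → ℝ}
    (hM : Supermartingale M F P) (hcont : ∀ ω, Continuous fun t => M t ω)
    {g : Ω → ℝ} (hg : Integrable g P) (hb : ∀ᵐ ω ∂P, ∀ t, |M t ω| ≤ g ω)
    {τ : Ω → ℝ≥0} (hτ : IsST F τ) {s t : ℝ≥0} (hst : s ≤ t) {A : Set Ω}
    (hA : MeasurableSet[F s] A) :
    ∫ ω in A, M (min t (τ ω)) ω ∂P ≤ ∫ ω in A, M (min s (τ ω)) ω ∂P := by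
  have hAm : MeasurableSet A := F.le _ _ hA
  have hτs : MeasurableSet {ω | s < τ ω} := by
    have : {ω | s < τ ω} = {ω | τ ω ≤ s}ᶜ := by ext ω; simp
    rw [this]
    exact (F.le _ _ (hτ s)).compl
  have hint : ∀ u : ℝ≥0, Integrable (fun ω => M (min u (τ ω)) ω) P := by
    intro u
    refine hg.mono' ?_ ?_
    · exact ((stronglyMeasurable_stopped hM.stronglyAdapted hcont hτ u).mono
        (F.le u)).aestronglyMeasurable
    · filter_upwards [hb] with ω hω
      exact hω _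
  have key : ∫ ω in A ∩ {ω | s < τ ω}, M (min t (τ ω)) ω ∂P ≤
      ∫ ω in A ∩ {ω | s < τ ω}, M (min s (τ ω)) ω ∂P := by
    have h := super_stop_dom hM (T := t) hg (Eventually.of_forall hcont)
      (by filter_upwards [hb] with ω hω u _ using hω u)
      (IsST.min (IsST.const (F := F) s) hτ) (IsST.min (IsST.const (F := F) t) hτ)
      (fun ω => min_le_min_right _ hst) (fun ω => min_le_left _ _) (EvST.inter_gt hτ hA)
    exact h
  have key2 : ∫ ω in A ∩ {ω | s < τ ω}ᶜ, M (min t (τ ω)) ω ∂P =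
      ∫ ω in A ∩ {ω | s < τ ω}ᶜ, M (min s (τ ω)) ω ∂P := by
    refine setIntegral_congr_fun (hAm.inter hτs.compl) ?_
    intro ω hω
    have h1 : τ ω ≤ s := not_lt.1 hω.2
    simp only
    rw [min_eq_right h1, min_eq_right (h1.trans hst)]
  have d : ∀ u : ℝ≥0, ∫ ω in A, M (min u (τ ω)) ω ∂P =
      ∫ ω in A ∩ {ω | s < τ ω}, M (min u (τ ω)) ω ∂P +
      ∫ ω in A ∩ {ω | s < τ ω}ᶜ, M (min u (τ ω)) ω ∂P := by
    intro u
    rw [← Set.sdiff_eq, integral_inter_add_sdiff hτs (hint u).integrableOn]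
  rw [d t, d s, key2]
  linarith

/-- the stopped process of a bounded continuous supermartingale is a supermartingale -/
theorem stopped_super [IsFiniteMeasure P] {M : ℝ≥0 → Ω → ℝ}
    (hM : Supermartingale M F P) (hcont : ∀ ω, Continuous fun t => M t ω)
    {g : Ω → ℝ} (hg : Integrable g P) (hb : ∀ᵐ ω ∂P, ∀ t, |M t ω| ≤ g ω)
    {τ : Ω → ℝ≥0} (hτ : IsST F τ) :
    Supermartingale (fun t ω => M (min t (τ ω)) ω) F P := by
  have hint : ∀ u : ℝ≥0, Integrable (fun ω => M (min u (τ ω)) ω) P := by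
    intro u
    refine hg.mono' ?_ ?_
    · exact ((stronglyMeasurable_stopped hM.stronglyAdapted hcont hτ u).mono
        (F.le u)).aestronglyMeasurable
    · filter_upwards [hb] with ω hω
      exact hω _
  have hsub : Submartingale (fun t ω => -M (min t (τ ω)) ω) F P := by
    refine submartingale_of_setIntegral_le ?_ ?_ ?_
    · intro t
      exact (stronglyMeasurable_stopped hM.stronglyAdapted hcont hτ t).neg
    · intro t
      exact (hint t).neg
    · intro s t hst A hA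
      rw [integral_neg, integral_neg, neg_le_neg_iff]
      exact stopped_setIntegral_le hM hcont hg hb hτ hst hA
  have := hsub.neg
  simpa [Pi.neg_def] using this

theorem stopped_mart [IsFiniteMeasure P] {M : ℝ≥0 → Ω → ℝ}
    (hM : Martingale M F P) (hcont : ∀ ω, Continuous fun t => M t ω)
    {g : Ω → ℝ} (hg : Integrable g P) (hb : ∀ᵐ ω ∂P, ∀ t, |M t ω| ≤ g ω)
    {τ : Ω → ℝ≥0} (hτ : IsST F τ) :
    Martingale (fun t ω => M (min t (τ ω)) ω) F P := by
  refine martingale_iff.2 ⟨stopped_super hM.supermartingale hcont hg hb hτ, ?_⟩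
  have h := stopped_super (M := -M) hM.neg.supermartingale (fun ω => (hcont ω).neg) hg
    (by filter_upwards [hb] with ω hω t using (by simpa using hω t)) hτ
  have := h.neg
  simpa [Pi.neg_def] using this

end Crest.Agent.R162.OS
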