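import Mathlib
import Crest.Agent.R162.OS

set_option autoImplicit false

/-!
Row 162, node OS, part 2 (helper365): hitting times of closed sets by continuous adapted
processes (raw filtration), maximal inequality.
-/

open MeasureTheory ProbabilityTheory Filter Topology
open scoped NNReal ENNReal

namespace Crest.Agent.R162.OS

variable {Ω : Type*} {m : MeasurableSpace Ω} {F : Filtration ℝ≥0 m} {P : Measure Ω}
variable {E : Type*} [PseudoMetricSpace E]

section hit

variable {X : ℝ≥0 → Ω → E} {K : Set E} {σ : Ω → ℝ≥0} {T : ℝ≥0} {ω : Ω}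

lemma hit_set_closed (hK : IsClosed K) (hc : Continuous fun t => X t ω) :
    IsClosed ({t | σ ω ≤ t ∧ X t ω ∈ K} ∪ {max T (σ ω)}) := by
  refine IsClosed.union ?_ isClosed_singleton
  exact (isClosed_le continuous_const continuous_id).inter (hK.preimage hc)

lemma hit_mem (hK : IsClosed K) (hc : Continuous fun t => X t ω) :
    (σ ω ≤ hit X K σ T ω ∧ X (hit X K σ T ω) ω ∈ K) ∨ hit X K σ T ω = max T (σ ω) := by
  have h := (hit_set_closed (σ := σ) (T := T) hK hc).csInf_mem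
    ⟨max T (σ ω), Or.inr rfl⟩ (OrderBot.bddBelow _)
  exact h

omit [PseudoMetricSpace E] in
lemma hit_le_max : hit X K σ T ω ≤ max T (σ ω) :=
  csInf_le (OrderBot.bddBelow _) (Or.inr rfl)

omit [PseudoMetricSpace E] in
lemma le_hit : σ ω ≤ hit X K σ T ω := by
  refine le_csInf ⟨max T (σ ω), Or.inr rfl⟩ ?_
  rintro t (ht | ht)
  · exact ht.1
  · rw [Set.mem_singleton_iff.1 ht]
    exact le_max_right _ _

omit [PseudoMetricSpace E] in
lemma hit_le_of_mem {t : ℝ≥0} (h1 : σ ω ≤ t) (h2 : X t ω ∈ K) : hit X K σ T ω ≤ t :=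
  csInf_le (OrderBot.bddBelow _) (Or.inl ⟨h1, h2⟩)

omit [PseudoMetricSpace E] in
lemma notMem_of_lt_hit {t : ℝ≥0} (h1 : σ ω ≤ t) (h2 : t < hit X K σ T ω) : X t ω ∉ K := fun h =>
  absurd (hit_le_of_mem h1 h) (not_le.2 h2)

omit [PseudoMetricSpace E] in
lemma hit_le (hσT : σ ω ≤ T) : hit X K σ T ω ≤ T := by
  have := hit_le_max (X := X) (K := K) (σ := σ) (T := T) (ω := ω)
  rwa [max_eq_left hσT] at this

/-- value at the hitting time if the cap is not reached -/
lemma mem_of_hit_lt (hK : IsClosed K) (hc : Continuous fun t => X t ω)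
    (h : hit X K σ T ω < max T (σ ω)) : X (hit X K σ T ω) ω ∈ K := by
  rcases hit_mem (σ := σ) (T := T) hK hc with h1 | h1
  · exact h1.2
  · exact absurd h1 h.ne

lemma mem_of_exists (hK : IsClosed K) (hc : Continuous fun t => X t ω)
    (h : ∃ t, σ ω ≤ t ∧ t ≤ T ∧ X t ω ∈ K) : X (hit X K σ T ω) ω ∈ K := by
  obtain ⟨t, h1, h2, h3⟩ := h
  rcases hit_mem (σ := σ) (T := T) hK hc with h4 | h4
  · exact h4.2
  · have h5 : hit X K σ T ω ≤ t := hit_le_of_mem h1 h3
    have h6 : max T (σ ω) = T := max_eq_left (h1.trans h2)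
    rw [h6] at h4
    have h7 : hit X K σ T ω = t := le_antisymm h5 (h2.trans_eq h4.symm)
    rw [h7]
    exact h3

end hit

/-- for a continuous `F t`-measurable family on `[0,t]` the event that a closed set is met is
measurable -/
lemma measurableSet_exists_mem {Y : ℝ≥0 → Ω → E} {K : Set E} (hK : IsClosed K) (t : ℝ≥0)
    {m' : MeasurableSpace Ω} (hY : ∀ q, q ≤ t → StronglyMeasurable[m'] (Y q))
    (hc : ∀ ω, Continuous fun q => Y q ω) :
    MeasurableSet[m'] {ω | ∃ q, q ≤ t ∧ Y q ω ∈ K} := by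
  rcases K.eq_empty_or_nonempty with hKe | hKn
  · subst hKe
    simp
  let u : ℕ → Set.Iic t := TopologicalSpace.denseSeq (Set.Iic t)
  have hu : DenseRange u := TopologicalSpace.denseRange_denseSeq _
  have e : {ω | ∃ q, q ≤ t ∧ Y q ω ∈ K} =
      ⋂ n : ℕ, ⋃ k : ℕ, {ω | Metric.infDist (Y (u k) ω) K < 1 / ((n : ℝ) + 1)} := by
    ext ω
    simp only [Set.mem_ofPred_eq, Set.mem_iInter, Set.mem_iUnion]
    have hcd : Continuous fun q : ℝ≥0 => Metric.infDist (Y q ω) K :=
      (Metric.continuous_infDist_pt K).comp (hc ω)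
    constructor
    · rintro ⟨q, hq, hqK⟩ n
      have h0 : Metric.infDist (Y q ω) K = 0 := (hK.mem_iff_infDist_zero hKn).1 hqK
      have hopen : IsOpen {x : Set.Iic t | Metric.infDist (Y (x : ℝ≥0) ω) K < 1 / ((n : ℝ) + 1)} :=
        isOpen_lt (hcd.comp continuous_subtype_val) continuous_const
      obtain ⟨k, hk⟩ := hu.exists_mem_open hopen ⟨⟨q, hq⟩, by
        simp only [Set.mem_ofPred_eq, h0]
        positivity⟩
      exact ⟨k, hk⟩
    · intro h
      obtain ⟨q, hq, hmin⟩ := (isCompact_Icc (a := (0 : ℝ≥0)) (b := t)).exists_isMinOn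
        ⟨0, by simp⟩ hcd.continuousOn
      refine ⟨q, hq.2, (hK.mem_iff_infDist_zero hKn).2 ?_⟩
      refine le_antisymm ?_ Metric.infDist_nonneg
      refine le_of_forall_pos_lt_add fun ε hε => ?_
      obtain ⟨n, hn⟩ := exists_nat_one_div_lt hε
      obtain ⟨k, hk⟩ := h n
      have h1 : Metric.infDist (Y q ω) K ≤ Metric.infDist (Y (u k) ω) K :=
        hmin (a := (u k : ℝ≥0)) ⟨zero_le, (u k).2⟩
      linarith
  rw [e]
  refine MeasurableSet.iInter fun n => MeasurableSet.iUnion fun k => ?_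
  have h1 : StronglyMeasurable[m'] (fun ω => Metric.infDist (Y (u k) ω) K) :=
    (Metric.continuous_infDist_pt K).comp_stronglyMeasurable (hY _ (u k).2)
  exact h1.measurable measurableSet_Iio

/-- **hitting times** of closed sets by continuous adapted processes, started at a stopping time
and capped, are stopping times of the raw filtration. -/
theorem hit_isST {X : ℝ≥0 → Ω → E} (hX : StronglyAdapted F X)
    (hc : ∀ ω, Continuous fun t => X t ω) {K : Set E} (hK : IsClosed K)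
    {σ : Ω → ℝ≥0} (hσ : IsST F σ) (T : ℝ≥0) : IsST F (hit X K σ T) := by
  intro t
  have hY : ∀ q, q ≤ t → StronglyMeasurable[F t] (fun ω => X (max (min (σ ω) t) q) ω) := by
    intro q hq
    refine stronglyMeasurable_at hX hc
      (IsST.max (IsST.min hσ (IsST.const (F := F) t)) (IsST.const (F := F) q)) (T := t) ?_
    intro ω
    exact max_le (min_le_right _ _) hq
  have hm := measurableSet_exists_mem (m' := F t) hK t hY (by
    intro ω
    exact (hc ω).comp (continuous_const.max continuous_id))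
  have e : {ω | hit X K σ T ω ≤ t} = {ω | max T (σ ω) ≤ t} ∪
      ({ω | σ ω ≤ t} ∩ {ω | ∃ q, q ≤ t ∧ X (max (min (σ ω) t) q) ω ∈ K}) := by
    ext ω
    simp only [Set.mem_union, Set.mem_inter_iff, Set.mem_ofPred_eq]
    constructor
    · intro h
      rcases hit_mem (σ := σ) (T := T) hK (hc ω) with h1 | h1
      · right
        have h2 : σ ω ≤ t := h1.1.trans h
        refine ⟨h2, hit X K σ T ω, h, ?_⟩
        rw [min_eq_left h2, max_eq_right h1.1]
        exact h1.2
      · left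
        rw [← h1]
        exact h
    · rintro (h | ⟨h1, q, hq, h2⟩)
      · exact hit_le_max.trans h
      · rw [min_eq_left h1] at h2
        exact (hit_le_of_mem (le_max_left _ _) h2).trans (max_le h1 hq)
  rw [e]
  refine MeasurableSet.union ?_ ((hσ t).inter hm)
  exact IsST.max (IsST.const (F := F) T) hσ t

/-- **maximal inequality** for nonnegative (dominated) continuous supermartingales. -/
theorem maximal_dom [IsFiniteMeasure P] {M : ℝ≥0 → Ω → ℝ} (hM : Supermartingale M F P)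
    (hc : ∀ ω, Continuous fun t => M t ω) (h0 : ∀ t ω, 0 ≤ M t ω)
    {T : ℝ≥0} {g : Ω → ℝ} (hg : Integrable g P)
    (hb : ∀ᵐ ω ∂P, ∀ t, t ≤ T + 1 → |M t ω| ≤ g ω)
    {σ : Ω → ℝ≥0} (hσ : IsST F σ) (hσT : ∀ ω, σ ω ≤ T) {A : Set Ω} (hA : EvST F σ A)
    (l : ℝ) :
    l * P.real (A ∩ {ω | ∃ t, σ ω ≤ t ∧ t ≤ T ∧ l ≤ M t ω}) ≤ ∫ ω in A, M (σ ω) ω ∂P := by
  set ρ : Ω → ℝ≥0 := hit M (Set.Ici l) σ T with hρ
  have hρST : IsST F ρ := hit_isST hM.stronglyAdapted hc isClosed_Ici hσ T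
  have hρT : ∀ ω, ρ ω ≤ T := fun ω => hit_le (hσT ω)
  have hAm : MeasurableSet A := hA.measurableSet
  have h1 := super_stop_dom hM hg (Eventually.of_forall hc) hb hσ hρST
    (fun ω => le_hit) hρT hA
  refine le_trans ?_ h1
  set B : Set Ω := {ω | ∃ t, σ ω ≤ t ∧ t ≤ T ∧ l ≤ M t ω} with hB
  have hBρ : ∀ ω ∈ B, l ≤ M (ρ ω) ω := fun ω hω =>
    mem_of_exists (K := Set.Ici l) isClosed_Ici (hc ω) hω
  have hmρ : StronglyMeasurable (fun ω => M (ρ ω) ω) :=
    (stronglyMeasurable_at hM.stronglyAdapted hc hρST hρT).mono (F.le T)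
  have hint : Integrable (fun ω => M (ρ ω) ω) P := by
    refine hg.mono' hmρ.aestronglyMeasurable ?_
    filter_upwards [hb] with ω hω
    exact hω _ ((hρT ω).trans (le_add_of_nonneg_right zero_le_one))
  have hB' : MeasurableSet {ω | l ≤ M (ρ ω) ω} := hmρ.measurable measurableSet_Ici
  have hsub : A ∩ B ⊆ A ∩ {ω | l ≤ M (ρ ω) ω} := fun ω hω => ⟨hω.1, hBρ ω hω.2⟩
  rcases le_or_gt l 0 with hl | hl
  · have h3 : 0 ≤ ∫ ω in A, M (ρ ω) ω ∂P := integral_nonneg fun ω => h0 _ _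
    refine le_trans (mul_nonpos_of_nonpos_of_nonneg hl measureReal_nonneg) h3
  · calc l * P.real (A ∩ B) ≤ l * P.real (A ∩ {ω | l ≤ M (ρ ω) ω}) := by
          refine mul_le_mul_of_nonneg_left (measureReal_mono hsub) hl.le
      _ = ∫ ω in A ∩ {ω | l ≤ M (ρ ω) ω}, l ∂P := by
          rw [setIntegral_const, smul_eq_mul, mul_comm]
      _ ≤ ∫ ω in A ∩ {ω | l ≤ M (ρ ω) ω}, M (ρ ω) ω ∂P := by
          refine setIntegral_mono_on (integrable_const l).integrableOn hint.integrableOn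
            (hAm.inter hB') fun ω hω => hω.2
      _ ≤ ∫ ω in A, M (ρ ω) ω ∂P := by
          refine setIntegral_mono_set hint.integrableOn
            (Eventually.of_forall fun ω => h0 _ _) ?_
          exact Eventually.of_forall fun ω hω => hω.1

theorem maximal [IsFiniteMeasure P] {M : ℝ≥0 → Ω → ℝ} (hM : Supermartingale M F P)
    (hc : ∀ ω, Continuous fun t => M t ω) (h0 : ∀ t ω, 0 ≤ M t ω)
    {C : ℝ} (hb : ∀ᵐ ω ∂P, ∀ t, |M t ω| ≤ C) {T : ℝ≥0}
    {σ : Ω → ℝ≥0} (hσ : IsST F σ) (hσT : ∀ ω, σ ω ≤ T) {A : Set Ω} (hA : EvST F σ A)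
    (l : ℝ) :
    l * P.real (A ∩ {ω | ∃ t, σ ω ≤ t ∧ t ≤ T ∧ l ≤ M t ω}) ≤ ∫ ω in A, M (σ ω) ω ∂P :=
  maximal_dom hM hc h0 (g := fun _ => C) (integrable_const C)
    (by filter_upwards [hb] with ω hω t _ using hω t) hσ hσT hA l

end Crest.Agent.R162.OS
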