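import Mathlib

/-!
Row 162, node SM: Dynkin/Ito formula for an additive-noise state process
`Z t = Z s + (B t - B s) • e + ∫_s^t a (Z r) dr`.
-/

set_option autoImplicit false

namespace Crest.Agent.R162.SM

open MeasureTheory ProbabilityTheory Filter Set
open scoped NNReal ENNReal Topology

variable {Ω : Type*} {mΩ : MeasurableSpace Ω} {P : Measure Ω}

/-- Brownian motion with respect to a filtration, with all paths continuous. -/
structure BMF (F : Filtration ℝ≥0 mΩ) (B : ℝ≥0 → Ω → ℝ) (P : Measure Ω) : Prop where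
  adapted : ∀ t, Measurable[F t] (B t)
  cont : ∀ ω, Continuous fun t => B t ω
  law : ∀ s t, s ≤ t → P.map (fun ω => B t ω - B s ω) = gaussianReal 0 (t - s)
  indep : ∀ s t, s ≤ t →
    Indep (MeasurableSpace.comap (fun ω => B t ω - B s ω) inferInstance) (F s) P

/-- absolute moments of the standard Gaussian -/
noncomputable def gm (p : ℕ) : ℝ := ∫ x, |x| ^ p ∂(gaussianReal 0 1)

lemma gm_nonneg (p : ℕ) : 0 ≤ gm p := integral_nonneg fun _ => by positivity

lemma integrable_abs_pow_gaussian (p : ℕ) (v : ℝ≥0) :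
    Integrable (fun x : ℝ => |x| ^ p) (gaussianReal 0 v) := by
  have h := (memLp_id_gaussianReal (μ := 0) (v := v) (p : ℝ≥0)).integrable_norm_rpow'
  simpa using h

lemma integral_abs_pow_gaussian (p : ℕ) (v : ℝ≥0) :
    ∫ x, |x| ^ p ∂(gaussianReal 0 v) = (Real.sqrt v) ^ p * gm p := by
  have h1 : (gaussianReal 0 1).map (fun x => Real.sqrt v * x) = gaussianReal 0 v := by
    rw [gaussianReal_map_const_mul]
    congr 1
    · simp
    · ext
      simp
  rw [← h1, integral_map (by fun_prop) (by fun_prop)]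
  simp only [abs_mul, mul_pow, abs_of_nonneg (Real.sqrt_nonneg _)]
  rw [integral_const_mul]
  rfl

namespace BMF

variable {F : Filtration ℝ≥0 mΩ} {B : ℝ≥0 → Ω → ℝ}

lemma measurable (hB : BMF F B P) (t : ℝ≥0) : Measurable (B t) :=
  (hB.adapted t).mono (F.le t) le_rfl

lemma meas_incr (hB : BMF F B P) (s t : ℝ≥0) : Measurable (fun ω => B t ω - B s ω) :=
  (hB.measurable t).sub (hB.measurable s)

lemma isProb (hB : BMF F B P) : IsProbabilityMeasure P := by
  have h := hB.law 0 0 le_rfl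
  have : IsProbabilityMeasure (P.map (fun ω => B 0 ω - B 0 ω)) := by
    rw [h]; infer_instance
  exact ⟨by
    have := this.measure_univ
    rwa [Measure.map_apply (hB.meas_incr 0 0) MeasurableSet.univ,
      preimage_univ] at this⟩

lemma integrable_abs_pow (hB : BMF F B P) (p : ℕ) {s t : ℝ≥0} (hst : s ≤ t) :
    Integrable (fun ω => |B t ω - B s ω| ^ p) P := by
  have h := integrable_abs_pow_gaussian p (t - s)
  rw [← hB.law s t hst] at h
  exact (integrable_map_measure h.aestronglyMeasurable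
    (hB.meas_incr s t).aemeasurable).1 h

lemma integral_abs_pow (hB : BMF F B P) (p : ℕ) {s t : ℝ≥0} (hst : s ≤ t) :
    ∫ ω, |B t ω - B s ω| ^ p ∂P = (Real.sqrt ((t : ℝ) - s)) ^ p * gm p := by
  have h := integral_abs_pow_gaussian p (t - s)
  rw [← hB.law s t hst, integral_map (hB.meas_incr s t).aemeasurable
    (by fun_prop)] at h
  rw [h, NNReal.coe_sub hst]

lemma integrable_incr (hB : BMF F B P) {s t : ℝ≥0} (hst : s ≤ t) :
    Integrable (fun ω => B t ω - B s ω) P := by
  have h := hB.integrable_abs_pow 1 hst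
  simp only [pow_one] at h
  refine (integrable_norm_iff (hB.meas_incr s t).aestronglyMeasurable).1 ?_
  simpa [Real.norm_eq_abs] using h

lemma integrable_sq (hB : BMF F B P) {s t : ℝ≥0} (hst : s ≤ t) :
    Integrable (fun ω => (B t ω - B s ω) ^ 2) P := by
  have h := hB.integrable_abs_pow 2 hst
  simpa [sq_abs] using h

lemma integral_incr (hB : BMF F B P) {s t : ℝ≥0} (hst : s ≤ t) :
    ∫ ω, (B t ω - B s ω) ∂P = 0 := by
  have h : ∫ x, x ∂(gaussianReal 0 (t - s)) = 0 := integral_id_gaussianReal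
  rwa [← hB.law s t hst, integral_map (hB.meas_incr s t).aemeasurable
    (by fun_prop)] at h

lemma integral_sq (hB : BMF F B P) {s t : ℝ≥0} (hst : s ≤ t) :
    ∫ ω, (B t ω - B s ω) ^ 2 ∂P = (t : ℝ) - s := by
  have h : ∫ x, x ^ 2 ∂(gaussianReal 0 (t - s)) = ((t - s : ℝ≥0) : ℝ) := by
    have h1 := variance_fun_id_gaussianReal (μ := 0) (v := t - s)
    rw [variance_eq_integral (by fun_prop)] at h1
    simpa using h1
  rw [← hB.law s t hst, integral_map (hB.meas_incr s t).aemeasurable
    (by fun_prop)] at h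
  rw [h, NNReal.coe_sub hst]

lemma indepFun (hB : BMF F B P) {s t : ℝ≥0} (hst : s ≤ t) {g : Ω → ℝ} (hg : Measurable[F s] g) :
    IndepFun g (fun ω => B t ω - B s ω) P := by
  rw [IndepFun_iff_Indep]
  refine (indep_of_indep_of_le_right (hB.indep s t hst) ?_).symm
  exact hg.comap_le

lemma integral_mul_incr (hB : BMF F B P) {s t : ℝ≥0} (hst : s ≤ t) {g : Ω → ℝ}
    (hg : Measurable[F s] g) : ∫ ω, g ω * (B t ω - B s ω) ∂P = 0 := by
  have h := (hB.indepFun hst hg).integral_fun_mul_eq_mul_integral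
    ((hg.mono (F.le s) le_rfl).aestronglyMeasurable)
    ((hB.meas_incr s t).aestronglyMeasurable)
  rw [h, hB.integral_incr hst, mul_zero]

lemma integral_mul_sq (hB : BMF F B P) {s t : ℝ≥0} (hst : s ≤ t) {g : Ω → ℝ}
    (hg : Measurable[F s] g) :
    ∫ ω, g ω * (B t ω - B s ω) ^ 2 ∂P = (∫ ω, g ω ∂P) * ((t : ℝ) - s) := by
  have h0 : IndepFun g (fun ω => (B t ω - B s ω) ^ 2) P :=
    (hB.indepFun hst hg).comp (φ := id) (ψ := fun x => x ^ 2) measurable_id (by fun_prop)
  have h := h0.integral_fun_mul_eq_mul_integral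
    ((hg.mono (F.le s) le_rfl).aestronglyMeasurable)
    (((hB.meas_incr s t).pow_const 2).aestronglyMeasurable)
  rw [h, hB.integral_sq hst]

end BMF

section Det

variable {G : Type*} [NormedAddCommGroup G] [NormedSpace ℝ G]

/-- Test function data: `D` = derivative, `H z` = second derivative in direction `e`;
`a` = drift field. All bounds with one constant `C`. -/
structure Test (e : G) (a : G → G) (C : ℝ) (f : G → ℝ) (D : G → G →L[ℝ] ℝ) (H : G → ℝ) :
    Prop where
  C_nonneg : 0 ≤ C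
  taylor3 : ∀ z (h : ℝ), |f (z + h • e) - f z - h * D z e - h ^ 2 / 2 * H z| ≤ C * |h| ^ 3
  taylor2 : ∀ z w, |f (z + w) - f z - D z w| ≤ C * ‖w‖ ^ 2
  D_lip : ∀ z z', ‖D z - D z'‖ ≤ C * ‖z - z'‖
  D_bdd : ∀ z, ‖D z‖ ≤ C
  H_lip : ∀ z z', |H z - H z'| ≤ C * ‖z - z'‖
  H_bdd : ∀ z, |H z| ≤ C
  f_bdd : ∀ z, |f z| ≤ C
  a_lip : ∀ z z', ‖a z - a z'‖ ≤ C * ‖z - z'‖
  a_bdd : ∀ z, ‖a z‖ ≤ C
  e_bdd : ‖e‖ ≤ C

/-- The generator. -/
noncomputable def gen (a : G → G) (D : G → G →L[ℝ] ℝ) (H : G → ℝ) (z : G) : ℝ :=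
  H z / 2 + D z (a z)

namespace Test

variable {e : G} {a : G → G} {C : ℝ} {f : G → ℝ} {D : G → G →L[ℝ] ℝ} {H : G → ℝ}

lemma gen_lip (h : Test e a C f D H) (z z' : G) :
    |gen a D H z - gen a D H z'| ≤ (C + 2 * C ^ 2) * ‖z - z'‖ := by
  have hC := h.C_nonneg
  have e1 : gen a D H z - gen a D H z' =
      (H z - H z') / 2 + (D z (a z - a z') + (D z - D z') (a z')) := by
    simp only [gen, map_sub, sub_apply]
    ring
  have h1 : |(H z - H z') / 2| ≤ C * ‖z - z'‖ := by
    rw [abs_div, abs_two]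
    have := h.H_lip z z'
    have := abs_nonneg (H z - H z')
    linarith
  have h2 : |D z (a z - a z')| ≤ C * (C * ‖z - z'‖) := by
    rw [← Real.norm_eq_abs]
    exact ((D z).le_opNorm _).trans
      (mul_le_mul (h.D_bdd z) (h.a_lip z z') (norm_nonneg _) hC)
  have h3 : |(D z - D z') (a z')| ≤ (C * ‖z - z'‖) * C := by
    rw [← Real.norm_eq_abs]
    exact ((D z - D z').le_opNorm _).trans
      (mul_le_mul (h.D_lip z z') (h.a_bdd z') (norm_nonneg _) (by positivity))
  rw [e1]
  calc _ ≤ |(H z - H z') / 2| + (|D z (a z - a z')| + |(D z - D z') (a z')|) :=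
        (abs_add_le _ _).trans (add_le_add le_rfl (abs_add_le _ _))
    _ ≤ C * ‖z - z'‖ + (C * (C * ‖z - z'‖) + (C * ‖z - z'‖) * C) := by linarith
    _ = _ := by ring

lemma gen_bdd (h : Test e a C f D H) (z : G) : |gen a D H z| ≤ C + C ^ 2 := by
  have hC := h.C_nonneg
  have h1 : |H z / 2| ≤ C := by
    rw [abs_div, abs_two]
    have := h.H_bdd z
    have := abs_nonneg (H z)
    linarith
  have h2 : |D z (a z)| ≤ C * C := by
    rw [← Real.norm_eq_abs]
    exact ((D z).le_opNorm _).trans (mul_le_mul (h.D_bdd z) (h.a_bdd z) (norm_nonneg _) hC)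
  calc _ ≤ |H z / 2| + |D z (a z)| := abs_add_le _ _
    _ ≤ _ := by nlinarith

omit [NormedSpace ℝ G] in
lemma continuous_of_lip {E : Type*} [SeminormedAddCommGroup E] {g : G → E} {K : ℝ}
    (hg : ∀ z z', ‖g z - g z'‖ ≤ K * ‖z - z'‖) : Continuous g := by
  have : LipschitzWith (Real.toNNReal K) g := by
    refine LipschitzWith.of_dist_le_mul fun z z' => ?_
    rw [dist_eq_norm, dist_eq_norm]
    exact (hg z z').trans (mul_le_mul_of_nonneg_right (Real.le_coe_toNNReal K) (norm_nonneg _))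
  exact this.continuous

lemma gen_cont (h : Test e a C f D H) : Continuous (gen a D H) :=
  continuous_of_lip h.gen_lip

lemma a_cont (h : Test e a C f D H) : Continuous a := continuous_of_lip h.a_lip

lemma D_cont (h : Test e a C f D H) : Continuous D := continuous_of_lip h.D_lip

lemma H_cont (h : Test e a C f D H) : Continuous H := continuous_of_lip h.H_lip

lemma f_lip (h : Test e a C f D H) (z w : G) (hw : ‖w‖ ≤ 1) : |f (z + w) - f z| ≤ 2 * C * ‖w‖ := by
  have hC := h.C_nonneg
  have h1 := h.taylor2 z w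
  have h2 : |D z w| ≤ C * ‖w‖ := by
    rw [← Real.norm_eq_abs]
    exact ((D z).le_opNorm _).trans (mul_le_mul_of_nonneg_right (h.D_bdd z) (norm_nonneg _))
  have h3 : ‖w‖ ^ 2 ≤ ‖w‖ := by nlinarith [norm_nonneg w]
  calc |f (z + w) - f z| = |(f (z + w) - f z - D z w) + D z w| := by ring_nf
    _ ≤ |f (z + w) - f z - D z w| + |D z w| := abs_add_le _ _
    _ ≤ C * ‖w‖ ^ 2 + C * ‖w‖ := by linarith
    _ ≤ _ := by nlinarith

lemma f_cont (h : Test e a C f D H) : Continuous f := by
  have hC := h.C_nonneg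
  rw [Metric.continuous_iff]
  intro z ε hε
  refine ⟨min 1 (ε / (2 * C + 1)), by positivity, fun y hy => ?_⟩
  rw [dist_eq_norm] at hy ⊢
  have h1 := h.f_lip z (y - z) (hy.le.trans (min_le_left _ _))
  rw [add_sub_cancel] at h1
  have h2 : ‖y - z‖ < ε / (2 * C + 1) := lt_of_lt_of_le hy (min_le_right _ _)
  rw [lt_div_iff₀ (by positivity)] at h2
  rw [Real.norm_eq_abs]
  nlinarith [norm_nonneg (y - z)]

/-- Deterministic one-step expansion. -/
lemma step_det [CompleteSpace G] (h : Test e a C f D H) {b : ℝ≥0 → ℝ} {z : ℝ≥0 → G}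
    (hb : Continuous b) (hz : Continuous z) {s t : ℝ≥0} (hst : s ≤ t)
    (heq : ∀ r, s ≤ r → r ≤ t →
      z r = z s + (b r - b s) • e + ∫ u in (s : ℝ)..r, a (z u.toNNReal)) :
    |f (z t) - f (z s) - (∫ r in (s : ℝ)..t, gen a D H (z r.toNNReal))
        - (b t - b s) * D (z s) e - H (z s) / 2 * ((b t - b s) ^ 2 - ((t : ℝ) - s))|
      ≤ (C + C ^ 2 + 4 * C ^ 3) * (|b t - b s| ^ 3 + ((t : ℝ) - s) ^ 2
          + ((t : ℝ) - s) * |b t - b s| + ∫ r in (s : ℝ)..t, |b r.toNNReal - b s|) := by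
  have hC := h.C_nonneg
  have hst' : (s : ℝ) ≤ t := NNReal.coe_le_coe.2 hst
  set δ : ℝ := (t : ℝ) - s with hδ
  have hδ0 : 0 ≤ δ := sub_nonneg.2 hst'
  set Δ : ℝ := b t - b s with hΔ
  set J : ℝ := ∫ r in (s : ℝ)..t, |b r.toNNReal - b s| with hJ
  have hbc : Continuous fun r : ℝ => |b r.toNNReal - b s| :=
    ((hb.comp continuous_real_toNNReal).sub continuous_const).abs
  have hJ0 : 0 ≤ J := intervalIntegral.integral_nonneg hst' fun r _ => abs_nonneg _
  set z0 : G := z s with hz0
  have hzc : Continuous fun r : ℝ => z r.toNNReal := hz.comp continuous_real_toNNReal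
  have hac : Continuous fun r : ℝ => a (z r.toNNReal) := h.a_cont.comp hzc
  set w2 : G := ∫ r in (s : ℝ)..t, a (z r.toNNReal) with hw2
  have hw2n : ‖w2‖ ≤ C * δ := by
    have := intervalIntegral.norm_integral_le_of_norm_le_const
      (a := (s : ℝ)) (b := t) (C := C) (f := fun r => a (z r.toNNReal)) (fun r _ => h.a_bdd _)
    rwa [abs_of_nonneg hδ0] at this
  -- distance from the start
  have hdist : ∀ r : ℝ, (s : ℝ) ≤ r → r ≤ t → ‖z r.toNNReal - z0‖ ≤ C * |b r.toNNReal - b s| + C * δ := by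
    intro r hr1 hr2
    have hr0 : 0 ≤ r := s.2.trans hr1
    have h1 : s ≤ r.toNNReal := by
      rw [← NNReal.coe_le_coe, Real.coe_toNNReal r hr0]; exact hr1
    have h2 : r.toNNReal ≤ t := by
      rw [← NNReal.coe_le_coe, Real.coe_toNNReal r hr0]; exact hr2
    rw [heq _ h1 h2, Real.coe_toNNReal r hr0]
    have h3 : ‖∫ u in (s : ℝ)..r, a (z u.toNNReal)‖ ≤ C * (r - s) := by
      have := intervalIntegral.norm_integral_le_of_norm_le_const
        (a := (s : ℝ)) (b := r) (C := C) (f := fun r => a (z r.toNNReal)) (fun r _ => h.a_bdd _)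
      rwa [abs_of_nonneg (sub_nonneg.2 hr1)] at this
    have h4 : z0 + (b r.toNNReal - b s) • e + (∫ u in (s : ℝ)..r, a (z u.toNNReal)) - z0
        = (b r.toNNReal - b s) • e + ∫ u in (s : ℝ)..r, a (z u.toNNReal) := by abel
    rw [h4]
    refine (norm_add_le _ _).trans (add_le_add ?_ ?_)
    · rw [norm_smul, Real.norm_eq_abs, mul_comm]
      exact mul_le_mul_of_nonneg_right h.e_bdd (abs_nonneg _)
    · refine h3.trans (mul_le_mul_of_nonneg_left ?_ hC)
      rw [hδ]; linarith
  have hI : ∫ r in (s : ℝ)..t, (C * |b r.toNNReal - b s| + C * δ) = C * J + C * δ * δ := by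
    rw [intervalIntegral.integral_add, intervalIntegral.integral_const_mul,
      intervalIntegral.integral_const, smul_eq_mul]
    · rw [← hJ, ← hδ]; ring
    · exact (hbc.const_smul C).intervalIntegrable _ _
    · exact continuous_const.intervalIntegrable _ _
  have hdI : ∫ r in (s : ℝ)..t, ‖z r.toNNReal - z0‖ ≤ C * J + C * δ * δ := by
    rw [← hI]
    refine intervalIntegral.integral_mono_on hst' ?_ ?_ fun r hr => hdist r hr.1 hr.2
    · exact ((hzc.sub continuous_const).norm).intervalIntegrable _ _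
    · exact ((hbc.const_smul C).add continuous_const).intervalIntegrable _ _
  -- the five remainders
  have hzt : z t = z0 + Δ • e + w2 := heq t hst le_rfl
  have R1 : |f (z0 + Δ • e) - f z0 - Δ * D z0 e - Δ ^ 2 / 2 * H z0| ≤ C * |Δ| ^ 3 :=
    h.taylor3 z0 Δ
  have R2 : |f (z t) - f (z0 + Δ • e) - D (z0 + Δ • e) w2| ≤ C * (C * δ) ^ 2 := by
    rw [hzt]
    refine (h.taylor2 _ _).trans (mul_le_mul_of_nonneg_left ?_ hC)
    exact pow_le_pow_left₀ (norm_nonneg _) hw2n 2
  have R3 : |D (z0 + Δ • e) w2 - D z0 w2| ≤ (C * (|Δ| * C)) * (C * δ) := by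
    rw [← Real.norm_eq_abs, ← sub_apply]
    refine ((D (z0 + Δ • e) - D z0).le_opNorm _).trans ?_
    refine mul_le_mul ?_ hw2n (norm_nonneg _) (by positivity)
    refine (h.D_lip _ _).trans (mul_le_mul_of_nonneg_left ?_ hC)
    rw [add_sub_cancel_left, norm_smul, Real.norm_eq_abs]
    exact mul_le_mul_of_nonneg_left h.e_bdd (abs_nonneg _)
  have R4 : |D z0 w2 - δ * D z0 (a z0)| ≤ C * (C * (C * J + C * δ * δ)) := by
    have e1 : w2 - δ • a z0 = ∫ r in (s : ℝ)..t, (a (z r.toNNReal) - a z0) := by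
      rw [intervalIntegral.integral_sub (hac.intervalIntegrable _ _)
        (continuous_const.intervalIntegrable _ _), intervalIntegral.integral_const]
    have e2 : D z0 w2 - δ * D z0 (a z0) = D z0 (w2 - δ • a z0) := by
      rw [map_sub, map_smul, smul_eq_mul]
    rw [e2, ← Real.norm_eq_abs]
    refine ((D z0).le_opNorm _).trans (mul_le_mul (h.D_bdd _) ?_ (norm_nonneg _) hC)
    rw [e1]
    calc ‖∫ r in (s : ℝ)..t, (a (z r.toNNReal) - a z0)‖
        ≤ ∫ r in (s : ℝ)..t, ‖a (z r.toNNReal) - a z0‖ :=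
          intervalIntegral.norm_integral_le_integral_norm hst'
      _ ≤ ∫ r in (s : ℝ)..t, C * ‖z r.toNNReal - z0‖ := by
          refine intervalIntegral.integral_mono_on hst' ?_ ?_ fun r _ => h.a_lip _ _
          · exact ((hac.sub continuous_const).norm).intervalIntegrable _ _
          · exact (continuous_const.mul (hzc.sub continuous_const).norm).intervalIntegrable _ _
      _ = C * ∫ r in (s : ℝ)..t, ‖z r.toNNReal - z0‖ := intervalIntegral.integral_const_mul _ _
      _ ≤ _ := mul_le_mul_of_nonneg_left hdI hC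
  have R5 : |δ * gen a D H z0 - ∫ r in (s : ℝ)..t, gen a D H (z r.toNNReal)|
      ≤ (C + 2 * C ^ 2) * (C * J + C * δ * δ) := by
    have hgc : Continuous fun r : ℝ => gen a D H (z r.toNNReal) := h.gen_cont.comp hzc
    have e1 : δ * gen a D H z0 - ∫ r in (s : ℝ)..t, gen a D H (z r.toNNReal)
        = - ∫ r in (s : ℝ)..t, (gen a D H (z r.toNNReal) - gen a D H z0) := by
      rw [intervalIntegral.integral_sub (hgc.intervalIntegrable _ _)
        (continuous_const.intervalIntegrable _ _), intervalIntegral.integral_const, smul_eq_mul]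
      ring
    rw [e1, abs_neg, ← Real.norm_eq_abs]
    calc ‖∫ r in (s : ℝ)..t, (gen a D H (z r.toNNReal) - gen a D H z0)‖
        ≤ ∫ r in (s : ℝ)..t, ‖gen a D H (z r.toNNReal) - gen a D H z0‖ :=
          intervalIntegral.norm_integral_le_integral_norm hst'
      _ ≤ ∫ r in (s : ℝ)..t, (C + 2 * C ^ 2) * ‖z r.toNNReal - z0‖ := by
          refine intervalIntegral.integral_mono_on hst' ?_ ?_ fun r _ => h.gen_lip _ _
          · exact ((hgc.sub continuous_const).norm).intervalIntegrable _ _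
          · exact (continuous_const.mul (hzc.sub continuous_const).norm).intervalIntegrable _ _
      _ = (C + 2 * C ^ 2) * ∫ r in (s : ℝ)..t, ‖z r.toNNReal - z0‖ :=
          intervalIntegral.integral_const_mul _ _
      _ ≤ _ := mul_le_mul_of_nonneg_left hdI (by positivity)
  have key : f (z t) - f z0 - (∫ r in (s : ℝ)..t, gen a D H (z r.toNNReal))
        - Δ * D z0 e - H z0 / 2 * (Δ ^ 2 - δ)
      = (f (z0 + Δ • e) - f z0 - Δ * D z0 e - Δ ^ 2 / 2 * H z0)
        + (f (z t) - f (z0 + Δ • e) - D (z0 + Δ • e) w2)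
        + (D (z0 + Δ • e) w2 - D z0 w2) + (D z0 w2 - δ * D z0 (a z0))
        + (δ * gen a D H z0 - ∫ r in (s : ℝ)..t, gen a D H (z r.toNNReal)) := by
    simp only [gen]
    ring
  rw [key]
  have tri : ∀ p q r u v : ℝ, |p + q + r + u + v| ≤ |p| + |q| + |r| + |u| + |v| := by
    intro p q r u v
    refine (abs_add_le _ _).trans (add_le_add ?_ le_rfl)
    refine (abs_add_le _ _).trans (add_le_add ?_ le_rfl)
    refine (abs_add_le _ _).trans (add_le_add ?_ le_rfl)
    exact abs_add_le _ _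
  refine (tri _ _ _ _ _).trans ?_
  have hΔ0 : 0 ≤ |Δ| := abs_nonneg Δ
  have p1 : 0 ≤ C ^ 2 * |Δ| ^ 3 := by positivity
  have p2 : 0 ≤ C ^ 3 * |Δ| ^ 3 := by positivity
  have p3 : 0 ≤ C * δ ^ 2 := by positivity
  have p4 : 0 ≤ C * (δ * |Δ|) := by positivity
  have p5 : 0 ≤ C ^ 2 * (δ * |Δ|) := by positivity
  have p6 : 0 ≤ C ^ 3 * (δ * |Δ|) := by positivity
  have p7 : 0 ≤ C * J := by positivity
  have p8 : 0 ≤ C ^ 3 * J := by positivity
  nlinarith [R1, R2, R3, R4, R5]

end Test

end Det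

/-! ### measurability of path integrals -/

lemma measurable_path_integral (m : MeasurableSpace Ω) {u : ℝ → Ω → ℝ}
    (hc : ∀ ω, Continuous fun r => u r ω) (hm : ∀ r, Measurable[m] (u r)) (x y : ℝ) :
    Measurable[m] (fun ω => ∫ r in x..y, u r ω) := by
  have hj : Measurable (Function.uncurry u) :=
    measurable_uncurry_of_continuous_of_measurable hc hm
  have hs : StronglyMeasurable (Function.uncurry u) := hj.stronglyMeasurable
  have h1 : ∀ S : Set ℝ, Measurable[m] (fun ω => ∫ r in S, u r ω) := fun S =>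
    (hs.integral_prod_left' (μ := volume.restrict S)).measurable
  simp only [intervalIntegral]
  exact (h1 _).sub (h1 _)

section Prob

variable {F : Filtration ℝ≥0 mΩ} {B : ℝ≥0 → Ω → ℝ}

lemma lint_path (hB : BMF F B P) {s t : ℝ≥0} (hst : s ≤ t) :
    ∫⁻ ω, ENNReal.ofReal (∫ r in (s : ℝ)..t, |B r.toNNReal ω - B s ω|) ∂P
      ≤ ENNReal.ofReal (gm 1 * (((t : ℝ) - s) * Real.sqrt ((t : ℝ) - s))) := by
  have := hB.isProb
  have hst' : (s : ℝ) ≤ t := NNReal.coe_le_coe.2 hst
  set δ : ℝ := (t : ℝ) - s with hδ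
  have hδ0 : 0 ≤ δ := sub_nonneg.2 hst'
  have hc : ∀ ω, Continuous fun r : ℝ => |B r.toNNReal ω - B s ω| := fun ω =>
    (((hB.cont ω).comp continuous_real_toNNReal).sub continuous_const).abs
  have hm : ∀ r : ℝ, Measurable fun ω => |B r.toNNReal ω - B s ω| := fun r =>
    (hB.meas_incr s r.toNNReal).abs
  have h1 : ∀ ω, ENNReal.ofReal (∫ r in (s : ℝ)..t, |B r.toNNReal ω - B s ω|)
      = ∫⁻ r in Ioc (s : ℝ) t, ENNReal.ofReal |B r.toNNReal ω - B s ω| := by
    intro ω
    rw [intervalIntegral.integral_of_le hst', ofReal_integral_eq_lintegral_ofReal]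
    · exact ((hc ω).integrableOn_Icc).mono_set Ioc_subset_Icc_self
    · exact Eventually.of_forall fun r => abs_nonneg _
  simp_rw [h1]
  have hj : Measurable (Function.uncurry fun (r : ℝ) (ω : Ω) => |B r.toNNReal ω - B s ω|) :=
    measurable_uncurry_of_continuous_of_measurable hc hm
  rw [lintegral_lintegral_swap]
  · have h2 : ∀ r ∈ Ioc (s : ℝ) t, ∫⁻ ω, ENNReal.ofReal |B r.toNNReal ω - B s ω| ∂P
        ≤ ENNReal.ofReal (gm 1 * Real.sqrt δ) := by
      intro r hr
      have hr0 : 0 ≤ r := s.2.trans hr.1.le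
      have hsr : s ≤ r.toNNReal := by
        rw [← NNReal.coe_le_coe, Real.coe_toNNReal r hr0]; exact hr.1.le
      have hi := hB.integrable_abs_pow 1 hsr
      have he := hB.integral_abs_pow 1 hsr
      simp only [pow_one] at hi he
      rw [← ofReal_integral_eq_lintegral_ofReal hi (Eventually.of_forall fun _ => abs_nonneg _),
        he, Real.coe_toNNReal r hr0, mul_comm]
      refine ENNReal.ofReal_le_ofReal (mul_le_mul_of_nonneg_left ?_ (gm_nonneg 1))
      exact Real.sqrt_le_sqrt (by rw [hδ]; linarith [hr.2])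
    calc _ ≤ ∫⁻ _ in Ioc (s : ℝ) t, ENNReal.ofReal (gm 1 * Real.sqrt δ) :=
          setLIntegral_mono' measurableSet_Ioc h2
      _ = ENNReal.ofReal (gm 1 * Real.sqrt δ) * ENNReal.ofReal δ := by
          rw [setLIntegral_const, Real.volume_Ioc]
      _ = _ := by
          rw [← ENNReal.ofReal_mul (mul_nonneg (gm_nonneg 1) (Real.sqrt_nonneg _))]
          congr 1
          ring
  · exact (ENNReal.measurable_ofReal.comp (hj.comp measurable_swap)).aemeasurable

lemma integrable_path (hB : BMF F B P) {s t : ℝ≥0} (hst : s ≤ t) :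
    Integrable (fun ω => ∫ r in (s : ℝ)..t, |B r.toNNReal ω - B s ω|) P := by
  have hst' : (s : ℝ) ≤ t := NNReal.coe_le_coe.2 hst
  have hc : ∀ ω, Continuous fun r : ℝ => |B r.toNNReal ω - B s ω| := fun ω =>
    (((hB.cont ω).comp continuous_real_toNNReal).sub continuous_const).abs
  have hm : ∀ r : ℝ, Measurable fun ω => |B r.toNNReal ω - B s ω| := fun r =>
    (hB.meas_incr s r.toNNReal).abs
  refine ⟨(measurable_path_integral mΩ hc hm _ _).aestronglyMeasurable, ?_⟩
  rw [hasFiniteIntegral_iff_ofReal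
    (Eventually.of_forall fun ω => intervalIntegral.integral_nonneg hst' fun _ _ => abs_nonneg _)]
  exact (lint_path hB hst).trans_lt ENNReal.ofReal_lt_top

lemma integral_path_le (hB : BMF F B P) {s t : ℝ≥0} (hst : s ≤ t) :
    ∫ ω, (∫ r in (s : ℝ)..t, |B r.toNNReal ω - B s ω|) ∂P
      ≤ gm 1 * (((t : ℝ) - s) * Real.sqrt ((t : ℝ) - s)) := by
  have hst' : (s : ℝ) ≤ t := NNReal.coe_le_coe.2 hst
  rw [integral_eq_lintegral_of_nonneg_ae
    (Eventually.of_forall fun ω => intervalIntegral.integral_nonneg hst' fun _ _ => abs_nonneg _)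
    (integrable_path hB hst).1]
  refine ENNReal.toReal_le_of_le_ofReal ?_ (lint_path hB hst)
  exact mul_nonneg (gm_nonneg 1) (mul_nonneg (sub_nonneg.2 hst') (Real.sqrt_nonneg _))

variable {G : Type*} [NormedAddCommGroup G] [NormedSpace ℝ G] [CompleteSpace G]
  [MeasurableSpace G] [BorelSpace G] [SecondCountableTopology G]
  {e : G} {a : G → G} {C : ℝ} {f : G → ℝ} {D : G → G →L[ℝ] ℝ} {H : G → ℝ}

/-- A state process: additive noise in direction `e`, drift `a`. -/
structure IsState (F : Filtration ℝ≥0 mΩ) (B : ℝ≥0 → Ω → ℝ) (e : G) (a : G → G)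
    (Z : ℝ≥0 → Ω → G) : Prop where
  adapted : ∀ t, Measurable[F t] (Z t)
  cont : ∀ ω, Continuous fun t => Z t ω
  eqn : ∀ ω, ∀ s t : ℝ≥0, s ≤ t →
    Z t ω = Z s ω + (B t ω - B s ω) • e + ∫ r in (s : ℝ)..t, a (Z r.toNNReal ω)

variable {Z : ℝ≥0 → Ω → G}

omit [CompleteSpace G] [BorelSpace G] [SecondCountableTopology G] in
lemma IsState.measurable (hZ : IsState F B e a Z) (t : ℝ≥0) : Measurable (Z t) :=
  (hZ.adapted t).mono (F.le t) le_rfl

/-- The process of the martingale problem. -/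
noncomputable def mart (a : G → G) (f : G → ℝ) (D : G → G →L[ℝ] ℝ) (H : G → ℝ)
    (Z : ℝ≥0 → Ω → G) (t : ℝ≥0) (ω : Ω) : ℝ :=
  f (Z t ω) - ∫ r in (0 : ℝ)..t, gen a D H (Z r.toNNReal ω)

omit [CompleteSpace G] [SecondCountableTopology G] in
lemma Test.mart_adapted (h : Test e a C f D H) (hZ : IsState F B e a Z) (t : ℝ≥0) :
    Measurable[F t] (mart a f D H Z t) := by
  have h1 : Measurable[F t] (fun ω => f (Z t ω)) := h.f_cont.measurable.comp (hZ.adapted t)
  have h2 : Measurable[F t] (fun ω => ∫ r in (0 : ℝ)..t, gen a D H (Z (min r.toNNReal t) ω)) := by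
    refine measurable_path_integral (F t) (fun ω => ?_) (fun r => ?_) 0 t
    · exact h.gen_cont.comp ((hZ.cont ω).comp (continuous_real_toNNReal.min continuous_const))
    · exact h.gen_cont.measurable.comp
        ((hZ.adapted _).mono (F.mono (min_le_right _ _)) le_rfl)
  have h3 : mart a f D H Z t = fun ω => f (Z t ω) -
      ∫ r in (0 : ℝ)..t, gen a D H (Z (min r.toNNReal t) ω) := by
    funext ω
    unfold mart
    congr 1
    refine intervalIntegral.integral_congr fun r hr => ?_
    rw [uIcc_of_le (NNReal.coe_nonneg t)] at hr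
    have : r.toNNReal ≤ t := by
      rw [← NNReal.coe_le_coe, Real.coe_toNNReal r hr.1]; exact hr.2
    simp only [min_eq_left this]
  rw [h3]
  exact h1.sub h2

omit [CompleteSpace G] [BorelSpace G] [SecondCountableTopology G] in
lemma Test.mart_sub (h : Test e a C f D H) (hZ : IsState F B e a Z) (s t : ℝ≥0) (ω : Ω) :
    mart a f D H Z t ω - mart a f D H Z s ω =
      f (Z t ω) - f (Z s ω) - ∫ r in (s : ℝ)..t, gen a D H (Z r.toNNReal ω) := by
  have hg : Continuous fun r : ℝ => gen a D H (Z r.toNNReal ω) :=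
    h.gen_cont.comp ((hZ.cont ω).comp continuous_real_toNNReal)
  have := intervalIntegral.integral_add_adjacent_intervals (μ := volume)
    (hg.intervalIntegrable 0 s) (hg.intervalIntegrable s t)
  unfold mart
  linarith

omit [CompleteSpace G] [MeasurableSpace G] [BorelSpace G] [SecondCountableTopology G] in
lemma Test.mart_bdd (h : Test e a C f D H) (t : ℝ≥0) (ω : Ω) :
    |mart a f D H Z t ω| ≤ C + (C + C ^ 2) * t := by
  unfold mart
  have h1 := h.f_bdd (Z t ω)
  have h2 : |∫ r in (0 : ℝ)..t, gen a D H (Z r.toNNReal ω)| ≤ (C + C ^ 2) * t := by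
    have := intervalIntegral.norm_integral_le_of_norm_le_const
      (a := (0 : ℝ)) (b := t) (C := C + C ^ 2) (f := fun r => gen a D H (Z r.toNNReal ω))
      (fun r _ => h.gen_bdd _)
    rwa [sub_zero, abs_of_nonneg (NNReal.coe_nonneg t), Real.norm_eq_abs] at this
  calc _ ≤ |f (Z t ω)| + |∫ r in (0 : ℝ)..t, gen a D H (Z r.toNNReal ω)| := abs_sub _ _
    _ ≤ _ := add_le_add h1 h2

lemma Test.mart_integrable (h : Test e a C f D H) (hB : BMF F B P) (hZ : IsState F B e a Z)
    (t : ℝ≥0) : Integrable (mart a f D H Z t) P := by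
  have := hB.isProb
  refine Integrable.of_bound (C := C + (C + C ^ 2) * t)
    ((h.mart_adapted hZ t).mono (F.le t) le_rfl).aestronglyMeasurable ?_
  exact Eventually.of_forall fun ω => h.mart_bdd t ω

/-- One step of the mesh. -/
lemma Test.step_prob (h : Test e a C f D H) (hB : BMF F B P) (hZ : IsState F B e a Z)
    {s t : ℝ≥0} (hst : s ≤ t) (ht1 : (t : ℝ) - s ≤ 1) {A : Set Ω} (hA : MeasurableSet[F s] A) :
    |∫ ω in A, (mart a f D H Z t ω - mart a f D H Z s ω) ∂P|
      ≤ (C + C ^ 2 + 4 * C ^ 3) * (gm 3 + 1 + 2 * gm 1) *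
        (((t : ℝ) - s) * Real.sqrt ((t : ℝ) - s)) := by
  have := hB.isProb
  have hC := h.C_nonneg
  have hst' : (s : ℝ) ≤ t := NNReal.coe_le_coe.2 hst
  set δ : ℝ := (t : ℝ) - s with hδ
  have hδ0 : 0 ≤ δ := sub_nonneg.2 hst'
  have hA' : MeasurableSet A := F.le s _ hA
  set K : ℝ := C + C ^ 2 + 4 * C ^ 3 with hK
  have hK0 : 0 ≤ K := by positivity
  -- the martingale part
  set g1 : Ω → ℝ := A.indicator fun ω => D (Z s ω) e with hg1
  set g2 : Ω → ℝ := A.indicator fun ω => H (Z s ω) / 2 with hg2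
  have mg1 : Measurable[F s] g1 := by
    refine Measurable.indicator ?_ hA
    exact ((h.D_cont.clm_apply continuous_const).measurable).comp (hZ.adapted s)
  have mg2 : Measurable[F s] g2 := by
    refine Measurable.indicator ?_ hA
    exact (h.H_cont.div_const 2).measurable.comp (hZ.adapted s)
  have bg1 : ∀ ω, |g1 ω| ≤ C * C := by
    intro ω
    rw [hg1]
    by_cases hω : ω ∈ A
    · rw [indicator_of_mem hω, ← Real.norm_eq_abs]
      exact ((D (Z s ω)).le_opNorm _).trans
        (mul_le_mul (h.D_bdd _) h.e_bdd (norm_nonneg _) hC)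
    · rw [indicator_of_notMem hω, abs_zero]; positivity
  have bg2 : ∀ ω, |g2 ω| ≤ C := by
    intro ω
    rw [hg2]
    by_cases hω : ω ∈ A
    · rw [indicator_of_mem hω, abs_div, abs_two]
      have := h.H_bdd (Z s ω)
      have := abs_nonneg (H (Z s ω))
      linarith
    · rw [indicator_of_notMem hω, abs_zero]; exact hC
  have ig1 : Integrable (fun ω => g1 ω * (B t ω - B s ω)) P :=
    (hB.integrable_incr hst).bdd_mul (c := C * C)
      ((mg1.mono (F.le s) le_rfl).aestronglyMeasurable)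
      (Eventually.of_forall fun ω => bg1 ω)
  have ig2 : Integrable (fun ω => g2 ω * (B t ω - B s ω) ^ 2) P :=
    (hB.integrable_sq hst).bdd_mul (c := C)
      ((mg2.mono (F.le s) le_rfl).aestronglyMeasurable)
      (Eventually.of_forall fun ω => bg2 ω)
  have ig2' : Integrable g2 P := by
    refine Integrable.of_bound (C := C) ((mg2.mono (F.le s) le_rfl).aestronglyMeasurable) ?_
    exact Eventually.of_forall bg2
  have e1 : ∫ ω, g1 ω * (B t ω - B s ω) ∂P = 0 := hB.integral_mul_incr hst mg1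
  have e2 : ∫ ω, (g2 ω * (B t ω - B s ω) ^ 2 - g2 ω * δ) ∂P = 0 := by
    rw [integral_sub ig2 (ig2'.mul_const _), hB.integral_mul_sq hst mg2, integral_mul_const]
    ring
  have iM : Integrable (A.indicator fun ω => mart a f D H Z t ω - mart a f D H Z s ω) P :=
    ((h.mart_integrable hB hZ t).sub (h.mart_integrable hB hZ s)).indicator hA'
  have e3 : ∫ ω in A, (mart a f D H Z t ω - mart a f D H Z s ω) ∂P =
      ∫ ω, (A.indicator (fun ω => mart a f D H Z t ω - mart a f D H Z s ω) ω
        - g1 ω * (B t ω - B s ω) - (g2 ω * (B t ω - B s ω) ^ 2 - g2 ω * δ)) ∂P := by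
    have iX : Integrable (fun ω => A.indicator (fun ω => mart a f D H Z t ω - mart a f D H Z s ω) ω
        - g1 ω * (B t ω - B s ω)) P := iM.sub ig1
    have iY : Integrable (fun ω => g2 ω * (B t ω - B s ω) ^ 2 - g2 ω * δ) P :=
      ig2.sub (ig2'.mul_const _)
    rw [integral_sub iX iY, integral_sub iM ig1, e1, e2, integral_indicator hA']
    ring
  rw [e3]
  -- the remainder
  have iR : Integrable (fun ω => K * (|B t ω - B s ω| ^ 3 + δ ^ 2
          + δ * |B t ω - B s ω| + ∫ r in (s : ℝ)..t, |B r.toNNReal ω - B s ω|)) P := by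
    refine Integrable.const_mul ?_ _
    refine ((((hB.integrable_abs_pow 3 hst).add (integrable_const _)).add ?_).add
      (integrable_path hB hst))
    exact ((hB.integrable_incr hst).abs).const_mul _
  have hb : ∀ ω, |A.indicator (fun ω => mart a f D H Z t ω - mart a f D H Z s ω) ω
        - g1 ω * (B t ω - B s ω) - (g2 ω * (B t ω - B s ω) ^ 2 - g2 ω * δ)|
      ≤ K * (|B t ω - B s ω| ^ 3 + δ ^ 2
          + δ * |B t ω - B s ω| + ∫ r in (s : ℝ)..t, |B r.toNNReal ω - B s ω|) := by
    intro ω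
    have hp : 0 ≤ ∫ r in (s : ℝ)..t, |B r.toNNReal ω - B s ω| :=
      intervalIntegral.integral_nonneg hst' fun _ _ => abs_nonneg _
    by_cases hω : ω ∈ A
    · have hd := h.step_det (hB.cont ω) (hZ.cont ω) hst
        (fun r hr1 _ => hZ.eqn ω s r hr1)
      simp only [hg1, hg2, indicator_of_mem hω]
      rw [h.mart_sub hZ]
      convert hd using 2
      ring
    · simp only [hg1, hg2, indicator_of_notMem hω]
      simp only [zero_mul, sub_zero, abs_zero]
      positivity
  have hnn : ‖∫ ω, (A.indicator (fun ω => mart a f D H Z t ω - mart a f D H Z s ω) ω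
        - g1 ω * (B t ω - B s ω) - (g2 ω * (B t ω - B s ω) ^ 2 - g2 ω * δ)) ∂P‖ ≤
      ∫ ω, K * (|B t ω - B s ω| ^ 3 + δ ^ 2
          + δ * |B t ω - B s ω| + ∫ r in (s : ℝ)..t, |B r.toNNReal ω - B s ω|) ∂P :=
    norm_integral_le_of_norm_le iR (Eventually.of_forall hb)
  rw [Real.norm_eq_abs] at hnn
  refine hnn.trans ?_
  have hi1 : Integrable (fun ω => |B t ω - B s ω|) P := (hB.integrable_incr hst).abs
  have ha1 : ∫ ω, |B t ω - B s ω| ∂P = Real.sqrt δ * gm 1 := by
    have := hB.integral_abs_pow 1 hst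
    simpa only [pow_one] using this
  have ha3 : ∫ ω, |B t ω - B s ω| ^ 3 ∂P = δ * Real.sqrt δ * gm 3 := by
    rw [hB.integral_abs_pow 3 hst, ← hδ]
    have : Real.sqrt δ ^ 3 = δ * Real.sqrt δ := by
      rw [pow_succ, Real.sq_sqrt hδ0]
    rw [this]
  rw [integral_const_mul, integral_add, integral_add, integral_add, integral_const,
    integral_const_mul, ha1, ha3]
  · have hpath := integral_path_le hB hst
    rw [← hδ] at hpath
    have hsq : δ ^ 2 ≤ δ * Real.sqrt δ := by
      have : δ ≤ Real.sqrt δ := by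
        apply Real.le_sqrt_of_sq_le
        nlinarith
      nlinarith
    have hx : δ * Real.sqrt δ * gm 3 + P.real univ • δ ^ 2 + δ * (Real.sqrt δ * gm 1)
        + ∫ ω, (∫ r in (s : ℝ)..t, |B r.toNNReal ω - B s ω|) ∂P
        ≤ (gm 3 + 1 + 2 * gm 1) * (δ * Real.sqrt δ) := by
      have hP : P.real univ = 1 := by simp
      rw [hP, one_smul]
      nlinarith
    calc _ ≤ K * ((gm 3 + 1 + 2 * gm 1) * (δ * Real.sqrt δ)) :=
          mul_le_mul_of_nonneg_left hx hK0
      _ = _ := by ring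
  · exact hB.integrable_abs_pow 3 hst
  · exact integrable_const _
  · exact (hB.integrable_abs_pow 3 hst).add (integrable_const _)
  · exact hi1.const_mul _
  · exact ((hB.integrable_abs_pow 3 hst).add (integrable_const _)).add (hi1.const_mul _)
  · exact integrable_path hB hst

/-- The martingale identity. -/
theorem Test.setIntegral_mart (h : Test e a C f D H) (hB : BMF F B P) (hZ : IsState F B e a Z)
    {s t : ℝ≥0} (hst : s ≤ t) {A : Set Ω} (hA : MeasurableSet[F s] A) :
    ∫ ω in A, mart a f D H Z t ω ∂P = ∫ ω in A, mart a f D H Z s ω ∂P := by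
  have hC := h.C_nonneg
  have hst' : (s : ℝ) ≤ t := NNReal.coe_le_coe.2 hst
  set φ : ℝ≥0 → ℝ := fun r => ∫ ω in A, mart a f D H Z r ω ∂P with hφ
  have hdiff : ∀ r r' : ℝ≥0, φ r' - φ r =
      ∫ ω in A, (mart a f D H Z r' ω - mart a f D H Z r ω) ∂P := by
    intro r r'
    rw [integral_sub (h.mart_integrable hB hZ r').integrableOn
      (h.mart_integrable hB hZ r).integrableOn]
  set K1 : ℝ := (C + C ^ 2 + 4 * C ^ 3) * (gm 3 + 1 + 2 * gm 1) with hK1
  have hK1n : 0 ≤ K1 := by
    have := gm_nonneg 3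
    have := gm_nonneg 1
    positivity
  set T : ℝ := (t : ℝ) - s with hT
  have hT0 : 0 ≤ T := sub_nonneg.2 hst'
  have main : ∀ n : ℕ, 1 ≤ n → T / n ≤ 1 → |φ t - φ s| ≤ K1 * T * Real.sqrt (T / n) := by
    intro n hn hTn
    have hn0 : (0 : ℝ) < n := by exact_mod_cast hn
    set d : ℝ≥0 := Real.toNNReal (T / n) with hd
    have hdc : (d : ℝ) = T / n := Real.coe_toNNReal _ (by positivity)
    set u : ℕ → ℝ≥0 := fun k => s + k * d with hu
    have hu0 : u 0 = s := by simp [hu]
    have hun : u n = t := by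
      apply NNReal.coe_injective
      simp only [hu, NNReal.coe_add, NNReal.coe_mul, NNReal.coe_natCast, hdc]
      field_simp
      rw [hT]; ring
    have huu : ∀ k, ((u (k + 1) : ℝ≥0) : ℝ) - u k = T / n := by
      intro k
      simp only [hu, NNReal.coe_add, NNReal.coe_mul, NNReal.coe_natCast, hdc]
      push_cast
      ring
    have hsu : ∀ k, s ≤ u k := fun k => by simp [hu]
    have hle : ∀ k, u k ≤ u (k + 1) := by
      intro k
      rw [← NNReal.coe_le_coe]
      have := huu k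
      have : 0 ≤ T / n := by positivity
      linarith [huu k]
    have hstep : ∀ k, |φ (u (k + 1)) - φ (u k)| ≤ K1 * (T / n * Real.sqrt (T / n)) := by
      intro k
      rw [hdiff]
      have := h.step_prob hB hZ (hle k) (by rw [huu]; exact hTn) (F.mono (hsu k) _ hA)
      rwa [huu] at this
    have htel : φ t - φ s = ∑ k ∈ Finset.range n, (φ (u (k + 1)) - φ (u k)) := by
      rw [Finset.sum_range_sub (fun k => φ (u k)), hu0, hun]
    rw [htel]
    calc |∑ k ∈ Finset.range n, (φ (u (k + 1)) - φ (u k))|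
        ≤ ∑ k ∈ Finset.range n, |φ (u (k + 1)) - φ (u k)| := Finset.abs_sum_le_sum_abs _ _
      _ ≤ ∑ k ∈ Finset.range n, K1 * (T / n * Real.sqrt (T / n)) :=
          Finset.sum_le_sum fun k _ => hstep k
      _ = n * (K1 * (T / n * Real.sqrt (T / n))) := by
          rw [Finset.sum_const, Finset.card_range, nsmul_eq_mul]
      _ = K1 * T * Real.sqrt (T / n) := by field_simp
  have hlim : Tendsto (fun n : ℕ => K1 * T * Real.sqrt (T / n)) atTop (𝓝 0) := by
    have h1 : Tendsto (fun n : ℕ => T / (n : ℝ)) atTop (𝓝 0) := tendsto_const_div_atTop_nhds_zero_nat T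
    have h2 := (Real.continuous_sqrt.tendsto 0).comp h1
    rw [Real.sqrt_zero] at h2
    have h3 := h2.const_mul (K1 * T)
    rw [mul_zero] at h3
    exact h3
  have hle : |φ t - φ s| ≤ 0 := by
    refine ge_of_tendsto hlim ?_
    filter_upwards [eventually_ge_atTop (max 1 ⌈T⌉₊)] with n hn
    have h1 : 1 ≤ n := (le_max_left _ _).trans hn
    have h2 : ⌈T⌉₊ ≤ n := (le_max_right _ _).trans hn
    refine main n h1 ?_
    have h3 : T ≤ n := (Nat.le_ceil T).trans (by exact_mod_cast h2)
    have hn0 : (0 : ℝ) < n := by exact_mod_cast h1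
    rw [div_le_one hn0]
    exact h3
  have h0 : φ t - φ s = 0 := abs_eq_zero.1 (le_antisymm hle (abs_nonneg _))
  exact sub_eq_zero.1 h0

/-- **Dynkin's formula**: `f (Z t) - ∫_0^t gen (Z r) dr` is a martingale. -/
theorem Test.martingale (h : Test e a C f D H) (hB : BMF F B P) (hZ : IsState F B e a Z) :
    Martingale (mart a f D H Z) F P := by
  have := hB.isProb
  refine ⟨fun t => (h.mart_adapted hZ t).stronglyMeasurable, fun s t hst => ?_⟩
  refine (ae_eq_condExp_of_forall_setIntegral_eq (F.le s) (h.mart_integrable hB hZ t)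
    (fun A _ _ => (h.mart_integrable hB hZ s).integrableOn) (fun A hA _ => ?_)
    (h.mart_adapted hZ s).stronglyMeasurable.aestronglyMeasurable).symm
  exact (h.setIntegral_mart hB hZ hst hA).symm

omit [CompleteSpace G] [MeasurableSpace G] [BorelSpace G] [SecondCountableTopology G] in
/-- continuity of the martingale paths -/
lemma Test.mart_cont (h : Test e a C f D H) (hZc : ∀ ω, Continuous fun t => Z t ω) (ω : Ω) :
    Continuous fun t => mart a f D H Z t ω := by
  have hg : Continuous fun r : ℝ => gen a D H (Z r.toNNReal ω) :=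
    h.gen_cont.comp ((hZc ω).comp continuous_real_toNNReal)
  refine (h.f_cont.comp (hZc ω)).sub ?_
  have : Continuous fun y : ℝ => ∫ r in (0 : ℝ)..y, gen a D H (Z r.toNNReal ω) :=
    intervalIntegral.continuous_primitive (fun _ _ => hg.intervalIntegrable _ _) 0
  exact this.comp NNReal.continuous_coe

end Prob

end Crest.Agent.R162.SM
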