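import Mathlib
import Crest.Agent.R162.OPTr2
import Crest.Agent.R162.SM

/-!
Row 162, node OPM (helper365 for helper9): the truncated state process solves the state equation.
-/

set_option autoImplicit false

open MeasureTheory ProbabilityTheory Set
open scoped NNReal ENNReal Topology
open Crest.ProbabilityR.Loewner

namespace Crest.Agent.R162.OPTr

open FL

section det

variable {W : ℝ → ℝ} {δ : ℝ} {z : ℂ}

lemma two_div_re (ζ : ℂ) : (2 / ζ).re = 2 * ζ.re / (ζ.re ^ 2 + ζ.im ^ 2) := by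
  rw [Complex.div_re, Complex.normSq_apply]
  simp
  ring

lemma two_div_im (ζ : ℂ) : (2 / ζ).im = -(2 * ζ.im / (ζ.re ^ 2 + ζ.im ^ 2)) := by
  rw [Complex.div_im, Complex.normSq_apply]
  simp
  ring

/-- the state plus the driving function in the first coordinate -/
noncomputable def stG (δ : ℝ) (W : ℝ → ℝ) (t : ℝ) (z : ℂ) : ℝ × ℝ × ℝ × ℝ :=
  ((hfl δ W z t).re, (hfl δ W z t).im, Real.log z.im + ∫ s in (0:ℝ)..t, cL δ (xy δ W z s),
    ∫ s in (0:ℝ)..t, ca δ (xy δ W z s))

lemma stG_eq (t : ℝ) : stG δ W t z = stD δ W t z + ((W t, 0, 0, 0) : ℝ × ℝ × ℝ × ℝ) := by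
  unfold stG stD xy
  simp

lemma cf_continuous (hδ : 0 < δ) : Continuous (cf δ) := by
  unfold cf mh
  have h : ∀ q : ℝ × ℝ × ℝ × ℝ, q.1 ^ 2 + (max q.2.1 δ) ^ 2 ≠ 0 := by
    intro q
    have : 0 < max q.2.1 δ := lt_max_of_lt_right hδ
    positivity
  have hd : Continuous fun q : ℝ × ℝ × ℝ × ℝ => q.1 ^ 2 + (max q.2.1 δ) ^ 2 := by fun_prop
  refine Continuous.prodMk ?_ (Continuous.prodMk ?_ (Continuous.prodMk ?_ ?_))
  · exact Continuous.div (by fun_prop) hd h
  · exact (Continuous.div (by fun_prop) hd h).neg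
  · exact (Continuous.div (by fun_prop) (hd.pow 2) (fun q => pow_ne_zero 2 (h q))).neg
  · exact Continuous.div (by fun_prop) hd h

lemma stG_deriv (hW : Continuous W) (hδ : 0 < δ) {r : ℝ} (hr : 0 < r) :
    HasDerivAt (fun t => stG δ W t z) (cf δ (stD δ W r z)) r := by
  have h1 : HasDerivAt (hfl δ W z) (vf W δ r (hfl δ W z r)) r :=
    (hfl_deriv (z := z) hW hδ (r + 1) r ⟨hr.le, by linarith⟩).hasDerivAt
      (Icc_mem_nhds hr (by linarith))
  have hre : HasDerivAt (fun t => (hfl δ W z t).re) (vf W δ r (hfl δ W z r)).re r :=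
    Complex.reCLM.hasFDerivAt.comp_hasDerivAt r h1
  have him : HasDerivAt (fun t => (hfl δ W z t).im) (vf W δ r (hfl δ W z r)).im r :=
    Complex.imCLM.hasFDerivAt.comp_hasDerivAt r h1
  have hxy := xy_contOn (z := z) hW hδ
  have hint : ∀ {c : ℝ × ℝ → ℝ}, Continuous c →
      HasDerivAt (fun t : ℝ => ∫ s in (0:ℝ)..t, c (xy δ W z s)) (c (xy δ W z r)) r := by
    intro c hc
    have hcc : ContinuousOn (fun s => c (xy δ W z s)) (Ici 0) := hc.comp_continuousOn hxy
    refine intervalIntegral.integral_hasDerivAt_right ?_ ?_ ?_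
    · exact ContinuousOn.intervalIntegrable_of_Icc hr.le (hcc.mono Icc_subset_Ici_self)
    · exact ContinuousOn.stronglyMeasurableAtFilter isOpen_Ioi
        (hcc.mono Ioi_subset_Ici_self) r hr
    · exact hcc.continuousAt (Ici_mem_nhds hr)
  have h2 := hre.prodMk (him.prodMk (((hint (cL_cont hδ)).const_add (Real.log z.im)).prodMk
    (hint (ca_cont hδ))))
  have e : cf δ (stD δ W r z) = ((vf W δ r (hfl δ W z r)).re, (vf W δ r (hfl δ W z r)).im,
      cL δ (xy δ W z r), ca δ (xy δ W z r)) := by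
    unfold vf
    rw [two_div_re, two_div_im]
    simp only [Complex.sub_re, Complex.sub_im, tr_re, tr_im, Complex.ofReal_re,
      Complex.ofReal_im, sub_zero, cf, mh, stD, xy, cL, ca]
  rw [e]
  exact h2

lemma stD_increment (hW : Continuous W) (hδ : 0 < δ) {s t : ℝ} (hs : 0 ≤ s) (hst : s ≤ t) :
    stD δ W t z = stD δ W s z + (W t - W s) • ((-1, 0, 0, 0) : ℝ × ℝ × ℝ × ℝ)
      + ∫ r in s..t, cf δ (stD δ W r z) := by
  have hsub : Icc s t ⊆ Ici 0 := fun x hx => hs.trans hx.1
  have hc : ContinuousOn (fun t => stD δ W t z) (Icc s t) := (stD_contOn hW hδ).mono hsub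
  have hcG : ContinuousOn (fun t => stG δ W t z) (Icc s t) := by
    have : (fun t => stG δ W t z) =
        fun t => stD δ W t z + ((W t, 0, 0, 0) : ℝ × ℝ × ℝ × ℝ) := by
      funext t
      exact stG_eq t
    rw [this]
    exact hc.add (hW.prodMk continuous_const).continuousOn
  have h := intervalIntegral.integral_eq_sub_of_hasDerivAt_of_le hst hcG
    (fun x hx => stG_deriv hW hδ (lt_of_le_of_lt hs hx.1))
    (ContinuousOn.intervalIntegrable_of_Icc hst ((cf_continuous hδ).comp_continuousOn hc))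
  rw [h, stG_eq, stG_eq]
  ext <;> simp <;> ring

end det

section proc

open OS OP

variable {Ω : Type*} {m : MeasurableSpace Ω} {P : Measure Ω} {Fl : Filtration ℝ≥0 m}
  {B : ℝ≥0 → Ω → ℝ} {κ δ : ℝ} {w : ℂ}

/-- the truncated state process solves the state equation with noise direction `(-√κ, 0, 0, 0)`
and drift `cf δ`. -/
theorem stDP_isState (hB : IsBM Fl B P) (hδ : 0 < δ) :
    SM.IsState Fl B ((-Real.sqrt κ, 0, 0, 0) : ℝ × ℝ × ℝ × ℝ) (cf δ) (stDP δ κ B w) where
  adapted := stDP_meas hB hδ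
  cont := stDP_cont hB hδ
  eqn := by
    intro ω s t hst
    have h := stD_increment (z := w) (driving_cont hB κ ω) hδ (s := (s : ℝ)) (t := (t : ℝ)) s.2
      (NNReal.coe_le_coe.2 hst)
    unfold stDP
    rw [h]
    have h1 : ∫ r in (s:ℝ)..t, cf δ (stD δ (driving κ B ω) r w) =
        ∫ r in (s:ℝ)..t, cf δ (stD δ (driving κ B ω) ((r.toNNReal : ℝ≥0) : ℝ) w) := by
      refine intervalIntegral.integral_congr fun r hr => ?_
      rw [uIcc_of_le (NNReal.coe_le_coe.2 hst)] at hr
      simp only [Real.coe_toNNReal r (s.2.trans hr.1)]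
    rw [h1]
    congr 2
    unfold driving
    simp only [Real.toNNReal_coe, Prod.smul_mk, smul_eq_mul, mul_zero, Prod.mk.injEq, and_true]
    ring

end proc

end Crest.Agent.R162.OPTr
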