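import Mathlib
import Crest.Agent.R162.OSDefs
import Crest.Agent.R162.SM

/-!
Row 162, node SM, part 2: existence and uniqueness of the cut-off state process, shift of the
Brownian motion, construction of test data from smooth functions.
-/

set_option autoImplicit false

namespace Crest.Agent.R162.SM

open MeasureTheory ProbabilityTheory Filter Set
open scoped NNReal ENNReal Topology

variable {Ω : Type*} {mΩ : MeasurableSpace Ω} {P : Measure Ω}

/-! ### bridge and shift -/

lemma BMF.of_isBM {F : Filtration ℝ≥0 mΩ} {B : ℝ≥0 → Ω → ℝ} (h : OS.IsBM F B P) :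
    BMF F B P where
  adapted := h.adapted
  cont := h.cont
  law s t hst := by
    have := h.law s (t - s)
    rwa [add_tsub_cancel_of_le hst] at this
  indep s t hst := by
    refine indep_of_indep_of_le_left (h.indep s) ?_
    have e : (fun ω => B t ω - B s ω) =
        (fun x : ℝ≥0 → ℝ => x (t - s)) ∘ (fun ω (u : ℝ≥0) => B (s + u) ω - B s ω) := by
      funext ω
      simp [add_tsub_cancel_of_le hst]
    rw [e, ← MeasurableSpace.comap_comp]
    exact MeasurableSpace.comap_mono (measurable_pi_apply _).comap_le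

/-- the shifted filtration -/
def shiftF (F : Filtration ℝ≥0 mΩ) (s : ℝ≥0) : Filtration ℝ≥0 mΩ where
  seq u := F (s + u)
  mono' _ _ h := F.mono (add_le_add le_rfl h)
  le' _ := F.le _

lemma BMF.shift {F : Filtration ℝ≥0 mΩ} {B : ℝ≥0 → Ω → ℝ} (h : BMF F B P) (s : ℝ≥0) :
    BMF (shiftF F s) (fun u ω => B (s + u) ω - B s ω) P where
  adapted u := (h.adapted (s + u)).sub ((h.adapted s).mono (F.mono le_self_add) le_rfl)
  cont ω := ((h.cont ω).comp (continuous_const.add continuous_id)).sub continuous_const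
  law r t hrt := by
    have := h.law (s + r) (s + t) (add_le_add le_rfl hrt)
    have e : (fun ω => B (s + t) ω - B s ω - (B (s + r) ω - B s ω)) =
        fun ω => B (s + t) ω - B (s + r) ω := by funext ω; ring
    rw [e, this]
    congr 1
    exact add_tsub_add_eq_tsub_left s t r
  indep r t hrt := by
    have := h.indep (s + r) (s + t) (add_le_add le_rfl hrt)
    have e : (fun ω => B (s + t) ω - B s ω - (B (s + r) ω - B s ω)) =
        fun ω => B (s + t) ω - B (s + r) ω := by funext ω; ring
    rw [e]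
    exact this

/-! ### measurability of vector valued path integrals -/

section

variable {G : Type*} [NormedAddCommGroup G] [NormedSpace ℝ G] [CompleteSpace G]
  [MeasurableSpace G] [BorelSpace G] [SecondCountableTopology G]

lemma measurable_path_integral' (m : MeasurableSpace Ω) {u : ℝ → Ω → G}
    (hc : ∀ ω, Continuous fun r => u r ω) (hm : ∀ r, Measurable[m] (u r)) (x y : ℝ) :
    Measurable[m] (fun ω => ∫ r in x..y, u r ω) := by
  have hj : Measurable (Function.uncurry u) :=
    measurable_uncurry_of_continuous_of_measurable hc hm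
  have hs : StronglyMeasurable (Function.uncurry u) := hj.stronglyMeasurable
  have h1 : ∀ S : Set ℝ, Measurable[m] (fun ω => ∫ r in S, u r ω) := fun S =>
    (hs.integral_prod_left' (μ := volume.restrict S)).measurable
  simp only [intervalIntegral]
  exact (h1 _).sub (h1 _)

/-! ### Picard iteration -/

/-- Picard iterates for `z t = q t + ∫_0^t a (z r) dr`. -/
noncomputable def pic (a : G → G) (q : ℝ → G) : ℕ → ℝ → G
  | 0 => q
  | n + 1 => fun t => q t + ∫ r in (0 : ℝ)..t, a (pic a q n r)

omit [MeasurableSpace G] [BorelSpace G] [SecondCountableTopology G] in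
lemma pic_cont {a : G → G} {q : ℝ → G} (ha : Continuous a) (hq : Continuous q) (n : ℕ) :
    Continuous (pic a q n) := by
  induction n with
  | zero => exact hq
  | succ n ih =>
    refine hq.add ?_
    exact intervalIntegral.continuous_primitive
      (fun _ _ => (ha.comp ih).intervalIntegrable _ _) 0

omit [MeasurableSpace G] [BorelSpace G] [SecondCountableTopology G] in
lemma pic_step {a : G → G} {q : ℝ → G} {C : ℝ} (hC : 0 ≤ C)
    (hal : ∀ z z', ‖a z - a z'‖ ≤ C * ‖z - z'‖) (hab : ∀ z, ‖a z‖ ≤ C) (hq : Continuous q)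
    (n : ℕ) : ∀ t : ℝ, 0 ≤ t →
      ‖pic a q (n + 1) t - pic a q n t‖ ≤ (C * t) ^ (n + 1) / (n + 1).factorial := by
  have ha : Continuous a := Test.continuous_of_lip hal
  induction n with
  | zero =>
    intro t ht
    have e : pic a q 1 t - pic a q 0 t = ∫ r in (0 : ℝ)..t, a (q r) := by
      simp only [pic]
      abel
    rw [e]
    have := intervalIntegral.norm_integral_le_of_norm_le_const
      (a := (0 : ℝ)) (b := t) (C := C) (f := fun r => a (q r)) (fun r _ => hab _)
    rw [sub_zero, abs_of_nonneg ht] at this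
    simpa using this
  | succ n ih =>
    intro t ht
    have hi1 : IntervalIntegrable (fun r => a (pic a q (n + 1) r)) volume 0 t :=
      (ha.comp (pic_cont ha hq _)).intervalIntegrable _ _
    have hi0 : IntervalIntegrable (fun r => a (pic a q n r)) volume 0 t :=
      (ha.comp (pic_cont ha hq _)).intervalIntegrable _ _
    have e : pic a q (n + 1 + 1) t - pic a q (n + 1) t =
        ∫ r in (0 : ℝ)..t, (a (pic a q (n + 1) r) - a (pic a q n r)) := by
      rw [intervalIntegral.integral_sub hi1 hi0]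
      show (q t + ∫ r in (0 : ℝ)..t, a (pic a q (n + 1) r)) -
        (q t + ∫ r in (0 : ℝ)..t, a (pic a q n r)) = _
      abel
    rw [e]
    calc ‖∫ r in (0 : ℝ)..t, (a (pic a q (n + 1) r) - a (pic a q n r))‖
        ≤ ∫ r in (0 : ℝ)..t, ‖a (pic a q (n + 1) r) - a (pic a q n r)‖ :=
          intervalIntegral.norm_integral_le_integral_norm ht
      _ ≤ ∫ r in (0 : ℝ)..t, C * ((C * r) ^ (n + 1) / (n + 1).factorial) := by
          refine intervalIntegral.integral_mono_on ht ?_ ?_ fun r hr => ?_
          · exact (((ha.comp (pic_cont ha hq _)).sub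
              (ha.comp (pic_cont ha hq _))).norm).intervalIntegrable _ _
          · exact Continuous.intervalIntegrable (by fun_prop) _ _
          · exact (hal _ _).trans (mul_le_mul_of_nonneg_left (ih r hr.1) hC)
      _ = (C * t) ^ (n + 1 + 1) / (n + 1 + 1).factorial := by
          have h1 : ∀ r : ℝ, C * ((C * r) ^ (n + 1) / (n + 1).factorial) =
              (C ^ (n + 2) / (n + 1).factorial) * r ^ (n + 1) := by
            intro r; rw [mul_pow]; ring
          simp_rw [h1]
          rw [intervalIntegral.integral_const_mul, integral_pow]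
          rw [Nat.factorial_succ (n + 1)]
          push_cast
          rw [mul_pow]
          field_simp
          ring

omit [MeasurableSpace G] [BorelSpace G] [SecondCountableTopology G] in
/-- convergence of the Picard iteration -/
lemma pic_lim {a : G → G} {q : ℝ → G} {C : ℝ} (hC : 0 ≤ C)
    (hal : ∀ z z', ‖a z - a z'‖ ≤ C * ‖z - z'‖) (hab : ∀ z, ‖a z‖ ≤ C) (hq : Continuous q) :
    ∃ y : ℝ → G, (∀ t, 0 ≤ t → Tendsto (fun n => pic a q n t) atTop (𝓝 (y t))) ∧
      ContinuousOn y (Ici 0) ∧ ∀ t, 0 ≤ t → y t = q t + ∫ r in (0 : ℝ)..t, a (y r) := by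
  have ha : Continuous a := Test.continuous_of_lip hal
  have hsum : ∀ t : ℝ, Summable fun n : ℕ => (C * t) ^ (n + 1) / ((n + 1).factorial : ℝ) :=
    fun t => (summable_nat_add_iff 1).2 (Real.summable_pow_div_factorial (C * t))
  set y : ℝ → G := fun t => pic a q 0 t + ∑' n, (pic a q (n + 1) t - pic a q n t) with hy
  have htend : ∀ t, 0 ≤ t → Tendsto (fun n => pic a q n t) atTop (𝓝 (y t)) := by
    intro t ht
    have hs : Summable fun n => (pic a q (n + 1) t - pic a q n t) :=
      Summable.of_norm_bounded (hsum t) fun n => pic_step hC hal hab hq n t ht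
    have h1 := hs.hasSum.tendsto_sum_nat
    have h2 : ∀ n, ∑ k ∈ Finset.range n, (pic a q (k + 1) t - pic a q k t) =
        pic a q n t - pic a q 0 t := fun n => Finset.sum_range_sub (fun k => pic a q k t) n
    simp_rw [h2] at h1
    have h3 := h1.const_add (pic a q 0 t)
    simpa using h3
  have hcont : ContinuousOn y (Ici 0) := by
    intro t ht
    have hT : ContinuousOn y (Icc 0 (t + 1)) := by
      refine ((pic_cont ha hq 0).continuousOn).add ?_
      refine continuousOn_tsum (u := fun n : ℕ => (C * (t + 1)) ^ (n + 1) / ((n + 1).factorial : ℝ))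
        (fun n => ((pic_cont ha hq _).sub (pic_cont ha hq _)).continuousOn) (hsum _) ?_
      intro n x hx
      refine (pic_step hC hal hab hq n x hx.1).trans ?_
      gcongr
      · exact mul_nonneg hC hx.1
      · exact hx.2
    have h1 : ContinuousWithinAt y (Icc 0 (t + 1)) t := hT t ⟨ht, by linarith [mem_Ici.1 ht]⟩
    refine h1.mono_of_mem_nhdsWithin ?_
    have : Icc (0 : ℝ) (t + 1) = Ici 0 ∩ Iic (t + 1) := Ici_inter_Iic.symm
    rw [this]
    exact inter_mem self_mem_nhdsWithin (mem_nhdsWithin_of_mem_nhds (Iic_mem_nhds (by linarith)))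
  refine ⟨y, htend, hcont, fun t ht => ?_⟩
  have h1 : Tendsto (fun n => pic a q (n + 1) t) atTop (𝓝 (y t)) :=
    (htend t ht).comp (tendsto_add_atTop_nat 1)
  have h2 : Tendsto (fun n => ∫ r in (0 : ℝ)..t, a (pic a q n r)) atTop
      (𝓝 (∫ r in (0 : ℝ)..t, a (y r))) := by
    refine intervalIntegral.tendsto_integral_filter_of_dominated_convergence (fun _ => C) ?_ ?_ ?_ ?_
    · exact Eventually.of_forall fun n =>
        (ha.comp (pic_cont ha hq n)).aestronglyMeasurable
    · exact Eventually.of_forall fun n => Eventually.of_forall fun r _ => hab _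
    · exact intervalIntegrable_const
    · refine Eventually.of_forall fun r hr => ?_
      rw [uIoc_of_le ht] at hr
      exact (ha.tendsto _).comp (htend r hr.1.le)
  have h3 : Tendsto (fun n => pic a q (n + 1) t) atTop
      (𝓝 (q t + ∫ r in (0 : ℝ)..t, a (y r))) := h2.const_add (q t)
  exact tendsto_nhds_unique h1 h3

/-- **Existence of the state process** with bounded Lipschitz drift and random start. -/
theorem exists_state {F : Filtration ℝ≥0 mΩ} {B : ℝ≥0 → Ω → ℝ} (hB : BMF F B P) (e : G)
    {a : G → G} {C : ℝ} (hC : 0 ≤ C) (hal : ∀ z z', ‖a z - a z'‖ ≤ C * ‖z - z'‖)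
    (hab : ∀ z, ‖a z‖ ≤ C) {ζ : Ω → G} (hζ : Measurable[F 0] ζ) :
    ∃ Z : ℝ≥0 → Ω → G, IsState F B e a Z ∧ ∀ ω, Z 0 ω = ζ ω := by
  have ha : Continuous a := Test.continuous_of_lip hal
  set q : Ω → ℝ → G := fun ω r => ζ ω + (B r.toNNReal ω - B 0 ω) • e with hqdef
  have hq : ∀ ω, Continuous (q ω) := fun ω =>
    continuous_const.add ((((hB.cont ω).comp continuous_real_toNNReal).sub
      continuous_const).smul continuous_const)
  choose y hy1 hy2 hy3 using fun ω => pic_lim hC hal hab (hq ω)
  -- adaptedness of the iterates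
  have hqm : ∀ (t : ℝ≥0) (r : ℝ), r.toNNReal ≤ t → Measurable[F t] fun ω => q ω r := by
    intro t r hr
    have h1 : Measurable[F t] ζ := hζ.mono (F.mono zero_le) le_rfl
    have h2 : Measurable[F t] (B r.toNNReal) := (hB.adapted _).mono (F.mono hr) le_rfl
    have h3 : Measurable[F t] (B 0) := (hB.adapted _).mono (F.mono zero_le) le_rfl
    have h4 : Measurable fun x : ℝ => x • e := by fun_prop
    have h5 : Measurable[F t] fun ω => (B r.toNNReal ω - B 0 ω) • e := h4.comp (h2.sub h3)
    exact h1.add h5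
  have hpm : ∀ (n : ℕ) (t : ℝ≥0) (r : ℝ), 0 ≤ r → r.toNNReal ≤ t →
      Measurable[F t] fun ω => pic a (q ω) n r := by
    intro n
    induction n with
    | zero => intro t r _ hr; exact hqm t r hr
    | succ n ih =>
      intro t r hr0 hr
      refine (hqm t r hr).add ?_
      have h1 : Measurable[F t] (fun ω => ∫ u in (0 : ℝ)..r, a (pic a (q ω) n (min (max u 0) r))) := by
        refine measurable_path_integral' (F t) (fun ω => ?_) (fun u => ?_) 0 r
        · exact ha.comp ((pic_cont ha (hq ω) n).comp (by fun_prop))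
        · refine ha.measurable.comp (ih t _ (le_min (le_max_right _ _) hr0) ?_)
          exact (Real.toNNReal_le_toNNReal (min_le_right _ _)).trans hr
      have h2 : (fun ω => ∫ u in (0 : ℝ)..r, a (pic a (q ω) n u)) =
          fun ω => ∫ u in (0 : ℝ)..r, a (pic a (q ω) n (min (max u 0) r)) := by
        funext ω
        refine intervalIntegral.integral_congr fun u hu => ?_
        rw [uIcc_of_le hr0] at hu
        simp only [max_eq_left hu.1, min_eq_left hu.2]
      rw [h2]
      exact h1
  have hyc : ∀ ω, Continuous fun t : ℝ≥0 => y ω t := fun ω =>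
    (hy2 ω).comp_continuous NNReal.continuous_coe fun t => t.2
  have hym : ∀ t : ℝ≥0, Measurable[F t] fun ω => y ω t := by
    intro t
    have h1 : Tendsto (fun n ω => pic a (q ω) n t) atTop (𝓝 fun ω => y ω t) := by
      rw [tendsto_pi_nhds]
      exact fun ω => hy1 ω t t.2
    exact (stronglyMeasurable_of_tendsto atTop
      (fun n => (hpm n t t t.2 (by rw [Real.toNNReal_coe])).stronglyMeasurable) h1).measurable
  refine ⟨fun t ω => y ω t, ⟨hym, hyc, ?_⟩, ?_⟩
  · intro ω s t hst
    have hc : Continuous fun r : ℝ => a (y ω (r.toNNReal : ℝ)) :=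
      ha.comp ((hyc ω).comp continuous_real_toNNReal)
    have hcongr : ∀ t' : ℝ≥0, ∫ r in (0 : ℝ)..t', a (y ω r) =
        ∫ r in (0 : ℝ)..t', a (y ω (r.toNNReal : ℝ)) := by
      intro t'
      refine intervalIntegral.integral_congr fun u hu => ?_
      rw [uIcc_of_le (NNReal.coe_nonneg t')] at hu
      simp only [Real.coe_toNNReal u hu.1]
    have h1 := hy3 ω t t.2
    have h2 := hy3 ω s s.2
    rw [hcongr] at h1 h2
    have h3 := intervalIntegral.integral_add_adjacent_intervals (μ := volume)
      (hc.intervalIntegrable 0 s) (hc.intervalIntegrable s t)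
    show y ω t = y ω s + _ + _
    rw [h1, h2, ← h3]
    simp only [hqdef, Real.toNNReal_coe]
    module
  · intro ω
    have h1 := hy3 ω 0 le_rfl
    show y ω ((0 : ℝ≥0) : ℝ) = ζ ω
    rw [NNReal.coe_zero, h1]
    simp [hqdef]

end

/-! ### test data from smooth functions -/

section Smooth

variable {G : Type*} [NormedAddCommGroup G] [NormedSpace ℝ G]

lemma lip_of_compact {E : Type*} [NormedAddCommGroup E] [NormedSpace ℝ E] {g : G → E}
    (hg : ContDiff ℝ 1 g) (hc : HasCompactSupport g) :
    ∃ K, 0 ≤ K ∧ (∀ z, ‖g z‖ ≤ K) ∧ (∀ z z', ‖g z - g z'‖ ≤ K * ‖z - z'‖) ∧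
      ∀ z, ‖fderiv ℝ g z‖ ≤ K := by
  obtain ⟨K1, h1⟩ := hg.continuous.bounded_above_of_compact_support hc
  obtain ⟨K2, h2⟩ := (hg.continuous_fderiv one_ne_zero).bounded_above_of_compact_support
    (hc.fderiv (𝕜 := ℝ))
  have hK1 : 0 ≤ K1 := (norm_nonneg _).trans (h1 0)
  have hK2 : 0 ≤ K2 := (norm_nonneg _).trans (h2 0)
  refine ⟨max K1 K2, le_max_of_le_left hK1, fun z => (h1 z).trans (le_max_left _ _),
    fun z z' => ?_, fun z => (h2 z).trans (le_max_right _ _)⟩
  have := convex_univ.norm_image_sub_le_of_norm_fderiv_le (𝕜 := ℝ) (f := g) (C := K2)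
    (fun x _ => (hg.differentiable one_ne_zero).differentiableAt)
    (fun x _ => h2 x) (mem_univ z') (mem_univ z)
  exact this.trans (mul_le_mul_of_nonneg_right (le_max_right _ _) (norm_nonneg _))

/-- **Test data from a `C^3` compactly supported function** and a bounded Lipschitz drift. -/
theorem exists_test {f : G → ℝ} (hf : ContDiff ℝ 3 f) (hfc : HasCompactSupport f) (e : G)
    {a : G → G} {Ka : ℝ} (hal : ∀ z z', ‖a z - a z'‖ ≤ Ka * ‖z - z'‖) (hab : ∀ z, ‖a z‖ ≤ Ka) :
    ∃ C, Test e a C f (fderiv ℝ f) (fun z => fderiv ℝ (fderiv ℝ f) z e e) := by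
  have hKa : 0 ≤ Ka := (norm_nonneg _).trans (hab 0)
  have hD2 : ContDiff ℝ 2 (fderiv ℝ f) := hf.fderiv_right (m := 2) (by norm_num)
  have hDc : HasCompactSupport (fderiv ℝ f) := hfc.fderiv (𝕜 := ℝ)
  have hDD : ContDiff ℝ 1 (fderiv ℝ (fderiv ℝ f)) := hD2.fderiv_right (m := 1) (by norm_num)
  have hDDc : HasCompactSupport (fderiv ℝ (fderiv ℝ f)) := hDc.fderiv (𝕜 := ℝ)
  obtain ⟨K0, hK0, b0, l0, -⟩ := lip_of_compact (hf.of_le (by norm_num)) hfc
  obtain ⟨K1, hK1, b1, l1, -⟩ := lip_of_compact (hD2.of_le (by norm_num)) hDc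
  obtain ⟨K2, hK2, b2, l2, -⟩ := lip_of_compact hDD hDDc
  set H : G → ℝ := fun z => fderiv ℝ (fderiv ℝ f) z e e with hH
  have hHb : ∀ z, |H z| ≤ K2 * ‖e‖ * ‖e‖ := by
    intro z
    rw [← Real.norm_eq_abs]
    refine ((fderiv ℝ (fderiv ℝ f) z e).le_opNorm e).trans ?_
    refine mul_le_mul_of_nonneg_right ?_ (norm_nonneg _)
    exact ((fderiv ℝ (fderiv ℝ f) z).le_opNorm e).trans
      (mul_le_mul_of_nonneg_right (b2 z) (norm_nonneg _))
  have hHl : ∀ z z', |H z - H z'| ≤ K2 * ‖e‖ * ‖e‖ * ‖z - z'‖ := by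
    intro z z'
    have e1 : H z - H z' = (fderiv ℝ (fderiv ℝ f) z - fderiv ℝ (fderiv ℝ f) z') e e := by
      simp [hH]
    rw [e1, ← Real.norm_eq_abs]
    refine ((((fderiv ℝ (fderiv ℝ f) z - fderiv ℝ (fderiv ℝ f) z') e)).le_opNorm e).trans ?_
    have h2 : ‖(fderiv ℝ (fderiv ℝ f) z - fderiv ℝ (fderiv ℝ f) z') e‖ ≤ K2 * ‖z - z'‖ * ‖e‖ :=
      ((fderiv ℝ (fderiv ℝ f) z - fderiv ℝ (fderiv ℝ f) z').le_opNorm e).trans
        (mul_le_mul_of_nonneg_right (l2 z z') (norm_nonneg _))
    calc _ ≤ K2 * ‖z - z'‖ * ‖e‖ * ‖e‖ := mul_le_mul_of_nonneg_right h2 (norm_nonneg _)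
      _ = _ := by ring
  have hfd : ∀ x, HasFDerivAt f (fderiv ℝ f x) x := fun x =>
    ((hf.differentiable (by norm_num)) x).hasFDerivAt
  have hDd : ∀ x, HasFDerivAt (fderiv ℝ f) (fderiv ℝ (fderiv ℝ f) x) x := fun x =>
    ((hD2.differentiable (by norm_num)) x).hasFDerivAt
  set L : ℝ := K2 * ‖e‖ * ‖e‖ * ‖e‖ with hL
  have hL0 : 0 ≤ L := by positivity
  -- Taylor order 3 in direction e
  have T3 : ∀ z (h : ℝ), |f (z + h • e) - f z - h * fderiv ℝ f z e - h ^ 2 / 2 * H z|
      ≤ L * |h| ^ 3 := by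
    intro z h
    have hline : ∀ t : ℝ, HasDerivAt (fun t : ℝ => z + t • e) e t := by
      intro t
      simpa using ((hasDerivAt_id t).smul_const e).const_add z
    have hd1 : ∀ t : ℝ, HasDerivAt (fun t : ℝ => fderiv ℝ f (z + t • e) e) (H (z + t • e)) t := by
      intro t
      have h1 := (hDd (z + t • e)).comp_hasDerivAt t (hline t)
      have h2 := h1.clm_apply (hasDerivAt_const t e)
      simpa [hH] using h2
    have hd0 : ∀ t : ℝ, HasDerivAt (fun t : ℝ => f (z + t • e)) (fderiv ℝ f (z + t • e) e) t :=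
      fun t => (hfd (z + t • e)).comp_hasDerivAt t (hline t)
    set R : ℝ := |h| with hR
    have hR0 : 0 ≤ R := abs_nonneg h
    have hsub : ∀ x ∈ Icc (-R) R, |x| ≤ R := fun x hx => abs_le.2 hx
    have h0m : (0 : ℝ) ∈ Icc (-R) R := ⟨by linarith, hR0⟩
    have hhm : h ∈ Icc (-R) R := abs_le.1 le_rfl
    -- second order
    have s1 : ∀ x ∈ Icc (-R) R,
        |fderiv ℝ f (z + x • e) e - fderiv ℝ f z e - x * H z| ≤ L * R * R := by
      intro x hx
      have hder : ∀ t ∈ Icc (-R) R, HasDerivWithinAt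
          (fun t : ℝ => fderiv ℝ f (z + t • e) e - fderiv ℝ f z e - t * H z)
          (H (z + t • e) - H z) (Icc (-R) R) t := by
        intro t _
        have h3 : HasDerivAt (fun t : ℝ => fderiv ℝ f (z + t • e) e - fderiv ℝ f z e - t * H z)
            (H (z + t • e) - 1 * H z) t :=
          ((hd1 t).sub_const (fderiv ℝ f z e)).sub ((hasDerivAt_id t).mul_const (H z))
        rw [one_mul] at h3
        exact h3.hasDerivWithinAt
      have hbd : ∀ t ∈ Icc (-R) R, ‖H (z + t • e) - H z‖ ≤ L * R := by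
        intro t ht
        rw [Real.norm_eq_abs]
        refine (hHl _ _).trans ?_
        rw [add_sub_cancel_left, norm_smul, Real.norm_eq_abs]
        have := hsub t ht
        calc K2 * ‖e‖ * ‖e‖ * (|t| * ‖e‖) = L * |t| := by rw [hL]; ring
          _ ≤ L * R := mul_le_mul_of_nonneg_left this hL0
      have := (convex_Icc (-R) R).norm_image_sub_le_of_norm_hasDerivWithin_le hder hbd h0m hx
      simp only [zero_smul, add_zero, zero_mul, sub_self, sub_zero] at this
      rw [Real.norm_eq_abs, Real.norm_eq_abs] at this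
      exact this.trans (mul_le_mul_of_nonneg_left (hsub x hx) (by positivity))
    have hder : ∀ t ∈ Icc (-R) R, HasDerivWithinAt
        (fun t : ℝ => f (z + t • e) - f z - t * fderiv ℝ f z e - t ^ 2 / 2 * H z)
        (fderiv ℝ f (z + t • e) e - fderiv ℝ f z e - t * H z) (Icc (-R) R) t := by
      intro t _
      have h3 : HasDerivAt
          (fun t : ℝ => f (z + t • e) - f z - t * fderiv ℝ f z e - t ^ 2 / 2 * H z)
          (fderiv ℝ f (z + t • e) e - 1 * fderiv ℝ f z e - (((2 : ℕ) : ℝ) * t ^ (2 - 1)) / 2 * H z)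
          t :=
        (((hd0 t).sub_const (f z)).sub
          ((hasDerivAt_id t).mul_const (fderiv ℝ f z e))).sub
          (((hasDerivAt_pow 2 t).div_const 2).mul_const (H z))
      have h4 : fderiv ℝ f (z + t • e) e - 1 * fderiv ℝ f z e
          - (((2 : ℕ) : ℝ) * t ^ (2 - 1)) / 2 * H z
          = fderiv ℝ f (z + t • e) e - fderiv ℝ f z e - t * H z := by
        norm_num
      rw [h4] at h3
      exact h3.hasDerivWithinAt
    have := (convex_Icc (-R) R).norm_image_sub_le_of_norm_hasDerivWithin_le hder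
      (fun t ht => by rw [Real.norm_eq_abs]; exact s1 t ht) h0m hhm
    simp only [zero_smul, add_zero, zero_mul, sub_self, sub_zero, ne_eq, OfNat.ofNat_ne_zero,
      not_false_eq_true, zero_pow, zero_div] at this
    rw [Real.norm_eq_abs, Real.norm_eq_abs] at this
    calc _ ≤ L * R * R * |h| := this
      _ = L * |h| ^ 3 := by rw [hR]; ring
  -- Taylor order 2
  have T2 : ∀ z w, |f (z + w) - f z - fderiv ℝ f z w| ≤ K1 * ‖w‖ ^ 2 := by
    intro z w
    have hz : z ∈ Metric.closedBall z ‖w‖ := Metric.mem_closedBall_self (norm_nonneg _)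
    have hw : z + w ∈ Metric.closedBall z ‖w‖ := by simp
    have := (convex_closedBall z ‖w‖).norm_image_sub_le_of_norm_hasFDerivWithin_le'
      (f := f) (f' := fderiv ℝ f) (φ := fderiv ℝ f z) (C := K1 * ‖w‖)
      (fun x _ => (hfd x).hasFDerivWithinAt)
      (fun x hx => (l1 x z).trans (mul_le_mul_of_nonneg_left
        (by rwa [mem_closedBall_iff_norm] at hx) hK1)) hz hw
    rw [add_sub_cancel_left, Real.norm_eq_abs] at this
    calc _ ≤ K1 * ‖w‖ * ‖w‖ := this
      _ = _ := by ring
  set M : ℝ := K0 + K1 + K2 * ‖e‖ * ‖e‖ + L + Ka + ‖e‖ with hM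
  have he := norm_nonneg e
  have hKe : 0 ≤ K2 * ‖e‖ * ‖e‖ := by positivity
  have mle : ∀ {x y : ℝ}, x ≤ M → 0 ≤ y → x * y ≤ M * y := fun h1 h2 =>
    mul_le_mul_of_nonneg_right h1 h2
  refine ⟨M, ?_, ?_, ?_, ?_, ?_, ?_, ?_, ?_, ?_, ?_, ?_⟩
  · positivity
  · exact fun z h => (T3 z h).trans (mle (by rw [hM]; linarith) (by positivity))
  · exact fun z w => (T2 z w).trans (mle (by rw [hM]; linarith) (by positivity))
  · exact fun z z' => (l1 z z').trans (mle (by rw [hM]; linarith) (by positivity))
  · exact fun z => (b1 z).trans (by rw [hM]; linarith)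
  · exact fun z z' => (hHl z z').trans (mle (by rw [hM]; linarith) (by positivity))
  · exact fun z => (hHb z).trans (by rw [hM]; linarith)
  · intro z
    have := b0 z
    rw [Real.norm_eq_abs] at this
    exact this.trans (by rw [hM]; linarith)
  · exact fun z z' => (hal z z').trans (mle (by rw [hM]; linarith) (by positivity))
  · exact fun z => (hab z).trans (by rw [hM]; linarith)
  · rw [hM]; linarith

end Smooth

end Crest.Agent.R162.SM
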