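import Mathlib
import Crest.Agent.R162.OPTr2
import Crest.Agent.R162.OPCf
import Crest.Agent.R162.OPState
import Crest.Agent.R162.SM2

/-!
Row 162, node OPM (helper9): the master one-point theorem (Dynkin formula between stopping
times for the state process of one point).
-/

set_option autoImplicit false

open MeasureTheory ProbabilityTheory Set
open scoped NNReal ENNReal Topology Manifold
open Crest.ProbabilityR.Loewner

namespace Crest.Agent.R162.OPM

open FL OS OP OPTr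

local notation "E4" => (ℝ × ℝ × ℝ × ℝ)

/-- noise direction -/
noncomputable def ev (κ : ℝ) : E4 := (-Real.sqrt κ, 0, 0, 0)

/-- the generator only depends on the germ of the function -/
lemma gen_congr {κ : ℝ} {f g : E4 → ℝ} {q : E4} (h : f =ᶠ[𝓝 q] g) : gen κ f q = gen κ g q := by
  have h1 : (fun x => f (x, q.2)) =ᶠ[𝓝 q.1] (fun x => g (x, q.2)) := by
    have hc : ContinuousAt (fun x : ℝ => ((x, q.2) : E4)) q.1 := by fun_prop
    exact hc.eventually h
  have h2 : (fun y => f (q.1, y, q.2.2)) =ᶠ[𝓝 q.2.1] (fun y => g (q.1, y, q.2.2)) := by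
    have hc : ContinuousAt (fun y : ℝ => ((q.1, y, q.2.2) : E4)) q.2.1 := by fun_prop
    exact hc.eventually h
  have h3 : (fun l => f (q.1, q.2.1, l, q.2.2.2)) =ᶠ[𝓝 q.2.2.1]
      (fun l => g (q.1, q.2.1, l, q.2.2.2)) := by
    have hc : ContinuousAt (fun l : ℝ => ((q.1, q.2.1, l, q.2.2.2) : E4)) q.2.2.1 := by fun_prop
    exact hc.eventually h
  have h4 : (fun a => f (q.1, q.2.1, q.2.2.1, a)) =ᶠ[𝓝 q.2.2.2]
      (fun a => g (q.1, q.2.1, q.2.2.1, a)) := by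
    have hc : ContinuousAt (fun a : ℝ => ((q.1, q.2.1, q.2.2.1, a) : E4)) q.2.2.2 := by fun_prop
    exact hc.eventually h
  unfold gen
  rw [h1.deriv_eq, h1.deriv.deriv_eq, h2.deriv_eq, h3.deriv_eq, h4.deriv_eq]

/-- the abstract generator equals the coordinate generator above `δ` -/
lemma gen_match {κ δ : ℝ} (hκ : 0 ≤ κ) {f : E4 → ℝ} (hf : ContDiff ℝ 3 f) {q : E4}
    (hq : δ ≤ q.2.1) :
    SM.gen (cf δ) (fderiv ℝ f) (fun z => fderiv ℝ (fderiv ℝ f) z (ev κ) (ev κ)) q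
      = gen κ f q := by
  have hd : ∀ z, DifferentiableAt ℝ f z := fun z => (hf.differentiable (by norm_num)) z
  have hd2 : ∀ z, DifferentiableAt ℝ (fderiv ℝ f) z := fun z =>
    ((hf.fderiv_right (m := 2) (by norm_num)).differentiable (by norm_num)) z
  have e1 : ∀ x : ℝ, deriv (fun x => f (x, q.2)) x = fderiv ℝ f (x, q.2) (1, 0) := by
    intro x
    have h1 : HasDerivAt (fun x : ℝ => ((x, q.2) : E4)) (1, 0) x :=
      (hasDerivAt_id x).prodMk (hasDerivAt_const x q.2)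
    exact ((hd (x, q.2)).hasFDerivAt.comp_hasDerivAt x h1).deriv
  have e2 : deriv (fun y => f (q.1, y, q.2.2)) q.2.1 = fderiv ℝ f q (0, 1, 0) := by
    have h1 : HasDerivAt (fun y : ℝ => ((q.1, y, q.2.2) : E4)) (0, 1, 0) q.2.1 :=
      (hasDerivAt_const _ q.1).prodMk ((hasDerivAt_id q.2.1).prodMk (hasDerivAt_const _ q.2.2))
    exact ((hd q).hasFDerivAt.comp_hasDerivAt q.2.1 h1).deriv
  have e3 : deriv (fun l => f (q.1, q.2.1, l, q.2.2.2)) q.2.2.1 = fderiv ℝ f q (0, 0, 1, 0) := by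
    have h1 : HasDerivAt (fun l : ℝ => ((q.1, q.2.1, l, q.2.2.2) : E4)) (0, 0, 1, 0) q.2.2.1 :=
      (hasDerivAt_const _ q.1).prodMk ((hasDerivAt_const _ q.2.1).prodMk
        ((hasDerivAt_id q.2.2.1).prodMk (hasDerivAt_const _ q.2.2.2)))
    exact ((hd q).hasFDerivAt.comp_hasDerivAt q.2.2.1 h1).deriv
  have e4 : deriv (fun a => f (q.1, q.2.1, q.2.2.1, a)) q.2.2.2 = fderiv ℝ f q (0, 0, 0, 1) := by
    have h1 : HasDerivAt (fun a : ℝ => ((q.1, q.2.1, q.2.2.1, a) : E4)) (0, 0, 0, 1) q.2.2.2 :=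
      (hasDerivAt_const _ q.1).prodMk ((hasDerivAt_const _ q.2.1).prodMk
        ((hasDerivAt_const _ q.2.2.1).prodMk (hasDerivAt_id q.2.2.2)))
    exact ((hd q).hasFDerivAt.comp_hasDerivAt q.2.2.2 h1).deriv
  have e5 : deriv (deriv fun x => f (x, q.2)) q.1 = fderiv ℝ (fderiv ℝ f) q (1, 0) (1, 0) := by
    have h0 : (deriv fun x => f (x, q.2)) = fun x => fderiv ℝ f (x, q.2) (1, 0) := funext e1
    rw [h0]
    have h1 : HasDerivAt (fun x : ℝ => ((x, q.2) : E4)) (1, 0) q.1 :=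
      (hasDerivAt_id q.1).prodMk (hasDerivAt_const q.1 q.2)
    have h2 := (hd2 (q.1, q.2)).hasFDerivAt.comp_hasDerivAt q.1 h1
    have h3 := h2.clm_apply (hasDerivAt_const q.1 ((1, 0) : E4))
    simpa using h3.deriv
  have hm : mh δ q = q.2.1 := max_eq_left hq
  have hcf : cf δ q = (2 * q.1 / (q.1 ^ 2 + q.2.1 ^ 2)) • ((1, 0) : E4)
      + (-(2 * q.2.1 / (q.1 ^ 2 + q.2.1 ^ 2))) • ((0, 1, 0) : E4)
      + (-(4 * q.2.1 ^ 2 / (q.1 ^ 2 + q.2.1 ^ 2) ^ 2)) • ((0, 0, 1, 0) : E4)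
      + (1 / (q.1 ^ 2 + q.2.1 ^ 2)) • ((0, 0, 0, 1) : E4) := by
    unfold cf
    rw [hm]
    ext <;> simp
  have hev : ev κ = (-Real.sqrt κ) • ((1, 0) : E4) := by
    unfold ev
    ext <;> simp
  unfold SM.gen gen
  rw [e1 q.1, e2, e3, e4, e5, hcf, hev]
  simp only [map_add, map_smul, smul_eq_mul, smul_apply]
  have hs : Real.sqrt κ * Real.sqrt κ = κ := Real.mul_self_sqrt hκ
  have : -Real.sqrt κ * (-Real.sqrt κ * (fderiv ℝ (fderiv ℝ f) q (1, 0) (1, 0)))
      = κ * (fderiv ℝ (fderiv ℝ f) q (1, 0) (1, 0)) := by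
    linear_combination (fderiv ℝ (fderiv ℝ f) q (1, 0) (1, 0)) * hs
  rw [this]
  ring

section core

variable {Ω : Type*} {m : MeasurableSpace Ω} {P : Measure Ω} {Fl : Filtration ℝ≥0 m}
  {B : ℝ≥0 → Ω → ℝ}

/-- assembly of the master theorem from the abstract Dynkin martingale and optional stopping -/
theorem opm_core [IsProbabilityMeasure P] (hB : IsBM Fl B P) (hBM : SM.BMF Fl B P) {κ δ C : ℝ}
    (hκ : 0 ≤ κ) (hδ : 0 < δ) {w : ℂ}
    (hst : SM.IsState Fl B (ev κ) (cf δ) (stDP δ κ B w)) {f' : E4 → ℝ} (hf' : ContDiff ℝ 3 f')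
    (htest : SM.Test (ev κ) (cf δ) C f' (fderiv ℝ f')
      (fun z => fderiv ℝ (fderiv ℝ f') z (ev κ) (ev κ)))
    {f : E4 → ℝ} {K : Set E4} (hKδ : ∀ q ∈ K, δ ≤ q.2.1) (hff : ∀ q ∈ K, f' =ᶠ[𝓝 q] f)
    {σ τ : Ω → ℝ≥0} (hσ : IsST Fl σ) (hτ : IsST Fl τ) {T : ℝ≥0} (hT : ∀ ω, τ ω ≤ T)
    {A : Set Ω} (hA : EvST Fl σ A) (hle : ∀ ω ∈ A, σ ω ≤ τ ω)
    (hin : ∀ ω ∈ A, ∀ t : ℝ≥0, σ ω ≤ t → t ≤ τ ω → AliveP κ B w t ω ∧ stP κ B w t ω ∈ K) :
    ∫ ω in A, f (stP κ B w (τ ω) ω) ∂P = ∫ ω in A, f (stP κ B w (σ ω) ω) ∂P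
      + ∫ ω in A, (∫ s in (σ ω : ℝ)..(τ ω : ℝ), gen κ f (stW (driving κ B ω) s w)) ∂P := by
  have hAm : MeasurableSet A := hA.measurableSet
  set D' : E4 → E4 →L[ℝ] ℝ := fderiv ℝ f' with hD'
  set H' : E4 → ℝ := fun z => fderiv ℝ (fderiv ℝ f') z (ev κ) (ev κ) with hH'
  set Z : ℝ≥0 → Ω → E4 := stDP δ κ B w with hZ
  set M : ℝ≥0 → Ω → ℝ := SM.mart (cf δ) f' D' H' Z with hM
  have hZc : ∀ ω, Continuous fun t => Z t ω := fun ω => stDP_cont hB hδ ω
  have hmart : Martingale M Fl P := htest.martingale hBM hst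
  have hMc : ∀ ω, Continuous fun t => M t ω := fun ω => htest.mart_cont hZc ω
  -- the stopping times
  set σ' : Ω → ℝ≥0 := fun ω => min (σ ω) T with hσ'
  set τ' : Ω → ℝ≥0 := fun ω => max (σ' ω) (τ ω) with hτ'
  have hσ's : IsST Fl σ' := hσ.min (IsST.const T)
  have hτ's : IsST Fl τ' := hσ's.max hτ
  have hle' : ∀ ω, σ' ω ≤ τ' ω := fun ω => le_max_left _ _
  have hT' : ∀ ω, τ' ω ≤ T := fun ω => max_le (min_le_right _ _) (hT ω)
  have hσA : ∀ ω ∈ A, σ' ω = σ ω := fun ω hω => min_eq_left ((hle ω hω).trans (hT ω))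
  have hτA : ∀ ω ∈ A, τ' ω = τ ω := fun ω hω => by
    rw [hτ']
    simp only
    rw [hσA ω hω]
    exact max_eq_right (hle ω hω)
  have hA' : EvST Fl σ' A := by
    intro t
    by_cases h : t < T
    · have e : A ∩ {ω | σ' ω ≤ t} = A ∩ {ω | σ ω ≤ t} := by
        ext ω
        simp only [mem_inter_iff, mem_ofPred_eq, hσ', min_le_iff, not_le.2 h, or_false]
      rw [e]; exact hA t
    · have e : A ∩ {ω | σ' ω ≤ t} = A ∩ {ω | σ ω ≤ t} := by
        ext ω
        simp only [mem_inter_iff, mem_ofPred_eq]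
        constructor
        · rintro ⟨h1, _⟩
          exact ⟨h1, ((hle ω h1).trans (hT ω)).trans (not_lt.1 h)⟩
        · rintro ⟨h1, h2⟩
          exact ⟨h1, (min_le_left _ _).trans h2⟩
      rw [e]; exact hA t
  -- optional stopping
  have hstop : ∫ ω in A, M (τ' ω) ω ∂P = ∫ ω in A, M (σ' ω) ω ∂P := by
    have hb : ∀ᵐ ω ∂P, ∀ t, t ≤ T + 1 → |M t ω| ≤ C + (C + C ^ 2) * (T + 1) := by
      refine Filter.Eventually.of_forall fun ω t ht => ?_
      refine (htest.mart_bdd t ω).trans ?_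
      have hC := htest.C_nonneg
      have : (t : ℝ) ≤ T + 1 := by exact_mod_cast ht
      gcongr
    have hb' : ∀ᵐ ω ∂P, ∀ t, t ≤ T + 1 → |(-M) t ω| ≤ C + (C + C ^ 2) * (T + 1) := by
      filter_upwards [hb] with ω hω t ht
      simpa using hω t ht
    have h1 := super_stop_dom hmart.supermartingale (integrable_const _)
      (Filter.Eventually.of_forall hMc) hb hσ's hτ's hle' hT' hA'
    have h2 := super_stop_dom hmart.neg.supermartingale (integrable_const _)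
      (Filter.Eventually.of_forall fun ω => (hMc ω).neg) hb' hσ's hτ's hle' hT' hA'
    simp only [Pi.neg_apply, integral_neg, neg_le_neg_iff] at h2
    exact le_antisymm h1 h2
  -- decomposition
  have hfc : Continuous f' := hf'.continuous
  set N : ℝ≥0 → Ω → ℝ := fun t ω => f' (Z t ω) with hN
  have hNad : StronglyAdapted Fl N := fun t =>
    hfc.comp_stronglyMeasurable (stDP_meas hB hδ t).stronglyMeasurable
  have hNc : ∀ ω, Continuous fun t => N t ω := fun ω => hfc.comp (hZc ω)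
  have hMad : StronglyAdapted Fl M := hmart.1
  have hbN : ∀ t ω, |N t ω| ≤ C := fun t ω => htest.f_bdd _
  have hNi : ∀ {ρ : Ω → ℝ≥0}, IsST Fl ρ → (∀ ω, ρ ω ≤ T) →
      Integrable (fun ω => N (ρ ω) ω) P := by
    intro ρ hρ hρT
    refine Integrable.of_bound
      ((stronglyMeasurable_at hNad hNc hρ hρT).mono (Fl.le T)).aestronglyMeasurable C ?_
    exact Filter.Eventually.of_forall fun ω => by simpa using hbN _ ω
  have hMi : ∀ {ρ : Ω → ℝ≥0}, IsST Fl ρ → (∀ ω, ρ ω ≤ T) →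
      Integrable (fun ω => M (ρ ω) ω) P := by
    intro ρ hρ hρT
    refine Integrable.of_bound
      ((stronglyMeasurable_at hMad hMc hρ hρT).mono (Fl.le T)).aestronglyMeasurable
      (C + (C + C ^ 2) * T) ?_
    refine Filter.Eventually.of_forall fun ω => ?_
    rw [Real.norm_eq_abs]
    refine (htest.mart_bdd _ ω).trans ?_
    have hC := htest.C_nonneg
    have : (ρ ω : ℝ) ≤ T := by exact_mod_cast hρT ω
    gcongr
  have hσ'T : ∀ ω, σ' ω ≤ T := fun ω => (hle' ω).trans (hT' ω)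
  have key : ∫ ω in A, N (τ' ω) ω ∂P = ∫ ω in A, N (σ' ω) ω ∂P
      + ∫ ω in A, ((N (τ' ω) ω - M (τ' ω) ω) - (N (σ' ω) ω - M (σ' ω) ω)) ∂P := by
    have hd1 : Integrable (fun ω => N (τ' ω) ω - M (τ' ω) ω) P := (hNi hτ's hT').sub (hMi hτ's hT')
    have hd2 : Integrable (fun ω => N (σ' ω) ω - M (σ' ω) ω) P :=
      (hNi hσ's hσ'T).sub (hMi hσ's hσ'T)
    rw [integral_sub hd1.integrableOn hd2.integrableOn,
      integral_sub (hNi hτ's hT').integrableOn (hMi hτ's hT').integrableOn,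
      integral_sub (hNi hσ's hσ'T).integrableOn (hMi hσ's hσ'T).integrableOn, hstop]
    ring
  have hZeq : ∀ ω ∈ A, ∀ t : ℝ≥0, σ ω ≤ t → t ≤ τ ω → Z t ω = stP κ B w t ω := by
    intro ω hω t h1 h2
    obtain ⟨ha, hk⟩ := hin ω hω t h1 h2
    refine stD_eq (driving_cont hB κ ω) hδ ha ?_
    have := hKδ _ hk
    simpa [stP, stW, Zfl_im] using this
  have e1 : ∫ ω in A, N (τ' ω) ω ∂P = ∫ ω in A, f (stP κ B w (τ ω) ω) ∂P := by
    refine setIntegral_congr_fun hAm fun ω hω => ?_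
    simp only [hN]
    rw [hτA ω hω, hZeq ω hω _ (hle ω hω) le_rfl]
    exact (hff _ (hin ω hω _ (hle ω hω) le_rfl).2).self_of_nhds
  have e2 : ∫ ω in A, N (σ' ω) ω ∂P = ∫ ω in A, f (stP κ B w (σ ω) ω) ∂P := by
    refine setIntegral_congr_fun hAm fun ω hω => ?_
    simp only [hN]
    rw [hσA ω hω, hZeq ω hω _ le_rfl (hle ω hω)]
    exact (hff _ (hin ω hω _ le_rfl (hle ω hω)).2).self_of_nhds
  have e3 : ∫ ω in A, ((N (τ' ω) ω - M (τ' ω) ω) - (N (σ' ω) ω - M (σ' ω) ω)) ∂P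
      = ∫ ω in A, (∫ s in (σ ω : ℝ)..(τ ω : ℝ), gen κ f (stW (driving κ B ω) s w)) ∂P := by
    refine setIntegral_congr_fun hAm fun ω hω => ?_
    show (N (τ' ω) ω - M (τ' ω) ω) - (N (σ' ω) ω - M (σ' ω) ω) = _
    rw [hτA ω hω, hσA ω hω]
    have hgc : Continuous fun r : ℝ => SM.gen (cf δ) D' H' (Z r.toNNReal ω) :=
      htest.gen_cont.comp ((hZc ω).comp continuous_real_toNNReal)
    have h1 : ∀ t, N t ω - M t ω = ∫ r in (0:ℝ)..t, SM.gen (cf δ) D' H' (Z r.toNNReal ω) := by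
      intro t
      simp only [hN, hM, SM.mart]
      ring
    rw [h1, h1, intervalIntegral.integral_interval_sub_left (hgc.intervalIntegrable _ _)
      (hgc.intervalIntegrable _ _)]
    refine intervalIntegral.integral_congr fun s hs => ?_
    have hst' : (σ ω : ℝ) ≤ τ ω := by exact_mod_cast hle ω hω
    rw [uIcc_of_le hst'] at hs
    have hs0 : 0 ≤ s := (NNReal.coe_nonneg _).trans hs.1
    have hc : ((s.toNNReal : ℝ≥0) : ℝ) = s := Real.coe_toNNReal _ hs0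
    have h2 : σ ω ≤ s.toNNReal := by rw [← NNReal.coe_le_coe, hc]; exact hs.1
    have h3 : s.toNNReal ≤ τ ω := by rw [← NNReal.coe_le_coe, hc]; exact hs.2
    have h4 := hZeq ω hω _ h2 h3
    have h5 : stP κ B w s.toNNReal ω = stW (driving κ B ω) s w := by
      unfold stP; rw [hc]
    have hk := (hin ω hω _ h2 h3).2
    show SM.gen (cf δ) D' H' (Z s.toNNReal ω) = gen κ f (stW (driving κ B ω) s w)
    rw [h4]
    rw [h5] at hk ⊢
    rw [hD', hH', gen_match hκ hf' (hKδ _ hk), gen_congr (hff _ hk)]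
  rw [← e1, ← e2, ← e3, key]

end core

/-- cut-off of a `C^3` function near a compact set -/
theorem exists_cutoff {G : Type*} [NormedAddCommGroup G] [NormedSpace ℝ G] [FiniteDimensional ℝ G]
    {f : G → ℝ} {D K : Set G} (hD : IsOpen D) (hf : ContDiffOn ℝ 3 f D) (hK : IsCompact K)
    (hKD : K ⊆ D) :
    ∃ f' : G → ℝ, ContDiff ℝ 3 f' ∧ HasCompactSupport f' ∧ ∀ q ∈ K, f' =ᶠ[𝓝 q] f := by
  obtain ⟨L, hLc, hKL, hLD⟩ := exists_compact_between hK hD hKD
  obtain ⟨χ, h1, h0, -⟩ := exists_contMDiffMap_one_nhds_of_subset_interior (n := (3 : ℕ∞))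
    𝓘(ℝ, G) hK.isClosed hKL
  have hχ : ContDiff ℝ 3 (fun x => χ x) := by
    have := χ.contMDiff.contDiff
    exact_mod_cast this
  refine ⟨fun x => χ x * f x, ?_, ?_, ?_⟩
  · rw [← contDiffOn_univ]
    have hU : (univ : Set G) = D ∪ Lᶜ := by
      ext x
      simp only [mem_univ, mem_union, mem_compl_iff, true_iff]
      by_cases h : x ∈ L
      · exact Or.inl (hLD h)
      · exact Or.inr h
    rw [hU]
    refine ContDiffOn.union_of_isOpen (hχ.contDiffOn.mul hf) ?_ hD hLc.isClosed.isOpen_compl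
    refine (contDiffOn_const (c := (0:ℝ))).congr fun x hx => ?_
    rw [h0 x hx, zero_mul]
  · refine HasCompactSupport.of_support_subset_isCompact hLc fun x hx => ?_
    by_contra hxL
    exact hx (by simp [h0 x hxL])
  · intro q hq
    have h2 : ∀ᶠ x in 𝓝 q, χ x = 1 := (h1.filter_mono (nhds_le_nhdsSet hq))
    filter_upwards [h2] with x hx
    rw [hx, one_mul]

/-- **the master one-point theorem** -/
theorem opm.{u} : OPM.{u} := by
  intro Ω m P _ Fl B hB κ hκ w hw D hD hDY f hf K hK hKD σ τ hσ hτ T hT A hA hle hin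
  rcases K.eq_empty_or_nonempty with h0 | hne
  · have hAe : A = ∅ := by
      by_contra hcon
      obtain ⟨ω, hω⟩ := nonempty_iff_ne_empty.2 hcon
      have := (hin ω hω (σ ω) le_rfl (hle ω hω)).2
      rw [h0] at this
      exact this
    subst hAe
    simp
  obtain ⟨q0, hq0, hmin⟩ := hK.exists_isMinOn hne
    (f := fun q : E4 => q.2.1) (by fun_prop)
  have hδ : 0 < q0.2.1 := hDY _ (hKD hq0)
  have hKδ : ∀ q ∈ K, q0.2.1 ≤ q.2.1 := fun q hq => hmin hq
  obtain ⟨f', hf', hfc, hff⟩ := exists_cutoff hD hf hK hKD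
  obtain ⟨Ka, -, hlip, hbd⟩ := cf_lip hδ
  obtain ⟨C, hC⟩ := SM.exists_test hf' hfc (ev κ) hlip hbd
  exact opm_core hB (SM.BMF.of_isBM hB) hκ.le hδ (stDP_isState hB hδ) hf' hC hKδ hff hσ hτ hT hA hle hin

end Crest.Agent.R162.OPM
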