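import Mathlib
import Crest.Agent.R162.FL3

/-!
Row 162 (S0243), node OP3 from OP1, OP2 and FL3 (helper937, second of node OP).
Everything is written for a fixed probability space, a fixed point `z`, a fixed starting time
`σ` and a fixed set `A`; the two inputs `h1` (= OP1) and `h2`, `h2'` (= OP2) are exactly the
frozen statements for these data.
-/

set_option autoImplicit false

open Set MeasureTheory

namespace Crest.Agent.R162.OP3

open FL

/-- deterministic part: if `‖Z_t‖ ≤ lam * R` with `R` dominated by `√(s-σ)` and `|W_s - W_σ|`,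
`a_t - a_σ ≤ a`, then `Z` went up by `e^b` before or goes down by `e^{-b}`. -/
theorem det {W : ℝ → ℝ} (hW : ContinuousOn W (Ici 0)) {z : ℂ} {σ t lam R a b : ℝ} (hσ : 0 ≤ σ)
    (hσt : σ ≤ t) (hal : Alive W z t) (hlam : 0 < lam)
    (hR : ∀ C, (∀ s ∈ Icc σ t, Real.sqrt (s - σ) ≤ C ∧ |W s - W σ| ≤ C) → R ≤ C)
    (hZ : ‖Zfl W t z‖ ≤ lam * R) (ha : OP.ath W t z - OP.ath W σ z ≤ a)
    (hb : 2 * lam * (1 + a) ≤ Real.exp (-(2 * b))) :
    (‖Zfl W t z‖ ≤ Real.exp (-b) * ‖Zfl W σ z‖) ∨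
      ∃ s, σ ≤ s ∧ Alive W z s ∧ OP.ath W s z - OP.ath W σ z ≤ a ∧
        Real.exp b * ‖Zfl W σ z‖ ≤ ‖Zfl W s z‖ := by
  have hsub : Icc σ t ⊆ Icc 0 t := Icc_subset_Icc hσ le_rfl
  have hcont : ContinuousOn (fun r => ‖Zfl W r z‖) (Icc σ t) :=
    ((continuousOn_Zfl hW hal).mono hsub).norm
  obtain ⟨s, hs, hmax⟩ := isCompact_Icc.exists_isMaxOn (nonempty_Icc.2 hσt) hcont
  have hmax' : ∀ r ∈ Icc σ t, ‖Zfl W r z‖ ≤ ‖Zfl W s z‖ := fun r hr => hmax hr
  set M := ‖Zfl W s z‖ with hM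
  have hM0 : 0 ≤ M := norm_nonneg _
  have hRle : R ≤ 2 * (1 + (OP.ath W t z - OP.ath W σ z)) * M := by
    refine hR _ fun r hr => ?_
    have h := FL3 hW hal hσ hr.1 hr.2 hmax'
    exact ⟨(le_max_left _ _).trans h, (le_max_right _ _).trans h⟩
  have h1 : ‖Zfl W t z‖ ≤ Real.exp (-(2 * b)) * M := by
    calc ‖Zfl W t z‖ ≤ lam * R := hZ
      _ ≤ lam * (2 * (1 + (OP.ath W t z - OP.ath W σ z)) * M) :=
          mul_le_mul_of_nonneg_left hRle hlam.le
      _ ≤ lam * (2 * (1 + a) * M) := by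
          refine mul_le_mul_of_nonneg_left ?_ hlam.le
          refine mul_le_mul_of_nonneg_right ?_ hM0
          linarith
      _ = 2 * lam * (1 + a) * M := by ring
      _ ≤ Real.exp (-(2 * b)) * M := mul_le_mul_of_nonneg_right hb hM0
  by_cases hc : Real.exp b * ‖Zfl W σ z‖ ≤ M
  · right
    refine ⟨s, hs.1, hal.mono (hσ.trans hs.1) hs.2, ?_, hc⟩
    have := ath_mono hW hal (hσ.trans hs.1) hs.2 le_rfl
    linarith
  · left
    push Not at hc
    have he : Real.exp (-(2 * b)) = Real.exp (-b) * Real.exp (-b) := by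
      rw [← Real.exp_add]; ring_nf
    have he2 : Real.exp (-b) * Real.exp b = 1 := by
      rw [← Real.exp_add]; simp
    calc ‖Zfl W t z‖ ≤ Real.exp (-(2 * b)) * M := h1
      _ ≤ Real.exp (-(2 * b)) * (Real.exp b * ‖Zfl W σ z‖) :=
          mul_le_mul_of_nonneg_left hc.le (Real.exp_pos _).le
      _ = Real.exp (-b) * (Real.exp (-b) * Real.exp b) * ‖Zfl W σ z‖ := by rw [he]; ring
      _ = Real.exp (-b) * ‖Zfl W σ z‖ := by rw [he2, mul_one]

variable {Ω : Type*} [MeasurableSpace Ω] {P : Measure Ω}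

/-- the constant of OP3 -/
noncomputable def C3 (C₁ C₂ : ℝ) : ℝ := 4 + C₁ + 4 * C₂

/-- the exponent of OP3 -/
noncomputable def c3 (lmb K : ℝ) : ℝ := min (1 / 4) (lmb / (4 * (K + 1)))

lemma c3_pos {lmb K : ℝ} (hl : 0 < lmb) (hK : 0 ≤ K) : 0 < c3 lmb K :=
  lt_min (by norm_num) (by positivity)

/-- **OP3 from OP1, OP2, FL3**, for fixed data. -/
theorem OP3_core [IsFiniteMeasure P] {W : Ω → ℝ → ℝ} {z : ℂ} {σ : Ω → ℝ} {A : Set Ω}
    (hW : ∀ ω ∈ A, ContinuousOn (W ω) (Ici 0)) (hσ : ∀ ω ∈ A, 0 ≤ σ ω)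
    {c₀ C₁ C₂ lmb K : ℝ} (hC₁ : 0 ≤ C₁) (hC₂ : 0 ≤ C₂) (hl : 0 < lmb) (hK : 0 ≤ K)
    (h1 : ∀ a, 0 ≤ a → P.real {ω ∈ A | ∃ t, σ ω ≤ t ∧ Alive (W ω) z t ∧
      c₀ ≤ OP.sfl (W ω) t z ∧ a ≤ OP.ath (W ω) t z - OP.ath (W ω) (σ ω) z}
        ≤ C₁ * Real.exp (-(lmb * a)) * P.real A)
    (h2 : ∀ a b, 0 ≤ a → 0 ≤ b → P.real {ω ∈ A | ∃ t, σ ω ≤ t ∧ Alive (W ω) z t ∧
      OP.ath (W ω) t z - OP.ath (W ω) (σ ω) z ≤ a ∧
      Real.exp b * ‖Zfl (W ω) (σ ω) z‖ ≤ ‖Zfl (W ω) t z‖}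
        ≤ C₂ * Real.exp (K * a - b) * P.real A)
    (h2' : ∀ a b, 0 ≤ a → 0 ≤ b → P.real {ω ∈ A | ∃ t, σ ω ≤ t ∧ Alive (W ω) z t ∧
      OP.ath (W ω) t z - OP.ath (W ω) (σ ω) z ≤ a ∧
      ‖Zfl (W ω) t z‖ ≤ Real.exp (-b) * ‖Zfl (W ω) (σ ω) z‖}
        ≤ C₂ * Real.exp (K * a - b) * P.real A)
    {R : Ω → ℝ → ℝ}
    (hR : ∀ ω ∈ A, ∀ t, σ ω ≤ t → ∀ C, (∀ s ∈ Icc (σ ω) t, Real.sqrt (s - σ ω) ≤ C ∧
      |W ω s - W ω (σ ω)| ≤ C) → R ω t ≤ C)
    {lam : ℝ} (hlam : 0 < lam) :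
    P.real {ω ∈ A | ∃ t, σ ω ≤ t ∧ Alive (W ω) z t ∧ c₀ ≤ OP.sfl (W ω) t z ∧
      ‖Zfl (W ω) t z‖ ≤ lam * R ω t} ≤ C3 C₁ C₂ * lam ^ c3 lmb K * P.real A := by
  set E := {ω ∈ A | ∃ t, σ ω ≤ t ∧ Alive (W ω) z t ∧ c₀ ≤ OP.sfl (W ω) t z ∧
      ‖Zfl (W ω) t z‖ ≤ lam * R ω t} with hE
  have hA0 : 0 ≤ P.real A := measureReal_nonneg
  have hEA : P.real E ≤ P.real A := measureReal_mono (fun ω hω => hω.1)
  have hcpos := c3_pos hl hK
  have hc4 : c3 lmb K ≤ 1 / 4 := min_le_left _ _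
  rcases lt_or_ge (1 / 4 : ℝ) lam with hbig | hsmall
  · -- trivial bound
    have h4 : 1 ≤ 4 * lam ^ c3 lmb K := by
      have h5 : (1 / 4 : ℝ) ≤ (1 / 4 : ℝ) ^ c3 lmb K := by
        conv_lhs => rw [← Real.rpow_one (1 / 4 : ℝ)]
        exact Real.rpow_le_rpow_of_exponent_ge (by norm_num) (by norm_num) (by linarith)
      have h6 : (1 / 4 : ℝ) ^ c3 lmb K ≤ lam ^ c3 lmb K :=
        Real.rpow_le_rpow (by norm_num) hbig.le hcpos.le
      linarith
    have hp : 0 ≤ lam ^ c3 lmb K := Real.rpow_nonneg hlam.le _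
    have : 1 ≤ C3 C₁ C₂ * lam ^ c3 lmb K := by
      refine h4.trans (mul_le_mul_of_nonneg_right ?_ hp)
      rw [C3]; linarith
    calc P.real E ≤ P.real A := hEA
      _ = 1 * P.real A := (one_mul _).symm
      _ ≤ _ := mul_le_mul_of_nonneg_right this hA0
  · set L := Real.log (1 / lam) with hL
    have hLlam : lam = Real.exp (-L) := by
      rw [hL, one_div, Real.log_inv, neg_neg, Real.exp_log hlam]
    have hL4 : Real.log 4 ≤ L := by
      rw [hL]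
      apply Real.log_le_log (by norm_num)
      rw [le_div_iff₀ hlam]; linarith
    have hlog2 : 0 < Real.log 2 := Real.log_pos (by norm_num)
    have hlog4 : Real.log 4 = 2 * Real.log 2 := by
      rw [show (4 : ℝ) = 2 ^ 2 by norm_num, Real.log_pow]; norm_num
    have hL0 : 0 < L := by linarith
    set ε := 1 / (4 * (K + 1)) with hε
    have hε0 : 0 < ε := by positivity
    have hεK : ε * (K + 1) = 1 / 4 := by
      rw [hε]; field_simp
    have hε4 : ε ≤ 1 / 4 := by nlinarith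
    set a := ε * L with ha
    have ha0 : 0 ≤ a := by positivity
    set b := ((1 - ε) * L - Real.log 2) / 2 with hb
    have hb0 : 0 ≤ b := by
      rw [hb]
      have : Real.log 2 ≤ (1 - ε) * L := by nlinarith
      linarith
    have hexp : 2 * lam * (1 + a) ≤ Real.exp (-(2 * b)) := by
      have e1 : -(2 * b) = Real.log 2 + (-L) + a := by rw [hb, ha]; ring
      rw [e1, Real.exp_add, Real.exp_add, Real.exp_log (by norm_num), ← hLlam]
      refine mul_le_mul_of_nonneg_left ?_ (by positivity)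
      linarith [Real.add_one_le_exp a]
    -- the covering
    have hcov : E ⊆ ({ω ∈ A | ∃ t, σ ω ≤ t ∧ Alive (W ω) z t ∧
        c₀ ≤ OP.sfl (W ω) t z ∧ a ≤ OP.ath (W ω) t z - OP.ath (W ω) (σ ω) z} ∪
        {ω ∈ A | ∃ t, σ ω ≤ t ∧ Alive (W ω) z t ∧
          OP.ath (W ω) t z - OP.ath (W ω) (σ ω) z ≤ a ∧
          Real.exp b * ‖Zfl (W ω) (σ ω) z‖ ≤ ‖Zfl (W ω) t z‖}) ∪
        {ω ∈ A | ∃ t, σ ω ≤ t ∧ Alive (W ω) z t ∧
          OP.ath (W ω) t z - OP.ath (W ω) (σ ω) z ≤ a ∧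
          ‖Zfl (W ω) t z‖ ≤ Real.exp (-b) * ‖Zfl (W ω) (σ ω) z‖} := by
      rintro ω ⟨hωA, t, hσt, hal, hS, hZ⟩
      by_cases hat : a ≤ OP.ath (W ω) t z - OP.ath (W ω) (σ ω) z
      · exact Or.inl (Or.inl ⟨hωA, t, hσt, hal, hS, hat⟩)
      · push Not at hat
        rcases det (hW ω hωA) (hσ ω hωA) hσt hal hlam (hR ω hωA t hσt) hZ hat.le hexp with
          h | ⟨s, hs1, hs2, hs3, hs4⟩
        · exact Or.inr ⟨hωA, t, hσt, hal, hat.le, h⟩
        · exact Or.inl (Or.inr ⟨hωA, s, hs1, hs2, hs3, hs4⟩)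
    have hsum : P.real E ≤ C₁ * Real.exp (-(lmb * a)) * P.real A
        + C₂ * Real.exp (K * a - b) * P.real A + C₂ * Real.exp (K * a - b) * P.real A := by
      refine (measureReal_mono hcov).trans ((measureReal_union_le _ _).trans ?_)
      refine add_le_add ((measureReal_union_le _ _).trans ?_) (h2' a b ha0 hb0)
      exact add_le_add (h1 a ha0) (h2 a b ha0 hb0)
    have hpow : lam ^ c3 lmb K = Real.exp (-(c3 lmb K * L)) := by
      rw [hLlam, ← Real.exp_mul]; ring_nf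
    have hx1 : Real.exp (-(lmb * a)) ≤ lam ^ c3 lmb K := by
      rw [hpow]
      apply Real.exp_le_exp.2
      have : c3 lmb K ≤ lmb * ε := by
        refine (min_le_right _ _).trans (le_of_eq ?_)
        rw [hε]; ring
      rw [ha]
      nlinarith
    have hx2 : Real.exp (K * a - b) ≤ 2 * lam ^ c3 lmb K := by
      have e2 : K * a - b ≤ Real.log 2 / 2 + (-(1 / 4 * L)) := by
        have : K * a - b = (ε * (K + 1) - ε / 2 - 1 / 2) * L + Real.log 2 / 2 := by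
          rw [ha, hb]; ring
        rw [this, hεK]
        nlinarith
      have e3 : Real.exp (K * a - b) ≤ Real.exp (Real.log 2 / 2) * Real.exp (-(1 / 4 * L)) := by
        rw [← Real.exp_add]; exact Real.exp_le_exp.2 e2
      have e4 : Real.exp (Real.log 2 / 2) ≤ 2 := by
        calc Real.exp (Real.log 2 / 2) ≤ Real.exp (Real.log 2) :=
              Real.exp_le_exp.2 (by linarith)
          _ = 2 := Real.exp_log (by norm_num)
      have e5 : Real.exp (-(1 / 4 * L)) ≤ lam ^ c3 lmb K := by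
        rw [hpow]
        apply Real.exp_le_exp.2
        nlinarith
      refine e3.trans ?_
      exact mul_le_mul e4 e5 (Real.exp_pos _).le (by norm_num)
    set x := lam ^ c3 lmb K with hx
    have hx0 : 0 ≤ x := Real.rpow_nonneg hlam.le _
    calc P.real E ≤ _ := hsum
      _ ≤ C₁ * x * P.real A + C₂ * (2 * x) * P.real A + C₂ * (2 * x) * P.real A := by
          gcongr
      _ ≤ C3 C₁ C₂ * x * P.real A := by
          have : C₁ * x * P.real A + C₂ * (2 * x) * P.real A + C₂ * (2 * x) * P.real A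
            = (C₁ + 4 * C₂) * (x * P.real A) := by ring
          rw [this, C3, mul_assoc]
          have hxA : 0 ≤ x * P.real A := mul_nonneg hx0 hA0
          nlinarith

end Crest.Agent.R162.OP3
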