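import Crest.Agent.R162.OPc
import Crest.Agent.R162.OPTr2
import Crest.Agent.R162.OP3

/-! Row 162, node OP (helper149): OP1, OP2, OP3 for the Loewner flow driven by `√κ B`. -/

set_option autoImplicit false

open MeasureTheory ProbabilityTheory Set Filter Topology
open scoped NNReal ENNReal

namespace Crest.Agent.R162.OP

open Crest.Agent.R162.OS Crest.Agent.R162.FL Crest.Agent.R162.GEN Crest.Agent.R162.OPGen
open Crest.ProbabilityR.Loewner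

universe u

variable {Ω : Type u} {m : MeasurableSpace Ω} {P : Measure Ω} {Fl : Filtration ℝ≥0 m}
  {B : ℝ≥0 → Ω → ℝ} {κ : ℝ} {w : ℂ}

/-- the abstract one-point structure holds for the Loewner flow -/
theorem oneP (hB : IsBM Fl B P) : OneP Fl (AliveP κ B w) (stP κ B w) where
  al_mono := fun ω s t hst h => Alive.mono h s.2 (by exact_mod_cast hst)
  cont := fun ω t h => by
    have h1 := OPTr.contOn_stW (W := driving κ B ω) (z := w) h (OPTr.driving_cont hB κ ω)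
    have h2 : ContinuousOn (fun s : ℝ≥0 => (s : ℝ)) (Set.Iic t) :=
      NNReal.continuous_coe.continuousOn
    exact h1.comp h2 (fun s hs => ⟨s.2, by exact_mod_cast hs⟩)
  Y_pos := fun ω t h => Zfl_im_pos h
  exit := fun O δ hO hδ hOδ σ T hσ => by
    refine ⟨hit (stP κ B w) Oᶜ σ T, OPTr.hit_open_isST hB hδ hO (fun q hq => hOδ hq) hσ T,
      fun ω => ⟨le_hit, hit_le_max⟩, fun ω _ hin => ?_⟩
    exact OPTr.hit_open_spec hB hδ hO (fun q hq => hOδ hq) σ T hin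
  evState := fun S hS σ hσ => OPTr.evST_alive_mem hB hS hσ

theorem real_of_ennreal [IsFiniteMeasure P] {S A : Set Ω} {C : ℝ} (hC : 0 ≤ C)
    (h : P S ≤ ENNReal.ofReal C * P A) : P.real S ≤ C * P.real A := by
  have h1 := ENNReal.toReal_mono (ENNReal.mul_ne_top ENNReal.ofReal_ne_top (measure_ne_top _ _)) h
  rw [ENNReal.toReal_mul, ENNReal.toReal_ofReal hC] at h1
  exact h1

/-- the exponent of OP1 -/
noncomputable def lam1 (κ : ℝ) : ℝ := κ * bb κ / 4 * min (bb κ / 2) 1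

/-- the constant of OP1 -/
noncomputable def C1 (κ c₀ : ℝ) : ℝ := Real.exp 1 * c₀ ^ (-(bb κ / 2))

theorem bb_pos (hκ : 0 < κ) (hκ8 : κ < 8) : 0 < bb κ := by
  unfold bb
  have : 1 < 8 / κ := by rw [lt_div_iff₀ hκ]; linarith
  linarith

theorem lam1_pos (hκ : 0 < κ) (hκ8 : κ < 8) : 0 < lam1 κ := by
  have hb := bb_pos hκ hκ8
  have : 0 < min (bb κ / 2) 1 := lt_min (by positivity) one_pos
  unfold lam1; positivity

theorem C1_pos {c₀ : ℝ} (hc₀ : 0 < c₀) : 0 < C1 κ c₀ := by unfold C1; positivity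

section main

variable [IsProbabilityMeasure P]

/-- **OP1** -/
theorem OP1 (hM : OPM.{u}) (hB : IsBM Fl B P) (hκ : 0 < κ) (hκ8 : κ < 8)
    (hw : 0 < w.im) {σ : Ω → ℝ≥0} (hσ : IsST Fl σ)
    {A : Set Ω} (hA : EvST Fl σ A) {c₀ : ℝ} (hc₀ : 0 < c₀) (a : ℝ) :
    P.real {ω ∈ A | ∃ t : ℝ≥0, σ ω ≤ t ∧ AliveP κ B w t ω ∧ c₀ ≤ sfl (driving κ B ω) t w ∧
      a ≤ ath (driving κ B ω) t w - ath (driving κ B ω) (σ ω) w} ≤
      C1 κ c₀ * Real.exp (-(lam1 κ * a)) * P.real A := by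
  have h := op1 hM hB hκ hκ8 hw (oneP hB) hσ hA hc₀ a
  refine real_of_ennreal (by have := C1_pos (κ := κ) hc₀; positivity) (h.trans (le_of_eq ?_))
  unfold C1 lam1
  rw [neg_mul]

/-- **OP2** upwards -/
theorem OP2_up (hM : OPM.{u}) (hB : IsBM Fl B P) (hκ : 0 < κ)
    (hw : 0 < w.im) {σ : Ω → ℝ≥0} (hσ : IsST Fl σ)
    {A : Set Ω} (hA : EvST Fl σ A) (a b : ℝ) :
    P.real {ω ∈ A | ∃ t : ℝ≥0, σ ω ≤ t ∧ AliveP κ B w t ω ∧
      ath (driving κ B ω) t w - ath (driving κ B ω) (σ ω) w ≤ a ∧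
      Real.exp b * ‖Zfl (driving κ B ω) (σ ω) w‖ ≤ ‖Zfl (driving κ B ω) t w‖} ≤
      Real.exp 1 * Real.exp ((κ + 6) * a - b) * P.real A :=
  real_of_ennreal (by positivity) (op2_up hM hB hκ hw (oneP hB) hσ hA a b)

/-- **OP2** downwards -/
theorem OP2_down (hM : OPM.{u}) (hB : IsBM Fl B P) (hκ : 0 < κ)
    (hw : 0 < w.im) {σ : Ω → ℝ≥0} (hσ : IsST Fl σ)
    {A : Set Ω} (hA : EvST Fl σ A) (a b : ℝ) :
    P.real {ω ∈ A | ∃ t : ℝ≥0, σ ω ≤ t ∧ AliveP κ B w t ω ∧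
      ath (driving κ B ω) t w - ath (driving κ B ω) (σ ω) w ≤ a ∧
      ‖Zfl (driving κ B ω) t w‖ ≤ Real.exp (-b) * ‖Zfl (driving κ B ω) (σ ω) w‖} ≤
      Real.exp 1 * Real.exp ((κ + 6) * a - b) * P.real A :=
  real_of_ennreal (by positivity) (op2_down hM hB hκ hw (oneP hB) hσ hA a b)

/-- time as a real number or as an `ℝ≥0` -/
theorem exists_real_iff {W : ℝ → ℝ} {z : ℂ} {s : ℝ≥0} {p : ℝ → Prop} :
    (∃ t : ℝ, (s : ℝ) ≤ t ∧ Alive W z t ∧ p t) ↔ ∃ t : ℝ≥0, s ≤ t ∧ Alive W z t ∧ p t := by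
  constructor
  · rintro ⟨t, h1, h2, h3⟩
    exact ⟨⟨t, h2.1⟩, by exact_mod_cast h1, h2, h3⟩
  · rintro ⟨t, h1, h2, h3⟩
    exact ⟨t, by exact_mod_cast h1, h2, h3⟩

/-- the constant of OP3 -/
noncomputable def C3' (κ c₀ : ℝ) : ℝ := OP3.C3 (C1 κ c₀) (Real.exp 1)

/-- the exponent of OP3 -/
noncomputable def c3' (κ : ℝ) : ℝ := OP3.c3 (lam1 κ) (κ + 6)

theorem c3'_pos (hκ : 0 < κ) (hκ8 : κ < 8) : 0 < c3' κ :=
  OP3.c3_pos (lam1_pos hκ hκ8) (by linarith)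

theorem C3'_pos {c₀ : ℝ} (hc₀ : 0 < c₀) : 0 < C3' κ c₀ := by
  have := C1_pos (κ := κ) hc₀
  unfold C3' OP3.C3
  positivity

/-- **OP3**, real times, any `R` dominated by `√(s-σ)` and `|W_s - W_σ|`, `s ∈ [σ,t]`. -/
theorem OP3' (hM : OPM.{u}) (hB : IsBM Fl B P) (hκ : 0 < κ) (hκ8 : κ < 8)
    (hw : 0 < w.im) {σ : Ω → ℝ≥0} (hσ : IsST Fl σ)
    {A : Set Ω} (hA : EvST Fl σ A) {c₀ : ℝ} (hc₀ : 0 < c₀) {R : Ω → ℝ → ℝ}
    (hR : ∀ ω ∈ A, ∀ t, (σ ω : ℝ) ≤ t → ∀ C, (∀ s ∈ Icc (σ ω : ℝ) t,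
      Real.sqrt (s - σ ω) ≤ C ∧ |driving κ B ω s - driving κ B ω (σ ω)| ≤ C) → R ω t ≤ C)
    {lam : ℝ} (hlam : 0 < lam) :
    P.real {ω ∈ A | ∃ t : ℝ, (σ ω : ℝ) ≤ t ∧ Alive (driving κ B ω) w t ∧
      c₀ ≤ sfl (driving κ B ω) t w ∧ ‖Zfl (driving κ B ω) t w‖ ≤ lam * R ω t} ≤
      C3' κ c₀ * lam ^ c3' κ * P.real A := by
  refine OP3.OP3_core (W := fun ω => driving κ B ω) (z := w) (σ := fun ω => (σ ω : ℝ))
    (fun ω _ => (OPTr.driving_cont hB κ ω).continuousOn) (fun ω _ => (σ ω).2)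
    (C1_pos hc₀).le (Real.exp_pos 1).le (lam1_pos hκ hκ8) (by linarith)
    (fun a _ => ?_) (fun a b _ _ => ?_) (fun a b _ _ => ?_) hR hlam
  · have h := OP1 hM hB hκ hκ8 hw hσ hA hc₀ a
    refine le_trans (le_of_eq ?_) h
    congr 1
    ext ω
    refine and_congr_right fun _ => ?_
    exact exists_real_iff (W := driving κ B ω) (z := w) (s := σ ω)
      (p := fun t => c₀ ≤ sfl (driving κ B ω) t w ∧
        a ≤ ath (driving κ B ω) t w - ath (driving κ B ω) (σ ω) w)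
  · have h := OP2_up hM hB hκ hw hσ hA a b
    refine le_trans (le_of_eq ?_) h
    congr 1
    ext ω
    refine and_congr_right fun _ => ?_
    exact exists_real_iff (W := driving κ B ω) (z := w) (s := σ ω)
      (p := fun t => ath (driving κ B ω) t w - ath (driving κ B ω) (σ ω) w ≤ a ∧
        Real.exp b * ‖Zfl (driving κ B ω) (σ ω) w‖ ≤ ‖Zfl (driving κ B ω) t w‖)
  · have h := OP2_down hM hB hκ hw hσ hA a b
    refine le_trans (le_of_eq ?_) h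
    congr 1
    ext ω
    refine and_congr_right fun _ => ?_
    exact exists_real_iff (W := driving κ B ω) (z := w) (s := σ ω)
      (p := fun t => ath (driving κ B ω) t w - ath (driving κ B ω) (σ ω) w ≤ a ∧
        ‖Zfl (driving κ B ω) t w‖ ≤ Real.exp (-b) * ‖Zfl (driving κ B ω) (σ ω) w‖)

end main

end Crest.Agent.R162.OP
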