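import Mathlib

/-!
Row 162, node GEN: generator calculus for the one-point diffusion of the chordal Loewner flow
(state `(X, Y, th, a)`, `Z = X + iY = g_t(w) - W_t`, `th = -log Ups`, `a = ∫|Z|^{-2}`), written in
the coordinate `x = -arsinh (X/Y) = log tan (Theta/2)`, for which `S = sin Theta = 1/cosh x`.
Pure real calculus.
-/

set_option autoImplicit false

namespace Crest.Agent.R162.GEN

open Real

/-- `b = 8/κ - 1`. -/
noncomputable def bb (κ : ℝ) : ℝ := 8 / κ - 1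

/-- The coordinate `x = log tan (Θ/2) = - arsinh (X/Y)`. -/
noncomputable def xc (X Y : ℝ) : ℝ := -Real.arsinh (X / Y)

/-- The value of the generator of the state `(X,Y,th,a)` from given partial derivatives. -/
noncomputable def genVal (κ X Y FX FXX FY Ft Fa : ℝ) : ℝ :=
  κ / 2 * FXX + 2 * X / (X ^ 2 + Y ^ 2) * FX - 2 * Y / (X ^ 2 + Y ^ 2) * FY
    + 4 * Y ^ 2 / (X ^ 2 + Y ^ 2) ^ 2 * Ft + 1 / (X ^ 2 + Y ^ 2) * Fa

/-- The generator in the coordinates `(th, a, x)`, per unit of `K`-time, with `t = tanh x`. -/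
noncomputable def LVal (κ t Vx Vxx Vt Va : ℝ) : ℝ :=
  κ / 2 * Vxx + (4 - κ / 2) * t * Vx + 4 * (1 - t ^ 2) * Vt + Va

/-- `V : th → a → x → ℝ` has the given partial derivatives and is smooth. -/
structure Jet (V Vt Va Vx Vxx : ℝ → ℝ → ℝ → ℝ) : Prop where
  smooth : ContDiff ℝ (⊤ : ℕ∞) (fun p : ℝ × ℝ × ℝ => V p.1 p.2.1 p.2.2)
  ht : ∀ th a x, HasDerivAt (fun s => V s a x) (Vt th a x) th
  ha : ∀ th a x, HasDerivAt (fun s => V th s x) (Va th a x) a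
  hx : ∀ th a x, HasDerivAt (fun s => V th a s) (Vx th a x) x
  hxx : ∀ th a x, HasDerivAt (fun s => Vx th a s) (Vxx th a x) x

/-- `F : X → Y → th → a → ℝ` has the given partial derivatives on `Y > 0` and is smooth there. -/
structure FJet (F FX FXX FY Ft Fa : ℝ → ℝ → ℝ → ℝ → ℝ) : Prop where
  smooth : ContDiffOn ℝ (⊤ : ℕ∞) (fun p : ℝ × ℝ × ℝ × ℝ => F p.1 p.2.1 p.2.2.1 p.2.2.2)
    {p | 0 < p.2.1}
  hX : ∀ X Y th a, 0 < Y → HasDerivAt (fun s => F s Y th a) (FX X Y th a) X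
  hXX : ∀ X Y th a, 0 < Y → HasDerivAt (fun s => FX s Y th a) (FXX X Y th a) X
  hY : ∀ X Y th a, 0 < Y → HasDerivAt (fun s => F X s th a) (FY X Y th a) Y
  ht : ∀ X Y th a, 0 < Y → HasDerivAt (fun s => F X Y s a) (Ft X Y th a) th
  ha : ∀ X Y th a, 0 < Y → HasDerivAt (fun s => F X Y th s) (Fa X Y th a) a

section coord

variable {X Y : ℝ}

lemma R_pos (hY : 0 < Y) : 0 < X ^ 2 + Y ^ 2 := by positivity

lemma sqrt_one_add (hY : 0 < Y) : √(1 + (X / Y) ^ 2) = √(X ^ 2 + Y ^ 2) / Y := by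
  have h : 1 + (X / Y) ^ 2 = (X ^ 2 + Y ^ 2) / Y ^ 2 := by field_simp; ring
  rw [h, Real.sqrt_div (by positivity), Real.sqrt_sq hY.le]

lemma sinh_xc : Real.sinh (xc X Y) = -(X / Y) := by
  rw [xc, Real.sinh_neg, Real.sinh_arsinh]

lemma cosh_xc (hY : 0 < Y) : Real.cosh (xc X Y) = √(X ^ 2 + Y ^ 2) / Y := by
  rw [xc, Real.cosh_neg, Real.cosh_arsinh, sqrt_one_add hY]

lemma tanh_xc (hY : 0 < Y) : Real.tanh (xc X Y) = -(X / √(X ^ 2 + Y ^ 2)) := by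
  have : √(X ^ 2 + Y ^ 2) ≠ 0 := (Real.sqrt_pos.2 (R_pos hY)).ne'
  rw [Real.tanh_eq_sinh_div_cosh, sinh_xc, cosh_xc hY]
  field_simp

lemma hasDerivAt_xc_X (hY : 0 < Y) :
    HasDerivAt (fun s => xc s Y) (-(1 / √(X ^ 2 + Y ^ 2))) X := by
  have h0 : √(X ^ 2 + Y ^ 2) ≠ 0 := (Real.sqrt_pos.2 (R_pos hY)).ne'
  have h1 : HasDerivAt (fun s : ℝ => s / Y) (1 / Y) X := (hasDerivAt_id X).div_const Y
  have h2 := (Real.hasDerivAt_arsinh (X / Y)).comp X h1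
  have h3 := h2.neg
  refine h3.congr_deriv ?_
  rw [sqrt_one_add hY]
  field_simp

lemma hasDerivAt_xc_Y (hY : 0 < Y) :
    HasDerivAt (fun s => xc X s) (X / (Y * √(X ^ 2 + Y ^ 2))) Y := by
  have h0 : √(X ^ 2 + Y ^ 2) ≠ 0 := (Real.sqrt_pos.2 (R_pos hY)).ne'
  have h1 : HasDerivAt (fun s : ℝ => X / s) (-X / Y ^ 2) Y := by
    have := (hasDerivAt_inv hY.ne').const_mul X
    refine (this.congr_deriv ?_).congr_of_eventuallyEq ?_
    · field_simp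
    · exact Filter.Eventually.of_forall fun s => by simp [div_eq_mul_inv]
  have h2 := (Real.hasDerivAt_arsinh (X / Y)).comp Y h1
  have h3 := h2.neg
  refine h3.congr_deriv ?_
  rw [sqrt_one_add hY]
  field_simp

lemma hasDerivAt_xcX_X (hY : 0 < Y) :
    HasDerivAt (fun s => -(1 / √(s ^ 2 + Y ^ 2))) (X / ((X ^ 2 + Y ^ 2) * √(X ^ 2 + Y ^ 2))) X := by
  have hR := R_pos (X := X) hY
  have h0 : √(X ^ 2 + Y ^ 2) ≠ 0 := (Real.sqrt_pos.2 hR).ne'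
  have h1 : HasDerivAt (fun s : ℝ => s ^ 2 + Y ^ 2) (2 * X) X := by
    simpa using ((hasDerivAt_pow 2 X).add_const (Y ^ 2))
  have h2 := h1.sqrt hR.ne'
  have h3 := (h2.inv h0).neg
  refine (h3.congr_deriv ?_).congr_of_eventuallyEq ?_
  · have hs : √(X ^ 2 + Y ^ 2) ^ 2 = X ^ 2 + Y ^ 2 := Real.sq_sqrt hR.le
    rw [hs]; field_simp
  · exact Filter.Eventually.of_forall fun s => by simp

lemma contDiffOn_xc : ContDiffOn ℝ (⊤ : ℕ∞) (fun p : ℝ × ℝ => xc p.1 p.2) {p | 0 < p.2} := by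
  unfold xc
  refine ContDiffOn.neg ?_
  refine (Real.contDiff_arsinh).comp_contDiffOn ?_
  refine ContDiffOn.div contDiffOn_fst contDiffOn_snd ?_
  intro p hp; exact (ne_of_gt hp)

end coord


section pull

variable {V Vt Va Vx Vxx : ℝ → ℝ → ℝ → ℝ}

/-- Pull-back of a function of `(th, a, x)` to `(X, Y, th, a)`. -/
noncomputable def pb (V : ℝ → ℝ → ℝ → ℝ) : ℝ → ℝ → ℝ → ℝ → ℝ := fun X Y th a => V th a (xc X Y)

theorem Jet.pull (J : Jet V Vt Va Vx Vxx) :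
    FJet (pb V)
      (fun X Y th a => Vx th a (xc X Y) * (-(1 / √(X ^ 2 + Y ^ 2))))
      (fun X Y th a => Vxx th a (xc X Y) * (1 / (X ^ 2 + Y ^ 2))
        + Vx th a (xc X Y) * (X / ((X ^ 2 + Y ^ 2) * √(X ^ 2 + Y ^ 2))))
      (fun X Y th a => Vx th a (xc X Y) * (X / (Y * √(X ^ 2 + Y ^ 2))))
      (pb Vt) (pb Va) where
  smooth := by
    have h1 : ContDiffOn ℝ (⊤ : ℕ∞)
        (fun p : ℝ × ℝ × ℝ × ℝ => ((p.2.2.1, p.2.2.2, xc p.1 p.2.1) : ℝ × ℝ × ℝ))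
        {p | 0 < p.2.1} := by
      have hx : ContDiffOn ℝ (⊤ : ℕ∞) (fun p : ℝ × ℝ × ℝ × ℝ => xc p.1 p.2.1) {p | 0 < p.2.1} := by
        have h2 : ContDiff ℝ (⊤ : ℕ∞) (fun p : ℝ × ℝ × ℝ × ℝ => ((p.1, p.2.1) : ℝ × ℝ)) := by
          fun_prop
        exact contDiffOn_xc.comp h2.contDiffOn (fun p hp => hp)
      have ht : ContDiff ℝ (⊤ : ℕ∞) (fun p : ℝ × ℝ × ℝ × ℝ => p.2.2.1) := by fun_prop
      have ha : ContDiff ℝ (⊤ : ℕ∞) (fun p : ℝ × ℝ × ℝ × ℝ => p.2.2.2) := by fun_prop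
      exact ht.contDiffOn.prodMk (ha.contDiffOn.prodMk hx)
    exact J.smooth.comp_contDiffOn h1
  hX X Y th a hY := (J.hx th a (xc X Y)).comp X (hasDerivAt_xc_X hY)
  hXX X Y th a hY := by
    have hR := R_pos (X := X) hY
    have h0 : √(X ^ 2 + Y ^ 2) ≠ 0 := (Real.sqrt_pos.2 hR).ne'
    have h1 := (J.hxx th a (xc X Y)).comp X (hasDerivAt_xc_X hY)
    have h2 := h1.mul (hasDerivAt_xcX_X (X := X) hY)
    refine h2.congr_deriv ?_
    have hs : √(X ^ 2 + Y ^ 2) * √(X ^ 2 + Y ^ 2) = X ^ 2 + Y ^ 2 := Real.mul_self_sqrt hR.le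
    have e1 : -(1 / √(X ^ 2 + Y ^ 2)) * -(1 / √(X ^ 2 + Y ^ 2)) = 1 / (X ^ 2 + Y ^ 2) := by
      rw [neg_mul_neg, div_mul_div_comm, one_mul, hs]
    simp only [Function.comp]
    rw [mul_assoc, e1]
  hY X Y th a hY := (J.hx th a (xc X Y)).comp Y (hasDerivAt_xc_Y hY)
  ht X Y th a _ := J.ht th a (xc X Y)
  ha X Y th a _ := J.ha th a (xc X Y)

/-- The generator identity in the coordinate `x`. -/
theorem gen_pull (κ : ℝ) {X Y : ℝ} (hY : 0 < Y) (vx vxx vt va : ℝ) :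
    genVal κ X Y (vx * (-(1 / √(X ^ 2 + Y ^ 2))))
      (vxx * (1 / (X ^ 2 + Y ^ 2)) + vx * (X / ((X ^ 2 + Y ^ 2) * √(X ^ 2 + Y ^ 2))))
      (vx * (X / (Y * √(X ^ 2 + Y ^ 2)))) vt va
      = 1 / (X ^ 2 + Y ^ 2) * LVal κ (Real.tanh (xc X Y)) vx vxx vt va := by
  have hR := R_pos (X := X) hY
  have hr : 0 < √(X ^ 2 + Y ^ 2) := Real.sqrt_pos.2 hR
  have hs : √(X ^ 2 + Y ^ 2) ^ 2 = X ^ 2 + Y ^ 2 := Real.sq_sqrt hR.le
  rw [tanh_xc hY, genVal, LVal]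
  set r := √(X ^ 2 + Y ^ 2) with hrdef
  have hY2 : Y ^ 2 = r ^ 2 - X ^ 2 := by rw [hs]; ring
  rw [← hs]
  have hr0 : r ≠ 0 := hr.ne'
  have hY0 : Y ≠ 0 := hY.ne'
  field_simp
  rw [hY2]
  ring

end pull

/-! ### One-variable functions: powers of `cosh x`. -/

section powers

/-- `(cosh x)^q`. With `q = -p` this is `S^p`. -/
noncomputable def cp (q x : ℝ) : ℝ := Real.cosh x ^ q

lemma cp_pos (q x : ℝ) : 0 < cp q x := Real.rpow_pos_of_pos (Real.cosh_pos x) q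

lemma cp_mul (p q x : ℝ) : cp p x * cp q x = cp (p + q) x := by
  unfold cp; rw [Real.rpow_add (Real.cosh_pos x)]

lemma cp_le_cp {p q : ℝ} (h : p ≤ q) (x : ℝ) : cp p x ≤ cp q x :=
  Real.rpow_le_rpow_of_exponent_le (Real.one_le_cosh x) h

lemma cp_zero (x : ℝ) : cp 0 x = 1 := Real.rpow_zero _

lemma cp_neg_two (x : ℝ) : cp (-2) x = 1 - Real.tanh x ^ 2 := by
  have h := Real.cosh_pos x
  have h2 : Real.cosh x ^ 2 - Real.sinh x ^ 2 = 1 := Real.cosh_sq_sub_sinh_sq x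
  have : Real.cosh x ^ (-2 : ℝ) = (Real.cosh x ^ 2)⁻¹ := by
    rw [Real.rpow_neg h.le]; norm_num
  rw [cp, this, Real.tanh_eq_sinh_div_cosh]
  field_simp
  linarith

lemma cp_two_mul (x : ℝ) : cp 2 x * (1 - Real.tanh x ^ 2) = 1 := by
  rw [← cp_neg_two, cp_mul]; norm_num [cp_zero]

lemma hasDerivAt_tanh (x : ℝ) : HasDerivAt Real.tanh (1 - Real.tanh x ^ 2) x := by
  have h := Real.cosh_pos x
  have h1 := (Real.hasDerivAt_sinh x).div (Real.hasDerivAt_cosh x) h.ne'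
  have h2 : (fun x => Real.sinh x / Real.cosh x) = Real.tanh := by
    funext y; rw [Real.tanh_eq_sinh_div_cosh]
  have h3 : HasDerivAt (fun x => Real.sinh x / Real.cosh x) (1 - Real.tanh x ^ 2) x := by
    refine h1.congr_deriv ?_
    rw [Real.tanh_eq_sinh_div_cosh]
    field_simp
  rwa [h2] at h3

lemma hasDerivAt_cp (q x : ℝ) : HasDerivAt (cp q) (q * Real.tanh x * cp q x) x := by
  have h := Real.cosh_pos x
  have h1 := (Real.hasDerivAt_cosh x).rpow_const (p := q) (Or.inl h.ne')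
  refine h1.congr_deriv ?_
  rw [Real.tanh_eq_sinh_div_cosh, cp, Real.rpow_sub_one h.ne']
  field_simp

lemma hasDerivAt_cp' (q x : ℝ) :
    HasDerivAt (fun x => q * Real.tanh x * cp q x)
      (q * cp q x * ((q - 1) * Real.tanh x ^ 2 + 1)) x := by
  have h1 := (((hasDerivAt_tanh x).const_mul q).mul (hasDerivAt_cp q x))
  refine h1.congr_deriv ?_
  ring

lemma contDiff_cp (q : ℝ) : ContDiff ℝ (⊤ : ℕ∞) (cp q) := by
  unfold cp
  exact Real.contDiff_cosh.rpow_const_of_ne (fun x => (Real.cosh_pos x).ne')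

lemma tanh_sq_lt_one (x : ℝ) : Real.tanh x ^ 2 < 1 := by
  have := cp_neg_two x
  have h2 := cp_pos (-2) x
  linarith

end powers

/-! ### The generator as an operator (via `deriv`) and its computation from jets. -/

/-- The generator of the state `(X, Y, th, a)` applied to `F`, at a point with `Y > 0`. -/
noncomputable def gen (κ : ℝ) (F : ℝ → ℝ → ℝ → ℝ → ℝ) (X Y th a : ℝ) : ℝ :=
  genVal κ X Y (deriv (fun s => F s Y th a) X) (deriv (deriv (fun s => F s Y th a)) X)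
    (deriv (fun s => F X s th a) Y) (deriv (fun s => F X Y s a) th) (deriv (fun s => F X Y th s) a)

theorem FJet.gen_eq {F FX FXX FY Ft Fa : ℝ → ℝ → ℝ → ℝ → ℝ} (J : FJet F FX FXX FY Ft Fa)
    (κ : ℝ) {X Y : ℝ} (hY : 0 < Y) (th a : ℝ) :
    gen κ F X Y th a
      = genVal κ X Y (FX X Y th a) (FXX X Y th a) (FY X Y th a) (Ft X Y th a) (Fa X Y th a) := by
  have h1 : deriv (fun s => F s Y th a) = fun s => FX s Y th a := by
    funext s; exact (J.hX s Y th a hY).deriv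
  unfold gen
  rw [h1, (J.hXX X Y th a hY).deriv, (J.hY X Y th a hY).deriv, (J.ht X Y th a hY).deriv,
    (J.ha X Y th a hY).deriv]

/-- **Coordinates lemma (G0)**: the generator of the pull-back. -/
theorem Jet.gen_pb {V Vt Va Vx Vxx : ℝ → ℝ → ℝ → ℝ} (J : Jet V Vt Va Vx Vxx)
    (κ : ℝ) {X Y : ℝ} (hY : 0 < Y) (th a : ℝ) :
    gen κ (pb V) X Y th a
      = 1 / (X ^ 2 + Y ^ 2) * LVal κ (Real.tanh (xc X Y)) (Vx th a (xc X Y)) (Vxx th a (xc X Y))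
          (Vt th a (xc X Y)) (Va th a (xc X Y)) := by
  rw [J.pull.gen_eq κ hY, ← gen_pull κ hY]
  rfl

theorem Jet.gen_pb_nonpos {V Vt Va Vx Vxx : ℝ → ℝ → ℝ → ℝ} (J : Jet V Vt Va Vx Vxx)
    (κ : ℝ) {X Y : ℝ} (hY : 0 < Y) (th a : ℝ)
    (h : ∀ x, LVal κ (Real.tanh x) (Vx th a x) (Vxx th a x) (Vt th a x) (Va th a x) ≤ 0) :
    gen κ (pb V) X Y th a ≤ 0 := by
  rw [J.gen_pb κ hY]
  exact mul_nonpos_of_nonneg_of_nonpos (by have := R_pos (X := X) hY; positivity) (h _)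

theorem Jet.contDiffOn_pb {V Vt Va Vx Vxx : ℝ → ℝ → ℝ → ℝ} (J : Jet V Vt Va Vx Vxx) :
    ContDiffOn ℝ (⊤ : ℕ∞) (fun p : ℝ × ℝ × ℝ × ℝ => pb V p.1 p.2.1 p.2.2.1 p.2.2.2)
      {p | 0 < p.2.1} := J.pull.smooth

/-! ### Building jets. -/

section build

/-- `φ(th) ψ(a) f(x)`. -/
theorem Jet.prod {φ φ' ψ ψ' f f' f'' : ℝ → ℝ}
    (hφ : ∀ s, HasDerivAt φ (φ' s) s) (hψ : ∀ s, HasDerivAt ψ (ψ' s) s)
    (hf : ∀ s, HasDerivAt f (f' s) s) (hf' : ∀ s, HasDerivAt f' (f'' s) s)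
    (cφ : ContDiff ℝ (⊤ : ℕ∞) φ) (cψ : ContDiff ℝ (⊤ : ℕ∞) ψ) (cf : ContDiff ℝ (⊤ : ℕ∞) f) :
    Jet (fun th a x => φ th * ψ a * f x) (fun th a x => φ' th * ψ a * f x)
      (fun th a x => φ th * ψ' a * f x) (fun th a x => φ th * ψ a * f' x)
      (fun th a x => φ th * ψ a * f'' x) where
  smooth := by
    have h1 : ContDiff ℝ (⊤ : ℕ∞) (fun p : ℝ × ℝ × ℝ => φ p.1) := cφ.comp contDiff_fst
    have h2 : ContDiff ℝ (⊤ : ℕ∞) (fun p : ℝ × ℝ × ℝ => ψ p.2.1) :=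
      cψ.comp (contDiff_fst.comp contDiff_snd)
    have h3 : ContDiff ℝ (⊤ : ℕ∞) (fun p : ℝ × ℝ × ℝ => f p.2.2) :=
      cf.comp (contDiff_snd.comp contDiff_snd)
    exact (h1.mul h2).mul h3
  ht th a x := ((hφ th).mul_const (ψ a)).mul_const (f x)
  ha th a x := ((hψ a).const_mul (φ th)).mul_const (f x)
  hx th a x := (hf x).const_mul (φ th * ψ a)
  hxx th a x := (hf' x).const_mul (φ th * ψ a)

theorem Jet.add {V Vt Va Vx Vxx W Wt Wa Wx Wxx : ℝ → ℝ → ℝ → ℝ} (J : Jet V Vt Va Vx Vxx)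
    (K : Jet W Wt Wa Wx Wxx) :
    Jet (fun th a x => V th a x + W th a x) (fun th a x => Vt th a x + Wt th a x)
      (fun th a x => Va th a x + Wa th a x) (fun th a x => Vx th a x + Wx th a x)
      (fun th a x => Vxx th a x + Wxx th a x) where
  smooth := J.smooth.add K.smooth
  ht th a x := (J.ht th a x).add (K.ht th a x)
  ha th a x := (J.ha th a x).add (K.ha th a x)
  hx th a x := (J.hx th a x).add (K.hx th a x)
  hxx th a x := (J.hxx th a x).add (K.hxx th a x)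

/-- `φ(th) (cosh x)^r`. -/
theorem Jet.tcp {φ φ' : ℝ → ℝ} (hφ : ∀ s, HasDerivAt φ (φ' s) s) (cφ : ContDiff ℝ (⊤ : ℕ∞) φ)
    (r : ℝ) :
    Jet (fun th _ x => φ th * cp r x) (fun th _ x => φ' th * cp r x) (fun _ _ _ => 0)
      (fun th _ x => φ th * (r * Real.tanh x * cp r x))
      (fun th _ x => φ th * (r * cp r x * ((r - 1) * Real.tanh x ^ 2 + 1))) := by
  have h := Jet.prod (ψ := fun _ => (1 : ℝ)) (ψ' := fun _ => 0) hφ
    (fun s => hasDerivAt_const s (1 : ℝ)) (hasDerivAt_cp r) (hasDerivAt_cp' r) cφ contDiff_const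
    (contDiff_cp r)
  simpa using h

/-- `ψ(a) (cosh x)^r`. -/
theorem Jet.acp {ψ ψ' : ℝ → ℝ} (hψ : ∀ s, HasDerivAt ψ (ψ' s) s) (cψ : ContDiff ℝ (⊤ : ℕ∞) ψ)
    (r : ℝ) :
    Jet (fun _ a x => ψ a * cp r x) (fun _ _ _ => 0) (fun _ a x => ψ' a * cp r x)
      (fun _ a x => ψ a * (r * Real.tanh x * cp r x))
      (fun _ a x => ψ a * (r * cp r x * ((r - 1) * Real.tanh x ^ 2 + 1))) := by
  have h := Jet.prod (φ := fun _ => (1 : ℝ)) (φ' := fun _ => 0) 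
    (fun s => hasDerivAt_const s (1 : ℝ)) hψ (hasDerivAt_cp r) (hasDerivAt_cp' r) contDiff_const cψ
    (contDiff_cp r)
  simpa using h

end build

/-- `A_r`: `L (cosh x)^r = A_r(tanh x) (cosh x)^r`. -/
noncomputable def Ar (κ r t : ℝ) : ℝ := r * (κ / 2) * ((1 - t ^ 2) + (bb κ + r) * t ^ 2)

theorem LVal_cp {κ : ℝ} (hκ : 0 < κ) (φ φt φa r t c : ℝ) :
    LVal κ t (φ * (r * t * c)) (φ * (r * c * ((r - 1) * t ^ 2 + 1))) (φt * c) (φa * c)
      = (φ * Ar κ r t + 4 * (1 - t ^ 2) * φt + φa) * c := by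
  unfold LVal Ar bb
  field_simp
  ring


/-- The sine `S = Y/|Z|`. -/
theorem cp_neg_xc {X Y : ℝ} (hY : 0 < Y) (p : ℝ) :
    cp (-p) (xc X Y) = (Y / √(X ^ 2 + Y ^ 2)) ^ p := by
  have hr : 0 < √(X ^ 2 + Y ^ 2) := Real.sqrt_pos.2 (R_pos hY)
  rw [cp, cosh_xc hY, Real.rpow_neg (by positivity), ← Real.inv_rpow (by positivity), inv_div]

lemma LVal_add (κ t a1 a2 a3 a4 b1 b2 b3 b4 : ℝ) :
    LVal κ t (a1 + b1) (a2 + b2) (a3 + b3) (a4 + b4)
      = LVal κ t a1 a2 a3 a4 + LVal κ t b1 b2 b3 b4 := by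
  unfold LVal; ring

/-! ### U1: `V = th S^p + M S^{p'}`. -/

/-- The functions of steps (1), (2) of U1. -/
noncomputable def VU1 (p p' M : ℝ) : ℝ → ℝ → ℝ → ℝ := fun th _ x => th * cp (-p) x + M * cp (-p') x

theorem jet_VU1 (p p' M : ℝ) : Jet (VU1 p p' M)
    (fun _ _ x => 1 * cp (-p) x + 0 * cp (-p') x) (fun _ _ _ => 0 + 0)
    (fun th _ x => th * (-p * Real.tanh x * cp (-p) x) + M * (-p' * Real.tanh x * cp (-p') x))
    (fun th _ x => th * (-p * cp (-p) x * ((-p - 1) * Real.tanh x ^ 2 + 1))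
      + M * (-p' * cp (-p') x * ((-p' - 1) * Real.tanh x ^ 2 + 1))) :=
  (Jet.tcp (φ := fun s => s) (φ' := fun _ => 1) (fun s => hasDerivAt_id s) contDiff_id (-p)).add
    (Jet.tcp (φ := fun _ => M) (φ' := fun _ => 0) (fun s => hasDerivAt_const s M) contDiff_const (-p'))

theorem LVal_VU1_nonpos {κ p p' M : ℝ} (hκ : 0 < κ) (hp0 : 0 ≤ p) (hpb : p ≤ bb κ) (hp'0 : 0 < p')
    (hp'b : p' < bb κ) (hpp : p' ≤ p + 2) (hM : 8 / (κ * p' * min (bb κ - p') 1) ≤ M)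
    {th : ℝ} (hth : 0 ≤ th) (x : ℝ) :
    LVal κ (Real.tanh x)
      (th * (-p * Real.tanh x * cp (-p) x) + M * (-p' * Real.tanh x * cp (-p') x))
      (th * (-p * cp (-p) x * ((-p - 1) * Real.tanh x ^ 2 + 1))
        + M * (-p' * cp (-p') x * ((-p' - 1) * Real.tanh x ^ 2 + 1)))
      (1 * cp (-p) x + 0 * cp (-p') x) (0 + 0) ≤ 0 := by
  have e1 : (0 : ℝ) = 0 * cp (-p) x := by ring
  have e2 : (0 : ℝ) = 0 * cp (-p') x := by ring
  have ht := tanh_sq_lt_one x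
  have ht0 : 0 ≤ Real.tanh x ^ 2 := sq_nonneg _
  have hc := cp_pos (-p) x
  have hc' := cp_pos (-p') x
  have key : LVal κ (Real.tanh x)
      (th * (-p * Real.tanh x * cp (-p) x) + M * (-p' * Real.tanh x * cp (-p') x))
      (th * (-p * cp (-p) x * ((-p - 1) * Real.tanh x ^ 2 + 1))
        + M * (-p' * cp (-p') x * ((-p' - 1) * Real.tanh x ^ 2 + 1)))
      (1 * cp (-p) x + 0 * cp (-p') x) (0 * cp (-p) x + 0 * cp (-p') x)
      = (th * Ar κ (-p) (Real.tanh x) + 4 * (1 - Real.tanh x ^ 2) * 1 + 0) * cp (-p) x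
        + (M * Ar κ (-p') (Real.tanh x) + 4 * (1 - Real.tanh x ^ 2) * 0 + 0) * cp (-p') x := by
    rw [LVal_add, LVal_cp hκ, LVal_cp hκ]
  have e3 : (0 + 0 : ℝ) = 0 * cp (-p) x + 0 * cp (-p') x := by ring
  rw [e3, key]
  set t := Real.tanh x with htdef
  set m := min (bb κ - p') 1 with hm
  have hmpos : 0 < m := lt_min (by linarith) one_pos
  have hA1 : Ar κ (-p) t ≤ 0 := by
    unfold Ar
    have h1 : 0 ≤ (1 - t ^ 2) + (bb κ + -p) * t ^ 2 := by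
      have : 0 ≤ (bb κ + -p) * t ^ 2 := mul_nonneg (by linarith) ht0
      linarith
    have h2 : 0 ≤ p * (κ / 2) := by positivity
    nlinarith [mul_nonneg h2 h1]
  have hA2 : Ar κ (-p') t ≤ -(p' * (κ / 2) * m) := by
    unfold Ar
    have h1 : m ≤ (1 - t ^ 2) + (bb κ + -p') * t ^ 2 := by
      have ha : m ≤ bb κ - p' := min_le_left _ _
      have hb : m ≤ 1 := min_le_right _ _
      nlinarith
    have h2 : 0 ≤ p' * (κ / 2) := by positivity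
    nlinarith [mul_le_mul_of_nonneg_left h1 h2]
  have hM0 : 0 < M := lt_of_lt_of_le (by positivity) hM
  have hM2 : 8 ≤ M * (κ * p' * m) := by
    rwa [div_le_iff₀ (by positivity)] at hM
  have hcc : (1 - t ^ 2) * cp (-p) x ≤ cp (-p') x := by
    rw [htdef, ← cp_neg_two, cp_mul]
    exact cp_le_cp (by linarith) x
  have h5 : th * Ar κ (-p) t * cp (-p) x ≤ 0 :=
    mul_nonpos_of_nonpos_of_nonneg (mul_nonpos_of_nonneg_of_nonpos hth hA1) hc.le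
  have h6 : M * Ar κ (-p') t * cp (-p') x ≤ -4 * cp (-p') x := by
    apply mul_le_mul_of_nonneg_right _ hc'.le
    have := mul_le_mul_of_nonneg_left hA2 hM0.le
    nlinarith
  nlinarith

/-- **U1, steps (1),(2).** -/
theorem gen_VU1_nonpos {κ p p' M : ℝ} (hκ : 0 < κ) (hp0 : 0 ≤ p) (hpb : p ≤ bb κ) (hp'0 : 0 < p')
    (hp'b : p' < bb κ) (hpp : p' ≤ p + 2) (hM : 8 / (κ * p' * min (bb κ - p') 1) ≤ M)
    {X Y th a : ℝ} (hY : 0 < Y) (hth : 0 ≤ th) : gen κ (pb (VU1 p p' M)) X Y th a ≤ 0 :=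
  (jet_VU1 p p' M).gen_pb_nonpos κ hY th a
    (fun x => LVal_VU1_nonpos hκ hp0 hpb hp'0 hp'b hpp hM hth x)

/-! ### U1, last step: `V = th S^p + M (2 S^b - S^{b+η})`. -/

/-- The function of step (3) of U1. -/
noncomputable def VU1f (κ p η M : ℝ) : ℝ → ℝ → ℝ → ℝ := fun th _ x =>
  th * cp (-p) x + (2 * M * cp (-bb κ) x + -M * cp (-(bb κ + η)) x)

theorem jet_VU1f (κ p η M : ℝ) : Jet (VU1f κ p η M)
    (fun _ _ x => 1 * cp (-p) x + (0 * cp (-bb κ) x + 0 * cp (-(bb κ + η)) x))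
    (fun _ _ _ => 0 + (0 + 0))
    (fun th _ x => th * (-p * Real.tanh x * cp (-p) x)
      + (2 * M * (-bb κ * Real.tanh x * cp (-bb κ) x)
        + -M * (-(bb κ + η) * Real.tanh x * cp (-(bb κ + η)) x)))
    (fun th _ x => th * (-p * cp (-p) x * ((-p - 1) * Real.tanh x ^ 2 + 1))
      + (2 * M * (-bb κ * cp (-bb κ) x * ((-bb κ - 1) * Real.tanh x ^ 2 + 1))
        + -M * (-(bb κ + η) * cp (-(bb κ + η)) x * ((-(bb κ + η) - 1) * Real.tanh x ^ 2 + 1)))) :=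
  (Jet.tcp (φ := fun s => s) (φ' := fun _ => 1) (fun s => hasDerivAt_id s) contDiff_id (-p)).add
    ((Jet.tcp (φ := fun _ => 2 * M) (φ' := fun _ => 0) (fun s => hasDerivAt_const s (2 * M))
        contDiff_const (-bb κ)).add
      (Jet.tcp (φ := fun _ => -M) (φ' := fun _ => 0) (fun s => hasDerivAt_const s (-M))
        contDiff_const (-(bb κ + η))))

theorem LVal_VU1f_nonpos {κ p η M : ℝ} (hκ : 0 < κ) (hb : 0 < bb κ) (hp0 : 0 ≤ p)
    (hpb : p ≤ bb κ) (hη : 0 < η) (hη1 : η * (bb κ + η + 1) ≤ bb κ) (hpp : bb κ + η ≤ p + 2)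
    (hM : 8 / (κ * (bb κ + η) * η) ≤ M) {th : ℝ} (hth : 0 ≤ th) (x : ℝ) :
    LVal κ (Real.tanh x)
      (th * (-p * Real.tanh x * cp (-p) x)
      + (2 * M * (-bb κ * Real.tanh x * cp (-bb κ) x)
        + -M * (-(bb κ + η) * Real.tanh x * cp (-(bb κ + η)) x)))
      (th * (-p * cp (-p) x * ((-p - 1) * Real.tanh x ^ 2 + 1))
      + (2 * M * (-bb κ * cp (-bb κ) x * ((-bb κ - 1) * Real.tanh x ^ 2 + 1))
        + -M * (-(bb κ + η) * cp (-(bb κ + η)) x * ((-(bb κ + η) - 1) * Real.tanh x ^ 2 + 1))))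
      (1 * cp (-p) x + (0 * cp (-bb κ) x + 0 * cp (-(bb κ + η)) x)) (0 + (0 + 0)) ≤ 0 := by
  have ht := tanh_sq_lt_one x
  have ht0 : 0 ≤ Real.tanh x ^ 2 := sq_nonneg _
  have hc := cp_pos (-p) x
  have hcb := cp_pos (-bb κ) x
  have hce := cp_pos (-(bb κ + η)) x
  have e3 : (0 + (0 + 0) : ℝ)
      = 0 * cp (-p) x + (0 * cp (-bb κ) x + 0 * cp (-(bb κ + η)) x) := by ring
  rw [e3, LVal_add, LVal_add, LVal_cp hκ, LVal_cp hκ, LVal_cp hκ]
  set t := Real.tanh x with htdef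
  have hA1 : Ar κ (-p) t ≤ 0 := by
    unfold Ar
    have h1 : 0 ≤ (1 - t ^ 2) + (bb κ + -p) * t ^ 2 := by
      have : 0 ≤ (bb κ + -p) * t ^ 2 := mul_nonneg (by linarith) ht0
      linarith
    have h2 : 0 ≤ p * (κ / 2) := by positivity
    nlinarith [mul_nonneg h2 h1]
  have hM0 : 0 < M := lt_of_lt_of_le (by positivity) hM
  have hM2 : 8 ≤ M * (κ * (bb κ + η) * η) := by
    rwa [div_le_iff₀ (by positivity)] at hM
  -- `S^{b+2} ≥ S^{b+η+2}` and `4 S^{p+2} ≤ 4 S^{b+η}`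
  have hcc : (1 - t ^ 2) * cp (-p) x ≤ cp (-(bb κ + η)) x := by
    rw [htdef, ← cp_neg_two, cp_mul]
    exact cp_le_cp (by linarith) x
  have hce2 : (1 - t ^ 2) * cp (-(bb κ + η)) x ≤ (1 - t ^ 2) * cp (-bb κ) x :=
    mul_le_mul_of_nonneg_left (cp_le_cp (by linarith) x) (by linarith)
  have h5 : th * Ar κ (-p) t * cp (-p) x ≤ 0 :=
    mul_nonpos_of_nonpos_of_nonneg (mul_nonpos_of_nonneg_of_nonpos hth hA1) hc.le
  have h6 : 2 * M * Ar κ (-bb κ) t * cp (-bb κ) x + -M * Ar κ (-(bb κ + η)) t * cp (-(bb κ + η)) x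
      = -(M * (κ / 2)) * (2 * bb κ * ((1 - t ^ 2) * cp (-bb κ) x)
          - (bb κ + η) * (1 + η) * ((1 - t ^ 2) * cp (-(bb κ + η)) x)
          + (bb κ + η) * η * cp (-(bb κ + η)) x) := by
    unfold Ar; ring
  have h7 : (bb κ + η) * η * cp (-(bb κ + η)) x
      ≤ 2 * bb κ * ((1 - t ^ 2) * cp (-bb κ) x)
          - (bb κ + η) * (1 + η) * ((1 - t ^ 2) * cp (-(bb κ + η)) x)
          + (bb κ + η) * η * cp (-(bb κ + η)) x := by
    have h8 : (bb κ + η) * (1 + η) ≤ 2 * bb κ := by nlinarith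
    have h9 : 0 ≤ (1 - t ^ 2) * cp (-(bb κ + η)) x := mul_nonneg (by linarith) hce.le
    have h10 := mul_le_mul_of_nonneg_right h8 h9
    have h11 := mul_le_mul_of_nonneg_left hce2 (by linarith : (0 : ℝ) ≤ 2 * bb κ)
    linarith
  have h12 : 2 * M * Ar κ (-bb κ) t * cp (-bb κ) x + -M * Ar κ (-(bb κ + η)) t * cp (-(bb κ + η)) x
      ≤ -4 * cp (-(bb κ + η)) x := by
    rw [h6]
    have hMk : 0 ≤ M * (κ / 2) := by positivity
    have h13 := mul_le_mul_of_nonneg_left h7 hMk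
    have h14 : 4 * cp (-(bb κ + η)) x ≤ M * (κ / 2) * ((bb κ + η) * η * cp (-(bb κ + η)) x) := by
      have : 4 ≤ M * (κ / 2) * ((bb κ + η) * η) := by nlinarith
      calc 4 * cp (-(bb κ + η)) x ≤ (M * (κ / 2) * ((bb κ + η) * η)) * cp (-(bb κ + η)) x :=
            mul_le_mul_of_nonneg_right this hce.le
        _ = _ := by ring
    linarith
  nlinarith

/-- **U1, step (3).** -/
theorem gen_VU1f_nonpos {κ p η M : ℝ} (hκ : 0 < κ) (hb : 0 < bb κ) (hp0 : 0 ≤ p)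
    (hpb : p ≤ bb κ) (hη : 0 < η) (hη1 : η * (bb κ + η + 1) ≤ bb κ) (hpp : bb κ + η ≤ p + 2)
    (hM : 8 / (κ * (bb κ + η) * η) ≤ M) {X Y th a : ℝ} (hY : 0 < Y) (hth : 0 ≤ th) :
    gen κ (pb (VU1f κ p η M)) X Y th a ≤ 0 :=
  (jet_VU1f κ p η M).gen_pb_nonpos κ hY th a
    (fun x => LVal_VU1f_nonpos hκ hb hp0 hpb hη hη1 hpp hM hth x)

/-! ### Green's function `G = e^{(2-d) th} S^b`, `2 - d = κ b / 8`. -/

/-- Green's function, `Ups^{d-2} S^b` up to the constant `Ups_0^{d-2}`. -/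
noncomputable def VG (κ : ℝ) : ℝ → ℝ → ℝ → ℝ := fun th _ x =>
  Real.exp (κ * bb κ / 8 * th) * cp (-bb κ) x

lemma hasDerivAt_expc (c s : ℝ) : HasDerivAt (fun s => Real.exp (c * s)) (c * Real.exp (c * s)) s := by
  have h := ((hasDerivAt_id s).const_mul c).exp
  refine h.congr_deriv ?_
  simp [mul_comm]

lemma contDiff_expc (c : ℝ) : ContDiff ℝ (⊤ : ℕ∞) (fun s => Real.exp (c * s)) := by fun_prop

theorem jet_VG (κ : ℝ) : Jet (VG κ)
    (fun th _ x => κ * bb κ / 8 * Real.exp (κ * bb κ / 8 * th) * cp (-bb κ) x) (fun _ _ _ => 0)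
    (fun th _ x => Real.exp (κ * bb κ / 8 * th) * (-bb κ * Real.tanh x * cp (-bb κ) x))
    (fun th _ x => Real.exp (κ * bb κ / 8 * th)
      * (-bb κ * cp (-bb κ) x * ((-bb κ - 1) * Real.tanh x ^ 2 + 1))) :=
  Jet.tcp (hasDerivAt_expc _) (contDiff_expc _) _

theorem gen_VG {κ : ℝ} (hκ : 0 < κ) {X Y th a : ℝ} (hY : 0 < Y) :
    gen κ (pb (VG κ)) X Y th a = 0 := by
  rw [(jet_VG κ).gen_pb κ hY]
  have e : (0 : ℝ) = 0 * cp (-bb κ) (xc X Y) := by ring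
  have h := LVal_cp hκ (Real.exp (κ * bb κ / 8 * th)) (κ * bb κ / 8 * Real.exp (κ * bb κ / 8 * th)) 0
    (-bb κ) (Real.tanh (xc X Y)) (cp (-bb κ) (xc X Y))
  rw [← e] at h
  rw [h]
  unfold Ar
  ring

end Crest.Agent.R162.GEN
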