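import Mathlib
import Crest.Agent.R162.LB7bI
import Crest.Agent.R162.LB7aL
import Crest.Agent.R162.Rad2
import Crest.Agent.R162.OPd
import Crest.Agent.R162.OPM

/-!
Row 162, node LB7b, final form (no hypotheses left): all inputs (OPM, OP1, U2, LB7a) plugged in.
-/

set_option autoImplicit false

open MeasureTheory ProbabilityTheory Filter Set
open scoped NNReal ENNReal Topology

namespace Crest.Agent.R162.LB7

open Crest.Agent.R162.OS Crest.Agent.R162.FL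
open Crest.ProbabilityR.Loewner

universe u

theorem op1Stmt {κ : ℝ} (hκ : 0 < κ) (hκ8 : κ < 8) : OP1Stmt.{u} κ := by
  intro c0 hc0
  refine ⟨OP.C1 κ c0, OP.lam1 κ, OP.C1_pos hc0, OP.lam1_pos hκ hκ8, ?_⟩
  intro Ω m P _ Fl B hB w hw σ hσ A hA a
  exact OP.OP1 OPM.opm.{u} hB hκ hκ8 hw hσ hA hc0 a

theorem u2Stmt {κ : ℝ} (hκ : 0 < κ) : U2Stmt.{u} (κ := κ) OPM.opm.{u} hκ := by
  intro q' hq hqb hq2
  refine ⟨Rad.CU2 κ q', (Rad.CU2_pos hκ hq hqb).le, ?_⟩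
  intro Ω m P _ Fl B hB w hw s hs
  have h := Rad.U2 (Rad.oneP OPM.opm.{u} hB hκ hw) hκ hq hqb hq2 hs
    ((Rad.oneP OPM.opm.{u} hB hκ hw).alive_past s)
  have hset : (Rad.oneP OPM.opm.{u} hB hκ hw).alive s ∩
      (Rad.oneP OPM.opm.{u} hB hκ hw).alive (s + 1) =
      (Rad.oneP OPM.opm.{u} hB hκ hw).alive (s + 1) :=
    inter_eq_right.2 ((Rad.oneP OPM.opm.{u} hB hκ hw).alive_anti (by linarith))
  rw [hset] at h
  exact h

theorem lb7aStmt {q η CA K9 K : ℝ} (hq : 0 < q) (hη : 0 < η) (hCA : 0 ≤ CA) (_ : 0 ≤ K9)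
    (hK : 4 ≤ K) : LB7aStmt LB7a.grid q η CA K9 K := by
  obtain ⟨C', hC', h⟩ := LB7a.lam_le (q := q) (η := η) (CA := CA) (K := K) hq hη hCA hK
  exact ⟨C', hC', fun W w0 R N σ s u0 hW hR hN hRN hal _ hu0 hs hgrid =>
    h W w0 R N σ s u0 hW hR hN hRN hal hu0 hs hgrid⟩

/-- **LB7b, final.** -/
theorem lb7b_final {κ : ℝ} (hκ : 0 < κ) (hκ8 : κ < 8) {q η K9 cS : ℝ} (hq : 0 < q) (hη : 0 < η)
    (hK9 : 0 < K9) (hcS : 0 < cS) :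
    ∃ C' C : ℝ, 0 < C' ∧ 0 < C ∧
      ∀ {Ω : Type u} {m : MeasurableSpace Ω} {P : Measure Ω} [IsProbabilityMeasure P]
      {Fl : Filtration ℝ≥0 m} {B : ℝ≥0 → Ω → ℝ} (hB : IsBM Fl B P) {w0 : ℂ} (hw : 0 < w0.im)
      (R N : ℝ) (u0 : ℂ → ℝ), 1 ≤ R → 1 ≤ N → Real.log R ≤ N → K9 * R ≤ w0.im →
      cS * ‖w0‖ ≤ w0.im → (∀ p, max 1 (‖p - w0‖ - R) ≤ u0 p) →
      ∫⁻ ω in {ω | ω ∈ (Rad.oneP OPM.opm.{u} hB hκ hw).alive (-Real.log (K9 * R)) ∧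
          ENNReal.ofReal (C' * N) < LB.Lam u0 q η (ffl (driving κ B ω)
            ((Rad.oneP OPM.opm.{u} hB hκ hw).tau (-Real.log (K9 * R)) ω))},
        gw (Rad.oneP OPM.opm.{u} hB hκ hw) (-Real.log (K9 * R)) ω ∂P ≤
        ENNReal.ofReal (C * Real.exp (-2 * N)) * ENNReal.ofReal (UB.green κ w0) :=
  lb7b hκ hκ8 OPM.opm.{u} (op1Stmt hκ hκ8) (u2Stmt hκ) LB7a.grid (Cg := 26569) (by norm_num)
    LB7a.card_grid (fun hq hη hCA hK9 hK => lb7aStmt hq hη hCA hK9 hK) hq hη hK9 hcS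

end Crest.Agent.R162.LB7
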