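import Crest.Agent.R162.UD
import Crest.Agent.R162.FLB
import Crest.Agent.R162.KB1
import Crest.Agent.R162.LB7u
import Crest.Agent.R162.LBDefs

/-!
Row 162 (S0243), node LB7c: deterministic comparison of the Green weights of two nearby points
and the bad part of the content (helper152).
-/

set_option autoImplicit false

open Set Metric Topology MeasureTheory
open scoped ENNReal ComplexConjugate

namespace Crest.Agent.R162.LB7cX

open Crest.Agent.R162.FL Crest.Agent.R162.OP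

variable {W : ℝ → ℝ} {t : ℝ} {w0 w : ℂ}

/-- a point close (on the scale of `Υ`) to an alive point is alive -/
theorem alive_near (hW : ContinuousOn W (Ici 0)) (h0 : Alive W w0 t)
    (h : ‖w - w0‖ ≤ ups W t w0 / 16) : Alive W w t := by
  have hu := FL.ups_pos h0
  apply UD.ball_subset_Dom hW h0
  rw [mem_ball, dist_eq_norm]; linarith

theorem ups_near (hW : ContinuousOn W (Ici 0)) (h0 : Alive W w0 t)
    (h : ‖w - w0‖ ≤ ups W t w0 / 16) : 7 / 32 * ups W t w0 ≤ ups W t w := by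
  have h1 := UD.udStmt W w0 w t hW h0 (alive_near hW h0 h)
  rw [norm_sub_rev] at h1
  linarith

/-- Schwarz–Pick -/
theorem Z_near (hW : ContinuousOn W (Ici 0)) (h0 : Alive W w0 t)
    (h : ‖w - w0‖ ≤ ups W t w0 / 16) :
    ‖Zfl W t w - Zfl W t w0‖ ≤ 2 / 7 * (Zfl W t w0).im := by
  have hu := FL.ups_pos h0
  have hZ0 := Zfl_im_pos h0
  set F : ℂ → ℂ := fun z => KB1.dco (Zfl W t w0) (Zfl W t z) with hF
  have hsub : ball w0 (ups W t w0 / 2) ⊆ Dom W t := UD.ball_subset_Dom hW h0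
  have hd : DifferentiableOn ℂ F (ball w0 (ups W t w0 / 2)) := by
    have h1 : DifferentiableOn ℂ (Zfl W t) (ball w0 (ups W t w0 / 2)) :=
      (FL.differentiableOn_Zfl hW).mono hsub
    refine (h1.sub_const _).div (h1.sub_const _) ?_
    intro z hz
    exact KB1.sub_conj_ne hZ0 (Zfl_im_pos (hsub hz))
  have hF0 : F w0 = 0 := by simp [hF, KB1.dco]
  have hm : MapsTo F (ball w0 (ups W t w0 / 2)) (ball (F w0) 1) := by
    intro z hz
    rw [hF0]
    exact KB1.dco_mem hZ0 (Zfl_im_pos (hsub hz))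
  have hw : w ∈ ball w0 (ups W t w0 / 2) := by
    rw [mem_ball, dist_eq_norm]; linarith
  have h2 := Complex.dist_le_div_mul_dist_of_mapsTo_ball hd (hm.mono_right ball_subset_closedBall) hw
  rw [hF0, dist_zero_right, dist_eq_norm] at h2
  have h3 : ‖F w‖ ≤ 1 / 8 := by
    refine h2.trans ?_
    rw [div_mul_eq_mul_div, one_mul, div_le_iff₀ (by positivity)]
    linarith
  have h4 : ‖F w‖ = ‖Zfl W t w - Zfl W t w0‖ / ‖Zfl W t w - conj (Zfl W t w0)‖ := by
    rw [hF]; exact KB1.norm_dco _ _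
  have hne : 0 < ‖Zfl W t w - conj (Zfl W t w0)‖ :=
    norm_pos_iff.2 (KB1.sub_conj_ne hZ0 (Zfl_im_pos (hsub hw)))
  rw [h4, div_le_iff₀ hne] at h3
  have h5 : ‖Zfl W t w - conj (Zfl W t w0)‖ ≤ ‖Zfl W t w - Zfl W t w0‖ + 2 * (Zfl W t w0).im := by
    have e : Zfl W t w - conj (Zfl W t w0) =
        (Zfl W t w - Zfl W t w0) + (Zfl W t w0 - conj (Zfl W t w0)) := by ring
    rw [e]
    refine (norm_add_le _ _).trans ?_
    gcongr
    rw [Complex.sub_conj]
    simp [abs_of_pos hZ0]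
  linarith

theorem sfl_near (hW : ContinuousOn W (Ici 0)) (h0 : Alive W w0 t)
    (h : ‖w - w0‖ ≤ ups W t w0 / 16) : sfl W t w ≤ 9 / 5 * sfl W t w0 := by
  have hZ0 := Zfl_im_pos h0
  have h1 := Z_near hW h0 h
  have h2 : (Zfl W t w).im ≤ 9 / 7 * (Zfl W t w0).im := by
    have := (Complex.abs_im_le_norm (Zfl W t w - Zfl W t w0))
    rw [Complex.sub_im] at this
    have := le_abs_self ((Zfl W t w).im - (Zfl W t w0).im)
    linarith
  have h3 : (Zfl W t w0).im ≤ ‖Zfl W t w0‖ := Complex.im_le_norm _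
  have h4 : 5 / 7 * ‖Zfl W t w0‖ ≤ ‖Zfl W t w‖ := by
    have h5 : ‖Zfl W t w0‖ ≤ ‖Zfl W t w‖ + ‖Zfl W t w - Zfl W t w0‖ := by
      have e : Zfl W t w0 = Zfl W t w - (Zfl W t w - Zfl W t w0) := by ring
      calc ‖Zfl W t w0‖ = ‖Zfl W t w - (Zfl W t w - Zfl W t w0)‖ := by rw [← e]
        _ ≤ _ := norm_sub_le _ _
    linarith
  have hpos : 0 < ‖Zfl W t w0‖ := lt_of_lt_of_le hZ0 h3
  unfold sfl
  calc (Zfl W t w).im / ‖Zfl W t w‖ ≤ (9 / 7 * (Zfl W t w0).im) / (5 / 7 * ‖Zfl W t w0‖) := by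
        apply div_le_div₀ (by positivity) h2 (by positivity) h4
    _ = 9 / 5 * ((Zfl W t w0).im / ‖Zfl W t w0‖) := by
        field_simp

/-- the constant of `gr_near` -/
noncomputable def cgr (κ : ℝ) : ℝ := (7 / 32 : ℝ) ^ (κ / 8 - 1) * (9 / 5) ^ (8 / κ - 1)

theorem cgr_pos (κ : ℝ) : 0 < cgr κ := by unfold cgr; positivity

/-- comparison of the Green weights of two nearby points -/
theorem gr_near {κ : ℝ} (hκ : 0 < κ) (hκ8 : κ < 8) (hW : ContinuousOn W (Ici 0))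
    (h0 : Alive W w0 t) (h : ‖w - w0‖ ≤ ups W t w0 / 16) :
    gr κ W t w ≤ cgr κ * gr κ W t w0 := by
  have hu := FL.ups_pos h0
  have hw := alive_near hW h0 h
  have hb : 0 ≤ 8 / κ - 1 := by
    rw [sub_nonneg, le_div_iff₀ hκ]; linarith
  have hs0 : 0 ≤ sfl W t w0 := by
    unfold sfl; exact div_nonneg (Zfl_im_pos h0).le (norm_nonneg _)
  have hs : 0 ≤ sfl W t w := by
    unfold sfl; exact div_nonneg (Zfl_im_pos hw).le (norm_nonneg _)
  unfold gr cgr
  have h1 : ups W t w ^ (κ / 8 - 1) ≤ (7 / 32 * ups W t w0) ^ (κ / 8 - 1) :=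
    Real.rpow_le_rpow_of_nonpos (by positivity) (ups_near hW h0 h) (by linarith)
  have h2 : sfl W t w ^ (8 / κ - 1) ≤ (9 / 5 * sfl W t w0) ^ (8 / κ - 1) :=
    Real.rpow_le_rpow hs (sfl_near hW h0 h) hb
  calc ups W t w ^ (κ / 8 - 1) * sfl W t w ^ (8 / κ - 1)
      ≤ (7 / 32 * ups W t w0) ^ (κ / 8 - 1) * (9 / 5 * sfl W t w0) ^ (8 / κ - 1) := by
        gcongr
    _ = _ := by
        rw [Real.mul_rpow (by norm_num) hu.le, Real.mul_rpow (by norm_num) hs0]
        ring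

end Crest.Agent.R162.LB7cX
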