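import Crest.Prelude.Def_Loewner
import Crest.Agent.R162.OSDefs

/-!
Row 162 (S0243), node TOP (helper310): the two frozen targets `UBC` (upper bound) and `LBC` (lower
bound), for Brownian motions with all paths continuous and started at `0` (`OS.IsBM`), and the final
assembly of S0243 from them.
-/

set_option autoImplicit false

open MeasureTheory ProbabilityTheory Filter Topology
open scoped NNReal ENNReal
open Crest.ProbabilityR.Loewner

namespace Crest.Agent.R162.Top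

universe u

/-- UPPER BOUND target. -/
def UBC (κ : ℝ) : Prop :=
  ∀ (Ω : Type u) [MeasurableSpace Ω] (P : Measure Ω) [IsProbabilityMeasure P]
    (F : Filtration ℝ≥0 (inferInstance : MeasurableSpace Ω)) (B : ℝ≥0 → Ω → ℝ)
    (_ : OS.IsBM F B P) (γ : Ω → ℝ → ℂ)
    (_ : ∀ᵐ ω ∂P, IsChordalTrace (driving κ B ω) (γ ω)) (R : ℝ),
    ∃ Φ : Ω → ℝ≥0∞, Measurable Φ ∧ ∫⁻ ω, Φ ω ∂P < ⊤ ∧
      ∀ᵐ ω ∂P, gaugeMeasure κ (γ ω '' Set.Ici 0 ∩ Metric.closedBall 0 R) ≤ Φ ω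

/-- LOWER BOUND target. -/
def LBC (κ : ℝ) : Prop :=
  ∀ (Ω : Type u) [MeasurableSpace Ω] (P : Measure Ω) [IsProbabilityMeasure P]
    (F : Filtration ℝ≥0 (inferInstance : MeasurableSpace Ω)) (B : ℝ≥0 → Ω → ℝ)
    (_ : OS.IsBM F B P) (γ : Ω → ℝ → ℂ)
    (_ : ∀ᵐ ω ∂P, IsChordalTrace (driving κ B ω) (γ ω)),
    ∀ᵐ ω ∂P, ∀ s t : ℝ, 0 < s → s < t → 0 < gaugeMeasure κ (γ ω '' Set.Icc s t)

/-- The conclusion of S0243 from the two targets, for a good version of the Brownian motion. -/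
theorem concl_of {κ : ℝ} (hU : UBC.{u} κ) (hL : LBC.{u} κ)
    {Ω : Type u} [MeasurableSpace Ω] (P : Measure Ω) [IsProbabilityMeasure P]
    (F : Filtration ℝ≥0 (inferInstance : MeasurableSpace Ω)) (B : ℝ≥0 → Ω → ℝ)
    (hB : OS.IsBM F B P) (γ : Ω → ℝ → ℂ)
    (hγ : ∀ᵐ ω ∂P, IsChordalTrace (driving κ B ω) (γ ω)) :
    (∀ᵐ ω ∂P, ∀ s t : ℝ, 0 < s → s < t →
        0 < gaugeMeasure κ (γ ω '' Set.Icc s t) ∧ gaugeMeasure κ (γ ω '' Set.Icc s t) < ⊤) ∧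
      ∀ R : ℝ, ∫⁻ ω, gaugeMeasure κ (γ ω '' Set.Ici 0 ∩ Metric.closedBall 0 R) ∂P < ⊤ := by
  have hU' := hU Ω P F B hB γ hγ
  refine ⟨?_, fun R => ?_⟩
  · have hfin : ∀ᵐ ω ∂P, ∀ n : ℕ,
        gaugeMeasure κ (γ ω '' Set.Ici 0 ∩ Metric.closedBall 0 n) < ⊤ := by
      rw [ae_all_iff]
      intro n
      obtain ⟨Φ, hm, hint, hle⟩ := hU' n
      filter_upwards [hle, ae_lt_top hm hint.ne] with ω h1 h2
      exact h1.trans_lt h2
    filter_upwards [hfin, hL Ω P F B hB γ hγ, hγ] with ω h1 h2 h3 s t hs hst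
    refine ⟨h2 s t hs hst, ?_⟩
    have hcomp : IsCompact (γ ω '' Set.Icc s t) :=
      isCompact_Icc.image_of_continuousOn
        (h3.continuousOn.mono fun x hx => hs.le.trans hx.1)
    obtain ⟨R, hR⟩ := hcomp.isBounded.subset_closedBall (0 : ℂ)
    obtain ⟨n, hn⟩ := exists_nat_ge R
    refine lt_of_le_of_lt (measure_mono ?_) (h1 n)
    intro x hx
    refine ⟨?_, Metric.closedBall_subset_closedBall hn (hR hx)⟩
    obtain ⟨r, hr, rfl⟩ := hx
    exact ⟨r, hs.le.trans hr.1, rfl⟩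
  · obtain ⟨Φ, hm, hint, hle⟩ := hU' R
    exact (lintegral_mono_ae hle).trans_lt hint

end Crest.Agent.R162.Top
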