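import Crest.Agent.R162.FLE2
import Crest.Agent.R162.LB7cX
import Crest.Agent.R162.LBSkel

/-!
Row 162 (S0243), node LB7c, Fubini part (helper152): joint measurability of the content, no content
in a ball before its centre is approached, mean content of a ball after a stopping time.
-/

set_option autoImplicit false

open Set Metric MeasureTheory Filter Topology ProbabilityTheory
open scoped NNReal ENNReal

namespace Crest.Agent.R162.LB7F

open Crest.Agent.R162.FL Crest.Agent.R162.OP Crest.Agent.R162.OS Crest.Agent.R162.LB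
open Crest.ProbabilityR.Loewner

/-! ### joint measurability of the content -/

section meas

variable {Ω : Type*} {m : MeasurableSpace Ω} {W : Ω → ℝ → ℝ} {T : ℝ}

/-- the density of the content as a function of `(Υ, S, Z)` -/
noncomputable def cdF (κ ε c1 lam : ℝ) (x : (ℝ × ℝ) × ℂ) : ℝ≥0∞ :=
  ENNReal.ofReal (chi (lam * x.1.1 / ε) * (lam * x.1.1) ^ (κ / 8 - 1) * x.1.2 ^ (8 / κ - 1) *
    (if c1 ≤ x.1.2 then 1 else 0) * (4 * x.1.2 ^ 2 / ‖x.2‖ ^ 2))

lemma measurable_cdF (κ ε c1 lam : ℝ) : Measurable (cdF κ ε c1 lam) := by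
  unfold cdF
  have h1 : Measurable fun x : (ℝ × ℝ) × ℂ => chi (lam * x.1.1 / ε) :=
    measurable_chi.comp (by fun_prop)
  have h2 : Measurable fun x : (ℝ × ℝ) × ℂ => (lam * x.1.1) ^ (κ / 8 - 1) := by fun_prop
  have h3 : Measurable fun x : (ℝ × ℝ) × ℂ => x.1.2 ^ (8 / κ - 1) := by fun_prop
  have h4 : Measurable fun x : (ℝ × ℝ) × ℂ => if c1 ≤ x.1.2 then (1:ℝ) else 0 :=
    Measurable.ite (measurableSet_le measurable_const (by fun_prop)) measurable_const
      measurable_const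
  have h5 : Measurable fun x : (ℝ × ℝ) × ℂ => 4 * x.1.2 ^ 2 / ‖x.2‖ ^ 2 := by fun_prop
  exact ((((h1.mul h2).mul h3).mul h4).mul h5).ennreal_ofReal

theorem jm_cd (κ ε c1 lam : ℝ) (hc : ∀ ω, ContinuousOn (W ω) (Icc 0 T))
    (hm : ∀ s ∈ Icc 0 T, Measurable (fun ω => W ω s)) :
    FLD.JM (m := m) T (fun p s => ENNReal.ofReal (cd κ ε c1 lam (W p.1) s p.2)) := by
  have h1 := FLD.jm_ups hc hm
  have h2 := FLD.jm_sfl hc hm
  have h3 := FLD.jm_Zfl hc hm
  have h12 : FLD.JM (m := m) T (fun p s => (ups (W p.1) s p.2, sfl (W p.1) s p.2)) :=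
    h1.comp₂ h2 measurable_id
  exact h12.comp₂ h3 (measurable_cdF κ ε c1 lam)

theorem measurable_cz (κ ε c1 lam : ℝ) (hc : ∀ ω, ContinuousOn (W ω) (Icc 0 T))
    (hm : ∀ s ∈ Icc 0 T, Measurable (fun ω => W ω s)) {a b : Ω → ℝ} (ha : Measurable a)
    (hb : Measurable b) (ha0 : ∀ ω, 0 ≤ a ω) (hbT : ∀ ω, b ω ≤ T) :
    Measurable (fun p : Ω × ℂ => cz κ ε c1 lam (W p.1) (Ioc (a p.1) (b p.1)) p.2) := by
  have h1 := jm_cd κ ε c1 lam hc hm
  unfold FLD.JM at h1
  have hS : MeasurableSet {x : (Ω × ℂ) × ℝ | a x.1.1 < x.2 ∧ x.2 ≤ b x.1.1} :=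
    (measurableSet_lt (ha.comp (measurable_fst.comp measurable_fst)) measurable_snd).inter
      (measurableSet_le measurable_snd (hb.comp (measurable_fst.comp measurable_fst)))
  have h2 := Measurable.lintegral_prod_right' (ν := (volume : Measure ℝ)) (h1.indicator hS)
  convert h2 using 1
  funext p
  unfold cz
  rw [← lintegral_indicator measurableSet_Ioc]
  refine lintegral_congr fun s => ?_
  by_cases hs : s ∈ Ioc (a p.1) (b p.1)
  · rw [indicator_of_mem hs, indicator_of_mem (show (p, s) ∈ _ from hs)]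
    have : s ∈ Icc 0 T := ⟨(ha0 _).trans hs.1.le, hs.2.trans (hbT _)⟩
    simp only [indicator_of_mem this]
  · rw [indicator_of_notMem hs, indicator_of_notMem (show (p, s) ∉ _ from hs)]

end meas

/-! ### no content before the centre is approached -/

section det

variable {W : ℝ → ℝ} {w0 w : ℂ} {κ ε c1 R s : ℝ}

lemma cd_eq_zero_of_far (hW : ContinuousOn W (Ici 0)) (hε : 0 < ε) (hR : 2 * ε < 7 / 2 * R)
    (h0 : Alive W w0 s) (hu : 16 * R ≤ ups W s w0) (hw : ‖w - w0‖ ≤ R) :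
    cd κ ε c1 1 W s w = 0 := by
  by_contra h
  obtain ⟨-, -, h2, -⟩ := of_cd_ne_zero hε h
  have h3 := LB7cX.ups_near hW h0 (w := w) (by linarith)
  linarith

/-- no content in the ball up to a time at which the centre still has `Υ ≥ 16 R` -/
theorem cz_eq_zero_of_far (hW : ContinuousOn W (Ici 0)) (hε : 0 < ε) (hR : 2 * ε < 7 / 2 * R)
    (h0 : Alive W w0 s) (hu : 16 * R ≤ ups W s w0) (hw : ‖w - w0‖ ≤ R) :
    cz κ ε c1 1 W (Ioc 0 s) w = 0 := by
  unfold cz
  rw [setLIntegral_congr_fun measurableSet_Ioc (g := fun _ => 0)]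
  · simp
  · intro r hr
    have ha : Alive W w0 r := h0.mono hr.1.le hr.2
    have h1 : ups W s w0 ≤ ups W r w0 := FL.ups_anti hW h0 hr.1.le hr.2
    simp only
    rw [cd_eq_zero_of_far hW hε hR ha (hu.trans h1) hw, ENNReal.ofReal_zero]

/-- splitting of the content at time `s` -/
theorem cz_split (lam : ℝ) {t : ℝ} (hs : 0 ≤ s) (hst : s ≤ t) (w : ℂ) :
    cz κ ε c1 lam W (Ioc 0 t) w = cz κ ε c1 lam W (Ioc 0 s) w + cz κ ε c1 lam W (Ioc s t) w := by
  rw [← Ioc_union_Ioc_eq_Ioc hs hst]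
  exact cz_union measurableSet_Ioc (Ioc_disjoint_Ioc_of_le le_rfl) w

/-- the content of the ball is collected after `s` -/
theorem Ct_eq_of_far (hW : ContinuousOn W (Ici 0)) (hε : 0 < ε) (hR : 2 * ε < 7 / 2 * R)
    (h0 : Alive W w0 s) (hu : 16 * R ≤ ups W s w0) (hw : ‖w - w0‖ ≤ R) {t : ℝ} (hst : s ≤ t) :
    Ct κ ε c1 W t w = cz κ ε c1 1 W (Ioc s t) w := by
  unfold Ct
  rw [cz_split 1 h0.1 hst, cz_eq_zero_of_far hW hε hR h0 hu hw, zero_add]

theorem muI_eq_of_far (hW : ContinuousOn W (Ici 0)) (hε : 0 < ε) (hR : 2 * ε < 7 / 2 * R)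
    (h0 : Alive W w0 s) (hu : 16 * R ≤ ups W s w0) {t : ℝ} (hst : s ≤ t) :
    mu κ ε c1 W t (closedBall w0 R) = LBS.muI κ ε c1 W s t (closedBall w0 R) := by
  unfold mu LBS.muI
  rw [withDensity_apply _ measurableSet_closedBall]
  refine setLIntegral_congr_fun measurableSet_closedBall fun w hw => ?_
  rw [mem_closedBall, dist_eq_norm] at hw
  exact Ct_eq_of_far hW hε hR h0 hu hw hst

end det

/-! ### mean content of a ball after a stopping time -/

section bm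

variable {Ω : Type*} {m : MeasurableSpace Ω} {F : Filtration ℝ≥0 m} {P : Measure Ω}
  {B : ℝ≥0 → Ω → ℝ} {κ ε c1 : ℝ}

theorem measurable_cz_at (hB : IsBM F B P) (lam : ℝ) {σ : Ω → ℝ≥0} (hσ : Measurable σ) (t : ℝ≥0) :
    Measurable (fun p : Ω × ℂ => cz κ ε c1 lam (driving κ B p.1) (Ioc (σ p.1 : ℝ) t) p.2) :=
  measurable_cz κ ε c1 lam (T := (t : ℝ)) (a := fun ω => (σ ω : ℝ)) (b := fun _ => (t : ℝ))
    (fun ω => (FLD.driving_cont hB κ ω).continuousOn) (fun _ _ => FLD.driving_meas' hB κ _)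
    (measurable_coe_nnreal_real.comp hσ) measurable_const (fun ω => (σ ω).2) (fun _ => le_rfl)

theorem measurable_Ct (hB : IsBM F B P) (t : ℝ≥0) :
    Measurable (fun p : Ω × ℂ => Ct κ ε c1 (driving κ B p.1) t p.2) := by
  have := measurable_cz_at (κ := κ) (ε := ε) (c1 := c1) hB 1 (σ := fun _ => 0) measurable_const t
  simpa [Ct] using this

theorem measurable_muI (hB : IsBM F B P) {σ : Ω → ℝ≥0} (hσ : Measurable σ) (t : ℝ≥0) (V : Set ℂ) :
    Measurable (fun ω => LBS.muI κ ε c1 (driving κ B ω) (σ ω) t V) :=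
  (measurable_cz_at hB 1 hσ t).lintegral_prod_right'

theorem mu_apply (W : ℝ → ℝ) (t : ℝ) {V : Set ℂ} (hV : MeasurableSet V) :
    mu κ ε c1 W t V = LBS.muI κ ε c1 W 0 t V := by
  unfold mu LBS.muI Ct
  rw [withDensity_apply _ hV]

theorem measurable_mu (hB : IsBM F B P) (t : ℝ≥0) {V : Set ℂ} (hV : MeasurableSet V) :
    Measurable (fun ω => mu κ ε c1 (driving κ B ω) t V) := by
  have := measurable_muI (κ := κ) (ε := ε) (c1 := c1) hB (σ := fun _ => 0) measurable_const t V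
  simpa [mu_apply _ _ hV] using this

/-- **bad part** (Fubini): mean content of a set collected after `σ` -/
theorem muI_le [SFinite P] (hB : IsBM F B P) {σ : Ω → ℝ≥0} (hσ : Measurable σ) {A : Set Ω}
    (hA : MeasurableSet A) (t : ℝ≥0) {V : Set ℂ} (hV : MeasurableSet V) {w0 : ℂ} {C : ℝ}
    (hcont : ∀ w ∈ V, ∫⁻ ω in A, cz κ ε c1 1 (driving κ B ω) (Ioc (σ ω : ℝ) t) w ∂P ≤
      ∫⁻ ω in A, ENNReal.ofReal (gr κ (driving κ B ω) (σ ω) w) ∂P)
    (hnear : ∀ ω ∈ A, ∀ w ∈ V, gr κ (driving κ B ω) (σ ω) w ≤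
      C * gr κ (driving κ B ω) (σ ω) w0) (hC : 0 ≤ C) :
    ∫⁻ ω in A, LBS.muI κ ε c1 (driving κ B ω) (σ ω) t V ∂P ≤
      volume V * (ENNReal.ofReal C *
        ∫⁻ ω in A, ENNReal.ofReal (gr κ (driving κ B ω) (σ ω) w0) ∂P) := by
  unfold LBS.muI
  rw [lintegral_lintegral_swap (measurable_cz_at hB 1 hσ t).aemeasurable]
  calc ∫⁻ w in V, ∫⁻ ω in A, cz κ ε c1 1 (driving κ B ω) (Ioc (σ ω : ℝ) t) w ∂P
      ≤ ∫⁻ _w in V, (ENNReal.ofReal C *
        ∫⁻ ω in A, ENNReal.ofReal (gr κ (driving κ B ω) (σ ω) w0) ∂P) := by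
        refine setLIntegral_mono measurable_const fun w hw => (hcont w hw).trans ?_
        rw [← lintegral_const_mul' _ _ ENNReal.ofReal_ne_top]
        refine setLIntegral_mono' hA fun ω hω => ?_
        rw [← ENNReal.ofReal_mul hC]
        exact ENNReal.ofReal_le_ofReal (hnear ω hω w hw)
    _ = _ := by
        rw [setLIntegral_const, mul_comm]

/-- bad part for a ball of radius `R` whose centre has `Υ_σ ≥ 16 R` -/
theorem muI_ball_le [SFinite P] (hκ : 0 < κ) (hκ8 : κ < 8) (hB : IsBM F B P) {σ : Ω → ℝ≥0}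
    (hσ : Measurable σ) {A : Set Ω} (hA : MeasurableSet A) (t : ℝ≥0) {w0 : ℂ} {R : ℝ} (hR : 0 ≤ R)
    (hcont : ∀ w ∈ closedBall w0 R,
      ∫⁻ ω in A, cz κ ε c1 1 (driving κ B ω) (Ioc (σ ω : ℝ) t) w ∂P ≤
        ∫⁻ ω in A, ENNReal.ofReal (gr κ (driving κ B ω) (σ ω) w) ∂P)
    (hnear : ∀ ω ∈ A, Alive (driving κ B ω) w0 (σ ω) ∧
      16 * R ≤ ups (driving κ B ω) (σ ω) w0) :
    ∫⁻ ω in A, LBS.muI κ ε c1 (driving κ B ω) (σ ω) t (closedBall w0 R) ∂P ≤
      ENNReal.ofReal (Real.pi * R ^ 2 * LB7cX.cgr κ) *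
        ∫⁻ ω in A, ENNReal.ofReal (gr κ (driving κ B ω) (σ ω) w0) ∂P := by
  refine (muI_le hB hσ hA t measurableSet_closedBall hcont (w0 := w0) (C := LB7cX.cgr κ) ?_
    (LB7cX.cgr_pos κ).le).trans (le_of_eq ?_)
  · intro ω hω w hw
    obtain ⟨h1, h2⟩ := hnear ω hω
    rw [mem_closedBall, dist_eq_norm] at hw
    exact LB7cX.gr_near hκ hκ8 (FLD.driving_cont hB κ ω).continuousOn h1 (by linarith)
  · rw [Complex.volume_closedBall, ← mul_assoc]
    congr 1
    rw [ENNReal.ofReal_mul (by positivity), mul_comm Real.pi, ENNReal.ofReal_mul (by positivity),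
      ENNReal.ofReal_pow hR]
    congr 2
    rw [← NNReal.coe_real_pi, ENNReal.ofReal_coe_nnreal]

end bm

end Crest.Agent.R162.LB7F
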