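import Mathlib
import Crest.Agent.R162.FLDef
import Crest.Agent.R162.FLC2
import Crest.Agent.R162.FLC3
import Crest.Agent.R162.FLE
import Crest.Agent.R162.LBSTf
import Crest.Agent.R162.LBDefs
import Crest.Agent.R162.KB1

/-!
Row 162 (S0243), node LB-MEAS (helper412): measurable families of holomorphic maps (`MFam`) and of
driving paths (`PFam`) over an arbitrary measurable parameter space; measurability of the state
functionals of `LBDefs` (`vv, Psi, Lam, Jv, area, yx, x, varpi, rho1, ...`) along such families.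
-/

set_option autoImplicit false

open Set MeasureTheory Filter Topology
open scoped NNReal ENNReal

namespace Crest.Agent.R162.LBM

open Crest.Agent.R162.FL Crest.Agent.R162.FLC Crest.Agent.R162.FLD

/-! ### Measurable families of driving paths -/

/-- a measurable family of continuous driving paths on `[0,∞)` -/
structure PFam {α : Type*} [MeasurableSpace α] (W : α → ℝ → ℝ) : Prop where
  cont : ∀ a, ContinuousOn (W a) (Ici 0)
  meas : ∀ s, 0 ≤ s → Measurable (fun a => W a s)

section pfam

variable {α β : Type*} [MeasurableSpace α] [MeasurableSpace β] {W : α → ℝ → ℝ}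

lemma PFam.comp_param (hW : PFam W) {φ : β → α} (hφ : Measurable φ) :
    PFam (fun b => W (φ b)) :=
  ⟨fun _ => hW.cont _, fun s hs => (hW.meas s hs).comp hφ⟩

/-- joint measurability of a continuous family in `(parameter, time)` -/
theorem measurable_joint_of_continuousOn {E : Type*} [TopologicalSpace E] [MeasurableSpace E]
    [TopologicalSpace.PseudoMetrizableSpace E] [BorelSpace E] {f : α → ℝ → E} [Zero E]
    (hc : ∀ a, ContinuousOn (f a) (Ici 0)) (hm : ∀ s, 0 ≤ s → Measurable (fun a => f a s)) :
    Measurable (fun x : α × ℝ => (Ici (0:ℝ)).indicator (f x.1) x.2) := by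
  have h1 : Measurable (Function.uncurry (fun (i : ℝ) (a : α) => f a (max i 0))) := by
    refine measurable_uncurry_of_continuous_of_measurable (fun a => ?_)
      (fun i => hm _ (le_max_right i 0))
    exact (hc a).comp_continuous (by fun_prop) (fun i => mem_Ici.2 (le_max_right i 0))
  have h2 : Measurable (fun x : α × ℝ => f x.1 (max x.2 0)) :=
    h1.comp (measurable_snd.prodMk measurable_fst)
  have h3 := h2.indicator (measurable_snd (measurableSet_Ici (a := (0:ℝ))))
  convert h3 using 1
  funext x
  by_cases hx : x.2 ∈ Ici (0:ℝ)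
  · rw [indicator_of_mem hx, indicator_of_mem (show x ∈ Prod.snd ⁻¹' (Ici (0:ℝ)) from hx),
      max_eq_left hx]
  · rw [indicator_of_notMem hx, indicator_of_notMem (show x ∉ Prod.snd ⁻¹' (Ici (0:ℝ)) from hx)]

lemma PFam.joint (hW : PFam W) :
    Measurable (fun x : α × ℝ => (Ici (0:ℝ)).indicator (W x.1) x.2) :=
  measurable_joint_of_continuousOn hW.cont hW.meas

lemma PFam.at (hW : PFam W) {τ : α → ℝ} (hτ : Measurable τ) (h0 : ∀ a, 0 ≤ τ a) :
    Measurable (fun a => W a (τ a)) := by
  have := hW.joint.comp (measurable_id.prodMk hτ)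
  convert this using 1
  funext a
  simp [Function.comp, indicator_of_mem (show τ a ∈ Ici (0:ℝ) from h0 a)]

lemma PFam.shift (hW : PFam W) {τ : α → ℝ} (hτ : Measurable τ) (h0 : ∀ a, 0 ≤ τ a) :
    PFam (fun a => shift (W a) (τ a)) := by
  refine ⟨fun a => contOn_shift (hW.cont a) (h0 a), fun s hs => ?_⟩
  simp only [FL.shift]
  exact (hW.at (hτ.add_const s) (fun a => add_nonneg (h0 a) hs)).sub (hW.at hτ h0)

/-- joint measurability of the inverse flow in `(parameter, time, point)` -/
theorem PFam.ffl_joint (hW : PFam W) :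
    Measurable (fun x : (α × ℝ) × ℂ => {x : (α × ℝ) × ℂ | 0 ≤ x.1.2 ∧ 0 < x.2.im}.indicator
      (fun x => ffl (W x.1.1) x.1.2 x.2) x) := by
  set ι : Type := {p : ℝ × ℂ // p ∈ Ici (0:ℝ) ×ˢ {z : ℂ | 0 < z.im}} with hι
  have h1 : Measurable (Function.uncurry (fun (i : ι) (a : α) => ffl (W a) i.1.1 i.1.2)) := by
    refine measurable_uncurry_of_continuous_of_measurable (fun a => ?_)
      (fun i => ?_)
    · exact continuousOn_iff_continuous_domRestrict.1 (continuousOn_ffl (hW.cont a))
    · exact LBST.measurable_ffl (T := i.1.1) ⟨i.2.1, le_rfl⟩ i.1.2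
        (fun a => (hW.cont a).mono Icc_subset_Ici_self) (fun s hs => hW.meas s hs.1)
  have h2 : Measurable (fun x : (α × ℝ) × ℂ => ((⟨(max x.1.2 0, if 0 < x.2.im then x.2 else Complex.I), by
      refine ⟨mem_Ici.2 (le_max_right x.1.2 0), ?_⟩
      simp only [mem_ofPred_eq]
      split_ifs with h
      · exact h
      · simp⟩ : ι), x.1.1)) := by
    refine Measurable.prodMk (Measurable.subtype_mk ?_) (by fun_prop)
    refine Measurable.prodMk (by fun_prop) ?_
    exact Measurable.ite (measurableSet_lt measurable_const (by fun_prop)) (by fun_prop) (by fun_prop)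
  have hS : MeasurableSet {x : (α × ℝ) × ℂ | 0 ≤ x.1.2 ∧ 0 < x.2.im} :=
    (measurableSet_le measurable_const (measurable_snd.comp measurable_fst)).inter
      (measurableSet_lt measurable_const (Complex.measurable_im.comp measurable_snd))
  have h3 := (h1.comp h2).indicator hS
  convert h3 using 1
  funext x
  by_cases hx : x ∈ {x : (α × ℝ) × ℂ | 0 ≤ x.1.2 ∧ 0 < x.2.im}
  · rw [indicator_of_mem hx, indicator_of_mem hx]
    simp only [Function.comp, Function.uncurry]
    rw [max_eq_left hx.1, if_pos hx.2]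
  · rw [indicator_of_notMem hx, indicator_of_notMem hx]

end pfam

/-! ### Measurable families of holomorphic maps on the half-plane -/

/-- a measurable family of holomorphic maps on the upper half-plane -/
structure MFam {α : Type*} [MeasurableSpace α] (F : α → ℂ → ℂ) : Prop where
  meas : Measurable (fun x : α × ℂ => {z : ℂ | 0 < z.im}.indicator (F x.1) x.2)
  diff : ∀ a, DifferentiableOn ℂ (F a) {z : ℂ | 0 < z.im}

section mfam

variable {α β : Type*} [MeasurableSpace α] [MeasurableSpace β] {W : α → ℝ → ℝ}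
  {F G : α → ℂ → ℂ}

lemma measurableSet_H : MeasurableSet {z : ℂ | 0 < z.im} := isOpen_H.measurableSet

lemma MFam.const {f : ℂ → ℂ} (hf : DifferentiableOn ℂ f {z : ℂ | 0 < z.im}) :
    MFam (fun _ : α => f) := by
  refine ⟨?_, fun _ => hf⟩
  have h1 : Measurable ({z : ℂ | 0 < z.im}.indicator f) :=
    hf.continuousOn.measurable_piecewise continuousOn_const measurableSet_H
  exact h1.comp measurable_snd

lemma MFam.comp_param (hF : MFam F) {φ : β → α} (hφ : Measurable φ) :
    MFam (fun b => F (φ b)) :=
  ⟨hF.meas.comp ((hφ.comp measurable_fst).prodMk measurable_snd), fun _ => hF.diff _⟩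

lemma MFam.comp (hF : MFam F) (hG : MFam G) (hmaps : ∀ a z, 0 < z.im → 0 < (G a z).im) :
    MFam (fun a z => F a (G a z)) := by
  refine ⟨?_, fun a => (hF.diff a).comp (hG.diff a) (fun z hz => hmaps a z hz)⟩
  have h1 := hF.meas.comp (measurable_fst.prodMk hG.meas)
  have h2 := h1.indicator (measurable_snd measurableSet_H)
  convert h2 using 1
  funext x
  by_cases hx : x.2 ∈ {z : ℂ | 0 < z.im}
  · rw [indicator_of_mem hx, indicator_of_mem (show x ∈ Prod.snd ⁻¹' {z : ℂ | 0 < z.im} from hx)]
    simp only [Function.comp]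
    rw [indicator_of_mem hx, indicator_of_mem (show G x.1 x.2 ∈ {z : ℂ | 0 < z.im} from
      hmaps _ _ hx)]
  · rw [indicator_of_notMem hx,
      indicator_of_notMem (show x ∉ Prod.snd ⁻¹' {z : ℂ | 0 < z.im} from hx)]

/-- evaluation at a measurable point of the half-plane -/
lemma MFam.at (hF : MFam F) {ζ : α → ℂ} (hζ : Measurable ζ) (h0 : ∀ a, 0 < (ζ a).im) :
    Measurable (fun a => F a (ζ a)) := by
  have := hF.meas.comp (measurable_id.prodMk hζ)
  convert this using 1
  funext a
  simp only [Function.comp, id]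
  rw [indicator_of_mem (show ζ a ∈ {z : ℂ | 0 < z.im} from h0 a)]

/-- joint measurability of the derivative -/
theorem MFam.deriv_meas (hF : MFam F) :
    Measurable (fun x : α × ℂ => {z : ℂ | 0 < z.im}.indicator (deriv (F x.1)) x.2) := by
  set D : ℕ → α × ℂ → ℂ := fun n x => {z : ℂ | 0 < z.im}.indicator
    (fun z => ((n : ℂ) + 1) * (({z : ℂ | 0 < z.im}.indicator (F x.1) (x.2 + 1 / ((n:ℂ) + 1))) -
      {z : ℂ | 0 < z.im}.indicator (F x.1) x.2)) x.2 with hD
  refine measurable_of_tendsto_metrizable (f := D) (fun n => ?_) ?_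
  · have h1 := hF.meas.comp (f := fun x : α × ℂ => (x.1, x.2 + 1 / ((n:ℂ) + 1)))
      (measurable_fst.prodMk (measurable_snd.add_const _))
    have h2 := ((h1.sub hF.meas).const_mul ((n:ℂ) + 1)).indicator (measurable_snd measurableSet_H)
    convert h2 using 1
    funext x
    by_cases hx : x.2 ∈ {z : ℂ | 0 < z.im}
    · rw [indicator_of_mem (show x ∈ Prod.snd ⁻¹' {z : ℂ | 0 < z.im} from hx)]
      simp only [hD, Function.comp, Pi.sub_apply]
      rw [indicator_of_mem hx]
    · rw [indicator_of_notMem (show x ∉ Prod.snd ⁻¹' {z : ℂ | 0 < z.im} from hx)]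
      simp only [hD]
      rw [indicator_of_notMem hx]
  · rw [tendsto_pi_nhds]
    intro x
    by_cases hx : x.2 ∈ {z : ℂ | 0 < z.im}
    · rw [indicator_of_mem hx]
      have hd : HasDerivAt (F x.1) (deriv (F x.1) x.2) x.2 :=
        ((hF.diff x.1).differentiableAt (isOpen_H.mem_nhds hx)).hasDerivAt
      have h3 := hd.tendsto_slope_zero
      have h4 : Tendsto (fun n : ℕ => (1 / ((n:ℂ) + 1))) atTop (𝓝[≠] 0) := by
        refine tendsto_nhdsWithin_iff.2 ⟨?_, Eventually.of_forall fun n => ?_⟩
        · have := tendsto_one_div_add_atTop_nhds_zero_nat (𝕜 := ℂ)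
          simpa using this
        · simp only [mem_compl_iff, mem_singleton_iff]
          exact one_div_ne_zero (by exact_mod_cast Nat.succ_ne_zero n)
      have h5 := h3.comp h4
      refine h5.congr (fun n => ?_)
      simp only [Function.comp, hD]
      rw [indicator_of_mem hx, indicator_of_mem hx, indicator_of_mem (show x.2 + 1 / ((n:ℂ) + 1) ∈
        {z : ℂ | 0 < z.im} from ?_)]
      · simp
      · have : (1 / ((n:ℂ) + 1)).im = 0 := by
          have : (1 / ((n:ℂ) + 1)) = ((1 / ((n:ℝ) + 1) : ℝ) : ℂ) := by push_cast; ring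
          rw [this, Complex.ofReal_im]
        simp only [mem_ofPred_eq, Complex.add_im, this, add_zero]
        exact hx
    · simp only [hD]
      simp only [indicator_of_notMem hx]
      exact tendsto_const_nhds

lemma MFam.deriv_at (hF : MFam F) {ζ : α → ℂ} (hζ : Measurable ζ) (h0 : ∀ a, 0 < (ζ a).im) :
    Measurable (fun a => deriv (F a) (ζ a)) := by
  have := hF.deriv_meas.comp (measurable_id.prodMk hζ)
  convert this using 1
  funext a
  simp only [Function.comp, id]
  rw [indicator_of_mem (show ζ a ∈ {z : ℂ | 0 < z.im} from h0 a)]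

/-- the inverse flow at a measurable time is a measurable family -/
theorem PFam.mfam (hW : PFam W) {τ : α → ℝ} (hτ : Measurable τ) (h0 : ∀ a, 0 ≤ τ a) :
    MFam (fun a => ffl (W a) (τ a)) := by
  refine ⟨?_, fun a => differentiableOn_ffl (hW.cont a) (h0 a)⟩
  have h1 := hW.ffl_joint.comp (g := _) (f := fun x : α × ℂ => ((x.1, τ x.1), x.2))
    ((measurable_fst.prodMk (hτ.comp measurable_fst)).prodMk measurable_snd)
  convert h1 using 1
  funext x
  by_cases hx : 0 < x.2.im
  · rw [indicator_of_mem (show x.2 ∈ {z : ℂ | 0 < z.im} from hx)]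
    simp only [Function.comp]
    rw [indicator_of_mem (show ((x.1, τ x.1), x.2) ∈ {x : (α × ℝ) × ℂ | 0 ≤ x.1.2 ∧ 0 < x.2.im}
      from ⟨h0 _, hx⟩)]
  · rw [indicator_of_notMem (show x.2 ∉ {z : ℂ | 0 < z.im} from hx)]
    simp only [Function.comp]
    rw [indicator_of_notMem (show ((x.1, τ x.1), x.2) ∉ {x : (α × ℝ) × ℂ | 0 ≤ x.1.2 ∧ 0 < x.2.im}
      from fun h => hx h.2)]

end mfam

end Crest.Agent.R162.LBM
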