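import Crest.Agent.R162.FLF
import Crest.Agent.R162.LBMeas2
import Crest.Agent.R162.LB7cF

/-!
Row 162 (S0243), node LB7c (M) (helper152): functionals of the inverse flow at a stopping time are
measurable with respect to the past.
-/

set_option autoImplicit false

open Set Metric MeasureTheory Filter Topology ProbabilityTheory
open scoped NNReal ENNReal

namespace Crest.Agent.R162.LB7M

open Crest.Agent.R162.FL Crest.Agent.R162.OP Crest.Agent.R162.OS Crest.Agent.R162.LB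
open Crest.ProbabilityR.Loewner

variable {Ω : Type*} {m : MeasurableSpace Ω} {F : Filtration ℝ≥0 m} {P : Measure Ω}
  {B : ℝ≥0 → Ω → ℝ} {κ : ℝ}

/-- the driving path stopped at `t` is an `F t ⊗ borel`-measurable family -/
lemma pfam_stopped (hB : IsBM F B P) (κ : ℝ) (t : ℝ≥0) :
    @LBM.PFam (Ω × ℝ) ((F t).prod (borel ℝ)) (fun a s => driving κ B a.1 (min s t)) := by
  refine @LBM.PFam.mk (Ω × ℝ) ((F t).prod (borel ℝ)) _ (fun a => ?_) (fun s hs => ?_)
  · exact ((FLD.driving_cont hB κ a.1).comp (continuous_id.min continuous_const)).continuousOn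
  · have h1 : Measurable[F t] (fun ω => driving κ B ω (min s t)) :=
      FLD.driving_meas hB κ ⟨le_min hs t.2, min_le_right _ _⟩
    exact h1.comp (@measurable_fst Ω ℝ (F t) (borel ℝ))

/-- a functional of the inverse flow which is measurable on measurable families is progressive -/
theorem evST_of_mfam {E : Type*} [MeasurableSpace E] {Ψ : (ℂ → ℂ) → E}
    (hΨ : ∀ (m' : MeasurableSpace (Ω × ℝ)) (G : Ω × ℝ → ℂ → ℂ), @LBM.MFam (Ω × ℝ) m' G →
      (∀ a, InjOn (G a) {z : ℂ | 0 < z.im}) → @Measurable _ _ m' _ (fun a => Ψ (G a)))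
    (hB : IsBM F B P) (κ : ℝ) {σ : Ω → ℝ≥0} (hσ : IsST F σ) {S : Set E} (hS : MeasurableSet S) :
    EvST F σ {ω | Ψ (ffl (driving κ B ω) (σ ω)) ∈ S} := by
  refine FLD.evST_of_joint (Q := fun ω s => Ψ (ffl (driving κ B ω) s) ∈ S) (fun t => ?_) hσ
  have hτ : @Measurable (Ω × ℝ) ℝ ((F t).prod (borel ℝ)) _ (fun a => max 0 (min a.2 (t:ℝ))) :=
    (measurable_const.max (measurable_id.min measurable_const)).comp
      (@measurable_snd Ω ℝ (F t) (borel ℝ))
  have h1 := @LBM.PFam.mfam (Ω × ℝ) ((F t).prod (borel ℝ)) _ (pfam_stopped hB κ t)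
    (fun a => max 0 (min a.2 (t:ℝ))) hτ (fun a => le_max_left _ _)
  have h2 := hΨ _ _ h1 (fun a => FLC.injOn_ffl
    ((FLD.driving_cont hB κ a.1).comp (continuous_id.min continuous_const)).continuousOn
    (le_max_left _ _))
  have h3 : @MeasurableSet (Ω × ℝ) ((F t).prod (borel ℝ)) {x | x.2 ∈ Icc 0 (t:ℝ)} :=
    (@measurable_snd Ω ℝ (F t) (borel ℝ)) measurableSet_Icc
  have h4 := @MeasurableSet.inter _ ((F t).prod (borel ℝ)) _ _ h3 (h2 hS)
  convert h4 using 1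
  ext x
  simp only [mem_ofPred_eq, mem_inter_iff, mem_preimage]
  refine and_congr_right fun hx => ?_
  have e : max 0 (min x.2 (t:ℝ)) = x.2 := by rw [min_eq_left hx.2, max_eq_right hx.1]
  rw [e, FLF.ffl_congr (W := driving κ B x.1) (W' := fun s => driving κ B x.1 (min s t))
    (fun s hs => by rw [min_eq_left (hs.2.trans hx.2)])]

theorem measurable_of_mfam {E : Type*} [MeasurableSpace E] {Ψ : (ℂ → ℂ) → E}
    (hΨ : ∀ (G : Ω → ℂ → ℂ), LBM.MFam G →
      (∀ a, InjOn (G a) {z : ℂ | 0 < z.im}) → Measurable (fun a => Ψ (G a)))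
    (hB : IsBM F B P) (κ : ℝ) {σ : Ω → ℝ≥0} (hσ : Measurable σ) :
    Measurable (fun ω => Ψ (ffl (driving κ B ω) (σ ω))) :=
  hΨ _ (LBM.PFam.mfam ⟨fun ω => (FLD.driving_cont hB κ ω).continuousOn,
    fun s _ => FLD.driving_meas' hB κ s⟩ (measurable_coe_nnreal_real.comp hσ) (fun ω => (σ ω).2))
    (fun ω => FLC.injOn_ffl (FLD.driving_cont hB κ ω).continuousOn (σ ω).2)

variable {u0 : ℂ → ℝ} {q η θ : ℝ}

theorem evST_Lam (hB : IsBM F B P) (κ : ℝ) (hu : Continuous u0) {σ : Ω → ℝ≥0} (hσ : IsST F σ)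
    {S : Set ℝ≥0∞} (hS : MeasurableSet S) :
    EvST F σ {ω | Lam u0 q η (ffl (driving κ B ω) (σ ω)) ∈ S} :=
  evST_of_mfam (Ψ := fun f => Lam u0 q η f)
    (fun m' G hG _ => @LBM.MFam.Lam _ m' G u0 q η hG hu) hB κ hσ hS

theorem evST_Lam_le (hB : IsBM F B P) (κ : ℝ) (hu : Continuous u0) {σ : Ω → ℝ≥0} (hσ : IsST F σ)
    (c : ℝ≥0∞) : EvST F σ {ω | Lam u0 q η (ffl (driving κ B ω) (σ ω)) ≤ c} :=
  evST_Lam hB κ hu hσ measurableSet_Iic

theorem measurable_Lam (hB : IsBM F B P) (κ : ℝ) (hu : Continuous u0) {σ : Ω → ℝ≥0}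
    (hσ : Measurable σ) : Measurable (fun ω => Lam u0 q η (ffl (driving κ B ω) (σ ω))) :=
  measurable_of_mfam (Ψ := fun f => Lam u0 q η f) (fun _ hG _ => hG.Lam hu) hB κ hσ

theorem evST_area (hB : IsBM F B P) (κ : ℝ) (hu : Continuous u0) {σ : Ω → ℝ≥0} (hσ : IsST F σ)
    {S : Set ℝ≥0∞} (hS : MeasurableSet S) :
    EvST F σ {ω | area u0 η θ (ffl (driving κ B ω) (σ ω)) ∈ S} :=
  evST_of_mfam (Ψ := fun f => area u0 η θ f)
    (fun m' G hG hi => @LBM.MFam.area _ m' G u0 η hG hi hu θ) hB κ hσ hS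

theorem measurable_area (hB : IsBM F B P) (κ : ℝ) (hu : Continuous u0) {σ : Ω → ℝ≥0}
    (hσ : Measurable σ) : Measurable (fun ω => area u0 η θ (ffl (driving κ B ω) (σ ω))) :=
  measurable_of_mfam (Ψ := fun f => area u0 η θ f) (fun _ hG hi => hG.area hi hu θ) hB κ hσ

lemma continuous_uB (w0 : ℂ) (R : ℝ) : Continuous (LBS.uB w0 R) := by
  unfold LBS.uB
  exact continuous_const.max (continuous_infDist_pt _)

/-- (ML) in the form of the final assembly -/
theorem evST_Lam_uB (hB : IsBM F B P) (κ : ℝ) (w0 : ℂ) (R : ℝ) {σ : Ω → ℝ≥0} (hσ : IsST F σ)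
    (c : ℝ≥0∞) : EvST F σ {ω | Lam (LBS.uB w0 R) q η (ffl (driving κ B ω) (σ ω)) ≤ c} :=
  evST_Lam_le hB κ (continuous_uB w0 R) hσ c

end Crest.Agent.R162.LB7M
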