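import Mathlib
import Crest.Agent.R162.OPDefs

/-!
# Row 162, node GEX, part 1: generator calculus for `exp (la * a + mu * L) * S ^ p` and
`(X² + Y²) * exp (-C a)`.
-/

set_option autoImplicit false

open Real

namespace Crest.Agent.R162.GEX

open Crest.Agent.R162.OP

/-- `exp (la * a + mu * L) * S ^ p` as a function of the state, written with `Y^p (X²+Y²)^{-p/2}`. -/
noncomputable def fS (la mu p : ℝ) (q : ℝ × ℝ × ℝ × ℝ) : ℝ :=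
  Real.exp (la * q.2.2.2 + mu * q.2.2.1) * (q.2.1 ^ p * (q.1 ^ 2 + q.2.1 ^ 2) ^ (-p / 2))

/-- `(X² + Y²) exp (-C a)`. -/
noncomputable def fR (C : ℝ) (q : ℝ × ℝ × ℝ × ℝ) : ℝ :=
  (q.1 ^ 2 + q.2.1 ^ 2) * Real.exp (-C * q.2.2.2)

theorem sinq_pos {q : ℝ × ℝ × ℝ × ℝ} (hY : 0 < q.2.1) : 0 < sinq q := by
  unfold sinq; positivity

theorem sinq_le_one {q : ℝ × ℝ × ℝ × ℝ} (hY : 0 < q.2.1) : sinq q ≤ 1 := by
  unfold sinq
  have h : q.2.1 ≤ Real.sqrt (q.1 ^ 2 + q.2.1 ^ 2) := by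
    apply Real.le_sqrt_of_sq_le; nlinarith [sq_nonneg q.1]
  rw [div_le_one (by positivity)]
  exact h

theorem sinq_rpow {q : ℝ × ℝ × ℝ × ℝ} (hY : 0 < q.2.1) (p : ℝ) :
    sinq q ^ p = q.2.1 ^ p * (q.1 ^ 2 + q.2.1 ^ 2) ^ (-p / 2) := by
  unfold sinq
  have hR : 0 < q.1 ^ 2 + q.2.1 ^ 2 := by positivity
  rw [Real.div_rpow hY.le (Real.sqrt_nonneg _), Real.sqrt_eq_rpow, ← Real.rpow_mul hR.le,
    div_eq_mul_inv, ← Real.rpow_neg hR.le]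
  congr 2
  ring

theorem fS_eq {q : ℝ × ℝ × ℝ × ℝ} (hY : 0 < q.2.1) (la mu p : ℝ) :
    fS la mu p q = Real.exp (la * q.2.2.2 + mu * q.2.2.1) * sinq q ^ p := by
  rw [fS, sinq_rpow hY]

theorem fS_G {κ : ℝ} {q : ℝ × ℝ × ℝ × ℝ} (hY : 0 < q.2.1) :
    fS 0 (κ / 8 - 1) (8 / κ - 1) q = Gq κ q := by
  rw [fS_eq hY, Gq]; congr 2; ring

theorem contDiffOn_fS (la mu p : ℝ) {n : WithTop ℕ∞} :
    ContDiffOn ℝ n (fS la mu p) {q : ℝ × ℝ × ℝ × ℝ | 0 < q.2.1} := by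
  intro q hq
  have hY : (0:ℝ) < q.2.1 := hq
  have hR : (0:ℝ) < q.1 ^ 2 + q.2.1 ^ 2 := by positivity
  apply ContDiffAt.contDiffWithinAt
  unfold fS
  apply ContDiffAt.mul
  · exact ContDiffAt.exp (by fun_prop)
  · apply ContDiffAt.mul
    · exact ContDiffAt.rpow_const_of_ne (by fun_prop) hY.ne'
    · exact ContDiffAt.rpow_const_of_ne (by fun_prop) hR.ne'

theorem contDiffOn_fR (C : ℝ) {n : WithTop ℕ∞} :
    ContDiffOn ℝ n (fR C) {q : ℝ × ℝ × ℝ × ℝ | 0 < q.2.1} := by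
  apply ContDiff.contDiffOn
  unfold fR
  fun_prop

theorem hasDerivAt_h_X {Y : ℝ} (hY : 0 < Y) (p x : ℝ) :
    HasDerivAt (fun x => Y ^ p * (x ^ 2 + Y ^ 2) ^ (-p / 2))
      (-p * x * (Y ^ p * (x ^ 2 + Y ^ 2) ^ (-p / 2 - 1))) x := by
  have hR : (0:ℝ) < x ^ 2 + Y ^ 2 := by positivity
  have h1 : HasDerivAt (fun x : ℝ => x ^ 2 + Y ^ 2) (2 * x) x := by
    have := (hasDerivAt_pow 2 x).add_const (Y ^ 2)
    simpa using this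
  have h2 := (h1.rpow_const (p := -p / 2) (Or.inl hR.ne')).const_mul (Y ^ p)
  exact h2.congr_deriv (by ring)

theorem hasDerivAt_h_XX {Y : ℝ} (hY : 0 < Y) (p x : ℝ) :
    HasDerivAt (fun x => -p * x * (Y ^ p * (x ^ 2 + Y ^ 2) ^ (-p / 2 - 1)))
      (-p * (Y ^ p * (x ^ 2 + Y ^ 2) ^ (-p / 2 - 1)) +
        p * (p + 2) * x ^ 2 * (Y ^ p * (x ^ 2 + Y ^ 2) ^ (-p / 2 - 2))) x := by
  have hR : (0:ℝ) < x ^ 2 + Y ^ 2 := by positivity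
  have h1 : HasDerivAt (fun x : ℝ => x ^ 2 + Y ^ 2) (2 * x) x := by
    have := (hasDerivAt_pow 2 x).add_const (Y ^ 2)
    simpa using this
  have h2 := (h1.rpow_const (p := -p / 2 - 1) (Or.inl hR.ne')).const_mul (Y ^ p)
  have h3 : HasDerivAt (fun x : ℝ => -p * x) (-p) x := by
    simpa using (hasDerivAt_id x).const_mul (-p)
  have h4 := h3.mul h2
  refine h4.congr_deriv ?_
  rw [show -p / 2 - 1 - 1 = -p / 2 - 2 by ring]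
  ring

theorem hasDerivAt_h_Y (X : ℝ) {Y : ℝ} (hY : 0 < Y) (p : ℝ) :
    HasDerivAt (fun y => y ^ p * (X ^ 2 + y ^ 2) ^ (-p / 2))
      (p * (Y ^ (p - 1) * (X ^ 2 + Y ^ 2) ^ (-p / 2)) -
        p * Y * (Y ^ p * (X ^ 2 + Y ^ 2) ^ (-p / 2 - 1))) Y := by
  have hR : (0:ℝ) < X ^ 2 + Y ^ 2 := by positivity
  have h1 : HasDerivAt (fun y : ℝ => X ^ 2 + y ^ 2) (2 * Y) Y := by
    have := (hasDerivAt_pow 2 Y).const_add (X ^ 2)
    simpa using this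
  have h2 := h1.rpow_const (p := -p / 2) (Or.inl hR.ne')
  have h3 : HasDerivAt (fun y : ℝ => y ^ p) (p * Y ^ (p - 1)) Y :=
    Real.hasDerivAt_rpow_const (Or.inl hY.ne')
  have h4 := h3.mul h2
  exact h4.congr_deriv (by ring)

/-- the generator of `exp (la a + mu L) S^p`:
`= f / (X²+Y²) * ( (κ p / 2) (c (p - b) - s) - 4 mu s + la )`, `c = X²/(X²+Y²)`, `s = Y²/(X²+Y²)`,
`b = 8/κ - 1`. -/
theorem gen_fS {κ : ℝ} (hκ : 0 < κ) (la mu p : ℝ) {q : ℝ × ℝ × ℝ × ℝ} (hY : 0 < q.2.1) :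
    gen κ (fS la mu p) q = fS la mu p q / (q.1 ^ 2 + q.2.1 ^ 2) *
      (κ * p / 2 * (q.1 ^ 2 / (q.1 ^ 2 + q.2.1 ^ 2) * (p - (8 / κ - 1))
        - q.2.1 ^ 2 / (q.1 ^ 2 + q.2.1 ^ 2)) - 4 * mu * (q.2.1 ^ 2 / (q.1 ^ 2 + q.2.1 ^ 2)) + la) := by
  obtain ⟨X, Y, L, a⟩ := q
  simp only at hY
  have hR : (0:ℝ) < X ^ 2 + Y ^ 2 := by positivity
  unfold gen
  simp only [fS]
  set E : ℝ := Real.exp (la * a + mu * L) with hE
  have dX : deriv (fun x : ℝ => E * (Y ^ p * (x ^ 2 + Y ^ 2) ^ (-p / 2))) =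
      fun x => E * (-p * x * (Y ^ p * (x ^ 2 + Y ^ 2) ^ (-p / 2 - 1))) := by
    funext x
    exact ((hasDerivAt_h_X hY p x).const_mul E).deriv
  have dXX : deriv (deriv fun x : ℝ => E * (Y ^ p * (x ^ 2 + Y ^ 2) ^ (-p / 2))) X =
      E * (-p * (Y ^ p * (X ^ 2 + Y ^ 2) ^ (-p / 2 - 1)) +
        p * (p + 2) * X ^ 2 * (Y ^ p * (X ^ 2 + Y ^ 2) ^ (-p / 2 - 2))) := by
    rw [dX]
    exact ((hasDerivAt_h_XX hY p X).const_mul E).deriv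
  have dY : deriv (fun y : ℝ => E * (y ^ p * (X ^ 2 + y ^ 2) ^ (-p / 2))) Y =
      E * (p * (Y ^ (p - 1) * (X ^ 2 + Y ^ 2) ^ (-p / 2)) -
        p * Y * (Y ^ p * (X ^ 2 + Y ^ 2) ^ (-p / 2 - 1))) :=
    ((hasDerivAt_h_Y X hY p).const_mul E).deriv
  have dL : deriv (fun l : ℝ => Real.exp (la * a + mu * l) *
      (Y ^ p * (X ^ 2 + Y ^ 2) ^ (-p / 2))) L = E * mu * (Y ^ p * (X ^ 2 + Y ^ 2) ^ (-p / 2)) := by
    have h0 : HasDerivAt (fun l : ℝ => la * a + mu * l) mu L := by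
      simpa using ((hasDerivAt_id L).const_mul mu).const_add (la * a)
    exact (h0.exp.mul_const _).deriv
  have dA : deriv (fun a : ℝ => Real.exp (la * a + mu * L) *
      (Y ^ p * (X ^ 2 + Y ^ 2) ^ (-p / 2))) a = E * la * (Y ^ p * (X ^ 2 + Y ^ 2) ^ (-p / 2)) := by
    have h0 : HasDerivAt (fun a : ℝ => la * a + mu * L) la a := by
      simpa using ((hasDerivAt_id a).const_mul la).add_const (mu * L)
    exact (h0.exp.mul_const _).deriv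
  rw [dXX, dX, dY, dL, dA]
  beta_reduce
  have r1 : (X ^ 2 + Y ^ 2) ^ (-p / 2 - 1) = (X ^ 2 + Y ^ 2) ^ (-p / 2) / (X ^ 2 + Y ^ 2) :=
    Real.rpow_sub_one hR.ne' _
  have r2 : (X ^ 2 + Y ^ 2) ^ (-p / 2 - 2) = (X ^ 2 + Y ^ 2) ^ (-p / 2) / (X ^ 2 + Y ^ 2) ^ 2 := by
    rw [Real.rpow_sub hR]; norm_num
  have r3 : Y ^ (p - 1) = Y ^ p / Y := Real.rpow_sub_one hY.ne' _
  rw [r1, r2, r3]
  generalize (X ^ 2 + Y ^ 2) ^ (-p / 2) = u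
  generalize Y ^ p = v
  field_simp
  ring

/-- `G` is harmonic. -/
theorem gen_G {κ : ℝ} (hκ : 0 < κ) {q : ℝ × ℝ × ℝ × ℝ} (hY : 0 < q.2.1) :
    gen κ (fS 0 (κ / 8 - 1) (8 / κ - 1)) q = 0 := by
  rw [gen_fS hκ _ _ _ hY]
  have hR : (0:ℝ) < q.1 ^ 2 + q.2.1 ^ 2 := by positivity
  have : κ * (8 / κ - 1) / 2 * (q.1 ^ 2 / (q.1 ^ 2 + q.2.1 ^ 2) * (8 / κ - 1 - (8 / κ - 1))
        - q.2.1 ^ 2 / (q.1 ^ 2 + q.2.1 ^ 2)) - 4 * (κ / 8 - 1) *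
        (q.2.1 ^ 2 / (q.1 ^ 2 + q.2.1 ^ 2)) + 0 = 0 := by
    field_simp
    ring
  rw [this, mul_zero]

/-- `exp (la a) S^p` is a supersolution for `0 < p < b` and small `la`. -/
theorem gen_S_nonpos {κ : ℝ} (hκ : 0 < κ) {p la : ℝ}
    (h1 : la ≤ κ * p / 2 * (8 / κ - 1 - p)) (h2 : la ≤ κ * p / 2)
    {q : ℝ × ℝ × ℝ × ℝ} (hY : 0 < q.2.1) :
    gen κ (fS la 0 p) q ≤ 0 := by
  rw [gen_fS hκ _ _ _ hY]
  have hR : (0:ℝ) < q.1 ^ 2 + q.2.1 ^ 2 := by positivity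
  have hf : 0 ≤ fS la 0 p q / (q.1 ^ 2 + q.2.1 ^ 2) := by
    rw [fS_eq hY]
    have := sinq_pos hY
    positivity
  apply mul_nonpos_of_nonneg_of_nonpos hf
  have hcs : q.1 ^ 2 / (q.1 ^ 2 + q.2.1 ^ 2) + q.2.1 ^ 2 / (q.1 ^ 2 + q.2.1 ^ 2) = 1 := by
    rw [← add_div, div_self hR.ne']
  have hc : 0 ≤ q.1 ^ 2 / (q.1 ^ 2 + q.2.1 ^ 2) := by positivity
  have hs : 0 ≤ q.2.1 ^ 2 / (q.1 ^ 2 + q.2.1 ^ 2) := by positivity
  generalize q.1 ^ 2 / (q.1 ^ 2 + q.2.1 ^ 2) = c at *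
  generalize q.2.1 ^ 2 / (q.1 ^ 2 + q.2.1 ^ 2) = s at *
  have : s = 1 - c := by linarith
  subst this
  have hc1 : c ≤ 1 := by linarith
  nlinarith [mul_le_mul_of_nonneg_left h1 hc, mul_le_mul_of_nonneg_left h2 hs]

/-- `(X²+Y²) exp (-C a)` is a supersolution for `κ + 4 ≤ C`. -/
theorem gen_R_nonpos {κ C : ℝ} (hC : κ + 4 ≤ C) {q : ℝ × ℝ × ℝ × ℝ} (hY : 0 < q.2.1) :
    gen κ (fR C) q ≤ 0 := by
  obtain ⟨X, Y, L, a⟩ := q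
  simp only at hY
  have hR : (0:ℝ) < X ^ 2 + Y ^ 2 := by positivity
  unfold gen
  simp only [fR]
  set E : ℝ := Real.exp (-C * a) with hE
  have hEp : 0 < E := Real.exp_pos _
  have dX : deriv (fun x : ℝ => (x ^ 2 + Y ^ 2) * E) = fun x => 2 * x * E := by
    funext x
    have h1 : HasDerivAt (fun x : ℝ => x ^ 2 + Y ^ 2) (2 * x) x := by
      have := (hasDerivAt_pow 2 x).add_const (Y ^ 2)
      simpa using this
    exact (h1.mul_const E).deriv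
  have dXX : deriv (deriv fun x : ℝ => (x ^ 2 + Y ^ 2) * E) X = 2 * E := by
    rw [dX]
    have h1 : HasDerivAt (fun x : ℝ => 2 * x) 2 X := by
      simpa using (hasDerivAt_id X).const_mul (2:ℝ)
    exact (h1.mul_const E).deriv
  have dY : deriv (fun y : ℝ => (X ^ 2 + y ^ 2) * E) Y = 2 * Y * E := by
    have h1 : HasDerivAt (fun y : ℝ => X ^ 2 + y ^ 2) (2 * Y) Y := by
      have := (hasDerivAt_pow 2 Y).const_add (X ^ 2)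
      simpa using this
    exact (h1.mul_const E).deriv
  have dL : deriv (fun _ : ℝ => (X ^ 2 + Y ^ 2) * E) L = 0 := by simp
  have dA : deriv (fun a : ℝ => (X ^ 2 + Y ^ 2) * Real.exp (-C * a)) a =
      (X ^ 2 + Y ^ 2) * (E * -C) := by
    have h0 : HasDerivAt (fun a : ℝ => -C * a) (-C) a := by
      simpa using (hasDerivAt_id a).const_mul (-C)
    exact (h0.exp.const_mul _).deriv
  rw [dXX, dX, dY, dL, dA]
  have key : κ / 2 * (2 * E) + 2 * X / (X ^ 2 + Y ^ 2) * (2 * X * E)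
      - 2 * Y / (X ^ 2 + Y ^ 2) * (2 * Y * E) - 4 * Y ^ 2 / (X ^ 2 + Y ^ 2) ^ 2 * 0
      + 1 / (X ^ 2 + Y ^ 2) * ((X ^ 2 + Y ^ 2) * (E * -C)) =
      E * (κ - C + 4 * ((X ^ 2 - Y ^ 2) / (X ^ 2 + Y ^ 2))) := by
    field_simp
    ring
  rw [key]
  apply mul_nonpos_of_nonneg_of_nonpos hEp.le
  have : (X ^ 2 - Y ^ 2) / (X ^ 2 + Y ^ 2) ≤ 1 := by
    rw [div_le_one hR]; nlinarith [sq_nonneg Y]
  linarith

end Crest.Agent.R162.GEX
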