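import Mathlib
import Crest.Agent.R162.OPTr
import Crest.Agent.R162.FLD
import Crest.Agent.R162.OS
import Crest.Agent.R162.OS2

/-!
Row 162, node LB-CONTENT, file 0 (helper499): path facts of the state process of one point
(continuity, `Y = Im w e^{-2a}`, bounds for `L`), joint measurability of the state in `(ω, t)`.
-/

set_option autoImplicit false

open MeasureTheory ProbabilityTheory Set
open scoped NNReal ENNReal Topology

namespace Crest.Agent.R162.LBC

open FL OP OS OPTr Crest.ProbabilityR.Loewner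

section path

variable {W : ℝ → ℝ} {t : ℝ} {w : ℂ}

lemma stW_fst (s : ℝ) : (stW W s w).1 = (Zfl W s w).re := rfl
lemma stW_Y (s : ℝ) : (stW W s w).2.1 = (Zfl W s w).im := rfl
lemma stW_L (s : ℝ) : (stW W s w).2.2.1 = Real.log (ups W s w) := rfl
lemma stW_a (s : ℝ) : (stW W s w).2.2.2 = ath W s w := rfl

lemma Y_pos (h : Alive W w t) : 0 < (stW W t w).2.1 := by
  rw [stW_Y]; exact FL.Zfl_im_pos h

/-- equality with the truncated state on the whole past -/
lemma stD_eqOn (hW : Continuous W) (h : Alive W w t) {s : ℝ} (hs : s ∈ Icc 0 t) :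
    stD (gfl W t w).im W s w = stW W s w :=
  stD_eq hW (gfl_im_pos h) (h.mono hs.1 hs.2) (im_anti h hs.1 hs.2)

lemma xy_comp_cont {δ : ℝ} (hW : Continuous W) (hδ : 0 < δ) {f : ℝ × ℝ → ℝ} (hf : Continuous f) :
    ContinuousOn (fun s => f (xy δ W w s)) (Ici 0) :=
  hf.comp_continuousOn (xy_contOn hW hδ)

lemma integral_contOn {g : ℝ → ℝ} (hg : ContinuousOn g (Ici 0)) (T : ℝ) (hT : 0 ≤ T) :
    ContinuousOn (fun u => ∫ s in (0:ℝ)..u, g s) (Icc 0 T) := by
  have hi : IntegrableOn g (uIcc 0 T) := by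
    rw [uIcc_of_le hT]
    exact (hg.mono Icc_subset_Ici_self).integrableOn_Icc
  have := intervalIntegral.continuousOn_primitive_interval hi
  rwa [uIcc_of_le hT] at this

lemma stD_contOn {δ : ℝ} (hW : Continuous W) (hδ : 0 < δ) (T : ℝ) (hT : 0 ≤ T) :
    ContinuousOn (fun s => stD δ W s w) (Icc 0 T) := by
  have h1 : ContinuousOn (xy δ W w) (Icc 0 T) := (xy_contOn (z := w) hW hδ).mono Icc_subset_Ici_self
  have h2 := integral_contOn (xy_comp_cont (w := w) hW hδ (cL_cont hδ)) T hT
  have h3 := integral_contOn (xy_comp_cont (w := w) hW hδ (ca_cont hδ)) T hT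
  unfold stD
  exact (continuous_fst.comp_continuousOn h1).prodMk
    ((continuous_snd.comp_continuousOn h1).prodMk ((continuousOn_const.add h2).prodMk h3))

/-- continuity of the state on the life interval -/
theorem stW_contOn (hW : Continuous W) (h : Alive W w t) :
    ContinuousOn (fun s => stW W s w) (Icc 0 t) :=
  (stD_contOn hW (gfl_im_pos h) t h.1).congr fun _ hs => (stD_eqOn hW h hs).symm

/-- `Y_t = Im w e^{-2 a_t}` -/
theorem Y_eq (hW : Continuous W) (h : Alive W w t) :
    (stW W t w).2.1 = w.im * Real.exp (-2 * (stW W t w).2.2.2) := by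
  have h1 := log_im_eq h hW
  have hw : 0 < w.im := h.im_pos
  have h2 : ∫ s in (0:ℝ)..t, -(2 / ‖Zfl W s w‖ ^ 2) = -2 * ath W t w := by
    unfold ath
    rw [← intervalIntegral.integral_const_mul]
    congr 1
    funext s
    ring
  rw [h2] at h1
  rw [stW_Y, stW_a, Zfl_im, ← Real.exp_log (gfl_im_pos h), h1, Real.exp_add, Real.exp_log hw]

lemma L_eq (hW : Continuous W) (h : Alive W w t) :
    (stW W t w).2.2.1 = Real.log w.im
      + ∫ s in (0:ℝ)..t, cL (gfl W t w).im (xy (gfl W t w).im W w s) := by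
  rw [← stD_eqOn hW h ⟨h.1, le_rfl⟩]; rfl

lemma a_eq (hW : Continuous W) (h : Alive W w t) :
    (stW W t w).2.2.2 = ∫ s in (0:ℝ)..t, ca (gfl W t w).im (xy (gfl W t w).im W w s) := by
  rw [← stD_eqOn hW h ⟨h.1, le_rfl⟩]; rfl

lemma cL_nonpos (δ : ℝ) (p : ℝ × ℝ) : cL δ p ≤ 0 := by
  unfold cL
  have : 0 ≤ 4 * (max p.2 δ) ^ 2 / (p.1 ^ 2 + (max p.2 δ) ^ 2) ^ 2 := by positivity
  linarith

lemma ca_nonneg (δ : ℝ) (p : ℝ × ℝ) : 0 ≤ ca δ p := by
  unfold ca; positivity

lemma neg_four_ca_le_cL {δ : ℝ} (hδ : 0 < δ) (p : ℝ × ℝ) : -4 * ca δ p ≤ cL δ p := by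
  unfold cL ca
  have hm : 0 < max p.2 δ := lt_max_of_lt_right hδ
  set m := max p.2 δ
  have h1 : 0 < p.1 ^ 2 + m ^ 2 := by positivity
  have h2 : 4 * m ^ 2 / (p.1 ^ 2 + m ^ 2) ^ 2 ≤ 4 * (1 / (p.1 ^ 2 + m ^ 2)) := by
    rw [div_le_iff₀ (by positivity)]
    have : 4 * (1 / (p.1 ^ 2 + m ^ 2)) * (p.1 ^ 2 + m ^ 2) ^ 2 = 4 * (p.1 ^ 2 + m ^ 2) := by
      field_simp
    rw [this]
    nlinarith [sq_nonneg p.1]
  linarith

theorem L_le (hW : Continuous W) (h : Alive W w t) : (stW W t w).2.2.1 ≤ Real.log w.im := by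
  rw [L_eq hW h]
  have : 0 ≤ ∫ s in (0:ℝ)..t, -cL (gfl W t w).im (xy (gfl W t w).im W w s) :=
    intervalIntegral.integral_nonneg h.1 fun s _ => neg_nonneg.2 (cL_nonpos _ _)
  rw [intervalIntegral.integral_neg] at this
  linarith

theorem le_L (hW : Continuous W) (h : Alive W w t) :
    Real.log w.im - 4 * (stW W t w).2.2.2 ≤ (stW W t w).2.2.1 := by
  have hδ := gfl_im_pos h
  rw [L_eq hW h, a_eq hW h, sub_eq_add_neg, ← neg_mul, ← intervalIntegral.integral_const_mul]
  gcongr
  refine intervalIntegral.integral_mono_on h.1 ?_ ?_ fun s _ => neg_four_ca_le_cL hδ _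
  · refine ContinuousOn.intervalIntegrable_of_Icc h.1 ?_
    exact continuousOn_const.mul ((xy_comp_cont hW hδ (ca_cont hδ)).mono Icc_subset_Ici_self)
  · refine ContinuousOn.intervalIntegrable_of_Icc h.1 ?_
    exact (xy_comp_cont hW hδ (cL_cont hδ)).mono Icc_subset_Ici_self

theorem a_nonneg (h : Alive W w t) : 0 ≤ (stW W t w).2.2.2 := by
  rw [stW_a]
  unfold ath
  exact intervalIntegral.integral_nonneg h.1 fun s _ => by positivity

theorem a_mono (hW : Continuous W) (h : Alive W w t) {s : ℝ} (h0 : 0 ≤ s) (hs : s ≤ t) :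
    (stW W s w).2.2.2 ≤ (stW W t w).2.2.2 := by
  have hδ := gfl_im_pos h
  have e1 : (stW W s w).2.2.2
      = ∫ r in (0:ℝ)..s, ca (gfl W t w).im (xy (gfl W t w).im W w r) := by
    rw [← stD_eqOn hW h ⟨h0, hs⟩]; rfl
  rw [e1, a_eq hW h]
  have hc := xy_comp_cont (w := w) hW hδ (ca_cont hδ)
  have i1 : IntervalIntegrable (fun r => ca (gfl W t w).im (xy (gfl W t w).im W w r)) volume 0 s :=
    ContinuousOn.intervalIntegrable_of_Icc h0 (hc.mono Icc_subset_Ici_self)
  have i2 : IntervalIntegrable (fun r => ca (gfl W t w).im (xy (gfl W t w).im W w r)) volume s t :=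
    ContinuousOn.intervalIntegrable_of_Icc hs (hc.mono fun x hx => h0.trans hx.1)
  rw [← intervalIntegral.integral_add_adjacent_intervals i1 i2]
  have : 0 ≤ ∫ r in s..t, ca (gfl W t w).im (xy (gfl W t w).im W w r) :=
    intervalIntegral.integral_nonneg hs fun _ _ => ca_nonneg _ _
  linarith

theorem Y_le (_hW : Continuous W) (h : Alive W w t) : (stW W t w).2.1 ≤ w.im := by
  rw [stW_Y, Zfl_im]; exact im_anti' h

/-- if `|X| ≤ n` on the whole life `[0,t]` then `t ≤ (n² + (Im w)²) a_t`. -/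
theorem t_le (hW : Continuous W) (h : Alive W w t) {n : ℝ}
    (hX : ∀ s ∈ Icc 0 t, |(stW W s w).1| ≤ n) :
    t ≤ (n ^ 2 + w.im ^ 2) * (stW W t w).2.2.2 := by
  have hw : 0 < w.im := h.im_pos
  have h1 : ∫ s in (0:ℝ)..t, (1 / (n ^ 2 + w.im ^ 2)) ≤ ath W t w := by
    unfold ath
    refine intervalIntegral.integral_mono_on h.1 (by simp) ?_ fun s hs => ?_
    · refine ContinuousOn.intervalIntegrable_of_Icc h.1 ?_
      have hZc : ContinuousOn (fun s => Zfl W s w) (Icc 0 t) := by
        unfold Zfl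
        exact (continuousOn_gfl h).sub
          (Complex.continuous_ofReal.comp_continuousOn hW.continuousOn)
      refine ContinuousOn.div continuousOn_const (hZc.norm.pow 2) fun s hs => ?_
      exact pow_ne_zero 2 (norm_ne_zero_iff.2 (Zfl_ne_zero (h.mono hs.1 hs.2)))
    · have ha := h.mono hs.1 hs.2
      have hne : 0 < ‖Zfl W s w‖ ^ 2 := by
        have := norm_pos_iff.2 (Zfl_ne_zero ha); positivity
      refine one_div_le_one_div_of_le hne ?_
      have e : ‖Zfl W s w‖ ^ 2 = (Zfl W s w).re ^ 2 + (Zfl W s w).im ^ 2 := by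
        rw [← Complex.normSq_eq_norm_sq, Complex.normSq_apply]; ring
      rw [e]
      have hx := hX s hs
      rw [stW_fst] at hx
      have hy : (Zfl W s w).im ≤ w.im := Y_le hW ha
      have hy0 : 0 < (Zfl W s w).im := FL.Zfl_im_pos ha
      have h3 : (Zfl W s w).re ^ 2 ≤ n ^ 2 := by
        rw [← sq_abs]; exact pow_le_pow_left₀ (abs_nonneg _) hx 2
      have h4 : (Zfl W s w).im ^ 2 ≤ w.im ^ 2 := pow_le_pow_left₀ hy0.le hy 2
      linarith
  rw [intervalIntegral.integral_const, smul_eq_mul, sub_zero] at h1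
  rw [stW_a]
  have hc : 0 < n ^ 2 + w.im ^ 2 := by positivity
  rw [mul_one_div, div_le_iff₀ hc] at h1
  linarith

end path

section meas

variable {Ω : Type*} {m : MeasurableSpace Ω} {W : Ω → ℝ → ℝ} {w : ℂ}

/-- joint measurability of the driving path -/
lemma meas_drive (hc : ∀ ω, Continuous (W ω)) (hm : ∀ s, Measurable fun ω => W ω s) :
    Measurable (fun p : Ω × ℝ => W p.1 p.2) := by
  have := measurable_uncurry_of_continuous_of_measurable (u := fun (s : ℝ) (ω : Ω) => W ω s)
    (fun ω => hc ω) hm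
  exact this.comp (measurable_snd.prodMk measurable_fst)

/-- joint measurability of the flow of one point -/
lemma meas_gfl (hc : ∀ ω, Continuous (W ω)) (hm : ∀ s, Measurable fun ω => W ω s) (w : ℂ) :
    Measurable (fun p : Ω × ℝ => gfl (W p.1) p.2 w) := by
  refine FLD.measurable_of_cover (ι := ℕ) (fun n => {p : Ω × ℝ | p.2 ≤ n})
    (fun n p => (Iic (n:ℝ)).indicator (fun s => gfl (W p.1) s w) p.2)
    (fun n => measurableSet_le measurable_snd measurable_const) (fun p => ?_) (fun n => ?_)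
    (fun n p hp => ?_)
  · obtain ⟨n, hn⟩ := exists_nat_ge p.2
    exact ⟨n, hn⟩
  · have h := FLD.measurable_gfl_joint (W := W) (T := (n:ℝ)) (fun ω => (hc ω).continuousOn)
      (fun s _ => hm s)
    exact h.comp ((measurable_fst.prodMk measurable_const).prodMk measurable_snd)
  · exact (indicator_of_mem (s := Iic (n:ℝ)) (f := fun s => gfl (W p.1) s w) hp).symm

lemma meas_Zfl (hc : ∀ ω, Continuous (W ω)) (hm : ∀ s, Measurable fun ω => W ω s) (w : ℂ) :
    Measurable (fun p : Ω × ℝ => Zfl (W p.1) p.2 w) :=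
  (meas_gfl hc hm w).sub (Complex.measurable_ofReal.comp (meas_drive hc hm))

/-- joint measurability of a primitive in time -/
lemma meas_prim {φ : Ω × ℝ → ℝ} (hφ : Measurable φ) :
    Measurable (fun p : Ω × ℝ => ∫ s in (0:ℝ)..p.2, φ (p.1, s)) := by
  have h1 : Measurable (fun x : (Ω × ℝ) × ℝ => (Ioc 0 x.1.2).indicator
      (fun s => φ (x.1.1, s)) x.2) := by
    have : (fun x : (Ω × ℝ) × ℝ => (Ioc 0 x.1.2).indicator (fun s => φ (x.1.1, s)) x.2)
        = {x : (Ω × ℝ) × ℝ | 0 < x.2 ∧ x.2 ≤ x.1.2}.indicator (fun x => φ (x.1.1, x.2)) := by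
      funext x
      simp only [indicator, mem_Ioc, mem_ofPred_eq]
    rw [this]
    refine Measurable.indicator ?_ ?_
    · exact hφ.comp ((measurable_fst.comp measurable_fst).prodMk measurable_snd)
    · exact (measurableSet_lt measurable_const measurable_snd).inter
        (measurableSet_le measurable_snd (measurable_snd.comp measurable_fst))
  have h2 : Measurable (fun x : (Ω × ℝ) × ℝ => (Ioc x.1.2 0).indicator
      (fun s => φ (x.1.1, s)) x.2) := by
    have : (fun x : (Ω × ℝ) × ℝ => (Ioc x.1.2 0).indicator (fun s => φ (x.1.1, s)) x.2)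
        = {x : (Ω × ℝ) × ℝ | x.1.2 < x.2 ∧ x.2 ≤ 0}.indicator (fun x => φ (x.1.1, x.2)) := by
      funext x
      simp only [indicator, mem_Ioc, mem_ofPred_eq]
    rw [this]
    refine Measurable.indicator ?_ ?_
    · exact hφ.comp ((measurable_fst.comp measurable_fst).prodMk measurable_snd)
    · exact (measurableSet_lt (measurable_snd.comp measurable_fst) measurable_snd).inter
        (measurableSet_le measurable_snd measurable_const)
  have e1 := (h1.stronglyMeasurable.integral_prod_right' (ν := volume)).measurable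
  have e2 := (h2.stronglyMeasurable.integral_prod_right' (ν := volume)).measurable
  convert e1.sub e2 using 1
  funext p
  simp only [Pi.sub_apply, intervalIntegral]
  rw [integral_indicator measurableSet_Ioc, integral_indicator measurableSet_Ioc]

/-- joint measurability of the state of one point -/
theorem meas_stW (hc : ∀ ω, Continuous (W ω)) (hm : ∀ s, Measurable fun ω => W ω s) (w : ℂ) :
    Measurable (fun p : Ω × ℝ => stW (W p.1) p.2 w) := by
  have hZ := meas_Zfl hc hm w
  have hg := meas_gfl hc hm w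
  have h1 : Measurable (fun p : Ω × ℝ => ups (W p.1) p.2 w) := by
    unfold ups
    refine (Complex.measurable_im.comp hg).mul (Real.measurable_exp.comp ?_)
    refine meas_prim (φ := fun p : Ω × ℝ => 2 * (((Zfl (W p.1) p.2 w) ^ 2)⁻¹).re) ?_
    exact (Complex.measurable_re.comp (hZ.pow_const 2).inv).const_mul 2
  have h2 : Measurable (fun p : Ω × ℝ => ath (W p.1) p.2 w) := by
    unfold ath
    refine meas_prim (φ := fun p : Ω × ℝ => 1 / ‖Zfl (W p.1) p.2 w‖ ^ 2) ?_
    exact measurable_const.div (hZ.norm.pow_const 2)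
  unfold stW
  exact (Complex.measurable_re.comp hZ).prodMk ((Complex.measurable_im.comp hZ).prodMk
    ((Real.measurable_log.comp h1).prodMk h2))

theorem meas_alive (hc : ∀ ω, Continuous (W ω)) (hm : ∀ s, Measurable fun ω => W ω s) (w : ℂ) :
    MeasurableSet {p : Ω × ℝ | Alive (W p.1) w p.2} := by
  have : {p : Ω × ℝ | Alive (W p.1) w p.2}
      = ⋃ n : ℕ, {p : Ω × ℝ | p.2 ≤ n ∧ Alive (W p.1) w p.2} := by
    ext p
    simp only [mem_ofPred_eq, mem_iUnion]
    constructor
    · intro h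
      obtain ⟨n, hn⟩ := exists_nat_ge p.2
      exact ⟨n, hn, h⟩
    · rintro ⟨n, _, h⟩
      exact h
  rw [this]
  refine MeasurableSet.iUnion fun n => ?_
  have h := FLD.measurableSet_alive_joint (W := W) (T := (n:ℝ)) (fun ω => (hc ω).continuousOn)
      (fun s _ => hm s)
  have h2 : Measurable (fun p : Ω × ℝ => (((p.1, w), p.2) : (Ω × ℂ) × ℝ)) :=
    (measurable_fst.prodMk measurable_const).prodMk measurable_snd
  exact h2 h

end meas

end Crest.Agent.R162.LBC
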