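import Mathlib
import Crest.Agent.R162.LBC1

/-!
Row 162, node LB-CONTENT, file 2 (helper499): `super_int` and `exact_int` (localised Dynkin
formula with the limit over boxes already taken).
-/

set_option autoImplicit false
set_option linter.unusedSectionVars false

open MeasureTheory ProbabilityTheory Set Filter
open scoped NNReal ENNReal Topology

namespace Crest.Agent.R162.LBC

open FL OP OS OPTr Crest.ProbabilityR.Loewner

universe u

variable {Ω : Type u} {m : MeasurableSpace Ω} {P : Measure Ω} [IsProbabilityMeasure P]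
  {Fl : Filtration ℝ≥0 m} {B : ℝ≥0 → Ω → ℝ} {κ : ℝ} {w : ℂ}

/-- the integral of the rate over a random interval, restricted to an event, as an integral over
the product space -/
lemma lint_prod (hB : IsBM Fl B P) {H : ℝ × ℝ × ℝ × ℝ → ℝ} (hH : Measurable H)
    {σ τ : Ω → ℝ≥0} (hσ : Measurable σ) (hτ : Measurable τ) {A : Set Ω} (hA : MeasurableSet A) :
    Measurable ({p : Ω × ℝ | p.1 ∈ A ∧ (σ p.1 : ℝ) < p.2 ∧ p.2 ≤ τ p.1}.indicator
      (fun p : Ω × ℝ => hr H κ B w p.1 p.2)) ∧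
    ∫⁻ ω in A, (∫⁻ s in Ioc (σ ω : ℝ) (τ ω), hr H κ B w ω s) ∂P
      = ∫⁻ p, {p : Ω × ℝ | p.1 ∈ A ∧ (σ p.1 : ℝ) < p.2 ∧ p.2 ≤ τ p.1}.indicator
        (fun p : Ω × ℝ => hr H κ B w p.1 p.2) p ∂(P.prod volume) := by
  have hS : MeasurableSet {p : Ω × ℝ | p.1 ∈ A ∧ (σ p.1 : ℝ) < p.2 ∧ p.2 ≤ τ p.1} := by
    refine (measurable_fst hA).inter ?_
    exact (measurableSet_lt (measurable_coe_nnreal_real.comp (hσ.comp measurable_fst))
        measurable_snd).inter (measurableSet_le measurable_snd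
          (measurable_coe_nnreal_real.comp (hτ.comp measurable_fst)))
  have hm := (meas_hr (κ := κ) (w := w) hB hH).indicator hS
  refine ⟨hm, ?_⟩
  rw [lintegral_prod _ hm.aemeasurable, ← lintegral_indicator hA]
  refine lintegral_congr fun ω => ?_
  by_cases hω : ω ∈ A
  · rw [indicator_of_mem hω, ← lintegral_indicator measurableSet_Ioc]
    refine lintegral_congr fun s => ?_
    simp only [indicator, mem_Ioc, mem_ofPred_eq, hω, true_and]
  · rw [indicator_of_notMem hω]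
    symm
    refine (lintegral_congr fun s => ?_).trans lintegral_zero
    exact indicator_of_notMem (fun h => hω h.1) _

/-- on a box, the supermartingale inequality with the integral of the rate. -/
theorem box_super (hM : OPM.{u}) (hB : IsBM Fl B P) (hκ : 0 < κ) (hw : 0 < w.im)
    (hE : Exit Fl κ B w) {F : ℝ × ℝ × ℝ × ℝ → ℝ} (hF : ContDiffOn ℝ 3 F {q | 0 < q.2.1})
    (hF0 : ∀ q : ℝ × ℝ × ℝ × ℝ, 0 < q.2.1 → 0 ≤ F q)
    (hgc : ContinuousOn (gen κ F) {q | 0 < q.2.1}) {H : ℝ × ℝ × ℝ × ℝ → ℝ}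
    (hH0 : ∀ q : ℝ × ℝ × ℝ × ℝ, 0 < q.2.1 → 0 ≤ H q)
    (hgen : ∀ q : ℝ × ℝ × ℝ × ℝ, 0 < q.2.1 → gen κ F q ≤ - H q)
    {O : Set (ℝ × ℝ × ℝ × ℝ)} (hO : IsOpen O) {r : ℝ} (hr' : 0 < r) (hOr : O ⊆ bo r)
    {σ τ : Ω → ℝ≥0} (hσ : IsST Fl σ)
    (hτ : IsST Fl τ) {T : ℝ≥0} (hτT : ∀ ω, τ ω ≤ T) {A : Set Ω} (hA : EvST Fl σ A)
    (hστ : ∀ ω ∈ A, σ ω ≤ τ ω) (hAO : ∀ ω ∈ A, stP κ B w (σ ω) ω ∈ O) :
    ∫⁻ ω in A, (∫⁻ s in Ioc (σ ω : ℝ) (min (hit (stP κ B w) Oᶜ σ T ω) (τ ω) : ℝ≥0),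
        hr H κ B w ω s) ∂P
      + ∫⁻ ω in A, ENNReal.ofReal
          (F (stP κ B w (min (hit (stP κ B w) Oᶜ σ T ω) (τ ω)) ω)) ∂P
      ≤ ∫⁻ ω in A, ENNReal.ofReal (F (stP κ B w (σ ω) ω)) ∂P := by
  obtain ⟨key, i1, i2, i3, heq⟩ := box_step hM hB hκ hw hE hF hgc hO hr' hOr hσ hτ hτT hA hστ hAO
  set τ' : Ω → ℝ≥0 := fun ω => min (hit (stP κ B w) Oᶜ σ T ω) (τ ω) with hτ'
  have hAm : MeasurableSet A := hA.measurableSet
  have hclO : closure O ⊆ bc r := (closure_mono hOr).trans (closure_bo_subset r)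
  have hpos : ∀ ω ∈ A, ∀ s : ℝ, (σ ω : ℝ) ≤ s → s ≤ τ' ω →
      Alive (driving κ B ω) w s ∧ 0 < (stW (driving κ B ω) s w).2.1 := by
    intro ω hω s h1 h2
    have hs0 : 0 ≤ s := (σ ω).2.trans h1
    have := (key ω hω).2 ⟨s, hs0⟩ (by exact_mod_cast h1) (by exact_mod_cast h2)
    exact ⟨this.1, bc_pos' hr' (hclO this.2)⟩
  -- pointwise comparison of the inner integral
  have h1 : ∀ ω ∈ A, (∫⁻ s in Ioc (σ ω : ℝ) (τ' ω), hr H κ B w ω s)
      ≤ ENNReal.ofReal (-(∫ s in (σ ω : ℝ)..(τ' ω : ℝ), gen κ F (stW (driving κ B ω) s w))) := by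
    intro ω hω
    have hle : (σ ω : ℝ) ≤ τ' ω := by exact_mod_cast (key ω hω).1
    have ha : Alive (driving κ B ω) w (τ' ω) := (hpos ω hω _ hle le_rfl).1
    have hc : ContinuousOn (fun s => -gen κ F (stW (driving κ B ω) s w))
        (Icc (σ ω : ℝ) (τ' ω)) := by
      refine (hgc.comp ((stW_contOn (cont_driving hB κ ω) ha).mono ?_) ?_).neg
      · exact Icc_subset_Icc NNReal.zero_le_coe le_rfl
      · intro s hs
        exact (hpos ω hω s hs.1 hs.2).2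
    have hi : IntegrableOn (fun s => -gen κ F (stW (driving κ B ω) s w))
        (Ioc (σ ω : ℝ) (τ' ω)) := hc.integrableOn_Icc.mono_set Ioc_subset_Icc_self
    have hnn : ∀ s ∈ Ioc (σ ω : ℝ) (τ' ω), H (stW (driving κ B ω) s w)
        ≤ -gen κ F (stW (driving κ B ω) s w) ∧ 0 ≤ -gen κ F (stW (driving κ B ω) s w) := by
      intro s hs
      have hp := (hpos ω hω s hs.1.le hs.2).2
      have a1 := hgen _ hp
      have a2 := hH0 _ hp
      constructor <;> linarith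
    rw [← intervalIntegral.integral_neg, intervalIntegral.integral_of_le hle,
      ofReal_integral_eq_lintegral_ofReal hi ?_]
    · refine setLIntegral_mono' measurableSet_Ioc fun s hs => ?_
      unfold hr
      rw [indicator_of_mem (by exact (hpos ω hω s hs.1.le hs.2).1)]
      exact ENNReal.ofReal_le_ofReal (hnn s hs).1
    · filter_upwards [ae_restrict_mem measurableSet_Ioc] with s hs
      exact (hnn s hs).2
  have hJ0 : ∀ ω ∈ A, 0 ≤ -(∫ s in (σ ω : ℝ)..(τ' ω : ℝ), gen κ F (stW (driving κ B ω) s w)) := by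
    intro ω hω
    have hle : (σ ω : ℝ) ≤ τ' ω := by exact_mod_cast (key ω hω).1
    rw [← intervalIntegral.integral_neg]
    refine intervalIntegral.integral_nonneg hle fun s hs => ?_
    have hp := (hpos ω hω s hs.1 hs.2).2
    have a1 := hgen _ hp
    have a2 := hH0 _ hp
    linarith
  have h2 : ∫⁻ ω in A, (∫⁻ s in Ioc (σ ω : ℝ) (τ' ω), hr H κ B w ω s) ∂P
      ≤ ∫⁻ ω in A, ENNReal.ofReal (-(∫ s in (σ ω : ℝ)..(τ' ω : ℝ),
        gen κ F (stW (driving κ B ω) s w))) ∂P := setLIntegral_mono' hAm h1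
  have e1 : ∫⁻ ω in A, ENNReal.ofReal (-(∫ s in (σ ω : ℝ)..(τ' ω : ℝ),
        gen κ F (stW (driving κ B ω) s w))) ∂P
      = ENNReal.ofReal (∫ ω in A, -(∫ s in (σ ω : ℝ)..(τ' ω : ℝ),
        gen κ F (stW (driving κ B ω) s w)) ∂P) := by
    refine (ofReal_integral_eq_lintegral_ofReal (f := fun ω => -(∫ s in (σ ω : ℝ)..(τ' ω : ℝ),
        gen κ F (stW (driving κ B ω) s w))) i3.neg ?_).symm
    filter_upwards [ae_restrict_mem hAm] with ω hω
    exact hJ0 ω hω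
  have e2 : ∫⁻ ω in A, ENNReal.ofReal (F (stP κ B w (τ' ω) ω)) ∂P
      = ENNReal.ofReal (∫ ω in A, F (stP κ B w (τ' ω) ω) ∂P) := by
    rw [ofReal_integral_eq_lintegral_ofReal i2]
    filter_upwards [ae_restrict_mem hAm] with ω hω
    refine hF0 _ ?_
    exact (hpos ω hω _ (by exact_mod_cast (key ω hω).1) le_rfl).2
  have e3 : ∫⁻ ω in A, ENNReal.ofReal (F (stP κ B w (σ ω) ω)) ∂P
      = ENNReal.ofReal (∫ ω in A, F (stP κ B w (σ ω) ω) ∂P) := by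
    rw [ofReal_integral_eq_lintegral_ofReal i1]
    filter_upwards [ae_restrict_mem hAm] with ω hω
    refine hF0 _ ?_
    exact (hpos ω hω _ le_rfl (by exact_mod_cast (key ω hω).1)).2
  refine (add_le_add_left h2 _).trans ?_
  rw [e1, e2, e3, ← ENNReal.ofReal_add]
  · refine ENNReal.ofReal_le_ofReal ?_
    rw [integral_neg]
    change ∫ ω in A, F (stP κ B w (τ' ω) ω) ∂P = _ at heq
    rw [heq]
    linarith
  · exact setIntegral_nonneg hAm hJ0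
  · refine setIntegral_nonneg hAm fun ω hω => hF0 _ ?_
    exact (hpos ω hω _ (by exact_mod_cast (key ω hω).1) le_rfl).2

/-- **localised supermartingale inequality with the integral of the rate.** -/
theorem super_int (hM : OPM.{u}) (hB : IsBM Fl B P) (hκ : 0 < κ) (hw : 0 < w.im)
    (hE : Exit Fl κ B w) {F : ℝ × ℝ × ℝ × ℝ → ℝ} (hF : ContDiffOn ℝ 3 F {q | 0 < q.2.1})
    (hF0 : ∀ q : ℝ × ℝ × ℝ × ℝ, 0 < q.2.1 → 0 ≤ F q)
    (hgc : ContinuousOn (gen κ F) {q | 0 < q.2.1}) {H : ℝ × ℝ × ℝ × ℝ → ℝ}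
    (hHm : Measurable H) (hH0 : ∀ q : ℝ × ℝ × ℝ × ℝ, 0 < q.2.1 → 0 ≤ H q)
    (hgen : ∀ q : ℝ × ℝ × ℝ × ℝ, 0 < q.2.1 → gen κ F q ≤ - H q)
    {σ τ : Ω → ℝ≥0} (hσ : IsST Fl σ)
    (hτ : IsST Fl τ) {T : ℝ≥0} (hτT : ∀ ω, τ ω ≤ T) {A : Set Ω} (hA : EvST Fl σ A)
    (hστ : ∀ ω ∈ A, σ ω ≤ τ ω) :
    ∫⁻ ω in A, (∫⁻ s in Ioc (σ ω : ℝ) (τ ω), hr H κ B w ω s) ∂P
      ≤ ∫⁻ ω in A ∩ {ω | AliveP κ B w (σ ω) ω}, ENNReal.ofReal (F (stP κ B w (σ ω) ω)) ∂P := by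
  classical
  set R : ℕ → ℝ := fun n => (n : ℝ) + 1 with hR
  have hR0 : ∀ n, 0 < R n := fun n => by rw [hR]; positivity
  set O : ℕ → Set (ℝ × ℝ × ℝ × ℝ) := fun n => bo (R n) with hO
  set An : ℕ → Set Ω := fun n => A ∩ {ω | stP κ B w (σ ω) ω ∈ O n} with hAn
  set τn : ℕ → Ω → ℝ≥0 := fun n ω => min (hit (stP κ B w) (O n)ᶜ σ T ω) (τ ω) with hτn
  have hOδ : ∀ n, ∀ q ∈ O n, 1 / R n ≤ q.2.1 := fun n q hq => hq.2.1.1.le
  have hAnE : ∀ n, EvST Fl σ (An n) := fun n =>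
    hA.inter (hE.ev (O n) (isOpen_bo _) _ (by have := hR0 n; positivity) (hOδ n) σ hσ)
  have hτnst : ∀ n, IsST Fl (τn n) := fun n =>
    (hE.st (O n) (isOpen_bo _) _ (by have := hR0 n; positivity) (hOδ n) σ hσ T).min hτ
  have step : ∀ n, ∫⁻ ω in An n, (∫⁻ s in Ioc (σ ω : ℝ) (τn n ω), hr H κ B w ω s) ∂P
      ≤ ∫⁻ ω in A ∩ {ω | AliveP κ B w (σ ω) ω}, ENNReal.ofReal (F (stP κ B w (σ ω) ω)) ∂P := by
    intro n
    have h := box_super hM hB hκ hw hE hF hF0 hgc hH0 hgen (isOpen_bo (R n)) (hR0 n)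
      subset_rfl hσ hτ hτT (hAnE n) (fun ω hω => hστ ω hω.1) (fun ω hω => hω.2)
    refine (le_self_add.trans h).trans (lintegral_mono_set ?_)
    intro ω hω
    refine ⟨hω.1, alive_of_Y_pos (W := driving κ B ω) ?_⟩
    exact lt_of_lt_of_le (by have := hR0 n; positivity) (hOδ n _ hω.2)
  -- pass to the limit
  obtain ⟨_, e0'⟩ := lint_prod (κ := κ) (w := w) hB hHm hσ.measurable hτ.measurable
    hA.measurableSet
  have en := fun n => lint_prod (κ := κ) (w := w) hB hHm hσ.measurable (hτnst n).measurable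
    (hAnE n).measurableSet
  rw [e0']
  set G : Ω × ℝ → ℝ≥0∞ := {p : Ω × ℝ | p.1 ∈ A ∧ (σ p.1 : ℝ) < p.2 ∧ p.2 ≤ τ p.1}.indicator
        (fun p : Ω × ℝ => hr H κ B w p.1 p.2) with hG
  set Gn : ℕ → Ω × ℝ → ℝ≥0∞ := fun n =>
    {p : Ω × ℝ | p.1 ∈ An n ∧ (σ p.1 : ℝ) < p.2 ∧ p.2 ≤ τn n p.1}.indicator
        (fun p : Ω × ℝ => hr H κ B w p.1 p.2) with hGn
  have hlim : ∀ p, G p ≤ liminf (fun n => Gn n p) atTop := by
    rintro ⟨ω, s⟩
    by_cases hp : (ω, s) ∈ {p : Ω × ℝ | p.1 ∈ A ∧ (σ p.1 : ℝ) < p.2 ∧ p.2 ≤ τ p.1}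
    swap
    · rw [hG, indicator_of_notMem hp]; exact bot_le
    by_cases ha : Alive (driving κ B ω) w s
    swap
    · have : G (ω, s) = 0 := by
        rw [hG, indicator_of_mem hp]
        exact indicator_of_notMem (s := {s | Alive (driving κ B ω) w s}) ha _
      rw [this]; exact bot_le
    obtain ⟨hωA, hs1, hs2⟩ := hp
    simp only at hωA hs1 hs2
    obtain ⟨r₀, hr₀⟩ := exists_box (cont_driving hB κ ω) ha
    refine le_liminf_of_le (by isBoundedDefault) ?_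
    filter_upwards [eventually_ge_atTop (⌈r₀⌉₊)] with n hn
    have hrn : r₀ ≤ R n := by
      have : (r₀ : ℝ) ≤ n := (Nat.le_ceil r₀).trans (by exact_mod_cast hn)
      rw [hR]; linarith
    have hb := hr₀ (R n) hrn
    have hσ0 : (0:ℝ) ≤ σ ω := NNReal.zero_le_coe
    have m1 : ω ∈ An n := ⟨hωA, hb _ ⟨hσ0, hs1.le⟩⟩
    have m2 : s ≤ (τn n ω : ℝ) := by
      rw [hτn]
      have hx : s ≤ (ext (driving κ B ω) w (O n) (σ ω) T : ℝ) := by
        refine le_ext_of ?_ fun u hu => hb u ⟨hσ0.trans hu.1, hu.2⟩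
        have : (τ ω : ℝ) ≤ T := by exact_mod_cast hτT ω
        exact (hs2.trans this).trans (le_max_left _ _)
      have : ((min (hit (stP κ B w) (O n)ᶜ σ T ω) (τ ω) : ℝ≥0) : ℝ)
          = min (ext (driving κ B ω) w (O n) (σ ω) T : ℝ) (τ ω) := by
        rw [hit_eq]; exact NNReal.coe_min _ _
      rw [this]
      exact le_min hx hs2
    have g1 : G (ω, s) = hr H κ B w ω s := indicator_of_mem
      (s := {p : Ω × ℝ | p.1 ∈ A ∧ (σ p.1 : ℝ) < p.2 ∧ p.2 ≤ τ p.1}) ⟨hωA, hs1, hs2⟩ _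
    have g2 : Gn n (ω, s) = hr H κ B w ω s := indicator_of_mem
      (s := {p : Ω × ℝ | p.1 ∈ An n ∧ (σ p.1 : ℝ) < p.2 ∧ p.2 ≤ τn n p.1}) ⟨m1, hs1, m2⟩ _
    rw [g1, g2]
  calc ∫⁻ p, G p ∂(P.prod volume) ≤ ∫⁻ p, liminf (fun n => Gn n p) atTop ∂(P.prod volume) :=
        lintegral_mono hlim
    _ ≤ liminf (fun n => ∫⁻ p, Gn n p ∂(P.prod volume)) atTop :=
        lintegral_liminf_le fun n => (en n).1
    _ ≤ _ := by
        refine liminf_le_of_frequently_le' (Eventually.frequently (Eventually.of_forall fun n => ?_))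
        rw [← (en n).2]
        exact step n

end Crest.Agent.R162.LBC
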