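import Mathlib
import Crest.Agent.R162.LBC2
import Crest.Agent.R162.OPGen
import Crest.Agent.R162.GexGen

/-!
Row 162, node LB-CONTENT, file 3 (helper499): generator computations for the content functions
`G g(L)`, `G (g(L) S^{-q} + M g₂(L))`, `G e^{-pa} (κ/2 + S^{-p})`.
-/

set_option autoImplicit false
set_option linter.unusedSectionVars false

open Set

namespace Crest.Agent.R162.LBC

open Crest.Agent.R162.GEN Crest.Agent.R162.OPGen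

/-- `exp((κ b/8) th) g(-th) exp(-lam a) (cosh x)^r` -/
noncomputable def V3 (κ r lam : ℝ) (g : ℝ → ℝ) : ℝ → ℝ → ℝ → ℝ := fun th a x =>
  (Real.exp (κ * bb κ / 8 * th) * g (-th)) * Real.exp (-lam * a) * cp r x

lemma hasDerivAt_phi {κ : ℝ} {g g' : ℝ → ℝ} (hg : ∀ s, HasDerivAt g (g' s) s) (s : ℝ) :
    HasDerivAt (fun th => Real.exp (κ * bb κ / 8 * th) * g (-th))
      (Real.exp (κ * bb κ / 8 * s) * (κ * bb κ / 8 * g (-s) - g' (-s))) s := by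
  have h1 := hasDerivAt_expc (κ * bb κ / 8) s
  have h2 : HasDerivAt (fun th : ℝ => g (-th)) (g' (-s) * -1) s :=
    (hg (-s)).comp s (hasDerivAt_neg s)
  exact (h1.mul h2).congr_deriv (by ring)

lemma contDiff_phi {κ : ℝ} {g : ℝ → ℝ} (cg : ContDiff ℝ (⊤ : ℕ∞) g) :
    ContDiff ℝ (⊤ : ℕ∞) (fun th => Real.exp (κ * bb κ / 8 * th) * g (-th)) :=
  (contDiff_expc _).mul (cg.comp contDiff_neg)

/-- the first `x` derivative of `V3` etc. -/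
noncomputable def V3t (κ r lam : ℝ) (g g' : ℝ → ℝ) : ℝ → ℝ → ℝ → ℝ := fun th a x =>
  (Real.exp (κ * bb κ / 8 * th) * (κ * bb κ / 8 * g (-th) - g' (-th))) * Real.exp (-lam * a)
    * cp r x
/-- see `V3t` -/
noncomputable def V3a (κ r lam : ℝ) (g : ℝ → ℝ) : ℝ → ℝ → ℝ → ℝ := fun th a x =>
  (Real.exp (κ * bb κ / 8 * th) * g (-th)) * (-lam * Real.exp (-lam * a)) * cp r x
/-- see `V3t` -/
noncomputable def V3x (κ r lam : ℝ) (g : ℝ → ℝ) : ℝ → ℝ → ℝ → ℝ := fun th a x =>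
  (Real.exp (κ * bb κ / 8 * th) * g (-th)) * Real.exp (-lam * a) * (r * Real.tanh x * cp r x)
/-- see `V3t` -/
noncomputable def V3xx (κ r lam : ℝ) (g : ℝ → ℝ) : ℝ → ℝ → ℝ → ℝ := fun th a x =>
  (Real.exp (κ * bb κ / 8 * th) * g (-th)) * Real.exp (-lam * a)
    * (r * cp r x * ((r - 1) * Real.tanh x ^ 2 + 1))

theorem jet_V3 (κ r lam : ℝ) {g g' : ℝ → ℝ} (hg : ∀ s, HasDerivAt g (g' s) s)
    (cg : ContDiff ℝ (⊤ : ℕ∞) g) :
    Jet (V3 κ r lam g) (V3t κ r lam g g') (V3a κ r lam g) (V3x κ r lam g) (V3xx κ r lam g) :=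
  Jet.prod (hasDerivAt_phi hg) (hasDerivAt_expc (-lam)) (hasDerivAt_cp r) (hasDerivAt_cp' r)
    (contDiff_phi cg) (contDiff_expc _) (contDiff_cp r)

/-- `E3 = exp(-(κ b/8) L) exp(-lam a) (cosh x)^r` -/
noncomputable def E3 (κ r lam : ℝ) (q : ℝ × ℝ × ℝ × ℝ) : ℝ :=
  Real.exp (κ * bb κ / 8 * (0 - q.2.2.1)) * Real.exp (-lam * (q.2.2.2 - 0)) * cp r (xc q.1 q.2.1)

lemma E3_pos (κ r lam : ℝ) (q : ℝ × ℝ × ℝ × ℝ) : 0 < E3 κ r lam q := by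
  unfold E3
  have := cp_pos r (xc q.1 q.2.1)
  positivity

lemma pq_V3 (κ r lam : ℝ) (g : ℝ → ℝ) (q : ℝ × ℝ × ℝ × ℝ) :
    pq (V3 κ r lam g) 0 0 q = g q.2.2.1 * E3 κ r lam q := by
  unfold pq V3 E3
  rw [show -(0 - q.2.2.1) = q.2.2.1 by ring]
  ring

/-- the bracket -/
noncomputable def brk (κ r lam u : ℝ) : ℝ :=
  r * (κ / 2) * (u + (bb κ + r) * (1 - u)) + κ * bb κ / 2 * u - lam

theorem LVal_V3 {κ : ℝ} (hκ : 0 < κ) (r lam : ℝ) (g g' : ℝ → ℝ) (th a x : ℝ) :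
    LVal κ (Real.tanh x) (V3x κ r lam g th a x) (V3xx κ r lam g th a x) (V3t κ r lam g g' th a x)
      (V3a κ r lam g th a x)
      = Real.exp (κ * bb κ / 8 * th) * Real.exp (-lam * a) * cp r x *
        (g (-th) * brk κ r lam (1 - Real.tanh x ^ 2) - 4 * (1 - Real.tanh x ^ 2) * g' (-th)) := by
  have h := LVal_cp hκ (Real.exp (κ * bb κ / 8 * th) * g (-th) * Real.exp (-lam * a))
    ((Real.exp (κ * bb κ / 8 * th) * (κ * bb κ / 8 * g (-th) - g' (-th))) * Real.exp (-lam * a))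
    ((Real.exp (κ * bb κ / 8 * th) * g (-th)) * (-lam * Real.exp (-lam * a)))
    r (Real.tanh x) (cp r x)
  unfold V3x V3xx V3t V3a
  rw [h]
  unfold Ar brk
  ring

/-- **generator of `V3`** -/
theorem gen_V3 {κ : ℝ} (hκ : 0 < κ) (r lam : ℝ) {g g' : ℝ → ℝ} (hg : ∀ s, HasDerivAt g (g' s) s)
    (cg : ContDiff ℝ (⊤ : ℕ∞) g) {q : ℝ × ℝ × ℝ × ℝ} (hq : 0 < q.2.1) :
    OP.gen κ (pq (V3 κ r lam g) 0 0) q
      = 1 / (q.1 ^ 2 + q.2.1 ^ 2) * (E3 κ r lam q *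
        (g q.2.2.1 * brk κ r lam (OP.sinq q ^ 2) - 4 * OP.sinq q ^ 2 * g' q.2.2.1)) := by
  rw [gen_pq (jet_V3 κ r lam hg cg) κ 0 0 hq, LVal_V3 hκ]
  have h1 : 1 - Real.tanh (xc q.1 q.2.1) ^ 2 = OP.sinq q ^ 2 := by
    rw [← cp_neg_two, cp_neg_eq hq 2, Real.rpow_two]
  rw [h1]
  unfold E3
  rw [show -(0 - q.2.2.1) = q.2.2.1 by ring]

/-- generator of a sum -/
theorem gen_add {κ : ℝ} {V Vt Va Vx Vxx U Ut Ua Ux Uxx : ℝ → ℝ → ℝ → ℝ}
    (J : Jet V Vt Va Vx Vxx) (K : Jet U Ut Ua Ux Uxx) {q : ℝ × ℝ × ℝ × ℝ} (hq : 0 < q.2.1) :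
    OP.gen κ (pq (fun th a x => V th a x + U th a x) 0 0) q
      = OP.gen κ (pq V 0 0) q + OP.gen κ (pq U 0 0) q := by
  rw [gen_pq (J.add K) κ 0 0 hq, gen_pq J κ 0 0 hq, gen_pq K κ 0 0 hq, LVal_add]
  ring

lemma brk_b {κ u : ℝ} : brk κ (-bb κ) 0 u = 0 := by
  unfold brk; ring

lemma brk_q {κ q u : ℝ} (lam : ℝ) :
    brk κ (q - bb κ) lam u = κ / 2 * q * (u - (bb κ - q) * (1 - u)) - lam := by
  unfold brk; ring

lemma sinq_pos' {q : ℝ × ℝ × ℝ × ℝ} (hq : 0 < q.2.1) : 0 < OP.sinq q := GEX.sinq_pos hq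
lemma sinq_le_one' {q : ℝ × ℝ × ℝ × ℝ} (hq : 0 < q.2.1) : OP.sinq q ≤ 1 := GEX.sinq_le_one hq

lemma E3_eq {κ : ℝ} (hκ : κ ≠ 0) (β lam : ℝ) {q : ℝ × ℝ × ℝ × ℝ} (hq : 0 < q.2.1) :
    E3 κ (β - bb κ) lam q
      = OP.Gq κ q * OP.sinq q ^ (-β) * Real.exp (-lam * q.2.2.2) := by
  have hS := sinq_pos' hq
  unfold E3 OP.Gq
  have h1 : cp (β - bb κ) (xc q.1 q.2.1) = OP.sinq q ^ (8 / κ - 1) * OP.sinq q ^ (-β) := by
    rw [← Real.rpow_add hS, show β - bb κ = -(bb κ - β) by ring, cp_neg_eq hq]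
    congr 1
  have h2 : κ * bb κ / 8 * (0 - q.2.2.1) = (κ / 8 - 1) * q.2.2.1 := by
    unfold bb; field_simp; ring
  rw [h1, h2, sub_zero]
  ring

lemma E3_eq' {κ : ℝ} (hκ : κ ≠ 0) {q : ℝ × ℝ × ℝ × ℝ} (hq : 0 < q.2.1) :
    E3 κ (-bb κ) 0 q = OP.Gq κ q := by
  have := E3_eq hκ 0 0 hq
  simpa using this

/-! ### continuity of the generator of `V3` -/

lemma continuousOn_sinq : ContinuousOn OP.sinq {q : ℝ × ℝ × ℝ × ℝ | 0 < q.2.1} := by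
  intro q hq
  refine ContinuousAt.continuousWithinAt ?_
  have hq' : (0:ℝ) < q.2.1 := hq
  unfold OP.sinq
  refine ContinuousAt.div (by fun_prop) (by fun_prop) ?_
  have : 0 < Real.sqrt (q.1 ^ 2 + q.2.1 ^ 2) := by positivity
  exact this.ne'

lemma continuousOn_E3 (κ r lam : ℝ) : ContinuousOn (E3 κ r lam) {q | 0 < q.2.1} := by
  have h1 : ContinuousOn (fun q : ℝ × ℝ × ℝ × ℝ => cp r (xc q.1 q.2.1)) {q | 0 < q.2.1} := by
    refine (contDiff_cp r).continuous.comp_continuousOn ?_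
    exact contDiffOn_xc.continuousOn.comp (f := fun q : ℝ × ℝ × ℝ × ℝ => (q.1, q.2.1))
      (by fun_prop) (fun q hq => hq)
  unfold E3
  exact ContinuousOn.mul (by fun_prop) h1

theorem continuousOn_gen_V3 {κ : ℝ} (hκ : 0 < κ) (r lam : ℝ) {g g' : ℝ → ℝ}
    (hg : ∀ s, HasDerivAt g (g' s) s) (cg : ContDiff ℝ (⊤ : ℕ∞) g) (cg' : Continuous g') :
    ContinuousOn (OP.gen κ (pq (V3 κ r lam g) 0 0)) {q | 0 < q.2.1} := by
  have h0 : ContinuousOn (fun q : ℝ × ℝ × ℝ × ℝ => 1 / (q.1 ^ 2 + q.2.1 ^ 2) * (E3 κ r lam q *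
        (g q.2.2.1 * brk κ r lam (OP.sinq q ^ 2) - 4 * OP.sinq q ^ 2 * g' q.2.2.1)))
        {q | 0 < q.2.1} := by
    refine ContinuousOn.mul ?_ ((continuousOn_E3 κ r lam).mul ?_)
    · refine ContinuousOn.div (by fun_prop) (by fun_prop) fun q hq => ?_
      have : (0:ℝ) < q.2.1 := hq
      positivity
    · have hc : Continuous g := cg.continuous
      have hS := continuousOn_sinq
      refine ContinuousOn.sub (ContinuousOn.mul (by fun_prop) ?_)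
        (ContinuousOn.mul (continuousOn_const.mul (hS.pow 2)) (by fun_prop))
      unfold brk
      fun_prop
  exact h0.congr fun q hq => gen_V3 hκ r lam hg cg hq

end Crest.Agent.R162.LBC
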