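import Mathlib
import Crest.Agent.R162.LBC3
import Crest.Agent.R162.LBDefs

/-!
Row 162, node LB-CONTENT, file 4 (helper499): the explicit supersolutions and the upper bounds
* `content_le` : `E[C_τ - C_σ ; A] ≤ 7 E[G_σ ; A, alive]` (on `LBDefs`),
* `small_S`    : the part of the content with `S < c₁` is `O(c₁^{2+q})`.
-/

set_option autoImplicit false
set_option linter.unusedSectionVars false

open MeasureTheory ProbabilityTheory Set Filter
open scoped NNReal ENNReal Topology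

namespace Crest.Agent.R162.LBC

open Crest.Agent.R162.GEN Crest.Agent.R162.OPGen
open FL OP OS Crest.ProbabilityR.Loewner

/-! ### the logistic function -/

/-- `e^L/(e^L + ε)` -/
noncomputable def R0 (ε L : ℝ) : ℝ := Real.exp L / (Real.exp L + ε)
/-- derivative of `R0` -/
noncomputable def R1 (ε L : ℝ) : ℝ := ε * Real.exp L / (Real.exp L + ε) ^ 2
/-- second derivative of `R0` -/
noncomputable def R2 (ε L : ℝ) : ℝ := ε * Real.exp L * (ε - Real.exp L) / (Real.exp L + ε) ^ 3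

section logistic

variable {ε : ℝ} (hε : 0 < ε)

include hε

lemma R0_nonneg (L : ℝ) : 0 ≤ R0 ε L := by unfold R0; positivity
lemma R0_le_one (L : ℝ) : R0 ε L ≤ 1 := by
  unfold R0; rw [div_le_one (by positivity)]; linarith
lemma R1_nonneg (L : ℝ) : 0 ≤ R1 ε L := by unfold R1; positivity
lemma abs_R2_le (L : ℝ) : |R2 ε L| ≤ R1 ε L := by
  unfold R2 R1
  have he := Real.exp_pos L
  set e := Real.exp L
  rw [abs_div, abs_mul, abs_of_pos (by positivity : 0 < ε * e),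
    abs_of_pos (by positivity : 0 < (e + ε) ^ 3), div_le_div_iff₀ (by positivity) (by positivity)]
  have h1 : |ε - e| ≤ e + ε := by rw [abs_le]; constructor <;> linarith
  calc ε * e * |ε - e| * (e + ε) ^ 2 ≤ ε * e * (e + ε) * (e + ε) ^ 2 := by gcongr
    _ = ε * e * (e + ε) ^ 3 := by ring

lemma hasDerivAt_R0 (L : ℝ) : HasDerivAt (R0 ε) (R1 ε L) L := by
  have h1 := Real.hasDerivAt_exp L
  have hne : Real.exp L + ε ≠ 0 := by positivity
  have := h1.div (h1.add_const ε) hne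
  refine this.congr_deriv ?_
  unfold R1
  congr 1
  ring

lemma hasDerivAt_R1 (L : ℝ) : HasDerivAt (R1 ε) (R2 ε L) L := by
  have h1 := Real.hasDerivAt_exp L
  have hne : Real.exp L + ε ≠ 0 := by positivity
  have h2 : HasDerivAt (fun x => (Real.exp x + ε) ^ 2) (2 * (Real.exp L + ε) * Real.exp L) L := by
    have := (h1.add_const ε).fun_pow 2
    simpa using this
  have := (h1.const_mul ε).div h2 (pow_ne_zero 2 hne)
  refine this.congr_deriv ?_
  unfold R2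
  field_simp
  ring

lemma contDiff_R0 : ContDiff ℝ (⊤ : ℕ∞) (R0 ε) := by
  unfold R0
  exact Real.contDiff_exp.div (Real.contDiff_exp.add contDiff_const) fun x => by positivity

lemma contDiff_R1 : ContDiff ℝ (⊤ : ℕ∞) (R1 ε) := by
  unfold R1
  exact (contDiff_const.mul Real.contDiff_exp).div
    ((Real.contDiff_exp.add contDiff_const).pow 2) fun x => by positivity

lemma continuous_R2 : Continuous (R2 ε) := by
  unfold R2
  refine Continuous.div (by fun_prop) (by fun_prop) fun x => by positivity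

/-- on the window the derivative is at least `2/9` -/
lemma R1_ge {L : ℝ} (h1 : 1 ≤ Real.exp L / ε) (h2 : Real.exp L / ε ≤ 2) : 2 / 9 ≤ R1 ε L := by
  unfold R1
  have he := Real.exp_pos L
  rw [le_div_iff₀ hε] at h1
  rw [div_le_iff₀ hε] at h2
  set e := Real.exp L
  rw [div_le_div_iff₀ (by norm_num) (by positivity)]
  nlinarith [mul_nonneg (sub_nonneg.2 h1) (sub_nonneg.2 h2), mul_pos hε hε, mul_pos hε he]

lemma R1_le (L : ℝ) : R1 ε L ≤ ε * Real.exp (-L) := by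
  unfold R1
  have he := Real.exp_pos L
  rw [Real.exp_neg, div_le_iff₀ (by positivity)]
  set e := Real.exp L
  have : ε * e⁻¹ * (e + ε) ^ 2 = ε * (e + 2 * ε + ε ^ 2 * e⁻¹) := by field_simp; ring
  rw [this]
  gcongr
  have : 0 ≤ ε ^ 2 * e⁻¹ := by positivity
  linarith

end logistic

/-! ### the state form of the content rate -/

/-- the content rate of `LBDefs` (`lam = 1`) as a function of the state -/
noncomputable def Hc (κ ε c1 : ℝ) (q : ℝ × ℝ × ℝ × ℝ) : ℝ :=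
  LB.chi (Real.exp q.2.2.1 / ε) * Gq κ q * (if c1 ≤ sinq q then 1 else 0) *
    (4 * sinq q ^ 2 / (q.1 ^ 2 + q.2.1 ^ 2))

lemma ups_pos'' {W : ℝ → ℝ} {s : ℝ} {w : ℂ} (h : Alive W w s) : 0 < ups W s w :=
  mul_pos (gfl_im_pos h) (Real.exp_pos _)

lemma sfl_eq' {W : ℝ → ℝ} {s : ℝ} {w : ℂ} : sfl W s w = sinq (stW W s w) := by
  unfold sfl sinq stW
  rw [Complex.norm_eq_sqrt_sq_add_sq]

lemma norm_sq_eq' {W : ℝ → ℝ} {s : ℝ} {w : ℂ} :
    ‖Zfl W s w‖ ^ 2 = (stW W s w).1 ^ 2 + (stW W s w).2.1 ^ 2 := by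
  rw [stW_fst, stW_Y, ← Complex.normSq_eq_norm_sq, Complex.normSq_apply]; ring

lemma gr_eq {κ : ℝ} {W : ℝ → ℝ} {s : ℝ} {w : ℂ} (h : Alive W w s) :
    gr κ W s w = Gq κ (stW W s w) := by
  unfold gr Gq
  rw [sfl_eq', stW_L]
  congr 1
  rw [Real.rpow_def_of_pos (ups_pos'' h)]
  ring_nf

lemma cd_eq {κ ε c1 : ℝ} {W : ℝ → ℝ} {s : ℝ} {w : ℂ} (h : Alive W w s) :
    LB.cd κ ε c1 1 W s w = Hc κ ε c1 (stW W s w) := by
  have h1 := gr_eq (κ := κ) h
  unfold gr at h1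
  unfold LB.cd Hc
  rw [one_mul, ← h1, ← sfl_eq', ← norm_sq_eq', stW_L, Real.exp_log (ups_pos'' h)]
  ring

lemma Gq_pos (κ : ℝ) {q : ℝ × ℝ × ℝ × ℝ} (hq : 0 < q.2.1) : 0 < Gq κ q := by
  unfold Gq
  have := sinq_pos' hq
  positivity

lemma Hc_nonneg {κ ε c1 : ℝ} {q : ℝ × ℝ × ℝ × ℝ} (hq : 0 < q.2.1) : 0 ≤ Hc κ ε c1 q := by
  unfold Hc
  have h1 := LB.chi_nonneg (Real.exp q.2.2.1 / ε)
  have h2 := Gq_pos κ hq
  have h3 : (0:ℝ) ≤ if c1 ≤ sinq q then (1:ℝ) else 0 := by split_ifs <;> norm_num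
  have h4 := sinq_pos' hq
  have h5 : (0:ℝ) ≤ 4 * sinq q ^ 2 / (q.1 ^ 2 + q.2.1 ^ 2) := by positivity
  positivity

lemma measurable_sinq : Measurable sinq := by
  unfold sinq; fun_prop

lemma measurable_Gq (κ : ℝ) : Measurable (Gq κ) := by
  unfold Gq
  exact (by fun_prop : Measurable fun q : ℝ × ℝ × ℝ × ℝ => Real.exp ((κ / 8 - 1) * q.2.2.1)).mul
    (measurable_sinq.pow_const _)

lemma measurable_Hc (κ ε c1 : ℝ) : Measurable (Hc κ ε c1) := by
  unfold Hc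
  refine Measurable.mul (Measurable.mul (Measurable.mul ?_ (measurable_Gq κ)) ?_) ?_
  · exact LB.measurable_chi.comp (by fun_prop)
  · exact Measurable.ite (measurableSet_le measurable_const measurable_sinq) measurable_const
      measurable_const
  · exact ((measurable_sinq.pow_const 2).const_mul 4).div (by fun_prop)

section prob

universe u

variable {Ω : Type u} {m : MeasurableSpace Ω} {P : Measure Ω} [IsProbabilityMeasure P]
  {Fl : Filtration ℝ≥0 m} {B : ℝ≥0 → Ω → ℝ} {κ : ℝ} {w : ℂ}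

lemma hr_Hc (ε c1 : ℝ) (ω : Ω) (s : ℝ) :
    hr (Hc κ ε c1) κ B w ω s = ENNReal.ofReal (LB.cd κ ε c1 1 (driving κ B ω) s w) := by
  unfold hr
  by_cases h : Alive (driving κ B ω) w s
  · rw [indicator_of_mem (s := {s | Alive (driving κ B ω) w s}) h, cd_eq h]
  · rw [indicator_of_notMem (s := {s | Alive (driving κ B ω) w s}) h, LB.cd_of_dead h,
      ENNReal.ofReal_zero]

/-- the upper function `7 G R0(L)` -/
noncomputable def Fu (κ ε : ℝ) : ℝ × ℝ × ℝ × ℝ → ℝ :=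
  pq (V3 κ (-bb κ) 0 (fun L => 7 * R0 ε L)) 0 0

lemma Fu_eq {ε : ℝ} (hκ : κ ≠ 0) {q : ℝ × ℝ × ℝ × ℝ} (hq : 0 < q.2.1) :
    Fu κ ε q = 7 * R0 ε q.2.2.1 * Gq κ q := by
  unfold Fu
  rw [pq_V3, E3_eq' hκ hq]

lemma log_two_ge : 9 / 14 ≤ Real.log 2 := by
  have := Real.log_two_gt_d9
  linarith

lemma gen_Fu_le {ε c1 : ℝ} (hκ : 0 < κ) (hε : 0 < ε) {q : ℝ × ℝ × ℝ × ℝ} (hq : 0 < q.2.1) :
    gen κ (Fu κ ε) q ≤ - Hc κ ε c1 q := by
  have hg : ∀ s, HasDerivAt (fun L => 7 * R0 ε L) (7 * R1 ε s) s := fun s =>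
    (hasDerivAt_R0 hε s).const_mul 7
  have h := gen_V3 hκ (-bb κ) 0 hg (contDiff_const.mul (contDiff_R0 hε)) hq
  unfold Fu
  rw [h, E3_eq' hκ.ne' hq, brk_b, mul_zero, zero_sub]
  have hG := Gq_pos κ hq
  have hS := sinq_pos' hq
  have hR := R1_nonneg hε q.2.2.1
  have hD : 0 < q.1 ^ 2 + q.2.1 ^ 2 := by positivity
  have key : LB.chi (Real.exp q.2.2.1 / ε) * (if c1 ≤ sinq q then (1:ℝ) else 0)
      ≤ 7 * R1 ε q.2.2.1 := by
    have h1 : (if c1 ≤ sinq q then (1:ℝ) else 0) ≤ 1 := by split_ifs <;> norm_num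
    have h1' : (0:ℝ) ≤ (if c1 ≤ sinq q then (1:ℝ) else 0) := by split_ifs <;> norm_num
    have h2 := LB.chi_nonneg (Real.exp q.2.2.1 / ε)
    by_cases hv : Real.exp q.2.2.1 / ε ∈ Icc (1:ℝ) 2
    · have h3 := R1_ge hε hv.1 hv.2
      rw [LB.chi_of_mem hv] at h2 ⊢
      have h4 : (Real.log 2)⁻¹ ≤ 14 / 9 := by
        rw [inv_le_comm₀ LB.log_two_pos' (by norm_num)]
        have := log_two_ge
        norm_num; linarith
      nlinarith
    · rw [LB.chi_of_not_mem hv, zero_mul]; positivity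
  unfold Hc
  have : LB.chi (Real.exp q.2.2.1 / ε) * Gq κ q * (if c1 ≤ sinq q then (1:ℝ) else 0) *
      (4 * sinq q ^ 2 / (q.1 ^ 2 + q.2.1 ^ 2))
      = (LB.chi (Real.exp q.2.2.1 / ε) * (if c1 ≤ sinq q then (1:ℝ) else 0)) *
        (Gq κ q * (4 * sinq q ^ 2 / (q.1 ^ 2 + q.2.1 ^ 2))) := by ring
  rw [this]
  have e2 : 1 / (q.1 ^ 2 + q.2.1 ^ 2) * (Gq κ q * -(4 * sinq q ^ 2 * (7 * R1 ε q.2.2.1)))
      = -((7 * R1 ε q.2.2.1) * (Gq κ q * (4 * sinq q ^ 2 / (q.1 ^ 2 + q.2.1 ^ 2)))) := by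
    field_simp
  rw [e2, neg_le_neg_iff]
  exact mul_le_mul_of_nonneg_right key (by positivity)

/-- **upper bound for the content** -/
theorem content_le (hM : OPM.{u}) (hB : IsBM Fl B P) (hκ : 0 < κ) (hw : 0 < w.im)
    (hE : Exit Fl κ B w) {ε : ℝ} (hε : 0 < ε) (c1 : ℝ)
    {σ τ : Ω → ℝ≥0} (hσ : IsST Fl σ)
    (hτ : IsST Fl τ) {T : ℝ≥0} (hτT : ∀ ω, τ ω ≤ T) {A : Set Ω} (hA : EvST Fl σ A)
    (hστ : ∀ ω ∈ A, σ ω ≤ τ ω) :
    ∫⁻ ω in A, LB.cz κ ε c1 1 (driving κ B ω) (Ioc (σ ω : ℝ) (τ ω)) w ∂P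
      ≤ ENNReal.ofReal 7 * ∫⁻ ω in A ∩ {ω | AliveP κ B w (σ ω) ω},
        ENNReal.ofReal (gr κ (driving κ B ω) (σ ω) w) ∂P := by
  have hg : ∀ s, HasDerivAt (fun L => 7 * R0 ε L) (7 * R1 ε s) s := fun s =>
    (hasDerivAt_R0 hε s).const_mul 7
  have h := super_int hM hB hκ hw hE (F := Fu κ ε)
    (contDiffOn_pq3 (jet_V3 κ _ 0 hg (contDiff_const.mul (contDiff_R0 hε))) 0 0)
    (fun q hq => by
      rw [Fu_eq hκ.ne' hq]
      have := Gq_pos κ hq
      have := R0_nonneg hε q.2.2.1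
      positivity)
    (continuousOn_gen_V3 hκ _ 0 hg (contDiff_const.mul (contDiff_R0 hε))
      (continuous_const.mul (contDiff_R1 hε).continuous))
    (measurable_Hc κ ε c1) (fun q hq => Hc_nonneg hq) (fun q hq => gen_Fu_le hκ hε hq)
    hσ hτ hτT hA hστ
  have e1 : ∫⁻ ω in A, LB.cz κ ε c1 1 (driving κ B ω) (Ioc (σ ω : ℝ) (τ ω)) w ∂P
      = ∫⁻ ω in A, (∫⁻ s in Ioc (σ ω : ℝ) (τ ω), hr (Hc κ ε c1) κ B w ω s) ∂P := by
    refine lintegral_congr fun ω => ?_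
    unfold LB.cz
    refine lintegral_congr fun s => ?_
    rw [hr_Hc]
  rw [e1]
  refine h.trans ?_
  have hmA : MeasurableSet (A ∩ {ω | AliveP κ B w (σ ω) ω}) := by
    refine hA.measurableSet.inter ?_
    have h2 := meas_alive (cont_driving hB κ) (meas_driving hB κ) w
    exact (measurable_id.prodMk (measurable_coe_nnreal_real.comp hσ.measurable)) h2
  rw [← lintegral_const_mul' _ _ ENNReal.ofReal_ne_top]
  refine setLIntegral_mono' hmA fun ω hω => ?_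
  have ha : Alive (driving κ B ω) w (σ ω) := hω.2
  rw [← ENNReal.ofReal_mul (by norm_num), gr_eq ha]
  refine ENNReal.ofReal_le_ofReal ?_
  have hY := Y_pos ha
  change Fu κ ε (stW (driving κ B ω) (σ ω) w) ≤ _
  rw [Fu_eq hκ.ne' hY]
  have h1 := R0_le_one hε (stW (driving κ B ω) (σ ω) w).2.2.1
  have h2 := Gq_pos κ hY
  nlinarith

end prob

end Crest.Agent.R162.LBC
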