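import Mathlib
import Crest.Agent.R162.OPTr2
import Crest.Agent.R162.LBC1

/-!
Row 162 (helper443 for helper499): the exit-time measurability facts `Exit` of `LBC1`.
-/

set_option autoImplicit false

open MeasureTheory ProbabilityTheory Set Filter
open scoped NNReal ENNReal Topology

namespace Crest.Agent.R162.LBC

open FL OP OS

variable {Ω : Type*} {m : MeasurableSpace Ω} {P : Measure Ω}
  {Fl : Filtration ℝ≥0 m} {B : ℝ≥0 → Ω → ℝ} {κ : ℝ} {w : ℂ}

/-- the two measurability facts on exit times. -/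
theorem exit_ok (hB : IsBM Fl B P) : Exit Fl κ B w where
  st := fun O hO δ hδ hOδ σ hσ T => OPTr.hit_open_isST hB hδ hO hOδ hσ T
  ev := by
    intro O hO δ hδ hOδ σ hσ
    have e : {ω | stP κ B w (σ ω) ω ∈ O} = {ω | AliveP κ B w (σ ω) ω ∧ stP κ B w (σ ω) ω ∈ O} := by
      ext ω
      refine ⟨fun h => ⟨?_, h⟩, fun h => h.2⟩
      exact OPTr.alive_of_Y_pos (lt_of_lt_of_le hδ (hOδ _ h))
    rw [e]
    exact OPTr.evST_alive_mem hB hO.measurableSet hσ

end Crest.Agent.R162.LBC
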