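import Mathlib
import Crest.Agent.R162.LBDefs

/-!
Row 162 (S0243), node LB-NORM (helper917): normalisation at infinity of the state maps.

* `NormInf f`: quantitative hydrodynamic normalisation; `normInf_id`, `normInf_ffl`,
  `NormInf.comp_ffl` (so `NormInf (f ∘ ffl W t)`).
* `NormInf.tendsto_ups_div`, `NormInf.tendsto_apply_div`, `NormInf.tendsto_vv`,
  `NormInf.exists_le_vv` (`θ ≤ v(y)` for `y ≥ y₀`, any `θ < 1`).
* `NormInf.lintegral_Lam_tail_lt_top`: the part of `Λ(f)` over `(a,∞)` is finite.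
* `lintegral_u0_le`, `area_le`: `area ≤ C(η) (R+1)²`.
-/

set_option autoImplicit false

open Set MeasureTheory Complex Filter Topology
open scoped ENNReal

namespace Crest.Agent.R162.LBN

open Crest.Agent.R162.FL
open Crest.Agent.R162.LB

/-- quantitative normalisation at infinity of a state map -/
def NormInf (f : ℂ → ℂ) : Prop :=
  ∃ C Y : ℝ, 0 ≤ C ∧ 1 ≤ Y ∧ ∀ z : ℂ, Y ≤ z.im →
    DifferentiableAt ℂ f z ∧ ‖f z - z‖ ≤ C ∧ ‖deriv f z - 1‖ ≤ C / z.im

lemma normInf_id : NormInf id :=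
  ⟨0, 1, le_rfl, le_rfl, fun z _ => ⟨differentiableAt_id, by simp, by simp⟩⟩

lemma normInf_id' : NormInf (fun z => z) := normInf_id

lemma exp_sub_one_le (x : ℝ) : Real.exp x - 1 ≤ x * Real.exp x := by
  have h := Real.add_one_le_exp (-x)
  have h2 : Real.exp x * Real.exp (-x) = 1 := by rw [← Real.exp_add]; simp
  nlinarith [Real.exp_pos x]

lemma normInf_ffl {W : ℝ → ℝ} {t : ℝ} (hW : ContinuousOn W (Ici 0)) (ht : 0 ≤ t) :
    NormInf (ffl W t) := by
  refine ⟨2 * t + |W t| + 2 * t * Real.exp (2 * t), 1, by positivity, le_rfl, ?_⟩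
  intro z hz1
  have hz : 0 < z.im := by linarith
  refine ⟨(FLC.hasDerivAt_ffl hW ht hz).differentiableAt, ?_, ?_⟩
  · have h1 := FLC.norm_ffl_sub_le hW ht hz
    have h2 : 2 * t / z.im ≤ 2 * t := div_le_self (by positivity) hz1
    have h3 : ffl W t z - z = (ffl W t z - (z + W t)) + (W t : ℂ) := by ring
    have h4 : ‖ffl W t z - z‖ ≤ ‖ffl W t z - (z + W t)‖ + ‖(W t : ℂ)‖ := by
      rw [h3]; exact norm_add_le _ _
    rw [Complex.norm_real, Real.norm_eq_abs] at h4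
    have h5 : 0 ≤ 2 * t * Real.exp (2 * t) := by positivity
    linarith
  · rw [FLC.deriv_ffl hW ht hz]
    refine (FLC.norm_exp_sub_one_le_exp _).trans ?_
    have h1 := FLC.norm_integral_kernel_le hW ht hz hz (left_mem_Icc.2 ht)
    simp only [← sq, sub_zero] at h1
    have h2 : 2 / z.im ^ 2 * t ≤ 2 * t / z.im := by
      rw [div_mul_eq_mul_div, div_le_div_iff₀ (by positivity) hz]
      have : z.im ≤ z.im ^ 2 := by nlinarith
      exact mul_le_mul_of_nonneg_left this (by positivity)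
    have h3 : 2 * t / z.im ≤ 2 * t := div_le_self (by positivity) hz1
    have h4 := exp_sub_one_le (2 * t / z.im)
    have h5 : Real.exp (2 * t / z.im) ≤ Real.exp (2 * t) := Real.exp_le_exp.2 h3
    have h6 := Real.exp_le_exp.2 (h1.trans h2)
    have h7 : 2 * t / z.im * Real.exp (2 * t / z.im) ≤ 2 * t / z.im * Real.exp (2 * t) :=
      mul_le_mul_of_nonneg_left h5 (by positivity)
    have h8 : 2 * t / z.im * Real.exp (2 * t) = 2 * t * Real.exp (2 * t) / z.im := by ring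
    have h9 : 2 * t * Real.exp (2 * t) / z.im ≤
        (2 * t + |W t| + 2 * t * Real.exp (2 * t)) / z.im := by
      apply div_le_div_of_nonneg_right _ hz.le
      have : 0 ≤ 2 * t + |W t| := by positivity
      linarith
    linarith

lemma NormInf.comp {f g : ℂ → ℂ} (hf : NormInf f) (hg : NormInf g)
    (him : ∀ z : ℂ, 0 < z.im → z.im ≤ (g z).im) : NormInf (f ∘ g) := by
  obtain ⟨C, Y, hC, hY, hf⟩ := hf
  obtain ⟨C', Y', hC', hY', hg⟩ := hg
  refine ⟨C + C' + C * C', max Y Y', by positivity, hY.trans (le_max_left _ _), ?_⟩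
  intro z hz
  have hzY : Y ≤ z.im := (le_max_left _ _).trans hz
  have hzY' : Y' ≤ z.im := (le_max_right _ _).trans hz
  have hz1 : 1 ≤ z.im := hY.trans hzY
  have hz0 : 0 < z.im := by linarith
  have hgi := him z hz0
  obtain ⟨a1, a2, a3⟩ := hg z hzY'
  obtain ⟨b1, b2, b3⟩ := hf (g z) (hzY.trans hgi)
  refine ⟨b1.comp z a1, ?_, ?_⟩
  · have e : (f ∘ g) z - z = (f (g z) - g z) + (g z - z) := by simp
    rw [e]
    refine (norm_add_le _ _).trans ?_
    have : 0 ≤ C * C' := by positivity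
    linarith
  · rw [deriv_comp z b1 a1]
    have e : deriv f (g z) * deriv g z - 1 =
        (deriv f (g z) - 1) * (deriv g z - 1) + (deriv f (g z) - 1) + (deriv g z - 1) := by ring
    rw [e]
    have b4 : ‖deriv f (g z) - 1‖ ≤ C / z.im :=
      b3.trans (div_le_div_of_nonneg_left hC hz0 hgi)
    have a4 : ‖deriv g z - 1‖ ≤ C' := a3.trans (div_le_self hC' hz1)
    have h1 : ‖(deriv f (g z) - 1) * (deriv g z - 1)‖ ≤ C / z.im * C' := by
      rw [norm_mul]
      exact mul_le_mul b4 a4 (norm_nonneg _) (by positivity)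
    have h2 := norm_add_le ((deriv f (g z) - 1) * (deriv g z - 1) + (deriv f (g z) - 1))
      (deriv g z - 1)
    have h3 := norm_add_le ((deriv f (g z) - 1) * (deriv g z - 1)) (deriv f (g z) - 1)
    have h4 : (C + C' + C * C') / z.im = C / z.im * C' + C / z.im + C' / z.im := by ring
    rw [h4]
    linarith

/-- the normalisation is preserved by one more step of the flow -/
lemma NormInf.comp_ffl {f : ℂ → ℂ} (hf : NormInf f) {W : ℝ → ℝ} {t : ℝ}
    (hW : ContinuousOn W (Ici 0)) (ht : 0 ≤ t) : NormInf (f ∘ ffl W t) :=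
  hf.comp (normInf_ffl hW ht) fun _ hz => FLC.im_le_ffl hW ht hz

lemma NormInf.st {f : ℂ → ℂ} (hf : NormInf f) {W : ℝ → ℝ} {t : ℝ}
    (hW : ContinuousOn W (Ici 0)) (ht : 0 ≤ t) : NormInf (Par.st f W t) :=
  hf.comp_ffl hW ht

lemma ofReal_mul_I_im (y : ℝ) : ((y : ℂ) * I).im = y := by simp

/-- uniform version on the imaginary axis -/
lemma NormInf.exists_bound {f : ℂ → ℂ} (hf : NormInf f) :
    ∃ C Y : ℝ, 0 ≤ C ∧ 1 ≤ Y ∧ ∀ y : ℝ, Y ≤ y →
      ‖f (y * I) - y * I‖ ≤ C ∧ |KB1.ups f (y * I) - y| ≤ C := by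
  obtain ⟨C, Y, hC, hY, h⟩ := hf
  refine ⟨C, Y, hC, hY, fun y hy => ?_⟩
  obtain ⟨-, h2, h3⟩ := h (y * I) (by rw [ofReal_mul_I_im]; exact hy)
  have hy0 : 0 < y := by linarith
  refine ⟨h2, ?_⟩
  rw [ofReal_mul_I_im] at h3
  rw [KB1.ups, ofReal_mul_I_im]
  have h4 : |‖deriv f (y * I)‖ - 1| ≤ C / y := by
    have := abs_norm_sub_norm_le (deriv f (y * I)) 1
    rw [norm_one] at this
    exact this.trans h3
  have h5 : y * ‖deriv f (y * I)‖ - y = y * (‖deriv f (y * I)‖ - 1) := by ring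
  rw [h5, abs_mul, abs_of_pos hy0]
  calc y * |‖deriv f (y * I)‖ - 1| ≤ y * (C / y) := mul_le_mul_of_nonneg_left h4 hy0.le
    _ = C := by field_simp

lemma tendsto_const_div_atTop (C : ℝ) : Tendsto (fun y : ℝ => C / y) atTop (𝓝 0) :=
  tendsto_const_nhds.div_atTop tendsto_id

/-- `Υ_f(iy)/y → 1` -/
theorem NormInf.tendsto_ups_div {f : ℂ → ℂ} (hf : NormInf f) :
    Tendsto (fun y : ℝ => KB1.ups f (y * I) / y) atTop (𝓝 1) := by
  obtain ⟨C, Y, hC, hY, h⟩ := hf.exists_bound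
  rw [tendsto_iff_dist_tendsto_zero]
  refine squeeze_zero' (Eventually.of_forall fun _ => dist_nonneg) ?_ (tendsto_const_div_atTop C)
  filter_upwards [eventually_ge_atTop Y] with y hy
  have hy0 : 0 < y := by linarith
  rw [Real.dist_eq]
  have e : KB1.ups f (y * I) / y - 1 = (KB1.ups f (y * I) - y) / y := by field_simp
  rw [e, abs_div, abs_of_pos hy0]
  exact div_le_div_of_nonneg_right (h y hy).2 hy0.le

/-- `f(iy)/(iy) → 1` -/
theorem NormInf.tendsto_apply_div {f : ℂ → ℂ} (hf : NormInf f) :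
    Tendsto (fun y : ℝ => f (y * I) / (y * I)) atTop (𝓝 1) := by
  obtain ⟨C, Y, hC, hY, h⟩ := hf.exists_bound
  rw [tendsto_iff_dist_tendsto_zero]
  refine squeeze_zero' (Eventually.of_forall fun _ => dist_nonneg) ?_ (tendsto_const_div_atTop C)
  filter_upwards [eventually_ge_atTop Y] with y hy
  have hy0 : 0 < y := by linarith
  have hne : (y : ℂ) * I ≠ 0 := mul_ne_zero (by exact_mod_cast hy0.ne') I_ne_zero
  rw [dist_eq_norm]
  have e : f (y * I) / (y * I) - 1 = (f (y * I) - y * I) / (y * I) := by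
    rw [sub_div, div_self hne]
  rw [e, norm_div, norm_mul, Complex.norm_I, mul_one, Complex.norm_real, Real.norm_eq_abs,
    abs_of_pos hy0]
  exact div_le_div_of_nonneg_right (h y hy).1 hy0.le

/-- lower bound `θ ≤ v(y)` near infinity for an abstract `u₀ ≤ max 1 (dist · w)` -/
theorem NormInf.exists_le_vv {f : ℂ → ℂ} (hf : NormInf f) {u0 : ℂ → ℝ} (h1 : ∀ z, 1 ≤ u0 z)
    {w : ℂ} (hle : ∀ z, u0 z ≤ max 1 (dist z w)) {θ : ℝ} (hθ : θ < 1) :
    ∃ y0 : ℝ, 1 ≤ y0 ∧ ∀ y : ℝ, y0 ≤ y → θ ≤ vv u0 f y := by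
  obtain ⟨C, Y, hC, hY, h⟩ := hf.exists_bound
  have hn : 0 ≤ ‖w‖ := norm_nonneg w
  refine ⟨max (max Y (C + 1)) ((2 * C + 1 + ‖w‖) / (1 - θ)), ?_, ?_⟩
  · exact hY.trans ((le_max_left _ _).trans (le_max_left _ _))
  intro y hy
  have hyY : Y ≤ y := ((le_max_left _ _).trans (le_max_left _ _)).trans hy
  have hyC : C + 1 ≤ y := ((le_max_right _ _).trans (le_max_left _ _)).trans hy
  have hyD : (2 * C + 1 + ‖w‖) / (1 - θ) ≤ y := (le_max_right _ _).trans hy
  have hy0 : 0 < y := by linarith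
  have h1θ : 0 < 1 - θ := by linarith
  rw [div_le_iff₀ h1θ] at hyD
  obtain ⟨b1, b2⟩ := h y hyY
  have hups : y - C ≤ KB1.ups f (y * I) := by
    have := (abs_le.1 b2).1
    linarith
  have hu : u0 (f (y * I)) ≤ y + C + ‖w‖ := by
    refine (hle _).trans (max_le (by linarith) ?_)
    rw [dist_eq_norm]
    have e : f (y * I) - w = (f (y * I) - y * I) + (y * I) - w := by ring
    rw [e]
    have t1 := norm_sub_le (f (y * I) - y * I + y * I) w
    have t2 := norm_add_le (f (y * I) - y * I) ((y : ℂ) * I)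
    have t3 : ‖(y : ℂ) * I‖ = y := by
      rw [norm_mul, Complex.norm_I, mul_one, Complex.norm_real, Real.norm_eq_abs, abs_of_pos hy0]
    linarith
  have hu0 : 0 < u0 (f (y * I)) := by linarith [h1 (f (y * I))]
  rw [vv, le_div_iff₀ hu0]
  rcases le_or_gt θ 0 with h0 | h0
  · have : θ * u0 (f (y * I)) ≤ 0 := mul_nonpos_of_nonpos_of_nonneg h0 hu0.le
    linarith
  · have t4 : θ * u0 (f (y * I)) ≤ θ * (y + C + ‖w‖) := mul_le_mul_of_nonneg_left hu h0.le
    have t5 : θ * (C + ‖w‖) ≤ C + ‖w‖ := by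
      have : 0 ≤ C + ‖w‖ := by positivity
      nlinarith
    nlinarith

/-- the state functional `y_x` is finite: it lies in `[0, y₀]` and its defining set is nonempty -/
theorem NormInf.yx_set_nonempty {f : ℂ → ℂ} (hf : NormInf f) {u0 : ℂ → ℝ} (h1 : ∀ z, 1 ≤ u0 z)
    {w : ℂ} (hle : ∀ z, u0 z ≤ max 1 (dist z w)) {θ : ℝ} (hθ : θ < 1) (q K3 : ℝ) :
    {y : ℝ | 0 < y ∧ (θ ≤ vv u0 f y ∨ ENNReal.ofReal K3 ≤ Jv u0 q f y)}.Nonempty := by
  obtain ⟨y0, hy0, h⟩ := hf.exists_le_vv h1 hle hθ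
  exact ⟨y0, by linarith, Or.inl (h y0 le_rfl)⟩

lemma abs_u0_sub_le {f : ℂ → ℂ} {C Y : ℝ} (w0 : ℂ) (R : ℝ)
    (h : ∀ y : ℝ, Y ≤ y → ‖f (y * I) - y * I‖ ≤ C) {y : ℝ} (hy : Y ≤ y)
    (hy2 : 1 + C + ‖w0‖ + |R| ≤ y) :
    |max 1 (‖f (y * I) - w0‖ - R) - y| ≤ C + ‖w0‖ + |R| := by
  have hC : 0 ≤ C := (norm_nonneg _).trans (h y hy)
  have hn : 0 ≤ ‖w0‖ := norm_nonneg w0
  have hR := abs_nonneg R
  have hy0 : 0 < y := by linarith
  have t3 : ‖(y : ℂ) * I‖ = y := by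
    rw [norm_mul, Complex.norm_I, mul_one, Complex.norm_real, Real.norm_eq_abs, abs_of_pos hy0]
  have t1 : |‖f (y * I) - w0‖ - y| ≤ C + ‖w0‖ := by
    have := abs_norm_sub_norm_le (f (y * I) - w0) ((y : ℂ) * I)
    rw [t3] at this
    refine this.trans ?_
    have e : f (y * I) - w0 - y * I = (f (y * I) - y * I) - w0 := by ring
    rw [e]
    exact (norm_sub_le _ _).trans (by linarith [h y hy])
  have t2 := abs_le.1 t1
  have t4 := abs_le.1 (le_refl |R|)
  rw [abs_le]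
  constructor
  · have := le_max_right 1 (‖f (y * I) - w0‖ - R)
    linarith
  · have : max 1 (‖f (y * I) - w0‖ - R) ≤ y + (C + ‖w0‖ + |R|) :=
      max_le (by linarith) (by linarith)
    linarith

/-- `u₀(f(iy))/y → 1` for `u₀ = max 1 (‖· - w₀‖ - R)` -/
theorem NormInf.tendsto_u0_div {f : ℂ → ℂ} (hf : NormInf f) (w0 : ℂ) (R : ℝ) :
    Tendsto (fun y : ℝ => max 1 (‖f (y * I) - w0‖ - R) / y) atTop (𝓝 1) := by
  obtain ⟨C, Y, hC, hY, h⟩ := hf.exists_bound
  rw [tendsto_iff_dist_tendsto_zero]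
  refine squeeze_zero' (Eventually.of_forall fun _ => dist_nonneg) ?_
    (tendsto_const_div_atTop (C + ‖w0‖ + |R|))
  filter_upwards [eventually_ge_atTop Y, eventually_ge_atTop (1 + C + ‖w0‖ + |R|)] with y hy hy2
  have hy0 : 0 < y := by linarith
  rw [Real.dist_eq]
  have e : max 1 (‖f (y * I) - w0‖ - R) / y - 1 = (max 1 (‖f (y * I) - w0‖ - R) - y) / y := by
    field_simp
  rw [e, abs_div, abs_of_pos hy0]
  exact div_le_div_of_nonneg_right (abs_u0_sub_le w0 R (fun y hy => (h y hy).1) hy hy2) hy0.le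

/-- `v(y) → 1` for `u₀ = max 1 (‖· - w₀‖ - R)` -/
theorem NormInf.tendsto_vv {f : ℂ → ℂ} (hf : NormInf f) (w0 : ℂ) (R : ℝ) :
    Tendsto (fun y : ℝ => vv (fun p => max 1 (‖p - w0‖ - R)) f y) atTop (𝓝 1) := by
  have h := hf.tendsto_ups_div.div (hf.tendsto_u0_div w0 R) one_ne_zero
  rw [div_one] at h
  refine h.congr' ?_
  filter_upwards [eventually_gt_atTop 0] with y hy
  simp only [vv, Pi.div_apply]
  have h1 : (1:ℝ) ≤ max 1 (‖f (y * I) - w0‖ - R) := le_max_left _ _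
  have h2 : (0:ℝ) < max 1 (‖f (y * I) - w0‖ - R) := by linarith
  field_simp

/-! ### the tail of `Λ` -/

lemma mm_ge_one {u0 : ℂ → ℝ} (h1 : ∀ z, 1 ≤ u0 z) (f : ℂ → ℂ) (z : ℂ) : 1 ≤ mm u0 f z :=
  (h1 _).trans (le_max_right _ _)

lemma ups_nonneg (f : ℂ → ℂ) {y : ℝ} (hy : 0 ≤ y) : 0 ≤ KB1.ups f (y * I) := by
  rw [KB1.ups, ofReal_mul_I_im]; positivity

/-- `Ψ(iy) ≤ m^{-η}` -/
lemma Psi_le {u0 : ℂ → ℝ} (h1 : ∀ z, 1 ≤ u0 z) {q η : ℝ} (hq : 0 ≤ q) (f : ℂ → ℂ) {y : ℝ}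
    (hy : 0 ≤ y) : Psi u0 q η f (y * I) ≤ mm u0 f (y * I) ^ (-η) := by
  have hm := mm_ge_one h1 f (y * I)
  have hm0 : 0 < mm u0 f (y * I) := by linarith
  have h2 : KB1.ups f (y * I) ^ q ≤ mm u0 f (y * I) ^ q :=
    Real.rpow_le_rpow (ups_nonneg f hy) (le_max_left _ _) hq
  calc Psi u0 q η f (y * I) = KB1.ups f (y * I) ^ q * mm u0 f (y * I) ^ (-q - η) := rfl
    _ ≤ mm u0 f (y * I) ^ q * mm u0 f (y * I) ^ (-q - η) :=
        mul_le_mul_of_nonneg_right h2 (Real.rpow_nonneg hm0.le _)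
    _ = mm u0 f (y * I) ^ (-η) := by
        rw [← Real.rpow_add hm0]; congr 1; ring

lemma Psi_le_one {u0 : ℂ → ℝ} (h1 : ∀ z, 1 ≤ u0 z) {q η : ℝ} (hq : 0 ≤ q) (hη : 0 ≤ η)
    (f : ℂ → ℂ) {y : ℝ} (hy : 0 ≤ y) : Psi u0 q η f (y * I) ≤ 1 :=
  (Psi_le h1 hq f hy).trans
    (Real.rpow_le_one_of_one_le_of_nonpos (mm_ge_one h1 f _) (by linarith))

lemma lintegral_rpow_tail {c s : ℝ} (hc : 0 < c) (hs : s < -1) :
    ∫⁻ y in Ioi c, ENNReal.ofReal (y ^ s) = ENNReal.ofReal (-c ^ (s + 1) / (s + 1)) := by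
  rw [← integral_Ioi_rpow_of_lt hs hc,
    ofReal_integral_eq_lintegral_ofReal (integrableOn_Ioi_rpow_of_lt hs hc)]
  filter_upwards [ae_restrict_mem measurableSet_Ioi] with y hy
  exact Real.rpow_nonneg (hc.le.trans (le_of_lt hy)) _

/-- **the part of `Λ(f)` over `(a, ∞)` is finite**, any `a > 0` -/
theorem NormInf.lintegral_Lam_tail_lt_top {f : ℂ → ℂ} (hf : NormInf f) {u0 : ℂ → ℝ}
    (h1 : ∀ z, 1 ≤ u0 z) {q η : ℝ} (hq : 0 ≤ q) (hη : 0 < η) {a : ℝ} (ha : 0 < a) :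
    ∫⁻ y in Ioi a, ENNReal.ofReal (Psi u0 q η f (y * I) / y) < ∞ := by
  obtain ⟨C, Y, hC, hY, h⟩ := hf.exists_bound
  set b : ℝ := max (max Y (2 * C)) a with hb
  have hbY : Y ≤ b := (le_max_left _ _).trans (le_max_left _ _)
  have hbC : 2 * C ≤ b := (le_max_right _ _).trans (le_max_left _ _)
  have hba : a ≤ b := le_max_right _ _
  have hb0 : 0 < b := by linarith
  have hsplit : Ioi a = Ioc a b ∪ Ioi b := (Ioc_union_Ioi_eq_Ioi hba).symm
  rw [hsplit]
  refine (lintegral_union_le _ _ _).trans_lt (ENNReal.add_lt_top.2 ⟨?_, ?_⟩)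
  · calc ∫⁻ y in Ioc a b, ENNReal.ofReal (Psi u0 q η f (y * I) / y)
        ≤ ∫⁻ _ in Ioc a b, ENNReal.ofReal (1 / a) := by
          refine setLIntegral_mono measurable_const fun y hy => ?_
          apply ENNReal.ofReal_le_ofReal
          have hy0 : 0 < y := ha.trans hy.1
          exact div_le_div₀ zero_le_one (Psi_le_one h1 hq hη.le f hy0.le) ha hy.1.le
      _ < ∞ := by
          rw [setLIntegral_const]
          exact ENNReal.mul_lt_top ENNReal.ofReal_lt_top measure_Ioc_lt_top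
  · calc ∫⁻ y in Ioi b, ENNReal.ofReal (Psi u0 q η f (y * I) / y)
        ≤ ∫⁻ y in Ioi b, ENNReal.ofReal ((2:ℝ) ^ η * y ^ (-η - 1)) := by
          refine setLIntegral_mono (by fun_prop) fun y hy => ?_
          apply ENNReal.ofReal_le_ofReal
          have hyb : b < y := hy
          have hy0 : 0 < y := hb0.trans hyb
          have h2 := (abs_le.1 (h y (hbY.trans hyb.le)).2).1
          have h3 : y / 2 ≤ mm u0 f (y * I) := by
            refine le_trans ?_ (le_max_left _ _)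
            linarith
          have h4 : mm u0 f (y * I) ^ (-η) ≤ (y / 2) ^ (-η) :=
            Real.rpow_le_rpow_of_nonpos (by positivity) h3 (by linarith)
          have h5 : (y / 2) ^ (-η) = (2:ℝ) ^ η * y ^ (-η) := by
            rw [Real.div_rpow hy0.le (by norm_num), Real.rpow_neg (by norm_num : (0:ℝ) ≤ 2)]
            field_simp
          have h6 : y ^ (-η - 1) = y ^ (-η) / y := by
            rw [Real.rpow_sub_one hy0.ne']
          rw [h6, ← mul_div_assoc, ← h5]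
          exact div_le_div_of_nonneg_right ((Psi_le h1 hq f hy0.le).trans h4) hy0.le
      _ = ENNReal.ofReal ((2:ℝ) ^ η) * ∫⁻ y in Ioi b, ENNReal.ofReal (y ^ (-η - 1)) := by
          rw [← lintegral_const_mul _ (by fun_prop)]
          congr 1
          funext y
          rw [ENNReal.ofReal_mul (by positivity)]
      _ < ∞ := by
          rw [lintegral_rpow_tail hb0 (by linarith)]
          exact ENNReal.mul_lt_top ENNReal.ofReal_lt_top ENNReal.ofReal_lt_top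

/-- `Λ(f) < ∞` as soon as the part near `0` is finite -/
theorem NormInf.Lam_lt_top {f : ℂ → ℂ} (hf : NormInf f) {u0 : ℂ → ℝ}
    (h1 : ∀ z, 1 ≤ u0 z) {q η : ℝ} (hq : 0 ≤ q) (hη : 0 < η) {a : ℝ} (ha : 0 < a)
    (h0 : ∫⁻ y in Ioc 0 a, ENNReal.ofReal (Psi u0 q η f (y * I) / y) < ∞) :
    Lam u0 q η f < ∞ := by
  rw [Lam, ← Ioc_union_Ioi_eq_Ioi ha.le]
  exact (lintegral_union_le _ _ _).trans_lt
    (ENNReal.add_lt_top.2 ⟨h0, hf.lintegral_Lam_tail_lt_top h1 hq hη ha⟩)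

/-- the initial value of the potential: `Λ(id) ≤ 1/q + 1/η` -/
theorem Lam_id_le {u0 : ℂ → ℝ} (h1 : ∀ z, 1 ≤ u0 z) {q η : ℝ} (hq : 0 < q) (hη : 0 < η) :
    Lam u0 q η (fun z => z) ≤ ENNReal.ofReal (1 / q + 1 / η) := by
  have hups : ∀ y : ℝ, KB1.ups (fun z => z) (y * I) = y := by
    intro y
    rw [KB1.ups, ofReal_mul_I_im]
    simp
  rw [Lam, ← Ioc_union_Ioi_eq_Ioi (zero_le_one' ℝ), ENNReal.ofReal_add (by positivity)
    (by positivity)]
  refine (lintegral_union_le _ _ _).trans (add_le_add ?_ ?_)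
  · calc ∫⁻ y in Ioc (0:ℝ) 1, ENNReal.ofReal (Psi u0 q η (fun z => z) (y * I) / y)
        ≤ ∫⁻ y in Ioc (0:ℝ) 1, ENNReal.ofReal (y ^ (q - 1)) := by
          refine setLIntegral_mono (by fun_prop) fun y hy => ?_
          apply ENNReal.ofReal_le_ofReal
          have hy0 : 0 < y := hy.1
          rw [Real.rpow_sub_one hy0.ne']
          refine div_le_div_of_nonneg_right ?_ hy0.le
          have h2 : mm u0 (fun z => z) (y * I) ^ (-q - η) ≤ 1 :=
            Real.rpow_le_one_of_one_le_of_nonpos (mm_ge_one h1 _ _) (by linarith)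
          calc Psi u0 q η (fun z => z) (y * I)
              = y ^ q * mm u0 (fun z => z) (y * I) ^ (-q - η) := by rw [Psi, hups]
            _ ≤ y ^ q * 1 := mul_le_mul_of_nonneg_left h2 (Real.rpow_nonneg hy0.le _)
            _ = y ^ q := mul_one _
      _ = ENNReal.ofReal (1 / q) := by
          have hi : IntegrableOn (fun y : ℝ => y ^ (q - 1)) (Ioc 0 1) volume := by
            have := (intervalIntegral.intervalIntegrable_rpow' (a := 0) (b := 1)
              (r := q - 1) (by linarith))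
            rwa [intervalIntegrable_iff_integrableOn_Ioc_of_le zero_le_one] at this
          rw [← ofReal_integral_eq_lintegral_ofReal hi]
          · congr 1
            rw [← intervalIntegral.integral_of_le zero_le_one,
              integral_rpow (Or.inl (by linarith))]
            simp [Real.zero_rpow hq.ne']
          · filter_upwards [ae_restrict_mem measurableSet_Ioc] with y hy
            exact Real.rpow_nonneg hy.1.le _
  · calc ∫⁻ y in Ioi (1:ℝ), ENNReal.ofReal (Psi u0 q η (fun z => z) (y * I) / y)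
        ≤ ∫⁻ y in Ioi (1:ℝ), ENNReal.ofReal (y ^ (-η - 1)) := by
          refine setLIntegral_mono (by fun_prop) fun y hy => ?_
          apply ENNReal.ofReal_le_ofReal
          have hy0 : 0 < y := zero_lt_one.trans hy
          rw [Real.rpow_sub_one hy0.ne']
          refine div_le_div_of_nonneg_right ?_ hy0.le
          refine (Psi_le h1 hq.le _ hy0.le).trans ?_
          refine Real.rpow_le_rpow_of_nonpos hy0 ?_ (by linarith)
          refine le_trans ?_ (le_max_left _ _)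
          rw [hups]
      _ = ENNReal.ofReal (1 / η) := by
          rw [lintegral_rpow_tail one_pos (by linarith)]
          congr 1
          simp

/-! ### the area -/

lemma u0_lower (w0 : ℂ) {R : ℝ} (hR : 0 ≤ R) (w : ℂ) :
    (1 + ‖(R + 1)⁻¹ • (w - w0)‖) / 2 ≤ max 1 (‖w - w0‖ - R) := by
  have hL : 0 < R + 1 := by linarith
  have e : ‖(R + 1)⁻¹ • (w - w0)‖ = ‖w - w0‖ / (R + 1) := by
    rw [norm_smul, Real.norm_eq_abs, abs_of_pos (by positivity)]
    field_simp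
  rw [e]
  rcases le_or_gt ‖w - w0‖ (R + 1) with h | h
  · have : ‖w - w0‖ / (R + 1) ≤ 1 := (div_le_one hL).2 h
    exact le_trans (by linarith) (le_max_left _ _)
  · refine le_trans ?_ (le_max_right _ _)
    have h2 : ‖w - w0‖ / (R + 1) ≤ ‖w - w0‖ - R := by
      rw [div_le_iff₀ hL]
      nlinarith
    have h3 : 1 ≤ ‖w - w0‖ - R := by linarith
    linarith

/-- the constant of the area bound -/
noncomputable def Carea (η : ℝ) : ℝ≥0∞ :=
  ENNReal.ofReal ((2:ℝ) ^ (2 + η)) * ∫⁻ v : ℂ, ENNReal.ofReal ((1 + ‖v‖) ^ (-(2 + η)))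

lemma Carea_lt_top {η : ℝ} (hη : 0 < η) : Carea η < ∞ := by
  refine ENNReal.mul_lt_top ENNReal.ofReal_lt_top ?_
  apply finite_integral_one_add_norm
  rw [Complex.finrank_real_complex]
  push_cast
  linarith

lemma lintegral_scaled (w0 : ℂ) {L : ℝ} (hL : 0 < L) {g : ℂ → ℝ≥0∞} (hg : Measurable g) :
    ∫⁻ w : ℂ, g (L⁻¹ • (w - w0)) = ENNReal.ofReal (L ^ 2) * ∫⁻ v : ℂ, g v := by
  have h1 : ∫⁻ w : ℂ, g (L⁻¹ • (w - w0)) = ∫⁻ w : ℂ, g (L⁻¹ • w) :=
    lintegral_sub_right_eq_self (fun w => g (L⁻¹ • w)) w0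
  rw [h1]
  have h2 := Measure.map_addHaar_smul (volume : Measure ℂ) (r := L⁻¹) (inv_pos.2 hL).ne'
  have h3 : ∫⁻ v, g v ∂(Measure.map (fun w : ℂ => L⁻¹ • w) volume) = ∫⁻ w : ℂ, g (L⁻¹ • w) :=
    lintegral_map hg (measurable_const_smul _)
  rw [← h3]
  have h4 : Measure.map (fun w : ℂ => L⁻¹ • w) volume =
      ENNReal.ofReal |((L⁻¹) ^ Module.finrank ℝ ℂ)⁻¹| • (volume : Measure ℂ) := h2
  rw [h4, lintegral_smul_measure, Complex.finrank_real_complex, smul_eq_mul]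
  congr 2
  rw [inv_pow, inv_inv, abs_of_nonneg (by positivity)]

/-- `∫_ℂ u₀^{-2-η} ≤ C(η) (R+1)²` for `u₀ = max 1 (‖· - w₀‖ - R)` -/
theorem lintegral_u0_le (w0 : ℂ) {R η : ℝ} (hR : 0 ≤ R) (hη : 0 ≤ η) :
    ∫⁻ w : ℂ, ENNReal.ofReal ((max 1 (‖w - w0‖ - R)) ^ (-2 - η)) ≤
      Carea η * ENNReal.ofReal ((R + 1) ^ 2) := by
  have hL : 0 < R + 1 := by linarith
  calc ∫⁻ w : ℂ, ENNReal.ofReal ((max 1 (‖w - w0‖ - R)) ^ (-2 - η))
      ≤ ∫⁻ w : ℂ, ENNReal.ofReal ((2:ℝ) ^ (2 + η)) *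
          ENNReal.ofReal ((1 + ‖(R + 1)⁻¹ • (w - w0)‖) ^ (-(2 + η))) := by
        refine lintegral_mono fun w => ?_
        rw [← ENNReal.ofReal_mul (by positivity)]
        apply ENNReal.ofReal_le_ofReal
        have h1 := u0_lower w0 hR w
        have hp : 0 < (1 + ‖(R + 1)⁻¹ • (w - w0)‖) / 2 := by positivity
        have h2 := Real.rpow_le_rpow_of_nonpos hp h1 (z := -2 - η) (by linarith)
        refine h2.trans (le_of_eq ?_)
        rw [Real.div_rpow (by positivity) (by norm_num), show (-2 - η) = -(2 + η) by ring,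
          Real.rpow_neg (by norm_num : (0:ℝ) ≤ 2)]
        field_simp
    _ = ENNReal.ofReal ((2:ℝ) ^ (2 + η)) *
          ∫⁻ w : ℂ, ENNReal.ofReal ((1 + ‖(R + 1)⁻¹ • (w - w0)‖) ^ (-(2 + η))) := by
        rw [lintegral_const_mul _ (by fun_prop)]
    _ = ENNReal.ofReal ((2:ℝ) ^ (2 + η)) * (ENNReal.ofReal ((R + 1) ^ 2) *
          ∫⁻ v : ℂ, ENNReal.ofReal ((1 + ‖v‖) ^ (-(2 + η)))) := by
        rw [lintegral_scaled w0 hL (g := fun v => ENNReal.ofReal ((1 + ‖v‖) ^ (-(2 + η))))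
          (by fun_prop)]
    _ = Carea η * ENNReal.ofReal ((R + 1) ^ 2) := by
        rw [Carea]; ring

/-- **the area functional is `≤ C(η) (R+1)²`** -/
theorem area_le {u0 : ℂ → ℝ} (w0 : ℂ) {R η : ℝ} (hR : 0 ≤ R) (hη : 0 ≤ η)
    (hu : ∀ p, u0 p = max 1 (‖p - w0‖ - R)) (θ1 : ℝ) (f : ℂ → ℂ) :
    area u0 η θ1 f ≤ Carea η * ENNReal.ofReal ((R + 1) ^ 2) := by
  refine (setLIntegral_le_lintegral _ _).trans ?_
  simp only [hu]
  exact lintegral_u0_le w0 hR hη

/-- `area ≤ C N` with `R = √N ≥ 1` -/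
theorem area_le_mul {u0 : ℂ → ℝ} (w0 : ℂ) {N η : ℝ} (hN : 1 ≤ N) (hη : 0 ≤ η)
    (hu : ∀ p, u0 p = max 1 (‖p - w0‖ - Real.sqrt N)) (θ1 : ℝ) (f : ℂ → ℂ) :
    area u0 η θ1 f ≤ 4 * Carea η * ENNReal.ofReal N := by
  refine (area_le w0 (Real.sqrt_nonneg N) hη hu θ1 f).trans ?_
  have h1 : 1 ≤ Real.sqrt N := Real.one_le_sqrt.2 hN
  have h2 : Real.sqrt N ^ 2 = N := Real.sq_sqrt (by linarith)
  have h3 : (Real.sqrt N + 1) ^ 2 ≤ 4 * N := by nlinarith
  have h4 : ENNReal.ofReal ((Real.sqrt N + 1) ^ 2) ≤ 4 * ENNReal.ofReal N := by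
    refine (ENNReal.ofReal_le_ofReal h3).trans (le_of_eq ?_)
    rw [ENNReal.ofReal_mul (by norm_num)]
    simp
  calc Carea η * ENNReal.ofReal ((Real.sqrt N + 1) ^ 2)
      ≤ Carea η * (4 * ENNReal.ofReal N) := by gcongr
    _ = 4 * Carea η * ENNReal.ofReal N := by ring

/-- real form of the area bound: one finite constant for all `N ≥ 1`, all centres, all state maps -/
theorem exists_area_le {η : ℝ} (hη : 0 < η) :
    ∃ C : ℝ, 0 < C ∧ ∀ (N : ℝ) (w0 : ℂ) (u0 : ℂ → ℝ) (θ1 : ℝ) (f : ℂ → ℂ), 1 ≤ N →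
      (∀ p, u0 p = max 1 (‖p - w0‖ - Real.sqrt N)) →
      area u0 η θ1 f ≤ ENNReal.ofReal (C * N) := by
  refine ⟨4 * (Carea η).toReal + 1, by positivity, ?_⟩
  intro N w0 u0 θ1 f hN hu
  refine (area_le_mul w0 hN hη.le hu θ1 f).trans ?_
  have h1 : Carea η = ENNReal.ofReal (Carea η).toReal :=
    (ENNReal.ofReal_toReal (Carea_lt_top hη).ne).symm
  rw [ENNReal.ofReal_mul (by positivity)]
  refine mul_le_mul_left ?_ _
  calc 4 * Carea η = ENNReal.ofReal (4 * (Carea η).toReal) := by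
        rw [ENNReal.ofReal_mul (by norm_num), ← h1]; simp
    _ ≤ _ := ENNReal.ofReal_le_ofReal (by linarith)

/-! ### the concrete `u₀` is admissible -/

lemma u0_lip (w0 : ℂ) (R : ℝ) : LipschitzWith 1 (fun p : ℂ => max 1 (‖p - w0‖ - R)) := by
  apply LipschitzWith.of_dist_le_mul
  intro x y
  rw [NNReal.coe_one, one_mul, Real.dist_eq, max_comm 1 (‖x - w0‖ - R),
    max_comm 1 (‖y - w0‖ - R)]
  have h1 := abs_max_sub_max_le_abs (‖x - w0‖ - R) (‖y - w0‖ - R) 1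
  have h2 := abs_norm_sub_norm_le (x - w0) (y - w0)
  rw [sub_sub_sub_cancel_right] at h1 h2
  rw [dist_eq_norm]
  exact h1.trans h2

lemma u0_le_dist (w0 : ℂ) {R : ℝ} {w : ℂ} (hw : w ∈ Metric.closedBall w0 R) (z : ℂ) :
    max 1 (‖z - w0‖ - R) ≤ max 1 (dist z w) := by
  refine max_le_max le_rfl ?_
  rw [Metric.mem_closedBall] at hw
  have := dist_triangle z w w0
  rw [← dist_eq_norm]
  linarith

end Crest.Agent.R162.LBN
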