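import Crest.Agent.R162.U1B

/-!
Row 162, node U1 (helper19): uniform one-point bound
`P (τ_s(w) < ∞) ≤ C e^{-(2-d)s} G_0(w)`, constant depending only on `κ`.
-/

set_option autoImplicit false

open MeasureTheory ProbabilityTheory Filter Set Topology
open scoped NNReal ENNReal

namespace Crest.Agent.R162.U1C

open Crest.Agent.R162.OS Crest.Agent.R162.Rad Crest.Agent.R162.U4C
open Crest.Agent.R162.OP Crest.Agent.R162.U1P Crest.Agent.R162.GEN

universe u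

/-- abstract survival for a relation closed under mono, smul, comp -/
theorem survivalQ {Q : ℝ → (ℝ → ℝ) → (ℝ → ℝ) → Prop}
    (hmono : ∀ {c : ℝ}, 0 ≤ c → ∀ {u v u' v' : ℝ → ℝ}, Q c u v →
      (∀ x, 0 < x → x ≤ 1 → u' x ≤ u x) → (∀ x, 0 < x → x ≤ 1 → v x ≤ v' x) → Q c u' v')
    (hsmul : ∀ {c : ℝ} {u v : ℝ → ℝ}, Q c u v → ∀ {K : ℝ}, 0 ≤ K →
      Q c (fun x => K * u x) (fun x => K * v x))
    (hcomp : ∀ {c₁ c₂ : ℝ}, 0 ≤ c₁ → 0 ≤ c₂ → ∀ {u v w : ℝ → ℝ}, Q c₁ u v → Q c₂ v w →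
      Q (c₁ + c₂) u w)
    {b η : ℝ} (hb : 0 < b) (hη : 0 < η) (hη2 : η < 2)
    (ha : ∀ c > 0, ∀ p p' : ℝ, 0 ≤ p → p < b → 0 < p' → p' ≤ p + 2 → p' < b →
      ∃ C ≥ 0, Q c (fun x => x ^ p) (fun x => C * x ^ p'))
    (hl : ∀ c > 0, ∀ p : ℝ, 0 ≤ p → p < b → b + η - 2 ≤ p →
      ∃ C ≥ 0, Q c (fun x => x ^ p) (fun x => C * x ^ b))
    (c : ℝ) (hc : 0 < c) :
    ∃ C ≥ 0, Q c (fun _ => 1) (fun x => C * x ^ b) := by
  have key : ∀ k : ℕ, ∀ c > 0, ∀ p : ℝ, 0 ≤ p → p < b → b - p ≤ (k + 1) * (2 - η) →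
      ∃ C ≥ 0, Q c (fun x => x ^ p) (fun x => C * x ^ b) := by
    intro k
    induction k with
    | zero =>
      intro c hc p hp hpb hle
      exact hl c hc p hp hpb (by norm_num at hle; linarith)
    | succ k ih =>
      intro c hc p hp hpb hle
      by_cases hlast : b + η - 2 ≤ p
      · exact hl c hc p hp hpb hlast
      · rw [not_le] at hlast
        have hp'b : p + (2 - η) < b := by linarith
        obtain ⟨C₁, hC₁, h₁⟩ := ha (c / 2) (by positivity) p (p + (2 - η)) hp hpb (by linarith)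
          (by linarith) hp'b
        obtain ⟨C₂, hC₂, h₂⟩ := ih (c / 2) (by positivity) (p + (2 - η)) (by linarith) hp'b (by
          push_cast at hle ⊢
          linarith)
        refine ⟨C₁ * C₂, mul_nonneg hC₁ hC₂, ?_⟩
        have h₃ := hsmul h₂ hC₁
        have h₄ := hcomp (by positivity : (0:ℝ) ≤ c / 2) (by positivity : (0:ℝ) ≤ c / 2) h₁ h₃
        rw [show c / 2 + c / 2 = c by ring] at h₄
        exact hmono hc.le h₄ (fun x _ _ => le_rfl) (fun x _ _ => by rw [mul_assoc])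
  obtain ⟨k, hk⟩ := exists_nat_gt (b / (2 - η))
  have h2 : (0:ℝ) < 2 - η := by linarith
  obtain ⟨C, hC, h⟩ := key k c hc 0 le_rfl hb (by
    rw [div_lt_iff₀ h2] at hk
    nlinarith)
  exact ⟨C, hC, hmono hc.le h (fun x _ _ => by simp) (fun x _ _ => le_rfl)⟩

/-- the uniform relation -/
def QQ (κ c : ℝ) (u v : ℝ → ℝ) : Prop :=
  ∀ (hM : OPM.{u}) {Ω : Type u} {m : MeasurableSpace Ω} {P : Measure Ω} [IsProbabilityMeasure P]
    {Fl : Filtration ℝ≥0 m} {B : ℝ≥0 → Ω → ℝ} (hB : IsBM Fl B P) (hκ : 0 < κ) {w : ℂ}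
    (hw : 0 < w.im), U1P.R (oneP hM hB hκ hw).radial P c u v

theorem surv {κ : ℝ} (hκ : 0 < κ) (hκ8 : κ < 8) :
    ∃ C ≥ 0, QQ.{u} κ 1 (fun _ => 1) (fun x => C * x ^ (8 / κ - 1)) := by
  have hb : 0 < bb κ := by
    unfold bb; rw [sub_pos, lt_div_iff₀ hκ]; linarith
  obtain ⟨η, hη, hη2, hη1⟩ := U1B.exists_eta hb
  exact survivalQ (Q := QQ.{u} κ)
    (fun hc u v u' v' h h1 h2 hM Ω m P _ Fl B hB hκ w hw => (h hM hB hκ hw).mono hc h1 h2)
    (fun h K hK hM Ω m P _ Fl B hB hκ w hw => (h hM hB hκ hw).smul hK)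
    (fun h1 h2 u v w' huv hvw hM Ω m P _ Fl B hB hκ w hw =>
      R.comp h1 h2 (huv hM hB hκ hw) (hvw hM hB hκ hw))
    hb hη hη2
    (fun c hc p p' hp hpb hp' hpp hp'b =>
      ⟨1 / c * (8 / (κ * p' * min (bb κ - p') 1)), by
        have hmin : 0 < min (bb κ - p') 1 := lt_min (by linarith) one_pos
        positivity, fun hM Ω m P _ Fl B hB hκ w hw => U1B.stepA _ hκ hc hp hpb hp' hpp hp'b⟩)
    (fun c hc p hp hpb hpp =>
      ⟨1 / c * (2 * (8 / (κ * (bb κ + η) * η))), by positivity,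
        fun hM Ω m P _ Fl B hB hκ w hw => U1B.stepB _ hκ hb hc hp hpb hη hη1 hpp⟩) 1 one_pos

/-- **U1, uniform**: `P (A ∩ alive (s+1)) ≤ C e^{-(1-κ/8)s} ∫_A G_s` -/
theorem u1_past {κ : ℝ} (hκ : 0 < κ) (hκ8 : κ < 8) :
    ∃ C > 0, ∀ (hM : OPM.{u}) {Ω : Type u} {m : MeasurableSpace Ω} {P : Measure Ω}
      [IsProbabilityMeasure P] {Fl : Filtration ℝ≥0 m} {B : ℝ≥0 → Ω → ℝ} (hB : IsBM Fl B P)
      {w : ℂ} (hw : 0 < w.im) (s : ℝ), -Real.log w.im ≤ s → ∀ A : Set Ω,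
      (oneP hM hB hκ hw).Past s A →
      P (A ∩ (oneP hM hB hκ hw).alive (s + 1)) ≤
        ENNReal.ofReal (C * Real.exp (-((1 - κ / 8) * s))) *
          ∫⁻ ω in A, ENNReal.ofReal (Gl (oneP hM hB hκ hw) s ω) ∂P := by
  obtain ⟨C, hC, h⟩ := surv.{u} hκ hκ8
  refine ⟨C + 1, by positivity, ?_⟩
  intro hM Ω m P _ Fl B hB w hw s hs A hA
  have hmA : MeasurableSet A := OneP.Past.measurableSet _ hA
  have h1 := h hM hB hκ hw s hs A hA hA.1
  have e0 : ∫⁻ _ω in A ∩ (oneP hM hB hκ hw).alive (s + 1), ENNReal.ofReal 1 ∂P =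
      P (A ∩ (oneP hM hB hκ hw).alive (s + 1)) := by
    rw [setLIntegral_const]; simp
  have h1' : P (A ∩ (oneP hM hB hκ hw).alive (s + 1)) ≤
      ∫⁻ ω in A, ENNReal.ofReal (C * (oneP hM hB hκ hw).Sl s ω ^ (8 / κ - 1)) ∂P := by
    rw [← e0]; exact h1
  refine h1'.trans ?_
  rw [← lintegral_const_mul' _ _ ENNReal.ofReal_ne_top]
  refine setLIntegral_mono' hmA fun ω hω => ?_
  rw [← ENNReal.ofReal_mul (by positivity)]
  refine ENNReal.ofReal_le_ofReal ?_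
  have h3 : ((oneP hM hB hκ hw).stl s ω).2.2.1 = -s := (oneP hM hB hκ hw).L_tau hs (hA.1 hω)
  have h4 : Gl (oneP hM hB hκ hw) s ω =
      Real.exp ((κ / 8 - 1) * (-s)) * (oneP hM hB hκ hw).Sl s ω ^ (8 / κ - 1) := by
    show Real.exp ((κ / 8 - 1) * ((oneP hM hB hκ hw).stl s ω).2.2.1) *
      sinq ((oneP hM hB hκ hw).stl s ω) ^ (8 / κ - 1) = _
    rw [h3]
    rfl
  rw [h4]
  have h5 : 0 ≤ (oneP hM hB hκ hw).Sl s ω ^ (8 / κ - 1) := by
    refine Real.rpow_nonneg ?_ _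
    exact ((oneP hM hB hκ hw).radial.S_pos s hs ω (hA.1 hω)).le
  have h6 : (C + 1) * Real.exp (-((1 - κ / 8) * s)) *
      (Real.exp ((κ / 8 - 1) * (-s)) * (oneP hM hB hκ hw).Sl s ω ^ (8 / κ - 1)) =
      (C + 1) * (Real.exp (-((1 - κ / 8) * s)) * Real.exp ((κ / 8 - 1) * (-s))) *
        (oneP hM hB hκ hw).Sl s ω ^ (8 / κ - 1) := by ring
  rw [h6, ← Real.exp_add, show -((1 - κ / 8) * s) + (κ / 8 - 1) * (-s) = 0 by ring, Real.exp_zero,
    mul_one]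
  exact mul_le_mul_of_nonneg_right (by linarith) h5

/-- **U1F**: `P (τ_s(w) < ∞) ≤ C e^{-(1-κ/8)s} green w` for `s ≥ -log (im w) + 1`, `C = C(κ)`. -/
theorem u1f {κ : ℝ} (hκ : 0 < κ) (hκ8 : κ < 8) :
    ∃ C > 0, ∀ (hM : OPM.{u}) {Ω : Type u} {m : MeasurableSpace Ω} {P : Measure Ω}
      [IsProbabilityMeasure P] {Fl : Filtration ℝ≥0 m} {B : ℝ≥0 → Ω → ℝ} (hB : IsBM Fl B P)
      {w : ℂ} (hw : 0 < w.im) (s : ℝ), -Real.log w.im + 1 ≤ s →
      P ((oneP hM hB hκ hw).alive s) ≤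
        ENNReal.ofReal (C * (Real.exp (-((1 - κ / 8) * s)) * UB.green κ w)) := by
  obtain ⟨C, hC, h⟩ := u1_past.{u} hκ hκ8
  refine ⟨C * Real.exp (1 - κ / 8), by positivity, ?_⟩
  intro hM Ω m P _ Fl B hB w hw s hs
  set D := oneP hM hB hκ hw with hD
  have hs1 : -Real.log w.im ≤ s - 1 := by linarith
  have h1 := h hM hB hw (s - 1) hs1 (D.alive (s - 1)) (D.alive_past _)
  rw [← hD] at h1
  rw [show s - 1 + 1 = s by ring, inter_eq_right.2 (D.alive_anti (by linarith : s - 1 ≤ s))] at h1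
  refine h1.trans ?_
  have h2 := U0 D hκ hs1 (D.alive_past (-Real.log w.im))
  rw [inter_eq_right.2 (D.alive_anti hs1)] at h2
  have h3 := U4F.gm_eq D le_rfl (D.measurableSet_alive _) (subset_refl (D.alive (-Real.log w.im)))
  have h4 := U4I.init hM hB hκ hw (D.alive (-Real.log w.im))
  have h5 : ∫⁻ ω in D.alive (-Real.log w.im), ENNReal.ofReal (Gl D (-Real.log w.im) ω) ∂P ≤
      ENNReal.ofReal (UB.green κ w) := by
    rw [← h3]
    exact h4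
  have hg : 0 ≤ UB.green κ w := by unfold UB.green; positivity
  calc ENNReal.ofReal (C * Real.exp (-((1 - κ / 8) * (s - 1)))) *
          ∫⁻ ω in D.alive (s - 1), ENNReal.ofReal (Gl D (s - 1) ω) ∂P
      ≤ ENNReal.ofReal (C * Real.exp (-((1 - κ / 8) * (s - 1)))) *
          ENNReal.ofReal (UB.green κ w) := by
        gcongr
        exact h2.trans h5
    _ = ENNReal.ofReal (C * Real.exp (1 - κ / 8) * (Real.exp (-((1 - κ / 8) * s)) *
          UB.green κ w)) := by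
        rw [← ENNReal.ofReal_mul (by positivity)]
        congr 1
        rw [show -((1 - κ / 8) * (s - 1)) = (1 - κ / 8) + -((1 - κ / 8) * s) by ring, Real.exp_add]
        ring

end Crest.Agent.R162.U1C
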