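import Mathlib
import Crest.Prelude.Def_Loewner

/-!
Row 162, node GM (helper350): the gauge function and the gauge measure.
GM1: elementary facts about `gaugeReal`.
-/

set_option autoImplicit false

namespace Crest.Agent.R162.G9

open Crest.ProbabilityR.Loewner MeasureTheory Set Filter Topology

/-- the cut-off radius `exp (-e)` -/
noncomputable def e0 : ℝ := Real.exp (-Real.exp 1)

lemma e0_pos : 0 < e0 := Real.exp_pos _

lemma e0_lt_one : e0 < 1 := by
  unfold e0
  rw [Real.exp_lt_one_iff]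
  have := Real.exp_pos 1
  linarith

lemma log_inv_ge {x : ℝ} (hx : 0 < x) (hx0 : x ≤ e0) : Real.exp 1 ≤ Real.log (1 / x) := by
  have h1 : Real.log x ≤ -Real.exp 1 := by
    have := Real.log_le_log hx hx0
    unfold e0 at this
    rwa [Real.log_exp] at this
  rw [one_div, Real.log_inv]
  linarith

lemma loglog_ge_one {x : ℝ} (hx : 0 < x) (hx0 : x ≤ e0) : 1 ≤ Real.log (Real.log (1 / x)) := by
  have h := log_inv_ge hx hx0
  have := Real.log_le_log (Real.exp_pos 1) h
  rwa [Real.log_exp] at this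

variable {κ : ℝ}

/-- explicit formula at small radii -/
lemma gaugeReal_of_le {x : ℝ} (hx0 : x ≤ e0) :
    gaugeReal κ x = x ^ dimParam κ * Real.log (Real.log (1 / x)) ^ ((2 - dimParam κ) / 2) := by
  unfold gaugeReal
  have : min x (Real.exp (-Real.exp 1)) = x := min_eq_left hx0
  rw [this]

lemma gaugeReal_of_ge {x : ℝ} (hx0 : e0 ≤ x) : gaugeReal κ x = gaugeReal κ e0 := by
  unfold gaugeReal
  have h1 : min x (Real.exp (-Real.exp 1)) = Real.exp (-Real.exp 1) := min_eq_right hx0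
  have h2 : min e0 (Real.exp (-Real.exp 1)) = Real.exp (-Real.exp 1) := min_eq_right le_rfl
  rw [h1, h2]

lemma dim_gt_one (hκ : 0 < κ) : 1 < dimParam κ := by unfold dimParam; linarith

lemma dim_lt_two (hκ8 : κ < 8) : dimParam κ < 2 := by unfold dimParam; linarith

lemma gaugeReal_e0 : gaugeReal κ e0 = e0 ^ dimParam κ := by
  rw [gaugeReal_of_le le_rfl]
  have : Real.log (Real.log (1 / e0)) = 1 := by
    unfold e0
    rw [one_div, Real.log_inv, Real.log_exp, neg_neg, Real.log_exp]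
  rw [this, Real.one_rpow, mul_one]

lemma gaugeReal_zero (hκ : 0 < κ) : gaugeReal κ 0 = 0 := by
  rw [gaugeReal_of_le e0_pos.le, Real.zero_rpow (by have := dim_gt_one hκ; linarith), zero_mul]

/-- lower bound `x ^ d ≤ gauge` -/
lemma rpow_le_gaugeReal (hκ8 : κ < 8) {x : ℝ} (hx : 0 < x) (hx0 : x ≤ e0) :
    x ^ dimParam κ ≤ gaugeReal κ x := by
  rw [gaugeReal_of_le hx0]
  have h1 := loglog_ge_one hx hx0
  have h2 : 1 ≤ Real.log (Real.log (1 / x)) ^ ((2 - dimParam κ) / 2) :=
    Real.one_le_rpow h1 (by have := dim_lt_two hκ8; linarith)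
  have h3 : 0 ≤ x ^ dimParam κ := Real.rpow_nonneg hx.le _
  nlinarith

lemma gaugeReal_pos {x : ℝ} (hx : 0 < x) : 0 < gaugeReal κ x := by
  rcases le_total x e0 with h | h
  · rw [gaugeReal_of_le h]
    have h1 := loglog_ge_one hx h
    exact mul_pos (Real.rpow_pos_of_pos hx _) (Real.rpow_pos_of_pos (by linarith) _)
  · rw [gaugeReal_of_ge h, gaugeReal_e0]
    exact Real.rpow_pos_of_pos e0_pos _

lemma gaugeReal_nonneg (hκ : 0 < κ) {x : ℝ} (hx : 0 ≤ x) : 0 ≤ gaugeReal κ x := by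
  rcases hx.eq_or_lt with h | h
  · rw [← h, gaugeReal_zero hκ]
  · exact (gaugeReal_pos h).le

/-- monotonicity below the cut-off -/
lemma gaugeReal_mono_aux (hκ : 0 < κ) (hκ8 : κ < 8) {x y : ℝ} (hx : 0 < x) (hxy : x ≤ y)
    (hy : y ≤ e0) : gaugeReal κ x ≤ gaugeReal κ y := by
  have hd1 := dim_gt_one hκ
  have hd2 := dim_lt_two hκ8
  have hy0 : 0 < y := lt_of_lt_of_le hx hxy
  rw [gaugeReal_of_le (hxy.trans hy), gaugeReal_of_le hy]
  set d := dimParam κ with hd
  set β := (2 - d) / 2 with hβ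
  have hβ0 : 0 ≤ β := by rw [hβ]; linarith
  have hβ1 : β ≤ d := by rw [hβ]; linarith
  set u := Real.log (1 / x) with hu
  set v := Real.log (1 / y) with hv
  have hve : Real.exp 1 ≤ v := log_inv_ge hy0 hy
  have huv : v ≤ u := by
    rw [hu, hv]
    apply Real.log_le_log (by positivity)
    exact one_div_le_one_div_of_le hx hxy
  have he1 : 1 ≤ Real.exp 1 := Real.one_le_exp (by norm_num)
  have hv0 : 0 < v := by linarith
  have hu0 : 0 < u := by linarith
  have hlv : 1 ≤ Real.log v := by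
    have := Real.log_le_log (Real.exp_pos 1) hve
    rwa [Real.log_exp] at this
  have hlu : 1 ≤ Real.log u := hlv.trans (Real.log_le_log hv0 huv)
  -- log u ≤ log v * exp (u - v)
  have h1 : Real.log u ≤ Real.log v * Real.exp (u - v) := by
    have h2 : Real.log u = Real.log v + Real.log (u / v) := by
      rw [Real.log_div hu0.ne' hv0.ne']; ring
    have h3 : Real.log (u / v) ≤ u / v - 1 := Real.log_le_sub_one_of_pos (div_pos hu0 hv0)
    have h4 : u / v - 1 ≤ u - v := by
      rw [div_sub_one hv0.ne', div_le_iff₀ hv0]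
      nlinarith
    have h5 : 1 + (u - v) ≤ Real.exp (u - v) := by
      have := Real.add_one_le_exp (u - v)
      linarith
    have h6 : Real.log v * (1 + (u - v)) ≤ Real.log v * Real.exp (u - v) :=
      mul_le_mul_of_nonneg_left h5 (by linarith)
    nlinarith
  have h7 : Real.log u ^ β ≤ Real.log v ^ β * Real.exp (β * (u - v)) := by
    calc Real.log u ^ β ≤ (Real.log v * Real.exp (u - v)) ^ β :=
          Real.rpow_le_rpow (by linarith) h1 hβ0
      _ = Real.log v ^ β * Real.exp (β * (u - v)) := by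
          rw [Real.mul_rpow (by linarith) (Real.exp_pos _).le, ← Real.exp_mul, mul_comm β]
  have h8 : Real.exp (β * (u - v)) ≤ Real.exp (d * (u - v)) := by
    apply Real.exp_le_exp.2
    exact mul_le_mul_of_nonneg_right hβ1 (by linarith)
  have hxd : x ^ d = Real.exp (-(d * u)) := by
    rw [Real.rpow_def_of_pos hx, hu, one_div, Real.log_inv]
    congr 1; ring
  have hyd : y ^ d = Real.exp (-(d * v)) := by
    rw [Real.rpow_def_of_pos hy0, hv, one_div, Real.log_inv]
    congr 1; ring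
  have hlvb : 0 ≤ Real.log v ^ β := Real.rpow_nonneg (by linarith) _
  calc x ^ d * Real.log u ^ β
      ≤ x ^ d * (Real.log v ^ β * Real.exp (d * (u - v))) := by
        apply mul_le_mul_of_nonneg_left _ (Real.rpow_nonneg hx.le _)
        exact h7.trans (mul_le_mul_of_nonneg_left h8 hlvb)
    _ = y ^ d * Real.log v ^ β := by
        rw [hxd, hyd]
        have : Real.exp (-(d * v)) = Real.exp (-(d * u)) * Real.exp (d * (u - v)) := by
          rw [← Real.exp_add]; congr 1; ring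
        rw [this]; ring

lemma gaugeReal_mono (hκ : 0 < κ) (hκ8 : κ < 8) {x y : ℝ} (hx : 0 ≤ x) (hxy : x ≤ y) :
    gaugeReal κ x ≤ gaugeReal κ y := by
  rcases hx.eq_or_lt with h | h
  · rw [← h, gaugeReal_zero hκ]
    exact gaugeReal_nonneg hκ (hx.trans hxy)
  · rcases le_total y e0 with hy | hy
    · exact gaugeReal_mono_aux hκ hκ8 h hxy hy
    · rw [gaugeReal_of_ge hy]
      rcases le_total x e0 with hx0 | hx0
      · exact gaugeReal_mono_aux hκ hκ8 h hx0 le_rfl
      · rw [gaugeReal_of_ge hx0]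

/-- doubling with the sharp constant -/
lemma gaugeReal_mul_le (hκ : 0 < κ) (hκ8 : κ < 8) {C x : ℝ} (hC : 1 ≤ C) (hx : 0 ≤ x) :
    gaugeReal κ (C * x) ≤ C ^ dimParam κ * gaugeReal κ x := by
  have hd1 := dim_gt_one hκ
  have hd2 := dim_lt_two hκ8
  have hCd : 1 ≤ C ^ dimParam κ := Real.one_le_rpow hC (by linarith)
  rcases hx.eq_or_lt with h | h
  · rw [← h, mul_zero, gaugeReal_zero hκ, mul_zero]
  rcases le_total (C * x) e0 with h1 | h1
  · have hx0 : x ≤ e0 := le_trans (by nlinarith) h1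
    rw [gaugeReal_of_le h1, gaugeReal_of_le hx0, Real.mul_rpow (by linarith) hx, mul_assoc]
    apply mul_le_mul_of_nonneg_left _ (by linarith)
    apply mul_le_mul_of_nonneg_left _ (Real.rpow_nonneg hx _)
    have hCx : 0 < C * x := by positivity
    apply Real.rpow_le_rpow (by linarith [loglog_ge_one hCx h1]) _ (by linarith)
    have h2 := log_inv_ge hCx h1
    have h3 : Real.exp 1 > 0 := Real.exp_pos 1
    apply Real.log_le_log (by linarith)
    apply Real.log_le_log (by positivity)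
    apply one_div_le_one_div_of_le h
    nlinarith
  · rw [gaugeReal_of_ge h1]
    rcases le_total x e0 with hx0 | hx0
    · rw [gaugeReal_e0]
      have h3 := rpow_le_gaugeReal hκ8 h hx0
      calc e0 ^ dimParam κ ≤ (C * x) ^ dimParam κ :=
            Real.rpow_le_rpow e0_pos.le h1 (by linarith)
        _ = C ^ dimParam κ * x ^ dimParam κ := Real.mul_rpow (by linarith) hx
        _ ≤ C ^ dimParam κ * gaugeReal κ x := mul_le_mul_of_nonneg_left h3 (by linarith)
    · rw [gaugeReal_of_ge hx0]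
      have := (gaugeReal_pos (κ := κ) e0_pos).le
      nlinarith

/-- upper power bound: `gauge x ≤ x ^ (d - β)`, `β = (2-d)/2`, for small `x` -/
lemma gaugeReal_le_rpow (hκ8 : κ < 8) {x : ℝ} (hx : 0 < x) (hx0 : x ≤ e0) :
    gaugeReal κ x ≤ x ^ (dimParam κ - (2 - dimParam κ) / 2) := by
  have hd2 := dim_lt_two hκ8
  rw [gaugeReal_of_le hx0, Real.rpow_sub hx]
  have h1 := loglog_ge_one hx hx0
  have h2 := log_inv_ge hx hx0
  have h3 : Real.exp 1 > 0 := Real.exp_pos 1
  have hx1 : 0 < 1 / x := by positivity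
  have h4 : Real.log (Real.log (1 / x)) ≤ 1 / x := by
    have a1 := Real.log_le_sub_one_of_pos (show 0 < Real.log (1 / x) by linarith)
    have a2 := Real.log_le_sub_one_of_pos hx1
    linarith
  have h5 : Real.log (Real.log (1 / x)) ^ ((2 - dimParam κ) / 2) ≤
      (1 / x) ^ ((2 - dimParam κ) / 2) :=
    Real.rpow_le_rpow (by linarith) h4 (by linarith)
  have h6 : (1 / x) ^ ((2 - dimParam κ) / 2) = (x ^ ((2 - dimParam κ) / 2))⁻¹ := by
    rw [one_div, Real.inv_rpow hx.le]
  rw [h6] at h5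
  have h7 := mul_le_mul_of_nonneg_left h5 (Real.rpow_nonneg hx.le (dimParam κ))
  calc _ ≤ _ := h7
    _ = _ := (div_eq_mul_inv _ _).symm

lemma tendsto_gaugeReal_zero (hκ : 0 < κ) (hκ8 : κ < 8) :
    Tendsto (gaugeReal κ) (𝓝[>] 0) (𝓝 0) := by
  have hd1 := dim_gt_one hκ
  have hd2 := dim_lt_two hκ8
  have hexp : 0 < dimParam κ - (2 - dimParam κ) / 2 := by linarith
  have h1 : Tendsto (fun x : ℝ => x ^ (dimParam κ - (2 - dimParam κ) / 2)) (𝓝[>] 0) (𝓝 0) := by
    have := (Real.continuousAt_rpow_const 0 (dimParam κ - (2 - dimParam κ) / 2)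
      (Or.inr hexp.le)).tendsto
    rw [Real.zero_rpow hexp.ne'] at this
    exact this.mono_left nhdsWithin_le_nhds
  refine tendsto_of_tendsto_of_tendsto_of_le_of_le' tendsto_const_nhds h1 ?_ ?_
  · filter_upwards [self_mem_nhdsWithin] with x hx
    exact gaugeReal_nonneg hκ (le_of_lt hx)
  · have : Ioc (0:ℝ) e0 ∈ 𝓝[>] (0:ℝ) := Ioc_mem_nhdsGT e0_pos
    filter_upwards [this] with x hx
    exact gaugeReal_le_rpow hκ8 hx.1 hx.2

/-- gauge at `exp (-K)` -/
lemma gaugeReal_exp_neg {K : ℝ} (hK : Real.exp 1 ≤ K) :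
    gaugeReal κ (Real.exp (-K)) =
      Real.exp (-(dimParam κ * K)) * Real.log K ^ ((2 - dimParam κ) / 2) := by
  have h : Real.exp (-K) ≤ e0 := by
    unfold e0
    exact Real.exp_le_exp.2 (by linarith)
  rw [gaugeReal_of_le h]
  congr 1
  · rw [← Real.exp_mul]; congr 1; ring
  · rw [one_div, Real.log_inv, Real.log_exp, neg_neg]

/-! extended version -/

lemma gaugeExt_ofReal {x : ℝ} (hx : 0 ≤ x) :
    gaugeExt κ (ENNReal.ofReal x) = ENNReal.ofReal (gaugeReal κ x) := by
  unfold gaugeExt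
  rw [ENNReal.toReal_ofReal hx]

lemma gaugeExt_mono (hκ : 0 < κ) (hκ8 : κ < 8) {r s : ENNReal} (hs : s ≠ ⊤) (hrs : r ≤ s) :
    gaugeExt κ r ≤ gaugeExt κ s := by
  unfold gaugeExt
  apply ENNReal.ofReal_le_ofReal
  exact gaugeReal_mono hκ hκ8 ENNReal.toReal_nonneg (ENNReal.toReal_mono hs hrs)

lemma gaugeExt_lt_top (r : ENNReal) : gaugeExt κ r < ⊤ := ENNReal.ofReal_lt_top

/-- gauge of the diameter of a set contained in a closed ball of radius `r` -/
lemma gaugeExt_ediam_le (hκ : 0 < κ) (hκ8 : κ < 8) {s : Set ℂ} {x : ℂ} {r : ℝ} (hr : 0 ≤ r)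
    (hs : s ⊆ Metric.closedBall x r) :
    gaugeExt κ (Metric.ediam s) ≤ ENNReal.ofReal (gaugeReal κ (2 * r)) := by
  have h1 : Metric.ediam s ≤ ENNReal.ofReal (2 * r) := by
    refine (Metric.ediam_mono hs).trans ?_
    apply Metric.ediam_le
    intro y hy z hz
    rw [edist_dist]
    apply ENNReal.ofReal_le_ofReal
    have := dist_triangle y x z
    rw [Metric.mem_closedBall] at hy hz
    rw [dist_comm x z] at this
    linarith
  have h2 := gaugeExt_mono hκ hκ8 ENNReal.ofReal_ne_top h1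
  rwa [gaugeExt_ofReal (by linarith)] at h2

lemma gaugeExt_ediam_le' (hκ : 0 < κ) (hκ8 : κ < 8) {s : Set ℂ} {x : ℂ} {r : ℝ} (hr : 0 ≤ r)
    (hs : s ⊆ Metric.closedBall x r) :
    gaugeExt κ (Metric.ediam s) ≤ 4 * ENNReal.ofReal (gaugeReal κ r) := by
  refine (gaugeExt_ediam_le hκ hκ8 hr hs).trans ?_
  have h1 := gaugeReal_mul_le hκ hκ8 (show (1:ℝ) ≤ 2 by norm_num) hr
  have h2 : (2:ℝ) ^ dimParam κ ≤ 4 := by
    have := Real.rpow_le_rpow_of_exponent_le (show (1:ℝ) ≤ 2 by norm_num) (dim_lt_two hκ8).le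
    calc (2:ℝ) ^ dimParam κ ≤ 2 ^ (2:ℝ) := this
      _ = 4 := by norm_num
  have h3 := gaugeReal_nonneg hκ hr
  have h4 : gaugeReal κ (2 * r) ≤ 4 * gaugeReal κ r :=
    h1.trans (mul_le_mul_of_nonneg_right h2 h3)
  calc ENNReal.ofReal (gaugeReal κ (2 * r)) ≤ ENNReal.ofReal (4 * gaugeReal κ r) :=
        ENNReal.ofReal_le_ofReal h4
    _ = 4 * ENNReal.ofReal (gaugeReal κ r) := by
        rw [ENNReal.ofReal_mul (by norm_num)]; norm_num

end Crest.Agent.R162.G9
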