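import Crest.Agent.R162.G9a

/-!
Row 162, node GM (helper350). GM2: upper bounds by covers (+ Fatou); GM3: mass distribution
principles; GM4: reduction of S0243.
-/

set_option autoImplicit false

namespace Crest.Agent.R162.G9

open Crest.ProbabilityR.Loewner MeasureTheory Set Filter Topology

variable {κ : ℝ}

/-- covers: the gauge measure is at most the liminf of the costs -/
lemma gaugeMeasure_le_liminf {A : Set ℂ} {r : ℕ → ENNReal} (hr : Tendsto r atTop (𝓝 0))
    {F : ℕ → ENNReal}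
    (hcov : ∀ᶠ n in atTop, ∃ t : ℕ → Set ℂ, (∀ i, Metric.ediam (t i) ≤ r n) ∧
      A ⊆ ⋃ i, t i ∧ ∑' i, gaugeExt κ (Metric.ediam (t i)) ≤ F n) :
    gaugeMeasure κ A ≤ liminf F atTop := by
  classical
  obtain ⟨N, hN⟩ := eventually_atTop.1 hcov
  choose! t ht1 ht2 ht3 using hN
  have h1 : gaugeMeasure κ A ≤
      liminf (fun n => ∑' i, gaugeExt κ (Metric.ediam (t n i))) atTop := by
    refine Measure.mkMetric_le_liminf_tsum (β := ℕ) (ι := fun _ => ℕ) A r hr t ?_ ?_ (gaugeExt κ)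
    · filter_upwards [eventually_ge_atTop N] with n hn i using ht1 n hn i
    · filter_upwards [eventually_ge_atTop N] with n hn using ht2 n hn
  refine h1.trans ?_
  apply liminf_le_liminf
  · filter_upwards [eventually_ge_atTop N] with n hn using ht3 n hn
  all_goals isBoundedDefault

/-- a countable cover re-indexed by `ℕ` -/
lemma exists_nat_cover (hκ : 0 < κ) {A : Set ℂ} {r : ENNReal} {F : ENNReal} {ι : Type*}
    [Countable ι] (t : ι → Set ℂ) (h1 : ∀ i, Metric.ediam (t i) ≤ r) (h2 : A ⊆ ⋃ i, t i)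
    (h3 : ∑' i, gaugeExt κ (Metric.ediam (t i)) ≤ F) :
    ∃ t : ℕ → Set ℂ, (∀ i, Metric.ediam (t i) ≤ r) ∧
      A ⊆ ⋃ i, t i ∧ ∑' i, gaugeExt κ (Metric.ediam (t i)) ≤ F := by
  classical
  have : Encodable ι := Encodable.ofCountable ι
  refine ⟨fun n => ⋃ b ∈ Encodable.decode₂ ι n, t b, ?_, ?_, ?_⟩
  · intro n
    rw [Metric.ediam_iUnion_mem_option]
    exact iSup₂_le fun i _ => h1 i
  · rwa [Encodable.iUnion_decode₂]
  · have := tsum_iUnion_decode₂ (α := ℂ) (fun s : Set ℂ => gaugeExt κ (Metric.ediam s)) (by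
      simp only [Metric.ediam_empty]
      unfold gaugeExt
      simp [gaugeReal_zero hκ]) t
    rw [this]
    exact h3

/-- EXPECTATION VERSION (Fatou): random covers with measurable cost bounds `F n` of mean `≤ C`. -/
theorem exists_measurable_bound {Ω : Type*} [MeasurableSpace Ω] {P : Measure Ω}
    {A : Ω → Set ℂ} {r : ℕ → ENNReal} (hr : Tendsto r atTop (𝓝 0))
    {F : ℕ → Ω → ENNReal} (hF : ∀ n, Measurable (F n)) {C : ENNReal}
    (hC : ∀ᶠ n in atTop, ∫⁻ ω, F n ω ∂P ≤ C)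
    (hcov : ∀ᵐ ω ∂P, ∀ᶠ n in atTop, ∃ t : ℕ → Set ℂ, (∀ i, Metric.ediam (t i) ≤ r n) ∧
      A ω ⊆ ⋃ i, t i ∧ ∑' i, gaugeExt κ (Metric.ediam (t i)) ≤ F n ω) :
    ∃ G : Ω → ENNReal, Measurable G ∧ (∀ᵐ ω ∂P, gaugeMeasure κ (A ω) ≤ G ω) ∧
      ∫⁻ ω, G ω ∂P ≤ C := by
  refine ⟨fun ω => liminf (fun n => F n ω) atTop, Measurable.liminf hF, ?_, ?_⟩
  · filter_upwards [hcov] with ω hω
    exact gaugeMeasure_le_liminf hr hω
  · refine (lintegral_liminf_le hF).trans ?_
    refine liminf_le_of_frequently_le' (hC.frequently)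

/-- A convenient special case: at level `n` a fixed countable family of candidate sets `S n i`
(diameter `≤ r n`), the set `S n i` being used on the (measurable) event `E n i`. -/
theorem exists_measurable_bound_of_events (hκ : 0 < κ) {Ω : Type*} [MeasurableSpace Ω]
    {P : Measure Ω} {A : Ω → Set ℂ} {r : ℕ → ENNReal} (hr : Tendsto r atTop (𝓝 0))
    {ι : ℕ → Type*} [∀ n, Countable (ι n)] (S : ∀ n, ι n → Set ℂ) (E : ∀ n, ι n → Set Ω)
    (hS : ∀ n i, Metric.ediam (S n i) ≤ r n) (hE : ∀ n i, MeasurableSet (E n i)) {C : ENNReal}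
    (hC : ∀ᶠ n in atTop, ∑' i, P (E n i) * gaugeExt κ (Metric.ediam (S n i)) ≤ C)
    (hcov : ∀ᵐ ω ∂P, ∀ᶠ n in atTop, ∀ z ∈ A ω, ∃ i, ω ∈ E n i ∧ z ∈ S n i) :
    ∃ G : Ω → ENNReal, Measurable G ∧ (∀ᵐ ω ∂P, gaugeMeasure κ (A ω) ≤ G ω) ∧
      ∫⁻ ω, G ω ∂P ≤ C := by
  classical
  refine exists_measurable_bound (κ := κ) (r := r) hr
    (F := fun n ω => ∑' i, (E n i).indicator (fun _ => gaugeExt κ (Metric.ediam (S n i))) ω)
    ?_ ?_ ?_
  · intro n
    exact Measurable.tsum fun i => measurable_const.indicator (hE n i)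
  · filter_upwards [hC] with n hn
    rw [lintegral_tsum (fun i => (measurable_const.indicator (hE n i)).aemeasurable)]
    refine le_trans (le_of_eq ?_) hn
    congr 1
    ext i
    rw [lintegral_indicator_const (hE n i), mul_comm]
  · filter_upwards [hcov] with ω hω
    filter_upwards [hω] with n hn
    apply exists_nat_cover hκ (ι := {i : ι n // ω ∈ E n i}) (fun i => S n i.1)
    · intro i
      exact hS n i.1
    · intro z hz
      obtain ⟨i, hi, hzi⟩ := hn z hz
      exact mem_iUnion.2 ⟨⟨i, hi⟩, hzi⟩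
    · have hsub := tsum_subtype {i : ι n | ω ∈ E n i} (fun i => gaugeExt κ (Metric.ediam (S n i)))
      refine le_trans (le_of_eq hsub) ?_
      refine ENNReal.tsum_le_tsum fun i => ?_
      by_cases h : ω ∈ E n i
      · rw [indicator_of_mem (show i ∈ {i : ι n | ω ∈ E n i} from h), indicator_of_mem h]
      · rw [indicator_of_notMem (show i ∉ {i : ι n | ω ∈ E n i} from h)]
        exact bot_le

/-! ### Mass distribution -/

/-- `gaugeMeasure A ≥ μ A / C` if `μ (s ∩ A) ≤ C * gauge (diam s)` for all sets of small diameter. -/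
theorem le_gaugeMeasure {μ : Measure ℂ} {A : Set ℂ} (hA : MeasurableSet A) {C : ENNReal}
    (hC0 : C ≠ 0) (hC : C ≠ ⊤) {δ : ENNReal} (hδ : 0 < δ)
    (h : ∀ s : Set ℂ, Metric.ediam s ≤ δ → μ (s ∩ A) ≤ C * gaugeExt κ (Metric.ediam s)) :
    μ A ≤ C * gaugeMeasure κ A := by
  have h1 : C⁻¹ • (μ.restrict A) ≤ gaugeMeasure κ := by
    apply Measure.le_mkMetric (gaugeExt κ) _ δ hδ
    intro s hs
    rw [Measure.smul_apply, Measure.restrict_apply' hA, smul_eq_mul]
    calc C⁻¹ * μ (s ∩ A) ≤ C⁻¹ * (C * gaugeExt κ (Metric.ediam s)) := by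
          gcongr
          exact h s hs
      _ = gaugeExt κ (Metric.ediam s) := by
          rw [← mul_assoc, ENNReal.inv_mul_cancel hC0 hC, one_mul]
  have h2 := h1 A
  rw [Measure.smul_apply, Measure.restrict_apply_self, smul_eq_mul] at h2
  calc μ A = C * (C⁻¹ * μ A) := by
        rw [← mul_assoc, ENNReal.mul_inv_cancel hC0 hC, one_mul]
    _ ≤ C * gaugeMeasure κ A := by gcongr

/-- Mass distribution principle with balls centred at points of `A`. -/
theorem le_gaugeMeasure_of_ball (hκ : 0 < κ) (hκ8 : κ < 8) {μ : Measure ℂ} {A : Set ℂ}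
    (hA : MeasurableSet A) {C δ : ℝ} (hC : 0 < C) (hδ : 0 < δ)
    (h : ∀ x ∈ A, ∀ r : ℝ, 0 < r → r ≤ δ →
      μ (Metric.closedBall x r ∩ A) ≤ ENNReal.ofReal (C * gaugeReal κ r)) :
    μ A ≤ ENNReal.ofReal C * gaugeMeasure κ A := by
  apply le_gaugeMeasure hA (δ := ENNReal.ofReal δ)
  · simpa using hC
  · exact ENNReal.ofReal_ne_top
  · simpa using hδ
  intro s hs
  have hs_top : Metric.ediam s ≠ ⊤ := ne_top_of_le_ne_top ENNReal.ofReal_ne_top hs
  rcases (s ∩ A).eq_empty_or_nonempty with he | ⟨x, hxs, hxA⟩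
  · rw [he, measure_empty]; exact bot_le
  set ρ := (Metric.ediam s).toReal with hρ
  have hρδ : ρ ≤ δ := by
    have := ENNReal.toReal_mono ENNReal.ofReal_ne_top hs
    rwa [ENNReal.toReal_ofReal hδ.le] at this
  have hsub : ∀ r, ρ ≤ r → s ∩ A ⊆ Metric.closedBall x r ∩ A := by
    intro r hr y hy
    refine ⟨?_, hy.2⟩
    rw [Metric.mem_closedBall]
    have h1 : edist y x ≤ Metric.ediam s := Metric.edist_le_ediam_of_mem hy.1 hxs
    have h2 := ENNReal.toReal_mono hs_top h1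
    rw [edist_dist, ENNReal.toReal_ofReal dist_nonneg] at h2
    linarith
  rw [← ENNReal.ofReal_toReal hs_top, gaugeExt_ofReal ENNReal.toReal_nonneg,
    ← ENNReal.ofReal_mul hC.le]
  rcases (ENNReal.toReal_nonneg (a := Metric.ediam s)).eq_or_lt with h0 | h0
  · -- a single point
    rw [← h0, gaugeReal_zero hκ, mul_zero, ENNReal.ofReal_zero, nonpos_iff_eq_zero]
    have hlim : Tendsto (fun r : ℝ => ENNReal.ofReal (C * gaugeReal κ r)) (𝓝[>] 0) (𝓝 0) := by
      have h1 := ((tendsto_gaugeReal_zero hκ hκ8).const_mul C)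
      have h2 := (ENNReal.continuous_ofReal.tendsto (C * 0)).comp h1
      simpa [Function.comp_def] using h2
    have hle : ∀ᶠ r in 𝓝[>] (0:ℝ), μ (s ∩ A) ≤ ENNReal.ofReal (C * gaugeReal κ r) := by
      have : Ioc (0:ℝ) δ ∈ 𝓝[>] (0:ℝ) := Ioc_mem_nhdsGT hδ
      filter_upwards [this] with r hr
      refine (measure_mono (hsub r ?_)).trans (h x hxA r hr.1 hr.2)
      rw [hρ, ← h0]; exact hr.1.le
    exact le_antisymm (ge_of_tendsto hlim hle) bot_le
  · exact (measure_mono (hsub ρ le_rfl)).trans (h x hxA ρ h0 hρδ)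

end Crest.Agent.R162.G9
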