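import Crest.Agent.R162.G9b

/-!
Row 162, node GM (helper350). Compactness version of the mass distribution principle
(measures `μ n` living on neighbourhoods of a compact set, ball bound only at scales `≥ ε n`),
and the final glue for S0243.
-/

set_option autoImplicit false

namespace Crest.Agent.R162.G9

open Crest.ProbabilityR.Loewner MeasureTheory Set Filter Topology

variable {κ : ℝ}

/-- If the compact set `A` has small gauge measure, it has a finite cover by open balls with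
small cost and small radii. -/
theorem exists_finite_ball_cover (hκ : 0 < κ) (hκ8 : κ < 8) {A : Set ℂ} (hA : IsCompact A)
    {c δ : ℝ} (hc : 0 < c) (hδ : 0 < δ) (h : gaugeMeasure κ A < ENNReal.ofReal c) :
    ∃ (s : Finset (ℂ × ℝ)), (∀ p ∈ s, 0 < p.2 ∧ p.2 ≤ δ) ∧ (A ⊆ ⋃ p ∈ s, Metric.ball p.1 p.2) ∧
      ∑ p ∈ s, gaugeReal κ p.2 < 8 * c := by
  classical
  -- a countable cover with small diameters and cost `< c`
  have h1 : ∃ t : ℕ → Set ℂ, A ⊆ iUnion t ∧ (∀ n, Metric.ediam (t n) ≤ ENNReal.ofReal (δ / 4)) ∧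
      ∑' n, (⨆ _ : (t n).Nonempty, gaugeExt κ (Metric.ediam (t n))) < ENNReal.ofReal c := by
    unfold gaugeMeasure at h
    rw [Measure.mkMetric_apply] at h
    have h2 := lt_of_le_of_lt
      (le_iSup₂ (f := fun (r : ENNReal) (_ : 0 < r) =>
        ⨅ (t : ℕ → Set ℂ) (_ : A ⊆ iUnion t) (_ : ∀ n, Metric.ediam (t n) ≤ r),
          ∑' n, ⨆ _ : (t n).Nonempty, gaugeExt κ (Metric.ediam (t n)))
        (ENNReal.ofReal (δ / 4)) (by simpa using (by linarith : 0 < δ / 4))) h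
    simp only [iInf_lt_iff] at h2
    obtain ⟨t, ht1, ht2, ht3⟩ := h2
    exact ⟨t, ht1, ht2, ht3⟩
  obtain ⟨t, ht1, ht2, ht3⟩ := h1
  -- small extra radii
  have hextra : ∀ n : ℕ, ∃ η : ℝ, 0 < η ∧ η ≤ δ / 4 ∧ gaugeReal κ η < c / 2 / 2 ^ n / 8 := by
    intro n
    have hpos : 0 < c / 2 / 2 ^ n / 8 := by positivity
    have h3 := (tendsto_gaugeReal_zero hκ hκ8).eventually (gt_mem_nhds hpos)
    have h4 : Ioc (0:ℝ) (δ / 4) ∈ 𝓝[>] (0:ℝ) := Ioc_mem_nhdsGT (by linarith)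
    obtain ⟨η, hη1, hη2⟩ := (h3.and h4).exists
    exact ⟨η, hη2.1, hη2.2, hη1⟩
  choose η hη0 hηδ hη using hextra
  -- radii
  set ρ : ℕ → ℝ := fun n => max ((Metric.ediam (t n)).toReal) (η n) with hρ
  have hρ0 : ∀ n, 0 < ρ n := fun n => lt_of_lt_of_le (hη0 n) (le_max_right _ _)
  have hdiam : ∀ n, (Metric.ediam (t n)).toReal ≤ δ / 4 := fun n => by
    have := ENNReal.toReal_mono ENNReal.ofReal_ne_top (ht2 n)
    rwa [ENNReal.toReal_ofReal (by linarith)] at this
  have hρδ : ∀ n, ρ n ≤ δ / 4 := fun n => max_le (hdiam n) (hηδ n)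
  -- the balls
  have hcov : A ⊆ ⋃ n : {n : ℕ // (t n).Nonempty},
      Metric.ball (n.2.some) (2 * ρ n.1) := by
    intro z hz
    obtain ⟨n, hn⟩ := mem_iUnion.1 (ht1 hz)
    refine mem_iUnion.2 ⟨⟨n, ⟨z, hn⟩⟩, ?_⟩
    rw [Metric.mem_ball]
    have hne : (t n).Nonempty := ⟨z, hn⟩
    have h5 : edist z hne.some ≤ Metric.ediam (t n) :=
      Metric.edist_le_ediam_of_mem hn hne.some_mem
    have h6 := ENNReal.toReal_mono (ne_top_of_le_ne_top ENNReal.ofReal_ne_top (ht2 n)) h5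
    rw [edist_dist, ENNReal.toReal_ofReal dist_nonneg] at h6
    have h7 : (Metric.ediam (t n)).toReal ≤ ρ n := le_max_left _ _
    have := hρ0 n
    linarith
  obtain ⟨s, hs⟩ := hA.elim_finite_subcover (fun n : {n : ℕ // (t n).Nonempty} =>
    Metric.ball (n.2.some) (2 * ρ n.1)) (fun _ => Metric.isOpen_ball) hcov
  refine ⟨s.image (fun n => (n.2.some, 2 * ρ n.1)), ?_, ?_, ?_⟩
  · intro p hp
    obtain ⟨n, _, rfl⟩ := Finset.mem_image.1 hp
    have a1 := hρ0 n.1
    have a2 := hρδ n.1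
    exact ⟨by simpa using a1, by show 2 * ρ n.1 ≤ δ; linarith⟩
  · intro z hz
    obtain ⟨n, hn, hzn⟩ := mem_iUnion₂.1 (hs hz)
    exact mem_iUnion₂.2 ⟨_, Finset.mem_image_of_mem _ hn, hzn⟩
  · have hsum1 : ∑ p ∈ s.image (fun n : {n : ℕ // (t n).Nonempty} => (n.2.some, 2 * ρ n.1)),
        gaugeReal κ p.2 ≤ ∑ n ∈ s, gaugeReal κ (2 * ρ n.1) := by
      have hnn : ∀ p ∈ s.image (fun n : {n : ℕ // (t n).Nonempty} => (n.2.some, 2 * ρ n.1)),
          0 ≤ gaugeReal κ p.2 := by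
        intro p hp
        obtain ⟨n, _, rfl⟩ := Finset.mem_image.1 hp
        exact (gaugeReal_pos (by have := hρ0 n.1; show 0 < 2 * ρ n.1; linarith)).le
      refine (Finset.sum_image_le_of_nonneg (g := fun n : {n : ℕ // (t n).Nonempty} =>
        (n.2.some, 2 * ρ n.1)) (f := fun p : ℂ × ℝ => gaugeReal κ p.2) (s := s) ?_).trans le_rfl
      exact hnn
    have h4 : (2:ℝ) ^ dimParam κ ≤ 4 := by
      have := Real.rpow_le_rpow_of_exponent_le (show (1:ℝ) ≤ 2 by norm_num) (dim_lt_two hκ8).le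
      calc (2:ℝ) ^ dimParam κ ≤ 2 ^ (2:ℝ) := this
        _ = 4 := by norm_num
    have hterm : ∀ n, gaugeReal κ (2 * ρ n) ≤
        4 * (gaugeReal κ ((Metric.ediam (t n)).toReal) + gaugeReal κ (η n)) := by
      intro n
      have b1 := gaugeReal_mul_le hκ hκ8 (show (1:ℝ) ≤ 2 by norm_num) (hρ0 n).le
      have b2 : gaugeReal κ (ρ n) ≤
          gaugeReal κ ((Metric.ediam (t n)).toReal) + gaugeReal κ (η n) := by
        have c1 := gaugeReal_nonneg (κ := κ) hκ (ENNReal.toReal_nonneg (a := Metric.ediam (t n)))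
        have c2 := (gaugeReal_pos (κ := κ) (hη0 n)).le
        rcases max_choice ((Metric.ediam (t n)).toReal) (η n) with h | h
        · rw [hρ]; simp only [h]; linarith
        · rw [hρ]; simp only [h]; linarith
      have b3 := gaugeReal_nonneg (κ := κ) hκ (hρ0 n).le
      nlinarith
    have hs1 : ∑ n ∈ s, gaugeReal κ ((Metric.ediam (t n.1)).toReal) < c := by
      have e1 : ENNReal.ofReal (∑ n ∈ s, gaugeReal κ ((Metric.ediam (t n.1)).toReal)) ≤
          ∑' n, (⨆ _ : (t n).Nonempty, gaugeExt κ (Metric.ediam (t n))) := by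
        rw [ENNReal.ofReal_sum_of_nonneg (fun n _ => gaugeReal_nonneg hκ ENNReal.toReal_nonneg)]
        calc ∑ n ∈ s, ENNReal.ofReal (gaugeReal κ ((Metric.ediam (t n.1)).toReal))
            = ∑ n ∈ s, (⨆ _ : (t n.1).Nonempty, gaugeExt κ (Metric.ediam (t n.1))) := by
              apply Finset.sum_congr rfl
              intro n _
              rw [iSup_pos n.2]
              rfl
          _ = ∑ n ∈ s.image Subtype.val,
              (⨆ _ : (t n).Nonempty, gaugeExt κ (Metric.ediam (t n))) := by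
              rw [Finset.sum_image]
              intro a _ b _ hab
              exact Subtype.ext hab
          _ ≤ _ := ENNReal.sum_le_tsum _
      exact (ENNReal.ofReal_lt_ofReal_iff hc).1 (lt_of_le_of_lt e1 ht3)
    have hs2 : ∑ n ∈ s, gaugeReal κ (η n.1) ≤ c / 8 := by
      have e2 : ∀ n ∈ s, gaugeReal κ (η n.1) ≤ c / 8 * (1 / 2 / 2 ^ n.1) := by
        intro n _
        have := (hη n.1).le
        calc gaugeReal κ (η n.1) ≤ c / 2 / 2 ^ n.1 / 8 := this
          _ = c / 8 * (1 / 2 / 2 ^ n.1) := by ring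
      refine (Finset.sum_le_sum e2).trans ?_
      rw [← Finset.mul_sum]
      have e3 : ∑ n ∈ s, (1:ℝ) / 2 / 2 ^ n.1 ≤ 1 := by
        calc ∑ n ∈ s, (1:ℝ) / 2 / 2 ^ n.1 = ∑ n ∈ s.image Subtype.val, (1:ℝ) / 2 / 2 ^ n := by
              rw [Finset.sum_image]
              intro a _ b _ hab
              exact Subtype.ext hab
          _ ≤ ∑' n : ℕ, (1:ℝ) / 2 / 2 ^ n := by
              apply Summable.sum_le_tsum _ (fun n _ => by positivity)
              exact summable_geometric_two' 1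
          _ = 1 := tsum_geometric_two' 1
      nlinarith
    calc _ ≤ ∑ n ∈ s, gaugeReal κ (2 * ρ n.1) := hsum1
      _ ≤ ∑ n ∈ s, 4 * (gaugeReal κ ((Metric.ediam (t n.1)).toReal) + gaugeReal κ (η n.1)) :=
          Finset.sum_le_sum fun n _ => hterm n.1
      _ = 4 * (∑ n ∈ s, gaugeReal κ ((Metric.ediam (t n.1)).toReal) +
            ∑ n ∈ s, gaugeReal κ (η n.1)) := by
          rw [← Finset.mul_sum, Finset.sum_add_distrib]
      _ < 8 * c := by linarith

/-- COMPACT MASS DISTRIBUTION PRINCIPLE. `A` compact, `μ n` measures whose total mass is carried by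
the `ε n`-thickening of `A`, with `μ n (closedBall x r) ≤ C * gauge r` for `ε n ≤ r ≤ δ`, and mass
at least `c` for infinitely many `n`; `ε n → 0`. Then `gaugeMeasure A ≥ c / (8 C)`. -/
theorem gaugeMeasure_ge_of_measures (hκ : 0 < κ) (hκ8 : κ < 8) {A : Set ℂ} (hA : IsCompact A)
    {C c δ : ℝ} (hC : 0 < C) (hc : 0 < c) (hδ : 0 < δ) {ε : ℕ → ℝ}
    (hε : Tendsto ε atTop (𝓝 0)) (μ : ℕ → Measure ℂ)
    (hmass : ∃ᶠ n in atTop, ENNReal.ofReal c ≤ μ n univ ∧
      μ n (Metric.thickening (ε n) A)ᶜ = 0 ∧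
      ∀ (x : ℂ) (r : ℝ), ε n ≤ r → 0 < r → r ≤ δ →
        μ n (Metric.closedBall x r) ≤ ENNReal.ofReal (C * gaugeReal κ r)) :
    ENNReal.ofReal (c / (8 * C)) ≤ gaugeMeasure κ A := by
  by_contra hcon
  push Not at hcon
  obtain ⟨s, hs1, hs2, hs3⟩ := exists_finite_ball_cover hκ hκ8 hA
    (show 0 < c / (8 * C) by positivity) hδ hcon
  have hopen : IsOpen (⋃ p ∈ s, Metric.ball p.1 p.2) :=
    isOpen_biUnion fun p _ => Metric.isOpen_ball
  obtain ⟨ε', hε'0, hε'⟩ := hA.exists_thickening_subset_open hopen hs2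
  -- a positive lower bound for the radii
  have hmin : ∃ m : ℝ, 0 < m ∧ ∀ p ∈ s, m ≤ p.2 := by
    rcases s.eq_empty_or_nonempty with he | hne
    · exact ⟨1, one_pos, by simp [he]⟩
    · obtain ⟨p0, hp0, hp0min⟩ := s.exists_min_image (fun p => p.2) hne
      exact ⟨p0.2, (hs1 p0 hp0).1, hp0min⟩
  obtain ⟨m, hm0, hm⟩ := hmin
  have hev : ∀ᶠ n in atTop, ε n < min ε' m := hε.eventually (gt_mem_nhds (lt_min hε'0 hm0))
  obtain ⟨n, ⟨hn1, hn2, hn3⟩, hn4⟩ := (hmass.and_eventually hev).exists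
  have hle : μ n univ ≤ ∑ p ∈ s, μ n (Metric.closedBall p.1 p.2) := by
    calc μ n univ ≤ μ n (Metric.thickening (ε n) A) + μ n (Metric.thickening (ε n) A)ᶜ := by
          rw [← union_compl_self (Metric.thickening (ε n) A)]
          exact measure_union_le _ _
      _ = μ n (Metric.thickening (ε n) A) := by rw [hn2, add_zero]
      _ ≤ μ n (⋃ p ∈ s, Metric.closedBall p.1 p.2) := by
          apply measure_mono
          refine (Metric.thickening_mono (hn4.le.trans (min_le_left _ _)) A).trans ?_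
          refine hε'.trans ?_
          exact iUnion₂_mono fun p _ => Metric.ball_subset_closedBall
      _ ≤ ∑ p ∈ s, μ n (Metric.closedBall p.1 p.2) := measure_biUnion_finset_le _ _
  have hle2 : ∑ p ∈ s, μ n (Metric.closedBall p.1 p.2) ≤
      ENNReal.ofReal (C * ∑ p ∈ s, gaugeReal κ p.2) := by
    rw [Finset.mul_sum, ENNReal.ofReal_sum_of_nonneg]
    · apply Finset.sum_le_sum
      intro p hp
      exact hn3 p.1 p.2 ((hn4.le.trans (min_le_right _ _)).trans (hm p hp)) (hs1 p hp).1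
        (hs1 p hp).2
    · intro p hp
      exact mul_nonneg hC.le (gaugeReal_pos (hs1 p hp).1).le
  have h5 := (hn1.trans hle).trans hle2
  have h6 : C * ∑ p ∈ s, gaugeReal κ p.2 < c := by
    have : C * ∑ p ∈ s, gaugeReal κ p.2 < C * (8 * (c / (8 * C))) :=
      mul_lt_mul_of_pos_left hs3 hC
    have e : C * (8 * (c / (8 * C))) = c := by field_simp
    linarith
  have h7 := (ENNReal.ofReal_lt_ofReal_iff hc).2 h6
  exact absurd (lt_of_le_of_lt h5 h7) (lt_irrefl _)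

/-- FINAL GLUE: the two claims give S0243. -/
theorem glue {Ω : Type*} [MeasurableSpace Ω] {P : Measure Ω} {γ : Ω → ℝ → ℂ}
    (hcont : ∀ᵐ ω ∂P, ContinuousOn (γ ω) (Ici 0))
    (hUB : ∀ R : ℕ, ∃ G : Ω → ENNReal, Measurable G ∧
      (∀ᵐ ω ∂P, gaugeMeasure κ (γ ω '' Ici 0 ∩ Metric.closedBall 0 R) ≤ G ω) ∧
      ∫⁻ ω, G ω ∂P < ⊤)
    (hLB : ∀ s t : ℚ, 0 < s → s < t → ∀ᵐ ω ∂P, 0 < gaugeMeasure κ (γ ω '' Icc (s:ℝ) t)) :
    (∀ᵐ ω ∂P, ∀ s t : ℝ, 0 < s → s < t →
        0 < gaugeMeasure κ (γ ω '' Set.Icc s t) ∧ gaugeMeasure κ (γ ω '' Set.Icc s t) < ⊤) ∧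
      ∀ R : ℝ, ∫⁻ ω, gaugeMeasure κ (γ ω '' Set.Ici 0 ∩ Metric.closedBall 0 R) ∂P < ⊤ := by
  refine ⟨?_, ?_⟩
  · have h1 : ∀ᵐ ω ∂P, ∀ R : ℕ, gaugeMeasure κ (γ ω '' Ici 0 ∩ Metric.closedBall 0 R) < ⊤ := by
      rw [ae_all_iff]
      intro R
      obtain ⟨G, hG, hle, hfin⟩ := hUB R
      filter_upwards [hle, ae_lt_top hG hfin.ne] with ω h2 h3
      exact lt_of_le_of_lt h2 h3
    have h2 : ∀ᵐ ω ∂P, ∀ p : ℚ × ℚ, 0 < p.1 → p.1 < p.2 →
        0 < gaugeMeasure κ (γ ω '' Icc (p.1:ℝ) p.2) := by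
      rw [ae_all_iff]
      intro p
      by_cases h : 0 < p.1 ∧ p.1 < p.2
      · filter_upwards [hLB p.1 p.2 h.1 h.2] with ω hω _ _ using hω
      · filter_upwards with ω h3 h4 using absurd ⟨h3, h4⟩ h
    filter_upwards [h1, h2, hcont] with ω hf hp hc s t hs hst
    constructor
    · obtain ⟨p, hp1, hp2⟩ := exists_rat_btwn hst
      obtain ⟨q, hq1, hq2⟩ := exists_rat_btwn hp2
      have hp0 : (0:ℚ) < p := by
        have : (0:ℝ) < p := hs.trans hp1
        exact_mod_cast this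
      have hpq : p < q := by exact_mod_cast hq1
      refine lt_of_lt_of_le (hp (p, q) hp0 hpq) (measure_mono (image_mono ?_))
      exact Icc_subset_Icc hp1.le hq2.le
    · have hcomp : IsCompact (γ ω '' Icc s t) :=
        isCompact_Icc.image_of_continuousOn (hc.mono fun x hx => hs.le.trans hx.1)
      obtain ⟨R, hR⟩ := hcomp.isBounded.subset_closedBall (0:ℂ)
      obtain ⟨n, hn⟩ := exists_nat_ge R
      refine lt_of_le_of_lt (measure_mono ?_) (hf n)
      intro z hz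
      refine ⟨?_, Metric.closedBall_subset_closedBall hn (hR hz)⟩
      obtain ⟨u, hu, rfl⟩ := hz
      exact ⟨u, hs.le.trans hu.1, rfl⟩
  · intro R
    obtain ⟨n, hn⟩ := exists_nat_ge R
    obtain ⟨G, hG, hle, hfin⟩ := hUB n
    refine lt_of_le_of_lt ?_ hfin
    apply lintegral_mono_ae
    filter_upwards [hle] with ω hω
    refine (measure_mono ?_).trans hω
    exact inter_subset_inter_right _ (Metric.closedBall_subset_closedBall hn)

end Crest.Agent.R162.G9
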