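import Mathlib
import Crest.Prelude.Def_Loewner
import Crest.Agent.R162.G9a
import Crest.Agent.R162.UBDefs

/-!
Row 162 (helper350): the gauge at the trigger radii, for the glue of the upper bound.
-/

set_option autoImplicit false

namespace Crest.Agent.R162.G9

open Crest.ProbabilityR.Loewner MeasureTheory Set Filter Topology

/-- `log K ≤ (2 / ε₀) N`, `N = ⌊ε₀ log K⌋`, for large `K`. -/
lemma log_le_NN {ε₀ : ℝ} (hε : 0 < ε₀) :
    ∀ᶠ K : ℕ in atTop, Real.log K ≤ 2 / ε₀ * (U4.NN ε₀ K : ℝ) := by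
  have h := (Real.tendsto_log_atTop.comp tendsto_natCast_atTop_atTop).eventually_ge_atTop (2 / ε₀)
  filter_upwards [h] with K hK
  have hK' : 2 / ε₀ ≤ Real.log K := hK
  have h1 : 2 ≤ ε₀ * Real.log K := by
    rw [div_le_iff₀ hε] at hK'
    linarith
  have h2 : ε₀ * Real.log K < (U4.NN ε₀ K : ℝ) + 1 := Nat.lt_floor_add_one _
  rw [div_mul_eq_mul_div, le_div_iff₀ hε]
  nlinarith

/-- the gauge of `M r` for `e^{-K} ≤ r ≤ e^{-(K/2 - 1)}`, in terms of `N = ⌊ε₀ log K⌋`. -/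
theorem gaugeReal_radius_le {κ : ℝ} (hκ : 0 < κ) (hκ8 : κ < 8) {ε₀ : ℝ} (hε : 0 < ε₀) {M : ℝ}
    (hM : 1 ≤ M) :
    ∀ᶠ K : ℕ in atTop, ∀ r : ℝ, Real.exp (-(K : ℝ)) ≤ r → r ≤ Real.exp (-((K : ℝ) / 2 - 1)) →
      gaugeReal κ (M * r) ≤
        (M ^ dimParam κ * (2 / ε₀) ^ ((2 - dimParam κ) / 2)) *
          (r ^ dimParam κ * (U4.NN ε₀ K : ℝ) ^ ((2 - dimParam κ) / 2)) := by
  have hd1 := dim_gt_one hκ
  have hd2 := dim_lt_two hκ8
  filter_upwards [log_le_NN hε, eventually_ge_atTop 8] with K hK hK8 r hr1 hr2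
  have hK8' : (8 : ℝ) ≤ K := by exact_mod_cast hK8
  have hr0 : 0 < r := lt_of_lt_of_le (Real.exp_pos _) hr1
  have he3 : Real.exp 1 < 3 := by have := Real.exp_one_lt_d9; linarith
  have hre : r ≤ e0 := by
    refine hr2.trans ?_
    unfold e0
    apply Real.exp_le_exp.2
    linarith
  have h1 : gaugeReal κ (M * r) ≤ M ^ dimParam κ * gaugeReal κ r :=
    gaugeReal_mul_le hκ hκ8 hM hr0.le
  have hl1 : Real.exp 1 ≤ Real.log (1 / r) := log_inv_ge hr0 hre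
  have hl2 : Real.log (1 / r) ≤ K := by
    rw [one_div, Real.log_inv]
    have := Real.log_le_log (Real.exp_pos _) hr1
    rw [Real.log_exp] at this
    linarith
  have hl0 : 0 < Real.log (1 / r) := lt_of_lt_of_le (Real.exp_pos 1) hl1
  have hll : Real.log (Real.log (1 / r)) ≤ 2 / ε₀ * (U4.NN ε₀ K : ℝ) :=
    (Real.log_le_log hl0 hl2).trans hK
  have hll0 : 0 ≤ Real.log (Real.log (1 / r)) := by linarith [loglog_ge_one hr0 hre]
  have h2 : gaugeReal κ r ≤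
      r ^ dimParam κ * ((2 / ε₀) ^ ((2 - dimParam κ) / 2) *
        (U4.NN ε₀ K : ℝ) ^ ((2 - dimParam κ) / 2)) := by
    rw [gaugeReal_of_le hre, ← Real.mul_rpow (by positivity) (Nat.cast_nonneg _)]
    apply mul_le_mul_of_nonneg_left _ (Real.rpow_nonneg hr0.le _)
    exact Real.rpow_le_rpow hll0 hll (by linarith)
  calc gaugeReal κ (M * r) ≤ M ^ dimParam κ * gaugeReal κ r := h1
    _ ≤ M ^ dimParam κ * (r ^ dimParam κ * ((2 / ε₀) ^ ((2 - dimParam κ) / 2) *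
        (U4.NN ε₀ K : ℝ) ^ ((2 - dimParam κ) / 2))) :=
        mul_le_mul_of_nonneg_left h2 (Real.rpow_nonneg (by linarith) _)
    _ = _ := by ring

/-- levels of the triggers stay between `K/2 - 1` and `K` -/
lemma lev_bounds {ε₀ : ℝ} {l₀ K i : ℕ} (hi : i < U4.nBlocks ε₀ 2 l₀ K) :
    (K : ℝ) / 2 - 1 ≤ (UB.lev ε₀ l₀ K i : ℝ) ∧ (UB.lev ε₀ l₀ K i : ℝ) ≤ 3 * K / 4 := by
  unfold UB.lev
  unfold U4.nBlocks at hi
  set g := U4.blockLen 2 l₀ (U4.NN ε₀ K) with hg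
  have h1 : (K : ℝ) / 2 - 1 ≤ ((K / 2 : ℕ) : ℝ) := by
    have : K ≤ 2 * (K / 2) + 1 := by omega
    have h' : (K : ℝ) ≤ 2 * ((K / 2 : ℕ) : ℝ) + 1 := by exact_mod_cast this
    linarith
  have h2 : ((K / 2 : ℕ) : ℝ) ≤ K / 2 := by
    have : 2 * (K / 2) ≤ K := by omega
    have h' : 2 * ((K / 2 : ℕ) : ℝ) ≤ K := by exact_mod_cast this
    linarith
  have h3 : 4 * (i * g) ≤ K := by
    have h4 : i ≤ K / (4 * g) := hi.le
    calc 4 * (i * g) = i * (4 * g) := by ring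
      _ ≤ (K / (4 * g)) * (4 * g) := Nat.mul_le_mul_right _ h4
      _ ≤ K := Nat.div_mul_le_self _ _
  have h3' : 4 * ((i : ℝ) * (g : ℝ)) ≤ K := by exact_mod_cast h3
  have h0 : 0 ≤ (i : ℝ) * (g : ℝ) := by positivity
  push_cast
  constructor <;> linarith

/-- the same for the trigger radii `rsc`. -/
theorem gaugeReal_rsc_le {κ : ℝ} (hκ : 0 < κ) (hκ8 : κ < 8) {ε₀ : ℝ} (hε : 0 < ε₀) (l₀ : ℕ)
    {M : ℝ} (hM : 1 ≤ M) :
    ∀ᶠ K : ℕ in atTop, ∀ i < U4.nBlocks ε₀ 2 l₀ K,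
      gaugeReal κ (M * UB.rsc ε₀ l₀ K i) ≤
        (M ^ dimParam κ * (2 / ε₀) ^ ((2 - dimParam κ) / 2)) *
          (UB.rsc ε₀ l₀ K i ^ dimParam κ *
            (U4.NN ε₀ K : ℝ) ^ ((2 - dimParam κ) / 2)) := by
  filter_upwards [gaugeReal_radius_le hκ hκ8 hε hM] with K hK i hi
  obtain ⟨h1, h2⟩ := lev_bounds hi
  have hK0 : (0 : ℝ) ≤ K := Nat.cast_nonneg K
  apply hK
  · unfold UB.rsc
    apply Real.exp_le_exp.2
    linarith
  · unfold UB.rsc
    apply Real.exp_le_exp.2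
    linarith

/-- the gauge of `M e^{-K}` is at most `C e^{-dK} K ^ ((2-d)/2)` -/
theorem gaugeReal_exp_le {κ : ℝ} (hκ : 0 < κ) (hκ8 : κ < 8) {M : ℝ} (hM : 1 ≤ M) {K : ℝ}
    (hK : Real.exp 1 ≤ K) :
    gaugeReal κ (M * Real.exp (-K)) ≤
      M ^ dimParam κ * (Real.exp (-(dimParam κ * K)) * K ^ ((2 - dimParam κ) / 2)) := by
  have hd1 := dim_gt_one hκ
  have hd2 := dim_lt_two hκ8
  have he1 : 1 ≤ Real.exp 1 := Real.one_le_exp (by norm_num)
  have h1 := gaugeReal_mul_le hκ hκ8 hM (Real.exp_pos (-K)).le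
  refine h1.trans (mul_le_mul_of_nonneg_left ?_ (Real.rpow_nonneg (by linarith) _))
  have hre : Real.exp (-K) ≤ e0 := by
    unfold e0
    apply Real.exp_le_exp.2
    linarith
  have hl : Real.log (1 / Real.exp (-K)) = K := by
    rw [one_div, Real.log_inv, Real.log_exp, neg_neg]
  rw [gaugeReal_of_le hre, hl]
  have hx : Real.exp (-K) ^ dimParam κ = Real.exp (-(dimParam κ * K)) := by
    rw [← Real.exp_mul]; congr 1; ring
  rw [hx]
  apply mul_le_mul_of_nonneg_left _ (Real.exp_pos _).le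
  have hlK : 1 ≤ Real.log K := by
    have := Real.log_le_log (Real.exp_pos 1) hK
    rwa [Real.log_exp] at this
  apply Real.rpow_le_rpow (by linarith) _ (by linarith)
  have := Real.log_le_sub_one_of_pos (x := K) (by linarith)
  linarith

end Crest.Agent.R162.G9
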