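import Crest.Agent.R162.OPGen

/-!
Row 162, node GEN, part 2: U2, OP1, OP4 (tube), and functions `|Z|^m V(th, a, x)` (OP2).
-/

set_option autoImplicit false

namespace Crest.Agent.R162.OPGen

open Real Crest.Agent.R162.GEN

/-! ### OP1: `e^{λ a} S^β`, `0 < β < b`, `λ ≤ (κβ/2) min(b-β, 1)`. -/

noncomputable def VOP1 (β lam : ℝ) : ℝ → ℝ → ℝ → ℝ := fun _ a x => Real.exp (lam * a) * cp (-β) x

theorem jet_VOP1 (β lam : ℝ) : Jet (VOP1 β lam) (fun _ _ _ => 0)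
    (fun _ a x => lam * Real.exp (lam * a) * cp (-β) x)
    (fun _ a x => Real.exp (lam * a) * (-β * Real.tanh x * cp (-β) x))
    (fun _ a x => Real.exp (lam * a) * (-β * cp (-β) x * ((-β - 1) * Real.tanh x ^ 2 + 1))) :=
  Jet.acp (hasDerivAt_expc _) (contDiff_expc _) _

theorem gen_OP1 {κ β lam : ℝ} (hκ : 0 < κ) (hβ0 : 0 ≤ β)
    (hlam : lam ≤ κ * β / 2 * min (bb κ - β) 1)
    {c₀ a₀ : ℝ} {q : ℝ × ℝ × ℝ × ℝ} (hq : 0 < q.2.1) :
    OP.gen κ (pq (VOP1 β lam) c₀ a₀) q ≤ 0 := by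
  refine gen_pq_nonpos (jet_VOP1 β lam) κ c₀ a₀ hq ?_
  set x := xc q.1 q.2.1
  set a := q.2.2.2 - a₀
  have ht := GEN.tanh_sq_lt_one x
  have ht0 : 0 ≤ Real.tanh x ^ 2 := sq_nonneg _
  have hc := cp_pos (-β) x
  have e : (0 : ℝ) = 0 * cp (-β) x := by ring
  have h := LVal_cp hκ (Real.exp (lam * a)) 0 (lam * Real.exp (lam * a)) (-β) (Real.tanh x)
    (cp (-β) x)
  rw [← e] at h
  show LVal κ (Real.tanh x) (Real.exp (lam * a) * (-β * Real.tanh x * cp (-β) x))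
    (Real.exp (lam * a) * (-β * cp (-β) x * ((-β - 1) * Real.tanh x ^ 2 + 1))) 0
    (lam * Real.exp (lam * a) * cp (-β) x) ≤ 0
  rw [h]
  set t := Real.tanh x
  set m := min (bb κ - β) 1 with hm
  have hA2 : Ar κ (-β) t ≤ -(κ * β / 2 * m) := by
    unfold Ar
    have h1 : m ≤ (1 - t ^ 2) + (bb κ + -β) * t ^ 2 := by
      have ha : m ≤ bb κ - β := min_le_left _ _
      have hb : m ≤ 1 := min_le_right _ _
      nlinarith
    have h2 : 0 ≤ κ * β / 2 := by positivity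
    nlinarith [mul_le_mul_of_nonneg_left h1 h2]
  have hexp := Real.exp_pos (lam * a)
  have : Real.exp (lam * a) * Ar κ (-β) t + 4 * (1 - t ^ 2) * 0 + lam * Real.exp (lam * a) ≤ 0 := by
    have := mul_nonpos_of_nonneg_of_nonpos hexp.le (by linarith : Ar κ (-β) t + lam ≤ 0)
    nlinarith
  exact mul_nonpos_of_nonpos_of_nonneg this hc.le

/-! ### U2: `G (th² S^{-q} - C th)`. -/

noncomputable def VU2 (κ r C : ℝ) : ℝ → ℝ → ℝ → ℝ := fun th _ x =>
  (Real.exp (κ * bb κ / 8 * th) * th ^ 2) * cp (r - bb κ) x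
    + (-C * (Real.exp (κ * bb κ / 8 * th) * th)) * cp (-bb κ) x

theorem VU2_eq (κ r C th a x : ℝ) :
    VU2 κ r C th a x = VG κ th a x * (th ^ 2 * cp r x - C * th) := by
  unfold VU2 VG
  rw [show r - bb κ = -bb κ + r by ring, ← cp_mul]
  ring

theorem jet_VU2 (κ r C : ℝ) : Jet (VU2 κ r C)
    (fun th _ x => (κ * bb κ / 8 * Real.exp (κ * bb κ / 8 * th) * th ^ 2
        + Real.exp (κ * bb κ / 8 * th) * (2 * th)) * cp (r - bb κ) x
      + (-C * (κ * bb κ / 8 * Real.exp (κ * bb κ / 8 * th) * th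
        + Real.exp (κ * bb κ / 8 * th) * 1)) * cp (-bb κ) x)
    (fun _ _ _ => 0 + 0)
    (fun th _ x => (Real.exp (κ * bb κ / 8 * th) * th ^ 2)
        * ((r - bb κ) * Real.tanh x * cp (r - bb κ) x)
      + (-C * (Real.exp (κ * bb κ / 8 * th) * th)) * (-bb κ * Real.tanh x * cp (-bb κ) x))
    (fun th _ x => (Real.exp (κ * bb κ / 8 * th) * th ^ 2)
        * ((r - bb κ) * cp (r - bb κ) x * ((r - bb κ - 1) * Real.tanh x ^ 2 + 1))
      + (-C * (Real.exp (κ * bb κ / 8 * th) * th))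
        * (-bb κ * cp (-bb κ) x * ((-bb κ - 1) * Real.tanh x ^ 2 + 1))) := by
  refine (Jet.tcp (φ := fun s => Real.exp (κ * bb κ / 8 * s) * s ^ 2)
    (φ' := fun s => κ * bb κ / 8 * Real.exp (κ * bb κ / 8 * s) * s ^ 2
        + Real.exp (κ * bb κ / 8 * s) * (2 * s)) ?_ ?_ _).add
    (Jet.tcp (φ := fun s => -C * (Real.exp (κ * bb κ / 8 * s) * s))
      (φ' := fun s => -C * (κ * bb κ / 8 * Real.exp (κ * bb κ / 8 * s) * s
        + Real.exp (κ * bb κ / 8 * s) * 1)) ?_ ?_ _)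
  · intro s
    have h2 : HasDerivAt (fun s : ℝ => s ^ 2) (2 * s) s := by simpa using hasDerivAt_pow 2 s
    exact (hasDerivAt_expc _ s).mul h2
  · fun_prop
  · intro s
    exact ((hasDerivAt_expc _ s).mul (hasDerivAt_id s)).const_mul (-C)
  · fun_prop

/-- the admissible constant in U2. -/
noncomputable def CU2 (κ r : ℝ) : ℝ :=
  (2 + κ / 8 * r * (1 + bb κ - r)) *
    ((2 + κ / 8 * r * (1 + bb κ - r)) / (κ / 8 * r * (bb κ - r))) ^ (r / 2)

theorem CU2_pos {κ r : ℝ} (hκ : 0 < κ) (hr : 0 < r) (hrb : r < bb κ) : 0 < CU2 κ r := by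
  unfold CU2
  have h1 : 0 < 2 + κ / 8 * r * (1 + bb κ - r) := by
    have : 0 < κ / 8 * r * (1 + bb κ - r) := by
      have : 0 < 1 + bb κ - r := by linarith
      positivity
    linarith
  have h2 : 0 < κ / 8 * r * (bb κ - r) := by
    have : 0 < bb κ - r := by linarith
    positivity
  positivity

/-- the scalar inequality behind U2. -/
theorem u2_scalar {κ r : ℝ} (hκ : 0 < κ) (hr : 0 < r) (hrb : r < bb κ) (hr2 : r ≤ 2)
    {th h : ℝ} (hth : 0 ≤ th) (hth1 : th ≤ 1) (hh : 1 ≤ h) :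
    h ^ (r / 2) * (κ / 8 * r * th ^ 2 * (1 - (bb κ - r) * (h - 1)) + 2 * th) ≤ CU2 κ r := by
  set A1 := 2 + κ / 8 * r * (1 + bb κ - r) with hA1
  set c1 := κ / 8 * r * (bb κ - r) with hc1
  have hkr : 0 < κ / 8 * r := by positivity
  have hA1pos : 0 < A1 := by
    have : 0 < κ / 8 * r * (1 + bb κ - r) := mul_pos hkr (by linarith)
    rw [hA1]; linarith
  have hA1' : 0 ≤ κ / 8 * r * (1 + bb κ - r) := (mul_pos hkr (by linarith)).le
  have hc1pos : 0 < c1 := mul_pos hkr (by linarith)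
  have hh0 : 0 < h := by linarith
  have hhp : 0 < h ^ (r / 2) := Real.rpow_pos_of_pos hh0 _
  have hC : CU2 κ r = A1 * (A1 / c1) ^ (r / 2) := rfl
  have hCpos := CU2_pos hκ hr hrb
  have e : κ / 8 * r * th ^ 2 * (1 - (bb κ - r) * (h - 1)) + 2 * th
      = κ / 8 * r * (1 + bb κ - r) * th ^ 2 + 2 * th - c1 * th ^ 2 * h := by
    rw [hc1]; ring
  have hth2 : th ^ 2 ≤ th := by nlinarith
  have e2 : κ / 8 * r * th ^ 2 * (1 - (bb κ - r) * (h - 1)) + 2 * th ≤ th * (A1 - c1 * (th * h)) := by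
    rw [e, hA1]
    nlinarith [mul_le_mul_of_nonneg_left hth2 hA1']
  rcases le_or_gt (A1 / c1) (th * h) with hcase | hcase
  · have : A1 ≤ c1 * (th * h) := by
      rw [div_le_iff₀ hc1pos] at hcase; linarith
    have h3 : th * (A1 - c1 * (th * h)) ≤ 0 :=
      mul_nonpos_of_nonneg_of_nonpos hth (by linarith)
    have h4 : h ^ (r / 2) * (κ / 8 * r * th ^ 2 * (1 - (bb κ - r) * (h - 1)) + 2 * th) ≤ 0 :=
      mul_nonpos_of_nonneg_of_nonpos hhp.le (e2.trans h3)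
    linarith
  · have h3 : th * (A1 - c1 * (th * h)) ≤ th * A1 := by
      have : 0 ≤ c1 * (th * h) := by positivity
      nlinarith
    have h4 : h ^ (r / 2) * (κ / 8 * r * th ^ 2 * (1 - (bb κ - r) * (h - 1)) + 2 * th)
        ≤ h ^ (r / 2) * (th * A1) := mul_le_mul_of_nonneg_left (e2.trans h3) hhp.le
    rcases eq_or_lt_of_le hth with h0 | h0
    · rw [← h0] at h4 ⊢
      have : h ^ (r / 2) * (0 * A1) = 0 := by ring
      linarith
    · have h5 : th ≤ th ^ (r / 2) := by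
        have := Real.rpow_le_rpow_of_exponent_ge h0 hth1 (by linarith : r / 2 ≤ 1)
        simpa using this
      have h6 : h ^ (r / 2) * th ≤ (A1 / c1) ^ (r / 2) := by
        calc h ^ (r / 2) * th ≤ h ^ (r / 2) * th ^ (r / 2) := mul_le_mul_of_nonneg_left h5 hhp.le
          _ = (th * h) ^ (r / 2) := by rw [Real.mul_rpow h0.le hh0.le]; ring
          _ ≤ (A1 / c1) ^ (r / 2) :=
            Real.rpow_le_rpow (by positivity) hcase.le (by positivity)
      calc _ ≤ h ^ (r / 2) * (th * A1) := h4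
        _ = (h ^ (r / 2) * th) * A1 := by ring
        _ ≤ (A1 / c1) ^ (r / 2) * A1 := mul_le_mul_of_nonneg_right h6 hA1pos.le
        _ = CU2 κ r := by rw [hC]; ring

/-- **U2.** `C ≥ CU2 κ r`, `0 < r < b`, `r ≤ 2`, `0 ≤ th = c₀ - L ≤ 1`. -/
theorem gen_U2 {κ r C : ℝ} (hκ : 0 < κ) (hr : 0 < r) (hrb : r < bb κ) (hr2 : r ≤ 2)
    (hC : CU2 κ r ≤ C) {c₀ a₀ : ℝ} {q : ℝ × ℝ × ℝ × ℝ} (hq : 0 < q.2.1)
    (hth0 : q.2.2.1 ≤ c₀) (hth1 : c₀ - 1 ≤ q.2.2.1) :
    OP.gen κ (pq (VU2 κ r C) c₀ a₀) q ≤ 0 := by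
  refine gen_pq_nonpos (jet_VU2 κ r C) κ c₀ a₀ hq ?_
  set x := xc q.1 q.2.1
  set th := c₀ - q.2.2.1 with hth
  have hth0' : 0 ≤ th := by rw [hth]; linarith
  have hth1' : th ≤ 1 := by rw [hth]; linarith
  have e3 : (0 + 0 : ℝ) = 0 * cp (r - bb κ) x + 0 * cp (-bb κ) x := by ring
  rw [e3, LVal_add, LVal_cp hκ, LVal_cp hκ]
  have h2 := cp_two_mul x
  set t := Real.tanh x with ht
  have htt := GEN.tanh_sq_lt_one x
  rw [← ht] at htt
  set h := cp 2 x with hh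
  have hpos : 0 < 1 - t ^ 2 := by linarith
  have hinv : h = 1 / (1 - t ^ 2) := by
    rw [eq_div_iff hpos.ne']; exact h2
  have hh1 : 1 ≤ h := by
    rw [hinv, le_div_iff₀ hpos]; nlinarith [sq_nonneg t]
  have hcpr : cp r x = h ^ (r / 2) := by
    rw [hh]; unfold cp
    rw [← Real.rpow_mul (Real.cosh_pos x).le]; congr 1; ring
  have hcp : cp (r - bb κ) x = h ^ (r / 2) * cp (-bb κ) x := by
    rw [← hcpr, cp_mul]; rfl
  have hexp := Real.exp_pos (κ * bb κ / 8 * th)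
  set E := Real.exp (κ * bb κ / 8 * th)
  have hb := cp_pos (-bb κ) x
  set B := cp (-bb κ) x
  rw [hcp]
  have key := u2_scalar hκ hr hrb hr2 hth0' hth1' hh1
  have e5 : (E * th ^ 2 * Ar κ (r - bb κ) t
        + 4 * (1 - t ^ 2) * (κ * bb κ / 8 * E * th ^ 2 + E * (2 * th)) + 0) * (h ^ (r / 2) * B)
      + (-C * (E * th) * Ar κ (-bb κ) t
        + 4 * (1 - t ^ 2) * (-C * (κ * bb κ / 8 * E * th + E * 1)) + 0) * B
      = 4 * (1 - t ^ 2) * E * B *
        (h ^ (r / 2) * (κ / 8 * r * th ^ 2 * (1 - (bb κ - r) * (h - 1)) + 2 * th) - C) := by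
    unfold Ar
    rw [hinv]
    field_simp
    ring
  rw [e5]
  exact mul_nonpos_of_nonneg_of_nonpos (by positivity) (by linarith)

/-! ### OP4: the tube function `e^{Λ a} (1 - (x - (s a + c))²)²`. -/

noncomputable def VT (Lam s c : ℝ) : ℝ → ℝ → ℝ → ℝ := fun _ a x =>
  Real.exp (Lam * a) * (1 - (x - (s * a + c)) ^ 2) ^ 2

theorem jet_VT (Lam s c : ℝ) : Jet (VT Lam s c) (fun _ _ _ => 0)
    (fun _ a x => Real.exp (Lam * a) * (Lam * (1 - (x - (s * a + c)) ^ 2) ^ 2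
      + s * (4 * (x - (s * a + c)) * (1 - (x - (s * a + c)) ^ 2))))
    (fun _ a x => Real.exp (Lam * a) * (-4 * (x - (s * a + c)) * (1 - (x - (s * a + c)) ^ 2)))
    (fun _ a x => Real.exp (Lam * a) * (12 * (x - (s * a + c)) ^ 2 - 4)) where
  smooth := by unfold VT; fun_prop
  ht th a x := hasDerivAt_const _ _
  ha th a x := by
    have h1 : HasDerivAt (fun a => x - (s * a + c)) (-s) a := by
      simpa using (((hasDerivAt_id a).const_mul s).add_const c).const_sub x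
    have h2 := ((h1.pow 2).const_sub 1).pow 2
    have h3 := (hasDerivAt_expc Lam a).mul h2
    refine h3.congr_deriv ?_
    simp only [Pi.pow_apply]
    push_cast
    ring
  hx th a x := by
    have h1 : HasDerivAt (fun x => x - (s * a + c)) 1 x := (hasDerivAt_id x).sub_const _
    have h2 := (((h1.pow 2).const_sub 1).pow 2).const_mul (Real.exp (Lam * a))
    refine h2.congr_deriv ?_
    simp only [Pi.pow_apply]
    push_cast
    ring
  hxx th a x := by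
    have h1 : HasDerivAt (fun x => x - (s * a + c)) 1 x := (hasDerivAt_id x).sub_const _
    have h2 := ((h1.const_mul (-4)).mul ((h1.pow 2).const_sub 1)).const_mul (Real.exp (Lam * a))
    refine h2.congr_deriv ?_
    simp only [Pi.pow_apply]
    push_cast
    ring

/-- admissible exponential rate for the tube. -/
noncomputable def LamT (κ : ℝ) : ℝ := (6 * κ + 4 * (|κ / 2 - 4| + 1)) ^ 2 / (16 * κ)

/-- **OP4**: the tube function is a subsolution in the tube, `|slope| ≤ 1`. -/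
theorem gen_tube {κ Lam s c : ℝ} (hκ : 0 < κ) (hLam : LamT κ ≤ Lam) (hs : |s| ≤ 1)
    {c₀ a₀ : ℝ} {q : ℝ × ℝ × ℝ × ℝ} (hq : 0 < q.2.1)
    (hin : |xc q.1 q.2.1 - (s * (q.2.2.2 - a₀) + c)| ≤ 1) :
    0 ≤ OP.gen κ (pq (VT Lam s c) c₀ a₀) q := by
  refine gen_pq_nonneg (jet_VT Lam s c) κ c₀ a₀ hq ?_
  set x := xc q.1 q.2.1
  set a := q.2.2.2 - a₀
  set u := x - (s * a + c) with hu
  set t := Real.tanh x with ht
  have htt := GEN.tanh_sq_lt_one x
  rw [← ht] at htt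
  have hE := Real.exp_pos (Lam * a)
  set E := Real.exp (Lam * a)
  have e : LVal κ t (E * (-4 * u * (1 - u ^ 2))) (E * (12 * u ^ 2 - 4)) 0
      (E * (Lam * (1 - u ^ 2) ^ 2 + s * (4 * u * (1 - u ^ 2))))
      = E * (κ / 2 * (12 * u ^ 2 - 4) + ((4 - κ / 2) * t - s) * (-4 * u * (1 - u ^ 2))
          + Lam * (1 - u ^ 2) ^ 2) := by
    unfold LVal; ring
  rw [e]
  apply mul_nonneg hE.le
  have hu1 : u ^ 2 ≤ 1 := by
    have := abs_le.1 hin
    nlinarith [this.1, this.2]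
  set w := 1 - u ^ 2 with hw
  have hw0 : 0 ≤ w := by rw [hw]; linarith
  have habst : |t| ≤ 1 := (sq_le_one_iff_abs_le_one t).1 htt.le
  set M0 := |κ / 2 - 4| + 1 with hM0
  have hM0pos : 0 < M0 := by positivity
  have hmu : |(4 - κ / 2) * t - s| ≤ M0 := by
    calc |(4 - κ / 2) * t - s| ≤ |(4 - κ / 2) * t| + |s| := abs_sub _ _
      _ = |4 - κ / 2| * |t| + |s| := by rw [abs_mul]
      _ ≤ |4 - κ / 2| * 1 + 1 := by gcongr
      _ = M0 := by rw [hM0, abs_sub_comm]; ring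
  have hprod : |((4 - κ / 2) * t - s) * (-4 * u * w)| ≤ 4 * M0 * w := by
    rw [abs_mul, abs_mul, abs_mul]
    have h4 : |(-4 : ℝ)| = 4 := by norm_num
    have huabs : |u| ≤ 1 := hin
    rw [h4, abs_of_nonneg hw0]
    calc |(4 - κ / 2) * t - s| * (4 * |u| * w) ≤ M0 * (4 * 1 * w) := by gcongr
      _ = 4 * M0 * w := by ring
  have hlow := (abs_le.1 hprod).1
  have hu2 : κ / 2 * (12 * u ^ 2 - 4) = 4 * κ - 6 * κ * w := by rw [hw]; ring
  rw [hu2]
  have hLamT : LamT κ * (16 * κ) = (6 * κ + 4 * M0) ^ 2 := by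
    unfold LamT
    rw [div_mul_cancel₀ _ (by positivity : (16 * κ) ≠ 0)]
  have hdisc : (6 * κ + 4 * M0) ^ 2 ≤ 16 * κ * Lam := by
    rw [← hLamT, mul_comm]
    exact mul_le_mul_of_nonneg_left hLam (by positivity)
  -- `4κ - (6κ+4M0) w + Λ w² ≥ 0`
  have hfin : 0 ≤ 4 * κ - (6 * κ + 4 * M0) * w + Lam * w ^ 2 := by
    have hid : 16 * κ * (4 * κ - (6 * κ + 4 * M0) * w + Lam * w ^ 2)
        = (8 * κ - (6 * κ + 4 * M0) * w) ^ 2
          + (16 * κ * Lam - (6 * κ + 4 * M0) ^ 2) * w ^ 2 := by ring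
    have h16 : 0 ≤ 16 * κ * (4 * κ - (6 * κ + 4 * M0) * w + Lam * w ^ 2) := by
      rw [hid]
      exact add_nonneg (sq_nonneg _) (mul_nonneg (sub_nonneg.2 hdisc) (sq_nonneg w))
    exact nonneg_of_mul_nonneg_right h16 (by positivity)
  have hfin2 : 4 * κ - (6 * κ + 4 * M0) * w + Lam * w ^ 2
      = 4 * κ - 6 * κ * w - 4 * M0 * w + Lam * w ^ 2 := by ring
  rw [hfin2] at hfin
  linarith

end Crest.Agent.R162.OPGen
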