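import Crest.Agent.R162.GEN2

/-!
Row 162, node GEN, part 3: nonnegative version of U2; functions `|Z|^m V(th, a, x)` (OP2, LB).
-/

set_option autoImplicit false

namespace Crest.Agent.R162.OPGen

open Real Crest.Agent.R162.GEN

lemma LVal_smul (κ t k a1 a2 a3 a4 : ℝ) :
    LVal κ t (k * a1) (k * a2) (k * a3) (k * a4) = k * LVal κ t a1 a2 a3 a4 := by
  unfold LVal; ring

theorem Jet.smul {V Vt Va Vx Vxx : ℝ → ℝ → ℝ → ℝ} (J : Jet V Vt Va Vx Vxx) (k : ℝ) :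
    Jet (fun th a x => k * V th a x) (fun th a x => k * Vt th a x)
      (fun th a x => k * Va th a x) (fun th a x => k * Vx th a x)
      (fun th a x => k * Vxx th a x) where
  smooth := contDiff_const.mul J.smooth
  ht th a x := (J.ht th a x).const_mul k
  ha th a x := (J.ha th a x).const_mul k
  hx th a x := (J.hx th a x).const_mul k
  hxx th a x := (J.hxx th a x).const_mul k

theorem gen_pq_add_smul {V Vt Va Vx Vxx W Wt Wa Wx Wxx : ℝ → ℝ → ℝ → ℝ}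
    (J : Jet V Vt Va Vx Vxx) (K : Jet W Wt Wa Wx Wxx) (k κ c₀ a₀ : ℝ)
    {q : ℝ × ℝ × ℝ × ℝ} (hq : 0 < q.2.1) :
    OP.gen κ (pq (fun th a x => V th a x + k * W th a x) c₀ a₀) q
      = OP.gen κ (pq V c₀ a₀) q + k * OP.gen κ (pq W c₀ a₀) q := by
  rw [gen_pq (J.add (Jet.smul K k)) κ c₀ a₀ hq, gen_pq J κ c₀ a₀ hq, gen_pq K κ c₀ a₀ hq,
    LVal_add, LVal_smul]
  ring

/-! ### U2, nonnegative version `G (th² S^{-r} + C (c - th))`. -/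

noncomputable def VU2c (κ r C c : ℝ) : ℝ → ℝ → ℝ → ℝ := fun th a x =>
  VU2 κ r C th a x + (C * c) * VG κ th a x

theorem VU2c_eq (κ r C c th a x : ℝ) :
    VU2c κ r C c th a x = VG κ th a x * (th ^ 2 * cp r x + C * (c - th)) := by
  rw [VU2c, VU2_eq]; ring

theorem VU2c_nonneg {κ r C c th : ℝ} (hC : 0 ≤ C) (hth : th ≤ c) (a x : ℝ) :
    0 ≤ VU2c κ r C c th a x := by
  rw [VU2c_eq]
  have h1 := cp_pos r x
  have h2 := cp_pos (-bb κ) x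
  have h3 : 0 ≤ C * (c - th) := mul_nonneg hC (by linarith)
  unfold VG
  positivity

theorem contDiffOn_U2c (κ r C c c₀ a₀ : ℝ) :
    ContDiffOn ℝ 3 (pq (VU2c κ r C c) c₀ a₀) {q | 0 < q.2.1} :=
  contDiffOn_pq3 ((jet_VU2 κ r C).add (Jet.smul (jet_VG κ) (C * c))) c₀ a₀

theorem gen_U2c {κ r C c : ℝ} (hκ : 0 < κ) (hr : 0 < r) (hrb : r < bb κ) (hr2 : r ≤ 2)
    (hC : CU2 κ r ≤ C) {c₀ a₀ : ℝ} {q : ℝ × ℝ × ℝ × ℝ} (hq : 0 < q.2.1)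
    (hth0 : q.2.2.1 ≤ c₀) (hth1 : c₀ - 1 ≤ q.2.2.1) :
    OP.gen κ (pq (VU2c κ r C c) c₀ a₀) q ≤ 0 := by
  have h4 : OP.gen κ (pq (VU2c κ r C c) c₀ a₀) q
      = OP.gen κ (pq (fun th a x => VU2 κ r C th a x + (C * c) * VG κ th a x) c₀ a₀) q := rfl
  rw [h4, gen_pq_add_smul (jet_VU2 κ r C) (jet_VG κ) (C * c) κ c₀ a₀ hq, gen_G hκ hq]
  have h2 := gen_U2 (a₀ := a₀) hκ hr hrb hr2 hC hq hth0 hth1
  linarith

/-! ### Functions `|Z|^m V (th, a, x)`. -/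

/-- `|Z|^m V(c₀ - L, a - a₀, x)` as a function of the state. -/
noncomputable def zq (m : ℝ) (V : ℝ → ℝ → ℝ → ℝ) (c₀ a₀ : ℝ) (q : ℝ × ℝ × ℝ × ℝ) : ℝ :=
  (q.1 ^ 2 + q.2.1 ^ 2) ^ (m / 2) * pq V c₀ a₀ q

variable {V Vt Va Vx Vxx : ℝ → ℝ → ℝ → ℝ}

theorem zq_eq (m : ℝ) (V : ℝ → ℝ → ℝ → ℝ) (c₀ a₀ : ℝ) (q : ℝ × ℝ × ℝ × ℝ) :
    zq m V c₀ a₀ q = √(q.1 ^ 2 + q.2.1 ^ 2) ^ m * pq V c₀ a₀ q := by
  unfold zq
  rw [Real.sqrt_eq_rpow, ← Real.rpow_mul (by positivity)]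
  congr 2; ring

theorem contDiffOn_zq (m : ℝ) (J : Jet V Vt Va Vx Vxx) (c₀ a₀ : ℝ) :
    ContDiffOn ℝ (⊤ : ℕ∞) (zq m V c₀ a₀) {q | 0 < q.2.1} := by
  refine ContDiffOn.mul ?_ (contDiffOn_pq J c₀ a₀)
  refine ContDiffOn.rpow_const_of_ne ?_ ?_
  · exact ContDiff.contDiffOn (by fun_prop)
  · intro q hq; exact (R_pos (X := q.1) hq).ne'

theorem contDiffOn_zq3 (m : ℝ) (J : Jet V Vt Va Vx Vxx) (c₀ a₀ : ℝ) :
    ContDiffOn ℝ 3 (zq m V c₀ a₀) {q | 0 < q.2.1} :=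
  (contDiffOn_zq m J c₀ a₀).of_le (WithTop.coe_le_coe.2 le_top)

lemma hasDerivAt_R_X (m : ℝ) {X Y : ℝ} (hY : 0 < Y) :
    HasDerivAt (fun s => (s ^ 2 + Y ^ 2) ^ (m / 2))
      (m * X / (X ^ 2 + Y ^ 2) * (X ^ 2 + Y ^ 2) ^ (m / 2)) X := by
  have hR := R_pos (X := X) hY
  have h1 : HasDerivAt (fun s : ℝ => s ^ 2 + Y ^ 2) (2 * X) X := by
    simpa using ((hasDerivAt_pow 2 X).add_const (Y ^ 2))
  have h2 := h1.rpow_const (p := m / 2) (Or.inl hR.ne')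
  refine h2.congr_deriv ?_
  rw [Real.rpow_sub_one hR.ne']
  field_simp

lemma hasDerivAt_R_Y (m : ℝ) {X Y : ℝ} (hY : 0 < Y) :
    HasDerivAt (fun s => (X ^ 2 + s ^ 2) ^ (m / 2))
      (m * Y / (X ^ 2 + Y ^ 2) * (X ^ 2 + Y ^ 2) ^ (m / 2)) Y := by
  have hR := R_pos (X := X) hY
  have h1 : HasDerivAt (fun s : ℝ => X ^ 2 + s ^ 2) (2 * Y) Y := by
    simpa using ((hasDerivAt_pow 2 Y).const_add (X ^ 2))
  have h2 := h1.rpow_const (p := m / 2) (Or.inl hR.ne')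
  refine h2.congr_deriv ?_
  rw [Real.rpow_sub_one hR.ne']
  field_simp

lemma hasDerivAt_mXR (m : ℝ) {X Y : ℝ} (hY : 0 < Y) :
    HasDerivAt (fun s => m * s / (s ^ 2 + Y ^ 2))
      (m * (Y ^ 2 - X ^ 2) / (X ^ 2 + Y ^ 2) ^ 2) X := by
  have hR := R_pos (X := X) hY
  have h1 : HasDerivAt (fun s : ℝ => s ^ 2 + Y ^ 2) (2 * X) X := by
    simpa using ((hasDerivAt_pow 2 X).add_const (Y ^ 2))
  have h2 : HasDerivAt (fun s : ℝ => m * s) m X := by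
    simpa using (hasDerivAt_id X).const_mul m
  refine (h2.div h1 hR.ne').congr_deriv ?_
  field_simp
  ring

/-- The generator of `|Z|^m V(th, a, x)` (with `t = tanh x = -cos Θ`):
`|Z|^{m-2} [ L V + (m (2-κ/2)(2t²-1) + κ/2 m² t²) V + m κ t V_x ]`. -/
theorem gen_zq (m : ℝ) (J : Jet V Vt Va Vx Vxx) (κ c₀ a₀ : ℝ) {q : ℝ × ℝ × ℝ × ℝ}
    (hq : 0 < q.2.1) :
    OP.gen κ (zq m V c₀ a₀) q
      = (q.1 ^ 2 + q.2.1 ^ 2) ^ (m / 2) * (1 / (q.1 ^ 2 + q.2.1 ^ 2)) *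
        (LVal κ (Real.tanh (xc q.1 q.2.1))
          (Vx (c₀ - q.2.2.1) (q.2.2.2 - a₀) (xc q.1 q.2.1))
          (Vxx (c₀ - q.2.2.1) (q.2.2.2 - a₀) (xc q.1 q.2.1))
          (Vt (c₀ - q.2.2.1) (q.2.2.2 - a₀) (xc q.1 q.2.1))
          (Va (c₀ - q.2.2.1) (q.2.2.2 - a₀) (xc q.1 q.2.1))
        + (m * (2 - κ / 2) * (2 * Real.tanh (xc q.1 q.2.1) ^ 2 - 1)
            + κ / 2 * m ^ 2 * Real.tanh (xc q.1 q.2.1) ^ 2)
            * V (c₀ - q.2.2.1) (q.2.2.2 - a₀) (xc q.1 q.2.1)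
        + m * κ * Real.tanh (xc q.1 q.2.1)
            * Vx (c₀ - q.2.2.1) (q.2.2.2 - a₀) (xc q.1 q.2.1)) := by
  obtain ⟨X, Y, L, a⟩ := q
  replace hq : 0 < Y := hq
  have P := J.pull
  have hR := R_pos (X := X) hq
  -- first derivative in X
  have h1 : deriv (fun x => zq m V c₀ a₀ (x, Y, L, a)) = fun s =>
      m * s / (s ^ 2 + Y ^ 2) * (s ^ 2 + Y ^ 2) ^ (m / 2) * V (c₀ - L) (a - a₀) (xc s Y)
      + (s ^ 2 + Y ^ 2) ^ (m / 2) * (Vx (c₀ - L) (a - a₀) (xc s Y) * (-(1 / √(s ^ 2 + Y ^ 2)))) := by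
    funext s
    exact ((hasDerivAt_R_X m (X := s) hq).mul (P.hX s Y (c₀ - L) (a - a₀) hq)).deriv
  have h1' : HasDerivAt (fun s =>
      m * s / (s ^ 2 + Y ^ 2) * (s ^ 2 + Y ^ 2) ^ (m / 2) * V (c₀ - L) (a - a₀) (xc s Y)
      + (s ^ 2 + Y ^ 2) ^ (m / 2) * (Vx (c₀ - L) (a - a₀) (xc s Y) * (-(1 / √(s ^ 2 + Y ^ 2)))))
      (((m * (Y ^ 2 - X ^ 2) / (X ^ 2 + Y ^ 2) ^ 2 * (X ^ 2 + Y ^ 2) ^ (m / 2)
          + m * X / (X ^ 2 + Y ^ 2) * (m * X / (X ^ 2 + Y ^ 2) * (X ^ 2 + Y ^ 2) ^ (m / 2)))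
          * V (c₀ - L) (a - a₀) (xc X Y)
        + m * X / (X ^ 2 + Y ^ 2) * (X ^ 2 + Y ^ 2) ^ (m / 2)
          * (Vx (c₀ - L) (a - a₀) (xc X Y) * (-(1 / √(X ^ 2 + Y ^ 2)))))
       + (m * X / (X ^ 2 + Y ^ 2) * (X ^ 2 + Y ^ 2) ^ (m / 2)
          * (Vx (c₀ - L) (a - a₀) (xc X Y) * (-(1 / √(X ^ 2 + Y ^ 2))))
        + (X ^ 2 + Y ^ 2) ^ (m / 2) * (Vxx (c₀ - L) (a - a₀) (xc X Y) * (1 / (X ^ 2 + Y ^ 2))
          + Vx (c₀ - L) (a - a₀) (xc X Y) * (X / ((X ^ 2 + Y ^ 2) * √(X ^ 2 + Y ^ 2)))))) X :=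
    (((hasDerivAt_mXR m (X := X) hq).mul (hasDerivAt_R_X m (X := X) hq)).mul
      (P.hX X Y (c₀ - L) (a - a₀) hq)).add
      ((hasDerivAt_R_X m (X := X) hq).mul (P.hXX X Y (c₀ - L) (a - a₀) hq))
  have e0 : deriv (fun x => zq m V c₀ a₀ (x, Y, L, a)) X =
      m * X / (X ^ 2 + Y ^ 2) * (X ^ 2 + Y ^ 2) ^ (m / 2) * V (c₀ - L) (a - a₀) (xc X Y)
      + (X ^ 2 + Y ^ 2) ^ (m / 2)
        * (Vx (c₀ - L) (a - a₀) (xc X Y) * (-(1 / √(X ^ 2 + Y ^ 2)))) := by rw [h1]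
  have e1 := h1'.deriv
  rw [← h1] at e1
  have h2 : deriv (fun y => zq m V c₀ a₀ (X, y, L, a)) Y
      = m * Y / (X ^ 2 + Y ^ 2) * (X ^ 2 + Y ^ 2) ^ (m / 2) * V (c₀ - L) (a - a₀) (xc X Y)
        + (X ^ 2 + Y ^ 2) ^ (m / 2)
          * (Vx (c₀ - L) (a - a₀) (xc X Y) * (X / (Y * √(X ^ 2 + Y ^ 2)))) :=
    ((hasDerivAt_R_Y m (X := X) hq).mul (P.hY X Y (c₀ - L) (a - a₀) hq)).deriv
  have h3 : deriv (fun l => zq m V c₀ a₀ (X, Y, l, a)) L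
      = (X ^ 2 + Y ^ 2) ^ (m / 2) * -Vt (c₀ - L) (a - a₀) (xc X Y) := by
    have e : HasDerivAt (fun l : ℝ => c₀ - l) (-1) L := by
      simpa using (hasDerivAt_id L).const_sub c₀
    have := ((J.ht (c₀ - L) (a - a₀) (xc X Y)).comp L e).const_mul ((X ^ 2 + Y ^ 2) ^ (m / 2))
    rw [show (fun l => zq m V c₀ a₀ (X, Y, l, a)) = (fun y => (X ^ 2 + Y ^ 2) ^ (m / 2) *
      ((fun s => V s (a - a₀) (xc X Y)) ∘ (fun l => c₀ - l)) y) from rfl, this.deriv]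
    ring
  have h4 : deriv (fun s => zq m V c₀ a₀ (X, Y, L, s)) a
      = (X ^ 2 + Y ^ 2) ^ (m / 2) * Va (c₀ - L) (a - a₀) (xc X Y) := by
    have e : HasDerivAt (fun s : ℝ => s - a₀) 1 a := by
      simpa using (hasDerivAt_id a).sub_const a₀
    have := ((J.ha (c₀ - L) (a - a₀) (xc X Y)).comp a e).const_mul ((X ^ 2 + Y ^ 2) ^ (m / 2))
    rw [show (fun s => zq m V c₀ a₀ (X, Y, L, s)) = (fun y => (X ^ 2 + Y ^ 2) ^ (m / 2) *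
      ((fun s => V (c₀ - L) s (xc X Y)) ∘ (fun s => s - a₀)) y) from rfl, this.deriv]
    ring
  simp only [OP.gen]
  rw [e1, e0, h2, h3, h4, tanh_xc hq]
  unfold LVal
  generalize V (c₀ - L) (a - a₀) (xc X Y) = v
  generalize Vx (c₀ - L) (a - a₀) (xc X Y) = vx
  generalize Vxx (c₀ - L) (a - a₀) (xc X Y) = vxx
  generalize Vt (c₀ - L) (a - a₀) (xc X Y) = vt
  generalize Va (c₀ - L) (a - a₀) (xc X Y) = va
  generalize (X ^ 2 + Y ^ 2) ^ (m / 2) = E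
  have hr : 0 < √(X ^ 2 + Y ^ 2) := Real.sqrt_pos.2 hR
  have hs : √(X ^ 2 + Y ^ 2) ^ 2 = X ^ 2 + Y ^ 2 := Real.sq_sqrt hR.le
  generalize √(X ^ 2 + Y ^ 2) = r at hr hs ⊢
  have hY2 : Y ^ 2 = r ^ 2 - X ^ 2 := by rw [hs]; ring
  rw [← hs]
  have hr0 : r ≠ 0 := hr.ne'
  have hY0 : Y ≠ 0 := hq.ne'
  field_simp
  rw [hY2]
  ring

/-! ### OP2: `|Z|^m e^{-C a}`. -/

noncomputable def VE (c : ℝ) : ℝ → ℝ → ℝ → ℝ := fun _ a _ => Real.exp (c * a)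

theorem jet_VE (c : ℝ) : Jet (VE c) (fun _ _ _ => 0) (fun _ a _ => c * Real.exp (c * a))
    (fun _ _ _ => 0) (fun _ _ _ => 0) where
  smooth := by unfold VE; fun_prop
  ht th a x := hasDerivAt_const _ _
  ha th a x := hasDerivAt_expc c a
  hx th a x := hasDerivAt_const _ _
  hxx th a x := hasDerivAt_const _ _

/-- **OP2**: `|Z|^m e^{-C (a - a₀)}` has nonpositive generator for `C ≥ |m| |2-κ/2| + κ/2 m²`. -/
theorem gen_OP2 {κ m C : ℝ} (hκ : 0 < κ) (hC : |m| * |2 - κ / 2| + κ / 2 * m ^ 2 ≤ C)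
    {c₀ a₀ : ℝ} {q : ℝ × ℝ × ℝ × ℝ} (hq : 0 < q.2.1) :
    OP.gen κ (zq m (VE (-C)) c₀ a₀) q ≤ 0 := by
  rw [gen_zq m (jet_VE (-C)) κ c₀ a₀ hq]
  have hR := R_pos (X := q.1) hq
  set x := xc q.1 q.2.1
  set a := q.2.2.2 - a₀
  have htt := GEN.tanh_sq_lt_one x
  have ht0 : 0 ≤ Real.tanh x ^ 2 := sq_nonneg _
  set t := Real.tanh x
  have hE := Real.exp_pos (-C * a)
  have h1 : m * (2 - κ / 2) * (2 * t ^ 2 - 1) ≤ |m| * |2 - κ / 2| := by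
    calc m * (2 - κ / 2) * (2 * t ^ 2 - 1) ≤ |m * (2 - κ / 2) * (2 * t ^ 2 - 1)| := le_abs_self _
      _ = |m| * |2 - κ / 2| * |2 * t ^ 2 - 1| := by rw [abs_mul, abs_mul]
      _ ≤ |m| * |2 - κ / 2| * 1 := by
          gcongr
          rw [abs_le]; constructor <;> linarith
      _ = _ := mul_one _
  have h2 : κ / 2 * m ^ 2 * t ^ 2 ≤ κ / 2 * m ^ 2 := by
    have : 0 ≤ κ / 2 * m ^ 2 := by positivity
    nlinarith
  apply mul_nonpos_of_nonneg_of_nonpos (by positivity)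
  show LVal κ t 0 0 0 (-C * Real.exp (-C * a)) + (m * (2 - κ / 2) * (2 * t ^ 2 - 1)
    + κ / 2 * m ^ 2 * t ^ 2) * Real.exp (-C * a) + m * κ * t * 0 ≤ 0
  have h3 : LVal κ t 0 0 0 (-C * Real.exp (-C * a)) = -C * Real.exp (-C * a) := by
    unfold LVal; ring
  rw [h3]
  have : (-C + (m * (2 - κ / 2) * (2 * t ^ 2 - 1) + κ / 2 * m ^ 2 * t ^ 2))
      * Real.exp (-C * a) ≤ 0 := mul_nonpos_of_nonpos_of_nonneg (by linarith) hE.le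
  linarith

end Crest.Agent.R162.OPGen
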