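import Crest.Agent.R162.GexDet
import Crest.Agent.R162.Rad
import Crest.Agent.R162.OPTr2

/-!
Row 162, node GEX (helper19): the Green weight `G` is an exact martingale along the radial levels.
-/

set_option autoImplicit false

open MeasureTheory ProbabilityTheory Filter Set
open scoped NNReal ENNReal Topology
open Crest.ProbabilityR.Loewner

namespace Crest.Agent.R162.GEX

open FL OP OS Rad OPTr

universe u

variable {Ω : Type u} {m : MeasurableSpace Ω} {P : Measure Ω} [IsProbabilityMeasure P]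
  {Fl : Filtration ℝ≥0 m} {B : ℝ≥0 → Ω → ℝ} {κ : ℝ} {w : ℂ}

/-- the open exit region -/
def OO (w : ℂ) (t M n : ℝ) : Set St :=
  {q | |q.1| < M ∧ w.im / 2 * Real.exp (-2 * n) < q.2.1 ∧ -t < q.2.2.1 ∧ q.2.2.2 < n}

lemma isOpen_OO (w : ℂ) (t M n : ℝ) : IsOpen (OO w t M n) := by
  have h1 : IsOpen {q : St | |q.1| < M} :=
    isOpen_lt (f := fun p : St => |p.1|) (by fun_prop) continuous_const
  have h2 : IsOpen {q : St | w.im / 2 * Real.exp (-2 * n) < q.2.1} :=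
    isOpen_lt (g := fun p : St => p.2.1) continuous_const (by fun_prop)
  have h3 : IsOpen {q : St | -t < q.2.2.1} :=
    isOpen_lt (g := fun p : St => p.2.2.1) continuous_const (by fun_prop)
  have h4 : IsOpen {q : St | q.2.2.2 < n} :=
    isOpen_lt (f := fun p : St => p.2.2.2) (by fun_prop) continuous_const
  exact h1.inter (h2.inter (h3.inter h4))

lemma closure_OO {w : ℂ} {t M n : ℝ} {q : St} (hq : q ∈ closure (OO w t M n)) :
    |q.1| ≤ M ∧ w.im / 2 * Real.exp (-2 * n) ≤ q.2.1 ∧ -t ≤ q.2.2.1 ∧ q.2.2.2 ≤ n := by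
  have h1 : IsClosed {q : St | |q.1| ≤ M} :=
    isClosed_le (f := fun p : St => |p.1|) (by fun_prop) continuous_const
  have h2 : IsClosed {q : St | w.im / 2 * Real.exp (-2 * n) ≤ q.2.1} :=
    isClosed_le (g := fun p : St => p.2.1) continuous_const (by fun_prop)
  have h3 : IsClosed {q : St | -t ≤ q.2.2.1} :=
    isClosed_le (g := fun p : St => p.2.2.1) continuous_const (by fun_prop)
  have h4 : IsClosed {q : St | q.2.2.2 ≤ n} :=
    isClosed_le (f := fun p : St => p.2.2.2) (by fun_prop) continuous_const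
  have hcl := h1.inter (h2.inter (h3.inter h4))
  have : closure (OO w t M n) ⊆ _ := closure_minimal (t := {q : St | |q.1| ≤ M} ∩
    ({q : St | w.im / 2 * Real.exp (-2 * n) ≤ q.2.1} ∩ ({q : St | -t ≤ q.2.2.1} ∩
      {q : St | q.2.2.2 ≤ n}))) (fun q hq => ⟨hq.1.le, hq.2.1.le, hq.2.2.1.le, hq.2.2.2.le⟩) hcl
  exact this hq

/-- the compact box -/
def KB (w : ℂ) (t M n : ℝ) : Set St :=
  Icc (-M) M ×ˢ (Icc (w.im / 2 * Real.exp (-2 * n)) w.im ×ˢ
    (Icc (-t) (Real.log w.im) ×ˢ Icc 0 n))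

lemma isCompact_KB (w : ℂ) (t M n : ℝ) : IsCompact (KB w t M n) :=
  isCompact_Icc.prod (isCompact_Icc.prod (isCompact_Icc.prod isCompact_Icc))

lemma KB_pos (hw : 0 < w.im) {t M n : ℝ} {q : St} (hq : q ∈ KB w t M n) : 0 < q.2.1 :=
  (by positivity : 0 < w.im / 2 * Real.exp (-2 * n)).trans_le hq.2.1.1

lemma measurable_fS (la mu p : ℝ) : Measurable (fS la mu p) := by
  unfold fS
  fun_prop

/-- state facts at an alive time -/
lemma st_facts (hB : IsBM Fl B P) {t : ℝ≥0} {ω : Ω} (h : AliveP κ B w t ω) :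
    (stP κ B w t ω).2.1 = w.im * Real.exp (-2 * (stP κ B w t ω).2.2.2) ∧
    (stP κ B w t ω).2.1 ≤ w.im ∧ (stP κ B w t ω).2.2.1 ≤ Real.log w.im ∧
    0 ≤ (stP κ B w t ω).2.2.2 ∧ 0 < (stP κ B w t ω).2.1 := by
  have hW := Rad.driving_cont hB κ ω
  refine ⟨im_eq hW h, im_le hW h, ?_, ath_nonneg hW h, Zfl_im_pos h⟩
  have h1 := logups_anti hW h (s := 0) ⟨le_rfl, h.1⟩
  have h2 : ups (driving κ B ω) 0 w = w.im := by
    unfold ups; rw [gfl_zero h.im_pos]; simp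
  rw [h2] at h1
  exact h1

/-- `st` stays in the box up to the exit time -/
lemma mem_KB (hB : IsBM Fl B P) (hw : 0 < w.im) {t M n : ℝ} {σ : Ω → ℝ≥0} {T : ℝ≥0} {ω : Ω}
    (hin : stP κ B w (σ ω) ω ∈ OO w t M n) {u : ℝ≥0} (h1 : σ ω ≤ u)
    (h2 : u ≤ hit (stP κ B w) (OO w t M n)ᶜ σ T ω) :
    AliveP κ B w u ω ∧ stP κ B w u ω ∈ KB w t M n := by
  have hδ : 0 < w.im / 2 * Real.exp (-2 * n) := by positivity
  have hspec := hit_open_spec hB hδ (isOpen_OO w t M n) (fun q hq => hq.2.1.le) σ T hin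
  obtain ⟨ha, hc⟩ := hspec.1 u h1 h2
  obtain ⟨c1, c2, c3, c4⟩ := closure_OO hc
  obtain ⟨f1, f2, f3, f4, f5⟩ := st_facts hB ha
  exact ⟨ha, abs_le.1 c1, ⟨c2, f2⟩, ⟨c3, f3⟩, ⟨f4, c4⟩⟩

/-- classification of the exit -/
lemma classify (hB : IsBM Fl B P) (hw : 0 < w.im) {t M n : ℝ} {σ : Ω → ℝ≥0} {T T₁ : ℝ≥0} {ω : Ω}
    (hσT : σ ω ≤ T₁) (hT : T₁ + n * (M ^ 2 + w.im ^ 2) < T)
    (hin : stP κ B w (σ ω) ω ∈ OO w t M n) :
    (stP κ B w (hit (stP κ B w) (OO w t M n)ᶜ σ T ω) ω).2.2.1 = -t ∨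
      |(stP κ B w (hit (stP κ B w) (OO w t M n)ᶜ σ T ω) ω).1| = M ∨
      (stP κ B w (hit (stP κ B w) (OO w t M n)ᶜ σ T ω) ω).2.2.2 = n := by
  have hδ : 0 < w.im / 2 * Real.exp (-2 * n) := by positivity
  have hspec := hit_open_spec hB hδ (isOpen_OO w t M n) (fun q hq => hq.2.1.le) σ T hin
  have hle : σ ω ≤ hit (stP κ B w) (OO w t M n)ᶜ σ T ω := le_hit
  obtain ⟨ha, hc⟩ := hspec.1 _ hle le_rfl
  obtain ⟨c1, c2, c3, c4⟩ := closure_OO hc
  obtain ⟨f1, f2, f3, f4, f5⟩ := st_facts hB ha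
  have hW := Rad.driving_cont hB κ ω
  set τ := hit (stP κ B w) (OO w t M n)ᶜ σ T ω with hτ
  rcases hspec.2.2 with h | h
  · -- the cap is impossible
    exfalso
    have hm : |(stP κ B w (σ ω) ω).1| < M := hin.1
    have hM0 : 0 ≤ M := (abs_nonneg _).trans hm.le
    have hstτ : (τ : ℝ) = max (T : ℝ) (σ ω : ℝ) := by rw [h]; exact NNReal.coe_max _ _
    have hTτ : (T : ℝ) ≤ τ := by rw [hstτ]; exact le_max_left _ _
    have hlow := ath_lower (m := M) hW ha (s := (σ ω : ℝ)) ⟨(σ ω).2, by exact_mod_cast hle⟩ (by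
      intro r hr
      have hr0 : 0 ≤ r := (σ ω).2.trans hr.1
      have h3 := (hspec.1 ⟨r, hr0⟩ (by exact_mod_cast hr.1) (by exact_mod_cast hr.2)).2
      exact (closure_OO h3).1)
    have h4 : 0 ≤ ath (driving κ B ω) (σ ω) w := ath_nonneg hW (ha.mono (σ ω).2 (by exact_mod_cast hle))
    have h5 : ath (driving κ B ω) τ w ≤ n := c4
    have hpos : 0 < M ^ 2 + w.im ^ 2 := by positivity
    have h6 : (τ : ℝ) - σ ω ≤ n * (M ^ 2 + w.im ^ 2) := by
      rw [div_le_iff₀ hpos] at hlow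
      refine hlow.trans ?_
      exact mul_le_mul_of_nonneg_right (by linarith) hpos.le
    have h7 : (σ ω : ℝ) ≤ T₁ := by exact_mod_cast hσT
    linarith
  · by_contra hcon
    push Not at hcon
    obtain ⟨g1, g2, g3⟩ := hcon
    apply h
    refine ⟨lt_of_le_of_ne c1 g2, ?_, lt_of_le_of_ne c3 (Ne.symm g1), lt_of_le_of_ne c4 g3⟩
    rw [f1]
    have h8 : Real.exp (-2 * n) ≤ Real.exp (-2 * (stP κ B w τ ω).2.2.2) :=
      Real.exp_le_exp.2 (by linarith)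
    have h9 := Real.exp_pos (-2 * n)
    nlinarith

lemma Gq_nonneg {q : St} (hY : 0 < q.2.1) : 0 ≤ Gq κ q :=
  mul_nonneg (Real.exp_pos _).le (Real.rpow_nonneg (sinq_pos hY).le _)

lemma Gq_le {t : ℝ} (hκ8 : κ < 8) {q : St} (hY : 0 < q.2.1)
    (hL : -t ≤ q.2.2.1) : Gq κ q ≤ Real.exp ((1 - κ / 8) * t) * sinq q ^ (8 / κ - 1) := by
  unfold Gq
  refine mul_le_mul_of_nonneg_right (Real.exp_le_exp.2 ?_) (Real.rpow_nonneg (sinq_pos hY).le _)
  nlinarith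

lemma Gq_le_X {t M y : ℝ} (hκ : 0 < κ) (hκ8 : κ < 8) (hM : 0 < M) {q : St} (hY : 0 < q.2.1)
    (hYy : q.2.1 ≤ y) (hL : -t ≤ q.2.2.1) (hX : |q.1| = M) :
    Gq κ q ≤ Real.exp ((1 - κ / 8) * t) * (y / M) ^ (8 / κ - 1) := by
  refine (Gq_le hκ8 hY hL).trans (mul_le_mul_of_nonneg_left ?_ (Real.exp_pos _).le)
  have hb : 0 ≤ 8 / κ - 1 := by
    rw [sub_nonneg, le_div_iff₀ hκ]; linarith
  refine Real.rpow_le_rpow (sinq_pos hY).le ?_ hb
  unfold sinq
  have h1 : M ≤ Real.sqrt (q.1 ^ 2 + q.2.1 ^ 2) := by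
    apply Real.le_sqrt_of_sq_le
    rw [← hX, sq_abs]; nlinarith [sq_nonneg q.2.1]
  have hy : 0 ≤ y := hY.le.trans hYy
  gcongr

lemma Gq_le_a {t la be n : ℝ} (hκ8 : κ < 8) (hbe : be ≤ 8 / κ - 1) {q : St} (hY : 0 < q.2.1)
    (hL : -t ≤ q.2.2.1) (ha : q.2.2.2 = n) :
    Gq κ q ≤ Real.exp ((1 - κ / 8) * t) * Real.exp (-la * n) * fS la 0 be q := by
  refine (Gq_le hκ8 hY hL).trans ?_
  rw [mul_assoc]
  refine mul_le_mul_of_nonneg_left ?_ (Real.exp_pos _).le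
  rw [fS_eq hY, ha, ← mul_assoc, ← Real.exp_add]
  have h1 : -la * n + (la * n + 0 * q.2.2.1) = 0 := by ring
  rw [h1, Real.exp_zero, one_mul]
  exact Real.rpow_le_rpow_of_exponent_ge (sinq_pos hY) (sinq_le_one hY) hbe

section integ

variable {D : OneP Fl P (gen κ) (-Real.log w.im)}

/-- conversion of the Bochner integral at a stopping time inside the box -/
lemma conv_int (hM : OPM.{u}) (hB : IsBM Fl B P) (hκ : 0 < κ) (hw : 0 < w.im)
    {la mu p : ℝ} {A : Set Ω} (hA : MeasurableSet A) {τ : Ω → ℝ≥0} (hτ : IsST Fl τ) {K : Set St}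
    (hK : IsCompact K) (hKp : ∀ q ∈ K, 0 < q.2.1)
    (hmem : ∀ ω ∈ A, AliveP κ B w (τ ω) ω ∧ stP κ B w (τ ω) ω ∈ K) :
    ENNReal.ofReal (∫ ω in A, fS la mu p (stP κ B w (τ ω) ω) ∂P) =
      ∫⁻ ω in A, ENNReal.ofReal (fS la mu p (stP κ B w (τ ω) ω)) ∂P ∧
    AEMeasurable (fun ω => ENNReal.ofReal (fS la mu p (stP κ B w (τ ω) ω))) (P.restrict A) ∧
    Integrable (fun ω => fS la mu p (stP κ B w (τ ω) ω)) (P.restrict A) := by
  have h1 := (oneP hM hB hκ hw).measurable_at hτ hA (fun ω hω => (hmem ω hω).1)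
  have h2 : AEStronglyMeasurable (fun ω => fS la mu p (stP κ B w (τ ω) ω)) (P.restrict A) := by
    have h3 := ((measurable_fS la mu p).comp h1).aestronglyMeasurable (μ := P.restrict A)
    refine h3.congr ?_
    filter_upwards [ae_restrict_mem hA] with ω hω
    simp only [Function.comp, indicator_of_mem hω]
    rfl
  obtain ⟨C, hC⟩ := hK.exists_bound_of_continuousOn
    ((contDiffOn_fS la mu p (n := 0)).continuousOn.mono fun q hq => hKp q hq)
  have h4 : Integrable (fun ω => fS la mu p (stP κ B w (τ ω) ω)) (P.restrict A) := by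
    refine Integrable.of_bound h2 C ?_
    filter_upwards [ae_restrict_mem hA] with ω hω
    exact hC _ (hmem ω hω).2
  refine ⟨ofReal_integral_eq_lintegral_ofReal h4 ?_, ?_, h4⟩
  · filter_upwards [ae_restrict_mem hA] with ω hω
    have hY := hKp _ (hmem ω hω).2
    rw [fS_eq hY]
    exact mul_nonneg (Real.exp_pos _).le (Real.rpow_nonneg (sinq_pos hY).le _)
  · exact ENNReal.measurable_ofReal.comp_aemeasurable h2.aemeasurable

lemma isOpen_up : IsOpen {q : St | 0 < q.2.1} := isOpen_lt continuous_const (by fun_prop)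

/-- Dynkin for `G`: equality -/
lemma dyn_eq (hM : OPM.{u}) (hB : IsBM Fl B P) (hκ : 0 < κ) (hw : 0 < w.im)
    {A : Set Ω} {σ τ : Ω → ℝ≥0} (hσ : IsST Fl σ) (hτ : IsST Fl τ) {T : ℝ≥0}
    (hT : ∀ ω, τ ω ≤ T) (hA : EvST Fl σ A) (hle : ∀ ω ∈ A, σ ω ≤ τ ω) {K : Set St}
    (hK : IsCompact K) (hKp : ∀ q ∈ K, 0 < q.2.1)
    (hmem : ∀ ω ∈ A, ∀ t : ℝ≥0, σ ω ≤ t → t ≤ τ ω → AliveP κ B w t ω ∧ stP κ B w t ω ∈ K) :
    ∫⁻ ω in A, ENNReal.ofReal (fS 0 (κ / 8 - 1) (8 / κ - 1) (stP κ B w (σ ω) ω)) ∂P =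
      ∫⁻ ω in A, ENNReal.ofReal (fS 0 (κ / 8 - 1) (8 / κ - 1) (stP κ B w (τ ω) ω)) ∂P := by
  have hmA : MeasurableSet A := hA.measurableSet
  have h := hM hB hκ hw isOpen_up (fun q hq => hq)
    (contDiffOn_fS 0 (κ / 8 - 1) (8 / κ - 1)) hK (fun q hq => hKp q hq) hσ hτ hT hA hle hmem
  have h0 : ∫ ω in A, (∫ s in (σ ω : ℝ)..(τ ω : ℝ),
      gen κ (fS 0 (κ / 8 - 1) (8 / κ - 1)) (stW (driving κ B ω) s w)) ∂P = 0 := by
    refine setIntegral_eq_zero_of_forall_eq_zero fun ω hω => ?_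
    have : ∀ s ∈ Set.uIcc (σ ω : ℝ) (τ ω : ℝ),
        gen κ (fS 0 (κ / 8 - 1) (8 / κ - 1)) (stW (driving κ B ω) s w) = 0 := by
      intro s hs
      have hle' : (σ ω : ℝ) ≤ τ ω := by exact_mod_cast hle ω hω
      rw [Set.uIcc_of_le hle'] at hs
      have hs0 : 0 ≤ s := (σ ω).2.trans hs.1
      have h3 := hmem ω hω ⟨s, hs0⟩ (by exact_mod_cast hs.1) (by exact_mod_cast hs.2)
      exact gen_G hκ (hKp _ h3.2)
    rw [intervalIntegral.integral_congr this]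
    simp
  rw [h0, add_zero] at h
  rw [← (conv_int hM hB hκ hw hmA hσ hK hKp (fun ω hω => hmem ω hω _ le_rfl (hle ω hω))).1,
    ← (conv_int hM hB hκ hw hmA hτ hK hKp (fun ω hω => hmem ω hω _ (hle ω hω) le_rfl)).1, h]

/-- Dynkin for `exp (la a) S^be`: supermartingale -/
lemma dyn_le (hM : OPM.{u}) (hB : IsBM Fl B P) (hκ : 0 < κ) (hw : 0 < w.im) {la be : ℝ}
    (h1 : la ≤ κ * be / 2 * (8 / κ - 1 - be)) (h2 : la ≤ κ * be / 2)
    {A : Set Ω} {σ τ : Ω → ℝ≥0} (hσ : IsST Fl σ) (hτ : IsST Fl τ) {T : ℝ≥0}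
    (hT : ∀ ω, τ ω ≤ T) (hA : EvST Fl σ A) (hle : ∀ ω ∈ A, σ ω ≤ τ ω) {K : Set St}
    (hK : IsCompact K) (hKp : ∀ q ∈ K, 0 < q.2.1)
    (hmem : ∀ ω ∈ A, ∀ t : ℝ≥0, σ ω ≤ t → t ≤ τ ω → AliveP κ B w t ω ∧ stP κ B w t ω ∈ K) :
    ∫⁻ ω in A, ENNReal.ofReal (fS la 0 be (stP κ B w (τ ω) ω)) ∂P ≤
      ∫⁻ ω in A, ENNReal.ofReal (fS la 0 be (stP κ B w (σ ω) ω)) ∂P := by
  have hmA : MeasurableSet A := hA.measurableSet
  have h := hM hB hκ hw isOpen_up (fun q hq => hq)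
    (contDiffOn_fS la 0 be) hK (fun q hq => hKp q hq) hσ hτ hT hA hle hmem
  have h0 : ∫ ω in A, (∫ s in (σ ω : ℝ)..(τ ω : ℝ),
      gen κ (fS la 0 be) (stW (driving κ B ω) s w)) ∂P ≤ 0 := by
    refine setIntegral_nonpos hmA fun ω hω => ?_
    have hle' : (σ ω : ℝ) ≤ τ ω := by exact_mod_cast hle ω hω
    have h4 : 0 ≤ ∫ s in (σ ω : ℝ)..(τ ω : ℝ),
        -gen κ (fS la 0 be) (stW (driving κ B ω) s w) := by
      refine intervalIntegral.integral_nonneg hle' fun s hs => ?_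
      have hs0 : 0 ≤ s := (σ ω).2.trans hs.1
      have h3 := hmem ω hω ⟨s, hs0⟩ (by exact_mod_cast hs.1) (by exact_mod_cast hs.2)
      have := gen_S_nonpos hκ h1 h2 (hKp _ h3.2)
      exact neg_nonneg.2 this
    rw [intervalIntegral.integral_neg] at h4
    linarith
  rw [← (conv_int hM hB hκ hw hmA hσ hK hKp (fun ω hω => hmem ω hω _ le_rfl (hle ω hω))).1,
    ← (conv_int hM hB hκ hw hmA hτ hK hKp (fun ω hω => hmem ω hω _ (hle ω hω) le_rfl)).1, h]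
  exact ENNReal.ofReal_le_ofReal (by linarith)

/-- **one localisation step** -/
lemma core1 (hM : OPM.{u}) (hB : IsBM Fl B P) (hκ : 0 < κ) (hκ8 : κ < 8) (hw : 0 < w.im)
    {la be : ℝ} (hbe0 : 0 < be) (hbe : be ≤ 8 / κ - 1)
    (h1 : la ≤ κ * be / 2 * (8 / κ - 1 - be)) (h2 : la ≤ κ * be / 2)
    {t : ℝ} {A : Set Ω} {σ : Ω → ℝ≥0} (hσ : IsST Fl σ) {T₁ : ℝ≥0} (hσT : ∀ ω, σ ω ≤ T₁)
    (hA : EvST Fl σ A) {M n a₁ : ℝ} (hM0 : 0 < M)
    (hin : ∀ ω ∈ A, stP κ B w (σ ω) ω ∈ OO w t M n) (ha₁ : ∀ ω ∈ A, (stP κ B w (σ ω) ω).2.2.2 ≤ a₁)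
    (hla : 0 ≤ la) :
    ∫⁻ ω in A, ENNReal.ofReal (Gq κ (stP κ B w (σ ω) ω)) ∂P ≤
      ∫⁻ ω in A ∩ (oneP hM hB hκ hw).alive t,
        ENNReal.ofReal (Gq κ (stP κ B w ((oneP hM hB hκ hw).tau t ω) ω)) ∂P +
      ENNReal.ofReal (Real.exp ((1 - κ / 8) * t) * (w.im / M) ^ (8 / κ - 1) +
        Real.exp ((1 - κ / 8) * t) * Real.exp (-la * n) * Real.exp (la * a₁)) := by
  have hmA : MeasurableSet A := hA.measurableSet
  have hδ : 0 < w.im / 2 * Real.exp (-2 * n) := by positivity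
  set T : ℝ≥0 := T₁ + Real.toNNReal (n * (M ^ 2 + w.im ^ 2) + 1) with hTdef
  have hT : (T₁:ℝ) + n * (M ^ 2 + w.im ^ 2) < T := by
    rw [hTdef, NNReal.coe_add]
    have := Real.le_coe_toNNReal (n * (M ^ 2 + w.im ^ 2) + 1)
    linarith
  set τ : Ω → ℝ≥0 := hit (stP κ B w) (OO w t M n)ᶜ σ T with hτdef
  have hτ : IsST Fl τ := hit_open_isST hB hδ (isOpen_OO w t M n) (fun q hq => hq.2.1.le) hσ T
  have hτT : ∀ ω, τ ω ≤ T := fun ω => hit_le ((hσT ω).trans (by rw [hTdef]; exact le_self_add))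
  have hle : ∀ ω, σ ω ≤ τ ω := fun ω => le_hit
  have hmem : ∀ ω ∈ A, ∀ u : ℝ≥0, σ ω ≤ u → u ≤ τ ω →
      AliveP κ B w u ω ∧ stP κ B w u ω ∈ KB w t M n := fun ω hω u h3 h4 =>
    mem_KB hB hw (hin ω hω) h3 h4
  have hKp : ∀ q ∈ KB w t M n, 0 < q.2.1 := fun q hq => KB_pos hw hq
  have hG := dyn_eq hM hB hκ hw hσ hτ hτT hA (fun ω _ => hle ω) (isCompact_KB w t M n) hKp hmem
  have hS := dyn_le hM hB hκ hw h1 h2 hσ hτ hτT hA (fun ω _ => hle ω) (isCompact_KB w t M n)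
    hKp hmem
  have hGσ : ∫⁻ ω in A, ENNReal.ofReal (Gq κ (stP κ B w (σ ω) ω)) ∂P =
      ∫⁻ ω in A, ENNReal.ofReal (fS 0 (κ / 8 - 1) (8 / κ - 1) (stP κ B w (σ ω) ω)) ∂P := by
    refine setLIntegral_congr_fun hmA fun ω hω => ?_
    have h5 := hKp _ (hmem ω hω _ le_rfl (hle ω)).2
    rw [fS_G h5]
  rw [hGσ, hG]
  -- the pointwise inequality
  have hpt : ∀ ω ∈ A, ENNReal.ofReal (fS 0 (κ / 8 - 1) (8 / κ - 1) (stP κ B w (τ ω) ω)) ≤
      ((oneP hM hB hκ hw).alive t).indicator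
        (fun ω => ENNReal.ofReal (Gq κ (stP κ B w ((oneP hM hB hκ hw).tau t ω) ω))) ω +
      (ENNReal.ofReal (Real.exp ((1 - κ / 8) * t) * (w.im / M) ^ (8 / κ - 1)) +
       ENNReal.ofReal (Real.exp ((1 - κ / 8) * t) * Real.exp (-la * n)) *
        ENNReal.ofReal (fS la 0 be (stP κ B w (τ ω) ω))) := by
    intro ω hω
    obtain ⟨hal, hK⟩ := hmem ω hω _ (hle ω) le_rfl
    have hY := hKp _ hK
    obtain ⟨f1, f2, f3, f4, f5⟩ := st_facts hB hal
    rw [fS_G hY]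
    have hLt : -t ≤ (stP κ B w (τ ω) ω).2.2.1 := hK.2.2.1.1
    rcases classify hB hw (hσT ω) hT (hin ω hω) with h6 | h6 | h6
    · -- reached level t
      have h7 : ω ∈ (oneP hM hB hκ hw).alive t := ⟨τ ω, hal, h6.le⟩
      have h8 : (oneP hM hB hκ hw).tau t ω = τ ω := by
        refine le_antisymm ((oneP hM hB hκ hw).tau_le hal h6.le) ?_
        refine le_csInf ⟨τ ω, hal, h6.le⟩ ?_
        rintro v ⟨hv1, hv2⟩
        by_contra hlt
        rw [not_le] at hlt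
        rcases le_total (σ ω) v with h9 | h9
        · have h10 := (hit_open_spec hB hδ (isOpen_OO w t M n) (fun q hq => hq.2.1.le) σ T
            (hin ω hω)).2.1 v h9 hlt
          have h11 := h10.2.2.1
          have hv2' : (stP κ B w v ω).2.2.1 ≤ -t := hv2
          linarith
        · have h10 : (stP κ B w (σ ω) ω).2.2.1 ≤ (stP κ B w v ω).2.2.1 :=
            (oneP hM hB hκ hw).L_anti ω v (σ ω) h9 (hmem ω hω _ le_rfl (hle ω)).1
          have h11 := (hin ω hω).2.2.1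
          have hv2' : (stP κ B w v ω).2.2.1 ≤ -t := hv2
          linarith
      rw [indicator_of_mem h7, h8]
      exact le_self_add
    · refine le_trans ?_ le_add_self
      refine le_trans ?_ le_self_add
      exact ENNReal.ofReal_le_ofReal (Gq_le_X hκ hκ8 hM0 hY f2 hLt h6)
    · refine le_trans ?_ le_add_self
      refine le_trans ?_ le_add_self
      rw [← ENNReal.ofReal_mul (by positivity)]
      exact ENNReal.ofReal_le_ofReal (Gq_le_a hκ8 hbe hY hLt h6)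
  have hSc := (conv_int (la := la) (mu := 0) (p := be) hM hB hκ hw hmA hτ (isCompact_KB w t M n) hKp
    (fun ω hω => hmem ω hω _ (hle ω) le_rfl)).2.1
  have hSσ : ∫⁻ ω in A, ENNReal.ofReal (fS la 0 be (stP κ B w (σ ω) ω)) ∂P ≤
      ENNReal.ofReal (Real.exp (la * a₁)) := by
    calc ∫⁻ ω in A, ENNReal.ofReal (fS la 0 be (stP κ B w (σ ω) ω)) ∂P
        ≤ ∫⁻ _ω in A, ENNReal.ofReal (Real.exp (la * a₁)) ∂P := by
          refine setLIntegral_mono' hmA fun ω hω => ENNReal.ofReal_le_ofReal ?_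
          have h5 := hKp _ (hmem ω hω _ le_rfl (hle ω)).2
          rw [fS_eq h5]
          have h6 : sinq (stP κ B w (σ ω) ω) ^ be ≤ 1 :=
            Real.rpow_le_one (sinq_pos h5).le (sinq_le_one h5) hbe0.le
          have h7 : Real.exp (la * (stP κ B w (σ ω) ω).2.2.2 + 0 * (stP κ B w (σ ω) ω).2.2.1) ≤
              Real.exp (la * a₁) := by
            apply Real.exp_le_exp.2
            have := mul_le_mul_of_nonneg_left (ha₁ ω hω) hla
            linarith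
          have h8 : 0 ≤ sinq (stP κ B w (σ ω) ω) ^ be := Real.rpow_nonneg (sinq_pos h5).le _
          have h9 := Real.exp_pos (la * a₁)
          nlinarith
      _ ≤ ENNReal.ofReal (Real.exp (la * a₁)) := by
          rw [setLIntegral_const]
          calc _ ≤ ENNReal.ofReal (Real.exp (la * a₁)) * 1 := by
                gcongr; exact prob_le_one
            _ = _ := mul_one _
  calc ∫⁻ ω in A, ENNReal.ofReal (fS 0 (κ / 8 - 1) (8 / κ - 1) (stP κ B w (τ ω) ω)) ∂P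
      ≤ ∫⁻ ω in A, (((oneP hM hB hκ hw).alive t).indicator
        (fun ω => ENNReal.ofReal (Gq κ (stP κ B w ((oneP hM hB hκ hw).tau t ω) ω))) ω +
      (ENNReal.ofReal (Real.exp ((1 - κ / 8) * t) * (w.im / M) ^ (8 / κ - 1)) +
       ENNReal.ofReal (Real.exp ((1 - κ / 8) * t) * Real.exp (-la * n)) *
        ENNReal.ofReal (fS la 0 be (stP κ B w (τ ω) ω)))) ∂P := setLIntegral_mono' hmA hpt
    _ = ∫⁻ ω in A, ((oneP hM hB hκ hw).alive t).indicator
        (fun ω => ENNReal.ofReal (Gq κ (stP κ B w ((oneP hM hB hκ hw).tau t ω) ω))) ω ∂P +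
        (∫⁻ _ω in A, ENNReal.ofReal (Real.exp ((1 - κ / 8) * t) * (w.im / M) ^ (8 / κ - 1)) ∂P +
        ENNReal.ofReal (Real.exp ((1 - κ / 8) * t) * Real.exp (-la * n)) *
        ∫⁻ ω in A, ENNReal.ofReal (fS la 0 be (stP κ B w (τ ω) ω)) ∂P) := by
        rw [lintegral_add_right' _ (by
            exact aemeasurable_const.add (hSc.const_mul _)),
          lintegral_add_left' aemeasurable_const, lintegral_const_mul'' _ hSc]
    _ ≤ _ := by
        rw [setLIntegral_indicator ((oneP hM hB hκ hw).measurableSet_alive t), inter_comm,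
          ENNReal.ofReal_add (by positivity) (by positivity),
          ENNReal.ofReal_mul (p := Real.exp ((1 - κ / 8) * t) * Real.exp (-la * n)) (by positivity)]
        gcongr
        · rw [setLIntegral_const]
          calc _ ≤ ENNReal.ofReal (Real.exp ((1 - κ / 8) * t) * (w.im / M) ^ (8 / κ - 1)) * 1 := by
                gcongr; exact prob_le_one
            _ = _ := mul_one _
        · exact hS.trans hSσ

/-- **core**: fixed past event with bounded data at `σ` -/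
lemma core2 (hM : OPM.{u}) (hB : IsBM Fl B P) (hκ : 0 < κ) (hκ8 : κ < 8) (hw : 0 < w.im)
    {t : ℝ} {A : Set Ω} {σ : Ω → ℝ≥0} (hσ : IsST Fl σ) {T₁ : ℝ≥0} (hσT : ∀ ω, σ ω ≤ T₁)
    (hA : EvST Fl σ A) {a₁ m₀ : ℝ}
    (hin : ∀ ω ∈ A, AliveP κ B w (σ ω) ω ∧ |(stP κ B w (σ ω) ω).1| ≤ m₀ ∧
      -t < (stP κ B w (σ ω) ω).2.2.1 ∧ (stP κ B w (σ ω) ω).2.2.2 ≤ a₁) :
    ∫⁻ ω in A, ENNReal.ofReal (Gq κ (stP κ B w (σ ω) ω)) ∂P ≤
      ∫⁻ ω in A ∩ (oneP hM hB hκ hw).alive t,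
        ENNReal.ofReal (Gq κ (stP κ B w ((oneP hM hB hκ hw).tau t ω) ω)) ∂P := by
  have hb : 0 < 8 / κ - 1 := by
    rw [sub_pos, lt_div_iff₀ hκ]; linarith
  set b := 8 / κ - 1 with hbdef
  set be := b / 2 with hbe
  have hbe0 : 0 < be := by positivity
  set la := κ * be / 2 * min (b - be) 1 with hla
  have hbbe : 0 < b - be := by rw [hbe]; linarith
  have hmin : 0 < min (b - be) 1 := lt_min hbbe one_pos
  have hkb : 0 < κ * be / 2 := by positivity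
  have hla0 : 0 < la := mul_pos hkb hmin
  have h1 : la ≤ κ * be / 2 * (b - be) := mul_le_mul_of_nonneg_left (min_le_left _ _) hkb.le
  have h2 : la ≤ κ * be / 2 := by
    have := mul_le_mul_of_nonneg_left (min_le_right (b - be) 1) hkb.le
    rwa [mul_one] at this
  -- for all large k
  have key : ∀ᶠ k : ℕ in atTop,
      ∫⁻ ω in A, ENNReal.ofReal (Gq κ (stP κ B w (σ ω) ω)) ∂P ≤
      ∫⁻ ω in A ∩ (oneP hM hB hκ hw).alive t,
        ENNReal.ofReal (Gq κ (stP κ B w ((oneP hM hB hκ hw).tau t ω) ω)) ∂P +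
      ENNReal.ofReal (Real.exp ((1 - κ / 8) * t) * (w.im / (k + 1)) ^ b +
        Real.exp ((1 - κ / 8) * t) * Real.exp (-la * (k + 1)) * Real.exp (la * a₁)) := by
    obtain ⟨k₀, hk₀⟩ := exists_nat_ge (max m₀ a₁)
    filter_upwards [eventually_ge_atTop k₀] with k hk
    have hk' : (k₀:ℝ) ≤ k := by exact_mod_cast hk
    have hm0 : m₀ ≤ k := (le_max_left _ _).trans (hk₀.trans hk')
    have ha0 : a₁ ≤ k := (le_max_right _ _).trans (hk₀.trans hk')
    refine core1 hM hB hκ hκ8 hw hbe0 (by linarith) h1 h2 hσ hσT hA (M := (k:ℝ) + 1)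
      (n := (k:ℝ) + 1) (a₁ := a₁) (by positivity) ?_ (fun ω hω => (hin ω hω).2.2.2) hla0.le
    intro ω hω
    obtain ⟨g1, g2, g3, g4⟩ := hin ω hω
    obtain ⟨f1, f2, f3, f4, f5⟩ := st_facts hB g1
    refine ⟨by linarith, ?_, g3, by linarith⟩
    rw [f1]
    have h8 : Real.exp (-2 * ((k:ℝ) + 1)) ≤ Real.exp (-2 * (stP κ B w (σ ω) ω).2.2.2) :=
      Real.exp_le_exp.2 (by linarith)
    have h9 := Real.exp_pos (-2 * ((k:ℝ) + 1))
    nlinarith
  have hlim : Tendsto (fun k : ℕ => ∫⁻ ω in A ∩ (oneP hM hB hκ hw).alive t,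
        ENNReal.ofReal (Gq κ (stP κ B w ((oneP hM hB hκ hw).tau t ω) ω)) ∂P +
      ENNReal.ofReal (Real.exp ((1 - κ / 8) * t) * (w.im / (k + 1)) ^ b +
        Real.exp ((1 - κ / 8) * t) * Real.exp (-la * (k + 1)) * Real.exp (la * a₁))) atTop
      (𝓝 (∫⁻ ω in A ∩ (oneP hM hB hκ hw).alive t,
        ENNReal.ofReal (Gq κ (stP κ B w ((oneP hM hB hκ hw).tau t ω) ω)) ∂P +
        ENNReal.ofReal (Real.exp ((1 - κ / 8) * t) * 0 ^ b +
        Real.exp ((1 - κ / 8) * t) * 0 * Real.exp (la * a₁)))) := by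
    refine Tendsto.add tendsto_const_nhds (ENNReal.tendsto_ofReal ?_)
    have hk1 : Tendsto (fun k : ℕ => (k:ℝ) + 1) atTop atTop :=
      tendsto_atTop_add_const_right _ _ tendsto_natCast_atTop_atTop
    refine Tendsto.add (Tendsto.const_mul _ ?_) (Tendsto.mul_const _ (Tendsto.const_mul _ ?_))
    · refine Tendsto.rpow_const ?_ (Or.inr hb.le)
      exact Tendsto.const_div_atTop hk1 _
    · refine Real.tendsto_exp_atBot.comp ?_
      exact Tendsto.const_mul_atTop_of_neg (by linarith) hk1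
  have := ge_of_tendsto hlim key
  rwa [Real.zero_rpow hb.ne', mul_zero, zero_mul, add_zero, ENNReal.ofReal_zero,
    add_zero] at this

/-- the capped level time -/
noncomputable def cs (D : OneP Fl P (gen κ) (-Real.log w.im)) (s : ℝ) (N : ℕ) (ω : Ω) : ℝ≥0 :=
  open Classical in if ω ∈ D.alive s then min (D.tau s ω) N else N

lemma cs_ST (D : OneP Fl P (gen κ) (-Real.log w.im)) (s : ℝ) (N : ℕ) : IsST Fl (cs D s N) := by
  intro t
  by_cases hN : (N : ℝ≥0) ≤ t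
  · have : {ω | cs D s N ω ≤ t} = univ := by
      ext ω
      simp only [mem_ofPred_eq, mem_univ, iff_true, cs]
      split_ifs
      · exact (min_le_right _ _).trans hN
      · exact hN
    rw [this]; exact MeasurableSet.univ
  · have : {ω | cs D s N ω ≤ t} = D.alive s ∩ {ω | D.tau s ω ≤ t} := by
      ext ω
      simp only [mem_ofPred_eq, mem_inter_iff, cs]
      split_ifs with h
      · simp [h, hN]
      · simp [h, hN]
    rw [this]
    exact D.tau_meas s t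

lemma cs_le (D : OneP Fl P (gen κ) (-Real.log w.im)) (s : ℝ) (N : ℕ) (ω : Ω) : cs D s N ω ≤ N := by
  unfold cs
  split_ifs
  · exact min_le_right _ _
  · exact le_rfl

lemma cs_eq (D : OneP Fl P (gen κ) (-Real.log w.im)) {s : ℝ} {N : ℕ} {ω : Ω} (h : ω ∈ D.alive s)
    (hN : D.tau s ω ≤ N) : cs D s N ω = D.tau s ω := by
  unfold cs
  rw [if_pos h, min_eq_left hN]

lemma cs_Ev (D : OneP Fl P (gen κ) (-Real.log w.im)) {s : ℝ} (N : ℕ) {A : Set Ω}
    (hA : D.Past s A) : EvST Fl (cs D s N) (A ∩ {ω | D.tau s ω ≤ N}) := by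
  intro t
  have : A ∩ {ω | D.tau s ω ≤ N} ∩ {ω | cs D s N ω ≤ t} =
      A ∩ {ω | D.tau s ω ≤ min (N : ℝ≥0) t} := by
    ext ω
    simp only [mem_inter_iff, mem_ofPred_eq, le_min_iff]
    constructor
    · rintro ⟨⟨h1, h2⟩, h3⟩
      rw [cs_eq D (hA.1 h1) h2] at h3
      exact ⟨h1, h2, h3⟩
    · rintro ⟨h1, h2, h3⟩
      refine ⟨⟨h1, h2⟩, ?_⟩
      rw [cs_eq D (hA.1 h1) h2]
      exact h3
  rw [this]
  exact Fl.mono (min_le_right _ _) _ (hA.2 _)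

/-- the box of bounded data -/
def BX (N : ℕ) : Set St := {q | |q.1| ≤ N ∧ q.2.2.2 ≤ N}

lemma BX_meas (N : ℕ) : MeasurableSet (BX N) := by
  have h1 : IsClosed {q : St | |q.1| ≤ (N:ℝ)} :=
    isClosed_le (f := fun p : St => |p.1|) (by fun_prop) continuous_const
  have h4 : IsClosed {q : St | q.2.2.2 ≤ (N:ℝ)} :=
    isClosed_le (f := fun p : St => p.2.2.2) (by fun_prop) continuous_const
  exact (h1.inter h4).measurableSet

/-- **GEX, lower bound**: `∫_A G_s ≤ ∫_{A ∩ alive t} G_t` -/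
theorem gex_ge (hM : OPM.{u}) (hB : IsBM Fl B P) (hκ : 0 < κ) (hκ8 : κ < 8) (hw : 0 < w.im)
    {s t : ℝ} (hs : -Real.log w.im ≤ s) (hst : s ≤ t) {A : Set Ω}
    (hA : (oneP hM hB hκ hw).Past s A) :
    ∫⁻ ω in A, ENNReal.ofReal (Gq κ (stP κ B w ((oneP hM hB hκ hw).tau s ω) ω)) ∂P ≤
      ∫⁻ ω in A ∩ (oneP hM hB hκ hw).alive t,
        ENNReal.ofReal (Gq κ (stP κ B w ((oneP hM hB hκ hw).tau t ω) ω)) ∂P := by
  set D := oneP hM hB hκ hw with hD
  rcases hst.eq_or_lt with rfl | hlt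
  · rw [inter_eq_left.2 hA.1]
  -- exhaustion
  set AN : ℕ → Set Ω := fun N => (A ∩ {ω | D.tau s ω ≤ N}) ∩
    {ω | AliveP κ B w (cs D s N ω) ω ∧ stP κ B w (cs D s N ω) ω ∈ BX N} with hAN
  have hEv : ∀ N, EvST Fl (cs D s N) (AN N) := fun N =>
    (cs_Ev D N hA).inter (evST_alive_mem hB (BX_meas N) (cs_ST D s N))
  have hstep : ∀ N, ∫⁻ ω in AN N, ENNReal.ofReal (Gq κ (stP κ B w (D.tau s ω) ω)) ∂P ≤
      ∫⁻ ω in A ∩ D.alive t, ENNReal.ofReal (Gq κ (stP κ B w (D.tau t ω) ω)) ∂P := by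
    intro N
    have h1 := core2 hM hB hκ hκ8 hw (t := t) (cs_ST D s N) (T₁ := N) (cs_le D s N) (hEv N)
      (a₁ := N) (m₀ := N) (by
        rintro ω ⟨⟨h3, h4⟩, h5, h6⟩
        refine ⟨h5, h6.1, ?_, h6.2⟩
        rw [cs_eq D (hA.1 h3) h4]
        have h7 := D.L_tau hs (hA.1 h3)
        have h8 : (stP κ B w (D.tau s ω) ω).2.2.1 = -s := h7
        rw [h8]; linarith)
    have h2 : ∫⁻ ω in AN N, ENNReal.ofReal (Gq κ (stP κ B w (D.tau s ω) ω)) ∂P =
        ∫⁻ ω in AN N, ENNReal.ofReal (Gq κ (stP κ B w (cs D s N ω) ω)) ∂P := by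
      refine setLIntegral_congr_fun (hEv N).measurableSet ?_
      rintro ω ⟨⟨h3, h4⟩, h5, h6⟩
      simp only
      rw [cs_eq D (hA.1 h3) h4]
    rw [h2]
    refine h1.trans (lintegral_mono_set (inter_subset_inter_left _ ?_))
    intro ω hω
    exact hω.1.1
  have hmono : Monotone AN := by
    rintro N N' hNN ω ⟨⟨h3, h4⟩, h5, h6⟩
    have hNN' : (N : ℝ≥0) ≤ N' := by exact_mod_cast hNN
    have hNN'' : (N : ℝ) ≤ N' := by exact_mod_cast hNN
    have h4' : D.tau s ω ≤ N' := le_trans h4 hNN'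
    refine ⟨⟨h3, h4'⟩, ?_⟩
    simp only [mem_ofPred_eq]
    rw [cs_eq D (hA.1 h3) h4] at h5 h6
    rw [cs_eq D (hA.1 h3) h4']
    exact ⟨h5, h6.1.trans hNN'', h6.2.trans hNN''⟩
  have hun : A = ⋃ N, AN N := by
    ext ω
    simp only [mem_iUnion]
    constructor
    · intro h3
      have hal := D.tau_mem (hA.1 h3)
      obtain ⟨N, hN⟩ := exists_nat_ge (max (D.tau s ω : ℝ)
        (max |(stP κ B w (D.tau s ω) ω).1| (stP κ B w (D.tau s ω) ω).2.2.2))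
      have h4 : D.tau s ω ≤ N := by
        have : (D.tau s ω : ℝ) ≤ N := (le_max_left _ _).trans hN
        exact_mod_cast this
      refine ⟨N, ⟨h3, h4⟩, ?_⟩
      simp only [mem_ofPred_eq]
      rw [cs_eq D (hA.1 h3) h4]
      exact ⟨hal.1, (le_max_left _ _).trans ((le_max_right _ _).trans hN),
        (le_max_right _ _).trans ((le_max_right _ _).trans hN)⟩
    · rintro ⟨N, ⟨⟨h3, _⟩, _⟩⟩
      exact h3
  calc ∫⁻ ω in A, ENNReal.ofReal (Gq κ (stP κ B w (D.tau s ω) ω)) ∂P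
      = ∫⁻ ω in ⋃ N, AN N, ENNReal.ofReal (Gq κ (stP κ B w (D.tau s ω) ω)) ∂P := by rw [← hun]
    _ = ⨆ N, ∫⁻ ω in AN N, ENNReal.ofReal (Gq κ (stP κ B w (D.tau s ω) ω)) ∂P :=
        setLIntegral_iUnion_of_directed _ (directed_of_isDirected_le hmono)
    _ ≤ _ := iSup_le hstep

/-- supermartingale half -/
theorem gex_le (hM : OPM.{u}) (hB : IsBM Fl B P) (hκ : 0 < κ) (hw : 0 < w.im)
    {s t : ℝ} (hs : -Real.log w.im ≤ s) (hst : s ≤ t) {A : Set Ω}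
    (hA : (oneP hM hB hκ hw).Past s A) :
    ∫⁻ ω in A ∩ (oneP hM hB hκ hw).alive t,
        ENNReal.ofReal (Gq κ (stP κ B w ((oneP hM hB hκ hw).tau t ω) ω)) ∂P ≤
    ∫⁻ ω in A, ENNReal.ofReal (Gq κ (stP κ B w ((oneP hM hB hκ hw).tau s ω) ω)) ∂P := by
  set D := oneP hM hB hκ hw with hD
  have h := D.core hs (sub_nonneg.2 hst) (Φ := fS 0 (κ / 8 - 1) (8 / κ - 1))
    (contDiffOn_fS 0 (κ / 8 - 1) (8 / κ - 1))
    (fun p hp _ _ => by
      rw [fS_eq hp]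
      exact mul_nonneg (Real.exp_pos _).le (Real.rpow_nonneg (sinq_pos hp).le _))
    (fun p hp _ _ => (gen_G hκ hp).le) hA
  rw [show s + (t - s) = t by ring] at h
  have e1 : ∫⁻ ω in A ∩ D.alive t, ENNReal.ofReal (Gq κ (stP κ B w (D.tau t ω) ω)) ∂P =
      ∫⁻ ω in A ∩ D.alive t, ENNReal.ofReal
        (fS 0 (κ / 8 - 1) (8 / κ - 1) (D.st (D.tau t ω) ω)) ∂P := by
    refine setLIntegral_congr_fun (hA.measurableSet.inter (D.measurableSet_alive t)) ?_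
    rintro ω ⟨_, h2⟩
    have hY := D.y_pos ω _ (D.tau_mem h2).1
    simp only
    rw [fS_G hY]
    rfl
  have e2 : ∫⁻ ω in A, ENNReal.ofReal (Gq κ (stP κ B w (D.tau s ω) ω)) ∂P =
      ∫⁻ ω in A, ENNReal.ofReal
        (fS 0 (κ / 8 - 1) (8 / κ - 1) (D.st (D.tau s ω) ω)) ∂P := by
    refine setLIntegral_congr_fun hA.measurableSet ?_
    intro ω h2
    have hY := D.y_pos ω _ (D.tau_mem (hA.1 h2)).1
    simp only
    rw [fS_G hY]
    rfl
  rw [e1, e2]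
  exact h

/-- **GEX**: `G` is an exact martingale along the radial levels. -/
theorem gex (hM : OPM.{u}) (hB : IsBM Fl B P) (hκ : 0 < κ) (hκ8 : κ < 8) (hw : 0 < w.im)
    {s t : ℝ} (hs : -Real.log w.im ≤ s) (hst : s ≤ t) {A : Set Ω}
    (hA : (oneP hM hB hκ hw).Past s A) :
    ∫⁻ ω in A ∩ (oneP hM hB hκ hw).alive t,
        ENNReal.ofReal (Gq κ (stP κ B w ((oneP hM hB hκ hw).tau t ω) ω)) ∂P =
    ∫⁻ ω in A, ENNReal.ofReal (Gq κ (stP κ B w ((oneP hM hB hκ hw).tau s ω) ω)) ∂P :=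
  le_antisymm (gex_le hM hB hκ hw hs hst hA) (gex_ge hM hB hκ hκ8 hw hs hst hA)

end integ

end Crest.Agent.R162.GEX
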