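import Crest.Prelude.Def_Loewner

/-!
Row 162, node GM (1): calculus of the gauge `φ = gaugeReal κ`.
-/

set_option autoImplicit false

namespace Crest.Agent.R162.GM

open Crest.ProbabilityR.Loewner MeasureTheory Set Filter Topology
open scoped ENNReal

/-- the threshold radius `exp (-(exp 1))`. -/
noncomputable def m0 : ℝ := Real.exp (-Real.exp 1)

lemma m0_pos : 0 < m0 := Real.exp_pos _

lemma m0_lt_one : m0 < 1 := by
  unfold m0
  rw [Real.exp_lt_one_iff]
  have := Real.exp_pos 1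
  linarith

/-- `L x = log (log (1/x))`. -/
noncomputable def L (x : ℝ) : ℝ := Real.log (Real.log (1 / x))

lemma gaugeReal_eq (κ x : ℝ) :
    gaugeReal κ x = (min x m0) ^ dimParam κ * L (min x m0) ^ ((2 - dimParam κ) / 2) := rfl

lemma dim_gt {κ : ℝ} (hκ : 0 < κ) : 1 < dimParam κ := by unfold dimParam; linarith
lemma dim_lt {κ : ℝ} (hκ8 : κ < 8) : dimParam κ < 2 := by unfold dimParam; linarith

lemma log_one_div_ge {x : ℝ} (hx : 0 < x) (hxm : x ≤ m0) : Real.exp 1 ≤ Real.log (1 / x) := by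
  rw [one_div, Real.log_inv]
  have : Real.log x ≤ Real.log m0 := Real.log_le_log hx hxm
  rw [m0, Real.log_exp] at this
  linarith

lemma L_ge_one {x : ℝ} (hx : 0 < x) (hxm : x ≤ m0) : 1 ≤ L x := by
  have h := log_one_div_ge hx hxm
  have := Real.log_le_log (Real.exp_pos 1) h
  rwa [Real.log_exp] at this

lemma L_anti {x y : ℝ} (hx : 0 < x) (hxy : x ≤ y) (hy : y ≤ m0) : L y ≤ L x := by
  have hy0 : 0 < y := hx.trans_le hxy
  have h1 := log_one_div_ge hy0 hy
  unfold L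
  apply Real.log_le_log ((Real.exp_pos 1).trans_le h1)
  apply Real.log_le_log (by positivity)
  exact one_div_le_one_div_of_le hx hxy

lemma gaugeReal_zero (κ : ℝ) (hκ : 0 < κ) : gaugeReal κ 0 = 0 := by
  have h1 := dim_gt hκ
  rw [gaugeReal_eq, min_eq_left m0_pos.le, Real.zero_rpow (by linarith), zero_mul]

lemma gaugeReal_nonneg {κ x : ℝ} (hx : 0 ≤ x) : 0 ≤ gaugeReal κ x := by
  rw [gaugeReal_eq]
  rcases hx.eq_or_lt with h | h
  · subst h
    rw [min_eq_left m0_pos.le]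
    have : L 0 = 0 := by simp [L]
    rw [this]
    positivity
  · have h1 : 0 < min x m0 := lt_min h m0_pos
    have := L_ge_one h1 (min_le_right _ _)
    have h2 : 0 ≤ L (min x m0) := by linarith
    positivity

/-- formula at small radii -/
lemma gaugeReal_small {κ x : ℝ} (hxm : x ≤ m0) :
    gaugeReal κ x = x ^ dimParam κ * L x ^ ((2 - dimParam κ) / 2) := by
  rw [gaugeReal_eq, min_eq_left hxm]

lemma gaugeReal_pos {κ x : ℝ} (hx : 0 < x) : 0 < gaugeReal κ x := by
  rw [gaugeReal_eq]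
  have h1 : 0 < min x m0 := lt_min hx m0_pos
  have := L_ge_one h1 (min_le_right _ _)
  have h2 : 0 < L (min x m0) := by linarith
  positivity

/-- lower bound `x^d ≤ φ(x)`. -/
lemma rpow_le_gaugeReal {κ x : ℝ} (hκ8 : κ < 8) (hx : 0 < x) (hxm : x ≤ m0) :
    x ^ dimParam κ ≤ gaugeReal κ x := by
  rw [gaugeReal_small hxm]
  have h1 : 1 ≤ L x ^ ((2 - dimParam κ) / 2) :=
    Real.one_le_rpow (L_ge_one hx hxm) (by have := dim_lt hκ8; linarith)
  have h2 : 0 ≤ x ^ dimParam κ := by positivity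
  nlinarith

/-- The gauge is monotone on small radii. -/
lemma gaugeReal_mono_small {κ x y : ℝ} (hκ : 0 < κ) (hκ8 : κ < 8) (hx : 0 < x) (hxy : x ≤ y)
    (hy : y ≤ m0) : gaugeReal κ x ≤ gaugeReal κ y := by
  have hy0 : 0 < y := hx.trans_le hxy
  have hxm : x ≤ m0 := hxy.trans hy
  have hd1 := dim_gt hκ
  have hd2 := dim_lt hκ8
  rw [gaugeReal_small hxm, gaugeReal_small hy]
  have hLx := L_ge_one hx hxm
  have hLy := L_ge_one hy0 hy
  have hux := log_one_div_ge hx hxm
  have hvy := log_one_div_ge hy0 hy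
  have he : (1 : ℝ) ≤ Real.exp 1 := Real.one_le_exp (by norm_num)
  -- L x ≤ L y * (y / x)
  have hlog : Real.log (1 / x) - Real.log (1 / y) = Real.log (y / x) := by
    rw [one_div, one_div, Real.log_inv, Real.log_inv, Real.log_div hy0.ne' hx.ne']; ring
  have hyx : 1 ≤ y / x := (one_le_div hx).2 hxy
  have hlogyx : 0 ≤ Real.log (y / x) := Real.log_nonneg hyx
  have h1 : L x - L y ≤ Real.log (y / x) := by
    have hu0 : 0 < Real.log (1 / x) := (Real.exp_pos 1).trans_le hux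
    have hv0 : 0 < Real.log (1 / y) := (Real.exp_pos 1).trans_le hvy
    have e1 : L x - L y = Real.log (Real.log (1 / x) / Real.log (1 / y)) := by
      unfold L; rw [Real.log_div hu0.ne' hv0.ne']
    rw [e1]
    calc Real.log (Real.log (1 / x) / Real.log (1 / y))
        ≤ Real.log (1 / x) / Real.log (1 / y) - 1 := Real.log_le_sub_one_of_pos (by positivity)
      _ = (Real.log (1 / x) - Real.log (1 / y)) / Real.log (1 / y) := by
          field_simp
      _ = Real.log (y / x) / Real.log (1 / y) := by rw [hlog]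
      _ ≤ Real.log (y / x) := div_le_self hlogyx (he.trans hvy)
  have h2 : L x ≤ L y * (y / x) := by
    have h3 : Real.log (y / x) ≤ y / x - 1 := Real.log_le_sub_one_of_pos (by positivity)
    nlinarith
  have ha0 : 0 ≤ (2 - dimParam κ) / 2 := by linarith
  have ha1 : (2 - dimParam κ) / 2 ≤ dimParam κ := by linarith
  calc x ^ dimParam κ * L x ^ ((2 - dimParam κ) / 2)
      ≤ x ^ dimParam κ * (L y * (y / x)) ^ ((2 - dimParam κ) / 2) := by
        apply mul_le_mul_of_nonneg_left _ (by positivity)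
        exact Real.rpow_le_rpow (by linarith) h2 ha0
    _ = x ^ dimParam κ * (L y ^ ((2 - dimParam κ) / 2) * (y / x) ^ ((2 - dimParam κ) / 2)) := by
        rw [Real.mul_rpow (by linarith) (by positivity)]
    _ ≤ x ^ dimParam κ * (L y ^ ((2 - dimParam κ) / 2) * (y / x) ^ dimParam κ) := by
        have : (0:ℝ) ≤ L y := by linarith
        gcongr
    _ = (x * (y / x)) ^ dimParam κ * L y ^ ((2 - dimParam κ) / 2) := by
        rw [Real.mul_rpow hx.le (by positivity)]; ring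
    _ = y ^ dimParam κ * L y ^ ((2 - dimParam κ) / 2) := by
        rw [mul_div_cancel₀ _ hx.ne']

/-- The gauge is monotone. -/
lemma gaugeReal_mono {κ x y : ℝ} (hκ : 0 < κ) (hκ8 : κ < 8) (hx : 0 ≤ x) (hxy : x ≤ y) :
    gaugeReal κ x ≤ gaugeReal κ y := by
  rcases hx.eq_or_lt with h | h
  · subst h
    rw [gaugeReal_zero κ hκ]
    exact gaugeReal_nonneg hxy
  · have e : ∀ z, gaugeReal κ z = gaugeReal κ (min z m0) := by
      intro z
      rw [gaugeReal_eq, gaugeReal_eq, min_assoc, min_self]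
    rw [e x, e y]
    exact gaugeReal_mono_small hκ hκ8 (lt_min h m0_pos) (min_le_min_right _ hxy)
      (min_le_right _ _)

/-- doubling: `φ(C x) ≤ C^d φ(x)` for `C ≥ 1`. -/
lemma gaugeReal_mul_le {κ C x : ℝ} (hκ : 0 < κ) (hκ8 : κ < 8) (hC : 1 ≤ C) (hx : 0 ≤ x) :
    gaugeReal κ (C * x) ≤ C ^ dimParam κ * gaugeReal κ x := by
  rcases hx.eq_or_lt with h | h
  · subst h
    simp [gaugeReal_zero κ hκ]
  have hd2 := dim_lt hκ8
  have hd1 := dim_gt hκ
  have ha0 : 0 ≤ (2 - dimParam κ) / 2 := by linarith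
  rw [gaugeReal_eq, gaugeReal_eq]
  have h1 : 0 < min x m0 := lt_min h m0_pos
  have hCx : x ≤ C * x := by nlinarith
  have h2 : min x m0 ≤ min (C * x) m0 := min_le_min_right _ hCx
  have h3 : min (C * x) m0 ≤ C * min x m0 := by
    rw [mul_min_of_nonneg _ _ (by linarith)]
    exact min_le_min_left _ (by nlinarith [m0_pos])
  have h4 := L_anti h1 h2 (min_le_right _ _)
  have h5 := L_ge_one (h1.trans_le h2) (min_le_right _ _)
  have h6 := L_ge_one h1 (min_le_right _ _)
  calc (min (C * x) m0) ^ dimParam κ * L (min (C * x) m0) ^ ((2 - dimParam κ) / 2)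
      ≤ (C * min x m0) ^ dimParam κ * L (min x m0) ^ ((2 - dimParam κ) / 2) := by
        have : 0 < min (C * x) m0 := h1.trans_le h2
        have h7 : (0:ℝ) ≤ L (min (C * x) m0) := by linarith
        gcongr
    _ = _ := by
        rw [Real.mul_rpow (by linarith) h1.le]; ring

/-- upper bound by a power: `φ(x) ≤ x^(d - 1/2)` at small radii. -/
lemma gaugeReal_le_rpow {κ x : ℝ} (hκ : 0 < κ) (hκ8 : κ < 8) (hx : 0 < x) (hxm : x ≤ m0) :
    gaugeReal κ x ≤ x ^ (dimParam κ - 1 / 2) := by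
  rw [gaugeReal_small hxm]
  have hd2 := dim_lt hκ8
  have hd1 := dim_gt hκ
  have hL := L_ge_one hx hxm
  have hx1 : x < 1 := hxm.trans_lt m0_lt_one
  have h1 : L x ≤ 1 / x := by
    have h0 := log_one_div_ge hx hxm
    have h0' : 0 < Real.log (1 / x) := (Real.exp_pos 1).trans_le h0
    have h2 : L x ≤ Real.log (1 / x) := by
      have := Real.log_le_sub_one_of_pos h0'
      unfold L; linarith
    have h3 : Real.log (1 / x) ≤ 1 / x - 1 := Real.log_le_sub_one_of_pos (by positivity)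
    linarith
  have h2 : L x ^ ((2 - dimParam κ) / 2) ≤ (1 / x) ^ (1 / 2 : ℝ) := by
    calc L x ^ ((2 - dimParam κ) / 2) ≤ L x ^ (1 / 2 : ℝ) :=
          Real.rpow_le_rpow_of_exponent_le hL (by linarith)
      _ ≤ (1 / x) ^ (1 / 2 : ℝ) := Real.rpow_le_rpow (by linarith) h1 (by norm_num)
  calc x ^ dimParam κ * L x ^ ((2 - dimParam κ) / 2)
      ≤ x ^ dimParam κ * (1 / x) ^ (1 / 2 : ℝ) := by gcongr
    _ = x ^ (dimParam κ - 1 / 2) := by
        rw [Real.rpow_sub hx, one_div, Real.inv_rpow hx.le]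
        field_simp

/-- `φ(e^{-K}) = e^{-dK} (log K)^((2-d)/2)` for `K ≥ e`. -/
lemma gaugeReal_exp {κ K : ℝ} (hK : Real.exp 1 ≤ K) :
    gaugeReal κ (Real.exp (-K)) =
      Real.exp (-(dimParam κ * K)) * Real.log K ^ ((2 - dimParam κ) / 2) := by
  have h : Real.exp (-K) ≤ m0 := Real.exp_le_exp.2 (by linarith)
  rw [gaugeReal_small h, L, one_div, ← Real.exp_neg, Real.log_exp, neg_neg, ← Real.exp_mul]
  congr 2
  ring

lemma tendsto_gaugeReal_zero {κ : ℝ} (hκ : 0 < κ) (hκ8 : κ < 8) :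
    Tendsto (gaugeReal κ) (𝓝[≥] 0) (𝓝 0) := by
  have hd1 := dim_gt hκ
  have hT : Tendsto (fun x : ℝ => x ^ (dimParam κ - 1 / 2)) (𝓝[≥] 0) (𝓝 0) := by
    have hc : ContinuousAt (fun x : ℝ => x ^ (dimParam κ - 1 / 2)) 0 :=
      Real.continuousAt_rpow_const 0 _ (Or.inr (by linarith))
    have := hc.tendsto
    rw [Real.zero_rpow (by linarith)] at this
    exact this.mono_left nhdsWithin_le_nhds
  apply tendsto_of_tendsto_of_tendsto_of_le_of_le' tendsto_const_nhds hT
  · filter_upwards [self_mem_nhdsWithin] with x hx using gaugeReal_nonneg hx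
  · have : ∀ᶠ x in 𝓝[≥] (0:ℝ), x < m0 := nhdsWithin_le_nhds (gt_mem_nhds m0_pos)
    filter_upwards [self_mem_nhdsWithin, this] with x hx hxm
    rcases (show (0:ℝ) ≤ x from hx).eq_or_lt with h | h
    · subst h; rw [gaugeReal_zero κ hκ, Real.zero_rpow (by linarith)]
    · exact gaugeReal_le_rpow hκ hκ8 h hxm.le

/-! ### the extended gauge -/

lemma gaugeExt_ofReal {κ r : ℝ} (hr : 0 ≤ r) :
    gaugeExt κ (ENNReal.ofReal r) = ENNReal.ofReal (gaugeReal κ r) := by
  rw [gaugeExt, ENNReal.toReal_ofReal hr]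

lemma gaugeExt_mono {κ : ℝ} (hκ : 0 < κ) (hκ8 : κ < 8) {r s : ℝ≥0∞} (hrs : r ≤ s) (hs : s ≠ ⊤) :
    gaugeExt κ r ≤ gaugeExt κ s := by
  unfold gaugeExt
  apply ENNReal.ofReal_le_ofReal
  exact gaugeReal_mono hκ hκ8 ENNReal.toReal_nonneg ((ENNReal.toReal_le_toReal
    (ne_top_of_le_ne_top hs hrs) hs).2 hrs)

/-- gauge of a set contained in a ball of radius `r`. -/
lemma gaugeExt_ediam_le {κ : ℝ} (hκ : 0 < κ) (hκ8 : κ < 8) {E : Set ℂ} {r : ℝ} (hr : 0 ≤ r)
    (h : Metric.ediam E ≤ ENNReal.ofReal r) :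
    gaugeExt κ (Metric.ediam E) ≤ ENNReal.ofReal (gaugeReal κ r) := by
  rw [← gaugeExt_ofReal hr]
  exact gaugeExt_mono hκ hκ8 h ENNReal.ofReal_ne_top

lemma gaugeExt_mul_le {κ : ℝ} (hκ : 0 < κ) (hκ8 : κ < 8) {C : ℝ} (hC : 1 ≤ C) (r : ℝ≥0∞) :
    gaugeExt κ (ENNReal.ofReal C * r) ≤ ENNReal.ofReal (C ^ dimParam κ) * gaugeExt κ r := by
  unfold gaugeExt
  rw [ENNReal.toReal_mul, ENNReal.toReal_ofReal (by linarith), ← ENNReal.ofReal_mul (by positivity)]
  exact ENNReal.ofReal_le_ofReal (gaugeReal_mul_le hκ hκ8 hC ENNReal.toReal_nonneg)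

end Crest.Agent.R162.GM
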