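import Crest.Agent.R162.GM1

/-!
Row 162, node GM (2): upper bounds for the gauge measure by covers, deterministic and in
expectation (Fatou), with measurable majorants.
-/

set_option autoImplicit false

namespace Crest.Agent.R162.GM

open Crest.ProbabilityR.Loewner MeasureTheory Set Filter Topology
open scoped ENNReal

/-- `E` is covered by countably many closed balls of radii `≤ δ` with total gauge cost `≤ M`
(radius `0` is allowed and costs nothing). -/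
def HasCover (κ δ : ℝ) (M : ℝ≥0∞) (E : Set ℂ) : Prop :=
  ∃ (c : ℕ → ℂ) (r : ℕ → ℝ), (∀ i, 0 ≤ r i ∧ r i ≤ δ) ∧ (E ⊆ ⋃ i, Metric.closedBall (c i) (r i)) ∧
    ∑' i, ENNReal.ofReal (gaugeReal κ (r i)) ≤ M

lemma HasCover.mono {κ δ δ' : ℝ} {M M' : ℝ≥0∞} {E E' : Set ℂ} (h : HasCover κ δ M E)
    (hδ : δ ≤ δ') (hM : M ≤ M') (hE : E' ⊆ E) : HasCover κ δ' M' E' := by
  obtain ⟨c, r, h1, h2, h3⟩ := h
  exact ⟨c, r, fun i => ⟨(h1 i).1, (h1 i).2.trans hδ⟩, hE.trans h2, h3.trans hM⟩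

/-- a cover indexed by any countable type, by sets contained in closed balls. -/
lemma HasCover.of_countable {κ : ℝ} (hκ : 0 < κ) {δ : ℝ} (hδ : 0 ≤ δ) {ι : Type*} [Countable ι]
    {E : Set ℂ} (c : ι → ℂ) (r : ι → ℝ) (hr0 : ∀ i, 0 ≤ r i) (hrδ : ∀ i, r i ≤ δ)
    (hE : E ⊆ ⋃ i, Metric.closedBall (c i) (r i)) :
    HasCover κ δ (∑' i, ENNReal.ofReal (gaugeReal κ (r i))) E := by
  classical
  obtain ⟨f, hf⟩ := exists_injective_nat ι
  refine ⟨fun n => if h : ∃ i, f i = n then c h.choose else 0,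
    fun n => if h : ∃ i, f i = n then r h.choose else 0, ?_, ?_, ?_⟩
  · intro n
    by_cases h : ∃ i, f i = n
    · simp only [h, dif_pos]; exact ⟨hr0 _, hrδ _⟩
    · simp only [h, dif_neg, not_false_eq_true]; exact ⟨le_rfl, hδ⟩
  · refine hE.trans ?_
    intro z hz
    obtain ⟨i, hi⟩ := mem_iUnion.1 hz
    refine mem_iUnion.2 ⟨f i, ?_⟩
    have h : ∃ j, f j = f i := ⟨i, rfl⟩
    have hj : h.choose = i := hf h.choose_spec
    simp only [h, dif_pos]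
    rw [hj]; exact hi
  · have key : ∀ n, ENNReal.ofReal (gaugeReal κ (if h : ∃ i, f i = n then r h.choose else 0)) =
        ∑' i : ι, if f i = n then ENNReal.ofReal (gaugeReal κ (r i)) else 0 := by
      intro n
      by_cases h : ∃ i, f i = n
      · obtain ⟨i, rfl⟩ := h
        have h : ∃ j, f j = f i := ⟨i, rfl⟩
        have hj : h.choose = i := hf h.choose_spec
        simp only [h, dif_pos]
        rw [hj, tsum_eq_single i]
        · simp
        · intro j hj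
          rw [if_neg]; exact fun e => hj (hf e)
      · simp only [h, dif_neg, not_false_eq_true]
        rw [gaugeReal_zero κ hκ, ENNReal.ofReal_zero]
        symm
        rw [ENNReal.tsum_eq_zero]
        intro i
        rw [if_neg]; exact fun e => h ⟨i, e⟩
    simp only [key]
    rw [ENNReal.tsum_comm]
    apply ENNReal.tsum_le_tsum
    intro i
    rw [tsum_eq_single (f i)]
    · simp
    · intro n hn
      rw [if_neg]; exact fun e => hn e.symm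

/-- a cover by a finite family. -/
lemma HasCover.of_finset {κ : ℝ} (hκ : 0 < κ) {δ : ℝ} (hδ : 0 ≤ δ) {ι : Type*} (s : Finset ι)
    {E : Set ℂ} (c : ι → ℂ) (r : ι → ℝ) (hr0 : ∀ i ∈ s, 0 ≤ r i) (hrδ : ∀ i ∈ s, r i ≤ δ)
    (hE : E ⊆ ⋃ i ∈ s, Metric.closedBall (c i) (r i)) :
    HasCover κ δ (∑ i ∈ s, ENNReal.ofReal (gaugeReal κ (r i))) E := by
  have h := HasCover.of_countable (ι := s) hκ hδ (E := E) (fun i => c i) (fun i => r i)
    (fun i => hr0 i i.2) (fun i => hrδ i i.2) (by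
      refine hE.trans ?_
      intro z hz
      simp only [mem_iUnion] at hz ⊢
      obtain ⟨i, hi, hz⟩ := hz
      exact ⟨⟨i, hi⟩, hz⟩)
  rw [tsum_fintype] at h
  rwa [Finset.sum_coe_sort s (fun i => ENNReal.ofReal (gaugeReal κ (r i)))] at h

lemma HasCover.union {κ : ℝ} (hκ : 0 < κ) {δ : ℝ} {M₁ M₂ : ℝ≥0∞} {E₁ E₂ : Set ℂ}
    (h₁ : HasCover κ δ M₁ E₁) (h₂ : HasCover κ δ M₂ E₂) : HasCover κ δ (M₁ + M₂) (E₁ ∪ E₂) := by
  obtain ⟨c, r, h1, h2, h3⟩ := h₁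
  obtain ⟨c', r', h1', h2', h3'⟩ := h₂
  have hδ : 0 ≤ δ := (h1 0).1.trans (h1 0).2
  have h := HasCover.of_countable (κ := κ) (ι := ℕ ⊕ ℕ) hκ hδ (E := E₁ ∪ E₂) (Sum.elim c c')
    (Sum.elim r r') (by rintro (i | i); exacts [(h1 i).1, (h1' i).1])
    (by rintro (i | i); exacts [(h1 i).2, (h1' i).2]) (by
      rintro z (hz | hz)
      · obtain ⟨i, hi⟩ := mem_iUnion.1 (h2 hz)
        exact mem_iUnion.2 ⟨Sum.inl i, hi⟩
      · obtain ⟨i, hi⟩ := mem_iUnion.1 (h2' hz)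
        exact mem_iUnion.2 ⟨Sum.inr i, hi⟩)
  refine h.mono le_rfl ?_ subset_rfl
  rw [ENNReal.summable.tsum_sum (f := fun i => ENNReal.ofReal (gaugeReal κ (Sum.elim r r' i)))
    ENNReal.summable]
  exact add_le_add h3 h3'

lemma ediam_closedBall_le (x : ℂ) {r : ℝ} (_hr : 0 ≤ r) :
    Metric.ediam (Metric.closedBall x r) ≤ ENNReal.ofReal (2 * r) := by
  apply Metric.ediam_le
  intro y hy z hz
  rw [edist_dist]
  apply ENNReal.ofReal_le_ofReal
  calc dist y z ≤ dist y x + dist z x := dist_triangle_right _ _ _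
    _ ≤ 2 * r := by
      have := Metric.mem_closedBall.1 hy
      have := Metric.mem_closedBall.1 hz
      linarith

lemma gaugeExt_closedBall_le {κ : ℝ} (hκ : 0 < κ) (hκ8 : κ < 8) (x : ℂ) {r : ℝ} (hr : 0 ≤ r) :
    gaugeExt κ (Metric.ediam (Metric.closedBall x r)) ≤
      ENNReal.ofReal (2 ^ dimParam κ) * ENNReal.ofReal (gaugeReal κ r) := by
  refine (gaugeExt_ediam_le hκ hκ8 (by positivity) (ediam_closedBall_le x hr)).trans ?_
  rw [← ENNReal.ofReal_mul (by positivity)]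
  exact ENNReal.ofReal_le_ofReal (gaugeReal_mul_le hκ hκ8 (by norm_num) hr)

/-- Deterministic upper bound. -/
theorem gaugeMeasure_le_liminf {κ : ℝ} (hκ : 0 < κ) (hκ8 : κ < 8) {E : Set ℂ} {δ : ℕ → ℝ}
    (hδ : Tendsto δ atTop (𝓝 0)) {M : ℕ → ℝ≥0∞} (h : ∀ n, HasCover κ (δ n) (M n) E) :
    gaugeMeasure κ E ≤ liminf (fun n => ENNReal.ofReal (2 ^ dimParam κ) * M n) atTop := by
  choose c r h1 h2 h3 using h
  have hδ' : Tendsto (fun n => ENNReal.ofReal (2 * δ n)) atTop (𝓝 0) := by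
    have : Tendsto (fun n => 2 * δ n) atTop (𝓝 0) := by simpa using hδ.const_mul 2
    simpa using ENNReal.tendsto_ofReal this
  refine (Measure.mkMetric_le_liminf_tsum (ι := fun _ => ℕ) E (fun n => ENNReal.ofReal (2 * δ n))
    hδ' (fun n i => Metric.closedBall (c n i) (r n i)) (Eventually.of_forall fun n i => ?_)
    (Eventually.of_forall h2) (gaugeExt κ)).trans ?_
  · refine (ediam_closedBall_le _ (h1 n i).1).trans ?_
    exact ENNReal.ofReal_le_ofReal (by linarith [(h1 n i).2])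
  · refine liminf_le_liminf (Eventually.of_forall fun n => ?_)
    refine (ENNReal.tsum_le_tsum fun i => gaugeExt_closedBall_le hκ hκ8 (c n i) (h1 n i).1).trans ?_
    rw [ENNReal.tsum_mul_left]
    exact mul_le_mul_right (h3 n) _

/-- the upper bound with a constant. -/
theorem gaugeMeasure_le_of_covers {κ : ℝ} (hκ : 0 < κ) (hκ8 : κ < 8) {E : Set ℂ} {M : ℝ≥0∞}
    (h : ∀ δ > 0, HasCover κ δ M E) :
    gaugeMeasure κ E ≤ ENNReal.ofReal (2 ^ dimParam κ) * M := by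
  have h' := gaugeMeasure_le_liminf hκ hκ8 (E := E) (δ := fun n : ℕ => 1 / ((n : ℝ) + 1))
    (M := fun _ => M) tendsto_one_div_add_atTop_nhds_zero_nat (fun n => h _ (by positivity))
  simpa using h'

section random

variable {Ω : Type*} [MeasurableSpace Ω] (P : Measure Ω)

/-- **Expectation form with a measurable majorant** (Fatou). No measurability of
`ω ↦ gaugeMeasure κ (E ω)` is needed. -/
theorem exists_majorant {κ : ℝ} (hκ : 0 < κ) (hκ8 : κ < 8) {E : Ω → Set ℂ} {δ : ℕ → ℝ}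
    (hδ : Tendsto δ atTop (𝓝 0)) {M : ℕ → Ω → ℝ≥0∞} (hM : ∀ n, Measurable (M n))
    (h : ∀ n, ∀ᵐ ω ∂P, HasCover κ (δ n) (M n ω) (E ω)) :
    ∃ N : Ω → ℝ≥0∞, Measurable N ∧ (∀ᵐ ω ∂P, gaugeMeasure κ (E ω) ≤ N ω) ∧
      ∫⁻ ω, N ω ∂P ≤ liminf (fun n => ENNReal.ofReal (2 ^ dimParam κ) * ∫⁻ ω, M n ω ∂P) atTop := by
  have hm : ∀ n, Measurable fun ω => ENNReal.ofReal (2 ^ dimParam κ) * M n ω :=
    fun n => (hM n).const_mul _
  refine ⟨fun ω => liminf (fun n => ENNReal.ofReal (2 ^ dimParam κ) * M n ω) atTop,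
    Measurable.liminf hm, ?_, ?_⟩
  · filter_upwards [ae_all_iff.2 h] with ω hω
    exact gaugeMeasure_le_liminf hκ hκ8 hδ hω
  · refine (lintegral_liminf_le hm).trans (liminf_le_liminf (Eventually.of_forall fun n => ?_))
    exact (lintegral_const_mul _ (hM n)).le

/-- the same with a uniform bound of the expected costs. -/
theorem exists_majorant_of_le {κ : ℝ} (hκ : 0 < κ) (hκ8 : κ < 8) {E : Ω → Set ℂ} {δ : ℕ → ℝ}
    (hδ : Tendsto δ atTop (𝓝 0)) {M : ℕ → Ω → ℝ≥0∞} (hM : ∀ n, Measurable (M n))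
    (h : ∀ n, ∀ᵐ ω ∂P, HasCover κ (δ n) (M n ω) (E ω)) {C : ℝ≥0∞}
    (hC : ∀ n, ∫⁻ ω, M n ω ∂P ≤ C) :
    ∃ N : Ω → ℝ≥0∞, Measurable N ∧ (∀ᵐ ω ∂P, gaugeMeasure κ (E ω) ≤ N ω) ∧
      ∫⁻ ω, N ω ∂P ≤ ENNReal.ofReal (2 ^ dimParam κ) * C := by
  obtain ⟨N, h1, h2, h3⟩ := exists_majorant P hκ hκ8 hδ hM h
  refine ⟨N, h1, h2, h3.trans ?_⟩
  refine (liminf_le_liminf (v := fun _ => ENNReal.ofReal (2 ^ dimParam κ) * C)
    (Eventually.of_forall fun n => ?_)).trans (by simp)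
  exact mul_le_mul_right (hC n) _

/-- **U9**: expectation bound and almost sure finiteness from covers of bounded expected cost. -/
theorem lintegral_lt_top_and_ae_lt_top {κ : ℝ} (hκ : 0 < κ) (hκ8 : κ < 8) {E : Ω → Set ℂ}
    {δ : ℕ → ℝ} (hδ : Tendsto δ atTop (𝓝 0)) {M : ℕ → Ω → ℝ≥0∞} (hM : ∀ n, Measurable (M n))
    (h : ∀ n, ∀ᵐ ω ∂P, HasCover κ (δ n) (M n ω) (E ω)) {C : ℝ≥0∞} (hC' : C ≠ ⊤)
    (hC : ∀ n, ∫⁻ ω, M n ω ∂P ≤ C) :
    ∫⁻ ω, gaugeMeasure κ (E ω) ∂P < ⊤ ∧ ∀ᵐ ω ∂P, gaugeMeasure κ (E ω) < ⊤ := by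
  obtain ⟨N, h1, h2, h3⟩ := exists_majorant_of_le P hκ hκ8 hδ hM h hC
  have hfin : ∫⁻ ω, N ω ∂P ≠ ⊤ :=
    ne_top_of_le_ne_top (ENNReal.mul_ne_top ENNReal.ofReal_ne_top hC') h3
  refine ⟨(lintegral_mono_ae h2).trans_lt hfin.lt_top, ?_⟩
  filter_upwards [h2, ae_lt_top h1 hfin] with ω a b using a.trans_lt b

/-- the same if the covers exist along an arbitrary sequence of scales given by an `∃`-statement. -/
theorem lintegral_lt_top_and_ae_lt_top' {κ : ℝ} (hκ : 0 < κ) (hκ8 : κ < 8) {E : Ω → Set ℂ}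
    {C : ℝ≥0∞} (hC' : C ≠ ⊤)
    (h : ∀ δ : ℝ, 0 < δ → ∃ M : Ω → ℝ≥0∞, Measurable M ∧ ∫⁻ ω, M ω ∂P ≤ C ∧
      ∀ᵐ ω ∂P, HasCover κ δ (M ω) (E ω)) :
    ∫⁻ ω, gaugeMeasure κ (E ω) ∂P < ⊤ ∧ ∀ᵐ ω ∂P, gaugeMeasure κ (E ω) < ⊤ := by
  choose M h1 h2 h3 using h
  have hp : ∀ n : ℕ, 0 < 1 / ((n : ℝ) + 1) := fun n => by positivity
  exact lintegral_lt_top_and_ae_lt_top P hκ hκ8 (δ := fun n : ℕ => 1 / ((n : ℝ) + 1))
    tendsto_one_div_add_atTop_nhds_zero_nat (M := fun n => M _ (hp n))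
    (fun n => h1 _ (hp n)) (fun n => h3 _ (hp n)) hC' (fun n => h2 _ (hp n))

end random

end Crest.Agent.R162.GM
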