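import Crest.Agent.R162.GM1

/-!
Row 162, node GM (3): lower bounds for the gauge measure: mass distribution principle, its
finite-scale version for measures on neighbourhoods of a compact set, Lipschitz images.
-/

set_option autoImplicit false

namespace Crest.Agent.R162.GM

open Crest.ProbabilityR.Loewner MeasureTheory Set Filter Topology
open scoped ENNReal

/-- radius slightly bigger than the diameter with controlled gauge. -/
lemma exists_radius {κ : ℝ} (hκ : 0 < κ) (hκ8 : κ < 8) {D : ℝ} (hD : 0 ≤ D) {η r0 : ℝ}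
    (hη : 0 < η) (hDr : 2 * D ≤ r0) (hr0 : 0 < r0) :
    ∃ ρ, D < ρ ∧ ρ ≤ r0 ∧ gaugeReal κ ρ ≤ 2 ^ dimParam κ * gaugeReal κ D + η := by
  rcases hD.eq_or_lt with h | h
  · subst h
    have h1 := tendsto_gaugeReal_zero hκ hκ8
    have h2 : ∀ᶠ x in 𝓝[≥] (0:ℝ), gaugeReal κ x < η := h1.eventually (gt_mem_nhds hη)
    have h3 : ∀ᶠ x in 𝓝[>] (0:ℝ), gaugeReal κ x < η :=
      h2.filter_mono (nhdsWithin_mono _ Ioi_subset_Ici_self)
    have h4 : ∀ᶠ x in 𝓝[>] (0:ℝ), x < r0 := nhdsWithin_le_nhds (gt_mem_nhds hr0)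
    obtain ⟨x, hx, hx2, hx3⟩ := (h3.and (h4.and self_mem_nhdsWithin)).exists
    refine ⟨x, hx3, hx2.le, ?_⟩
    rw [gaugeReal_zero κ hκ]
    simp only [mul_zero, zero_add]; exact hx.le
  · refine ⟨2 * D, by linarith, hDr, ?_⟩
    have := gaugeReal_mul_le hκ hκ8 (C := 2) (by norm_num) hD
    linarith

/-- covers by small sets: unfolding `mkMetric`. -/
lemma le_gaugeMeasure_of {κ : ℝ} {E : Set ℂ} {c K : ℝ≥0∞} {r : ℝ} (hr : 0 < r)
    (h : ∀ t : ℕ → Set ℂ, E ⊆ ⋃ n, t n → (∀ n, Metric.ediam (t n) ≤ ENNReal.ofReal r) →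
      c ≤ K * ∑' n, ⨆ _ : (t n).Nonempty, gaugeExt κ (Metric.ediam (t n)))
    (hK0 : K ≠ 0) (hK : K ≠ ⊤) :
    c ≤ K * gaugeMeasure κ E := by
  rw [gaugeMeasure, Measure.mkMetric_apply]
  have h1 : c / K ≤ ⨅ (t : ℕ → Set ℂ) (_ : E ⊆ iUnion t)
      (_ : ∀ n, Metric.ediam (t n) ≤ ENNReal.ofReal r),
      ∑' n, ⨆ _ : (t n).Nonempty, gaugeExt κ (Metric.ediam (t n)) :=
    le_iInf fun t => le_iInf fun h1 => le_iInf fun h2 => ENNReal.div_le_of_le_mul' (h t h1 h2)
  have h2 : c = K * (c / K) := (ENNReal.mul_div_cancel hK0 hK).symm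
  rw [h2]
  refine mul_le_mul_right (h1.trans ?_) _
  exact le_iSup₂_of_le (ENNReal.ofReal r) (ENNReal.ofReal_pos.2 hr) le_rfl

/-- data extracted from a cover by sets of small diameter. -/
lemma cover_data {κ : ℝ} (hκ : 0 < κ) (hκ8 : κ < 8) {t : ℕ → Set ℂ} {r0 : ℝ} (hr0 : 0 < r0)
    (ht : ∀ n, Metric.ediam (t n) ≤ ENNReal.ofReal (r0 / 2)) {η : ℝ} (hη : 0 < η) (n : ℕ)
    (x : ℂ) (hx : x ∈ t n) :
    ∃ ρ, 0 < ρ ∧ ρ ≤ r0 ∧ t n ⊆ Metric.ball x ρ ∧ ENNReal.ofReal (gaugeReal κ ρ) ≤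
      ENNReal.ofReal (2 ^ dimParam κ) * gaugeExt κ (Metric.ediam (t n)) + ENNReal.ofReal η := by
  have hfin : Metric.ediam (t n) ≠ ⊤ := ne_top_of_le_ne_top ENNReal.ofReal_ne_top (ht n)
  have hD : 0 ≤ (Metric.ediam (t n)).toReal := ENNReal.toReal_nonneg
  have hD2 : (Metric.ediam (t n)).toReal ≤ r0 / 2 := ENNReal.toReal_le_of_le_ofReal (by positivity) (ht n)
  obtain ⟨ρ, h1, h2, h3⟩ := exists_radius hκ hκ8 hD hη (by linarith) hr0
  refine ⟨ρ, hD.trans_lt h1, h2, ?_, ?_⟩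
  · intro y hy
    rw [Metric.mem_ball]
    have h4 : edist y x ≤ Metric.ediam (t n) := Metric.edist_le_ediam_of_mem hy hx
    have h5 : dist y x ≤ (Metric.ediam (t n)).toReal := by
      rw [dist_edist]; exact ENNReal.toReal_mono hfin h4
    exact h5.trans_lt h1
  · unfold gaugeExt
    rw [← ENNReal.ofReal_mul (by positivity), ← ENNReal.ofReal_add _ hη.le]
    · exact ENNReal.ofReal_le_ofReal h3
    · exact mul_nonneg (by positivity) (gaugeReal_nonneg hD)

/-- **Mass distribution principle at finite scales.** `E` is compact; for every `ε > 0` there is a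
measure carried by the `ε'`-neighbourhood of `E` (`ε' ≤ ε`), of mass `≥ c`, with the bound
`μ(B(x,r)) ≤ C φ(r)` for all `x` in a set `A` of full measure and all `r ∈ [ε', r0]`. Then
`c ≤ C' C · gaugeMeasure E`. -/
theorem le_gaugeMeasure_of_approx {κ : ℝ} (hκ : 0 < κ) (hκ8 : κ < 8) {E : Set ℂ}
    (hE : IsCompact E) {c C : ℝ≥0∞} (hC0 : C ≠ 0) (hC : C ≠ ⊤) {r0 : ℝ} (hr0 : 0 < r0)
    (h : ∀ ε : ℝ, 0 < ε → ∃ (ε' : ℝ) (μ : Measure ℂ) (A : Set ℂ), ε' ≤ ε ∧
      μ (Metric.thickening ε E)ᶜ = 0 ∧ μ Aᶜ = 0 ∧ c ≤ μ univ ∧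
      ∀ x ∈ A, ∀ r, ε' ≤ r → r ≤ r0 →
        μ (Metric.closedBall x r) ≤ C * ENNReal.ofReal (gaugeReal κ r)) :
    c ≤ C * ENNReal.ofReal (4 ^ dimParam κ) * gaugeMeasure κ E := by
  classical
  have h4 : (0:ℝ) < 4 ^ dimParam κ := by positivity
  have hr2 : 0 < r0 / 2 := by positivity
  refine le_gaugeMeasure_of (r := r0 / 2 / 2) (by positivity) (fun t hEt ht => ?_)
    (mul_ne_zero hC0 (ENNReal.ofReal_pos.2 h4).ne') (ENNReal.mul_ne_top hC ENNReal.ofReal_ne_top)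
  -- up to an error `δ`
  refine ENNReal.le_of_forall_pos_le_add fun δ hδ _ => ?_
  set C2 : ℝ≥0∞ := C * ENNReal.ofReal (2 ^ dimParam κ) with hC2
  have hC2t : C2 ≠ ⊤ := ENNReal.mul_ne_top hC ENNReal.ofReal_ne_top
  have hC20 : C2 ≠ 0 := mul_ne_zero hC0 (ENNReal.ofReal_pos.2 (by positivity)).ne'
  -- choose the errors
  obtain ⟨ε', hε', hsum⟩ := ENNReal.exists_pos_sum_of_countable
    (ε := (δ : ℝ≥0∞) / C2) (ENNReal.div_pos (by exact_mod_cast hδ.ne') hC2t).ne' ℕ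
  have hex : ∀ n, ∃ (x : ℂ) (ρ : ℝ), 0 < ρ ∧ ρ ≤ r0 / 2 ∧ ((t n).Nonempty → t n ⊆ Metric.ball x ρ ∧
      ENNReal.ofReal (gaugeReal κ ρ) ≤
      ENNReal.ofReal (2 ^ dimParam κ) * gaugeExt κ (Metric.ediam (t n)) + (ε' n : ℝ≥0∞)) := by
    intro n
    rcases (t n).eq_empty_or_nonempty with he | ⟨x, hx⟩
    · exact ⟨0, r0 / 2, hr2, le_rfl, fun hne => absurd he hne.ne_empty⟩
    · obtain ⟨ρ, h1, h2, h3, h5⟩ := cover_data hκ hκ8 hr2 ht
        (η := (ε' n : ℝ)) (by exact_mod_cast hε' n) n x hx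
      refine ⟨x, ρ, h1, h2, fun _ => ⟨h3, ?_⟩⟩
      simpa using h5
  choose x ρ hρ0 hρ1 hρ using hex
  -- open cover of E
  have hopen : E ⊆ ⋃ n, (if (t n).Nonempty then Metric.ball (x n) (ρ n) else ∅) := by
    intro z hz
    obtain ⟨n, hn⟩ := mem_iUnion.1 (hEt hz)
    refine mem_iUnion.2 ⟨n, ?_⟩
    have hne : (t n).Nonempty := ⟨z, hn⟩
    rw [if_pos hne]
    exact (hρ n hne).1 hn
  have hio : ∀ n, IsOpen (if (t n).Nonempty then Metric.ball (x n) (ρ n) else ∅) := by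
    intro n; split_ifs
    · exact Metric.isOpen_ball
    · exact isOpen_empty
  obtain ⟨F, hF⟩ := hE.elim_finite_subcover _ hio hopen
  have hopF : IsOpen (⋃ n ∈ F, (if (t n).Nonempty then Metric.ball (x n) (ρ n) else ∅)) :=
    isOpen_biUnion fun n _ => hio n
  obtain ⟨ε1, hε1, hth⟩ := hE.exists_thickening_subset_open hopF hF
  -- the minimal radius
  obtain ⟨ε2, hε2, hmin⟩ : ∃ ε2 > 0, ∀ n ∈ F, ε2 ≤ ρ n := by
    rcases F.eq_empty_or_nonempty with he | hne
    · exact ⟨1, one_pos, by simp [he]⟩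
    · refine ⟨F.inf' hne ρ, ?_, fun n hn => Finset.inf'_le _ hn⟩
      rw [gt_iff_lt, Finset.lt_inf'_iff]
      exact fun n _ => hρ0 n
  obtain ⟨ε'', μ, A, hle, hμE, hμA, hμc, hμb⟩ := h (min ε1 ε2) (lt_min hε1 hε2)
  -- bound of the measure of one ball
  have hball : ∀ n ∈ F, μ (Metric.closedBall (x n) (ρ n)) ≤
      C2 * ENNReal.ofReal (gaugeReal κ (ρ n)) := by
    intro n hn
    have hA : μ (Metric.closedBall (x n) (ρ n)) ≤ μ (Metric.closedBall (x n) (ρ n) ∩ A) := by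
      calc μ (Metric.closedBall (x n) (ρ n))
          ≤ μ ((Metric.closedBall (x n) (ρ n) ∩ A) ∪ Aᶜ) := by
            apply measure_mono; intro z hz
            by_cases hzA : z ∈ A
            · exact Or.inl ⟨hz, hzA⟩
            · exact Or.inr hzA
        _ ≤ μ (Metric.closedBall (x n) (ρ n) ∩ A) + μ Aᶜ := measure_union_le _ _
        _ = _ := by rw [hμA, add_zero]
    refine hA.trans ?_
    rcases (Metric.closedBall (x n) (ρ n) ∩ A).eq_empty_or_nonempty with he | ⟨y, hy, hyA⟩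
    · rw [he, measure_empty]; exact bot_le
    · have hsub : Metric.closedBall (x n) (ρ n) ∩ A ⊆ Metric.closedBall y (2 * ρ n) := by
        intro z hz
        have h1 := Metric.mem_closedBall.1 hz.1
        have h2 := Metric.mem_closedBall.1 hy
        rw [Metric.mem_closedBall]
        calc dist z y ≤ dist z (x n) + dist y (x n) := dist_triangle_right _ _ _
          _ ≤ 2 * ρ n := by linarith
      have hr1 : ε'' ≤ 2 * ρ n := by
        have := hmin n hn
        have := hle.trans (min_le_right _ _)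
        have := hρ0 n
        linarith
      have hr2' : 2 * ρ n ≤ r0 := by linarith [hρ1 n]
      refine (measure_mono hsub).trans ((hμb y hyA _ hr1 hr2').trans ?_)
      rw [hC2, mul_assoc]
      refine mul_le_mul_right ?_ _
      rw [← ENNReal.ofReal_mul (by positivity)]
      exact ENNReal.ofReal_le_ofReal (gaugeReal_mul_le hκ hκ8 (by norm_num) (hρ0 n).le)
  -- sum up
  calc c ≤ μ univ := hμc
    _ ≤ μ ((⋃ n ∈ F, (if (t n).Nonempty then Metric.ball (x n) (ρ n) else ∅)) ∪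
          (Metric.thickening (min ε1 ε2) E)ᶜ) := by
        apply measure_mono; intro z _
        by_cases hz : z ∈ Metric.thickening (min ε1 ε2) E
        · exact Or.inl (hth (Metric.thickening_mono (min_le_left _ _) _ hz))
        · exact Or.inr hz
    _ ≤ μ (⋃ n ∈ F, (if (t n).Nonempty then Metric.ball (x n) (ρ n) else ∅)) + 0 := by
        refine (measure_union_le _ _).trans ?_
        rw [hμE]
    _ ≤ ∑ n ∈ F, μ (if (t n).Nonempty then Metric.ball (x n) (ρ n) else ∅) := by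
        rw [add_zero]; exact measure_biUnion_finset_le _ _
    _ ≤ ∑ n ∈ F, C2 * (ENNReal.ofReal (2 ^ dimParam κ) *
          (⨆ _ : (t n).Nonempty, gaugeExt κ (Metric.ediam (t n))) + (ε' n : ℝ≥0∞)) := by
        refine Finset.sum_le_sum fun n hn => ?_
        by_cases hne : (t n).Nonempty
        · rw [if_pos hne]
          refine (measure_mono Metric.ball_subset_closedBall).trans ((hball n hn).trans ?_)
          rw [iSup_pos hne]
          exact mul_le_mul_right (hρ n hne).2 _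
        · rw [if_neg hne, measure_empty]; exact bot_le
    _ ≤ ∑' n, C2 * (ENNReal.ofReal (2 ^ dimParam κ) *
          (⨆ _ : (t n).Nonempty, gaugeExt κ (Metric.ediam (t n))) + (ε' n : ℝ≥0∞)) :=
        ENNReal.sum_le_tsum F
    _ = C * ENNReal.ofReal (4 ^ dimParam κ) *
          (∑' n, ⨆ _ : (t n).Nonempty, gaugeExt κ (Metric.ediam (t n))) +
          C2 * ∑' n, (ε' n : ℝ≥0∞) := by
        rw [ENNReal.tsum_mul_left, ENNReal.tsum_add, ENNReal.tsum_mul_left, mul_add, ← mul_assoc,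
          hC2, mul_assoc C, ← ENNReal.ofReal_mul (by positivity),
          ← Real.mul_rpow (by norm_num) (by norm_num)]
        norm_num
    _ ≤ C * ENNReal.ofReal (4 ^ dimParam κ) *
          (∑' n, ⨆ _ : (t n).Nonempty, gaugeExt κ (Metric.ediam (t n))) + δ := by
        refine add_le_add le_rfl ?_
        calc C2 * ∑' n, (ε' n : ℝ≥0∞) ≤ C2 * (δ / C2) := mul_le_mul_right hsum.le _
          _ = δ := ENNReal.mul_div_cancel hC20 hC2t

/-- **Mass distribution principle**: `μ(B(x,r)) ≤ C φ(r)` for all `x ∈ E`, `r ≤ r0` implies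
`μ(E) ≤ C' gaugeMeasure(E)`; `E` is an arbitrary set. -/
theorem measure_le_gaugeMeasure {κ : ℝ} (hκ : 0 < κ) (hκ8 : κ < 8) {E : Set ℂ} (μ : Measure ℂ)
    {C : ℝ≥0∞} (hC0 : C ≠ 0) (hC : C ≠ ⊤) {r0 : ℝ} (hr0 : 0 < r0)
    (h : ∀ x ∈ E, ∀ r, 0 < r → r ≤ r0 →
        μ (Metric.closedBall x r) ≤ C * ENNReal.ofReal (gaugeReal κ r)) :
    μ E ≤ C * ENNReal.ofReal (2 ^ dimParam κ) * gaugeMeasure κ E := by
  classical
  have h2p : (0:ℝ) < 2 ^ dimParam κ := by positivity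
  refine le_gaugeMeasure_of (r := r0 / 2) (by positivity) (fun t hEt ht => ?_)
    (mul_ne_zero hC0 (ENNReal.ofReal_pos.2 h2p).ne') (ENNReal.mul_ne_top hC ENNReal.ofReal_ne_top)
  refine ENNReal.le_of_forall_pos_le_add fun δ hδ _ => ?_
  obtain ⟨ε', hε', hsum⟩ := ENNReal.exists_pos_sum_of_countable
    (ε := (δ : ℝ≥0∞) / C) (ENNReal.div_pos (by exact_mod_cast hδ.ne') hC).ne' ℕ
  have hone : ∀ n, μ (t n ∩ E) ≤ C * (ENNReal.ofReal (2 ^ dimParam κ) *
      (⨆ _ : (t n).Nonempty, gaugeExt κ (Metric.ediam (t n))) + (ε' n : ℝ≥0∞)) := by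
    intro n
    rcases (t n ∩ E).eq_empty_or_nonempty with he | ⟨x, hx, hxE⟩
    · rw [he, measure_empty]; exact bot_le
    · obtain ⟨ρ, h1, h2, h3, h5⟩ := cover_data hκ hκ8 hr0 ht
        (η := (ε' n : ℝ)) (by exact_mod_cast hε' n) n x hx
      have hne : (t n).Nonempty := ⟨x, hx⟩
      rw [iSup_pos hne]
      calc μ (t n ∩ E) ≤ μ (Metric.closedBall x ρ) :=
            measure_mono ((inter_subset_left.trans h3).trans Metric.ball_subset_closedBall)
        _ ≤ C * ENNReal.ofReal (gaugeReal κ ρ) := h x hxE ρ h1 h2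
        _ ≤ _ := mul_le_mul_right (by simpa using h5) _
  calc μ E ≤ μ (⋃ n, t n ∩ E) := by
        apply measure_mono
        rw [← iUnion_inter]
        exact fun z hz => ⟨hEt hz, hz⟩
    _ ≤ ∑' n, μ (t n ∩ E) := measure_iUnion_le _
    _ ≤ ∑' n, C * (ENNReal.ofReal (2 ^ dimParam κ) *
          (⨆ _ : (t n).Nonempty, gaugeExt κ (Metric.ediam (t n))) + (ε' n : ℝ≥0∞)) :=
        ENNReal.tsum_le_tsum hone
    _ = C * ENNReal.ofReal (2 ^ dimParam κ) *
          (∑' n, ⨆ _ : (t n).Nonempty, gaugeExt κ (Metric.ediam (t n))) +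
          C * ∑' n, (ε' n : ℝ≥0∞) := by
        rw [ENNReal.tsum_mul_left, ENNReal.tsum_add, ENNReal.tsum_mul_left, mul_add, ← mul_assoc]
    _ ≤ _ := by
        refine add_le_add le_rfl ?_
        calc C * ∑' n, (ε' n : ℝ≥0∞) ≤ C * (δ / C) := mul_le_mul_right hsum.le _
          _ = δ := ENNReal.mul_div_cancel hC0 hC

/-- upper-density form: for every `x` in `A` there is some `r0 > 0` such that
`μ(B(x,r)) ≤ C φ(r)` for `r ≤ r0`; then `μ(A) ≤ C' gaugeMeasure(A)`. -/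
theorem measure_le_gaugeMeasure_density {κ : ℝ} (hκ : 0 < κ) (hκ8 : κ < 8) {A : Set ℂ}
    (μ : Measure ℂ) {C : ℝ≥0∞} (hC0 : C ≠ 0) (hC : C ≠ ⊤)
    (h : ∀ x ∈ A, ∃ r0 > 0, ∀ r, 0 < r → r ≤ r0 →
        μ (Metric.closedBall x r) ≤ C * ENNReal.ofReal (gaugeReal κ r)) :
    μ A ≤ C * ENNReal.ofReal (2 ^ dimParam κ) * gaugeMeasure κ A := by
  set An : ℕ → Set ℂ := fun n => {x ∈ A | ∀ r, 0 < r → r ≤ 1 / ((n : ℝ) + 1) →
        μ (Metric.closedBall x r) ≤ C * ENNReal.ofReal (gaugeReal κ r)} with hAn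
  have hmono : Monotone An := by
    intro m n hmn x hx
    refine ⟨hx.1, fun r hr hr1 => hx.2 r hr (hr1.trans ?_)⟩
    exact one_div_le_one_div_of_le (by positivity) (by
      have : (m:ℝ) ≤ n := by exact_mod_cast hmn
      linarith)
  have hU : A = ⋃ n, An n := by
    apply Subset.antisymm
    · intro x hx
      obtain ⟨r0, hr0, hb⟩ := h x hx
      obtain ⟨n, hn⟩ := exists_nat_one_div_lt hr0
      exact mem_iUnion.2 ⟨n, hx, fun r hr hr1 => hb r hr (hr1.trans hn.le)⟩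
    · exact iUnion_subset fun n x hx => hx.1
  calc μ A = μ (⋃ n, An n) := by rw [← hU]
    _ = ⨆ n, μ (An n) := hmono.measure_iUnion
    _ ≤ _ := iSup_le fun n => (measure_le_gaugeMeasure hκ hκ8 μ hC0 hC
        (r0 := 1 / ((n : ℝ) + 1)) (by positivity) (fun x hx => hx.2)).trans
          (mul_le_mul_right (measure_mono fun x hx => hx.1) _)

/-- Lipschitz images. -/
theorem gaugeMeasure_image_le {κ : ℝ} (hκ : 0 < κ) (hκ8 : κ < 8) {E : Set ℂ} {f : ℂ → ℂ}
    {K : NNReal} (hK : 1 ≤ K) (hf : LipschitzOnWith K f E) :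
    gaugeMeasure κ (f '' E) ≤ ENNReal.ofReal ((K : ℝ) ^ dimParam κ) * gaugeMeasure κ E := by
  have hK0 : (0:ℝ) < K := by exact_mod_cast (zero_lt_one.trans_le hK)
  have hKr : (1:ℝ) ≤ K := by exact_mod_cast hK
  rw [gaugeMeasure, Measure.mkMetric_apply, Measure.mkMetric_apply]
  refine iSup₂_le fun r hr => ?_
  -- choose the scale for `E`
  set r' : ℝ≥0∞ := min (r / K) 1 with hr'
  have hr'0 : 0 < r' := lt_min (ENNReal.div_pos hr.ne' ENNReal.coe_ne_top) one_pos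
  have hKne : ENNReal.ofReal ((K : ℝ) ^ dimParam κ) ≠ 0 :=
    (ENNReal.ofReal_pos.2 (by positivity)).ne'
  refine le_trans ?_ (mul_le_mul_right (le_iSup₂_of_le r' hr'0 le_rfl) _)
  rw [ENNReal.mul_iInf_of_ne hKne ENNReal.ofReal_ne_top]
  refine le_iInf fun t => ?_
  rw [ENNReal.mul_iInf_of_ne hKne ENNReal.ofReal_ne_top]
  refine le_iInf fun hEt => ?_
  rw [ENNReal.mul_iInf_of_ne hKne ENNReal.ofReal_ne_top]
  refine le_iInf fun ht => ?_
  have hdiam : ∀ n, Metric.ediam (f '' (t n ∩ E)) ≤ K * Metric.ediam (t n) := by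
    intro n
    refine Metric.ediam_image_le_iff.2 ?_
    intro x hx y hy
    refine (hf hx.2 hy.2).trans (mul_le_mul_right (Metric.edist_le_ediam_of_mem hx.1 hy.1) _)
  refine iInf_le_of_le (fun n => f '' (t n ∩ E)) (iInf_le_of_le ?_ (iInf_le_of_le ?_ ?_))
  · rintro _ ⟨x, hx, rfl⟩
    obtain ⟨n, hn⟩ := mem_iUnion.1 (hEt hx)
    exact mem_iUnion.2 ⟨n, x, ⟨hn, hx⟩, rfl⟩
  · intro n
    refine (hdiam n).trans ?_
    calc (K : ℝ≥0∞) * Metric.ediam (t n) ≤ K * (r / K) :=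
          mul_le_mul_right ((ht n).trans (min_le_left _ _)) _
      _ ≤ r := ENNReal.mul_div_le
  · rw [← ENNReal.tsum_mul_left]
    refine ENNReal.tsum_le_tsum fun n => iSup_le fun hne => ?_
    obtain ⟨_, x, hx, rfl⟩ := hne
    rw [iSup_pos ⟨x, hx.1⟩]
    have hfin : Metric.ediam (t n) ≠ ⊤ :=
      ne_top_of_le_ne_top ENNReal.one_ne_top ((ht n).trans (min_le_right _ _))
    refine (gaugeExt_mono hκ hκ8 (hdiam n) (ENNReal.mul_ne_top ENNReal.coe_ne_top hfin)).trans ?_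
    have := gaugeExt_mul_le hκ hκ8 hKr (Metric.ediam (t n))
    simpa using this

/-- positivity is transported by locally expanding maps: if `f` restricted to `E` has a Lipschitz
left inverse, positivity of `gaugeMeasure E` gives positivity of `gaugeMeasure (f '' E)`. -/
theorem gaugeMeasure_image_pos {κ : ℝ} (hκ : 0 < κ) (hκ8 : κ < 8) {E : Set ℂ} {f : ℂ → ℂ}
    {K : NNReal} (hf : ∀ x ∈ E, ∀ y ∈ E, edist x y ≤ K * edist (f x) (f y))
    (hE : 0 < gaugeMeasure κ E) : 0 < gaugeMeasure κ (f '' E) := by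
  have hinj : InjOn f E := by
    intro x hx y hy hxy
    have := hf x hx y hy
    rw [hxy, edist_self, mul_zero] at this
    exact edist_le_zero.1 this
  have hlip : LipschitzOnWith (max K 1) (Function.invFunOn f E) (f '' E) := by
    rintro _ ⟨x, hx, rfl⟩ _ ⟨y, hy, rfl⟩
    rw [hinj.leftInvOn_invFunOn hx, hinj.leftInvOn_invFunOn hy]
    refine (hf x hx y hy).trans (mul_le_mul_left ?_ _)
    exact_mod_cast le_max_left K 1
  have himg : Function.invFunOn f E '' (f '' E) = E := by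
    rw [image_image]
    have : ∀ x ∈ E, Function.invFunOn f E (f x) = x := fun x hx => hinj.leftInvOn_invFunOn hx
    ext z; constructor
    · rintro ⟨x, hx, rfl⟩; simp only [this x hx]; exact hx
    · intro hz; exact ⟨z, hz, this z hz⟩
  have h := gaugeMeasure_image_le hκ hκ8 (le_max_right K 1) hlip
  rw [himg] at h
  rcases eq_or_ne (gaugeMeasure κ (f '' E)) 0 with h0 | h0
  · rw [h0, mul_zero] at h
    exact absurd (le_antisymm h bot_le) hE.ne'
  · exact pos_iff_ne_zero.2 h0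

end Crest.Agent.R162.GM
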