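import Crest.Prelude.Def_Loewner

/-!
Row 162 (S0243), sub-node U9-LIM: small gauge calculus and the limit mass distribution
principle for the gauge measure of a compact set.
-/

namespace Crest.Agent.R162.Ga

open MeasureTheory Filter Topology Set
open Crest.ProbabilityR.Loewner
open scoped ENNReal

noncomputable section

variable {κ : ℝ}

/-- The cutoff radius. -/
def e0 : ℝ := Real.exp (-Real.exp 1)

lemma e0_pos : 0 < e0 := Real.exp_pos _

lemma e0_lt_one : e0 < 1 := by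
  unfold e0
  rw [Real.exp_lt_one_iff]
  have := Real.exp_pos 1
  linarith

/-- iterated logarithm at the cut-off radius -/
def LL (x : ℝ) : ℝ := Real.log (Real.log (1 / x))

lemma log_inv_ge {x : ℝ} (hx : 0 < x) (hx0 : x ≤ e0) : Real.exp 1 ≤ Real.log (1 / x) := by
  have h1 : Real.exp (Real.exp 1) ≤ 1 / x := by
    rw [le_div_iff₀ hx]
    calc Real.exp (Real.exp 1) * x ≤ Real.exp (Real.exp 1) * e0 := by
          exact mul_le_mul_of_nonneg_left hx0 (Real.exp_pos _).le
      _ = 1 := by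
          unfold e0
          rw [← Real.exp_add]; simp
  calc Real.exp 1 = Real.log (Real.exp (Real.exp 1)) := by rw [Real.log_exp]
    _ ≤ Real.log (1 / x) := Real.log_le_log (Real.exp_pos _) h1

lemma LL_ge_one {x : ℝ} (hx : 0 < x) (hx0 : x ≤ e0) : 1 ≤ LL x := by
  have h := log_inv_ge hx hx0
  calc (1:ℝ) = Real.log (Real.exp 1) := by rw [Real.log_exp]
    _ ≤ LL x := Real.log_le_log (Real.exp_pos _) h

lemma LL_anti {x y : ℝ} (hx : 0 < x) (hxy : x ≤ y) (hy0 : y ≤ e0) : LL y ≤ LL x := by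
  have hy : 0 < y := hx.trans_le hxy
  have h := log_inv_ge hy hy0
  refine Real.log_le_log ((Real.exp_pos _).trans_le h) ?_
  refine Real.log_le_log (by positivity) ?_
  exact one_div_le_one_div_of_le hx hxy

lemma gaugeReal_eq (κ x : ℝ) :
    gaugeReal κ x = (min x e0) ^ dimParam κ * LL (min x e0) ^ ((2 - dimParam κ) / 2) := rfl

lemma min_pos {x : ℝ} (hx : 0 < x) : 0 < min x e0 := lt_min hx e0_pos

lemma gaugeReal_pos {x : ℝ} (hx : 0 < x) : 0 < gaugeReal κ x := by
  rw [gaugeReal_eq]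
  have h1 := min_pos hx
  have h2 := LL_ge_one h1 (min_le_right _ _)
  positivity

lemma dimParam_pos (hκ : 0 < κ) : 1 < dimParam κ := by
  unfold dimParam; linarith

lemma gaugeReal_zero (hκ : 0 < κ) : gaugeReal κ 0 = 0 := by
  rw [gaugeReal_eq]
  have h : min (0:ℝ) e0 = 0 := min_eq_left e0_pos.le
  rw [h, Real.zero_rpow (by have := dimParam_pos hκ; linarith), zero_mul]

lemma gaugeReal_nonneg (hκ : 0 < κ) {x : ℝ} (hx : 0 ≤ x) : 0 ≤ gaugeReal κ x := by
  rcases hx.eq_or_lt with h | h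
  · rw [← h, gaugeReal_zero hκ]
  · exact (gaugeReal_pos h).le

lemma LL_ratio {x y : ℝ} (hx : 0 < x) (hxy : x ≤ y) (hy0 : y ≤ e0) : LL x ≤ (y / x) * LL y := by
  have hy : 0 < y := hx.trans_le hxy
  set s := Real.log (1 / x) with hs
  set t := Real.log (1 / y) with ht
  have htge : Real.exp 1 ≤ t := log_inv_ge hy hy0
  have hsge : Real.exp 1 ≤ s := log_inv_ge hx (hxy.trans hy0)
  have he1 : (1:ℝ) < Real.exp 1 := by
    have := Real.add_one_lt_exp (x := 1) (by norm_num); linarith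
  have htpos : 0 < t := (Real.exp_pos _).trans_le htge
  have hspos : 0 < s := (Real.exp_pos _).trans_le hsge
  have hts : t ≤ s := by
    rw [hs, ht]
    exact Real.log_le_log (by positivity) (one_div_le_one_div_of_le hx hxy)
  have hanti := Real.log_div_self_antitoneOn (show t ∈ {x | Real.exp 1 ≤ x} from htge)
    (show s ∈ {x | Real.exp 1 ≤ x} from hsge) hts
  have hr : 1 ≤ y / x := by rw [le_div_iff₀ hx]; linarith
  have hst : s = t + Real.log (y / x) := by
    rw [hs, ht, Real.log_div (by positivity) (by positivity),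
      Real.log_div (by positivity) (by positivity), Real.log_div (by positivity) (by positivity)]
    ring
  have hlog : Real.log (y / x) ≤ y / x - 1 := by
    have := Real.log_le_sub_one_of_pos (show 0 < y / x by positivity); linarith
  have hsr : s ≤ t * (y / x) := by
    rw [hst]
    nlinarith
  have hlt : 0 ≤ Real.log t := Real.log_nonneg (by linarith)
  have h1 : Real.log s ≤ (Real.log t / t) * s := by
    have : Real.log s = (Real.log s / s) * s := by field_simp
    rw [this]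
    exact mul_le_mul_of_nonneg_right hanti hspos.le
  show Real.log s ≤ (y / x) * Real.log t
  calc Real.log s ≤ (Real.log t / t) * s := h1
    _ ≤ (Real.log t / t) * (t * (y / x)) := by
        exact mul_le_mul_of_nonneg_left hsr (by positivity)
    _ = (y / x) * Real.log t := by field_simp

lemma gauge_mono_aux (hκ : 0 < κ) (hκ8 : κ < 8) {x y : ℝ} (hx : 0 < x) (hxy : x ≤ y)
    (hy0 : y ≤ e0) :
    x ^ dimParam κ * LL x ^ ((2 - dimParam κ) / 2) ≤
      y ^ dimParam κ * LL y ^ ((2 - dimParam κ) / 2) := by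
  have hy : 0 < y := hx.trans_le hxy
  have hd := dimParam_pos hκ
  have hd2 : dimParam κ < 2 := by unfold dimParam; linarith
  have hp : 0 ≤ (2 - dimParam κ) / 2 := by linarith
  have h1 := LL_ratio hx hxy hy0
  have hLx := LL_ge_one hx (hxy.trans hy0)
  have hLy := LL_ge_one hy hy0
  have hr : 1 ≤ y / x := by rw [le_div_iff₀ hx]; linarith
  calc x ^ dimParam κ * LL x ^ ((2 - dimParam κ) / 2)
      ≤ x ^ dimParam κ * ((y / x) * LL y) ^ ((2 - dimParam κ) / 2) := by
        refine mul_le_mul_of_nonneg_left ?_ (by positivity)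
        exact Real.rpow_le_rpow (by linarith) h1 hp
    _ = x ^ dimParam κ * ((y / x) ^ ((2 - dimParam κ) / 2) * LL y ^ ((2 - dimParam κ) / 2)) := by
        rw [Real.mul_rpow (by positivity) (by linarith)]
    _ ≤ x ^ dimParam κ * ((y / x) ^ dimParam κ * LL y ^ ((2 - dimParam κ) / 2)) := by
        refine mul_le_mul_of_nonneg_left ?_ (by positivity)
        refine mul_le_mul_of_nonneg_right ?_ (by positivity)
        exact Real.rpow_le_rpow_of_exponent_le hr (by linarith)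
    _ = y ^ dimParam κ * LL y ^ ((2 - dimParam κ) / 2) := by
        rw [← mul_assoc, ← Real.mul_rpow hx.le (by positivity)]
        congr 2
        field_simp

lemma gaugeReal_mono (hκ : 0 < κ) (hκ8 : κ < 8) {x y : ℝ} (hx : 0 ≤ x) (hxy : x ≤ y) :
    gaugeReal κ x ≤ gaugeReal κ y := by
  rcases hx.eq_or_lt with h | h
  · rw [← h, gaugeReal_zero hκ]
    exact gaugeReal_nonneg hκ (hx.trans hxy)
  · rw [gaugeReal_eq, gaugeReal_eq]
    exact gauge_mono_aux hκ hκ8 (min_pos h) (min_le_min_right _ hxy) (min_le_right _ _)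

/-- Doubling. -/
lemma gaugeReal_mul_le (hκ : 0 < κ) (hκ8 : κ < 8) {C x : ℝ} (hC : 1 ≤ C) (hx : 0 ≤ x) :
    gaugeReal κ (C * x) ≤ C ^ dimParam κ * gaugeReal κ x := by
  rcases hx.eq_or_lt with h | h
  · rw [← h, mul_zero, gaugeReal_zero hκ, mul_zero]
  have hd := dimParam_pos hκ
  have hd2 : dimParam κ < 2 := by unfold dimParam; linarith
  have hp : 0 ≤ (2 - dimParam κ) / 2 := by linarith
  have hxC : x ≤ C * x := by nlinarith
  have hm1 : min x e0 ≤ min (C * x) e0 := min_le_min_right _ hxC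
  have hm2 : min (C * x) e0 ≤ C * min x e0 := by
    rcases le_total x e0 with h1 | h1
    · rw [min_eq_left h1]; exact min_le_left _ _
    · rw [min_eq_right h1]
      refine (min_le_right _ _).trans ?_
      have := e0_pos
      nlinarith
  have hmp := min_pos h
  have hmp' : 0 < min (C * x) e0 := hmp.trans_le hm1
  have hLa := LL_anti hmp hm1 (min_le_right _ _)
  have hL1 := LL_ge_one hmp (min_le_right _ _)
  have hL2 := LL_ge_one hmp' (min_le_right _ _)
  rw [gaugeReal_eq, gaugeReal_eq, ← mul_assoc, ← Real.mul_rpow (by linarith) hmp.le]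
  refine mul_le_mul ?_ ?_ (by positivity) (by positivity)
  · exact Real.rpow_le_rpow hmp'.le hm2 (by linarith)
  · exact Real.rpow_le_rpow (by linarith) hLa hp

lemma gaugeReal_two_mul_le (hκ : 0 < κ) (hκ8 : κ < 8) {x : ℝ} (hx : 0 ≤ x) :
    gaugeReal κ (2 * x) ≤ 4 * gaugeReal κ x := by
  have hd2 : dimParam κ < 2 := by unfold dimParam; linarith
  refine (gaugeReal_mul_le hκ hκ8 (by norm_num) hx).trans ?_
  refine mul_le_mul_of_nonneg_right ?_ (gaugeReal_nonneg hκ hx)
  calc (2:ℝ) ^ dimParam κ ≤ 2 ^ (2:ℝ) := Real.rpow_le_rpow_of_exponent_le (by norm_num) hd2.le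
    _ = 4 := by norm_num

/-- upper bound `φ(x) ≤ x ^ (d/2)`-type: `φ x ≤ x ^ d * (1/x)^p'`; here we only need `φ → 0`. -/
lemma gaugeReal_le_self (hκ : 0 < κ) (hκ8 : κ < 8) {x : ℝ} (hx : 0 < x) (hx0 : x ≤ e0) :
    gaugeReal κ x ≤ x ^ ((3 * dimParam κ - 2) / 2) := by
  have hd := dimParam_pos hκ
  have hd2 : dimParam κ < 2 := by unfold dimParam; linarith
  have hp : 0 ≤ (2 - dimParam κ) / 2 := by linarith
  have hL := LL_ge_one hx hx0
  have hlog := log_inv_ge hx hx0
  have hlp : 0 < Real.log (1 / x) := (Real.exp_pos _).trans_le hlog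
  have h1 : LL x ≤ 1 / x := by
    have a := Real.log_le_sub_one_of_pos hlp
    have b := Real.log_le_sub_one_of_pos (show 0 < 1 / x by positivity)
    unfold LL
    linarith
  rw [gaugeReal_eq, min_eq_left hx0]
  calc x ^ dimParam κ * LL x ^ ((2 - dimParam κ) / 2)
      ≤ x ^ dimParam κ * (1 / x) ^ ((2 - dimParam κ) / 2) := by
        refine mul_le_mul_of_nonneg_left ?_ (by positivity)
        exact Real.rpow_le_rpow (by linarith) h1 hp
    _ = x ^ ((3 * dimParam κ - 2) / 2) := by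
        rw [one_div, Real.inv_rpow hx.le, ← Real.rpow_neg hx.le, ← Real.rpow_add hx]
        congr 1
        ring

lemma gaugeReal_tendsto_zero (hκ : 0 < κ) (hκ8 : κ < 8) :
    Tendsto (gaugeReal κ) (𝓝[>] 0) (𝓝 0) := by
  have hd := dimParam_pos hκ
  have hd2 : dimParam κ < 2 := by unfold dimParam; linarith
  have hq : 0 < (3 * dimParam κ - 2) / 2 := by linarith
  have h1 : Tendsto (fun x : ℝ => x ^ ((3 * dimParam κ - 2) / 2)) (𝓝[>] 0) (𝓝 0) := by
    have := (Real.continuousAt_rpow_const 0 ((3 * dimParam κ - 2) / 2) (Or.inr hq.le)).tendsto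
    rw [Real.zero_rpow hq.ne'] at this
    exact this.mono_left nhdsWithin_le_nhds
  refine tendsto_of_tendsto_of_tendsto_of_le_of_le' tendsto_const_nhds h1 ?_ ?_
  · filter_upwards [self_mem_nhdsWithin] with x hx using (gaugeReal_pos hx).le
  · have : Iio e0 ∈ 𝓝[>] (0:ℝ) := mem_nhdsWithin_of_mem_nhds (Iio_mem_nhds e0_pos)
    filter_upwards [self_mem_nhdsWithin, this] with x hx hx0
    exact gaugeReal_le_self hκ hκ8 hx (le_of_lt hx0)

/-- For any `η > 0` there are arbitrarily small radii with gauge at most `η`. -/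
lemma exists_small (hκ : 0 < κ) (hκ8 : κ < 8) {η r : ℝ} (hη : 0 < η) (hr : 0 < r) :
    ∃ x, 0 < x ∧ x < r ∧ gaugeReal κ x ≤ η := by
  have h1 := (gaugeReal_tendsto_zero hκ hκ8).eventually (Iio_mem_nhds hη)
  have h2 : Ioo (0:ℝ) r ∈ 𝓝[>] (0:ℝ) := Ioo_mem_nhdsGT hr
  obtain ⟨x, hx1, hx2⟩ := (h1.and h2).exists
  exact ⟨x, hx2.1, hx2.2, le_of_lt hx1⟩

/-- **Limit mass distribution principle** (one-measure-per-scale form).  `K` compact; for every
`δ > 0` there is a measure `ν` of mass at least `c`, carried by the `δ`-thickening of `K`, with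
`ν (closedBall x r) ≤ C φ(r)` for `x ∈ K` and `δ ≤ r ≤ r0`.  Then the gauge measure of `K` is at
least `c / (4 C)`. -/
theorem gaugeMeasure_ge_of_approx (hκ : 0 < κ) (hκ8 : κ < 8) {K : Set ℂ} (hK : IsCompact K)
    {c C r0 : ℝ} (hC : 0 < C) (hr0 : 0 < r0)
    (h : ∀ δ : ℝ, 0 < δ → ∃ ν : Measure ℂ, ENNReal.ofReal c ≤ ν univ ∧
      ν (Metric.thickening δ K)ᶜ = 0 ∧
      ∀ x ∈ K, ∀ r : ℝ, δ ≤ r → r ≤ r0 →
        ν (Metric.closedBall x r) ≤ ENNReal.ofReal (C * gaugeReal κ r)) :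
    ENNReal.ofReal (c / (4 * C)) ≤ gaugeMeasure κ K := by
  by_contra hcon
  push Not at hcon
  -- choose a cover
  have hr4 : (0 : ℝ≥0∞) < ENNReal.ofReal (r0 / 4) := by
    rw [ENNReal.ofReal_pos]; positivity
  have h1 : (⨅ (t : ℕ → Set ℂ) (_ : K ⊆ iUnion t)
      (_ : ∀ n, Metric.ediam (t n) ≤ ENNReal.ofReal (r0 / 4)),
        ∑' n, ⨆ _ : (t n).Nonempty, gaugeExt κ (Metric.ediam (t n))) <
        ENNReal.ofReal (c / (4 * C)) := by
    refine lt_of_le_of_lt ?_ hcon
    unfold gaugeMeasure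
    rw [Measure.mkMetric_apply]
    exact le_iSup₂_of_le _ hr4 le_rfl
  simp only [iInf_lt_iff] at h1
  obtain ⟨t, htK, htd, hsum⟩ := h1
  set S := ∑' n, ⨆ _ : (t n).Nonempty, gaugeExt κ (Metric.ediam (t n)) with hS
  obtain ⟨η, hη0, hη⟩ : ∃ η : ℝ≥0∞, η ≠ 0 ∧ S + η < ENNReal.ofReal (c / (4 * C)) := by
    have hsub : 0 < ENNReal.ofReal (c / (4 * C)) - S := tsub_pos_of_lt hsum
    obtain ⟨η, h0, h2⟩ := exists_between hsub
    refine ⟨η, h0.ne', ?_⟩
    have := ENNReal.add_lt_add_left (a := S) (ne_top_of_lt hsum) h2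
    rwa [add_tsub_cancel_of_le hsum.le] at this
  obtain ⟨η', hη'0, hη'sum⟩ := ENNReal.exists_pos_sum_of_countable hη0 ℕ
  have hex : ∀ n, ∃ x, 0 < x ∧ x < r0 / 4 ∧ gaugeReal κ x ≤ η' n := fun n =>
    exists_small hκ hκ8 (hη'0 n) (by positivity)
  choose x hx0 hxr hxη using hex
  -- the radii
  set D : ℕ → ℝ := fun n => (Metric.ediam (t n)).toReal with hD
  have hDfin : ∀ n, Metric.ediam (t n) ≠ ⊤ := fun n =>
    ne_top_of_le_ne_top ENNReal.ofReal_ne_top (htd n)
  have hDr : ∀ n, D n ≤ r0 / 4 := fun n => by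
    have := ENNReal.toReal_mono ENNReal.ofReal_ne_top (htd n)
    rwa [ENNReal.toReal_ofReal (by positivity)] at this
  have hD0 : ∀ n, 0 ≤ D n := fun n => ENNReal.toReal_nonneg
  set ρ : ℕ → ℝ := fun n => 2 * max (D n) (x n) with hρ
  have hρ0 : ∀ n, 0 < ρ n := fun n => by
    have := lt_max_of_lt_right (b := D n) (hx0 n)
    simp only [hρ]; linarith
  have hρr : ∀ n, ρ n ≤ r0 := fun n => by
    have : max (D n) (x n) ≤ r0 / 4 := max_le (hDr n) (hxr n).le
    simp only [hρ]; linarith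
  have hρφ : ∀ n, gaugeReal κ (ρ n) ≤ 4 * (gaugeReal κ (D n) + η' n) := fun n => by
    refine (gaugeReal_two_mul_le hκ hκ8 ((hD0 n).trans (le_max_left _ _))).trans ?_
    refine mul_le_mul_of_nonneg_left ?_ (by norm_num)
    have hg0 := gaugeReal_nonneg hκ (hD0 n)
    rcases max_cases (D n) (x n) with h | h
    · rw [h.1]; have : (0:ℝ) ≤ η' n := (η' n).2; linarith
    · rw [h.1]; linarith [hxη n]
  -- centres
  let J := {n : ℕ // (t n ∩ K).Nonempty}
  let y : J → ℂ := fun j => j.2.some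
  have hyK : ∀ j : J, y j ∈ K := fun j => j.2.some_mem.2
  have hyt : ∀ j : J, y j ∈ t j := fun j => j.2.some_mem.1
  have hcov : K ⊆ ⋃ j : J, Metric.ball (y j) (ρ j) := by
    intro z hz
    obtain ⟨n, hn⟩ := mem_iUnion.1 (htK hz)
    refine mem_iUnion.2 ⟨⟨n, z, hn, hz⟩, ?_⟩
    rw [Metric.mem_ball]
    set j : J := ⟨n, z, hn, hz⟩
    have h2 : dist z (y j) ≤ D n := by
      have := Metric.edist_le_ediam_of_mem hn (hyt j)
      rw [edist_dist] at this
      exact (ENNReal.ofReal_le_iff_le_toReal (hDfin n)).1 this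
    have h3 : D n ≤ max (D n) (x n) := le_max_left _ _
    have h4 := lt_max_of_lt_right (b := D n) (hx0 n)
    have h5 : ρ (j : ℕ) = 2 * max (D n) (x n) := rfl
    rw [h5]; linarith
  obtain ⟨F, hF⟩ := hK.elim_finite_subcover _ (fun j => Metric.isOpen_ball) hcov
  obtain ⟨δ1, hδ1, hthick⟩ := hK.exists_thickening_subset_open
    (isOpen_biUnion fun j _ => Metric.isOpen_ball) hF
  obtain ⟨δ2, hδ2, hδ2F⟩ : ∃ δ2 : ℝ, 0 < δ2 ∧ ∀ j ∈ F, δ2 ≤ ρ (j : ℕ) := by
    rcases F.eq_empty_or_nonempty with h0 | h0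
    · exact ⟨1, one_pos, by simp [h0]⟩
    · obtain ⟨j0, hj0, hmin⟩ := F.exists_min_image (fun j : J => ρ (j : ℕ)) h0
      exact ⟨ρ j0, hρ0 _, hmin⟩
  obtain ⟨ν, hmass, hsupp, hball⟩ := h (min δ1 δ2) (lt_min hδ1 hδ2)
  have hle1 : ν univ ≤ ν (⋃ j ∈ F, Metric.ball (y j) (ρ (j : ℕ))) := by
    have hsub : (univ : Set ℂ) ⊆ (Metric.thickening (min δ1 δ2) K)ᶜ ∪
        ⋃ j ∈ F, Metric.ball (y j) (ρ (j : ℕ)) := by
      intro z _
      by_cases hz : z ∈ Metric.thickening (min δ1 δ2) K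
      · exact Or.inr (hthick (Metric.thickening_mono (min_le_left _ _) _ hz))
      · exact Or.inl hz
    refine (measure_mono hsub).trans ((measure_union_le _ _).trans ?_)
    rw [hsupp, zero_add]
  have hle2 : ν (⋃ j ∈ F, Metric.ball (y j) (ρ (j : ℕ))) ≤
      ∑ j ∈ F, ENNReal.ofReal (4 * C) * (gaugeExt κ (Metric.ediam (t (j : ℕ))) + η' (j : ℕ)) := by
    refine (measure_biUnion_finset_le _ _).trans (Finset.sum_le_sum fun j hj => ?_)
    refine (measure_mono Metric.ball_subset_closedBall).trans ?_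
    refine (hball (y j) (hyK j) (ρ j) ((min_le_right _ _).trans (hδ2F j hj)) (hρr j)).trans ?_
    have e1 : gaugeExt κ (Metric.ediam (t (j : ℕ))) = ENNReal.ofReal (gaugeReal κ (D j)) := rfl
    have e2 : ((η' (j : ℕ) : NNReal) : ℝ≥0∞) = ENNReal.ofReal ((η' (j : ℕ) : NNReal) : ℝ) :=
      (ENNReal.ofReal_coe_nnreal).symm
    rw [e1, e2, ← ENNReal.ofReal_add (gaugeReal_nonneg hκ (hD0 _)) (NNReal.coe_nonneg _),
      ← ENNReal.ofReal_mul (by positivity)]
    refine ENNReal.ofReal_le_ofReal ?_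
    calc C * gaugeReal κ (ρ j) ≤ C * (4 * (gaugeReal κ (D j) + η' (j : ℕ))) :=
          mul_le_mul_of_nonneg_left (hρφ _) hC.le
      _ = 4 * C * (gaugeReal κ (D j) + η' (j : ℕ)) := by ring
  have hle3 : ∑ j ∈ F, ENNReal.ofReal (4 * C) *
      (gaugeExt κ (Metric.ediam (t (j : ℕ))) + η' (j : ℕ)) ≤ ENNReal.ofReal (4 * C) * (S + η) := by
    rw [← Finset.mul_sum]
    refine mul_le_mul_right ?_ _
    rw [Finset.sum_add_distrib]
    refine add_le_add ?_ ?_
    · rw [hS]
      have hinj : Function.Injective (fun j : J => (j : ℕ)) := Subtype.val_injective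
      calc ∑ j ∈ F, gaugeExt κ (Metric.ediam (t (j : ℕ)))
          = ∑ j ∈ F, ⨆ _ : (t (j : ℕ)).Nonempty, gaugeExt κ (Metric.ediam (t (j : ℕ))) := by
            refine Finset.sum_congr rfl fun j _ => ?_
            have hne : (t (j : ℕ)).Nonempty := ⟨y j, hyt j⟩
            exact (iSup_pos (f := fun _ => gaugeExt κ (Metric.ediam (t (j : ℕ)))) hne).symm
        _ = ∑ n ∈ F.map ⟨_, hinj⟩, ⨆ _ : (t n).Nonempty, gaugeExt κ (Metric.ediam (t n)) := by
            rw [Finset.sum_map]; rfl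
        _ ≤ _ := ENNReal.sum_le_tsum _
    · have hinj : Function.Injective (fun j : J => (j : ℕ)) := Subtype.val_injective
      calc ∑ j ∈ F, ((η' (j : ℕ) : NNReal) : ℝ≥0∞)
          = ∑ n ∈ F.map ⟨_, hinj⟩, ((η' n : NNReal) : ℝ≥0∞) := by
            rw [Finset.sum_map]; rfl
        _ ≤ _ := (ENNReal.sum_le_tsum _).trans hη'sum.le
  have hfin : ENNReal.ofReal c < ENNReal.ofReal c := by
    calc ENNReal.ofReal c ≤ ν univ := hmass
      _ ≤ ENNReal.ofReal (4 * C) * (S + η) := hle1.trans (hle2.trans hle3)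
      _ < ENNReal.ofReal (4 * C) * ENNReal.ofReal (c / (4 * C)) := by
          refine (ENNReal.mul_lt_mul_iff_right ?_ ENNReal.ofReal_ne_top).2 hη
          exact (ENNReal.ofReal_pos.2 (by positivity)).ne'
      _ = ENNReal.ofReal c := by
          rw [← ENNReal.ofReal_mul (by positivity)]
          congr 1
          field_simp
  exact lt_irrefl _ hfin

/-- Sequence form. -/
theorem gaugeMeasure_pos_of_seq (hκ : 0 < κ) (hκ8 : κ < 8) {K : Set ℂ} (hK : IsCompact K)
    {c C r0 : ℝ} (hc : 0 < c) (hC : 0 < C) (hr0 : 0 < r0)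
    (μ : ℕ → Measure ℂ) (ε : ℕ → ℝ) (hε : Tendsto ε atTop (𝓝 0))
    (h : ∃ᶠ n in atTop, ENNReal.ofReal c ≤ μ n univ ∧
      μ n (Metric.thickening (ε n) K)ᶜ = 0 ∧
      ∀ x ∈ K, ∀ r : ℝ, ε n ≤ r → r ≤ r0 →
        μ n (Metric.closedBall x r) ≤ ENNReal.ofReal (C * gaugeReal κ r)) :
    0 < gaugeMeasure κ K := by
  refine lt_of_lt_of_le ?_ (gaugeMeasure_ge_of_approx hκ hκ8 hK (c := c) hC hr0 ?_)
  · rw [ENNReal.ofReal_pos]; positivity
  intro δ hδ
  obtain ⟨n, ⟨h1, h2, h3⟩, h4⟩ := (h.and_eventually (hε.eventually (gt_mem_nhds hδ))).exists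
  refine ⟨μ n, h1, ?_, fun x hx r hr hr0 => h3 x hx r (h4.le.trans hr) hr0⟩
  refine measure_mono_null (compl_subset_compl.2 ?_) h2
  exact Metric.thickening_mono h4.le _

end

end Crest.Agent.R162.Ga
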