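import Crest.Agent.R162.GexGen
import Crest.Agent.R162.OPTr
import Crest.Agent.R162.FL1b

/-!
Row 162, node GEX, deterministic facts of one point (helper19).
-/

set_option autoImplicit false

open Set MeasureTheory

namespace Crest.Agent.R162.GEX

open FL OP

variable {W : ℝ → ℝ} {z : ℂ} {t : ℝ}

lemma norm_sq_eq (W : ℝ → ℝ) (s : ℝ) (z : ℂ) :
    ‖Zfl W s z‖ ^ 2 = (Zfl W s z).re ^ 2 + (Zfl W s z).im ^ 2 := by
  rw [← Complex.normSq_eq_norm_sq, Complex.normSq_apply]; ring

lemma contZ (hW : Continuous W) (h : Alive W z t) : ContinuousOn (fun s => Zfl W s z) (Icc 0 t) :=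
  continuousOn_Zfl hW.continuousOn h

lemma Z_ne (h : Alive W z t) {s : ℝ} (hs : s ∈ Icc 0 t) : Zfl W s z ≠ 0 :=
  Zfl_ne_zero (h.mono hs.1 hs.2)

lemma contA (hW : Continuous W) (h : Alive W z t) :
    ContinuousOn (fun s => 1 / ‖Zfl W s z‖ ^ 2) (Icc 0 t) :=
  continuousOn_const.div ((contZ hW h).norm.pow 2)
    (fun s hs => pow_ne_zero 2 (norm_ne_zero_iff.2 (Z_ne h hs)))

lemma contL (hW : Continuous W) (h : Alive W z t) :
    ContinuousOn (fun s => 4 * (Zfl W s z).im ^ 2 / ‖Zfl W s z‖ ^ 4) (Icc 0 t) :=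
  (continuousOn_const.mul ((Complex.continuous_im.comp_continuousOn (contZ hW h)).pow 2)).div
    ((contZ hW h).norm.pow 4) (fun s hs => pow_ne_zero 4 (norm_ne_zero_iff.2 (Z_ne h hs)))

lemma im_eq (hW : Continuous W) (h : Alive W z t) :
    (Zfl W t z).im = z.im * Real.exp (-2 * ath W t z) := by
  have h1 := OPTr.log_im_eq h hW
  have hz : 0 < z.im := h.im_pos
  have hp : 0 < (gfl W t z).im := gfl_im_pos h
  have h2 : ∫ s in (0:ℝ)..t, -(2 / ‖Zfl W s z‖ ^ 2) = -2 * ath W t z := by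
    unfold ath
    rw [← intervalIntegral.integral_const_mul]
    refine intervalIntegral.integral_congr fun s _ => ?_
    ring
  rw [h2] at h1
  rw [Zfl_im, ← Real.exp_log hp, h1, Real.exp_add, Real.exp_log hz]

lemma ups_pos (h : Alive W z t) : 0 < ups W t z := mul_pos (gfl_im_pos h) (Real.exp_pos _)

lemma log_ups_eq (hW : Continuous W) (h : Alive W z t) :
    Real.log (ups W t z)
      = Real.log z.im - ∫ s in (0:ℝ)..t, 4 * (Zfl W s z).im ^ 2 / ‖Zfl W s z‖ ^ 4 := by
  have ht := h.1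
  have hnpos : ∀ s ∈ Icc 0 t, 0 < ‖Zfl W s z‖ ^ 2 := fun s hs => by
    have := norm_pos_iff.2 (Z_ne h hs); positivity
  have hu : uIcc 0 t = Icc 0 t := uIcc_of_le ht
  have hi1 : IntervalIntegrable (fun s => -(2 / ‖Zfl W s z‖ ^ 2)) volume 0 t := by
    refine ContinuousOn.intervalIntegrable_of_Icc ht ?_
    refine (ContinuousOn.div continuousOn_const ((contZ hW h).norm.pow 2) ?_).neg
    intro s hs
    exact (hnpos s hs).ne'
  have hi2 : IntervalIntegrable (fun s => 2 * (((Zfl W s z) ^ 2)⁻¹).re) volume 0 t := by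
    refine ContinuousOn.intervalIntegrable_of_Icc ht ?_
    refine continuousOn_const.mul (Complex.continuous_re.comp_continuousOn ?_)
    exact ((contZ hW h).pow 2).inv₀ (fun s hs => pow_ne_zero 2 (Z_ne h hs))
  unfold ups
  rw [Real.log_mul (gfl_im_pos h).ne' (Real.exp_pos _).ne', Real.log_exp,
    OPTr.log_im_eq h hW, add_assoc, ← intervalIntegral.integral_add hi1 hi2, sub_eq_add_neg,
    ← intervalIntegral.integral_neg]
  congr 1
  refine intervalIntegral.integral_congr fun s hs => ?_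
  rw [hu] at hs
  have h1 := hnpos s hs
  rw [show ‖Zfl W s z‖ ^ 4 = (‖Zfl W s z‖ ^ 2) ^ 2 by ring]
  rw [norm_sq_eq] at h1 ⊢
  set x := (Zfl W s z).re
  set y := (Zfl W s z).im
  have h2 : (((Zfl W s z) ^ 2)⁻¹).re = (x ^ 2 - y ^ 2) / (x ^ 2 + y ^ 2) ^ 2 := by
    rw [Complex.inv_re, Complex.normSq_eq_norm_sq, norm_pow, norm_sq_eq]
    congr 1
    rw [sq, Complex.mul_re]; ring
  rw [h2]
  field_simp
  ring

lemma ath_sub (hW : Continuous W) (h : Alive W z t) {s : ℝ} (hs : s ∈ Icc 0 t) :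
    ath W t z - ath W s z = ∫ r in s..t, 1 / ‖Zfl W r z‖ ^ 2 := by
  unfold ath
  have i1 : IntervalIntegrable (fun s => 1 / ‖Zfl W s z‖ ^ 2) volume 0 s :=
    ((contA hW h).mono (Icc_subset_Icc le_rfl hs.2)).intervalIntegrable_of_Icc hs.1
  have i2 : IntervalIntegrable (fun s => 1 / ‖Zfl W s z‖ ^ 2) volume 0 t :=
    (contA hW h).intervalIntegrable_of_Icc h.1
  rw [intervalIntegral.integral_interval_sub_left i2 i1]

lemma ath_mono (hW : Continuous W) (h : Alive W z t) {s : ℝ} (hs : s ∈ Icc 0 t) :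
    ath W s z ≤ ath W t z := by
  have h1 := ath_sub hW h hs
  have h2 : 0 ≤ ∫ r in s..t, 1 / ‖Zfl W r z‖ ^ 2 :=
    intervalIntegral.integral_nonneg hs.2 (fun r _ => by positivity)
  linarith

lemma ath_nonneg (hW : Continuous W) (h : Alive W z t) : 0 ≤ ath W t z := by
  have := ath_mono hW h (s := 0) ⟨le_rfl, h.1⟩
  simpa [ath] using this

lemma im_le (hW : Continuous W) (h : Alive W z t) : (Zfl W t z).im ≤ z.im := by
  rw [Zfl_im]; exact im_anti' h

/-- time lower bound: if `|X| ≤ m` on `[s,t]` then the clock grows -/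
lemma ath_lower (hW : Continuous W) (h : Alive W z t) {s m : ℝ} (hs : s ∈ Icc 0 t)
    (hm : ∀ r ∈ Icc s t, |(Zfl W r z).re| ≤ m) :
    (t - s) / (m ^ 2 + z.im ^ 2) ≤ ath W t z - ath W s z := by
  have hz : 0 < z.im := h.im_pos
  rw [ath_sub hW h hs]
  have h1 : ∫ _r in s..t, 1 / (m ^ 2 + z.im ^ 2) = (t - s) / (m ^ 2 + z.im ^ 2) := by
    rw [intervalIntegral.integral_const]; simp [div_eq_mul_inv]
  rw [← h1]
  refine intervalIntegral.integral_mono_on hs.2 (by simp) ?_ ?_
  · exact ((contA hW h).mono (Icc_subset_Icc hs.1 le_rfl)).intervalIntegrable_of_Icc hs.2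
  · intro r hr
    have hr' : r ∈ Icc 0 t := ⟨hs.1.trans hr.1, hr.2⟩
    have hpos : 0 < ‖Zfl W r z‖ ^ 2 := by have := norm_pos_iff.2 (Z_ne h hr'); positivity
    refine one_div_le_one_div_of_le hpos ?_
    rw [norm_sq_eq]
    have h2 : (Zfl W r z).re ^ 2 ≤ m ^ 2 := by
      rw [← sq_abs]; exact pow_le_pow_left₀ (abs_nonneg _) (hm r hr) 2
    have h3 : (Zfl W r z).im ^ 2 ≤ z.im ^ 2 := by
      have ha := h.mono hr'.1 hr'.2
      exact pow_le_pow_left₀ (Zfl_im_pos ha).le (im_le hW ha) 2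
    linarith

lemma logups_anti (hW : Continuous W) (h : Alive W z t) {s : ℝ} (hs : s ∈ Icc 0 t) :
    Real.log (ups W t z) ≤ Real.log (ups W s z) := by
  rw [log_ups_eq hW h, log_ups_eq hW (h.mono hs.1 hs.2)]
  have i1 : IntervalIntegrable (fun s => 4 * (Zfl W s z).im ^ 2 / ‖Zfl W s z‖ ^ 4) volume 0 s :=
    ((contL hW h).mono (Icc_subset_Icc le_rfl hs.2)).intervalIntegrable_of_Icc hs.1
  have i2 : IntervalIntegrable (fun s => 4 * (Zfl W s z).im ^ 2 / ‖Zfl W s z‖ ^ 4) volume 0 t :=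
    (contL hW h).intervalIntegrable_of_Icc h.1
  have h1 := intervalIntegral.integral_interval_sub_left i2 i1
  have h2 : 0 ≤ ∫ r in s..t, 4 * (Zfl W r z).im ^ 2 / ‖Zfl W r z‖ ^ 4 :=
    intervalIntegral.integral_nonneg hs.2 (fun r _ => by positivity)
  linarith

lemma ups_anti (hW : Continuous W) (h : Alive W z t) {s : ℝ} (hs : s ∈ Icc 0 t) :
    ups W t z ≤ ups W s z := by
  have h1 := logups_anti hW h hs
  exact (Real.log_le_log_iff (ups_pos h) (ups_pos (h.mono hs.1 hs.2))).1 h1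

lemma sfl_eq (W : ℝ → ℝ) (t : ℝ) (z : ℂ) : sfl W t z = sinq (stW W t z) := by
  unfold sfl sinq stW
  simp only
  rw [← norm_sq_eq, Real.sqrt_sq (norm_nonneg _)]

lemma continuousOn_ath (hW : Continuous W) (h : Alive W z t) :
    ContinuousOn (fun s => ath W s z) (Icc 0 t) := by
  have h1 : IntegrableOn (fun s => 1 / ‖Zfl W s z‖ ^ 2) (uIcc 0 t) := by
    rw [uIcc_of_le h.1]; exact (contA hW h).integrableOn_Icc
  have := intervalIntegral.continuousOn_primitive_interval h1
  rwa [uIcc_of_le h.1] at this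

lemma continuousOn_logups (hW : Continuous W) (h : Alive W z t) :
    ContinuousOn (fun s => Real.log (ups W s z)) (Icc 0 t) := by
  have h1 : IntegrableOn (fun s => 4 * (Zfl W s z).im ^ 2 / ‖Zfl W s z‖ ^ 4) (uIcc 0 t) := by
    rw [uIcc_of_le h.1]; exact (contL hW h).integrableOn_Icc
  have h2 := intervalIntegral.continuousOn_primitive_interval h1
  rw [uIcc_of_le h.1] at h2
  refine (continuousOn_const (c := Real.log z.im)).sub h2 |>.congr ?_
  intro s hs
  exact log_ups_eq hW (h.mono hs.1 hs.2)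

lemma continuousOn_stW (hW : Continuous W) (h : Alive W z t) :
    ContinuousOn (fun s => stW W s z) (Icc 0 t) := by
  unfold stW
  exact (Complex.continuous_re.comp_continuousOn (contZ hW h)).prodMk
    ((Complex.continuous_im.comp_continuousOn (contZ hW h)).prodMk
      ((continuousOn_logups hW h).prodMk (continuousOn_ath hW h)))

end Crest.Agent.R162.GEX
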