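import Crest.Agent.R162.UBDefs

/-!
Row 162 (S0243): Green's function at time `0`: bound, measurability, local integrability.
-/

set_option autoImplicit false

open MeasureTheory Set
open scoped NNReal ENNReal

namespace Crest.Agent.R162.UB

open Crest.ProbabilityR.Loewner

theorem grInt_two_sub_le {κ : ℝ} (hκ : 0 < κ) (hκ8 : κ < 8) : 1 - κ / 8 ≤ 8 / κ - 1 := by
  have h : (8 / κ - 1) - (1 - κ / 8) = (8 - κ) ^ 2 / (8 * κ) := by
    field_simp
    try ring
  have h2 : 0 ≤ (8 - κ) ^ 2 / (8 * κ) := by positivity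
  linarith

theorem green_nonneg (κ : ℝ) {z : ℂ} (hz : 0 < z.im) : 0 ≤ green κ z := by
  unfold green
  have : 0 ≤ z.im / ‖z‖ := div_nonneg hz.le (norm_nonneg _)
  exact mul_nonneg (Real.rpow_nonneg hz.le _) (Real.rpow_nonneg this _)

theorem green_le_norm {κ : ℝ} (hκ : 0 < κ) (hκ8 : κ < 8) {z : ℂ} (hz : 0 < z.im) :
    green κ z ≤ ‖z‖ ^ (dimParam κ - 2) := by
  have hle : z.im ≤ ‖z‖ := (le_abs_self _).trans (Complex.abs_im_le_norm z)
  have hn : 0 < ‖z‖ := hz.trans_le hle
  have hq0 : 0 < z.im / ‖z‖ := div_pos hz hn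
  have hq1 : z.im / ‖z‖ ≤ 1 := (div_le_one hn).2 hle
  have h1 : (z.im / ‖z‖) ^ (8 / κ - 1) ≤ (z.im / ‖z‖) ^ (1 - κ / 8) :=
    Real.rpow_le_rpow_of_exponent_ge hq0 hq1 (grInt_two_sub_le hκ hκ8)
  calc green κ z ≤ z.im ^ (κ / 8 - 1) * (z.im / ‖z‖) ^ (1 - κ / 8) := by
        unfold green
        exact mul_le_mul_of_nonneg_left h1 (Real.rpow_nonneg hz.le _)
    _ = ‖z‖ ^ (dimParam κ - 2) := by
        rw [Real.div_rpow hz.le hn.le, ← mul_div_assoc, ← Real.rpow_add hz]
        have h0 : κ / 8 - 1 + (1 - κ / 8) = 0 := by ring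
        rw [h0, Real.rpow_zero, one_div, ← Real.rpow_neg hn.le]
        congr 1
        unfold dimParam
        ring

theorem green_le {κ : ℝ} (hκ : 0 < κ) (hκ8 : κ < 8) {z : ℂ} (hz : 0 < z.im) :
    green κ z ≤ z.im ^ (dimParam κ - 2) := by
  have hle : z.im ≤ ‖z‖ := (le_abs_self _).trans (Complex.abs_im_le_norm z)
  refine (green_le_norm hκ hκ8 hz).trans ?_
  exact Real.rpow_le_rpow_of_nonpos hz hle (by unfold dimParam; linarith)

theorem measurable_green (κ : ℝ) : Measurable (green κ) := by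
  unfold green
  exact (Complex.measurable_im.pow_const _).mul
    ((Complex.measurable_im.div measurable_norm).pow_const _)

theorem lintegral_green_lt_top {κ : ℝ} (hκ : 0 < κ) (hκ8 : κ < 8) (R : ℝ) :
    ∫⁻ z in {z : ℂ | 0 < z.im ∧ ‖z‖ ≤ R}, ENNReal.ofReal (green κ z) < ⊤ := by
  have hs : MeasurableSet {z : ℂ | 0 < z.im ∧ ‖z‖ ≤ R} :=
    (measurableSet_lt measurable_const Complex.measurable_im).inter
      (measurableSet_le measurable_norm measurable_const)
  -- bound by an integral over a rectangle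
  set f : ℝ × ℝ → ℝ≥0∞ := fun p =>
    (Icc (-R) R).indicator (fun _ => (1 : ℝ≥0∞)) p.1 *
      (Ioc 0 R).indicator (fun y => ENNReal.ofReal (y ^ (dimParam κ - 2))) p.2 with hf
  have hfm1 : Measurable ((Icc (-R) R).indicator (fun _ => (1 : ℝ≥0∞))) :=
    measurable_const.indicator measurableSet_Icc
  have hfm2 : Measurable ((Ioc 0 R).indicator
      (fun y : ℝ => ENNReal.ofReal (y ^ (dimParam κ - 2)))) :=
    ((measurable_id.pow_const _).ennreal_ofReal).indicator measurableSet_Ioc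
  have hfm : Measurable f := (hfm1.comp measurable_fst).mul (hfm2.comp measurable_snd)
  have h1 : ∫⁻ z in {z : ℂ | 0 < z.im ∧ ‖z‖ ≤ R}, ENNReal.ofReal (green κ z)
      ≤ ∫⁻ z : ℂ, f (Complex.measurableEquivRealProd z) := by
    rw [← lintegral_indicator hs]
    refine lintegral_mono fun z => ?_
    by_cases hz : z ∈ {z : ℂ | 0 < z.im ∧ ‖z‖ ≤ R}
    · rw [indicator_of_mem hz]
      obtain ⟨hz1, hz2⟩ := hz
      have hre : z.re ∈ Icc (-R) R := by
        have := (Complex.abs_re_le_norm z).trans hz2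
        exact abs_le.1 this
      have him : z.im ∈ Ioc 0 R :=
        ⟨hz1, ((le_abs_self _).trans (Complex.abs_im_le_norm z)).trans hz2⟩
      simp only [hf, Complex.measurableEquivRealProd_apply, indicator_of_mem hre,
        indicator_of_mem him, one_mul]
      exact ENNReal.ofReal_le_ofReal (green_le hκ hκ8 hz1)
    · rw [indicator_of_notMem hz]
      exact bot_le
  have h2 : ∫⁻ z : ℂ, f (Complex.measurableEquivRealProd z) = ∫⁻ p : ℝ × ℝ, f p :=
    Complex.volume_preserving_equiv_real_prod.lintegral_comp hfm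
  have h3 : ∫⁻ p : ℝ × ℝ, f p =
      (∫⁻ x : ℝ, (Icc (-R) R).indicator (fun _ => (1 : ℝ≥0∞)) x) *
        ∫⁻ y : ℝ, (Ioc 0 R).indicator
          (fun y => ENNReal.ofReal (y ^ (dimParam κ - 2))) y := by
    rw [Measure.volume_eq_prod]
    exact lintegral_prod_mul hfm1.aemeasurable hfm2.aemeasurable
  have h4 : (∫⁻ x : ℝ, (Icc (-R) R).indicator (fun _ => (1 : ℝ≥0∞)) x) < ⊤ := by
    rw [lintegral_indicator measurableSet_Icc]
    simp
  have h5 : ∫⁻ y : ℝ, (Ioc 0 R).indicator
      (fun y => ENNReal.ofReal (y ^ (dimParam κ - 2))) y < ⊤ := by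
    rw [lintegral_indicator measurableSet_Ioc]
    rcases le_or_gt R 0 with hR | hR
    · rw [Ioc_eq_empty (not_lt.2 hR)]
      simp
    · have hint : IntegrableOn (fun y : ℝ => y ^ (dimParam κ - 2)) (Ioc 0 R) := by
        have := intervalIntegral.intervalIntegrable_rpow' (a := 0) (b := R)
          (r := dimParam κ - 2) (by unfold dimParam; linarith)
        rwa [intervalIntegrable_iff_integrableOn_Ioc_of_le hR.le] at this
      exact hint.lintegral_lt_top
  refine h1.trans_lt ?_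
  rw [h2, h3]
  exact ENNReal.mul_lt_top h4 h5

end Crest.Agent.R162.UB
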