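import Mathlib
import Crest.Agent.R162.KB1

open Complex Set Metric
open scoped ComplexConjugate UpperHalfPlane

/-! # KB1H: hyperbolic-distance form of the Koebe estimates on the half-plane -/

namespace Crest.Agent.R162.KB1

/-- hyperbolic distance (metric `|dz|/y`) as a function of two complex numbers -/
noncomputable def hd (z w : ℂ) : ℝ := 2 * Real.arsinh (‖z - w‖ / (2 * √(z.im * w.im)))

theorem hd_eq {z w : ℂ} (hz : 0 < z.im) (hw : 0 < w.im) :
    hd z w = dist (⟨z, hz⟩ : ℍ) ⟨w, hw⟩ := by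
  rw [UpperHalfPlane.dist_eq, hd, dist_eq_norm]
  rfl

theorem hd_nonneg (z w : ℂ) : 0 ≤ hd z w := by
  unfold hd
  have : 0 ≤ Real.arsinh (‖z - w‖ / (2 * √(z.im * w.im))) :=
    Real.arsinh_nonneg_iff.2 (by positivity)
  linarith

theorem hd_comm (z w : ℂ) : hd z w = hd w z := by
  unfold hd; rw [norm_sub_rev, mul_comm z.im]

@[simp] theorem hd_self (z : ℂ) : hd z z = 0 := by simp [hd]

theorem hd_triangle {z w u : ℂ} (hz : 0 < z.im) (hw : 0 < w.im) (hu : 0 < u.im) :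
    hd z u ≤ hd z w + hd w u := by
  rw [hd_eq hz hu, hd_eq hz hw, hd_eq hw hu]
  exact dist_triangle _ _ _

theorem phd_eq {z w : ℂ} (hz : 0 < z.im) (hw : 0 < w.im) :
    phd z w = Real.tanh (hd z w / 2) := by
  rw [hd_comm, hd_eq hw hz, UpperHalfPlane.tanh_half_dist, phd, dist_eq_norm, dist_eq_norm]

theorem log_phd {z w : ℂ} (hz : 0 < z.im) (hw : 0 < w.im) :
    Real.log ((1 + phd z w) / (1 - phd z w)) = hd z w := by
  have h1 : (1 + phd z w) / (1 - phd z w) = Real.exp (hd z w) := by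
    rw [phd_eq hz hw, Real.tanh_eq_sinh_div_cosh]
    have hc : 0 < Real.cosh (hd z w / 2) := Real.cosh_pos _
    have h2 : Real.cosh (hd z w / 2) - Real.sinh (hd z w / 2) = Real.exp (-(hd z w / 2)) :=
      Real.cosh_sub_sinh _
    have h3 : Real.cosh (hd z w / 2) + Real.sinh (hd z w / 2) = Real.exp (hd z w / 2) :=
      Real.cosh_add_sinh _
    have e1 : 1 + Real.sinh (hd z w / 2) / Real.cosh (hd z w / 2) =
        (Real.cosh (hd z w / 2) + Real.sinh (hd z w / 2)) / Real.cosh (hd z w / 2) := by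
      field_simp
    have e2 : 1 - Real.sinh (hd z w / 2) / Real.cosh (hd z w / 2) =
        (Real.cosh (hd z w / 2) - Real.sinh (hd z w / 2)) / Real.cosh (hd z w / 2) := by
      field_simp
    rw [e1, e2, h2, h3, div_div_div_cancel_right₀ hc.ne', ← Real.exp_sub]
    congr 1
    ring
  rw [h1, Real.log_exp]

theorem exp_hd {z w : ℂ} (hz : 0 < z.im) (hw : 0 < w.im) :
    Real.exp (hd z w) = (1 + phd z w) / (1 - phd z w) := by
  rw [← log_phd hz hw, Real.exp_log]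
  have := phd_lt_one hz hw
  have := phd_nonneg z w
  apply div_pos <;> linarith

/-- `log Ups_f` is 2-Lipschitz in the hyperbolic metric. -/
theorem abs_log_ups_sub_le {f : ℂ → ℂ} (hf : DifferentiableOn ℂ f Hs) (hfi : InjOn f Hs)
    {z w : ℂ} (hz : 0 < z.im) (hw : 0 < w.im) :
    |Real.log (ups f w) - Real.log (ups f z)| ≤ 2 * hd z w := by
  rw [← log_phd hz hw]
  exact log_ups_lip hf hfi hz hw

theorem ups_le_exp {f : ℂ → ℂ} (hf : DifferentiableOn ℂ f Hs) (hfi : InjOn f Hs)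
    {z w : ℂ} (hz : 0 < z.im) (hw : 0 < w.im) :
    ups f w ≤ ups f z * Real.exp (2 * hd z w) := by
  have h := (abs_le.1 (abs_log_ups_sub_le hf hfi hz hw)).2
  have h1 := ups_pos hf hfi hz
  have h2 := ups_pos hf hfi hw
  have h3 : Real.log (ups f w) ≤ Real.log (ups f z * Real.exp (2 * hd z w)) := by
    rw [Real.log_mul h1.ne' (Real.exp_pos _).ne', Real.log_exp]; linarith
  exact (Real.log_le_log_iff h2 (by positivity)).1 h3

theorem exp_neg_le_ups {f : ℂ → ℂ} (hf : DifferentiableOn ℂ f Hs) (hfi : InjOn f Hs)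
    {z w : ℂ} (hz : 0 < z.im) (hw : 0 < w.im) :
    ups f z * Real.exp (-(2 * hd z w)) ≤ ups f w := by
  have h := ups_le_exp hf hfi hw hz
  rw [hd_comm] at h
  calc ups f z * Real.exp (-(2 * hd z w)) ≤ (ups f w * Real.exp (2 * hd z w)) *
      Real.exp (-(2 * hd z w)) := by gcongr
    _ = ups f w := by rw [mul_assoc, ← Real.exp_add]; simp

/-- (KB4, upper) `|f w - f z| ≤ Ups_f(z) (e^{2d} - 1)/2`. -/
theorem norm_sub_le_exp {f : ℂ → ℂ} (hf : DifferentiableOn ℂ f Hs) (hfi : InjOn f Hs)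
    {z w : ℂ} (hz : 0 < z.im) (hw : 0 < w.im) :
    ‖f w - f z‖ ≤ ups f z * ((Real.exp (2 * hd z w) - 1) / 2) := by
  have h := norm_sub_le_ups hf hfi hz hw
  have h1 : 0 < 1 - phd z w := by have := phd_lt_one hz hw; linarith
  have h2 : Real.exp (2 * hd z w) = ((1 + phd z w) / (1 - phd z w)) ^ 2 := by
    rw [← exp_hd hz hw, ← Real.exp_nat_mul]; norm_num
  have h3 : 2 * ups f z * (phd z w / (1 - phd z w) ^ 2) =
      ups f z * ((Real.exp (2 * hd z w) - 1) / 2) := by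
    rw [h2]; field_simp; ring
  rw [← h3]; exact h

theorem min_le_five_tanh {x : ℝ} (hx : 0 ≤ x) : min 1 x * (2 / 5) ≤ Real.tanh (x / 2) := by
  -- `tanh (x/2) = (e^x-1)/(e^x+1)`, nondecreasing and `≥ (2/5) x` on `[0,1]`
  have hE : Real.tanh (x / 2) = (Real.exp x - 1) / (Real.exp x + 1) := by
    rw [Real.tanh_eq_sinh_div_cosh, Real.sinh_eq, Real.cosh_eq]
    have e1 : Real.exp x = Real.exp (x / 2) * Real.exp (x / 2) := by
      rw [← Real.exp_add]; congr 1; ring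
    have e2 : Real.exp (x / 2) * Real.exp (-(x / 2)) = 1 := by
      rw [← Real.exp_add]; simp
    have p1 := Real.exp_pos (x / 2)
    have p2 := Real.exp_pos (-(x / 2))
    rw [div_div_div_cancel_right₀ (by norm_num : (2:ℝ) ≠ 0), e1, div_eq_div_iff (by positivity)
      (by positivity)]
    nlinarith
  rw [hE, le_div_iff₀ (by positivity)]
  have hm : 0 ≤ min 1 x := le_min zero_le_one hx
  have hm1 : min 1 x ≤ 1 := min_le_left _ _
  have hq : 1 + min 1 x + (min 1 x) ^ 2 / 2 ≤ Real.exp x := by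
    have h1 := Real.quadratic_le_exp_of_nonneg hm
    have h2 : Real.exp (min 1 x) ≤ Real.exp x := Real.exp_le_exp.2 (min_le_right _ _)
    linarith
  nlinarith [mul_nonneg hm (sub_nonneg.2 hm1), mul_nonneg (mul_nonneg hm hm) (sub_nonneg.2 hm1),
    Real.exp_pos x, mul_nonneg (sub_nonneg.2 hm1) (sub_nonneg.2 hq)]

/-- (KB4, lower) `Ups_f(z) min(1,d)/5 ≤ |f w - f z|`. -/
theorem ups_min_le_norm_sub {f : ℂ → ℂ} (hf : DifferentiableOn ℂ f Hs) (hfi : InjOn f Hs)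
    {z w : ℂ} (hz : 0 < z.im) (hw : 0 < w.im) :
    ups f z * min 1 (hd z w) / 5 ≤ ‖f w - f z‖ := by
  have h := ups_le_norm_sub hf hfi hz hw
  have h1 := min_le_five_tanh (hd_nonneg z w)
  rw [← phd_eq hz hw] at h1
  have h2 := ups_pos hf hfi hz
  nlinarith [mul_le_mul_of_nonneg_left h1 h2.le]

theorem hd_vert {z w : ℂ} (hz : 0 < z.im) (hw : 0 < w.im) (h : z.re = w.re) :
    hd z w = |Real.log z.im - Real.log w.im| := by
  have h' : (⟨z, hz⟩ : ℍ).re = (⟨w, hw⟩ : ℍ).re := h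
  rw [hd_eq hz hw, UpperHalfPlane.dist_of_re_eq h', Real.dist_eq]
  rfl

theorem hd_le_div {z w : ℂ} (hz : 0 < z.im) (hw : 0 < w.im) :
    hd z w ≤ ‖z - w‖ / √(z.im * w.im) := by
  rw [hd_eq hz hw]
  have := UpperHalfPlane.dist_le_dist_coe_div_sqrt (⟨z, hz⟩ : ℍ) ⟨w, hw⟩
  rw [dist_eq_norm] at this
  exact this

theorem abs_log_im_le_hd {z w : ℂ} (hz : 0 < z.im) (hw : 0 < w.im) :
    |Real.log z.im - Real.log w.im| ≤ hd z w := by
  rw [hd_eq hz hw]
  have := UpperHalfPlane.dist_log_im_le (⟨z, hz⟩ : ℍ) ⟨w, hw⟩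
  rw [Real.dist_eq] at this
  exact this

/-- along a vertical ray: `|log Ups(i y₂) - log Ups(i y₁)| ≤ 2 |log (y₂/y₁)|`. -/
theorem abs_log_ups_vert {f : ℂ → ℂ} (hf : DifferentiableOn ℂ f Hs) (hfi : InjOn f Hs)
    {z w : ℂ} (hz : 0 < z.im) (hw : 0 < w.im) (h : z.re = w.re) :
    |Real.log (ups f w) - Real.log (ups f z)| ≤ 2 * |Real.log z.im - Real.log w.im| := by
  rw [← hd_vert hz hw h]
  exact abs_log_ups_sub_le hf hfi hz hw

theorem ups_vert_le {f : ℂ → ℂ} (hf : DifferentiableOn ℂ f Hs) (hfi : InjOn f Hs)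
    {z w : ℂ} (hz : 0 < z.im) (hzw : z.im ≤ w.im) (h : z.re = w.re) :
    ups f w ≤ ups f z * (w.im / z.im) ^ 2 := by
  have hw : 0 < w.im := hz.trans_le hzw
  have h1 := ups_le_exp hf hfi hz hw
  rw [hd_vert hz hw h, abs_sub_comm, ← Real.log_div hw.ne' hz.ne',
    abs_of_nonneg (Real.log_nonneg (by rw [le_div_iff₀ hz]; linarith)), two_mul, Real.exp_add,
    Real.exp_log (by positivity), ← sq] at h1
  exact h1

theorem ups_vert_le' {f : ℂ → ℂ} (hf : DifferentiableOn ℂ f Hs) (hfi : InjOn f Hs)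
    {z w : ℂ} (hz : 0 < z.im) (hzw : z.im ≤ w.im) (h : z.re = w.re) :
    ups f z ≤ ups f w * (w.im / z.im) ^ 2 := by
  have hw : 0 < w.im := hz.trans_le hzw
  have h1 := ups_le_exp hf hfi hw hz
  rw [hd_vert hw hz h.symm, ← Real.log_div hw.ne' hz.ne',
    abs_of_nonneg (Real.log_nonneg (by rw [le_div_iff₀ hz]; linarith)), two_mul, Real.exp_add,
    Real.exp_log (by positivity), ← sq] at h1
  exact h1

/-! ## derivatives of `log Ups` -/

theorem deriv_ne {f : ℂ → ℂ} (hf : DifferentiableOn ℂ f Hs) (hfi : InjOn f Hs) {z : ℂ}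
    (hz : 0 < z.im) : deriv f z ≠ 0 := by
  intro h
  have := ups_pos hf hfi hz
  simp [ups, h] at this

theorem hasDerivAt_deriv {f : ℂ → ℂ} (hf : DifferentiableOn ℂ f Hs) {z : ℂ}
    (hz : 0 < z.im) : HasDerivAt (deriv f) (deriv (deriv f) z) z :=
  ((hf.deriv isOpen_Hs).differentiableAt (isOpen_Hs.mem_nhds hz)).hasDerivAt

/-- `∂_x log Ups = Re (f''/f')` -/
theorem hasDerivAt_log_ups_x {f : ℂ → ℂ} (hf : DifferentiableOn ℂ f Hs) (hfi : InjOn f Hs)
    {x y : ℝ} (hy : 0 < y) :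
    HasDerivAt (fun s : ℝ => Real.log (ups f (⟨s, y⟩ : ℂ)))
      ((deriv (deriv f) ⟨x, y⟩ / deriv f ⟨x, y⟩).re) x := by
  have hz : 0 < (⟨x, y⟩ : ℂ).im := hy
  have hc : HasDerivAt (fun s : ℝ => (⟨s, y⟩ : ℂ)) 1 x := by
    have e : (fun s : ℝ => (⟨s, y⟩ : ℂ)) = fun s : ℝ => (s : ℂ) + (y : ℂ) * I := by
      funext s; apply Complex.ext <;> simp
    rw [e]
    simpa using (Complex.ofRealCLM.hasDerivAt (x := x)).add_const ((y : ℂ) * I)
  have h1 : HasDerivAt (fun s : ℝ => deriv f (⟨s, y⟩ : ℂ)) (deriv (deriv f) ⟨x, y⟩) x := by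
    have := (hasDerivAt_deriv hf hz).scomp x hc
    rw [one_smul] at this
    exact this
  have h2 := (hasDerivAt_log_norm h1 (deriv_ne hf hfi hz)).const_add (Real.log y)
  refine h2.congr_of_eventuallyEq (Filter.Eventually.of_forall fun s => ?_)
  have hs : 0 < (⟨s, y⟩ : ℂ).im := hy
  simp only [ups]
  rw [Real.log_mul hy.ne' (norm_pos_iff.2 (deriv_ne hf hfi hs)).ne']

/-- `∂_y log Ups = 1/y - Im (f''/f')` -/
theorem hasDerivAt_log_ups_y {f : ℂ → ℂ} (hf : DifferentiableOn ℂ f Hs) (hfi : InjOn f Hs)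
    {x y : ℝ} (hy : 0 < y) :
    HasDerivAt (fun s : ℝ => Real.log (ups f (⟨x, s⟩ : ℂ)))
      (1 / y - (deriv (deriv f) ⟨x, y⟩ / deriv f ⟨x, y⟩).im) y := by
  have hz : 0 < (⟨x, y⟩ : ℂ).im := hy
  have hc : HasDerivAt (fun s : ℝ => (⟨x, s⟩ : ℂ)) I y := by
    have e : (fun s : ℝ => (⟨x, s⟩ : ℂ)) = fun s : ℝ => (x : ℂ) + (s : ℂ) * I := by
      funext s; apply Complex.ext <;> simp
    rw [e]
    simpa using ((Complex.ofRealCLM.hasDerivAt (x := y)).mul_const I).const_add (x : ℂ)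
  have h1 : HasDerivAt (fun s : ℝ => deriv f (⟨x, s⟩ : ℂ)) (I * deriv (deriv f) ⟨x, y⟩) y := by
    have := (hasDerivAt_deriv hf hz).scomp y hc
    rw [smul_eq_mul] at this
    exact this
  have h2 := (hasDerivAt_log_norm h1 (deriv_ne hf hfi hz))
  have h3 := (Real.hasDerivAt_log hy.ne').add h2
  have e3 : (I * deriv (deriv f) ⟨x, y⟩ / deriv f ⟨x, y⟩).re =
      - (deriv (deriv f) ⟨x, y⟩ / deriv f ⟨x, y⟩).im := by
    rw [mul_div_assoc]; simp
  refine (h3.congr_of_eventuallyEq ?_).congr_deriv ?_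
  · filter_upwards [lt_mem_nhds hy] with s hs
    have hs' : 0 < (⟨x, s⟩ : ℂ).im := hs
    simp only [ups, Pi.add_apply]
    rw [Real.log_mul hs.ne' (norm_pos_iff.2 (deriv_ne hf hfi hs')).ne']
  · rw [e3]; simp [one_div]; ring

/-- gradient bound `|y ∇ log Ups| ≤ 2`. -/
theorem grad_log_ups_le {f : ℂ → ℂ} (hf : DifferentiableOn ℂ f Hs) (hfi : InjOn f Hs) {z : ℂ}
    (hz : 0 < z.im) :
    (z.im * (deriv (deriv f) z / deriv f z).re) ^ 2 +
      (z.im * (1 / z.im - (deriv (deriv f) z / deriv f z).im)) ^ 2 ≤ 4 := by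
  have h := Crest.Agent.Lib.Bieberbach.bieberbach_halfplane' hf hfi hz
  have h0 : (0:ℝ) ≤ ‖(z.im : ℂ) * deriv (deriv f) z / deriv f z - I‖ := norm_nonneg _
  have h1 : ‖(z.im : ℂ) * deriv (deriv f) z / deriv f z - I‖ ^ 2 ≤ 4 := by nlinarith
  rw [← Complex.normSq_eq_norm_sq, Complex.normSq_apply, mul_div_assoc] at h1
  have e : z.im * (1 / z.im - (deriv (deriv f) z / deriv f z).im) =
      1 - z.im * (deriv (deriv f) z / deriv f z).im := by
    field_simp
  rw [e]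
  simp only [Complex.sub_re, Complex.sub_im, Complex.re_ofReal_mul, Complex.im_ofReal_mul,
    Complex.I_re, Complex.I_im] at h1
  nlinarith [h1]

end Crest.Agent.R162.KB1
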