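import Mathlib
import Crest.Agent.Lib.Bieberbach

set_option autoImplicit false

namespace Crest.Agent.R162.KB

open Metric Set Filter Topology
open scoped ComplexConjugate Real

/-- nonvanishing analytic functions on the disc have analytic logarithms -/
theorem kb5_exists_log {φ : ℂ → ℂ} (hφ : DifferentiableOn ℂ φ (ball 0 1))
    (hne : ∀ z ∈ ball (0:ℂ) 1, φ z ≠ 0) (h1 : φ 0 = 1) :
    ∃ L : ℂ → ℂ, DifferentiableOn ℂ L (ball 0 1) ∧ L 0 = 0 ∧
      ∀ z ∈ ball (0:ℂ) 1, φ z = Complex.exp (L z) := by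
  have hd : DifferentiableOn ℂ (fun z => deriv φ z / φ z) (ball 0 1) :=
    (hφ.deriv isOpen_ball).div hφ hne
  obtain ⟨L0, hL0⟩ := hd.isExactOn_ball
  set L : ℂ → ℂ := fun z => L0 z - L0 0 with hL
  have hLd : ∀ z ∈ ball (0:ℂ) 1, HasDerivAt L (deriv φ z / φ z) z := by
    intro z hz
    exact (hL0 z hz).sub_const _
  have hconst : ∀ z ∈ ball (0:ℂ) 1, φ z * Complex.exp (-L z) = 1 := by
    have hF : ∀ z ∈ ball (0:ℂ) 1, HasDerivAt (fun z => φ z * Complex.exp (-L z)) 0 z := by
      intro z hz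
      have a1 : HasDerivAt φ (deriv φ z) z :=
        (hφ.differentiableAt (isOpen_ball.mem_nhds hz)).hasDerivAt
      have a2 := (hLd z hz).neg.cexp
      have a3 := a1.mul a2
      have a4 : deriv φ z * Complex.exp (-L z) +
          φ z * (Complex.exp (-L z) * -(deriv φ z / φ z)) = 0 := by
        have := hne z hz
        field_simp
        ring
      rw [← a4]
      exact a3
    intro z hz
    have hconv : Convex ℝ (ball (0:ℂ) 1) := convex_ball 0 1
    have := hconv.is_const_of_fderivWithin_eq_zero (𝕜 := ℂ)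
      (f := fun z => φ z * Complex.exp (-L z))
      (fun z hz => (hF z hz).differentiableAt.differentiableWithinAt) ?_ hz
      (mem_ball_self one_pos)
    · rw [this, h1, hL]; simp
    · intro x hx
      rw [fderivWithin_of_isOpen isOpen_ball hx, (hF x hx).hasFDerivAt.fderiv]
      ext
      simp
  refine ⟨L, fun z hz => (hLd z hz).differentiableAt.differentiableWithinAt, by simp [hL], ?_⟩
  intro z hz
  have a1 := hconst z hz
  have : φ z * Complex.exp (-L z) * Complex.exp (L z) = Complex.exp (L z) := by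
    rw [a1, one_mul]
  rwa [mul_assoc, ← Complex.exp_add, neg_add_cancel, Complex.exp_zero, mul_one] at this

/-- growth of the derivative of a univalent function on the disc (Gronwall from Bieberbach) -/
theorem kb5_deriv_growth {F : ℂ → ℂ} (hF : DifferentiableOn ℂ F (ball 0 1))
    (hFi : InjOn F (ball 0 1)) {R : ℝ} (hR1 : R < 1) {ζ : ℂ} (hζ : ‖ζ‖ ≤ R) :
    ‖deriv F ζ‖ ≤ ‖deriv F 0‖ * Real.exp (6 / (1 - R ^ 2)) := by
  have hR0 : 0 ≤ R := le_trans (norm_nonneg _) hζ
  have hq : 0 < 1 - R ^ 2 := by nlinarith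
  set K : ℝ := 6 / (1 - R ^ 2) with hK
  have hKp : 0 < K := by positivity
  have hdF : DifferentiableOn ℂ (deriv F) (ball 0 1) := hF.deriv isOpen_ball
  have hsec : ∀ w : ℂ, ‖w‖ ≤ R → ‖deriv (deriv F) w‖ ≤ K * ‖deriv F w‖ := by
    intro w hw
    have h1 : ‖w‖ < 1 := lt_of_le_of_lt hw hR1
    have h2 := Crest.Agent.Lib.Bieberbach.bieberbach_disc hF hFi h1
    have h3 : ‖((1 - ‖w‖ ^ 2 : ℝ) : ℂ) * deriv (deriv F) w‖ ≤
        ‖((1 - ‖w‖ ^ 2 : ℝ) : ℂ) * deriv (deriv F) w - 2 * conj w * deriv F w‖ +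
          ‖2 * conj w * deriv F w‖ := by
      have := norm_add_le (((1 - ‖w‖ ^ 2 : ℝ) : ℂ) * deriv (deriv F) w - 2 * conj w * deriv F w)
        (2 * conj w * deriv F w)
      simpa using this
    have h4 : ‖2 * conj w * deriv F w‖ ≤ 2 * ‖deriv F w‖ := by
      rw [norm_mul, norm_mul, RCLike.norm_conj]
      have : ‖(2:ℂ)‖ = 2 := by norm_num
      rw [this]
      have := norm_nonneg (deriv F w)
      nlinarith [norm_nonneg w]
    have hwp : 0 < 1 - ‖w‖ ^ 2 := by nlinarith [norm_nonneg w]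
    have h5 : ‖((1 - ‖w‖ ^ 2 : ℝ) : ℂ) * deriv (deriv F) w‖ =
        (1 - ‖w‖ ^ 2) * ‖deriv (deriv F) w‖ := by
      rw [norm_mul, Complex.norm_real, Real.norm_eq_abs, abs_of_pos hwp]
    rw [h5] at h3
    have h6 : (1 - ‖w‖ ^ 2) * ‖deriv (deriv F) w‖ ≤ 6 * ‖deriv F w‖ := by linarith
    have h7 : 1 - R ^ 2 ≤ 1 - ‖w‖ ^ 2 := by nlinarith [norm_nonneg w]
    have h8 : (1 - R ^ 2) * ‖deriv (deriv F) w‖ ≤ 6 * ‖deriv F w‖ :=
      le_trans (mul_le_mul_of_nonneg_right h7 (norm_nonneg _)) h6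
    rw [hK, div_mul_eq_mul_div, le_div_iff₀ hq]
    linarith
  have hmem : ∀ t ∈ Icc (0:ℝ) 1, ‖(t:ℂ) * ζ‖ ≤ R := by
    intro t ht
    rw [norm_mul, Complex.norm_real, Real.norm_eq_abs, abs_of_nonneg ht.1]
    nlinarith [ht.1, ht.2, norm_nonneg ζ]
  have hder : ∀ t ∈ Icc (0:ℝ) 1, HasDerivAt (fun t : ℝ => deriv F ((t:ℂ) * ζ))
      (deriv (deriv F) ((t:ℂ) * ζ) * ζ) t := by
    intro t ht
    have hb : (t:ℂ) * ζ ∈ ball (0:ℂ) 1 := by
      rw [mem_ball_zero_iff]; exact lt_of_le_of_lt (hmem t ht) hR1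
    have h1 : HasDerivAt (deriv F) (deriv (deriv F) ((t:ℂ) * ζ)) ((t:ℂ) * ζ) :=
      (hdF.differentiableAt (isOpen_ball.mem_nhds hb)).hasDerivAt
    have h2 : HasDerivAt (fun t : ℝ => (t:ℂ) * ζ) (1 * ζ) t :=
      (Complex.ofRealCLM.hasDerivAt (x := t)).mul_const ζ
    have h3 := h1.comp t h2
    rw [one_mul] at h3
    exact h3
  have hg := norm_le_gronwallBound_of_norm_deriv_right_le
    (f := fun t : ℝ => deriv F ((t:ℂ) * ζ))
    (f' := fun t : ℝ => deriv (deriv F) ((t:ℂ) * ζ) * ζ) (δ := ‖deriv F 0‖) (K := K) (ε := 0)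
    (a := 0) (b := 1)
    (fun t ht => (hder t ht).continuousAt.continuousWithinAt)
    (fun t ht => (hder t (Ico_subset_Icc_self ht)).hasDerivWithinAt)
    (by simp)
    (by
      intro t ht
      have h1 := hsec _ (hmem t (Ico_subset_Icc_self ht))
      rw [norm_mul, add_zero]
      have h2 : ‖ζ‖ ≤ 1 := le_trans hζ hR1.le
      calc ‖deriv (deriv F) ((t:ℂ) * ζ)‖ * ‖ζ‖ ≤ ‖deriv (deriv F) ((t:ℂ) * ζ)‖ * 1 :=
            mul_le_mul_of_nonneg_left h2 (norm_nonneg _)
        _ ≤ K * ‖deriv F ((t:ℂ) * ζ)‖ := by rw [mul_one]; exact h1)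
    1 (by simp)
  rw [gronwallBound_ε0] at hg
  simpa using hg

/-- the disc form of KB5 -/
theorem kb5_disc {F : ℂ → ℂ} (hF : DifferentiableOn ℂ F (ball 0 1))
    (hFi : InjOn F (ball 0 1)) :
    ∃ h : ℂ → ℂ, DifferentiableOn ℂ h (ball 0 1) ∧ h 0 = 0 ∧
      (∀ ζ ∈ ball (0:ℂ) 1, F ζ - F 0 = ζ * (deriv F 0 * Complex.exp (h ζ))) ∧
      ∀ R : ℝ, 0 < R → R < 1 → ∀ ζ ∈ ball (0:ℂ) R,
        ‖h ζ‖ ≤ 2 * (6 / (1 - R ^ 2)) * ‖ζ‖ / (R - ‖ζ‖) := by
  have h0m : (0:ℂ) ∈ ball (0:ℂ) 1 := mem_ball_self one_pos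
  have hnh : ball (0:ℂ) 1 ∈ 𝓝 (0:ℂ) := ball_mem_nhds 0 one_pos
  have hne : deriv F 0 ≠ 0 :=
    Crest.Agent.Lib.deriv_ne_zero_of_injOn isOpen_ball hF hFi h0m
  set a : ℂ := deriv F 0 with ha
  set φ : ℂ → ℂ := fun z => a⁻¹ * dslope F 0 z with hφ
  have hφd : DifferentiableOn ℂ φ (ball 0 1) :=
    ((Complex.differentiableOn_dslope hnh).2 hF).const_mul _
  have hFφ : ∀ z, F z - F 0 = z * (a * φ z) := by
    intro z
    have := sub_smul_dslope F 0 z
    rw [sub_zero, smul_eq_mul] at this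
    rw [hφ]
    simp only
    rw [← mul_assoc a, mul_inv_cancel₀ hne, one_mul, this]
  have hφ0 : φ 0 = 1 := by
    simp only [hφ]
    rw [dslope_same, ← ha, inv_mul_cancel₀ hne]
  have hφne : ∀ z ∈ ball (0:ℂ) 1, φ z ≠ 0 := by
    intro z hz h
    by_cases hz0 : z = 0
    · rw [hz0, hφ0] at h; exact one_ne_zero h
    · have h1 := hFφ z
      rw [h, mul_zero, mul_zero, sub_eq_zero] at h1
      exact hz0 (hFi hz h0m h1)
  obtain ⟨L, hLd, hL0, hL⟩ := kb5_exists_log hφd hφne hφ0
  refine ⟨L, hLd, hL0, ?_, ?_⟩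
  · intro ζ hζ
    rw [hFφ ζ, hL ζ hζ]
  · intro R hR0 hR1 ζ hζ
    have hq : 0 < 1 - R ^ 2 := by nlinarith
    set K : ℝ := 6 / (1 - R ^ 2) with hK
    have hKp : 0 < K := by positivity
    have hsub : ball (0:ℂ) R ⊆ ball 0 1 := ball_subset_ball hR1.le
    apply Complex.borelCaratheodory_zero hKp (hLd.mono hsub) ?_ hR0 hζ hL0
    intro w hw
    simp only [mem_ofPred_eq]
    by_cases hw0 : w = 0
    · rw [hw0, hL0]; simpa using hKp.le
    · have hwR : ‖w‖ < R := mem_ball_zero_iff.1 hw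
      have hcb : ∀ x ∈ closedBall (0:ℂ) ‖w‖, x ∈ ball (0:ℂ) 1 := by
        intro x hx
        rw [mem_closedBall_zero_iff] at hx
        rw [mem_ball_zero_iff]; linarith
      have h1 : ‖F w - F 0‖ ≤ (‖a‖ * Real.exp K) * ‖w - 0‖ := by
        apply (convex_closedBall (0:ℂ) ‖w‖).norm_image_sub_le_of_norm_deriv_le (𝕜 := ℂ)
        · intro x hx
          exact hF.differentiableAt (isOpen_ball.mem_nhds (hcb x hx))
        · intro x hx
          rw [mem_closedBall_zero_iff] at hx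
          exact kb5_deriv_growth hF hFi hR1 (by linarith)
        · simp
        · simp
      rw [hFφ w, hL w (hsub hw), norm_mul, norm_mul, Complex.norm_exp, sub_zero] at h1
      have h2 : 0 < ‖w‖ := norm_pos_iff.2 hw0
      have h3 : 0 < ‖a‖ := norm_pos_iff.2 hne
      have h4 : Real.exp (L w).re ≤ Real.exp K := by
        have : ‖w‖ * ‖a‖ * Real.exp (L w).re ≤ ‖w‖ * ‖a‖ * Real.exp K := by nlinarith
        exact le_of_mul_le_mul_left this (mul_pos h2 h3)
      exact Real.exp_le_exp.1 h4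

/-- **KB5, existence**: the holomorphic logarithm of the normalised difference quotient of a
univalent function on the half-plane is bounded on hyperbolic balls. -/
theorem KB5_exists (M : ℝ) : ∃ C : ℝ, 0 < C ∧ ∀ f : ℂ → ℂ,
    DifferentiableOn ℂ f {z : ℂ | 0 < z.im} → InjOn f {z : ℂ | 0 < z.im} →
    ∀ z0 : ℂ, 0 < z0.im → ∃ h : ℂ → ℂ, DifferentiableOn ℂ h {z : ℂ | 0 < z.im} ∧ h z0 = 0 ∧
      (∀ z : ℂ, 0 < z.im → f z - f z0 = (z - z0) * (deriv f z0 * Complex.exp (h z))) ∧
      ∀ z : ℂ, 0 < z.im → ‖z - z0‖ ^ 2 ≤ M * (z.im * z0.im) → ‖h z‖ ≤ C := by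
  -- constants
  set M' : ℝ := max M 0 with hM'
  have hM'0 : 0 ≤ M' := le_max_right _ _
  have hMM' : M ≤ M' := le_max_left _ _
  set r : ℝ := Real.sqrt (M' / (M' + 4)) with hr
  have hr0 : 0 ≤ r := Real.sqrt_nonneg _
  have hr1 : r < 1 := by
    rw [hr, Real.sqrt_lt' one_pos, one_pow, div_lt_one (by linarith)]
    linarith
  set R : ℝ := (1 + r) / 2 with hR
  have hRr : r < R := by rw [hR]; linarith
  have hR0 : 0 < R := by rw [hR]; linarith
  have hR1 : R < 1 := by rw [hR]; linarith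
  have hq : 0 < 1 - R ^ 2 := by nlinarith
  set C1 : ℝ := 2 * (6 / (1 - R ^ 2)) * 1 / (R - r) with hC1
  have hC1p : 0 < C1 := by
    rw [hC1]
    have : 0 < R - r := by linarith
    positivity
  set C2 : ℝ := (M' + 4) + 1 + π with hC2
  have hC2p : 0 < C2 := by rw [hC2]; have := Real.pi_pos; linarith
  refine ⟨C1 + C2, by linarith, ?_⟩
  intro f hf hfi z0 hz0
  have hU : IsOpen {z : ℂ | 0 < z.im} := isOpen_lt continuous_const Complex.continuous_im
  set a : ℂ := z0 - conj z0 with ha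
  have ha2 : a = 2 * z0.im * Complex.I := by
    rw [ha, Complex.sub_conj]; push_cast; ring
  have hane : a ≠ 0 := by
    rw [ha2]
    simp [hz0.ne']
  -- the Moebius map
  set m : ℂ → ℂ := fun ζ => conj z0 + a * (1 - ζ)⁻¹ with hm
  have hne : ∀ ζ ∈ ball (0:ℂ) 1, 1 - ζ ≠ 0 := by
    intro ζ hζ h
    rw [mem_ball_zero_iff] at hζ
    have : ζ = 1 := by linear_combination -h
    rw [this] at hζ; simp at hζ
  have hm0 : m 0 = z0 := by simp [hm, ha]
  have hmder : ∀ ζ ∈ ball (0:ℂ) 1, HasDerivAt m (a * ((1 - ζ) ^ 2)⁻¹) ζ := by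
    intro ζ hζ
    have h1 : HasDerivAt (fun ζ : ℂ => 1 - ζ) (-1) ζ := by
      simpa using (hasDerivAt_id ζ).const_sub 1
    have h2 := ((h1.fun_inv (hne ζ hζ)).const_mul a).const_add (conj z0)
    have h3 : a * (-(-1) / (1 - ζ) ^ 2) = a * ((1 - ζ) ^ 2)⁻¹ := by
      rw [neg_neg, one_div]
    rw [← h3]
    exact h2
  have hmd : DifferentiableOn ℂ m (ball 0 1) := fun ζ hζ =>
    (hmder ζ hζ).differentiableAt.differentiableWithinAt
  have hmaps : MapsTo m (ball 0 1) {z : ℂ | 0 < z.im} := by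
    intro ζ hζ
    have hd := hne ζ hζ
    have hn : 0 < Complex.normSq (1 - ζ) := Complex.normSq_pos.2 hd
    rw [mem_ball_zero_iff] at hζ
    have h1 : Complex.normSq ζ < 1 := by
      rw [Complex.normSq_eq_norm_sq]; have := norm_nonneg ζ; nlinarith
    show 0 < (m ζ).im
    have h2 : (m ζ).im = z0.im * (1 - Complex.normSq ζ) / Complex.normSq (1 - ζ) := by
      simp only [hm, ha2, Complex.add_im, Complex.conj_im, Complex.mul_im, Complex.mul_re,
        Complex.inv_re, Complex.inv_im, Complex.I_re, Complex.I_im, Complex.ofReal_re,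
        Complex.ofReal_im, Complex.re_ofNat, Complex.im_ofNat, Complex.sub_re, Complex.sub_im,
        Complex.one_re, Complex.one_im]
      have h3 : Complex.normSq (1 - ζ) = (1 - ζ.re) ^ 2 + ζ.im ^ 2 := by
        rw [Complex.normSq_apply]; simp; ring
      have h4 : Complex.normSq ζ = ζ.re ^ 2 + ζ.im ^ 2 := by
        rw [Complex.normSq_apply]; ring
      rw [h3] at hn ⊢
      rw [h4]
      field_simp
      ring
    rw [h2]
    exact div_pos (mul_pos hz0 (by linarith)) hn
  have hmi : InjOn m (ball 0 1) := by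
    intro p hp q hq' hpq
    simp only [hm, add_right_inj] at hpq
    have h1 := mul_left_cancel₀ hane hpq
    have h2 := inv_injective h1
    linear_combination -h2
  -- the composed function on the disc
  set F : ℂ → ℂ := fun ζ => f (m ζ) with hF
  have hFd : DifferentiableOn ℂ F (ball 0 1) := hf.comp hmd hmaps
  have hFi : InjOn F (ball 0 1) := fun p hp q hq' hpq =>
    hmi hp hq' (hfi (hmaps hp) (hmaps hq') hpq)
  have h0m : (0:ℂ) ∈ ball (0:ℂ) 1 := mem_ball_self one_pos
  have hF0 : F 0 = f z0 := by simp only [hF, hm0]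
  have hF1 : deriv F 0 = deriv f z0 * a := by
    have h1 : HasDerivAt f (deriv f z0) (m 0) := by
      rw [hm0]
      exact (hf.differentiableAt (hU.mem_nhds hz0)).hasDerivAt
    have h2 := h1.comp 0 (hmder 0 h0m)
    have h3 : deriv F 0 = deriv f z0 * (a * ((1 - 0) ^ 2)⁻¹) := h2.deriv
    rw [h3]; simp
  obtain ⟨hD, hDd, hD0, hDeq, hDb⟩ := kb5_disc hFd hFi
  -- inverse Moebius map
  have hden : ∀ z : ℂ, 0 < z.im → z - conj z0 ≠ 0 := by
    intro z hz h
    have := congrArg Complex.im h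
    simp at this
    linarith
  set k : ℂ → ℂ := fun z => (z - z0) / (z - conj z0) with hk
  have hknorm : ∀ z : ℂ, 0 < z.im → ‖k z‖ ^ 2 = ‖z - z0‖ ^ 2 / (‖z - z0‖ ^ 2 + 4 * (z.im * z0.im)) := by
    intro z hz
    have h1 : ‖z - conj z0‖ ^ 2 = ‖z - z0‖ ^ 2 + 4 * (z.im * z0.im) := by
      rw [← Complex.normSq_eq_norm_sq, ← Complex.normSq_eq_norm_sq, Complex.normSq_apply,
        Complex.normSq_apply]
      simp
      ring
    simp only [hk]
    rw [norm_div, div_pow, h1]
  have hkball : ∀ z : ℂ, 0 < z.im → k z ∈ ball (0:ℂ) 1 := by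
    intro z hz
    rw [mem_ball_zero_iff]
    have h1 := hknorm z hz
    have h2 : 0 < z.im * z0.im := mul_pos hz hz0
    have h3 : ‖k z‖ ^ 2 < 1 := by
      rw [h1, div_lt_one (by positivity)]
      linarith
    have := norm_nonneg (k z)
    nlinarith
  have hmk : ∀ z : ℂ, 0 < z.im → m (k z) = z := by
    intro z hz
    have h1 := hden z hz
    have h2 : 1 - k z = a / (z - conj z0) := by
      simp only [hk, ha]
      field_simp
      ring
    simp only [hm]
    rw [h2, inv_div, mul_div_assoc', mul_comm a, mul_div_assoc, div_self hane]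
    ring
  have hkd : DifferentiableOn ℂ k {z : ℂ | 0 < z.im} := by
    intro z hz
    exact ((differentiableAt_id.sub_const z0).div (differentiableAt_id.sub_const (conj z0))
      (hden z hz)).differentiableWithinAt
  -- the logarithmic correction
  set p : ℂ → ℂ := fun z => (z - conj z0) / a with hp
  have hpre : ∀ z : ℂ, 0 < z.im → (p z).re = (z.im + z0.im) / (2 * z0.im) := by
    intro z hz
    simp only [hp]
    rw [ha2, Complex.div_re]
    simp [Complex.normSq_apply]
    field_simp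
  have hpslit : ∀ z : ℂ, 0 < z.im → p z ∈ Complex.slitPlane := by
    intro z hz
    left
    rw [hpre z hz]
    positivity
  have hpd : DifferentiableOn ℂ p {z : ℂ | 0 < z.im} := by
    intro z hz
    exact ((differentiableAt_id.sub_const (conj z0)).div_const a).differentiableWithinAt
  refine ⟨fun z => hD (k z) - Complex.log (p z), ?_, ?_, ?_, ?_⟩
  · exact (hDd.comp hkd (fun z hz => hkball z hz)).sub (hpd.clog (fun z hz => hpslit z hz))
  · have h1 : k z0 = 0 := by simp [hk]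
    have h2 : p z0 = 1 := by simp only [hp]; rw [← ha, div_self hane]
    simp only [h1, h2, hD0, Complex.log_one, sub_zero]
  · intro z hz
    have h1 := hDeq (k z) (hkball z hz)
    rw [hF0, hF1] at h1
    have h2 : F (k z) = f z := by simp only [hF]; rw [hmk z hz]
    rw [h2] at h1
    rw [h1, Complex.exp_sub, Complex.exp_log (Complex.slitPlane_ne_zero (hpslit z hz))]
    have h3 := hden z hz
    simp only [hk, hp]
    field_simp
  · intro z hz hzM
    have hpos : 0 < z.im * z0.im := mul_pos hz hz0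
    have hzM' : ‖z - z0‖ ^ 2 ≤ M' * (z.im * z0.im) :=
      le_trans hzM (mul_le_mul_of_nonneg_right hMM' hpos.le)
    -- bound of k
    have hkr : ‖k z‖ ≤ r := by
      rw [hr]
      apply Real.le_sqrt_of_sq_le
      rw [hknorm z hz, div_le_div_iff₀ (by positivity) (by linarith)]
      nlinarith [sq_nonneg ‖z - z0‖]
    have hkR : k z ∈ ball (0:ℂ) R := by rw [mem_ball_zero_iff]; linarith
    have hb1 : ‖hD (k z)‖ ≤ C1 := by
      refine le_trans (hDb R hR0 hR1 (k z) hkR) ?_
      rw [hC1]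
      have h1 : 0 < R - r := by linarith
      have h2 : R - r ≤ R - ‖k z‖ := by linarith
      have h3 : ‖k z‖ ≤ 1 := by linarith
      gcongr
    -- bound of log p
    have hb2 : ‖Complex.log (p z)‖ ≤ C2 := by
      have hpn : p z ≠ 0 := Complex.slitPlane_ne_zero (hpslit z hz)
      have h1 : ‖Complex.log (p z)‖ ≤ |Real.log ‖p z‖| + π := by
        have := Complex.norm_le_abs_re_add_abs_im (Complex.log (p z))
        rw [Complex.log_re, Complex.log_im] at this
        exact le_trans this (by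
          have := Complex.abs_arg_le_pi (p z)
          linarith)
      have hratio : z.im ≤ (M' + 2) * z0.im := by
        have h2 : (z.im - z0.im) ^ 2 ≤ M' * (z.im * z0.im) := by
          refine le_trans ?_ hzM'
          have h3 : |(z - z0).im| ≤ ‖z - z0‖ := Complex.abs_im_le_norm _
          rw [Complex.sub_im] at h3
          rw [← sq_abs (z.im - z0.im)]
          exact pow_le_pow_left₀ (abs_nonneg _) h3 2
        have h4 : z.im * z.im ≤ ((M' + 2) * z0.im) * z.im := by nlinarith [sq_nonneg z0.im]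
        exact le_of_mul_le_mul_right h4 hz
      have hupper : ‖p z‖ ^ 2 ≤ (M' + 4) ^ 2 := by
        have h2 : ‖p z‖ ^ 2 = (‖z - z0‖ ^ 2 + 4 * (z.im * z0.im)) / (4 * z0.im ^ 2) := by
          simp only [hp]
          rw [norm_div, div_pow]
          congr 1
          · rw [← Complex.normSq_eq_norm_sq, ← Complex.normSq_eq_norm_sq, Complex.normSq_apply,
              Complex.normSq_apply]
            simp
            ring
          · rw [ha2]
            simp only [norm_mul, Complex.norm_I, Complex.norm_real, Real.norm_eq_abs,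
              Complex.norm_ofNat, mul_one, mul_pow, sq_abs]
            norm_num
        rw [h2, div_le_iff₀ (by positivity)]
        have h3 : z.im * z0.im ≤ (M' + 2) * z0.im ^ 2 := by nlinarith
        nlinarith [sq_nonneg z0.im, mul_nonneg hM'0 hpos.le]
      have hup : ‖p z‖ ≤ M' + 4 := by
        have := abs_le_of_sq_le_sq' hupper (by linarith)
        exact this.2
      have hlow : 1 / 2 ≤ ‖p z‖ := by
        refine le_trans ?_ (Complex.re_le_norm (p z))
        rw [hpre z hz, le_div_iff₀ (by positivity)]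
        linarith
      have hlog1 : Real.log ‖p z‖ ≤ M' + 4 := by
        have := Real.log_le_sub_one_of_pos (lt_of_lt_of_le (by norm_num) hlow)
        linarith
      have hlog2 : -1 ≤ Real.log ‖p z‖ := by
        have h2 : Real.log (1 / 2) ≤ Real.log ‖p z‖ := Real.log_le_log (by norm_num) hlow
        have h3 : Real.log (1 / 2) = - Real.log 2 := by rw [one_div, Real.log_inv]
        have h4 := Real.log_two_lt_d9
        linarith
      have h5 : |Real.log ‖p z‖| ≤ (M' + 4) + 1 := by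
        rw [abs_le]; constructor <;> linarith
      rw [hC2]; linarith
    calc ‖hD (k z) - Complex.log (p z)‖ ≤ ‖hD (k z)‖ + ‖Complex.log (p z)‖ := norm_sub_le _ _
      _ ≤ C1 + C2 := add_le_add hb1 hb2

theorem kb5_convex_H : Convex ℝ {z : ℂ | 0 < z.im} := by
  intro x hx y hy a b ha hb hab
  simp only [mem_ofPred_eq] at hx hy ⊢
  have h1 : (a • x + b • y).im = a * x.im + b * y.im := by simp
  rw [h1]
  rcases eq_or_lt_of_le ha with h | h
  · rw [← h] at hab ⊢
    have : b = 1 := by linarith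
    rw [this]; linarith
  · have := mul_pos h hx
    have := mul_nonneg hb hy.le
    linarith

/-- a continuous function on a preconnected set whose exponential is constant is constant -/
theorem kb5_const_of_exp {S : Set ℂ} (hS : IsPreconnected S) {D : ℂ → ℂ} (hD : ContinuousOn D S)
    {c : ℂ} (hc : ∀ z ∈ S, Complex.exp (D z) = c) {x y : ℂ} (hx : x ∈ S) (hy : y ∈ S) :
    D x = D y := by
  have hkey : ∀ z ∈ S, ∃ n : ℤ, D z = D y + n * (2 * π * Complex.I) := by
    intro z hz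
    have h1 : Complex.exp (D z) = Complex.exp (D y) := by rw [hc z hz, hc y hy]
    obtain ⟨n, hn⟩ := Complex.exp_eq_exp_iff_exists_int.1 h1
    exact ⟨n, hn⟩
  set g : ℂ → ℝ := fun z => ((D z).im - (D y).im) / (2 * π) with hg
  have hgc : ContinuousOn g S :=
    ((Complex.continuous_im.comp_continuousOn hD).sub continuousOn_const).div_const _
  have hpi := Real.pi_pos
  have hgint : ∀ z ∈ S, ∃ n : ℤ, g z = n ∧ D z = D y + n * (2 * π * Complex.I) := by
    intro z hz
    obtain ⟨n, hn⟩ := hkey z hz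
    refine ⟨n, ?_, hn⟩
    simp only [hg]
    rw [hn]
    simp
  have hgy : g y = 0 := by simp [hg]
  by_contra hne
  obtain ⟨n, hn1, hn2⟩ := hgint x hx
  have hn0 : n ≠ 0 := by
    intro h0
    rw [h0] at hn2
    apply hne
    rw [hn2]; simp
  -- a non-integer value is attained
  have hsub1 := hS.intermediate_value hy hx hgc
  have hsub2 := hS.intermediate_value hx hy hgc
  rcases lt_or_gt_of_ne hn0 with h | h
  · have h1 : (n:ℝ) ≤ -1 := by exact_mod_cast Int.le_sub_one_of_lt h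
    have h2 : (-1/2 : ℝ) ∈ Icc (g x) (g y) := by
      rw [hn1, hgy]; constructor <;> linarith
    obtain ⟨z, hz, hgz⟩ := hsub2 h2
    obtain ⟨k, hk, -⟩ := hgint z hz
    rw [hk] at hgz
    have h3 : ((2 * k : ℤ) : ℝ) = ((-1 : ℤ) : ℝ) := by push_cast; linarith
    have h4 : 2 * k = -1 := by exact_mod_cast h3
    omega
  · have h1 : (1:ℝ) ≤ n := by exact_mod_cast h
    have h2 : (1/2 : ℝ) ∈ Icc (g y) (g x) := by
      rw [hn1, hgy]; constructor <;> linarith
    obtain ⟨z, hz, hgz⟩ := hsub1 h2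
    obtain ⟨k, hk, -⟩ := hgint z hz
    rw [hk] at hgz
    have h3 : ((2 * k : ℤ) : ℝ) = ((1 : ℤ) : ℝ) := by push_cast; linarith
    have h4 : 2 * k = 1 := by exact_mod_cast h3
    omega

/-- the value of a continuous branch at the base point -/
theorem KB5_exp_base {f : ℂ → ℂ} (hf : DifferentiableOn ℂ f {z : ℂ | 0 < z.im})
    {z0 : ℂ} (hz0 : 0 < z0.im) {Φ : ℂ → ℂ} (hΦ : ContinuousOn Φ {z : ℂ | 0 < z.im})
    (heq : ∀ z : ℂ, 0 < z.im → f z - f z0 = (z - z0) * Complex.exp (Φ z)) :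
    Complex.exp (Φ z0) = deriv f z0 := by
  have hU : IsOpen {z : ℂ | 0 < z.im} := isOpen_lt continuous_const Complex.continuous_im
  have hda : HasDerivAt f (deriv f z0) z0 :=
    (hf.differentiableAt (hU.mem_nhds hz0)).hasDerivAt
  have h1 : Tendsto (slope f z0) (𝓝[≠] z0) (𝓝 (deriv f z0)) := hda.tendsto_slope
  have hcont : ContinuousAt (fun z => Complex.exp (Φ z)) z0 :=
    (hΦ.continuousAt (hU.mem_nhds hz0)).cexp
  have h2 : Tendsto (fun z => Complex.exp (Φ z)) (𝓝[≠] z0) (𝓝 (Complex.exp (Φ z0))) :=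
    hcont.tendsto.mono_left nhdsWithin_le_nhds
  have h3 : slope f z0 =ᶠ[𝓝[≠] z0] fun z => Complex.exp (Φ z) := by
    have hm : {z : ℂ | 0 < z.im} ∈ 𝓝[≠] z0 := nhdsWithin_le_nhds (hU.mem_nhds hz0)
    filter_upwards [hm, self_mem_nhdsWithin] with z hz hzne
    have hne : z - z0 ≠ 0 := sub_ne_zero.2 hzne
    rw [slope_def_field, heq z hz]
    field_simp
  exact tendsto_nhds_unique (h2.congr' h3.symm) h1

/-- **KB5**: any continuous branch `Φ` of `log ((f z - f z0) / (z - z0))` varies by at most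
`C(M)` on hyperbolic balls around `z0`. -/
theorem KB5 (M : ℝ) : ∃ C : ℝ, 0 < C ∧ ∀ f : ℂ → ℂ,
    DifferentiableOn ℂ f {z : ℂ | 0 < z.im} → InjOn f {z : ℂ | 0 < z.im} →
    ∀ z0 : ℂ, 0 < z0.im → ∀ Φ : ℂ → ℂ, ContinuousOn Φ {z : ℂ | 0 < z.im} →
      (∀ z : ℂ, 0 < z.im → f z - f z0 = (z - z0) * Complex.exp (Φ z)) →
      ∀ z : ℂ, 0 < z.im → ‖z - z0‖ ^ 2 ≤ M * (z.im * z0.im) → ‖Φ z - Φ z0‖ ≤ C := by
  obtain ⟨C, hC, hK⟩ := KB5_exists M
  refine ⟨C, hC, ?_⟩
  intro f hf hfi z0 hz0 Φ hΦ heq z hz hzM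
  obtain ⟨h, hhd, hh0, hheq, hhb⟩ := hK f hf hfi z0 hz0
  have hU : IsOpen {z : ℂ | 0 < z.im} := isOpen_lt continuous_const Complex.continuous_im
  have hne : deriv f z0 ≠ 0 := Crest.Agent.Lib.deriv_ne_zero_of_injOn hU hf hfi hz0
  have hbase := KB5_exp_base hf hz0 hΦ heq
  have hc : ∀ w ∈ {z : ℂ | 0 < z.im}, Complex.exp (Φ w - h w) = deriv f z0 := by
    intro w hw
    by_cases hwz : w = z0
    · rw [hwz, hh0, sub_zero, hbase]
    · have h1 := heq w hw
      rw [hheq w hw] at h1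
      have h2 := mul_left_cancel₀ (sub_ne_zero.2 hwz) h1
      rw [Complex.exp_sub, ← h2]
      field_simp
  have hconst := kb5_const_of_exp kb5_convex_H.isPreconnected
    (hΦ.sub hhd.continuousOn) hc (x := z) (y := z0) hz hz0
  have h3 : Φ z - Φ z0 = h z := by
    have h4 : Φ z - h z = Φ z0 - h z0 := hconst
    rw [hh0, sub_zero] at h4
    rw [← h4]; ring
  rw [h3]
  exact hhb z hz hzM

/-- conversion from the hyperbolic distance -/
theorem sq_le_of_dist (z w : UpperHalfPlane) (D : ℝ) (h : dist z w ≤ D) :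
    ‖(z : ℂ) - w‖ ^ 2 ≤ 2 * (Real.cosh D - 1) * (z.im * w.im) := by
  have h1 := UpperHalfPlane.cosh_dist z w
  have h2 : Real.cosh (dist z w) ≤ Real.cosh D := by
    apply Real.cosh_le_cosh.2
    rw [abs_of_nonneg dist_nonneg, abs_of_nonneg (le_trans dist_nonneg h)]
    exact h
  rw [h1] at h2
  have hz := z.im_pos
  have hw := w.im_pos
  have h3 : dist (z : ℂ) (w : ℂ) ^ 2 / (2 * z.im * w.im) ≤ Real.cosh D - 1 := by linarith
  rw [div_le_iff₀ (by positivity)] at h3
  rw [← dist_eq_norm]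
  linarith

end Crest.Agent.R162.KB
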