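import Mathlib
import Crest.Agent.Lib.Bieberbach

set_option autoImplicit false

namespace Crest.Agent.R162.KBD

open Metric Set Filter Topology Complex
open scoped ComplexConjugate
open Crest.Agent.Lib.Bieberbach

/-- Koebe 1/4, normalised, omitted value form. -/
theorem quarter_omit {f : ℂ → ℂ} (hf : DifferentiableOn ℂ f (ball 0 1))
    (hinj : InjOn f (ball 0 1)) (h0 : f 0 = 0) (h1 : deriv f 0 = 1) {w : ℂ}
    (hw : w ∉ f '' ball 0 1) : 1 / 4 ≤ ‖w‖ := by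
  have h0m : (0:ℂ) ∈ ball (0:ℂ) 1 := mem_ball_self one_pos
  have hnh : ball (0:ℂ) 1 ∈ 𝓝 (0:ℂ) := ball_mem_nhds 0 one_pos
  have hw0 : w ≠ 0 := by
    rintro rfl
    exact hw ⟨0, h0m, h0⟩
  have hden : ∀ z ∈ ball (0:ℂ) 1, w - f z ≠ 0 := by
    intro z hz h
    exact hw ⟨z, hz, (sub_eq_zero.1 h).symm⟩
  set g : ℂ → ℂ := fun z => w * f z / (w - f z) with hg
  have hfd : ∀ z ∈ ball (0:ℂ) 1, HasDerivAt f (deriv f z) z := fun z hz =>
    (hf.differentiableAt (isOpen_ball.mem_nhds hz)).hasDerivAt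
  have hgder : ∀ z ∈ ball (0:ℂ) 1, HasDerivAt g (w ^ 2 * deriv f z / (w - f z) ^ 2) z := by
    intro z hz
    have h2 := ((hfd z hz).const_mul w).fun_div ((hfd z hz).const_sub w) (hden z hz)
    refine h2.congr_deriv ?_
    congr 1
    ring
  have hgd : DifferentiableOn ℂ g (ball 0 1) := fun z hz =>
    (hgder z hz).differentiableAt.differentiableWithinAt
  have hgi : InjOn g (ball 0 1) := by
    intro x hx y hy hxy
    apply hinj hx hy
    simp only [hg] at hxy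
    rw [div_eq_div_iff (hden x hx) (hden y hy)] at hxy
    have h3 : w ^ 2 * (f x - f y) = 0 := by linear_combination hxy
    rcases mul_eq_zero.1 h3 with h4 | h4
    · exact absurd h4 (pow_ne_zero 2 hw0)
    · exact sub_eq_zero.1 h4
  have hg0 : g 0 = 0 := by simp [hg, h0]
  have hg1 : deriv g 0 = 1 := by
    rw [(hgder 0 h0m).deriv, h0, h1]
    field_simp
    simp
  have hb1 := bieberbach_normalized hf hinj h0 h1
  have hb2 := bieberbach_normalized hgd hgi hg0 hg1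
  have hdd : deriv (deriv g) 0 = deriv (deriv f) 0 + 2 / w := by
    have a2 : HasDerivAt (deriv f) (deriv (deriv f) 0) 0 :=
      ((hf.deriv isOpen_ball).differentiableAt hnh).hasDerivAt
    have a3 := ((a2.const_mul (w ^ 2)).fun_div (((hfd 0 h0m).const_sub w).fun_pow 2)
      (pow_ne_zero 2 (hden 0 h0m)))
    have hev : deriv g =ᶠ[𝓝 0] (fun y => w ^ 2 * deriv f y / (w - f y) ^ 2) := by
      filter_upwards [hnh] with z hz
      rw [(hgder z hz).deriv]
    have a4 := a3.congr_of_eventuallyEq hev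
    rw [a4.deriv, h0, h1]
    simp only [sub_zero]
    field_simp
    ring
  rw [hdd] at hb2
  have h5 : ‖(2:ℂ) / w‖ ≤ 8 := by
    have : (2:ℂ) / w = (deriv (deriv f) 0 + 2 / w) - deriv (deriv f) 0 := by ring
    rw [this]
    refine (norm_sub_le _ _).trans ?_
    linarith
  rw [norm_div, Complex.norm_ofNat, div_le_iff₀ (norm_pos_iff.2 hw0)] at h5
  linarith

/-- Koebe 1/4. -/
theorem koebe_quarter {f : ℂ → ℂ} (hf : DifferentiableOn ℂ f (ball 0 1))
    (hinj : InjOn f (ball 0 1)) : ball (f 0) (‖deriv f 0‖ / 4) ⊆ f '' ball 0 1 := by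
  have h0m : (0:ℂ) ∈ ball (0:ℂ) 1 := mem_ball_self one_pos
  have hne : deriv f 0 ≠ 0 :=
    Crest.Agent.Lib.deriv_ne_zero_of_injOn isOpen_ball hf hinj h0m
  intro w hw
  by_contra hcon
  set a : ℂ := deriv f 0 with ha
  set F : ℂ → ℂ := fun z => a⁻¹ * (f z - f 0) with hF
  have hFd : DifferentiableOn ℂ F (ball 0 1) := (hf.sub_const _).const_mul _
  have hFi : InjOn F (ball 0 1) := by
    intro x hx y hy hxy
    apply hinj hx hy
    have := mul_left_cancel₀ (inv_ne_zero hne) hxy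
    exact sub_left_injective this
  have hF0 : F 0 = 0 := by simp [hF]
  have hF1 : deriv F 0 = 1 := by
    have : deriv F = fun z => a⁻¹ * deriv f z := by
      funext z
      rw [hF, deriv_const_mul_field]
      simp
    rw [this]; simp only; rw [← ha, inv_mul_cancel₀ hne]
  have h := quarter_omit hFd hFi hF0 hF1 (w := a⁻¹ * (w - f 0)) (by
    rintro ⟨z, hz, hzw⟩
    apply hcon
    refine ⟨z, hz, ?_⟩
    have := mul_left_cancel₀ (inv_ne_zero hne) hzw
    exact sub_left_injective this)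
  rw [norm_mul, norm_inv] at h
  have hp : 0 < ‖a‖ := norm_pos_iff.2 hne
  rw [mem_ball, dist_eq_norm] at hw
  have : ‖a‖⁻¹ * ‖w - f 0‖ < 1 / 4 := by
    rw [inv_mul_lt_iff₀ hp]; linarith
  linarith

/-- radial logarithmic derivative bounds -/
theorem radial_deriv {f : ℂ → ℂ} (hf : DifferentiableOn ℂ f (ball 0 1))
    (hinj : InjOn f (ball 0 1)) {ζ : ℂ} (hζ : ‖ζ‖ < 1) {t : ℝ} (ht : 0 ≤ t) (ht1 : t ≤ 1) :
    HasDerivAt (fun s : ℝ => Real.log ‖deriv f (s * ζ)‖)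
      (ζ * deriv (deriv f) (t * ζ) / deriv f (t * ζ)).re t ∧
    |(ζ * deriv (deriv f) (t * ζ) / deriv f (t * ζ)).re - 2 * t * ‖ζ‖ ^ 2 / (1 - (t * ‖ζ‖) ^ 2)|
      ≤ 4 * ‖ζ‖ / (1 - (t * ‖ζ‖) ^ 2) := by
  have hn0 := norm_nonneg ζ
  have htz : ‖(t : ℂ) * ζ‖ = t * ‖ζ‖ := by
    rw [norm_mul, Complex.norm_real, Real.norm_eq_abs, abs_of_nonneg ht]
  have htz1 : t * ‖ζ‖ < 1 := by nlinarith
  have hmem : (t : ℂ) * ζ ∈ ball (0:ℂ) 1 := by rw [mem_ball_zero_iff, htz]; exact htz1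
  have hne : deriv f (t * ζ) ≠ 0 :=
    Crest.Agent.Lib.deriv_ne_zero_of_injOn isOpen_ball hf hinj hmem
  constructor
  · have h1 : HasDerivAt (deriv f) (deriv (deriv f) (t * ζ)) (t * ζ) :=
      ((hf.deriv isOpen_ball).differentiableAt (isOpen_ball.mem_nhds hmem)).hasDerivAt
    have h2 : HasDerivAt (fun s : ℝ => (s : ℂ) * ζ) ζ t := by
      simpa using (Complex.ofRealCLM.hasDerivAt (x := t)).mul_const ζ
    have h3 : HasDerivAt (fun s : ℝ => deriv f (s * ζ)) (deriv (deriv f) (t * ζ) * ζ) t :=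
      HasDerivAt.comp (h₂ := deriv f) (h := fun s : ℝ => (s : ℂ) * ζ) t h1 h2
    have h4 : HasDerivAt (fun s : ℝ => ‖deriv f (s * ζ)‖ ^ 2)
        (2 * (deriv f (t * ζ) * conj (deriv (deriv f) (t * ζ) * ζ)).re) t := by
      have h5 := h3.norm_sq
      convert h5 using 1
      rw [Complex.inner]
      congr 1
      rw [← Complex.conj_re]
      simp
      ring
    have hn : ‖deriv f (t * ζ)‖ ≠ 0 := norm_ne_zero_iff.2 hne
    have h6 := (h4.log (pow_ne_zero 2 hn)).div_const 2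
    have h7 : (fun s : ℝ => Real.log (‖deriv f (s * ζ)‖ ^ 2) / 2) =
        fun s : ℝ => Real.log ‖deriv f (s * ζ)‖ := by
      funext s
      rw [Real.log_pow]; push_cast; ring
    rw [h7] at h6
    have h8 : (‖deriv f (t * ζ)‖ ^ 2 : ℝ) = Complex.normSq (deriv f (t * ζ)) := by
      rw [Complex.normSq_eq_norm_sq]
    refine h6.congr_deriv ?_
    rw [h8, Complex.div_re]
    simp only [Complex.mul_re, Complex.mul_im, Complex.conj_re, Complex.conj_im, map_mul]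
    have h9 : Complex.normSq (deriv f (t * ζ)) ≠ 0 := by
      rw [← h8]; exact pow_ne_zero 2 hn
    field_simp
    ring
  · have hb := bieberbach_disc hf hinj (z := t * ζ) (by rw [htz]; exact htz1)
    rw [htz] at hb
    set D : ℝ := 1 - (t * ‖ζ‖) ^ 2 with hD
    have hDp : 0 < D := by
      rw [hD]
      have : 0 ≤ t * ‖ζ‖ := by positivity
      nlinarith
    have h1 : (ζ * deriv (deriv f) (t * ζ) / deriv f (t * ζ)).re - 2 * t * ‖ζ‖ ^ 2 / D
        = ((ζ / (D * deriv f (t * ζ))) * ((D : ℝ) * deriv (deriv f) (t * ζ)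
            - 2 * conj ((t : ℂ) * ζ) * deriv f (t * ζ))).re := by
      have e : (ζ / (D * deriv f (t * ζ))) * ((D : ℝ) * deriv (deriv f) (t * ζ)
            - 2 * conj ((t : ℂ) * ζ) * deriv f (t * ζ)) =
          ζ * deriv (deriv f) (t * ζ) / deriv f (t * ζ) - ((2 * t * ‖ζ‖ ^ 2 / D : ℝ) : ℂ) := by
        have hDc : (D : ℂ) ≠ 0 := by exact_mod_cast hDp.ne'
        have e2 : ((‖ζ‖ ^ 2 : ℝ) : ℂ) = ζ * conj ζ := by
          rw [Complex.mul_conj, Complex.normSq_eq_norm_sq]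
        have e3 : ((2 * t * ‖ζ‖ ^ 2 / D : ℝ) : ℂ) = 2 * t * (ζ * conj ζ) / D := by
          rw [← e2]; push_cast; ring
        rw [e3]
        simp only [map_mul, Complex.conj_ofReal]
        generalize deriv f (↑t * ζ) = A at hne ⊢
        generalize deriv (deriv f) (↑t * ζ) = A2
        field_simp
      rw [e, Complex.sub_re, Complex.ofReal_re]
    rw [h1]
    refine (Complex.abs_re_le_norm _).trans ?_
    rw [norm_mul, norm_div, norm_mul, Complex.norm_real, Real.norm_eq_abs, abs_of_pos hDp]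
    have hfp : 0 < ‖deriv f (t * ζ)‖ := norm_pos_iff.2 hne
    calc ‖ζ‖ / (D * ‖deriv f (t * ζ)‖) * _ ≤ ‖ζ‖ / (D * ‖deriv f (t * ζ)‖) *
          (4 * ‖deriv f (t * ζ)‖) := by gcongr
      _ = 4 * ‖ζ‖ / D := by field_simp

/-- comparison function and its derivative -/
theorem hasDerivAt_cmp {r t : ℝ} (hr : 0 ≤ r) (hr1 : r < 1) (ht : 0 ≤ t) (ht1 : t ≤ 1) (c : ℝ) :
    HasDerivAt (fun s : ℝ => c * (2 * (Real.log (1 + s * r) - Real.log (1 - s * r)))
        - Real.log (1 - (s * r) ^ 2))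
      (c * (4 * r / (1 - (t * r) ^ 2)) + 2 * t * r ^ 2 / (1 - (t * r) ^ 2)) t := by
  have htr : t * r < 1 := by nlinarith
  have htr0 : 0 ≤ t * r := by positivity
  have h1 : (1 + t * r) ≠ 0 := by positivity
  have h2 : (1 - t * r) ≠ 0 := by linarith
  have h3 : (1 - (t * r) ^ 2) ≠ 0 := by
    have : 1 - (t * r) ^ 2 = (1 - t * r) * (1 + t * r) := by ring
    rw [this]; exact mul_ne_zero h2 h1
  have d0 : HasDerivAt (fun s : ℝ => s * r) r t := by simpa using (hasDerivAt_id t).mul_const r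
  have d1 := (d0.const_add 1).log h1
  have d2 := (d0.const_sub 1).log h2
  have d3 := ((d0.fun_pow 2).const_sub 1).log h3
  have d4 := (((d1.fun_sub d2).const_mul 2).const_mul c).fun_sub d3
  refine d4.congr_deriv ?_
  have h4 : 1 - (t * r) ^ 2 = (1 - t * r) * (1 + t * r) := by ring
  rw [h4]
  obtain ⟨x, hx⟩ : ∃ x, x = t * r := ⟨_, rfl⟩
  have e5 : 2 * t * r ^ 2 = 2 * x * r := by rw [hx]; ring
  rw [e5]
  rw [← hx] at h1 h2 ⊢
  field_simp
  ring

theorem distortion_log {f : ℂ → ℂ} (hf : DifferentiableOn ℂ f (ball 0 1))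
    (hinj : InjOn f (ball 0 1)) {ζ : ℂ} (hζ : ‖ζ‖ < 1) {t : ℝ} (ht : 0 ≤ t) (ht1 : t ≤ 1) :
    |Real.log ‖deriv f (t * ζ)‖ - Real.log ‖deriv f 0‖ + Real.log (1 - (t * ‖ζ‖) ^ 2)| ≤
      2 * (Real.log (1 + t * ‖ζ‖) - Real.log (1 - t * ‖ζ‖)) := by
  have hr0 := norm_nonneg ζ
  have key : ∀ c : ℝ, (c = 1 ∨ c = -1) →
      c * (Real.log ‖deriv f (t * ζ)‖ - Real.log ‖deriv f 0‖ + Real.log (1 - (t * ‖ζ‖) ^ 2)) ≤
      2 * (Real.log (1 + t * ‖ζ‖) - Real.log (1 - t * ‖ζ‖)) := by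
    intro c hc
    set G : ℝ → ℝ := fun s => c * (Real.log ‖deriv f (s * ζ)‖ -
      (c * (2 * (Real.log (1 + s * ‖ζ‖) - Real.log (1 - s * ‖ζ‖)))
        - Real.log (1 - (s * ‖ζ‖) ^ 2))) with hG
    have hGd : ∀ s ∈ Icc (0:ℝ) 1, HasDerivAt G
        (c * ((ζ * deriv (deriv f) (s * ζ) / deriv f (s * ζ)).re -
        (c * (4 * ‖ζ‖ / (1 - (s * ‖ζ‖) ^ 2)) + 2 * s * ‖ζ‖ ^ 2 / (1 - (s * ‖ζ‖) ^ 2)))) s := by
      intro s hs
      exact ((radial_deriv hf hinj hζ hs.1 hs.2).1.sub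
        (hasDerivAt_cmp hr0 hζ hs.1 hs.2 c)).const_mul c
    have hanti : AntitoneOn G (Icc 0 1) := by
      apply antitoneOn_of_deriv_nonpos (convex_Icc 0 1)
      · exact fun s hs => (hGd s hs).continuousAt.continuousWithinAt
      · intro s hs
        rw [interior_Icc] at hs
        exact (hGd s ⟨hs.1.le, hs.2.le⟩).differentiableAt.differentiableWithinAt
      · intro s hs
        rw [interior_Icc] at hs
        rw [(hGd s ⟨hs.1.le, hs.2.le⟩).deriv]
        have hb := (radial_deriv hf hinj hζ hs.1.le hs.2.le).2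
        rw [abs_le] at hb
        rcases hc with rfl | rfl
        · linarith [hb.2]
        · linarith [hb.1]
    have h1 := hanti ⟨le_refl 0, zero_le_one⟩ ⟨ht, ht1⟩ ht
    have h0 : G 0 = c * Real.log ‖deriv f 0‖ := by
      simp [hG]
    rw [h0] at h1
    simp only [hG] at h1
    rcases hc with rfl | rfl
    · linarith
    · linarith
  rw [abs_le]
  constructor
  · have := key (-1) (Or.inr rfl); linarith
  · have := key 1 (Or.inl rfl); linarith

/-- Koebe distortion, upper bound: `(1 - r^2) |f'(ζ)| ≤ ((1+r)/(1-r))^2 |f'(0)|`. -/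
theorem distortion_upper {f : ℂ → ℂ} (hf : DifferentiableOn ℂ f (ball 0 1))
    (hinj : InjOn f (ball 0 1)) {ζ : ℂ} (hζ : ‖ζ‖ < 1) :
    (1 - ‖ζ‖ ^ 2) * ‖deriv f ζ‖ ≤ ((1 + ‖ζ‖) / (1 - ‖ζ‖)) ^ 2 * ‖deriv f 0‖ := by
  have hr0 := norm_nonneg ζ
  have h := distortion_log hf hinj hζ zero_le_one le_rfl
  simp only [Complex.ofReal_one, one_mul] at h
  have hne : deriv f ζ ≠ 0 :=
    Crest.Agent.Lib.deriv_ne_zero_of_injOn isOpen_ball hf hinj
      (by rwa [mem_ball_zero_iff])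
  have hne0 : deriv f 0 ≠ 0 :=
    Crest.Agent.Lib.deriv_ne_zero_of_injOn isOpen_ball hf hinj (mem_ball_self one_pos)
  have p1 : 0 < ‖deriv f ζ‖ := norm_pos_iff.2 hne
  have p2 : 0 < ‖deriv f 0‖ := norm_pos_iff.2 hne0
  have p3 : 0 < 1 - ‖ζ‖ ^ 2 := by nlinarith
  have p4 : 0 < 1 - ‖ζ‖ := by linarith
  have p5 : 0 < 1 + ‖ζ‖ := by linarith
  rw [← Real.log_le_log_iff (by positivity) (by positivity), Real.log_mul p3.ne' p1.ne',
    Real.log_mul (by positivity) p2.ne', Real.log_pow, Real.log_div p5.ne' p4.ne']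
  push_cast
  rw [abs_le] at h
  linarith [h.2]

/-- Koebe distortion, lower bound. -/
theorem distortion_lower {f : ℂ → ℂ} (hf : DifferentiableOn ℂ f (ball 0 1))
    (hinj : InjOn f (ball 0 1)) {ζ : ℂ} (hζ : ‖ζ‖ < 1) :
    ((1 - ‖ζ‖) / (1 + ‖ζ‖)) ^ 2 * ‖deriv f 0‖ ≤ (1 - ‖ζ‖ ^ 2) * ‖deriv f ζ‖ := by
  have hr0 := norm_nonneg ζ
  have h := distortion_log hf hinj hζ zero_le_one le_rfl
  simp only [Complex.ofReal_one, one_mul] at h
  have hne : deriv f ζ ≠ 0 :=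
    Crest.Agent.Lib.deriv_ne_zero_of_injOn isOpen_ball hf hinj
      (by rwa [mem_ball_zero_iff])
  have hne0 : deriv f 0 ≠ 0 :=
    Crest.Agent.Lib.deriv_ne_zero_of_injOn isOpen_ball hf hinj (mem_ball_self one_pos)
  have p1 : 0 < ‖deriv f ζ‖ := norm_pos_iff.2 hne
  have p2 : 0 < ‖deriv f 0‖ := norm_pos_iff.2 hne0
  have p3 : 0 < 1 - ‖ζ‖ ^ 2 := by nlinarith
  have p4 : 0 < 1 - ‖ζ‖ := by linarith
  have p5 : 0 < 1 + ‖ζ‖ := by linarith
  rw [← Real.log_le_log_iff (by positivity) (by positivity), Real.log_mul p3.ne' p1.ne',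
    Real.log_mul (by positivity) p2.ne', Real.log_pow, Real.log_div p4.ne' p5.ne']
  push_cast
  rw [abs_le] at h
  linarith [h.1]

/-- growth, upper bound -/
theorem growth_upper {f : ℂ → ℂ} (hf : DifferentiableOn ℂ f (ball 0 1))
    (hinj : InjOn f (ball 0 1)) {ζ : ℂ} (hζ : ‖ζ‖ < 1) :
    ‖f ζ - f 0‖ ≤ ‖deriv f 0‖ * (‖ζ‖ / (1 - ‖ζ‖) ^ 2) := by
  have hr0 := norm_nonneg ζ
  set r := ‖ζ‖ with hr
  set F : ℝ → ℂ := fun t => f (t * ζ) - f 0 with hF
  set Bd : ℝ → ℝ := fun t => ‖deriv f 0‖ * (t * r / (1 - t * r) ^ 2) with hBd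
  have hmem : ∀ t ∈ Icc (0:ℝ) 1, (t : ℂ) * ζ ∈ ball (0:ℂ) 1 ∧ ‖(t:ℂ) * ζ‖ = t * r ∧
      0 < 1 - t * r ∧ 0 ≤ t * r := by
    intro t ht
    have htz : ‖(t : ℂ) * ζ‖ = t * r := by
      rw [norm_mul, Complex.norm_real, Real.norm_eq_abs, abs_of_nonneg ht.1]
    have h2 : t * r < 1 := by nlinarith [ht.1, ht.2]
    exact ⟨by rw [mem_ball_zero_iff, htz]; exact h2, htz, by linarith, mul_nonneg ht.1 hr0⟩
  have hFd : ∀ t ∈ Icc (0:ℝ) 1, HasDerivAt F (deriv f (t * ζ) * ζ) t := by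
    intro t ht
    have h1 : HasDerivAt f (deriv f (t * ζ)) (t * ζ) :=
      (hf.differentiableAt (isOpen_ball.mem_nhds (hmem t ht).1)).hasDerivAt
    have h2 : HasDerivAt (fun s : ℝ => (s : ℂ) * ζ) ζ t := by
      simpa using (Complex.ofRealCLM.hasDerivAt (x := t)).mul_const ζ
    exact (HasDerivAt.comp (h₂ := f) (h := fun s : ℝ => (s : ℂ) * ζ) t h1 h2).sub_const _
  have hBdd : ∀ t ∈ Icc (0:ℝ) 1, HasDerivAt Bd
      (‖deriv f 0‖ * (r * (1 + t * r) / (1 - t * r) ^ 3)) t := by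
    intro t ht
    have h1 := (hmem t ht).2.2.1
    have d0 : HasDerivAt (fun s : ℝ => s * r) r t := by simpa using (hasDerivAt_id t).mul_const r
    have d1 := (d0.fun_div ((d0.const_sub 1).fun_pow 2) (by positivity)).const_mul ‖deriv f 0‖
    refine d1.congr_deriv ?_
    obtain ⟨x, hx⟩ : ∃ x, x = t * r := ⟨_, rfl⟩
    rw [← hx] at h1 ⊢
    have h2 : 1 - x ≠ 0 := h1.ne'
    field_simp
    ring
  have key : ∀ ⦃x⦄, x ∈ Icc (0:ℝ) 1 → ‖F x‖ ≤ Bd x := by
    refine image_norm_le_of_norm_deriv_right_le_deriv_boundary'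
      (f' := fun t => deriv f (t * ζ) * ζ)
      (B' := fun t => ‖deriv f 0‖ * (r * (1 + t * r) / (1 - t * r) ^ 3))
      (fun t ht => (hFd t ht).continuousAt.continuousWithinAt)
      (fun t ht => (hFd t ⟨ht.1, le_of_lt ht.2⟩).hasDerivWithinAt)
      (by simp [hF, hBd])
      (fun t ht => (hBdd t ht).continuousAt.continuousWithinAt)
      (fun t ht => (hBdd t ⟨ht.1, le_of_lt ht.2⟩).hasDerivWithinAt) ?_
    · intro t ht
      obtain ⟨m1, m2, m3, m4⟩ := hmem t ⟨ht.1, le_of_lt ht.2⟩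
      have h := distortion_upper hf hinj (ζ := t * ζ) (by rwa [mem_ball_zero_iff] at m1)
      rw [m2] at h
      rw [norm_mul, ← hr]
      have e1 : 1 - (t * r) ^ 2 = (1 - t * r) * (1 + t * r) := by ring
      have h3 : ‖deriv f (t * ζ)‖ ≤ ‖deriv f 0‖ * ((1 + t * r) / (1 - t * r) ^ 3) := by
        rw [e1] at h
        have p5 : 0 < 1 + t * r := by linarith
        rw [← mul_le_mul_iff_of_pos_left (mul_pos m3 p5)]
        refine h.trans (le_of_eq ?_)
        field_simp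
      calc ‖deriv f (t * ζ)‖ * r ≤ ‖deriv f 0‖ * ((1 + t * r) / (1 - t * r) ^ 3) * r := by gcongr
        _ = _ := by ring
  have := key (x := 1) ⟨zero_le_one, le_rfl⟩
  simpa [hF, hBd] using this

/-- growth, lower bound (with the constant 1/4) -/
theorem growth_lower {f : ℂ → ℂ} (hf : DifferentiableOn ℂ f (ball 0 1))
    (hinj : InjOn f (ball 0 1)) {ζ : ℂ} (hζ : ‖ζ‖ < 1) :
    ‖deriv f 0‖ / 4 * ‖ζ‖ ≤ ‖f ζ - f 0‖ := by
  have h0m : (0:ℂ) ∈ ball (0:ℂ) 1 := mem_ball_self one_pos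
  have hne0 : deriv f 0 ≠ 0 :=
    Crest.Agent.Lib.deriv_ne_zero_of_injOn isOpen_ball hf hinj h0m
  have p2 : 0 < ‖deriv f 0‖ := norm_pos_iff.2 hne0
  by_cases hbig : ‖deriv f 0‖ / 4 ≤ ‖f ζ - f 0‖
  · calc ‖deriv f 0‖ / 4 * ‖ζ‖ ≤ ‖deriv f 0‖ / 4 * 1 := by gcongr
      _ ≤ _ := by rw [mul_one]; exact hbig
  push Not at hbig
  have hsub := koebe_quarter hf hinj
  set R := ‖deriv f 0‖ / 4 with hR
  have hRp : 0 < R := by positivity
  set g : ℂ → ℂ := Function.invFunOn f (ball 0 1) with hg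
  have hgf : ∀ z ∈ ball (0:ℂ) 1, g (f z) = z := fun z hz => hinj.leftInvOn_invFunOn hz
  have hgd : DifferentiableOn ℂ g (f '' ball 0 1) :=
    Crest.Agent.Lib.differentiableOn_inverse_of_injOn isOpen_ball hf hinj hgf
  have hmaps : MapsTo g (ball (f 0) R) (closedBall (g (f 0)) 1) := by
    intro w hw
    obtain ⟨z, hz, rfl⟩ := hsub hw
    rw [hgf z hz, hgf 0 h0m]
    exact ball_subset_closedBall hz
  have hw : f ζ ∈ ball (f 0) R := by rw [mem_ball, dist_eq_norm]; exact hbig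
  have h := Complex.dist_le_div_mul_dist_of_mapsTo_ball (R₂ := 1) (hgd.mono hsub) hmaps hw
  rw [hgf 0 h0m, hgf ζ (by rwa [mem_ball_zero_iff]), dist_zero_right, dist_eq_norm] at h
  rw [one_div, inv_mul_eq_div, le_div_iff₀ hRp] at h
  linarith

end Crest.Agent.R162.KBD
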