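import Mathlib
import Crest.Agent.R162.LB0D

/-!
Row 162 (S0243), lower bound, node LB0 (extension, helper786): the facts of `LB0.Geo` up to
`y ≤ 20 ρ₁` (the last window `2^k ≤ ρ₁ < 2^{k+1}` reaches times with `ρ_t < 2 ρ₁`).
-/

set_option autoImplicit false

open MeasureTheory Set Filter Topology
open scoped ENNReal NNReal

namespace Crest.Agent.R162.LB0

open Crest.Agent.R162.KB1
open Crest.Agent.R162

/-- the facts about the old geodesic, up to `20 ρ₁` -/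
structure Geo20 (p : LB.Par) (f : ℂ → ℂ) : Prop where
  near : ∀ y : ℝ, 0 < y → y ≤ 20 * p.rho1 f → ‖f (y * Complex.I) - p.x f‖ ≤ p.u0 (p.x f) / 32
  vv_le : ∀ y : ℝ, 0 < y → y ≤ 20 * p.rho1 f → LB.vv p.u0 f y ≤ 1000 * p.K4 ^ 2 * p.θ
  vv_le' : ∀ y : ℝ, 0 < y → y ≤ 20 * p.rho1 f → LB.vv p.u0 f y ≤ 1 / 100
  ups_le : ∀ y : ℝ, 0 < y → y ≤ 20 * p.rho1 f →
    ups f (y * Complex.I) ≤ p.u0 (p.x f) / 90
  u0_near : ∀ y : ℝ, 0 < y → y ≤ 20 * p.rho1 f →
    31 / 32 * p.u0 (p.x f) ≤ p.u0 (f (y * Complex.I)) ∧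
      p.u0 (f (y * Complex.I)) ≤ 33 / 32 * p.u0 (p.x f)
  norm_sub : ∀ y y' : ℝ, 0 < y → y ≤ 20 * p.rho1 f → 0 < y' → y' ≤ 20 * p.rho1 f →
    ‖f (y * Complex.I) - f (y' * Complex.I)‖ ≤ p.u0 (p.x f) / 16
  Jv_le : LB.Jv p.u0 p.q f (20 * p.rho1 f) ≤ ENNReal.ofReal (p.K3 + Real.log (20 * p.K4))

theorem Geo.to20 {p : LB.Par} {f : ℂ → ℂ} (g : Geo p f) (hA : p.Adm) (hc : Small p)
    (h5 : 100000 * p.K4 ^ 2 * p.θ ≤ 1)
    (hf : DifferentiableOn ℂ f Hs) (hfi : InjOn f Hs) : Geo20 p f := by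
  have hρ := g.rho_pos
  have hY : 0 < 10 * p.rho1 f := by positivity
  have hux : 1 ≤ p.u0 (p.x f) := hA.one_le _
  have hK4 := hc.K4_ge
  have hθ := hc.θ_pos
  have hA0 : 0 ≤ p.K4 ^ 2 * p.θ := by positivity
  -- the point `Y = 10 ρ₁`
  have hvY := g.vv_le (10 * p.rho1 f) hY le_rfl
  obtain ⟨huY1, huY2⟩ := g.u0_near (10 * p.rho1 f) hY le_rfl
  have huY0 : 0 < p.u0 (f (((10 * p.rho1 f : ℝ) : ℂ) * Complex.I)) :=
    zero_lt_one.trans_le (hA.one_le _)
  have hupsY : ups f (((10 * p.rho1 f : ℝ) : ℂ) * Complex.I) ≤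
      104 * (p.K4 ^ 2 * p.θ) * p.u0 (p.x f) := by
    have h1 : ups f (((10 * p.rho1 f : ℝ) : ℂ) * Complex.I) =
        LB.vv p.u0 f (10 * p.rho1 f) * p.u0 (f (((10 * p.rho1 f : ℝ) : ℂ) * Complex.I)) := by
      unfold LB.vv
      field_simp
    rw [h1]
    calc LB.vv p.u0 f (10 * p.rho1 f) * p.u0 (f (((10 * p.rho1 f : ℝ) : ℂ) * Complex.I))
        ≤ (102 * p.K4 ^ 2 * p.θ) * (65 / 64 * p.u0 (p.x f)) := by
          apply mul_le_mul hvY huY2 huY0.le
          positivity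
      _ ≤ 104 * (p.K4 ^ 2 * p.θ) * p.u0 (p.x f) := by
          have : 0 ≤ p.K4 ^ 2 * p.θ * p.u0 (p.x f) := by positivity
          nlinarith
  have hupsY' : ups f (((10 * p.rho1 f : ℝ) : ℂ) * Complex.I) ≤ p.u0 (p.x f) / 900 := by
    refine hupsY.trans ?_
    nlinarith
  have hups0 : 0 < ups f (((10 * p.rho1 f : ℝ) : ℂ) * Complex.I) := ups_pos hf hfi (by simpa using hρ)
  -- far part
  have hfar : ∀ y : ℝ, 10 * p.rho1 f ≤ y → y ≤ 20 * p.rho1 f →
      ‖f (y * Complex.I) - p.x f‖ ≤ p.u0 (p.x f) / 32 ∧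
      ups f (y * Complex.I) ≤ 4 * ups f (((10 * p.rho1 f : ℝ) : ℂ) * Complex.I) := by
    intro y hy1 hy2
    have hy : 0 < y := hY.trans_le hy1
    have hr : y / (10 * p.rho1 f) ≤ 2 := by rw [div_le_iff₀ hY]; linarith
    have hr0 : 0 ≤ y / (10 * p.rho1 f) := by positivity
    have hr2 : (y / (10 * p.rho1 f)) ^ 2 ≤ 4 := by nlinarith
    have h1 := norm_sub_le_up hf hfi hY hy1
    have h2 := ups_up hf hfi hY hy1
    have h3 := g.near (10 * p.rho1 f) hY le_rfl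
    refine ⟨?_, ?_⟩
    · calc ‖f (y * Complex.I) - p.x f‖
          ≤ ‖f (y * Complex.I) - f (((10 * p.rho1 f : ℝ) : ℂ) * Complex.I)‖ +
            ‖f (((10 * p.rho1 f : ℝ) : ℂ) * Complex.I) - p.x f‖ := by
            have := norm_add_le (f (y * Complex.I) - f (((10 * p.rho1 f : ℝ) : ℂ) * Complex.I))
              (f (((10 * p.rho1 f : ℝ) : ℂ) * Complex.I) - p.x f)
            simpa using this
        _ ≤ p.u0 (p.x f) / 32 := by nlinarith
    · nlinarith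
  have hnear : ∀ y : ℝ, 0 < y → y ≤ 20 * p.rho1 f →
      ‖f (y * Complex.I) - p.x f‖ ≤ p.u0 (p.x f) / 32 := by
    intro y hy hy2
    rcases le_total y (10 * p.rho1 f) with h | h
    · exact (g.near y hy h).trans (by linarith)
    · exact (hfar y h hy2).1
  have hu0 : ∀ y : ℝ, 0 < y → y ≤ 20 * p.rho1 f →
      31 / 32 * p.u0 (p.x f) ≤ p.u0 (f (y * Complex.I)) ∧
      p.u0 (f (y * Complex.I)) ≤ 33 / 32 * p.u0 (p.x f) := by
    intro y hy hy2
    have h1 := hnear y hy hy2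
    have h2 := abs_le.1 (u0_sub_le hA.lip (f (y * Complex.I)) (p.x f))
    constructor <;> linarith [h2.1, h2.2]
  have hupsle : ∀ y : ℝ, 0 < y → y ≤ 20 * p.rho1 f →
      ups f (y * Complex.I) ≤ 416 * (p.K4 ^ 2 * p.θ) * p.u0 (p.x f) := by
    intro y hy hy2
    have hnn : 0 ≤ p.K4 ^ 2 * p.θ * p.u0 (p.x f) := by positivity
    rcases le_total y (10 * p.rho1 f) with h | h
    · have h1 := g.vv_le y hy h
      have h2 := (g.u0_near y hy h).2
      have h0 : 0 < p.u0 (f (y * Complex.I)) := zero_lt_one.trans_le (hA.one_le _)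
      have h3 : ups f (y * Complex.I) = LB.vv p.u0 f y * p.u0 (f (y * Complex.I)) := by
        unfold LB.vv; field_simp
      rw [h3]
      calc LB.vv p.u0 f y * p.u0 (f (y * Complex.I))
          ≤ (102 * p.K4 ^ 2 * p.θ) * (65 / 64 * p.u0 (p.x f)) := by
            apply mul_le_mul h1 h2 h0.le
            positivity
        _ ≤ _ := by nlinarith
    · have h1 := (hfar y h hy2).2
      linarith
  refine
    { near := hnear
      vv_le := fun y hy hy2 => ?_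
      vv_le' := fun y hy hy2 => ?_
      ups_le := fun y hy hy2 => ?_
      u0_near := hu0
      norm_sub := fun y y' hy hy2 hy' hy2' => ?_
      Jv_le := ?_ }
  · have h1 := hupsle y hy hy2
    have h2 := (hu0 y hy hy2).1
    have h0 : 0 < p.u0 (f (y * Complex.I)) := zero_lt_one.trans_le (hA.one_le _)
    unfold LB.vv
    rw [div_le_iff₀ h0]
    have hnn : 0 ≤ p.K4 ^ 2 * p.θ := hA0
    calc ups f (y * Complex.I) ≤ 416 * (p.K4 ^ 2 * p.θ) * p.u0 (p.x f) := h1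
      _ ≤ 1000 * p.K4 ^ 2 * p.θ * (31 / 32 * p.u0 (p.x f)) := by
          have : 0 ≤ p.K4 ^ 2 * p.θ * p.u0 (p.x f) := by positivity
          nlinarith
      _ ≤ 1000 * p.K4 ^ 2 * p.θ * p.u0 (f (y * Complex.I)) := by
          apply mul_le_mul_of_nonneg_left h2
          positivity
  · have h1 := hupsle y hy hy2
    have h2 := (hu0 y hy hy2).1
    have h0 : 0 < p.u0 (f (y * Complex.I)) := zero_lt_one.trans_le (hA.one_le _)
    unfold LB.vv
    rw [div_le_iff₀ h0]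
    nlinarith
  · have h1 := hupsle y hy hy2
    nlinarith
  · have h3 := hnear y hy hy2
    have h4 := hnear y' hy' hy2'
    calc ‖f (y * Complex.I) - f (y' * Complex.I)‖
        = ‖(f (y * Complex.I) - p.x f) - (f (y' * Complex.I) - p.x f)‖ := by ring_nf
      _ ≤ ‖f (y * Complex.I) - p.x f‖ + ‖f (y' * Complex.I) - p.x f‖ := norm_sub_le _ _
      _ ≤ _ := by linarith
  · have h1 := Jv_le_add (q := p.q) hf hfi hA.one_le hc.q_pos hY
      (show 10 * p.rho1 f ≤ 20 * p.rho1 f by linarith)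
    have h2 : Real.log (20 * p.rho1 f / (10 * p.rho1 f)) = Real.log 2 := by
      congr 1; field_simp; norm_num
    have h3 : Real.log (20 * p.K4) = Real.log (10 * p.K4) + Real.log 2 := by
      rw [← Real.log_mul (by positivity) (by norm_num)]; congr 1; ring
    have hlog : 0 ≤ Real.log (10 * p.K4) := Real.log_nonneg (by linarith)
    rw [h3, ← add_assoc, ENNReal.ofReal_add (by have := hc.K3_pos; linarith)
      (Real.log_nonneg (by norm_num))]
    rw [h2] at h1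
    exact h1.trans (add_le_add g.Jv_le le_rfl)

/-- `θ` can be chosen small after `K₃`, `K₄`, `q`. -/
theorem exists_theta20 {q K3 K4 : ℝ} (hq : 0 < q) (hq1 : q < 1) (hK3 : 0 < K3) (hK4 : 1 ≤ K4) :
    ∃ θ0 : ℝ, 0 < θ0 ∧ ∀ θ : ℝ, 0 < θ → θ ≤ θ0 →
      K3 * θ ^ (1 - q) ≤ 1 / 130 ∧ 3200 * K4 ^ 2 * θ ≤ 1 ∧ 100000 * K4 ^ 2 * θ ≤ 1 := by
  obtain ⟨θ0, h0, h1⟩ := exists_theta hq hq1 hK3 hK4
  have hK40 : 0 < K4 := by linarith
  refine ⟨min θ0 (1 / (100000 * K4 ^ 2)), lt_min h0 (by positivity), fun θ hθ hle => ?_⟩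
  obtain ⟨h2, h3⟩ := h1 θ hθ (hle.trans (min_le_left _ _))
  refine ⟨h2, h3, ?_⟩
  have h4 := hle.trans (min_le_right _ _)
  have : 0 < K4 := by linarith
  rw [le_div_iff₀ (by positivity)] at h4
  linarith

end Crest.Agent.R162.LB0
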