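import Mathlib

/-!
Row 162, node LB1, integral half (helper758): the change of the far part `y ≥ 10 r`
of the potential `∫ Ψ(iy) dy/y`.
-/

open MeasureTheory Set

namespace Crest.Agent.R162.LB1a

/-- the tail integral of the majorant. -/
theorem tail_majorant {r M : ℝ} (hr : 0 < r) (hM : 0 ≤ M) :
    ∫⁻ y in Ioi (10 * r), ENNReal.ofReal (M * ((y / (10 * r)) ^ (1 / 2 : ℝ) / y ^ 2)) =
      ENNReal.ofReal (M / (5 * r)) := by
  have h10 : 0 < 10 * r := by positivity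
  have hcongr : ∀ y ∈ Ioi (10 * r),
      M * ((y / (10 * r)) ^ (1 / 2 : ℝ) / y ^ 2) =
        (M * (10 * r) ^ (-(1 / 2 : ℝ))) * y ^ (-(3 / 2) : ℝ) := by
    intro y hy
    have hy0 : 0 < y := h10.trans hy
    rw [Real.div_rpow hy0.le h10.le]
    have e1 : y ^ (-(3 / 2) : ℝ) = y ^ (1 / 2 : ℝ) / y ^ 2 := by
      rw [← Real.rpow_natCast y 2, ← Real.rpow_sub hy0]
      norm_num
    rw [e1, Real.rpow_neg h10.le]
    field_simp
  have hint : IntegrableOn (fun y : ℝ => y ^ (-(3 / 2) : ℝ)) (Ioi (10 * r)) :=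
    integrableOn_Ioi_rpow_of_lt (by norm_num) h10
  have hint2 : IntegrableOn
      (fun y : ℝ => M * ((y / (10 * r)) ^ (1 / 2 : ℝ) / y ^ 2)) (Ioi (10 * r)) := by
    have h3 : IntegrableOn
        (fun y : ℝ => (M * (10 * r) ^ (-(1 / 2 : ℝ))) * y ^ (-(3 / 2) : ℝ)) (Ioi (10 * r)) :=
      hint.const_mul _
    exact h3.congr_fun (fun y hy => (hcongr y hy).symm) measurableSet_Ioi
  rw [← ofReal_integral_eq_lintegral_ofReal hint2]
  · congr 1
    rw [setIntegral_congr_fun measurableSet_Ioi hcongr, integral_const_mul,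
      integral_Ioi_rpow_of_lt (by norm_num) h10]
    have e2 : (10 * r) ^ (-(3 / 2) + 1 : ℝ) = (10 * r) ^ (-(1 / 2 : ℝ)) := by norm_num
    have e3 : (10 * r) ^ (-(1 / 2 : ℝ)) * (10 * r) ^ (-(1 / 2 : ℝ)) = (10 * r)⁻¹ := by
      rw [← Real.rpow_add h10]
      norm_num
      rw [Real.rpow_neg_one]
      field_simp
    rw [e2]
    have : M * (10 * r) ^ (-(1 / 2 : ℝ)) * (-(10 * r) ^ (-(1 / 2 : ℝ)) / (-(3 / 2) + 1)) =
        2 * M * ((10 * r) ^ (-(1 / 2 : ℝ)) * (10 * r) ^ (-(1 / 2 : ℝ))) := by ring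
    rw [this, e3]
    field_simp
    ring
  · refine (ae_restrict_iff' measurableSet_Ioi).2 (Filter.Eventually.of_forall ?_)
    intro y hy
    have hy0 : 0 < y := h10.trans hy
    simp only [Pi.zero_apply]
    positivity

/-- **LB1, far part.** -/
theorem tail {V VT : ℝ → ℝ} {r K : ℝ} (hr : 0 < r) (hK : 0 ≤ K)
    (hV : ∀ y, 10 * r ≤ y → 0 ≤ V y)
    (hgrow : ∀ y, 10 * r ≤ y → V y ≤ V (10 * r) * (y / (10 * r)) ^ (1 / 2 : ℝ))
    (hcmp : ∀ y, 10 * r ≤ y → VT y ≤ V y * (1 + K * r / y)) :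
    ∫⁻ y in Ioi (10 * r), ENNReal.ofReal (VT y / y) ≤
      (∫⁻ y in Ioi (10 * r), ENNReal.ofReal (V y / y)) + ENNReal.ofReal (K / 5 * V (10 * r)) := by
  have h10 : 0 < 10 * r := by positivity
  have hV0 : 0 ≤ V (10 * r) := hV _ le_rfl
  have hpt : ∀ y ∈ Ioi (10 * r), ENNReal.ofReal (VT y / y) ≤
      ENNReal.ofReal (V y / y) +
        ENNReal.ofReal (K * r * V (10 * r) * ((y / (10 * r)) ^ (1 / 2 : ℝ) / y ^ 2)) := by
    intro y hy
    have hy0 : 0 < y := h10.trans hy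
    have hyl : 10 * r ≤ y := le_of_lt hy
    rw [← ENNReal.ofReal_add (div_nonneg (hV y hyl) hy0.le) (by positivity)]
    apply ENNReal.ofReal_le_ofReal
    have h1 : VT y / y ≤ V y * (1 + K * r / y) / y :=
      div_le_div_of_nonneg_right (hcmp y hyl) hy0.le
    have h2 : V y * (1 + K * r / y) / y = V y / y + K * r * V y / y ^ 2 := by
      field_simp
    have h3 : K * r * V y / y ^ 2 ≤
        K * r * V (10 * r) * ((y / (10 * r)) ^ (1 / 2 : ℝ) / y ^ 2) := by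
      have h4 : K * r * V y ≤ K * r * (V (10 * r) * (y / (10 * r)) ^ (1 / 2 : ℝ)) :=
        mul_le_mul_of_nonneg_left (hgrow y hyl) (by positivity)
      calc K * r * V y / y ^ 2
          ≤ K * r * (V (10 * r) * (y / (10 * r)) ^ (1 / 2 : ℝ)) / y ^ 2 :=
            div_le_div_of_nonneg_right h4 (by positivity)
        _ = _ := by ring
    linarith
  calc ∫⁻ y in Ioi (10 * r), ENNReal.ofReal (VT y / y)
      ≤ ∫⁻ y in Ioi (10 * r), (ENNReal.ofReal (V y / y) +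
        ENNReal.ofReal (K * r * V (10 * r) * ((y / (10 * r)) ^ (1 / 2 : ℝ) / y ^ 2))) :=
        setLIntegral_mono_ae' measurableSet_Ioi (Filter.Eventually.of_forall hpt)
    _ = (∫⁻ y in Ioi (10 * r), ENNReal.ofReal (V y / y)) +
        ∫⁻ y in Ioi (10 * r),
          ENNReal.ofReal (K * r * V (10 * r) * ((y / (10 * r)) ^ (1 / 2 : ℝ) / y ^ 2)) := by
        rw [lintegral_add_right]
        fun_prop
    _ = _ := by
        rw [tail_majorant hr (by positivity : 0 ≤ K * r * V (10 * r))]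
        congr 2
        field_simp

/-- splitting `(0, ∞) = (0, a] ∪ (a, ∞)`. -/
theorem split {f : ℝ → ENNReal} {a : ℝ} (ha : 0 ≤ a) :
    ∫⁻ y in Ioi (0 : ℝ), f y = (∫⁻ y in Ioc 0 a, f y) + ∫⁻ y in Ioi a, f y := by
  rw [← Ioc_union_Ioi_eq_Ioi ha]
  exact lintegral_union measurableSet_Ioi (Set.Ioc_disjoint_Ioi le_rfl)

/-- **LB1, whole line**, in `ℝ≥0∞`: near part of `VT`, far part of `V`. -/
theorem whole {V VT : ℝ → ℝ} {r K : ℝ} (hr : 0 < r) (hK : 0 ≤ K)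
    (hV : ∀ y, 10 * r ≤ y → 0 ≤ V y)
    (hgrow : ∀ y, 10 * r ≤ y → V y ≤ V (10 * r) * (y / (10 * r)) ^ (1 / 2 : ℝ))
    (hcmp : ∀ y, 10 * r ≤ y → VT y ≤ V y * (1 + K * r / y)) :
    (∫⁻ y in Ioi (0 : ℝ), ENNReal.ofReal (VT y / y)) +
        ∫⁻ y in Ioc 0 (10 * r), ENNReal.ofReal (V y / y) ≤
      (∫⁻ y in Ioi (0 : ℝ), ENNReal.ofReal (V y / y)) +
        (∫⁻ y in Ioc 0 (10 * r), ENNReal.ofReal (VT y / y)) +
        ENNReal.ofReal (K / 5 * V (10 * r)) := by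
  have h10 : (0 : ℝ) ≤ 10 * r := by positivity
  rw [split (f := fun y => ENNReal.ofReal (VT y / y)) h10,
    split (f := fun y => ENNReal.ofReal (V y / y)) h10]
  have := tail hr hK hV hgrow hcmp
  calc _ ≤ (∫⁻ y in Ioc 0 (10 * r), ENNReal.ofReal (VT y / y)) +
        ((∫⁻ y in Ioi (10 * r), ENNReal.ofReal (V y / y)) + ENNReal.ofReal (K / 5 * V (10 * r))) +
        ∫⁻ y in Ioc 0 (10 * r), ENNReal.ofReal (V y / y) := by gcongr
    _ = _ := by ring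

/-- **LB1, real form.** If the potentials are finite then
`Λ_T - Λ ≤ near_T - near + (K/5) V(10 r)`. -/
theorem whole_real {V VT : ℝ → ℝ} {r K : ℝ} (hr : 0 < r) (hK : 0 ≤ K)
    (hV : ∀ y, 10 * r ≤ y → 0 ≤ V y)
    (hgrow : ∀ y, 10 * r ≤ y → V y ≤ V (10 * r) * (y / (10 * r)) ^ (1 / 2 : ℝ))
    (hcmp : ∀ y, 10 * r ≤ y → VT y ≤ V y * (1 + K * r / y))
    (hfin : ∫⁻ y in Ioi (0 : ℝ), ENNReal.ofReal (V y / y) ≠ ⊤)
    (hfinT : ∫⁻ y in Ioc 0 (10 * r), ENNReal.ofReal (VT y / y) ≠ ⊤) :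
    ∫⁻ y in Ioi (0 : ℝ), ENNReal.ofReal (VT y / y) ≠ ⊤ ∧
    (∫⁻ y in Ioi (0 : ℝ), ENNReal.ofReal (VT y / y)).toReal ≤
      (∫⁻ y in Ioi (0 : ℝ), ENNReal.ofReal (V y / y)).toReal +
        (∫⁻ y in Ioc 0 (10 * r), ENNReal.ofReal (VT y / y)).toReal -
        (∫⁻ y in Ioc 0 (10 * r), ENNReal.ofReal (V y / y)).toReal + K / 5 * V (10 * r) := by
  have h10 : (0 : ℝ) ≤ 10 * r := by positivity
  have hV0 : 0 ≤ V (10 * r) := hV _ le_rfl
  have hw := whole hr hK hV hgrow hcmp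
  have hb : ∫⁻ y in Ioc 0 (10 * r), ENNReal.ofReal (V y / y) ≠ ⊤ :=
    ne_top_of_le_ne_top hfin (lintegral_mono_set Ioc_subset_Ioi_self)
  have hR : (∫⁻ y in Ioi (0 : ℝ), ENNReal.ofReal (V y / y)) +
        (∫⁻ y in Ioc 0 (10 * r), ENNReal.ofReal (VT y / y)) +
        ENNReal.ofReal (K / 5 * V (10 * r)) ≠ ⊤ := by
    simp [hfin, hfinT]
  have hL := ne_top_of_le_ne_top hR hw
  have hT : ∫⁻ y in Ioi (0 : ℝ), ENNReal.ofReal (VT y / y) ≠ ⊤ :=
    ne_top_of_le_ne_top hL le_self_add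
  refine ⟨hT, ?_⟩
  have h := ENNReal.toReal_mono hR hw
  rw [ENNReal.toReal_add hT hb, ENNReal.toReal_add (by simp [hfin, hfinT]) (by simp),
    ENNReal.toReal_add hfin hfinT, ENNReal.toReal_ofReal (by positivity)] at h
  linarith

end Crest.Agent.R162.LB1a
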