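import Mathlib
import Crest.Agent.R162.KB1
import Crest.Agent.R162.LB1a

/-!
# Row 162, node LB1: the deterministic drop of the potential

For a univalent `f` on the half plane, `u0 ≥ 1` a `1`-Lipschitz function, `q, η > 0` with
`4 q + 2 η ≤ 1/2`, and the potential `Λ_f = ∫_0^∞ Ψ_f(iy) dy/y`, `Ψ_f = u^q m^{-q-η}`,
`m = max (u, u0 ∘ f)`: comparison of `Λ_{f ∘ F}` with `Λ_f` for a map `F` of the half plane which
is close to the identity at scales `≥ 10 r`.
-/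

set_option autoImplicit false

namespace Crest.Agent.R162.LB1

open Complex Set Metric Filter Topology MeasureTheory
open Crest.Agent.R162.KB1
open Crest.Agent.Lib Crest.Agent.Lib.Bieberbach
open scoped ComplexConjugate ENNReal

/-- `m = max (u, u0 ∘ f)` -/
noncomputable def mm (u0 : ℂ → ℝ) (f : ℂ → ℂ) (z : ℂ) : ℝ := max (ups f z) (u0 (f z))

/-- `Ψ = u^q m^{-q-η}` -/
noncomputable def Psi (u0 : ℂ → ℝ) (q η : ℝ) (f : ℂ → ℂ) (z : ℂ) : ℝ :=
  (ups f z) ^ q * (mm u0 f z) ^ (-q - η)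

/-- `v(y) = u(iy)/u0(f(iy))` -/
noncomputable def vv (u0 : ℂ → ℝ) (f : ℂ → ℂ) (y : ℝ) : ℝ := ups f (y * I) / u0 (f (y * I))

/-- the potential `Λ = ∫_0^∞ Ψ(iy) dy/y` -/
noncomputable def Lam (u0 : ℂ → ℝ) (q η : ℝ) (f : ℂ → ℂ) : ℝ≥0∞ :=
  ∫⁻ y in Ioi (0:ℝ), ENNReal.ofReal (Psi u0 q η f (y * I) / y)

/-- `J(b) = ∫_0^b min(v,1)^q dy/y` -/
noncomputable def Jv (u0 : ℂ → ℝ) (q : ℝ) (f : ℂ → ℂ) (b : ℝ) : ℝ≥0∞ :=
  ∫⁻ y in Ioc (0:ℝ) b, ENNReal.ofReal ((min (vv u0 f y) 1) ^ q / y)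

section axis

theorem im_axis (y : ℝ) : ((y : ℂ) * I).im = y := by simp

theorem phd_axis {a b : ℝ} (ha : 0 < a) (hb : 0 < b) :
    phd ((a : ℂ) * I) ((b : ℂ) * I) = |b - a| / (b + a) := by
  have h1 : (b : ℂ) * I - (a : ℂ) * I = ((b - a : ℝ) : ℂ) * I := by push_cast; ring
  have h2 : (b : ℂ) * I - conj ((a : ℂ) * I) = ((b + a : ℝ) : ℂ) * I := by
    rw [map_mul, Complex.conj_ofReal, Complex.conj_I]; push_cast; ring
  unfold phd
  rw [h1, h2, norm_mul, norm_mul, Complex.norm_I, mul_one, mul_one, Complex.norm_real,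
    Complex.norm_real, Real.norm_eq_abs, Real.norm_eq_abs, abs_of_pos (by linarith : 0 < b + a)]

variable {f : ℂ → ℂ} (hf : DifferentiableOn ℂ f Hs) (hfi : InjOn f Hs) {a b : ℝ}
include hf hfi

theorem log_ups_axis (ha : 0 < a) (hab : a ≤ b) :
    |Real.log (ups f (b * I)) - Real.log (ups f (a * I))| ≤ 2 * Real.log (b / a) := by
  have hb : 0 < b := lt_of_lt_of_le ha hab
  have h := log_ups_lip hf hfi (z := (a : ℂ) * I) (w := (b : ℂ) * I)
    (by rw [im_axis]; exact ha) (by rw [im_axis]; exact hb)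
  rw [phd_axis ha hb, abs_of_nonneg (by linarith : (0:ℝ) ≤ b - a)] at h
  have e : (1 + (b - a) / (b + a)) / (1 - (b - a) / (b + a)) = b / a := by
    have : b + a ≠ 0 := by positivity
    have h2 : 1 - (b - a) / (b + a) = 2 * a / (b + a) := by field_simp; ring
    have h3 : 1 + (b - a) / (b + a) = 2 * b / (b + a) := by field_simp; ring
    rw [h2, h3]
    field_simp
  rwa [e] at h

theorem dist_axis_left (ha : 0 < a) (hab : a ≤ b) :
    ‖f (b * I) - f (a * I)‖ ≤ ups f (a * I) * (((b / a) ^ 2 - 1) / 2) := by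
  have hb : 0 < b := lt_of_lt_of_le ha hab
  have h := norm_sub_le_ups hf hfi (z := (a : ℂ) * I) (w := (b : ℂ) * I)
    (by rw [im_axis]; exact ha) (by rw [im_axis]; exact hb)
  rw [phd_axis ha hb, abs_of_nonneg (by linarith : (0:ℝ) ≤ b - a)] at h
  refine h.trans (le_of_eq ?_)
  have h0 : b + a ≠ 0 := by positivity
  have h2 : 1 - (b - a) / (b + a) = 2 * a / (b + a) := by field_simp; ring
  rw [h2]
  field_simp
  ring

theorem dist_axis_right (ha : 0 < a) (hab : a ≤ b) :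
    ‖f (a * I) - f (b * I)‖ ≤ ups f (b * I) * (((b / a) ^ 2 - 1) / 2) := by
  have hb : 0 < b := lt_of_lt_of_le ha hab
  have h := norm_sub_le_ups hf hfi (z := (b : ℂ) * I) (w := (a : ℂ) * I)
    (by rw [im_axis]; exact hb) (by rw [im_axis]; exact ha)
  rw [phd_axis hb ha, abs_sub_comm, abs_of_nonneg (by linarith : (0:ℝ) ≤ b - a)] at h
  refine h.trans (le_of_eq ?_)
  have h0 : a + b ≠ 0 := by positivity
  have h2 : 1 - (b - a) / (a + b) = 2 * a / (a + b) := by field_simp; ring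
  rw [h2]
  field_simp
  ring

theorem ups_axis_le (ha : 0 < a) (hab : a ≤ b) :
    ups f (b * I) ≤ (b / a) ^ 2 * ups f (a * I) ∧ ups f (a * I) ≤ (b / a) ^ 2 * ups f (b * I) := by
  have hb : 0 < b := lt_of_lt_of_le ha hab
  have h := abs_le.1 (log_ups_axis hf hfi ha hab)
  have hua : 0 < ups f (a * I) := ups_pos hf hfi (by rw [im_axis]; exact ha)
  have hub : 0 < ups f (b * I) := ups_pos hf hfi (by rw [im_axis]; exact hb)
  have hba : 0 < b / a := by positivity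
  constructor
  · rw [← Real.log_le_log_iff hub (by positivity), Real.log_mul (by positivity) hua.ne',
      Real.log_pow]
    push_cast
    linarith [h.2]
  · rw [← Real.log_le_log_iff hua (by positivity), Real.log_mul (by positivity) hub.ne',
      Real.log_pow]
    push_cast
    linarith [h.1]

variable {u0 : ℂ → ℝ} (hu0 : ∀ p, 1 ≤ u0 p) (hl : ∀ p p' : ℂ, |u0 p - u0 p'| ≤ ‖p - p'‖)

omit hf hfi in
theorem mm_pos (hu0 : ∀ p, 1 ≤ u0 p) (z : ℂ) : 0 < mm u0 f z :=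
  lt_of_lt_of_le (by linarith [hu0 (f z)] : 0 < u0 (f z)) (le_max_right _ _)

include hl in
theorem mm_axis_le (ha : 0 < a) (hab : a ≤ b) :
    mm u0 f (b * I) ≤ (b / a) ^ 2 * mm u0 f (a * I) ∧
      mm u0 f (a * I) ≤ (b / a) ^ 2 * mm u0 f (b * I) := by
  have hb : 0 < b := lt_of_lt_of_le ha hab
  have hba : 1 ≤ b / a := by rw [le_div_iff₀ ha]; linarith
  have hba2 : 1 ≤ (b / a) ^ 2 := one_le_pow₀ hba
  obtain ⟨h1, h2⟩ := ups_axis_le hf hfi ha hab
  have h3 := dist_axis_left hf hfi ha hab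
  have h4 := dist_axis_right hf hfi ha hab
  have h5 := abs_le.1 (hl (f (b * I)) (f (a * I)))
  have h6 := abs_le.1 (hl (f (a * I)) (f (b * I)))
  have hua : 0 < ups f (a * I) := ups_pos hf hfi (by rw [im_axis]; exact ha)
  have hub : 0 < ups f (b * I) := ups_pos hf hfi (by rw [im_axis]; exact hb)
  have ha1 : ups f (a * I) ≤ mm u0 f (a * I) := le_max_left _ _
  have ha2 : u0 (f (a * I)) ≤ mm u0 f (a * I) := le_max_right _ _
  have hb1 : ups f (b * I) ≤ mm u0 f (b * I) := le_max_left _ _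
  have hb2 : u0 (f (b * I)) ≤ mm u0 f (b * I) := le_max_right _ _
  constructor
  · refine max_le (h1.trans (by gcongr)) ?_
    have h7 : ups f (a * I) * (((b / a) ^ 2 - 1) / 2) ≤
        mm u0 f (a * I) * (((b / a) ^ 2 - 1) / 2) :=
      mul_le_mul_of_nonneg_right ha1 (by linarith)
    nlinarith [h5.2]
  · refine max_le (h2.trans (by gcongr)) ?_
    have h7 : ups f (b * I) * (((b / a) ^ 2 - 1) / 2) ≤
        mm u0 f (b * I) * (((b / a) ^ 2 - 1) / 2) :=
      mul_le_mul_of_nonneg_right hb1 (by linarith)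
    nlinarith [h6.2]

end axis

/-- algebra: comparison of two values of `Ψ` -/
theorem psi_cmp {q η u u' m m' A B : ℝ} (hq : 0 ≤ q) (hη : 0 ≤ η) (hu : 0 < u) (hu' : 0 < u')
    (hm : 0 < m) (hm' : 0 < m') (h1 : Real.log u' ≤ Real.log u + A)
    (h2 : Real.log m ≤ Real.log m' + B) :
    u' ^ q * m' ^ (-q - η) ≤ u ^ q * m ^ (-q - η) * Real.exp (q * A + (q + η) * B) := by
  rw [Real.rpow_def_of_pos hu, Real.rpow_def_of_pos hu', Real.rpow_def_of_pos hm,
    Real.rpow_def_of_pos hm', ← Real.exp_add, ← Real.exp_add, ← Real.exp_add]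
  apply Real.exp_le_exp.2
  nlinarith [mul_le_mul_of_nonneg_left h1 hq, mul_le_mul_of_nonneg_left h2 (add_nonneg hq hη)]

/-- growth of `Ψ` along the imaginary axis -/
theorem Psi_growth {f : ℂ → ℂ} (hf : DifferentiableOn ℂ f Hs) (hfi : InjOn f Hs)
    {u0 : ℂ → ℝ} (hu0 : ∀ p, 1 ≤ u0 p) (hl : ∀ p p' : ℂ, |u0 p - u0 p'| ≤ ‖p - p'‖)
    {q η : ℝ} (hq : 0 ≤ q) (hη : 0 ≤ η) (hqη : 4 * q + 2 * η ≤ 1 / 2) {a b : ℝ}
    (ha : 0 < a) (hab : a ≤ b) :
    Psi u0 q η f (b * I) ≤ Psi u0 q η f (a * I) * (b / a) ^ (1 / 2 : ℝ) := by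
  have hb : 0 < b := lt_of_lt_of_le ha hab
  have hba : 1 ≤ b / a := by rw [le_div_iff₀ ha]; linarith
  have hlog : 0 ≤ Real.log (b / a) := Real.log_nonneg hba
  have hua : 0 < ups f (a * I) := ups_pos hf hfi (by rw [im_axis]; exact ha)
  have hub : 0 < ups f (b * I) := ups_pos hf hfi (by rw [im_axis]; exact hb)
  have hma : 0 < mm u0 f (a * I) := mm_pos hu0 _
  have hmb : 0 < mm u0 f (b * I) := mm_pos hu0 _
  have h1 : Real.log (ups f (b * I)) ≤ Real.log (ups f (a * I)) + 2 * Real.log (b / a) := by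
    linarith [(abs_le.1 (log_ups_axis hf hfi ha hab)).2]
  have h2 : Real.log (mm u0 f (a * I)) ≤ Real.log (mm u0 f (b * I)) + 2 * Real.log (b / a) := by
    have := (mm_axis_le hf hfi hl ha hab).2
    have h3 := Real.log_le_log hma this
    rw [Real.log_mul (by positivity) hmb.ne', Real.log_pow] at h3
    push_cast at h3
    linarith
  refine (psi_cmp hq hη hua hub hma hmb h1 h2).trans ?_
  unfold Psi
  refine mul_le_mul_of_nonneg_left ?_ (by positivity)
  rw [Real.rpow_def_of_pos (by linarith : 0 < b / a)]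
  apply Real.exp_le_exp.2
  nlinarith

section compare

variable {f F : ℂ → ℂ} (hf : DifferentiableOn ℂ f Hs) (hfi : InjOn f Hs)
  {r y : ℝ} (hr : 0 < r) (hy : 10 * r ≤ y)
  (hF1 : ‖F (y * I) - y * I‖ ≤ 3 * r)

include hF1 in
omit hr hy in
theorem im_F_bounds : |(F (y * I)).im - y| ≤ 3 * r := by
  have h := (abs_im_le_norm (F (y * I) - y * I)).trans hF1
  rwa [sub_im, im_axis] at h

include hr hy hF1

theorem im_F_pos : 0 < (F (y * I)).im := by
  have h := abs_le.1 (im_F_bounds hF1)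
  linarith [h.1]

theorem phd_F_le : phd (y * I) (F (y * I)) ≤ 30 / 17 * (r / y) := by
  have hy0 : 0 < y := by linarith
  have h1 : (17 / 10 : ℝ) * y ≤ ‖F (y * I) - conj ((y : ℂ) * I)‖ := by
    have e : F (y * I) - conj ((y : ℂ) * I) = ((2 * y : ℝ) : ℂ) * I + (F (y * I) - y * I) := by
      rw [map_mul, Complex.conj_ofReal, Complex.conj_I]; push_cast; ring
    rw [e]
    have h2 := norm_sub_le_norm_add (((2 * y : ℝ) : ℂ) * I) (F (y * I) - y * I)
    rw [norm_mul, Complex.norm_I, mul_one, Complex.norm_real, Real.norm_eq_abs,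
      abs_of_pos (by linarith)] at h2
    linarith
  unfold phd
  rw [div_le_iff₀ (by linarith)]
  have h3 : 30 / 17 * (r / y) * (17 / 10 * y) = 3 * r := by field_simp; ring
  calc ‖F (y * I) - y * I‖ ≤ 3 * r := hF1
    _ = 30 / 17 * (r / y) * (17 / 10 * y) := h3.symm
    _ ≤ 30 / 17 * (r / y) * ‖F (y * I) - conj ((y : ℂ) * I)‖ := by gcongr

include hf hfi in
theorem log_ups_F : |Real.log (ups f (F (y * I))) - Real.log (ups f (y * I))| ≤ 9 * (r / y) := by
  have hy0 : 0 < y := by linarith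
  have hs : r / y ≤ 1 / 10 := by rw [div_le_iff₀ hy0]; linarith
  have hs0 : 0 < r / y := by positivity
  have h := log_ups_lip hf hfi (z := (y : ℂ) * I) (w := F (y * I)) (by rw [im_axis]; exact hy0)
    (im_F_pos hr hy hF1)
  refine h.trans ?_
  set p := phd ((y : ℂ) * I) (F (y * I)) with hp
  have hp1 : p ≤ 30 / 17 * (r / y) := phd_F_le hr hy hF1
  have hp0 : 0 ≤ p := phd_nonneg _ _
  have hp2 : p ≤ 3 / 17 := by linarith
  have h1 : 0 < 1 - p := by linarith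
  have h2 : Real.log ((1 + p) / (1 - p)) ≤ (1 + p) / (1 - p) - 1 :=
    Real.log_le_sub_one_of_pos (by positivity)
  have h3 : (1 + p) / (1 - p) - 1 ≤ 9 / 2 * (r / y) := by
    rw [div_sub_one h1.ne', div_le_iff₀ h1]
    nlinarith
  linarith

include hf hfi in
theorem dist_F : ‖f (F (y * I)) - f (y * I)‖ ≤ 6 * (r / y) * ups f (y * I) := by
  have hy0 : 0 < y := by linarith
  have hs : r / y ≤ 1 / 10 := by rw [div_le_iff₀ hy0]; linarith
  have hs0 : 0 < r / y := by positivity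
  have hu : 0 < ups f (y * I) := ups_pos hf hfi (by rw [im_axis]; exact hy0)
  have h := norm_sub_le_ups hf hfi (z := (y : ℂ) * I) (w := F (y * I))
    (by rw [im_axis]; exact hy0) (im_F_pos hr hy hF1)
  refine h.trans ?_
  set p := phd ((y : ℂ) * I) (F (y * I)) with hp
  have hp1 : p ≤ 30 / 17 * (r / y) := phd_F_le hr hy hF1
  have hp0 : 0 ≤ p := phd_nonneg _ _
  have hp2 : p ≤ 3 / 17 := by linarith
  have h1 : (14 / 17 : ℝ) ≤ 1 - p := by linarith
  have h2 : (14 / 17 : ℝ) ^ 2 ≤ (1 - p) ^ 2 := by gcongr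
  have h3 : p / (1 - p) ^ 2 ≤ 3 * (r / y) := by
    rw [div_le_iff₀ (by positivity)]
    nlinarith
  nlinarith

end compare

section compare2

variable {f F : ℂ → ℂ} (hf : DifferentiableOn ℂ f Hs) (hfi : InjOn f Hs)
  (hF : DifferentiableOn ℂ F Hs) (hFi : InjOn F Hs)
  {r y : ℝ} (hr : 0 < r) (hy : 10 * r ≤ y)
  (hF1 : ‖F (y * I) - y * I‖ ≤ 3 * r) (hF2 : |Real.log ‖deriv F (y * I)‖| ≤ 8 * r ^ 2 / y ^ 2)
  {u0 : ℂ → ℝ} (hu0 : ∀ p, 1 ≤ u0 p) (hl : ∀ p p' : ℂ, |u0 p - u0 p'| ≤ ‖p - p'‖)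

include hf hF hr hy hF1 in
theorem ups_comp_eq :
    ups (f ∘ F) (y * I) = ups f (F (y * I)) * (y / (F (y * I)).im) * ‖deriv F (y * I)‖ := by
  have hy0 : 0 < y := by linarith
  have hw := im_F_pos hr hy hF1
  have h1 : HasDerivAt f (deriv f (F (y * I))) (F (y * I)) :=
    (hf.differentiableAt (isOpen_Hs.mem_nhds hw)).hasDerivAt
  have h2 : HasDerivAt F (deriv F (y * I)) (y * I) :=
    (hF.differentiableAt (isOpen_Hs.mem_nhds (by simpa using hy0))).hasDerivAt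
  rw [ups, ups, (h1.comp _ h2).deriv, norm_mul, im_axis]
  field_simp

include hf hfi hF hFi hr hy hF1 hF2 in
theorem log_ups_comp :
    |Real.log (ups (f ∘ F) (y * I)) - Real.log (ups f (y * I))| ≤ 15 * (r / y) := by
  have hy0 : 0 < y := by linarith
  have hs : r / y ≤ 1 / 10 := by rw [div_le_iff₀ hy0]; linarith
  have hs0 : 0 < r / y := by positivity
  have hw := im_F_pos hr hy hF1
  have hd : 0 < ‖deriv F (y * I)‖ :=
    norm_pos_iff.2 (deriv_ne_zero_of_injOn isOpen_Hs hF hFi (by simpa using hy0))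
  have hu : 0 < ups f (F (y * I)) := ups_pos hf hfi hw
  rw [ups_comp_eq hf hF hr hy hF1, Real.log_mul (by positivity) hd.ne',
    Real.log_mul hu.ne' (by positivity)]
  have h1 := abs_le.1 (log_ups_F hf hfi hr hy hF1)
  have h2 := abs_le.1 (im_F_bounds hF1)
  have h3 := abs_le.1 hF2
  have h4 : 8 * r ^ 2 / y ^ 2 ≤ 4 / 5 * (r / y) := by
    have : 8 * r ^ 2 / y ^ 2 = 8 * (r / y) * (r / y) := by field_simp
    rw [this]
    nlinarith
  have h5 : Real.log (y / (F (y * I)).im) ≤ 9 / 2 * (r / y) := by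
    have h6 := Real.log_le_sub_one_of_pos (x := y / (F (y * I)).im) (by positivity)
    have h7 : y / (F (y * I)).im - 1 ≤ 9 / 2 * (r / y) := by
      rw [div_sub_one hw.ne', div_le_iff₀ hw]
      have h8 : y - (F (y * I)).im ≤ 3 * r := by linarith [h2.1]
      have h9 : 7 / 10 * y ≤ (F (y * I)).im := by linarith [h2.1]
      have h10 : 9 / 2 * (r / y) * (7 / 10 * y) ≤ 9 / 2 * (r / y) * (F (y * I)).im := by gcongr
      have h11 : 9 / 2 * (r / y) * (7 / 10 * y) = 63 / 20 * r := by field_simp; ring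
      linarith
    linarith
  have h6 : -(3 * (r / y)) ≤ Real.log (y / (F (y * I)).im) := by
    have e : Real.log (y / (F (y * I)).im) = - Real.log ((F (y * I)).im / y) := by
      rw [← Real.log_inv, inv_div]
    have h7 := Real.log_le_sub_one_of_pos (x := (F (y * I)).im / y) (by positivity)
    have h8 : (F (y * I)).im / y - 1 ≤ 3 * (r / y) := by
      rw [div_sub_one hy0.ne', div_le_iff₀ hy0]
      have h9 : 3 * (r / y) * y = 3 * r := by field_simp
      linarith [h2.2]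
    rw [e]; linarith
  rw [abs_le]
  constructor <;> linarith [h1.1, h1.2, h3.1, h3.2]

include hf hfi hF hFi hr hy hF1 hF2 hu0 hl in
theorem log_mm_comp :
    Real.log (mm u0 f (y * I)) ≤ Real.log (mm u0 (f ∘ F) (y * I)) + 30 * (r / y) := by
  have hy0 : 0 < y := by linarith
  have hs : r / y ≤ 1 / 10 := by rw [div_le_iff₀ hy0]; linarith
  have hs0 : 0 < r / y := by positivity
  have hw := im_F_pos hr hy hF1
  have hd : 0 < ‖deriv F (y * I)‖ :=
    norm_pos_iff.2 (deriv_ne_zero_of_injOn isOpen_Hs hF hFi (by simpa using hy0))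
  have hu : 0 < ups f (y * I) := ups_pos hf hfi (by rw [im_axis]; exact hy0)
  have huT : 0 < ups (f ∘ F) (y * I) := by
    rw [ups_comp_eq hf hF hr hy hF1]
    have := ups_pos hf hfi hw
    positivity
  have hm : 0 < mm u0 f (y * I) := mm_pos hu0 _
  have hmT : 0 < mm u0 (f ∘ F) (y * I) := mm_pos hu0 _
  have h1 := abs_le.1 (log_ups_comp hf hfi hF hFi hr hy hF1 hF2)
  have hA : ups f (y * I) ≤ Real.exp (15 * (r / y)) * ups (f ∘ F) (y * I) := by
    rw [← Real.log_le_log_iff hu (by positivity), Real.log_mul (by positivity) huT.ne',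
      Real.log_exp]
    linarith [h1.1]
  have hm1 : ups (f ∘ F) (y * I) ≤ mm u0 (f ∘ F) (y * I) := le_max_left _ _
  have hm2 : u0 (f (F (y * I))) ≤ mm u0 (f ∘ F) (y * I) := le_max_right _ _
  have hexp : Real.exp (15 * (r / y)) ≤ 5 := by
    have h2 : Real.exp (15 * (r / y)) ≤ Real.exp (3 / 2) := Real.exp_le_exp.2 (by linarith)
    have h3 : Real.exp (3 / 2) ^ 2 = Real.exp 1 ^ 3 := by
      rw [← Real.exp_nat_mul, ← Real.exp_nat_mul]; norm_num
    have h4 : Real.exp 1 < 2.7182818286 := Real.exp_one_lt_d9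
    have h5 : Real.exp 1 ^ 3 ≤ 2.7182818286 ^ 3 := by gcongr
    have h6 : Real.exp (3 / 2) ^ 2 ≤ 5 ^ 2 := by rw [h3]; exact h5.trans (by norm_num)
    have h7 : Real.exp (3 / 2) ≤ 5 := by
      apply le_of_sq_le_sq _ (by norm_num)
      exact h6
    linarith
  have key : mm u0 f (y * I) ≤ Real.exp (30 * (r / y)) * mm u0 (f ∘ F) (y * I) := by
    refine max_le ?_ ?_
    · refine hA.trans ?_
      gcongr
      norm_num
    · have h5 := dist_F hf hfi hr hy hF1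
      have h6 := (abs_le.1 (hl (f (F (y * I))) (f (y * I)))).1
      have h7 : ups f (y * I) ≤ 5 * mm u0 (f ∘ F) (y * I) := by
        refine hA.trans ?_
        gcongr
      have h8 : 6 * (r / y) * ups f (y * I) ≤ 6 * (r / y) * (5 * mm u0 (f ∘ F) (y * I)) := by
        gcongr
      have h9 : 1 + 30 * (r / y) ≤ Real.exp (30 * (r / y)) := by
        linarith [Real.add_one_le_exp (30 * (r / y))]
      calc u0 (f (y * I)) ≤ (1 + 30 * (r / y)) * mm u0 (f ∘ F) (y * I) := by nlinarith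
        _ ≤ _ := by gcongr
  have h10 := Real.log_le_log hm key
  rw [Real.log_mul (by positivity) hmT.ne', Real.log_exp] at h10
  linarith

include hf hfi hF hFi hr hy hF1 hF2 hu0 hl in
/-- comparison of `Ψ` at height `y ≥ 10 r` -/
theorem Psi_comp_le {q η : ℝ} (hq : 0 ≤ q) (hη : 0 ≤ η) (hqη : 4 * q + 2 * η ≤ 1 / 2) :
    Psi u0 q η (f ∘ F) (y * I) ≤ Psi u0 q η f (y * I) * (1 + 20 * (r / y)) := by
  have hy0 : 0 < y := by linarith
  have hs : r / y ≤ 1 / 10 := by rw [div_le_iff₀ hy0]; linarith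
  have hs0 : 0 < r / y := by positivity
  have hw := im_F_pos hr hy hF1
  have hd : 0 < ‖deriv F (y * I)‖ :=
    norm_pos_iff.2 (deriv_ne_zero_of_injOn isOpen_Hs hF hFi (by simpa using hy0))
  have hu : 0 < ups f (y * I) := ups_pos hf hfi (by rw [im_axis]; exact hy0)
  have huT : 0 < ups (f ∘ F) (y * I) := by
    rw [ups_comp_eq hf hF hr hy hF1]
    have := ups_pos hf hfi hw
    positivity
  have hm : 0 < mm u0 f (y * I) := mm_pos hu0 _
  have hmT : 0 < mm u0 (f ∘ F) (y * I) := mm_pos hu0 _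
  have h1 : Real.log (ups (f ∘ F) (y * I)) ≤ Real.log (ups f (y * I)) + 15 * (r / y) := by
    linarith [(abs_le.1 (log_ups_comp hf hfi hF hFi hr hy hF1 hF2)).2]
  have h2 := log_mm_comp hf hfi hF hFi hr hy hF1 hF2 hu0 hl
  refine (psi_cmp hq hη hu huT hm hmT h1 h2).trans ?_
  unfold Psi
  refine mul_le_mul_of_nonneg_left ?_ (by positivity)
  have h3 : q * (15 * (r / y)) + (q + η) * (30 * (r / y)) ≤ 10 * (r / y) := by
    have : q * 15 + (q + η) * 30 ≤ 10 := by nlinarith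
    nlinarith
  refine (Real.exp_le_exp.2 h3).trans ?_
  have h4 : |10 * (r / y)| ≤ 1 := by rw [abs_of_nonneg (by positivity)]; linarith
  have h5 := (abs_le.1 (Real.abs_exp_sub_one_sub_id_le h4)).2
  nlinarith

end compare2

section near

variable {f : ℂ → ℂ} {u0 : ℂ → ℝ} {q η : ℝ} {x : ℂ}

theorem Psi_nonneg (hu0 : ∀ p, 1 ≤ u0 p) {z : ℂ} (hz : 0 ≤ z.im) : 0 ≤ Psi u0 q η f z := by
  unfold Psi
  have h1 : 0 ≤ ups f z := mul_nonneg hz (norm_nonneg _)
  have h2 : 0 < mm u0 f z := mm_pos hu0 z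
  positivity

/-- `a^{-η} ≤ 1.2 b^{-η}` if `a ≥ 5/6 b`, `0 ≤ η ≤ 1`. -/
theorem rpow_neg_cmp {a b t : ℝ} (ht : 0 < t) (ht1 : t ≤ 1) (hb : 0 < b) (hab : t * b ≤ a)
    (hη : 0 ≤ η) (hη1 : η ≤ 1) : a ^ (-η) ≤ t⁻¹ * b ^ (-η) := by
  have htb : 0 < t * b := by positivity
  calc a ^ (-η) ≤ (t * b) ^ (-η) := Real.rpow_le_rpow_of_nonpos htb hab (by linarith)
    _ = t ^ (-η) * b ^ (-η) := Real.mul_rpow ht.le hb.le
    _ ≤ t ^ (-1 : ℝ) * b ^ (-η) := by
        refine mul_le_mul_of_nonneg_right ?_ (by positivity)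
        exact Real.rpow_le_rpow_of_exponent_ge ht ht1 (by linarith)
    _ = _ := by rw [Real.rpow_neg_one]

/-- upper bound `Ψ ≤ min(v,1)^q u0(f)^{-η}` -/
theorem Psi_le_near (hu0 : ∀ p, 1 ≤ u0 p) (hq : 0 ≤ q) (hη : 0 ≤ η) {y : ℝ} (hy : 0 < y) :
    Psi u0 q η f (y * I) ≤ (min (vv u0 f y) 1) ^ q * (u0 (f (y * I))) ^ (-η) := by
  have hu : 0 ≤ ups f (y * I) := mul_nonneg (by rw [im_axis]; exact hy.le) (norm_nonneg _)
  have hp : 0 < u0 (f (y * I)) := by linarith [hu0 (f (y * I))]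
  have hm : 0 < mm u0 f (y * I) := mm_pos hu0 _
  have e : Psi u0 q η f (y * I) =
      (ups f (y * I) / mm u0 f (y * I)) ^ q * (mm u0 f (y * I)) ^ (-η) := by
    unfold Psi
    rw [Real.div_rpow hu hm.le, sub_eq_add_neg, Real.rpow_add hm, Real.rpow_neg hm.le q]
    ring
  rw [e]
  have h1 : ups f (y * I) / mm u0 f (y * I) ≤ min (vv u0 f y) 1 := by
    refine le_min ?_ ?_
    · unfold vv
      exact div_le_div_of_nonneg_left hu hp (le_max_right _ _)
    · rw [div_le_one hm]; exact le_max_left _ _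
  have h2 : (ups f (y * I) / mm u0 f (y * I)) ^ q ≤ (min (vv u0 f y) 1) ^ q :=
    Real.rpow_le_rpow (by positivity) h1 hq
  have h3 : (mm u0 f (y * I)) ^ (-η) ≤ (u0 (f (y * I))) ^ (-η) :=
    Real.rpow_le_rpow_of_nonpos hp (le_max_right _ _) (by linarith)
  have h4 : 0 ≤ min (vv u0 f y) 1 := le_trans (by positivity) h1
  have h5 : 0 ≤ (min (vv u0 f y) 1) ^ q := by positivity
  have h6 : 0 ≤ (mm u0 f (y * I)) ^ (-η) := by positivity
  exact mul_le_mul h2 h3 h6 h5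

/-- equality `Ψ = min(v,1)^q u0(f)^{-η}` if `v ≤ 1` -/
theorem Psi_eq_near (hu0 : ∀ p, 1 ≤ u0 p) {y : ℝ} (hy : 0 < y) (hv : vv u0 f y ≤ 1) :
    Psi u0 q η f (y * I) = (min (vv u0 f y) 1) ^ q * (u0 (f (y * I))) ^ (-η) := by
  have hu : 0 ≤ ups f (y * I) := mul_nonneg (by rw [im_axis]; exact hy.le) (norm_nonneg _)
  have hp : 0 < u0 (f (y * I)) := by linarith [hu0 (f (y * I))]
  have hv' : ups f (y * I) ≤ u0 (f (y * I)) := by
    unfold vv at hv; rwa [div_le_one hp] at hv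
  have hm : mm u0 f (y * I) = u0 (f (y * I)) := max_eq_right hv'
  rw [min_eq_left hv]
  unfold Psi vv
  rw [hm, Real.div_rpow hu hp.le, sub_eq_add_neg, Real.rpow_add hp, Real.rpow_neg hp.le q]
  ring

end near

/-- hypotheses of the step -/
structure Step (u0 : ℂ → ℝ) (f F : ℂ → ℂ) (r : ℝ) (x : ℂ) : Prop where
  r_pos : 0 < r
  F1 : ∀ y, 10 * r ≤ y → ‖F (y * I) - y * I‖ ≤ 3 * r
  F2 : ∀ y, 10 * r ≤ y → |Real.log ‖deriv F (y * I)‖| ≤ 8 * r ^ 2 / y ^ 2
  near : ∀ y, 0 < y → y ≤ 10 * r → ‖f (y * I) - x‖ ≤ u0 x / 32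
  v_le : ∀ y, 0 < y → y ≤ 10 * r → vv u0 f y ≤ 1
  tip : ∀ y, 0 < y → y ≤ 10 * r → ‖f (F (y * I)) - f ((10 * r : ℝ) * I)‖ ≤ u0 x / 16

section main

variable {u0 : ℂ → ℝ} {f F : ℂ → ℂ} {r : ℝ} {x : ℂ} {q η : ℝ}

/-- **LB1** in `ℝ≥0∞`. -/
theorem lb1 (hu0 : ∀ p, 1 ≤ u0 p) (hl : ∀ p p' : ℂ, |u0 p - u0 p'| ≤ ‖p - p'‖)
    (hq : 0 ≤ q) (hη : 0 ≤ η) (hqη : 4 * q + 2 * η ≤ 1 / 2)
    (hf : DifferentiableOn ℂ f Hs) (hfi : InjOn f Hs)
    (hF : DifferentiableOn ℂ F Hs) (hFi : InjOn F Hs) (hs : Step u0 f F r x) :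
    Lam u0 q η (f ∘ F) + ENNReal.ofReal (1 / 2 * u0 x ^ (-η)) * Jv u0 q f (10 * r) ≤
      Lam u0 q η f + ENNReal.ofReal (2 * u0 x ^ (-η)) * Jv u0 q (f ∘ F) (10 * r) +
        ENNReal.ofReal (5 * u0 x ^ (-η)) := by
  have hr := hs.r_pos
  have hux : 0 < u0 x := by linarith [hu0 x]
  have hη1 : η ≤ 1 := by linarith
  have hω : 0 < u0 x ^ (-η) := by positivity
  have h10 : 0 < 10 * r := by positivity
  have hw := LB1a.whole (V := fun y => Psi u0 q η f (y * I))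
    (VT := fun y => Psi u0 q η (f ∘ F) (y * I)) (K := 20) hr (by norm_num)
    (fun y hy => Psi_nonneg hu0 (by rw [im_axis]; linarith))
    (fun y hy => Psi_growth hf hfi hu0 hl hq hη hqη h10 hy)
    (fun y hy => by
      have := Psi_comp_le hf hfi hF hFi hr hy (hs.F1 y hy) (hs.F2 y hy) hu0 hl hq hη hqη
      rwa [← mul_div_assoc] at this)
  -- the three near terms
  have hnT : ∫⁻ y in Ioc 0 (10 * r), ENNReal.ofReal (Psi u0 q η (f ∘ F) (y * I) / y) ≤
      ENNReal.ofReal (2 * u0 x ^ (-η)) * Jv u0 q (f ∘ F) (10 * r) := by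
    unfold Jv
    rw [← lintegral_const_mul' _ _ ENNReal.ofReal_ne_top]
    refine setLIntegral_mono' measurableSet_Ioc (fun y hy => ?_)
    rw [← ENNReal.ofReal_mul (by positivity)]
    apply ENNReal.ofReal_le_ofReal
    have hy0 : 0 < y := hy.1
    have h1 := Psi_le_near (f := f ∘ F) hu0 hq hη hy0
    have h2 : 29 / 32 * u0 x ≤ u0 ((f ∘ F) (y * I)) := by
      have a1 := hs.tip y hy0 hy.2
      have a2 := hs.near (10 * r) h10 le_rfl
      have a3 := (abs_le.1 (hl (f (F (y * I))) (f ((10 * r : ℝ) * I)))).1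
      have a4 := (abs_le.1 (hl (f ((10 * r : ℝ) * I)) x)).1
      simp only [Function.comp_apply]
      linarith
    have h3 : (u0 ((f ∘ F) (y * I))) ^ (-η) ≤ (29 / 32)⁻¹ * u0 x ^ (-η) :=
      rpow_neg_cmp (by norm_num) (by norm_num) hux h2 hη hη1
    have h4 : (u0 ((f ∘ F) (y * I))) ^ (-η) ≤ 2 * u0 x ^ (-η) := by
      refine h3.trans ?_
      gcongr
      norm_num
    have hv0 : 0 ≤ vv u0 (f ∘ F) y := by
      unfold vv
      have : 0 ≤ ups (f ∘ F) (y * I) :=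
        mul_nonneg (by rw [im_axis]; exact hy0.le) (norm_nonneg _)
      have h5 := hu0 ((f ∘ F) (y * I))
      positivity
    have h6 : 0 ≤ min (vv u0 (f ∘ F) y) 1 ^ q := by
      have : 0 ≤ min (vv u0 (f ∘ F) y) 1 := le_min hv0 zero_le_one
      positivity
    rw [← mul_div_assoc]
    refine div_le_div_of_nonneg_right (h1.trans ?_) hy0.le
    calc _ ≤ min (vv u0 (f ∘ F) y) 1 ^ q * (2 * u0 x ^ (-η)) :=
          mul_le_mul_of_nonneg_left h4 h6
      _ = _ := by ring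
  have hn : ENNReal.ofReal (1 / 2 * u0 x ^ (-η)) * Jv u0 q f (10 * r) ≤
      ∫⁻ y in Ioc 0 (10 * r), ENNReal.ofReal (Psi u0 q η f (y * I) / y) := by
    unfold Jv
    rw [← lintegral_const_mul' _ _ ENNReal.ofReal_ne_top]
    refine setLIntegral_mono' measurableSet_Ioc (fun y hy => ?_)
    rw [← ENNReal.ofReal_mul (by positivity)]
    apply ENNReal.ofReal_le_ofReal
    have hy0 : 0 < y := hy.1
    rw [Psi_eq_near hu0 hy0 (hs.v_le y hy0 hy.2)]
    have hp : 0 < u0 (f (y * I)) := by linarith [hu0 (f (y * I))]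
    have h2 : 1 / 2 * u0 (f (y * I)) ≤ u0 x := by
      have a2 := hs.near y hy0 hy.2
      have a4 := (abs_le.1 (hl (f (y * I)) x)).2
      linarith
    have h3 : u0 x ^ (-η) ≤ (1 / 2)⁻¹ * u0 (f (y * I)) ^ (-η) :=
      rpow_neg_cmp (by norm_num) (by norm_num) hp h2 hη hη1
    have h4 : 1 / 2 * u0 x ^ (-η) ≤ u0 (f (y * I)) ^ (-η) := by
      have : (1 / 2 : ℝ)⁻¹ = 2 := by norm_num
      rw [this] at h3
      linarith
    have hv0 : 0 ≤ vv u0 f y := by
      unfold vv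
      have : 0 ≤ ups f (y * I) :=
        mul_nonneg (by rw [im_axis]; exact hy0.le) (norm_nonneg _)
      positivity
    have h6 : 0 ≤ min (vv u0 f y) 1 ^ q := by
      have : 0 ≤ min (vv u0 f y) 1 := le_min hv0 zero_le_one
      positivity
    rw [← mul_div_assoc]
    refine div_le_div_of_nonneg_right ?_ hy0.le
    calc _ = min (vv u0 f y) 1 ^ q * (1 / 2 * u0 x ^ (-η)) := by ring
      _ ≤ _ := mul_le_mul_of_nonneg_left h4 h6
  have hV : ENNReal.ofReal (20 / 5 * Psi u0 q η f ((10 * r : ℝ) * I)) ≤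
      ENNReal.ofReal (5 * u0 x ^ (-η)) := by
    apply ENNReal.ofReal_le_ofReal
    have h1 := Psi_le_near (f := f) hu0 hq hη h10
    have h2 : 31 / 32 * u0 x ≤ u0 (f ((10 * r : ℝ) * I)) := by
      have a2 := hs.near (10 * r) h10 le_rfl
      have a4 := (abs_le.1 (hl (f ((10 * r : ℝ) * I)) x)).1
      linarith
    have h3 : (u0 (f ((10 * r : ℝ) * I))) ^ (-η) ≤ (31 / 32)⁻¹ * u0 x ^ (-η) :=
      rpow_neg_cmp (by norm_num) (by norm_num) hux h2 hη hη1
    have hv0 : 0 ≤ vv u0 f (10 * r) := by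
      unfold vv
      have : 0 ≤ ups f ((10 * r : ℝ) * I) :=
        mul_nonneg (by rw [im_axis]; exact h10.le) (norm_nonneg _)
      have h5 := hu0 (f ((10 * r : ℝ) * I))
      positivity
    have h6 : min (vv u0 f (10 * r)) 1 ^ q ≤ 1 :=
      Real.rpow_le_one (le_min hv0 zero_le_one) (min_le_right _ _) hq
    have h7 : 0 < u0 (f ((10 * r : ℝ) * I)) := by linarith [hu0 (f ((10 * r : ℝ) * I))]
    have h8 : 0 < (u0 (f ((10 * r : ℝ) * I))) ^ (-η) := by positivity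
    have h9 : Psi u0 q η f ((10 * r : ℝ) * I) ≤ (u0 (f ((10 * r : ℝ) * I))) ^ (-η) := by
      refine h1.trans ?_
      nlinarith
    have h10 : (31 / 32 : ℝ)⁻¹ = 32 / 31 := by norm_num
    rw [h10] at h3
    linarith
  unfold Lam
  calc (∫⁻ y in Ioi (0:ℝ), ENNReal.ofReal (Psi u0 q η (f ∘ F) (y * I) / y)) +
        ENNReal.ofReal (1 / 2 * u0 x ^ (-η)) * Jv u0 q f (10 * r)
      ≤ (∫⁻ y in Ioi (0:ℝ), ENNReal.ofReal (Psi u0 q η (f ∘ F) (y * I) / y)) +
        ∫⁻ y in Ioc 0 (10 * r), ENNReal.ofReal (Psi u0 q η f (y * I) / y) := by gcongr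
    _ ≤ _ := hw
    _ ≤ _ := by gcongr

/-- **LB1**, real form. -/
theorem lb1_real (hu0 : ∀ p, 1 ≤ u0 p) (hl : ∀ p p' : ℂ, |u0 p - u0 p'| ≤ ‖p - p'‖)
    (hq : 0 ≤ q) (hη : 0 ≤ η) (hqη : 4 * q + 2 * η ≤ 1 / 2)
    (hf : DifferentiableOn ℂ f Hs) (hfi : InjOn f Hs)
    (hF : DifferentiableOn ℂ F Hs) (hFi : InjOn F Hs) (hs : Step u0 f F r x)
    (hfin : Lam u0 q η f ≠ ⊤) (hZ : Jv u0 q (f ∘ F) (10 * r) ≠ ⊤) :
    Lam u0 q η (f ∘ F) ≠ ⊤ ∧ Jv u0 q f (10 * r) ≠ ⊤ ∧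
    (Lam u0 q η (f ∘ F)).toReal - (Lam u0 q η f).toReal ≤
      u0 x ^ (-η) * (5 + 2 * (Jv u0 q (f ∘ F) (10 * r)).toReal -
        1 / 2 * (Jv u0 q f (10 * r)).toReal) := by
  have h := lb1 hu0 hl hq hη hqη hf hfi hF hFi hs
  have hux : 0 < u0 x := by linarith [hu0 x]
  have hω : 0 < u0 x ^ (-η) := by positivity
  have hR : Lam u0 q η f + ENNReal.ofReal (2 * u0 x ^ (-η)) * Jv u0 q (f ∘ F) (10 * r) +
      ENNReal.ofReal (5 * u0 x ^ (-η)) ≠ ⊤ := by
    refine ENNReal.add_ne_top.2 ⟨ENNReal.add_ne_top.2 ⟨hfin, ?_⟩, ENNReal.ofReal_ne_top⟩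
    exact ENNReal.mul_ne_top ENNReal.ofReal_ne_top hZ
  have hL := ne_top_of_le_ne_top hR h
  have h1 : Lam u0 q η (f ∘ F) ≠ ⊤ := ne_top_of_le_ne_top hL le_self_add
  have h2 : ENNReal.ofReal (1 / 2 * u0 x ^ (-η)) * Jv u0 q f (10 * r) ≠ ⊤ :=
    ne_top_of_le_ne_top hL le_add_self
  have h3 : Jv u0 q f (10 * r) ≠ ⊤ := by
    intro h4
    apply h2
    rw [h4, ENNReal.mul_top]
    exact (ENNReal.ofReal_pos.2 (by positivity)).ne'
  refine ⟨h1, h3, ?_⟩
  have h4 := ENNReal.toReal_mono hR h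
  rw [ENNReal.toReal_add h1 h2, ENNReal.toReal_add (ENNReal.add_ne_top.2 ⟨hfin,
      ENNReal.mul_ne_top ENNReal.ofReal_ne_top hZ⟩) ENNReal.ofReal_ne_top,
    ENNReal.toReal_add hfin (ENNReal.mul_ne_top ENNReal.ofReal_ne_top hZ),
    ENNReal.toReal_mul, ENNReal.toReal_mul, ENNReal.toReal_ofReal (by positivity),
    ENNReal.toReal_ofReal (by positivity), ENNReal.toReal_ofReal (by positivity)] at h4
  linarith

end main

end Crest.Agent.R162.LB1
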