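import Mathlib
import Crest.Agent.R162.LB1
import Crest.Agent.R162.FLC3

/-!
# Row 162, node LB1, with the flow map `F = ffl W T`
-/

set_option autoImplicit false

namespace Crest.Agent.R162.LB1

open Complex Set Metric Filter Topology MeasureTheory
open Crest.Agent.R162.KB1 Crest.Agent.R162.FL Crest.Agent.R162.FLC
open scoped ComplexConjugate ENNReal

variable {W : ℝ → ℝ} {T r : ℝ}

theorem differentiableOn_F (hW : ContinuousOn W (Ici 0)) (hT : 0 ≤ T) :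
    DifferentiableOn ℂ (ffl W T) Hs := differentiableOn_ffl hW hT

theorem injOn_F (hW : ContinuousOn W (Ici 0)) (hT : 0 ≤ T) : InjOn (ffl W T) Hs :=
  injOn_ffl hW hT

theorem mapsTo_F (hW : ContinuousOn W (Ici 0)) (hT : 0 ≤ T) : MapsTo (ffl W T) Hs Hs :=
  fun _ hz => ffl_im_pos hW hT hz

theorem F1_F (hW : ContinuousOn W (Ici 0)) (hT : 0 ≤ T) (hr : 0 < r) (hTr : T ≤ r ^ 2)
    (hWr : |W T| ≤ r) {y : ℝ} (hy : 10 * r ≤ y) : ‖ffl W T (y * I) - y * I‖ ≤ 3 * r :=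
  norm_ffl_I_sub_le hW hT hTr hWr (by linarith) hy

theorem F2_F (hW : ContinuousOn W (Ici 0)) (hT : 0 ≤ T) (hTr : T ≤ r ^ 2) {y : ℝ} (hy : 0 < y) :
    |Real.log ‖deriv (ffl W T) (y * I)‖| ≤ 2 * r ^ 2 / y ^ 2 := by
  have hz : 0 < ((y : ℂ) * I).im := by simpa using hy
  rw [deriv_ffl hW hT hz, Complex.norm_exp, Real.log_exp]
  exact (Complex.abs_re_le_norm _).trans (norm_integral_I_le hW hT hTr hy)

/-- the step hypotheses for the flow map -/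
theorem step_flow (hW : ContinuousOn W (Ici 0)) (hT : 0 ≤ T) (hr : 0 < r) (hTr : T ≤ r ^ 2)
    (hWr : |W T| ≤ r) {u0 : ℂ → ℝ} {f : ℂ → ℂ} {x : ℂ}
    (near : ∀ y, 0 < y → y ≤ 10 * r → ‖f (y * I) - x‖ ≤ u0 x / 32)
    (v_le : ∀ y, 0 < y → y ≤ 10 * r → vv u0 f y ≤ 1)
    (tip : ∀ y, 0 < y → y ≤ 10 * r →
      ‖f (ffl W T (y * I)) - f ((10 * r : ℝ) * I)‖ ≤ u0 x / 16) :
    Step u0 f (ffl W T) r x where
  r_pos := hr
  F1 := fun _ hy => F1_F hW hT hr hTr hWr hy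
  F2 := fun y hy => by
    have hy0 : 0 < y := by linarith
    refine (F2_F hW hT hTr hy0).trans ?_
    gcongr
    norm_num
  near := near
  v_le := v_le
  tip := tip

/-- composition of the inverse flow maps: `f_{σ+T} = f_σ ∘ F` -/
theorem ffl_add_eqOn (hW : ContinuousOn W (Ici 0)) {s u : ℝ} (hs : 0 ≤ s) (hu : 0 ≤ u) :
    EqOn (ffl W (s + u)) (ffl W s ∘ ffl (shift W s) u) Hs :=
  fun _ hz => ffl_add hW hs hu hz

/-- `ups` only depends on the germ -/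
theorem ups_congr {f g : ℂ → ℂ} (h : EqOn f g Hs) {z : ℂ} (hz : 0 < z.im) : ups f z = ups g z := by
  unfold ups
  rw [(h.eventuallyEq_of_mem (isOpen_Hs.mem_nhds hz)).deriv_eq]

theorem Psi_congr {u0 : ℂ → ℝ} {q η : ℝ} {f g : ℂ → ℂ} (h : EqOn f g Hs) {z : ℂ}
    (hz : 0 < z.im) : Psi u0 q η f z = Psi u0 q η g z := by
  unfold Psi mm
  rw [ups_congr h hz, h hz]

theorem vv_congr {u0 : ℂ → ℝ} {f g : ℂ → ℂ} (h : EqOn f g Hs) {y : ℝ} (hy : 0 < y) :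
    vv u0 f y = vv u0 g y := by
  have hz : ((y : ℂ) * I) ∈ Hs := by simpa using hy
  unfold vv
  rw [ups_congr h hz, h hz]

theorem Lam_congr {u0 : ℂ → ℝ} {q η : ℝ} {f g : ℂ → ℂ} (h : EqOn f g Hs) :
    Lam u0 q η f = Lam u0 q η g := by
  unfold Lam
  refine setLIntegral_congr_fun measurableSet_Ioi (fun y hy => ?_)
  have hz : 0 < ((y : ℂ) * I).im := by simpa using hy
  simp only [Psi_congr h hz]

theorem Jv_congr {u0 : ℂ → ℝ} {q : ℝ} {f g : ℂ → ℂ} (h : EqOn f g Hs) (b : ℝ) :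
    Jv u0 q f b = Jv u0 q g b := by
  unfold Jv
  refine setLIntegral_congr_fun measurableSet_Ioc (fun y hy => ?_)
  simp only [vv_congr h hy.1]

/-- **LB1** for the flow: `f_σ = ffl W σ`, `f_{σ+T} = ffl W (σ+T)`. -/
theorem lb1_flow {u0 : ℂ → ℝ} {q η : ℝ} {x : ℂ} {σ : ℝ} (hW : ContinuousOn W (Ici 0))
    (hσ : 0 ≤ σ) (hT : 0 ≤ T) (hr : 0 < r) (hTr : T ≤ r ^ 2)
    (hWr : |W (σ + T) - W σ| ≤ r) (hu0 : ∀ p, 1 ≤ u0 p)
    (hl : ∀ p p' : ℂ, |u0 p - u0 p'| ≤ ‖p - p'‖)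
    (hq : 0 ≤ q) (hη : 0 ≤ η) (hqη : 4 * q + 2 * η ≤ 1 / 2)
    (near : ∀ y, 0 < y → y ≤ 10 * r → ‖ffl W σ (y * I) - x‖ ≤ u0 x / 32)
    (v_le : ∀ y, 0 < y → y ≤ 10 * r → vv u0 (ffl W σ) y ≤ 1)
    (tip : ∀ y, 0 < y → y ≤ 10 * r →
      ‖ffl W (σ + T) (y * I) - ffl W σ ((10 * r : ℝ) * I)‖ ≤ u0 x / 16) :
    Lam u0 q η (ffl W (σ + T)) +
        ENNReal.ofReal (1 / 2 * u0 x ^ (-η)) * Jv u0 q (ffl W σ) (10 * r) ≤
      Lam u0 q η (ffl W σ) +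
        ENNReal.ofReal (2 * u0 x ^ (-η)) * Jv u0 q (ffl W (σ + T)) (10 * r) +
        ENNReal.ofReal (5 * u0 x ^ (-η)) := by
  have hsh := contOn_shift hW hσ
  have he := ffl_add_eqOn hW hσ hT
  rw [Lam_congr he, Jv_congr he]
  refine lb1 hu0 hl hq hη hqη (differentiableOn_F hW hσ) (injOn_F hW hσ)
    (differentiableOn_F hsh hT) (injOn_F hsh hT)
    (step_flow hsh hT hr hTr hWr near v_le (fun y hy hy' => ?_))
  have hz : ((y : ℂ) * I) ∈ Hs := by simpa using hy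
  have := tip y hy hy'
  rwa [he hz] at this

/-- **LB1** for the flow, real form. -/
theorem lb1_flow_real {u0 : ℂ → ℝ} {q η : ℝ} {x : ℂ} {σ : ℝ} (hW : ContinuousOn W (Ici 0))
    (hσ : 0 ≤ σ) (hT : 0 ≤ T) (hr : 0 < r) (hTr : T ≤ r ^ 2)
    (hWr : |W (σ + T) - W σ| ≤ r) (hu0 : ∀ p, 1 ≤ u0 p)
    (hl : ∀ p p' : ℂ, |u0 p - u0 p'| ≤ ‖p - p'‖)
    (hq : 0 ≤ q) (hη : 0 ≤ η) (hqη : 4 * q + 2 * η ≤ 1 / 2)
    (near : ∀ y, 0 < y → y ≤ 10 * r → ‖ffl W σ (y * I) - x‖ ≤ u0 x / 32)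
    (v_le : ∀ y, 0 < y → y ≤ 10 * r → vv u0 (ffl W σ) y ≤ 1)
    (tip : ∀ y, 0 < y → y ≤ 10 * r →
      ‖ffl W (σ + T) (y * I) - ffl W σ ((10 * r : ℝ) * I)‖ ≤ u0 x / 16)
    (hfin : Lam u0 q η (ffl W σ) ≠ ⊤) (hZ : Jv u0 q (ffl W (σ + T)) (10 * r) ≠ ⊤) :
    Lam u0 q η (ffl W (σ + T)) ≠ ⊤ ∧ Jv u0 q (ffl W σ) (10 * r) ≠ ⊤ ∧
    (Lam u0 q η (ffl W (σ + T))).toReal - (Lam u0 q η (ffl W σ)).toReal ≤
      u0 x ^ (-η) * (5 + 2 * (Jv u0 q (ffl W (σ + T)) (10 * r)).toReal -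
        1 / 2 * (Jv u0 q (ffl W σ) (10 * r)).toReal) := by
  have hsh := contOn_shift hW hσ
  have he := ffl_add_eqOn hW hσ hT
  rw [Lam_congr he, Jv_congr he]
  rw [Jv_congr he] at hZ
  refine lb1_real hu0 hl hq hη hqη (differentiableOn_F hW hσ) (injOn_F hW hσ)
    (differentiableOn_F hsh hT) (injOn_F hsh hT)
    (step_flow hsh hT hr hTr hWr near v_le (fun y hy hy' => ?_)) hfin hZ
  have hz : ((y : ℂ) * I) ∈ Hs := by simpa using hy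
  have := tip y hy hy'
  rwa [he hz] at this

end Crest.Agent.R162.LB1
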