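import Crest.Agent.R162.LBStepIn2
import Crest.Agent.R162.LB0D

/-!
Row 162, node STEP (helper411): the input `JBS` of the step theorem: in case B `K₃ ≤ J(10 ρ₁)`.
-/

set_option autoImplicit false

open MeasureTheory Filter Topology Set Complex
open scoped NNReal ENNReal

namespace Crest.Agent.R162.LBJB

open Crest.Agent.R162.LB Crest.Agent.R162.LBS Crest.Agent.R162.LBStep

/-- the set defining `y_x` is not empty for a start map -/
theorem bad_nonempty {p : Par} {f : ℂ → ℂ} (hθ : p.θ < 1) (hs : Start p f) :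
    (LB0.bad p.u0 p.q f p.θ p.K3).Nonempty := by
  have h := (hs.v_tendsto.eventually (lt_mem_nhds hθ)).and (eventually_gt_atTop 0)
  obtain ⟨y, hy1, hy0⟩ := h.exists
  exact ⟨y, hy0, Or.inl hy1.le⟩

theorem y_pos {p : Par} (hok : Ok p) {f : ℂ → ℂ} (hs : Start p f) : 0 < p.y f :=
  LB0.yx_pos hs.univ.diff hs.univ.inj hok.adm.lip hok.adm.one_le hok.q0 hok.θ0
    (by have := hok.θ1; linarith) (by have := hok.K3; linarith)
    ⟨1, one_pos, lt_top_iff_ne_top.2 (hs.J_ne_top 1)⟩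
    (bad_nonempty (by have := hok.θ1; linarith) hs)

theorem rho1_pos {p : Par} (hok : Ok p) {f : ℂ → ℂ} (hs : Start p f) : 0 < p.rho1 f := by
  have hy := y_pos hok hs
  have hK := hok.K4
  unfold Par.rho1
  split_ifs
  · positivity
  · positivity

theorem jbs {p : Par} (hok : Ok p) : JBS p := by
  intro f hs hB
  have hy := y_pos hok hs
  have h10 : 10 * p.rho1 f = p.y f := by
    unfold Par.rho1
    rw [if_neg hB]
    ring
  rw [h10]
  exact LB0.le_Jv_yx hs.univ.diff hs.univ.inj hok.adm.lip hok.adm.one_le hok.q0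
    (bad_nonempty (by have := hok.θ1; linarith) hs) hy (not_le.1 hB)

theorem forSmall_jbs (κ c1 q η cs K4 K3 : ℝ) : ForSmall κ c1 q η cs K4 K3 JBS :=
  ⟨1, one_pos, fun _ _ _ => ⟨1, one_pos, fun _ _ _ _ _ hok => jbs hok⟩⟩

/-- `Geo` for a start map (small constants). -/
theorem geo {p : Par} (hok : Ok p) (hc : LB0.Small p) {f : ℂ → ℂ} (hs : Start p f) :
    0 < p.y f ∧ 0 < p.rho1 f ∧ p.y f ≤ 10 * p.rho1 f ∧
    (∀ y : ℝ, 0 < y → y ≤ 10 * p.rho1 f → ‖f (y * I) - p.x f‖ ≤ p.u0 (p.x f) / 64) ∧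
    (∀ y : ℝ, 0 < y → y ≤ 10 * p.rho1 f → vv p.u0 f y ≤ 102 * p.K4 ^ 2 * p.θ) ∧
    Jv p.u0 p.q f (10 * p.rho1 f) ≤ ENNReal.ofReal (p.K3 + Real.log (10 * p.K4)) := by
  have hrho : p.rho1 f = LB0.rho1 p.u0 p.q f p.θ p.K3 p.K4 := by
    unfold LB.Par.rho1 LB0.rho1
    rfl
  obtain ⟨g1, g2, g3, g4, g5, g6⟩ := LB0.geo (K4 := p.K4) hs.univ.diff hs.univ.inj hok.adm.lip
    hok.adm.one_le hc.q_pos hc.q_lt hc.θ_pos hc.K3_pos hc.K4_ge hc.sm1 hc.sm2
    ⟨1, one_pos, lt_top_iff_ne_top.2 (hs.J_ne_top 1)⟩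
    (bad_nonempty (by have := hok.θ1; linarith) hs)
  rw [← hrho] at g2 g3 g4 g5 g6
  exact ⟨g1, g2, g3, fun y hy hy2 => g4 y hy hy2, fun y hy hy2 => g5 y hy hy2, g6⟩

end Crest.Agent.R162.LBJB
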