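import Crest.Agent.R162.LBSkel
import Crest.Agent.R162.LBStepD
import Crest.Agent.R162.LB0D
import Crest.Agent.R162.LB1F
import Crest.Agent.R162.LBJB

/-!
Row 162, node LB1S (helper411, second of helper791): the potential drop of one step in the frozen
form of `LBSkel`, with its `ForSmall` quantifiers; constants `CV = 5`, `cJ = 1/2`.
-/

set_option autoImplicit false

open MeasureTheory Filter Topology Set Complex
open scoped NNReal ENNReal

namespace Crest.Agent.R162.LB1SX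

open Crest.Agent.R162.FL Crest.Agent.R162.LB Crest.Agent.R162.LBS

/-- `ffl W 0` is the identity on the half-plane -/
theorem ffl_zero_eqOn {W : ℝ → ℝ} (hW : Drive W) : EqOn (ffl W 0) (fun z => z) KB1.Hs := by
  intro z hz
  have h1 := FLC.gfl_zero_ffl hW.cont le_rfl hz
  have h2 := FLC.gfl_ffl hW.cont le_rfl hz
  rw [h1, hW.zero] at h2
  simpa using h2

theorem st_zero_eqOn {W : ℝ → ℝ} (hW : Drive W) (f : ℂ → ℂ) : EqOn (Par.st f W 0) f KB1.Hs := by
  intro z hz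
  change f (ffl W 0 z) = f z
  rw [ffl_zero_eqOn hW hz]

/-- the old geodesic -/
theorem old {p : Par} (hok : Ok p) (hc : LB0.Small p) {f : ℂ → ℂ} (hs : Start p f) :
    LBStepD.Old p f := by
  obtain ⟨g1, g2, g3, g4, g5, g6⟩ := LBJB.geo hok hc hs
  refine ⟨fun y hy hy2 => (g4 y hy hy2).trans ?_, fun y hy hy2 => (g5 y hy hy2).trans ?_⟩
  · have h1 : 0 < p.u0 (p.x f) := lt_of_lt_of_le one_pos (hok.adm.one_le _)
    have : p.u0 (p.x f) / 64 ≤ p.u0 (p.x f) / 32 := by gcongr; norm_num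
    exact this
  · have := hc.sm2
    nlinarith

theorem lb1S {p : Par} (hok : Ok p) (hc : LB0.Small p) : LB1S 5 (1 / 2) p := by
  intro f hs W hW
  have hw : 0 ≤ p.varpi f := by
    have h1 : 0 < p.u0 (p.x f) := lt_of_lt_of_le one_pos (hok.adm.one_le _)
    unfold Par.varpi
    positivity
  rcases (T_nonneg p f W).lt_or_eq with hT | hT
  · have h := LBStepD.dL_le hok.adm hok.q0.le hok.η0.le hok.qη hs.univ.diff hs.univ.inj
      (old hok hc hs) hW.cont hT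
    refine h.trans ?_
    rw [add_assoc, mul_add, mul_one]
    refine add_le_add le_rfl ?_
    rw [add_comm]
    gcongr
    norm_num
  · rw [← hT]
    have h0 : rad W 0 = 0 := LBStepD.rad_zero hW.zero
    have hJ : Jv p.u0 p.q f (10 * rad W 0) = 0 := by
      rw [h0, mul_zero]
      unfold Jv
      simp
    have hL : p.Λ (Par.st f W 0) = p.Λ f := LB1.Lam_congr (st_zero_eqOn hW f)
    rw [hJ, mul_zero, add_zero, hL]
    exact le_self_add

theorem small_of {κ c1 q η cs K4 K3 θ ε : ℝ} {B : Set ℂ} {u0 : ℂ → ℝ} (hq : 0 < q) (hq1 : q < 1)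
    (hK3 : 0 < K3) (hK4 : 1 ≤ K4) (hη : 0 ≤ η) (hθ : 0 < θ)
    (h1 : K3 * θ ^ (1 - q) ≤ 1 / 130) (h2 : 3200 * K4 ^ 2 * θ ≤ 1) :
    LB0.Small (mkP κ c1 q η cs K4 K3 θ ε B u0) :=
  ⟨hq, hq1, hη, hθ, hK3, hK4, h1, h2⟩

/-- **LB1S with its quantifiers** -/
theorem forSmall_lb1S (κ c1 q η cs K4 K3 : ℝ) :
    ForSmall κ c1 q η cs K4 K3 (LB1S 5 (1 / 2)) := by
  by_cases h : 0 < q ∧ q < 1 ∧ 0 < K3 ∧ 1 ≤ K4
  · obtain ⟨hq, hq1, hK3, hK4⟩ := h
    obtain ⟨θ0, hθ0, hth⟩ := LB0.exists_theta hq hq1 hK3 hK4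
    refine ⟨θ0, hθ0, fun θ hθ hle => ⟨1, one_pos, fun ε _ _ B u0 hok => ?_⟩⟩
    obtain ⟨h1, h2⟩ := hth θ hθ hle
    exact lb1S hok (small_of hq hq1 hK3 hK4 hok.η0.le hθ h1 h2)
  · refine ⟨1, one_pos, fun θ hθ hle => ⟨1, one_pos, fun ε _ _ B u0 hok => absurd ?_ h⟩⟩
    have e1 : 0 < q := hok.q0
    have e2 : 4 * q + 2 * η ≤ 1 / 2 := hok.qη
    have e3 : 0 < η := hok.η0
    have e4 : 1 ≤ K3 := hok.K3
    have e5 : 1 ≤ K4 := hok.K4
    exact ⟨e1, by linarith, by linarith, e5⟩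

end Crest.Agent.R162.LB1SX
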