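import Crest.Agent.R162.LB1a

/-!
Row 162, node LB1, near part and assembly in abstract form (helper758).
`u y` stands for `Ups_f (iy)`, `w y` for `u0 (f (iy))`, `X` for `u0 x`.
-/

open MeasureTheory Set

namespace Crest.Agent.R162.LB1b

/-- the potential density `Ψ = u^q max(u,w)^(-q-η)`. -/
noncomputable def psi (q η : ℝ) (u w : ℝ) : ℝ := u ^ q * (max u w) ^ (-q - η)

theorem psi_nonneg {q η u w : ℝ} (hu : 0 ≤ u) : 0 ≤ psi q η u w := by
  unfold psi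
  have : 0 ≤ max u w := hu.trans (le_max_left _ _)
  positivity

theorem psi_eq {q η u w : ℝ} (hu : 0 < u) (hw : 0 < w) :
    psi q η u w = (min (u / w) 1) ^ q * (max u w) ^ (-η) := by
  have hm : 0 < max u w := hu.trans_le (le_max_left _ _)
  have h1 : min (u / w) 1 = u / max u w := by
    rcases le_total u w with h | h
    · rw [max_eq_right h, min_eq_left]
      exact (div_le_one hw).2 h
    · rw [max_eq_left h, min_eq_right, div_self hu.ne']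
      exact (one_le_div hw).2 h
  unfold psi
  rw [h1, Real.div_rpow hu.le hm.le, show (-q - η : ℝ) = -q + -η by ring, Real.rpow_add hm,
    Real.rpow_neg hm.le q]
  ring

theorem psi_le {q η u w X c : ℝ} (hη : 0 ≤ η) (hu : 0 < u) (hw : 0 < w) (hc : 0 < c)
    (hX : 0 < X) (h : c * X ≤ w) :
    psi q η u w ≤ c ^ (-η) * X ^ (-η) * (min (u / w) 1) ^ q := by
  rw [psi_eq hu hw, ← Real.mul_rpow hc.le hX.le, mul_comm]
  refine mul_le_mul_of_nonneg_right ?_ (by positivity)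
  exact Real.rpow_le_rpow_of_nonpos (by positivity) (h.trans (le_max_right _ _)) (by linarith)

theorem psi_le' {q η u w X c : ℝ} (hq : 0 ≤ q) (hη : 0 ≤ η) (hu : 0 < u) (hw : 0 < w)
    (hc : 0 < c) (hX : 0 < X) (h : c * X ≤ w) :
    psi q η u w ≤ c ^ (-η) * X ^ (-η) := by
  refine (psi_le hη hu hw hc hX h).trans ?_
  have h1 : (min (u / w) 1) ^ q ≤ 1 :=
    Real.rpow_le_one (by positivity) (min_le_right _ _) hq
  calc _ ≤ c ^ (-η) * X ^ (-η) * 1 := mul_le_mul_of_nonneg_left h1 (by positivity)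
    _ = _ := mul_one _

theorem le_psi {q η u w X C : ℝ} (hη : 0 ≤ η) (hu : 0 < u) (hw : 0 < w) (hC : 0 < C)
    (hX : 0 < X) (h : w ≤ C * X) (hv : u ≤ C * X) :
    C ^ (-η) * X ^ (-η) * (min (u / w) 1) ^ q ≤ psi q η u w := by
  rw [psi_eq hu hw, ← Real.mul_rpow hC.le hX.le, mul_comm]
  refine mul_le_mul_of_nonneg_left ?_ (by positivity)
  exact Real.rpow_le_rpow_of_nonpos (hu.trans_le (le_max_left _ _)) (max_le hv h) (by linarith)

/-- `J` (for the old map) and `Z'` (for the new one). -/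
noncomputable def Jn (q : ℝ) (u w : ℝ → ℝ) (a : ℝ) : ENNReal :=
  ∫⁻ y in Ioc 0 a, ENNReal.ofReal ((min (u y / w y) 1) ^ q / y)

/-- the potential `∫_0^∞ Ψ(iy) dy/y`. -/
noncomputable def Lam (q η : ℝ) (u w : ℝ → ℝ) : ENNReal :=
  ∫⁻ y in Ioi (0 : ℝ), ENNReal.ofReal (psi q η (u y) (w y) / y)

theorem near_le {q η X c a : ℝ} {u w : ℝ → ℝ} (hη : 0 ≤ η) (hu : ∀ y, 0 < y → 0 < u y)
    (hw : ∀ y, 0 < y → 0 < w y) (hc : 0 < c) (hX : 0 < X)
    (h : ∀ y, 0 < y → y ≤ a → c * X ≤ w y) :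
    ∫⁻ y in Ioc 0 a, ENNReal.ofReal (psi q η (u y) (w y) / y) ≤
      ENNReal.ofReal (c ^ (-η) * X ^ (-η)) * Jn q u w a := by
  unfold Jn
  rw [← lintegral_const_mul' _ _ ENNReal.ofReal_ne_top]
  refine setLIntegral_mono_ae' measurableSet_Ioc (Filter.Eventually.of_forall fun y hy => ?_)
  rw [← ENNReal.ofReal_mul (by positivity)]
  apply ENNReal.ofReal_le_ofReal
  rw [← mul_div_assoc]
  exact div_le_div_of_nonneg_right
    (psi_le hη (hu y hy.1) (hw y hy.1) hc hX (h y hy.1 hy.2)) hy.1.le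

theorem le_near {q η X C a : ℝ} {u w : ℝ → ℝ} (hη : 0 ≤ η) (hu : ∀ y, 0 < y → 0 < u y)
    (hw : ∀ y, 0 < y → 0 < w y) (hC : 0 < C) (hX : 0 < X)
    (h : ∀ y, 0 < y → y ≤ a → w y ≤ C * X) (hv : ∀ y, 0 < y → y ≤ a → u y ≤ C * X) :
    ENNReal.ofReal (C ^ (-η) * X ^ (-η)) * Jn q u w a ≤
      ∫⁻ y in Ioc 0 a, ENNReal.ofReal (psi q η (u y) (w y) / y) := by
  unfold Jn
  rw [← lintegral_const_mul' _ _ ENNReal.ofReal_ne_top]
  refine setLIntegral_mono_ae' measurableSet_Ioc (Filter.Eventually.of_forall fun y hy => ?_)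
  rw [← ENNReal.ofReal_mul (by positivity)]
  apply ENNReal.ofReal_le_ofReal
  rw [← mul_div_assoc]
  exact div_le_div_of_nonneg_right
    (le_psi hη (hu y hy.1) (hw y hy.1) hC hX (h y hy.1 hy.2) (hv y hy.1 hy.2)) hy.1.le

/-- **LB1, abstract form in `ℝ≥0∞`.** -/
theorem lb1 {q η X r K c C : ℝ} {u w uT wT : ℝ → ℝ} (hq : 0 ≤ q) (hη : 0 ≤ η)
    (hr : 0 < r) (hK : 0 ≤ K) (hX : 0 < X) (hc : 0 < c) (hC : 0 < C)
    (hu : ∀ y, 0 < y → 0 < u y) (hw : ∀ y, 0 < y → 0 < w y)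
    (huT : ∀ y, 0 < y → 0 < uT y) (hwT : ∀ y, 0 < y → 0 < wT y)
    (hgrow : ∀ y, 10 * r ≤ y → psi q η (u y) (w y) ≤
      psi q η (u (10 * r)) (w (10 * r)) * (y / (10 * r)) ^ (1 / 2 : ℝ))
    (hcmp : ∀ y, 10 * r ≤ y → psi q η (uT y) (wT y) ≤ psi q η (u y) (w y) * (1 + K * r / y))
    (hwlow : c * X ≤ w (10 * r))
    (hwTlow : ∀ y, 0 < y → y ≤ 10 * r → c * X ≤ wT y)
    (hwup : ∀ y, 0 < y → y ≤ 10 * r → w y ≤ C * X)
    (huup : ∀ y, 0 < y → y ≤ 10 * r → u y ≤ C * X) :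
    Lam q η uT wT + ENNReal.ofReal (C ^ (-η) * X ^ (-η)) * Jn q u w (10 * r) ≤
      Lam q η u w + ENNReal.ofReal (c ^ (-η) * X ^ (-η)) * Jn q uT wT (10 * r) +
        ENNReal.ofReal (K / 5 * (c ^ (-η) * X ^ (-η))) := by
  have h10 : 0 < 10 * r := by positivity
  have h := LB1a.whole (V := fun y => psi q η (u y) (w y)) (VT := fun y => psi q η (uT y) (wT y))
    hr hK (fun y hy => psi_nonneg (hu y (h10.trans_le hy)).le) hgrow hcmp
  calc _ ≤ Lam q η uT wT + ∫⁻ y in Ioc 0 (10 * r), ENNReal.ofReal (psi q η (u y) (w y) / y) := by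
        gcongr
        exact le_near hη hu hw hC hX hwup huup
    _ ≤ Lam q η u w + (∫⁻ y in Ioc 0 (10 * r), ENNReal.ofReal (psi q η (uT y) (wT y) / y)) +
        ENNReal.ofReal (K / 5 * psi q η (u (10 * r)) (w (10 * r))) := h
    _ ≤ _ := by
        gcongr
        · exact near_le hη huT hwT hc hX hwTlow
        · exact psi_le' hq hη (hu _ h10) (hw _ h10) hc hX hwlow

/-- **LB1, real form**: `Λ_T - Λ ≤ ϖ (K c^{-η}/5 + c^{-η} Z' - C^{-η} J)`, `ϖ = X^{-η}`. -/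
theorem lb1_real {q η X r K c C : ℝ} {u w uT wT : ℝ → ℝ} (hq : 0 ≤ q) (hη : 0 ≤ η)
    (hr : 0 < r) (hK : 0 ≤ K) (hX : 0 < X) (hc : 0 < c) (hC : 0 < C)
    (hu : ∀ y, 0 < y → 0 < u y) (hw : ∀ y, 0 < y → 0 < w y)
    (huT : ∀ y, 0 < y → 0 < uT y) (hwT : ∀ y, 0 < y → 0 < wT y)
    (hgrow : ∀ y, 10 * r ≤ y → psi q η (u y) (w y) ≤
      psi q η (u (10 * r)) (w (10 * r)) * (y / (10 * r)) ^ (1 / 2 : ℝ))
    (hcmp : ∀ y, 10 * r ≤ y → psi q η (uT y) (wT y) ≤ psi q η (u y) (w y) * (1 + K * r / y))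
    (hwlow : c * X ≤ w (10 * r))
    (hwTlow : ∀ y, 0 < y → y ≤ 10 * r → c * X ≤ wT y)
    (hwup : ∀ y, 0 < y → y ≤ 10 * r → w y ≤ C * X)
    (huup : ∀ y, 0 < y → y ≤ 10 * r → u y ≤ C * X)
    (hfin : Lam q η u w ≠ ⊤) (hZ : Jn q uT wT (10 * r) ≠ ⊤) :
    Lam q η uT wT ≠ ⊤ ∧ Jn q u w (10 * r) ≠ ⊤ ∧
    (Lam q η uT wT).toReal - (Lam q η u w).toReal ≤
      X ^ (-η) * (K / 5 * c ^ (-η) + c ^ (-η) * (Jn q uT wT (10 * r)).toReal -
        C ^ (-η) * (Jn q u w (10 * r)).toReal) := by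
  have h := lb1 hq hη hr hK hX hc hC hu hw huT hwT hgrow hcmp hwlow hwTlow hwup huup
  have hZ' : ENNReal.ofReal (c ^ (-η) * X ^ (-η)) * Jn q uT wT (10 * r) ≠ ⊤ :=
    ENNReal.mul_ne_top ENNReal.ofReal_ne_top hZ
  have hR : Lam q η u w + ENNReal.ofReal (c ^ (-η) * X ^ (-η)) * Jn q uT wT (10 * r) +
        ENNReal.ofReal (K / 5 * (c ^ (-η) * X ^ (-η))) ≠ ⊤ := by
    simp only [ne_eq, ENNReal.add_eq_top, hfin, hZ', ENNReal.ofReal_ne_top, or_self,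
      not_false_eq_true]
  have hL := ne_top_of_le_ne_top hR h
  have hT : Lam q η uT wT ≠ ⊤ := ne_top_of_le_ne_top hL le_self_add
  have hJ' : ENNReal.ofReal (C ^ (-η) * X ^ (-η)) * Jn q u w (10 * r) ≠ ⊤ :=
    ne_top_of_le_ne_top hL le_add_self
  have hpos : 0 < C ^ (-η) * X ^ (-η) := by positivity
  have hJ : Jn q u w (10 * r) ≠ ⊤ := by
    intro hJt
    apply hJ'
    rw [hJt]
    exact ENNReal.mul_top (by simpa using hpos)
  refine ⟨hT, hJ, ?_⟩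
  have h2 := ENNReal.toReal_mono hR h
  rw [ENNReal.toReal_add hT hJ', ENNReal.toReal_add (by simp [hfin, hZ']) (by simp),
    ENNReal.toReal_add hfin hZ', ENNReal.toReal_mul, ENNReal.toReal_mul,
    ENNReal.toReal_ofReal (by positivity), ENNReal.toReal_ofReal (by positivity),
    ENNReal.toReal_ofReal (by positivity)] at h2
  nlinarith [h2]

end Crest.Agent.R162.LB1b
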