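import Mathlib
import Crest.Agent.R162.KB1
import Crest.Agent.R162.FLC2

/-! # Row 162, node LB2a: localisation of the tip (deterministic)

`f` univalent on the half-plane (the old inverse map), `F` the inverse map of the new piece
(`|F(iy) - iy| ≤ 3 rt`, `|F'(iy) - 1| ≤ exp (2 rt²/y²) - 1` for `y ≥ 10 rt`), `f ∘ F` the new
inverse map, `y_k = 10 ρ e^{-k}`. -/

set_option autoImplicit false

namespace Crest.Agent.R162.LB2a

open Complex Set Metric
open Crest.Agent.R162.KB1 Crest.Agent.R162.FL Crest.Agent.R162.FLC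
open scoped ComplexConjugate

/-! ### one univalent map along the imaginary axis -/

lemma mulI_im (y : ℝ) : ((y : ℂ) * I).im = y := by simp

lemma phd_axis {y y' : ℝ} (hy' : 0 < y') (h : y' ≤ y) :
    phd (y * I) (y' * I) = (y - y') / (y + y') := by
  have h1 : ((y' : ℂ) * I) - y * I = ((y' - y : ℝ) : ℂ) * I := by push_cast; ring
  have h2 : ((y' : ℂ) * I) - conj ((y : ℂ) * I) = ((y' + y : ℝ) : ℂ) * I := by
    rw [map_mul, Complex.conj_ofReal, Complex.conj_I]; push_cast; ring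
  rw [phd, h1, h2, norm_mul, norm_mul, Complex.norm_I, mul_one, mul_one, Complex.norm_real,
    Complex.norm_real, Real.norm_eq_abs, Real.norm_eq_abs, abs_of_nonpos (by linarith),
    abs_of_pos (by linarith)]
  congr 1 <;> ring

lemma phd_axis' {y y' : ℝ} (hy' : 0 < y') (h : y' ≤ y) :
    phd (y' * I) (y * I) = (y - y') / (y + y') := by
  have h1 : ((y : ℂ) * I) - y' * I = ((y - y' : ℝ) : ℂ) * I := by push_cast; ring
  have h2 : ((y : ℂ) * I) - conj ((y' : ℂ) * I) = ((y + y' : ℝ) : ℂ) * I := by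
    rw [map_mul, Complex.conj_ofReal, Complex.conj_I]; push_cast; ring
  rw [phd, h1, h2, norm_mul, norm_mul, Complex.norm_I, mul_one, mul_one, Complex.norm_real,
    Complex.norm_real, Real.norm_eq_abs, Real.norm_eq_abs, abs_of_nonneg (by linarith),
    abs_of_pos (by linarith)]

/-- from the log-Lipschitz bound to a ratio bound -/
lemma ratio_of_log {a b p : ℝ} (ha : 0 < a) (hb : 0 < b) (hp0 : 0 ≤ p) (hp1 : p < 1)
    (h : |Real.log a - Real.log b| ≤ 2 * Real.log ((1 + p) / (1 - p))) :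
    a ≤ ((1 + p) / (1 - p)) ^ 2 * b ∧ b ≤ ((1 + p) / (1 - p)) ^ 2 * a := by
  have hq : 0 < (1 + p) / (1 - p) := div_pos (by linarith) (by linarith)
  have h2 : 2 * Real.log ((1 + p) / (1 - p)) = Real.log (((1 + p) / (1 - p)) ^ 2) := by
    rw [Real.log_pow]; norm_num
  rw [h2] at h
  have h3 := abs_le.1 h
  constructor
  · have : Real.log a ≤ Real.log (((1 + p) / (1 - p)) ^ 2 * b) := by
      rw [Real.log_mul (by positivity) hb.ne']; linarith [h3.2]
    exact (Real.log_le_log_iff ha (by positivity)).1 this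
  · have : Real.log b ≤ Real.log (((1 + p) / (1 - p)) ^ 2 * a) := by
      rw [Real.log_mul (by positivity) ha.ne']; linarith [h3.1]
    exact (Real.log_le_log_iff hb (by positivity)).1 this

section One

variable {f : ℂ → ℂ} (hf : DifferentiableOn ℂ f Hs) (hfi : InjOn f Hs)
include hf hfi

/-- `ups` along the imaginary axis changes at most by the square of the ratio -/
theorem ups_axis {y y' : ℝ} (hy' : 0 < y') (h : y' ≤ y) :
    ups f (y' * I) ≤ (y / y') ^ 2 * ups f (y * I) ∧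
      ups f (y * I) ≤ (y / y') ^ 2 * ups f (y' * I) := by
  have hy : 0 < y := lt_of_lt_of_le hy' h
  have h1 : 0 < ((y : ℂ) * I).im := by rw [mulI_im]; exact hy
  have h2 : 0 < ((y' : ℂ) * I).im := by rw [mulI_im]; exact hy'
  have hl := log_ups_lip hf hfi h1 h2
  have hr := ratio_of_log (ups_pos hf hfi h2) (ups_pos hf hfi h1) (phd_nonneg _ _)
    (phd_lt_one h1 h2) hl
  have e : (1 + phd (y * I) (y' * I)) / (1 - phd (y * I) (y' * I)) = y / y' := by
    rw [phd_axis hy' h]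
    have h0 : y + y' ≠ 0 := by positivity
    have e1 : 1 + (y - y') / (y + y') = 2 * y / (y + y') := by field_simp; ring
    have e2 : 1 - (y - y') / (y + y') = 2 * y' / (y + y') := by field_simp; ring
    rw [e1, e2, div_div_div_cancel_right₀ h0, mul_div_mul_left _ _ two_ne_zero]
  rw [e] at hr
  exact hr

/-- displacement along the imaginary axis at bounded ratio -/
theorem dist_axis {y y' : ℝ} (hy' : 0 < y') (h : y' ≤ y) (h3 : y ≤ 3 * y') :
    ‖f (y' * I) - f (y * I)‖ ≤ 4 * ups f (y * I) ∧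
      ‖f (y * I) - f (y' * I)‖ ≤ 4 * ups f (y' * I) := by
  have hy : 0 < y := lt_of_lt_of_le hy' h
  have h1 : 0 < ((y : ℂ) * I).im := by rw [mulI_im]; exact hy
  have h2 : 0 < ((y' : ℂ) * I).im := by rw [mulI_im]; exact hy'
  have hp : (y - y') / (y + y') ≤ 1 / 2 := by
    rw [div_le_iff₀ (by linarith)]; linarith
  have hp0 : 0 ≤ (y - y') / (y + y') := div_nonneg (by linarith) (by linarith)
  have hg : (y - y') / (y + y') / (1 - (y - y') / (y + y')) ^ 2 ≤ 2 := by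
    have h1 : 0 < 1 - (y - y') / (y + y') := by linarith
    rw [div_le_iff₀ (by positivity)]
    nlinarith
  constructor
  · have hh := norm_sub_le_ups hf hfi h1 h2
    rw [phd_axis hy' h] at hh
    have hu := (ups_pos hf hfi h1).le
    nlinarith
  · have hh := norm_sub_le_ups hf hfi h2 h1
    rw [phd_axis' hy' h] at hh
    have hu := (ups_pos hf hfi h2).le
    nlinarith

/-- **(C)** a point close to `f (iy)` (w.r.t. `ups f (iy)`) is `f Z` with `Z` close to `iy`. -/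
theorem exists_preimage_near {y η : ℝ} (hy : 0 < y) (hη : 0 < η) (hu : η ≤ ups f (y * I)) {w : ℂ}
    (hw : ‖w - f (y * I)‖ ≤ η / 50) :
    ∃ Z : ℂ, 0 < Z.im ∧ f Z = w ∧ ‖Z - y * I‖ ≤ y / 12 ∧ ‖Z‖ ≤ 2 * y ∧ y / 2 ≤ Z.im ∧
      (1 / 2 : ℝ) ≤ Z.im / ‖Z‖ := by
  have h1 : 0 < ((y : ℂ) * I).im := by rw [mulI_im]; exact hy
  have hmem : w ∈ ball (f (y * I)) (ups f (y * I) / 2) := by
    rw [mem_ball, dist_eq_norm]
    linarith
  obtain ⟨Z, hZ, hfZ⟩ := ball_subset_image hf hfi h1 hmem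
  have hZ' : 0 < Z.im := hZ
  have h2 := ups_le_norm_sub hf hfi h1 hZ'
  rw [hfZ] at h2
  have hup := ups_pos hf hfi h1
  have h3 : phd (y * I) Z ≤ 1 / 25 := by
    have h4 : ups f (y * I) * phd (y * I) Z / 2 ≤ ups f (y * I) / 50 := by linarith
    by_contra hcon
    push Not at hcon
    nlinarith
  have hn : 0 < ‖Z - conj ((y : ℂ) * I)‖ := norm_pos_iff.2 (sub_conj_ne h1 hZ')
  rw [phd, div_le_iff₀ hn] at h3
  have h5 : ‖Z - conj ((y : ℂ) * I)‖ ≤ ‖Z - y * I‖ + 2 * y := by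
    have e : Z - conj ((y : ℂ) * I) = (Z - y * I) + ((2 * y : ℝ) : ℂ) * I := by
      rw [map_mul, Complex.conj_ofReal, Complex.conj_I]; push_cast; ring
    rw [e]
    refine (norm_add_le _ _).trans ?_
    rw [norm_mul, Complex.norm_I, mul_one, Complex.norm_real, Real.norm_eq_abs,
      abs_of_pos (by linarith)]
  have h6 : ‖Z - y * I‖ ≤ y / 12 := by linarith
  have h7 : ‖Z‖ ≤ ‖Z - y * I‖ + y := by
    have e : Z = (Z - y * I) + (y : ℂ) * I := by ring
    calc ‖Z‖ = ‖(Z - y * I) + (y : ℂ) * I‖ := by rw [← e]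
      _ ≤ ‖Z - y * I‖ + ‖(y : ℂ) * I‖ := norm_add_le _ _
      _ = ‖Z - y * I‖ + y := by
        rw [norm_mul, Complex.norm_I, mul_one, Complex.norm_real, Real.norm_eq_abs, abs_of_pos hy]
  have h8 : y - y / 12 ≤ Z.im := by
    have h9 := (Complex.abs_im_le_norm (Z - y * I)).trans h6
    rw [Complex.sub_im, mulI_im] at h9
    have := (abs_le.1 h9).1
    linarith
  have hZn : 0 < ‖Z‖ := norm_pos_iff.2 (fun h => by rw [h] at hZ'; simp at hZ')
  refine ⟨Z, hZ', hfZ, h6, by linarith, by linarith, ?_⟩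
  rw [le_div_iff₀ hZn]
  linarith

end One

/-! ### the new piece -/

/-- the facts used about the inverse map `F` of the new piece; `r` is any number with
`√t ≤ r`, `|W̃_t| ≤ r`. -/
structure Step (F : ℂ → ℂ) (r : ℝ) : Prop where
  diff : DifferentiableOn ℂ F Hs
  inj : InjOn F Hs
  maps : MapsTo F Hs Hs
  pos : 0 < r
  disp : ∀ y : ℝ, 10 * r ≤ y → ‖F (y * I) - y * I‖ ≤ 3 * r
  der : ∀ y : ℝ, 10 * r ≤ y → ‖deriv F (y * I) - 1‖ ≤ Real.exp (2 * r ^ 2 / y ^ 2) - 1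

theorem step_of_ffl {W : ℝ → ℝ} {T r : ℝ} (hW : ContinuousOn W (Ici 0)) (hT : 0 ≤ T)
    (hr : 0 < r) (hTr : T ≤ r ^ 2) (hWr : |W T| ≤ r) : Step (ffl W T) r where
  diff := differentiableOn_ffl hW hT
  inj := injOn_ffl hW hT
  maps := fun _ hz => ffl_im_pos hW hT hz
  pos := hr
  disp := fun y hy => norm_ffl_I_sub_le hW hT hTr hWr (by linarith) hy
  der := fun y hy => norm_deriv_ffl_I_sub_one_le hW hT hTr (by linarith)

lemma exp_small {r y : ℝ} (hr : 0 < r) (hy : 10 * r ≤ y) :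
    Real.exp (2 * r ^ 2 / y ^ 2) - 1 ≤ 1 / 40 := by
  have h1 : 2 * r ^ 2 / y ^ 2 ≤ 1 / 50 := by
    have hy0 : 0 < y := by linarith
    rw [div_le_iff₀ (by positivity)]
    nlinarith
  have h0 : 0 ≤ 2 * r ^ 2 / y ^ 2 := by positivity
  have h2 : Real.exp (2 * r ^ 2 / y ^ 2) ≤ 1 / (1 - 2 * r ^ 2 / y ^ 2) := by
    have h3 := Real.one_sub_le_exp_neg (2 * r ^ 2 / y ^ 2)
    have h4 : Real.exp (2 * r ^ 2 / y ^ 2) = 1 / Real.exp (-(2 * r ^ 2 / y ^ 2)) := by
      rw [Real.exp_neg, one_div, inv_inv]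
    rw [h4]
    exact one_div_le_one_div_of_le (by linarith) h3
  have h5 : 1 / (1 - 2 * r ^ 2 / y ^ 2) ≤ 1 / (1 - 1 / 50) :=
    one_div_le_one_div_of_le (by norm_num) (by linarith)
  have h6 : (1:ℝ) / (1 - 1 / 50) ≤ 1 + 1 / 40 := by norm_num
  linarith

section Two

variable {f F : ℂ → ℂ} {r : ℝ} (hf : DifferentiableOn ℂ f Hs) (hfi : InjOn f Hs) (hF : Step F r)
include hF

omit hf hfi in
lemma step_im {y : ℝ} (hy : 10 * r ≤ y) :
    7 / 10 * y ≤ (F (y * I)).im ∧ (F (y * I)).im ≤ 13 / 10 * y := by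
  have h := (Complex.abs_im_le_norm (F (y * I) - y * I)).trans (hF.disp y hy)
  rw [Complex.sub_im, mulI_im] at h
  have h' := abs_le.1 h
  constructor <;> linarith [h'.1, h'.2]

omit hf hfi in
lemma step_phd {y : ℝ} (hy : 10 * r ≤ y) : phd (y * I) (F (y * I)) ≤ 3 / 17 := by
  have hr := hF.pos
  have hy0 : 0 < y := by linarith
  have h := hF.disp y hy
  have h2 : 17 / 10 * y ≤ ‖F (y * I) - conj ((y : ℂ) * I)‖ := by
    have e : F (y * I) - conj ((y : ℂ) * I) = ((2 * y : ℝ) : ℂ) * I + (F (y * I) - y * I) := by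
      rw [map_mul, Complex.conj_ofReal, Complex.conj_I]; push_cast; ring
    rw [e]
    have h3 := norm_sub_le_norm_add (((2 * y : ℝ) : ℂ) * I) (F (y * I) - y * I)
    have h4 : ‖((2 * y : ℝ) : ℂ) * I‖ = 2 * y := by
      rw [norm_mul, Complex.norm_I, mul_one, Complex.norm_real, Real.norm_eq_abs,
        abs_of_pos (by linarith)]
    rw [h4] at h3
    linarith
  rw [phd, div_le_iff₀ (by linarith)]
  linarith

omit hf hfi in
lemma step_der {y : ℝ} (hy : 10 * r ≤ y) :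
    39 / 40 ≤ ‖deriv F (y * I)‖ ∧ ‖deriv F (y * I)‖ ≤ 41 / 40 := by
  have h := (hF.der y hy).trans (exp_small hF.pos hy)
  have h1 := norm_sub_norm_le (deriv F (y * I)) 1
  have h2 := norm_sub_norm_le 1 (deriv F (y * I))
  rw [norm_sub_rev] at h2
  rw [norm_one] at h1 h2
  constructor <;> linarith

include hf hfi

omit hfi in
lemma comp_diff : DifferentiableOn ℂ (f ∘ F) Hs := hf.comp hF.diff hF.maps

omit hf in
lemma comp_inj : InjOn (f ∘ F) Hs := hfi.comp hF.inj hF.maps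

omit hfi in
lemma ups_comp {z : ℂ} (hz : 0 < z.im) :
    ups (f ∘ F) z = ups f (F z) * (z.im * ‖deriv F z‖ / (F z).im) := by
  have hFz : 0 < (F z).im := hF.maps hz
  have h1 : HasDerivAt F (deriv F z) z :=
    (hF.diff.differentiableAt (isOpen_Hs.mem_nhds hz)).hasDerivAt
  have h2 : HasDerivAt f (deriv f (F z)) (F z) :=
    (hf.differentiableAt (isOpen_Hs.mem_nhds hFz)).hasDerivAt
  rw [ups, ups, (h2.comp z h1).deriv, norm_mul]
  field_simp

/-- `ups` of the composed map at `iy`, `y ≥ 10 r`, is comparable to the old one. -/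
theorem ups_comp_axis {y : ℝ} (hy : 10 * r ≤ y) :
    ups (f ∘ F) (y * I) ≤ 4 * ups f (y * I) ∧ ups f (y * I) ≤ 4 * ups (f ∘ F) (y * I) := by
  have hr := hF.pos
  have hy0 : 0 < y := by linarith
  have h1 : 0 < ((y : ℂ) * I).im := by rw [mulI_im]; exact hy0
  have hFz : 0 < (F (y * I)).im := hF.maps h1
  have hp := step_phd hF hy
  have hl := log_ups_lip hf hfi h1 hFz
  have hu1 := ups_pos hf hfi h1
  have hu2 := ups_pos hf hfi hFz
  have hrat := ratio_of_log hu2 hu1 (phd_nonneg _ _) (phd_lt_one h1 hFz) hl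
  have hq : ((1 + phd (y * I) (F (y * I))) / (1 - phd (y * I) (F (y * I)))) ^ 2 ≤ 41 / 20 := by
    have h0 := phd_nonneg ((y : ℂ) * I) (F (y * I))
    have h2 : (1 + phd (y * I) (F (y * I))) / (1 - phd (y * I) (F (y * I))) ≤ 10 / 7 := by
      rw [div_le_iff₀ (by linarith)]; linarith
    have h3 : 0 ≤ (1 + phd (y * I) (F (y * I))) / (1 - phd (y * I) (F (y * I))) :=
      div_nonneg (by linarith) (by linarith)
    nlinarith
  obtain ⟨i1, i2⟩ := step_im hF hy
  obtain ⟨d1, d2⟩ := step_der hF hy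
  rw [ups_comp hf hF h1, mulI_im]
  have hm : y * ‖deriv F (y * I)‖ / (F (y * I)).im ≤ 3 / 2 := by
    rw [div_le_iff₀ hFz]; nlinarith
  have hm' : 3 / 4 ≤ y * ‖deriv F (y * I)‖ / (F (y * I)).im := by
    rw [le_div_iff₀ hFz]; nlinarith
  have a1 : ups f (F (y * I)) ≤ 41 / 20 * ups f (y * I) :=
    hrat.1.trans (mul_le_mul_of_nonneg_right hq hu1.le)
  have a2 : ups f (y * I) ≤ 41 / 20 * ups f (F (y * I)) :=
    hrat.2.trans (mul_le_mul_of_nonneg_right hq hu2.le)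
  constructor
  · have : ups f (F (y * I)) * (y * ‖deriv F (y * I)‖ / (F (y * I)).im) ≤
        (41 / 20 * ups f (y * I)) * (3 / 2) :=
      mul_le_mul a1 hm (by linarith) (by positivity)
    linarith
  · have : ups f (F (y * I)) * (3 / 4) ≤
        ups f (F (y * I)) * (y * ‖deriv F (y * I)‖ / (F (y * I)).im) :=
      mul_le_mul_of_nonneg_left hm' hu2.le
    linarith

/-- displacement of `f (iy)`, `y ≥ 10 r`, when `F` is inserted. -/
theorem dist_comp_axis {y : ℝ} (hy : 10 * r ≤ y) :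
    ‖f (F (y * I)) - f (y * I)‖ ≤ ups f (y * I) := by
  have hr := hF.pos
  have hy0 : 0 < y := by linarith
  have h1 : 0 < ((y : ℂ) * I).im := by rw [mulI_im]; exact hy0
  have hFz : 0 < (F (y * I)).im := hF.maps h1
  have hp := step_phd hF hy
  have h0 := phd_nonneg ((y : ℂ) * I) (F (y * I))
  have h := norm_sub_le_ups hf hfi h1 hFz
  have hg : phd (y * I) (F (y * I)) / (1 - phd (y * I) (F (y * I))) ^ 2 ≤ 1 / 2 := by
    have : 0 < 1 - phd (y * I) (F (y * I)) := by linarith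
    rw [div_le_iff₀ (by positivity)]
    nlinarith
  have hu1 := (ups_pos hf hfi h1).le
  nlinarith

/-- **(A)**: `u_t(iy) ≤ C u(iρ) (ρ/y)²` for `y ≤ 20 ρ`. -/
theorem ups_comp_le {ρ y : ℝ} (hρ : 0 < ρ) (hr : r ≤ 2 * ρ) (hy0 : 0 < y) (hy : y ≤ 20 * ρ) :
    ups (f ∘ F) (y * I) ≤ 1600 * (20 * ρ / y) ^ 2 * ups f (ρ * I) := by
  have h1 := (ups_axis (comp_diff hf hF) (comp_inj hfi hF) hy0 hy).1
  have h2 := (ups_comp_axis hf hfi hF (y := 20 * ρ) (by linarith)).1
  have h3 := (ups_axis hf hfi hρ (by linarith : ρ ≤ 20 * ρ)).2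
  have e : 20 * ρ / ρ = 20 := by field_simp
  rw [e] at h3
  have h4 : ups (f ∘ F) ((20 * ρ : ℝ) * I) ≤ 1600 * ups f (ρ * I) := by
    refine h2.trans ?_
    linarith
  refine h1.trans ?_
  have : 0 ≤ (20 * ρ / y) ^ 2 := by positivity
  nlinarith

end Two

/-! ### the scales `y_k` -/

/-- `y_k = 10 ρ e^{-k}` -/
noncomputable def yk (ρ : ℝ) (k : ℕ) : ℝ := 10 * ρ * Real.exp (-(k : ℝ))

lemma yk_pos {ρ : ℝ} (hρ : 0 < ρ) (k : ℕ) : 0 < yk ρ k := by unfold yk; positivity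

lemma yk_zero (ρ : ℝ) : yk ρ 0 = 10 * ρ := by simp [yk]

lemma yk_succ_le {ρ : ℝ} (hρ : 0 < ρ) (k : ℕ) : yk ρ (k + 1) ≤ yk ρ k := by
  unfold yk
  gcongr
  push_cast
  linarith

lemma exp_one_le_three : Real.exp 1 ≤ 3 := by
  have := Real.exp_one_lt_d9; linarith

lemma yk_le_three {ρ : ℝ} (hρ : 0 < ρ) (k : ℕ) : yk ρ k ≤ 3 * yk ρ (k + 1) := by
  unfold yk
  have h1 : Real.exp (-(k : ℝ)) = Real.exp 1 * Real.exp (-((k + 1 : ℕ) : ℝ)) := by
    rw [← Real.exp_add]; congr 1; push_cast; ring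
  rw [h1]
  have h2 := Real.exp_pos (-((k + 1 : ℕ) : ℝ))
  have := exp_one_le_three
  have h3 : 0 < 10 * ρ * Real.exp (-((k + 1 : ℕ) : ℝ)) := by positivity
  nlinarith

lemma yk_le {ρ : ℝ} (hρ : 0 < ρ) (k : ℕ) : yk ρ k ≤ 10 * ρ := by
  unfold yk
  have : Real.exp (-(k : ℝ)) ≤ 1 := Real.exp_le_one_iff.2 (by simp)
  nlinarith

/-- telescoping along the scales -/
theorem chain_scales {g : ℂ → ℂ} (hg : DifferentiableOn ℂ g Hs) (hgi : InjOn g Hs) {ρ : ℝ}
    (hρ : 0 < ρ) (n : ℕ) :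
    ‖g (yk ρ n * I) - g (yk ρ 0 * I)‖ ≤ ∑ k ∈ Finset.range n, 4 * ups g (yk ρ k * I) := by
  induction n with
  | zero => simp
  | succ n ih =>
    rw [Finset.sum_range_succ]
    have h := (dist_axis hg hgi (yk_pos hρ (n + 1)) (yk_succ_le hρ n) (yk_le_three hρ n)).1
    have e : g (yk ρ (n + 1) * I) - g (yk ρ 0 * I) =
        (g (yk ρ n * I) - g (yk ρ 0 * I)) + (g (yk ρ (n + 1) * I) - g (yk ρ n * I)) := by ring
    rw [e]
    exact (norm_add_le _ _).trans (add_le_add ih h)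

theorem chain_point {g : ℂ → ℂ} (hg : DifferentiableOn ℂ g Hs) (hgi : InjOn g Hs) {ρ y : ℝ}
    (hρ : 0 < ρ) (hy0 : 0 < y) (hy : y ≤ 10 * ρ) :
    ∃ n : ℕ, ‖g (y * I) - g ((10 * ρ : ℝ) * I)‖ ≤
      ∑ k ∈ Finset.range (n + 1), 4 * ups g (yk ρ k * I) := by
  have hq : 1 ≤ 10 * ρ / y := by rw [le_div_iff₀ hy0]; linarith
  have hl : 0 ≤ Real.log (10 * ρ / y) := Real.log_nonneg hq
  set n := ⌊Real.log (10 * ρ / y)⌋₊ with hn
  have h1 : (n : ℝ) ≤ Real.log (10 * ρ / y) := Nat.floor_le hl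
  have h2 : Real.log (10 * ρ / y) < n + 1 := Nat.lt_floor_add_one _
  have e0 : y = 10 * ρ * Real.exp (-Real.log (10 * ρ / y)) := by
    rw [Real.exp_neg, Real.exp_log (by positivity)]
    field_simp
  have h3 : y ≤ yk ρ n := by
    rw [e0]; unfold yk
    gcongr
  have h4 : yk ρ (n + 1) ≤ y := by
    rw [e0]; unfold yk
    gcongr
    push_cast
    linarith
  refine ⟨n, ?_⟩
  have h5 := (dist_axis hg hgi hy0 h3 ((yk_le_three hρ n).trans (by linarith))).1
  rw [Finset.sum_range_succ]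
  have e : g (y * I) - g ((10 * ρ : ℝ) * I) =
      (g (yk ρ n * I) - g (yk ρ 0 * I)) + (g (y * I) - g (yk ρ n * I)) := by
    rw [yk_zero]; ring
  rw [e]
  exact (norm_add_le _ _).trans (add_le_add (chain_scales hg hgi hρ n) h5)

/-! ### the sum bound -/

lemma geom_bound {c : ℝ} (hc0 : 0 < c) (hc1 : c ≤ 1) (n : ℕ) :
    ∑ k ∈ Finset.range n, Real.exp (-(c / 2 * k)) ≤ 3 / c := by
  have h1 : ∀ k : ℕ, Real.exp (-(c / 2 * k)) = Real.exp (-(c / 2)) ^ k := by
    intro k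
    rw [← Real.exp_nat_mul]; congr 1; ring
  simp_rw [h1]
  set q := Real.exp (-(c / 2)) with hq
  have hq0 : 0 < q := Real.exp_pos _
  have h2 := geom_sum_mul_neg q n
  have h3 : 1 + c / 2 ≤ Real.exp (c / 2) := by
    have := Real.add_one_le_exp (c / 2); linarith
  have h4 : q * Real.exp (c / 2) = 1 := by
    rw [hq, ← Real.exp_add]; simp
  have h5 : q * (1 + c / 2) ≤ 1 := by nlinarith
  have h6 : c / 3 ≤ 1 - q := by nlinarith
  have h7 : 0 ≤ ∑ k ∈ Finset.range n, q ^ k := Finset.sum_nonneg (fun k _ => by positivity)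
  have h8 : (∑ k ∈ Finset.range n, q ^ k) * (c / 3) ≤ 1 := by
    refine (mul_le_mul_of_nonneg_left h6 h7).trans ?_
    rw [h2]
    have : 0 ≤ q ^ n := by positivity
    linarith
  rw [le_div_iff₀ hc0]
  linarith

/-- the key real-variable estimate -/
lemma sum_bound {a : ℕ → ℝ} {c v U C : ℝ} (hc0 : 0 < c) (hc1 : c ≤ 1) (hv0 : 0 < v)
    (hv1 : v ≤ 1) (hU : 0 < U) (hC : 0 ≤ C)
    (h1 : ∀ k : ℕ, a k ≤ C * v * Real.exp (2 * k) * U)
    (h2 : ∀ k : ℕ, 1 / 4 * Real.log (1 / v) < k → a k ≤ c * U * Real.exp (-(c * k))) (n : ℕ) :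
    ∑ k ∈ Finset.range n, a k ≤ (C + 1) * (3 / c) * v ^ (c / 8) * U := by
  set L := Real.log (1 / v) with hL
  have hL0 : 0 ≤ L := Real.log_nonneg (by rw [le_div_iff₀ hv0]; linarith)
  have hv : v = Real.exp (-L) := by
    rw [hL, one_div, Real.log_inv, neg_neg, Real.exp_log hv0]
  have hvc : v ^ (c / 8) = Real.exp (-(c / 8 * L)) := by
    rw [hv, ← Real.exp_mul]; congr 1; ring
  have hk : ∀ k : ℕ, a k ≤ (C + 1) * v ^ (c / 8) * U * Real.exp (-(c / 2 * k)) := by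
    intro k
    have hk0 : (0:ℝ) ≤ k := Nat.cast_nonneg k
    rcases lt_or_ge (1 / 4 * L) (k : ℝ) with hlt | hge
    · refine (h2 k hlt).trans ?_
      have h3 : Real.exp (-(c * k)) ≤ v ^ (c / 8) * Real.exp (-(c / 2 * k)) := by
        rw [hvc, ← Real.exp_add, Real.exp_le_exp]
        nlinarith
      have h4 : 0 < v ^ (c / 8) * Real.exp (-(c / 2 * k)) := by positivity
      have h5 : c * U * Real.exp (-(c * k)) ≤ 1 * U * (v ^ (c / 8) * Real.exp (-(c / 2 * k))) := by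
        gcongr
      have h6 : 0 ≤ C * (U * (v ^ (c / 8) * Real.exp (-(c / 2 * k)))) := by positivity
      linarith
    · refine (h1 k).trans ?_
      have h3 : v * Real.exp (2 * k) ≤ v ^ (c / 8) * Real.exp (-(c / 2 * k)) := by
        rw [hvc, ← Real.exp_add]
        nth_rewrite 1 [hv]
        rw [← Real.exp_add, Real.exp_le_exp]
        nlinarith
      have h4 : 0 < v ^ (c / 8) * Real.exp (-(c / 2 * k)) := by positivity
      have h5 : C * U * (v * Real.exp (2 * k)) ≤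
          C * U * (v ^ (c / 8) * Real.exp (-(c / 2 * k))) := by
        gcongr
      have h6 : 0 ≤ U * (v ^ (c / 8) * Real.exp (-(c / 2 * k))) := by positivity
      linarith
  calc ∑ k ∈ Finset.range n, a k
      ≤ ∑ k ∈ Finset.range n, (C + 1) * v ^ (c / 8) * U * Real.exp (-(c / 2 * k)) :=
        Finset.sum_le_sum (fun k _ => hk k)
    _ = (C + 1) * v ^ (c / 8) * U * ∑ k ∈ Finset.range n, Real.exp (-(c / 2 * k)) := by
        rw [Finset.mul_sum]
    _ ≤ (C + 1) * v ^ (c / 8) * U * (3 / c) :=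
        mul_le_mul_of_nonneg_left (geom_bound hc0 hc1 n) (by positivity)
    _ = (C + 1) * (3 / c) * v ^ (c / 8) * U := by ring

/-- the threshold `θ(c)` -/
noncomputable def th (c : ℝ) : ℝ := (c / 4000000) ^ (8 / c)

lemma th_pos {c : ℝ} (hc : 0 < c) : 0 < th c := by unfold th; positivity

lemma th_le_one {c : ℝ} (hc : 0 < c) (hc1 : c ≤ 1) : th c ≤ 1 :=
  Real.rpow_le_one (by positivity) (by linarith) (by positivity)

lemma rpow_le_of_le_th {c v : ℝ} (hc : 0 < c) (hv : 0 < v) (h : v ≤ th c) :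
    v ^ (c / 8) ≤ c / 4000000 := by
  have h1 : v ^ (c / 8) ≤ (th c) ^ (c / 8) := Real.rpow_le_rpow hv.le h (by positivity)
  refine h1.trans (le_of_eq ?_)
  unfold th
  rw [← Real.rpow_mul (by positivity)]
  have : 8 / c * (c / 8) = 1 := by field_simp
  rw [this, Real.rpow_one]

section Main

variable {f F : ℂ → ℂ} {r : ℝ} (hf : DifferentiableOn ℂ f Hs) (hfi : InjOn f Hs) (hF : Step F r)
include hf hfi hF

/-- **(B)** a macroscopic excursion of the new geodesic forces a large `u_t(iy_k)` at a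
scale `k > ¼ log (U/u(iρ))`. -/
theorem exists_scale {c U ρ y : ℝ} (hc0 : 0 < c) (hc1 : c ≤ 1) (hU : 0 < U) (hρ : 0 < ρ)
    (hr1 : ρ ≤ r) (hr2 : r ≤ 2 * ρ) (hv : ups f (ρ * I) ≤ th c * U) (hy0 : 0 < y)
    (hy : y ≤ 10 * r) (hT : U / 20 ≤ ‖f (F (y * I)) - f ((10 * r : ℝ) * I)‖) :
    ∃ k : ℕ, 1 / 4 * Real.log (U / ups f (ρ * I)) < k ∧
      c * U * Real.exp (-(c * k)) ≤ ups (f ∘ F) (yk ρ k * I) := by
  by_contra hcon
  push Not at hcon
  have hg := comp_diff hf hF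
  have hgi := comp_inj hfi hF
  have him : 0 < ((ρ : ℂ) * I).im := by rw [mulI_im]; exact hρ
  have hu0 := ups_pos hf hfi him
  set v := ups f (ρ * I) / U with hvdef
  have hv0 : 0 < v := div_pos hu0 hU
  have hvU : v * U = ups f (ρ * I) := by rw [hvdef]; field_simp
  have hvth : v ≤ th c := by rw [hvdef, div_le_iff₀ hU]; exact hv
  have hv1 : v ≤ 1 := hvth.trans (th_le_one hc0 hc1)
  have hinv : U / ups f (ρ * I) = 1 / v := by rw [hvdef]; field_simp
  rw [hinv] at hcon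
  set a : ℕ → ℝ := fun k => ups (f ∘ F) (yk ρ k * I) with ha
  have ha0 : ∀ k, 0 < a k := fun k =>
    ups_pos hg hgi (by rw [mulI_im]; exact yk_pos hρ k)
  have h1 : ∀ k : ℕ, a k ≤ 6400 * v * Real.exp (2 * k) * U := by
    intro k
    have h := ups_comp_le hf hfi hF hρ hr2 (yk_pos hρ k) ((yk_le hρ k).trans (by linarith))
    have e : (20 * ρ / yk ρ k) ^ 2 = 4 * Real.exp (2 * k) := by
      unfold yk
      rw [Real.exp_neg]
      have h2 : Real.exp (2 * k) = Real.exp k ^ 2 := by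
        rw [← Real.exp_nat_mul]; norm_num
      rw [h2]
      field_simp
      ring
    rw [e, ← hvU] at h
    calc a k ≤ _ := h
      _ = _ := by ring
  have h2 : ∀ k : ℕ, 1 / 4 * Real.log (1 / v) < k → a k ≤ c * U * Real.exp (-(c * k)) :=
    fun k hk => (hcon k hk).le
  have hS := sum_bound hc0 hc1 hv0 hv1 hU (by norm_num : (0:ℝ) ≤ 6400) h1 h2
  -- the three pieces
  have p3 : ‖f (F ((10 * r : ℝ) * I)) - f ((10 * r : ℝ) * I)‖ ≤ 400 * (v * U) := by
    refine (dist_comp_axis hf hfi hF (y := 10 * r) le_rfl).trans ?_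
    have h3 := (ups_axis hf hfi hρ (by linarith : ρ ≤ 10 * r)).2
    refine h3.trans ?_
    rw [hvU]
    have h4 : 10 * r / ρ ≤ 20 := by rw [div_le_iff₀ hρ]; linarith
    have h5 : 0 ≤ 10 * r / ρ := by have := hF.pos; positivity
    have h6 : (10 * r / ρ) ^ 2 ≤ 400 := by nlinarith
    exact mul_le_mul_of_nonneg_right h6 hu0.le
  have p2 : ‖f (F ((10 * r : ℝ) * I)) - f (F ((10 * ρ : ℝ) * I))‖ ≤ 4 * a 0 := by
    have := (dist_axis hg hgi (by linarith : 0 < 10 * ρ) (by linarith : 10 * ρ ≤ 10 * r)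
      (by linarith)).2
    rw [ha]; simp only [yk_zero]
    exact this
  have p1 : ∃ n : ℕ, ‖f (F (y * I)) - f (F ((10 * ρ : ℝ) * I))‖ ≤
      ∑ k ∈ Finset.range (n + 1), 4 * a k := by
    rcases le_or_gt y (10 * ρ) with hle | hgt
    · exact chain_point hg hgi hρ hy0 hle
    · refine ⟨0, ?_⟩
      have := (dist_axis hg hgi (by linarith : 0 < 10 * ρ) hgt.le (by linarith)).2
      rw [ha]; simp only [zero_add, Finset.sum_range_one, yk_zero]
      exact this
  obtain ⟨n, hn⟩ := p1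
  rw [← Finset.mul_sum] at hn
  have hSn := hS (n + 1)
  have ha0n : a 0 ≤ ∑ k ∈ Finset.range (n + 1), a k :=
    Finset.single_le_sum (fun k _ => (ha0 k).le) (Finset.mem_range.2 (Nat.succ_pos n))
  have htri : ‖f (F (y * I)) - f ((10 * r : ℝ) * I)‖ ≤
      8 * ∑ k ∈ Finset.range (n + 1), a k + 400 * (v * U) := by
    have e : f (F (y * I)) - f ((10 * r : ℝ) * I) =
        (f (F (y * I)) - f (F ((10 * ρ : ℝ) * I))) -
          (f (F ((10 * r : ℝ) * I)) - f (F ((10 * ρ : ℝ) * I))) +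
          (f (F ((10 * r : ℝ) * I)) - f ((10 * r : ℝ) * I)) := by ring
    rw [e]
    refine (norm_add_le _ _).trans ?_
    have := norm_sub_le (f (F (y * I)) - f (F ((10 * ρ : ℝ) * I)))
      (f (F ((10 * r : ℝ) * I)) - f (F ((10 * ρ : ℝ) * I)))
    linarith
  have hvc : v ≤ v ^ (c / 8) := by
    have := Real.rpow_le_rpow_of_exponent_ge hv0 hv1 (by linarith : c / 8 ≤ 1)
    rwa [Real.rpow_one] at this
  have hvt := rpow_le_of_le_th hc0 hv0 hvth
  have hfin : 8 * ((6400 + 1) * (3 / c) * v ^ (c / 8) * U) + 400 * (v * U) ≤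
      154024 / 4000000 * U := by
    have e1 : (6400 + 1) * (3 / c) * v ^ (c / 8) * U = 19203 * U * (v ^ (c / 8) / c) := by ring
    have e2 : v ^ (c / 8) / c ≤ 1 / 4000000 := by
      rw [div_le_iff₀ hc0]; linarith
    have e3 : v ≤ 1 / 4000000 := hvc.trans (hvt.trans (by linarith))
    rw [e1]
    nlinarith
  have : U / 20 ≤ 154024 / 4000000 * U := by
    linarith [hT.trans htri]
  linarith

end Main

end Crest.Agent.R162.LB2a
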