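import Mathlib
import Crest.Agent.R162.LB2a

/-! # Row 162, node LB2a (B'): the scale before the first crossing -/

set_option autoImplicit false

namespace Crest.Agent.R162.LB2a

open Complex Set Metric
open Crest.Agent.R162.KB1 Crest.Agent.R162.FL Crest.Agent.R162.FLC

theorem chain_point' {g : ℂ → ℂ} (hg : DifferentiableOn ℂ g Hs) (hgi : InjOn g Hs) {ρ y : ℝ}
    (hρ : 0 < ρ) (hy0 : 0 < y) (hy : y ≤ 10 * ρ) :
    ∃ n : ℕ, (∀ k ∈ Finset.range (n + 1), y ≤ yk ρ k) ∧ ‖g (y * I) - g ((10 * ρ : ℝ) * I)‖ ≤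
      ∑ k ∈ Finset.range (n + 1), 4 * ups g (yk ρ k * I) := by
  have hq : 1 ≤ 10 * ρ / y := by rw [le_div_iff₀ hy0]; linarith
  have hl : 0 ≤ Real.log (10 * ρ / y) := Real.log_nonneg hq
  set n := ⌊Real.log (10 * ρ / y)⌋₊ with hn
  have h1 : (n : ℝ) ≤ Real.log (10 * ρ / y) := Nat.floor_le hl
  have h2 : Real.log (10 * ρ / y) < n + 1 := Nat.lt_floor_add_one _
  have e0 : y = 10 * ρ * Real.exp (-Real.log (10 * ρ / y)) := by
    rw [Real.exp_neg, Real.exp_log (by positivity)]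
    field_simp
  have h3' : ∀ k : ℕ, k ≤ n → y ≤ yk ρ k := by
    intro k hk
    have hkn : (k : ℝ) ≤ n := by exact_mod_cast hk
    rw [e0]; unfold yk
    gcongr
    linarith
  have h3 : y ≤ yk ρ n := h3' n le_rfl
  have h4 : yk ρ (n + 1) ≤ y := by
    rw [e0]; unfold yk
    gcongr
    push_cast
    linarith
  refine ⟨n, fun k hk => h3' k (Nat.lt_succ_iff.1 (Finset.mem_range.1 hk)), ?_⟩
  have h5 := (dist_axis hg hgi hy0 h3 ((yk_le_three hρ n).trans (by linarith))).1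
  rw [Finset.sum_range_succ]
  have e : g (y * I) - g ((10 * ρ : ℝ) * I) =
      (g (yk ρ n * I) - g (yk ρ 0 * I)) + (g (y * I) - g (yk ρ n * I)) := by
    rw [yk_zero]; ring
  rw [e]
  exact (norm_add_le _ _).trans (add_le_add (chain_scales hg hgi hρ n) h5)

/-- a real continuous function on `[y, b]`, small at `b` and large at `y`, has a last crossing -/
lemma last_crossing {φ : ℝ → ℝ} {y b m : ℝ} (hyb : y ≤ b) (hφ : ContinuousOn φ (Icc y b))
    (hy : m ≤ φ y) (hb : φ b ≤ m) :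
    ∃ y1 ∈ Icc y b, φ y1 = m ∧ ∀ y' ∈ Icc y1 b, φ y' ≤ m := by
  have hne : (Icc y b ∩ φ ⁻¹' {m}).Nonempty := by
    have := intermediate_value_Icc' hyb hφ
    obtain ⟨z, hz, hz'⟩ := this ⟨hb, hy⟩
    exact ⟨z, hz, hz'⟩
  have hcomp : IsCompact (Icc y b ∩ φ ⁻¹' {m}) := by
    have hcl : IsClosed (Icc y b ∩ φ ⁻¹' {m}) := hφ.preimage_isClosed_of_isClosed isClosed_Icc
      isClosed_singleton
    exact isCompact_Icc.of_isClosed_subset hcl inter_subset_left
  obtain ⟨y1, hy1, hmax⟩ := hcomp.exists_isGreatest hne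
  refine ⟨y1, hy1.1, hy1.2, fun y' hy' => ?_⟩
  by_contra hcon
  push Not at hcon
  have hsub : Icc y' b ⊆ Icc y b := Icc_subset_Icc_left (hy1.1.1.trans hy'.1)
  have := intermediate_value_Icc' hy'.2 (hφ.mono hsub)
  obtain ⟨z, hz, hz'⟩ := this ⟨hb, hcon.le⟩
  have hz1 : z ≤ y1 := hmax ⟨hsub hz, hz'⟩
  have : z = y' := le_antisymm (hz1.trans hy'.1) hz.1
  rw [this] at hz'
  linarith

section Main

variable {f F : ℂ → ℂ} {r : ℝ} (hf : DifferentiableOn ℂ f Hs) (hfi : InjOn f Hs) (hF : Step F r)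
include hf hfi hF

/-- **(B)** with the information that the scale is before the excursion (`y ≤ y_k`). -/
theorem exists_scale' {c U ρ y : ℝ} (hc0 : 0 < c) (hc1 : c ≤ 1) (hU : 0 < U) (hρ : 0 < ρ)
    (hr1 : ρ ≤ r) (hr2 : r ≤ 2 * ρ) (hv : ups f (ρ * I) ≤ th c * U) (hy0 : 0 < y)
    (hy : y ≤ 10 * r) (hT : U / 20 ≤ ‖f (F (y * I)) - f ((10 * r : ℝ) * I)‖) :
    ∃ k : ℕ, 1 / 4 * Real.log (U / ups f (ρ * I)) < k ∧ y ≤ yk ρ k ∧
      c * U * Real.exp (-(c * k)) ≤ ups (f ∘ F) (yk ρ k * I) := by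
  by_contra hcon
  push Not at hcon
  have hg := comp_diff hf hF
  have hgi := comp_inj hfi hF
  have him : 0 < ((ρ : ℂ) * I).im := by rw [mulI_im]; exact hρ
  have hu0 := ups_pos hf hfi him
  set v := ups f (ρ * I) / U with hvdef
  have hv0 : 0 < v := div_pos hu0 hU
  have hvU : v * U = ups f (ρ * I) := by rw [hvdef]; field_simp
  have hvth : v ≤ th c := by rw [hvdef, div_le_iff₀ hU]; exact hv
  have hv1 : v ≤ 1 := hvth.trans (th_le_one hc0 hc1)
  have hinv : U / ups f (ρ * I) = 1 / v := by rw [hvdef]; field_simp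
  rw [hinv] at hcon
  set a : ℕ → ℝ := fun k => ups (f ∘ F) (yk ρ k * I) with ha
  have ha0 : ∀ k, 0 < a k := fun k =>
    ups_pos hg hgi (by rw [mulI_im]; exact yk_pos hρ k)
  have h1 : ∀ k : ℕ, a k ≤ 6400 * v * Real.exp (2 * k) * U := by
    intro k
    have h := ups_comp_le hf hfi hF hρ hr2 (yk_pos hρ k) ((yk_le hρ k).trans (by linarith))
    have e : (20 * ρ / yk ρ k) ^ 2 = 4 * Real.exp (2 * k) := by
      unfold yk
      rw [Real.exp_neg]
      have h2 : Real.exp (2 * k) = Real.exp k ^ 2 := by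
        rw [← Real.exp_nat_mul]; norm_num
      rw [h2]
      field_simp
      ring
    rw [e, ← hvU] at h
    calc a k ≤ _ := h
      _ = _ := by ring
  -- truncated sequence
  set a' : ℕ → ℝ := fun k => if y ≤ yk ρ k ∨ k = 0 then a k else 0 with ha'
  have h1' : ∀ k : ℕ, a' k ≤ 6400 * v * Real.exp (2 * k) * U := by
    intro k
    simp only [ha']
    split_ifs with hk
    · exact h1 k
    · positivity
  have hlog : 0 < Real.log (1 / v) := by
    apply Real.log_pos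
    rw [lt_div_iff₀ hv0]
    have : th c < 1 := Real.rpow_lt_one (by positivity) (by linarith) (by positivity)
    linarith
  have h2' : ∀ k : ℕ, 1 / 4 * Real.log (1 / v) < k → a' k ≤ c * U * Real.exp (-(c * k)) := by
    intro k hk
    simp only [ha']
    split_ifs with hk2
    · rcases hk2 with h | h
      · exact (hcon k hk h).le
      · exfalso
        rw [h] at hk
        push_cast at hk
        linarith
    · positivity
  have hS := sum_bound hc0 hc1 hv0 hv1 hU (by norm_num : (0:ℝ) ≤ 6400) h1' h2'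
  -- the three pieces
  have p3 : ‖f (F ((10 * r : ℝ) * I)) - f ((10 * r : ℝ) * I)‖ ≤ 400 * (v * U) := by
    refine (dist_comp_axis hf hfi hF (y := 10 * r) le_rfl).trans ?_
    have h3 := (ups_axis hf hfi hρ (by linarith : ρ ≤ 10 * r)).2
    refine h3.trans ?_
    rw [hvU]
    have h4 : 10 * r / ρ ≤ 20 := by rw [div_le_iff₀ hρ]; linarith
    have h5 : 0 ≤ 10 * r / ρ := by have := hF.pos; positivity
    have h6 : (10 * r / ρ) ^ 2 ≤ 400 := by nlinarith
    exact mul_le_mul_of_nonneg_right h6 hu0.le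
  have ha00 : a' 0 = a 0 := by simp [ha']
  have p2 : ‖f (F ((10 * r : ℝ) * I)) - f (F ((10 * ρ : ℝ) * I))‖ ≤ 4 * a' 0 := by
    have := (dist_axis hg hgi (by linarith : 0 < 10 * ρ) (by linarith : 10 * ρ ≤ 10 * r)
      (by linarith)).2
    rw [ha00, ha]; simp only [yk_zero]
    exact this
  have p1 : ∃ n : ℕ, ‖f (F (y * I)) - f (F ((10 * ρ : ℝ) * I))‖ ≤
      ∑ k ∈ Finset.range (n + 1), 4 * a' k := by
    rcases le_or_gt y (10 * ρ) with hle | hgt
    · obtain ⟨n, hn1, hn2⟩ := chain_point' hg hgi hρ hy0 hle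
      refine ⟨n, ?_⟩
      have : ∑ k ∈ Finset.range (n + 1), 4 * a' k =
          ∑ k ∈ Finset.range (n + 1), 4 * ups (f ∘ F) (yk ρ k * I) := by
        apply Finset.sum_congr rfl
        intro k hk
        simp only [ha']
        rw [if_pos (Or.inl (hn1 k hk))]
      rw [this]
      exact hn2
    · refine ⟨0, ?_⟩
      have := (dist_axis hg hgi (by linarith : 0 < 10 * ρ) hgt.le (by linarith)).2
      simp only [zero_add, Finset.sum_range_one]
      rw [ha00, ha]; simp only [yk_zero]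
      exact this
  obtain ⟨n, hn⟩ := p1
  rw [← Finset.mul_sum] at hn
  have hSn := hS (n + 1)
  have ha'0 : ∀ k, 0 ≤ a' k := by
    intro k
    simp only [ha']
    split_ifs
    · exact (ha0 k).le
    · exact le_rfl
  have ha0n : a' 0 ≤ ∑ k ∈ Finset.range (n + 1), a' k :=
    Finset.single_le_sum (fun k _ => ha'0 k) (Finset.mem_range.2 (Nat.succ_pos n))
  have htri : ‖f (F (y * I)) - f ((10 * r : ℝ) * I)‖ ≤
      8 * ∑ k ∈ Finset.range (n + 1), a' k + 400 * (v * U) := by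
    have e : f (F (y * I)) - f ((10 * r : ℝ) * I) =
        (f (F (y * I)) - f (F ((10 * ρ : ℝ) * I))) -
          (f (F ((10 * r : ℝ) * I)) - f (F ((10 * ρ : ℝ) * I))) +
          (f (F ((10 * r : ℝ) * I)) - f ((10 * r : ℝ) * I)) := by ring
    rw [e]
    refine (norm_add_le _ _).trans ?_
    have := norm_sub_le (f (F (y * I)) - f (F ((10 * ρ : ℝ) * I)))
      (f (F ((10 * r : ℝ) * I)) - f (F ((10 * ρ : ℝ) * I)))
    linarith
  have hvc : v ≤ v ^ (c / 8) := by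
    have := Real.rpow_le_rpow_of_exponent_ge hv0 hv1 (by linarith : c / 8 ≤ 1)
    rwa [Real.rpow_one] at this
  have hvt := rpow_le_of_le_th hc0 hv0 hvth
  have hfin : 8 * ((6400 + 1) * (3 / c) * v ^ (c / 8) * U) + 400 * (v * U) ≤
      154024 / 4000000 * U := by
    have e1 : (6400 + 1) * (3 / c) * v ^ (c / 8) * U = 19203 * U * (v ^ (c / 8) / c) := by ring
    have e2 : v ^ (c / 8) / c ≤ 1 / 4000000 := by
      rw [div_le_iff₀ hc0]; linarith
    have e3 : v ≤ 1 / 4000000 := hvc.trans (hvt.trans (by linarith))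
    rw [e1]
    nlinarith
  have : U / 20 ≤ 154024 / 4000000 * U := by
    linarith [hT.trans htri]
  linarith

/-- **(B), crossing form** (reference point `h (i10r)`, `h = f ∘ F`): some `k` before the first
crossing has `‖h (iy_k) - x‖ ≤ U/8` and `c U e^{-ck} ≤ ups h (iy_k)`. -/
theorem exists_scale_crossing {c U ρ y : ℝ} {x : ℂ} (hc0 : 0 < c) (hc1 : c ≤ 1) (hU : 0 < U)
    (hρ : 0 < ρ) (hr1 : ρ ≤ r) (hr2 : r ≤ 2 * ρ) (hv : ups f (ρ * I) ≤ th c * U)
    (hx : ‖f ((10 * r : ℝ) * I) - x‖ ≤ U / 32) (hy0 : 0 < y)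
    (hy : y ≤ 10 * r) (hT : U / 16 < ‖f (F (y * I)) - f (F ((10 * r : ℝ) * I))‖) :
    ∃ k : ℕ, 1 / 4 * Real.log (U / ups f (ρ * I)) < k ∧ y ≤ yk ρ k ∧
      ‖f (F (yk ρ k * I)) - f (F ((10 * r : ℝ) * I))‖ ≤ U / 16 ∧
      ‖f (F (yk ρ k * I)) - x‖ ≤ U / 8 ∧
      c * U * Real.exp (-(c * k)) ≤ ups (f ∘ F) (yk ρ k * I) := by
  have hr0 := hF.pos
  have hg := comp_diff hf hF
  have him : 0 < ((ρ : ℂ) * I).im := by rw [mulI_im]; exact hρ
  have hu0 := ups_pos hf hfi him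
  have hth : th c ≤ 1 / 4000000 := by
    unfold th
    have h1 : c / 4000000 ≤ 1 / 4000000 := by linarith
    have h2 : (1:ℝ) ≤ 8 / c := by rw [le_div_iff₀ hc0]; linarith
    calc (c / 4000000) ^ (8 / c) ≤ (c / 4000000) ^ (1:ℝ) :=
          Real.rpow_le_rpow_of_exponent_ge (by positivity) (by linarith) h2
      _ = c / 4000000 := Real.rpow_one _
      _ ≤ 1 / 4000000 := h1
  have p3 : ‖f (F ((10 * r : ℝ) * I)) - f ((10 * r : ℝ) * I)‖ ≤ U / 10000 := by
    refine (dist_comp_axis hf hfi hF (y := 10 * r) le_rfl).trans ?_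
    have h3 := (ups_axis hf hfi hρ (by linarith : ρ ≤ 10 * r)).2
    refine h3.trans ?_
    have h4 : 10 * r / ρ ≤ 20 := by rw [div_le_iff₀ hρ]; linarith
    have h5 : 0 ≤ 10 * r / ρ := by positivity
    have h6 : (10 * r / ρ) ^ 2 ≤ 400 := by nlinarith
    have h7 : ups f (ρ * I) ≤ 1 / 4000000 * U :=
      hv.trans (mul_le_mul_of_nonneg_right hth hU.le)
    calc (10 * r / ρ) ^ 2 * ups f (ρ * I) ≤ 400 * (1 / 4000000 * U) :=
          mul_le_mul h6 h7 hu0.le (by norm_num)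
      _ = U / 10000 := by ring
  -- last crossing
  have hcont : ContinuousOn (fun s : ℝ => ‖f (F (s * I)) - f (F ((10 * r : ℝ) * I))‖)
      (Icc y (10 * r)) := by
    have h1 : ContinuousOn (fun s : ℝ => (f ∘ F) ((s : ℂ) * I)) (Icc y (10 * r)) := by
      refine hg.continuousOn.comp (by fun_prop) ?_
      intro s hs
      show 0 < ((s : ℂ) * I).im
      rw [mulI_im]
      exact lt_of_lt_of_le hy0 hs.1
    exact (h1.sub continuousOn_const).norm
  obtain ⟨y1, hy1, he1, hle1⟩ := last_crossing hy hcont hT.le (by simp; positivity)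
  have hy10 : 0 < y1 := lt_of_lt_of_le hy0 hy1.1
  have hT1 : U / 20 ≤ ‖f (F (y1 * I)) - f ((10 * r : ℝ) * I)‖ := by
    have h1 := norm_sub_norm_le (f (F (y1 * I)) - f (F ((10 * r : ℝ) * I)))
      (-(f (F ((10 * r : ℝ) * I)) - f ((10 * r : ℝ) * I)))
    rw [norm_neg] at h1
    have e : f (F (y1 * I)) - f (F ((10 * r : ℝ) * I)) -
        -(f (F ((10 * r : ℝ) * I)) - f ((10 * r : ℝ) * I)) =
        f (F (y1 * I)) - f ((10 * r : ℝ) * I) := by ring
    rw [e] at h1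
    linarith
  obtain ⟨k, hk, hyk, hu⟩ := exists_scale' hf hfi hF hc0 hc1 hU hρ hr1 hr2 hv hy10 hy1.2 hT1
  have hk2 : ‖f (F (yk ρ k * I)) - f (F ((10 * r : ℝ) * I))‖ ≤ U / 16 :=
    hle1 (yk ρ k) ⟨hyk, (yk_le hρ k).trans (by linarith)⟩
  refine ⟨k, hk, hy1.1.trans hyk, hk2, ?_, hu⟩
  have e : f (F (yk ρ k * I)) - x = (f (F (yk ρ k * I)) - f (F ((10 * r : ℝ) * I))) +
      ((f (F ((10 * r : ℝ) * I)) - f ((10 * r : ℝ) * I)) + (f ((10 * r : ℝ) * I) - x)) := by ring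
  rw [e]
  refine (norm_add_le _ _).trans ?_
  have := norm_add_le (f (F ((10 * r : ℝ) * I)) - f ((10 * r : ℝ) * I)) (f ((10 * r : ℝ) * I) - x)
  linarith

/-- **(B), crossing form for `LB.Par.Bad2`** (reference point `f (i10r)`). -/
theorem exists_scale_bad2 {c U ρ y : ℝ} {x : ℂ} (hc0 : 0 < c) (hc1 : c ≤ 1) (hU : 0 < U)
    (hρ : 0 < ρ) (hr1 : ρ ≤ r) (hr2 : r ≤ 2 * ρ) (hv : ups f (ρ * I) ≤ th c * U)
    (hx : ‖f ((10 * r : ℝ) * I) - x‖ ≤ U / 32) (hy0 : 0 < y)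
    (hy : y ≤ 10 * r) (hT : U / 16 < ‖f (F (y * I)) - f ((10 * r : ℝ) * I)‖) :
    ∃ k : ℕ, 1 / 4 * Real.log (U / ups f (ρ * I)) < k ∧ y ≤ yk ρ k ∧
      ‖f (F (yk ρ k * I)) - f ((10 * r : ℝ) * I)‖ ≤ U / 16 ∧
      ‖f (F (yk ρ k * I)) - x‖ ≤ U / 8 ∧
      c * U * Real.exp (-(c * k)) ≤ ups (f ∘ F) (yk ρ k * I) := by
  have hr0 := hF.pos
  have hg := comp_diff hf hF
  have him : 0 < ((ρ : ℂ) * I).im := by rw [mulI_im]; exact hρ
  have hu0 := ups_pos hf hfi him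
  have hth : th c ≤ 1 / 4000000 := by
    unfold th
    have h1 : c / 4000000 ≤ 1 / 4000000 := by linarith
    have h2 : (1:ℝ) ≤ 8 / c := by rw [le_div_iff₀ hc0]; linarith
    calc (c / 4000000) ^ (8 / c) ≤ (c / 4000000) ^ (1:ℝ) :=
          Real.rpow_le_rpow_of_exponent_ge (by positivity) (by linarith) h2
      _ = c / 4000000 := Real.rpow_one _
      _ ≤ 1 / 4000000 := h1
  have p3 : ‖f (F ((10 * r : ℝ) * I)) - f ((10 * r : ℝ) * I)‖ ≤ U / 10000 := by
    refine (dist_comp_axis hf hfi hF (y := 10 * r) le_rfl).trans ?_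
    have h3 := (ups_axis hf hfi hρ (by linarith : ρ ≤ 10 * r)).2
    refine h3.trans ?_
    have h4 : 10 * r / ρ ≤ 20 := by rw [div_le_iff₀ hρ]; linarith
    have h5 : 0 ≤ 10 * r / ρ := by positivity
    have h6 : (10 * r / ρ) ^ 2 ≤ 400 := by nlinarith
    have h7 : ups f (ρ * I) ≤ 1 / 4000000 * U :=
      hv.trans (mul_le_mul_of_nonneg_right hth hU.le)
    calc (10 * r / ρ) ^ 2 * ups f (ρ * I) ≤ 400 * (1 / 4000000 * U) :=
          mul_le_mul h6 h7 hu0.le (by norm_num)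
      _ = U / 10000 := by ring
  have hcont : ContinuousOn (fun s : ℝ => ‖f (F (s * I)) - f ((10 * r : ℝ) * I)‖)
      (Icc y (10 * r)) := by
    have h1 : ContinuousOn (fun s : ℝ => (f ∘ F) ((s : ℂ) * I)) (Icc y (10 * r)) := by
      refine hg.continuousOn.comp (by fun_prop) ?_
      intro s hs
      show 0 < ((s : ℂ) * I).im
      rw [mulI_im]
      exact lt_of_lt_of_le hy0 hs.1
    exact (h1.sub continuousOn_const).norm
  obtain ⟨y1, hy1, he1, hle1⟩ := last_crossing hy hcont hT.le (p3.trans (by linarith))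
  have hy10 : 0 < y1 := lt_of_lt_of_le hy0 hy1.1
  have hT1 : U / 20 ≤ ‖f (F (y1 * I)) - f ((10 * r : ℝ) * I)‖ := by
    have : ‖f (F (y1 * I)) - f ((10 * r : ℝ) * I)‖ = U / 16 := he1
    linarith
  obtain ⟨k, hk, hyk, hu⟩ := exists_scale' hf hfi hF hc0 hc1 hU hρ hr1 hr2 hv hy10 hy1.2 hT1
  have hk2 : ‖f (F (yk ρ k * I)) - f ((10 * r : ℝ) * I)‖ ≤ U / 16 :=
    hle1 (yk ρ k) ⟨hyk, (yk_le hρ k).trans (by linarith)⟩
  refine ⟨k, hk, hy1.1.trans hyk, hk2, ?_, hu⟩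
  have e : f (F (yk ρ k * I)) - x = (f (F (yk ρ k * I)) - f ((10 * r : ℝ) * I)) +
      (f ((10 * r : ℝ) * I) - x) := by ring
  rw [e]
  refine (norm_add_le _ _).trans ?_
  linarith

end Main

/-- the form requested by helper636 -/
theorem exists_scale636 (c : ℝ) (hc : 0 < c) : ∃ a θ : ℝ, 0 < a ∧ a < 1 ∧ 0 < θ ∧ θ < 1 ∧
    ∀ (f F : ℂ → ℂ) (ρ R U : ℝ) (x : ℂ), DifferentiableOn ℂ f Hs → InjOn f Hs → Step F R →
      0 < ρ → ρ ≤ R → R ≤ 2 * ρ → 0 < U → ups f (ρ * I) ≤ θ * U →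
      (∀ y : ℝ, 0 < y → y ≤ 20 * ρ → ‖f (y * I) - x‖ ≤ U / 32) →
      (∃ y : ℝ, 0 < y ∧ y ≤ 10 * R ∧ U / 16 < ‖f (F (y * I)) - f (F ((10 * R : ℝ) * I))‖) →
      ∃ k : ℕ, Real.exp (-(4 * ((k : ℝ) + 1))) ≤ ups f (ρ * I) / U ∧
        ‖f (F ((10 * ρ * Real.exp (-(k : ℝ)) : ℝ) * I)) - x‖ ≤ U / 8 ∧
        a * Real.exp (-(c * k)) * U ≤
          ups (f ∘ F) ((10 * ρ * Real.exp (-(k : ℝ)) : ℝ) * I) := by
  set c0 := min c 1 with hc0def
  have hc0 : 0 < c0 := lt_min hc one_pos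
  have hc1 : c0 ≤ 1 := min_le_right _ _
  have hth1 : th c0 < 1 := Real.rpow_lt_one (by positivity) (by linarith) (by positivity)
  refine ⟨c0 / 2, th c0, by positivity, by linarith, th_pos hc0, hth1, ?_⟩
  intro f F ρ R U x hf hfi hF hρ h1 h2 hU hv hx ⟨y, hy0, hy, hT⟩
  have hR := hF.pos
  have him : 0 < ((ρ : ℂ) * I).im := by rw [mulI_im]; exact hρ
  have hu0 := ups_pos hf hfi him
  obtain ⟨k, hk, -, -, hkx, hku⟩ := exists_scale_crossing hf hfi hF hc0 hc1 hU hρ h1 h2 hv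
    (hx (10 * R) (by linarith) (by linarith)) hy0 hy hT
  refine ⟨k, ?_, hkx, ?_⟩
  · have h3 : Real.log (U / ups f (ρ * I)) < 4 * ((k : ℝ) + 1) := by linarith
    have h4 : U / ups f (ρ * I) < Real.exp (4 * ((k : ℝ) + 1)) := by
      rwa [← Real.log_lt_iff_lt_exp (by positivity)]
    rw [Real.exp_neg, inv_le_comm₀ (Real.exp_pos _) (by positivity), inv_div]
    exact h4.le
  · refine le_trans ?_ hku
    have h5 : Real.exp (-(c * k)) ≤ Real.exp (-(c0 * k)) := by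
      rw [Real.exp_le_exp]
      have : c0 * (k : ℝ) ≤ c * k := mul_le_mul_of_nonneg_right (min_le_left _ _) (Nat.cast_nonneg k)
      linarith
    have h6 : 0 < Real.exp (-(c0 * k)) := Real.exp_pos _
    calc c0 / 2 * Real.exp (-(c * k)) * U ≤ c0 * Real.exp (-(c0 * k)) * U := by
          gcongr; linarith
      _ = c0 * U * Real.exp (-(c0 * k)) := by ring

end Crest.Agent.R162.LB2a
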