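import Mathlib
import Crest.Agent.R162.LB2a

/-! # Row 162, node LB2a (D): lattice of candidates -/

set_option autoImplicit false

namespace Crest.Agent.R162.LB2a

open Complex Set Metric
open Crest.Agent.R162.KB1 Crest.Agent.R162.FL Crest.Agent.R162.FLC

/-- the lattice point `δ (m₁ + i m₂)` -/
noncomputable def lat (δ : ℝ) (m : ℤ × ℤ) : ℂ := ⟨δ * m.1, δ * m.2⟩

/-- the (finite) set of indices whose lattice point may be in `closedBall x R` -/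
noncomputable def latF (δ : ℝ) (x : ℂ) (R : ℝ) : Finset (ℤ × ℤ) :=
  (Finset.Icc ⌈(x.re - R) / δ⌉ ⌊(x.re + R) / δ⌋) ×ˢ (Finset.Icc ⌈(x.im - R) / δ⌉ ⌊(x.im + R) / δ⌋)

lemma exists_lat {δ : ℝ} (hδ : 0 < δ) (p : ℂ) : ∃ m : ℤ × ℤ, ‖lat δ m - p‖ ≤ δ := by
  refine ⟨(round (p.re / δ), round (p.im / δ)), ?_⟩
  have h : ∀ a : ℝ, |δ * (round (a / δ) : ℤ) - a| ≤ δ / 2 := by
    intro a
    have h1 := abs_sub_round (a / δ)
    have h2 : δ * (round (a / δ) : ℤ) - a = -(δ * (a / δ - (round (a / δ) : ℤ))) := by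
      field_simp; ring
    rw [h2, abs_neg, abs_mul, abs_of_pos hδ]
    nlinarith
  refine (Complex.norm_le_abs_re_add_abs_im _).trans ?_
  have h1 := h p.re
  have h2 := h p.im
  simp only [lat, Complex.sub_re, Complex.sub_im]
  linarith

lemma mem_latF {δ : ℝ} (hδ : 0 < δ) {x : ℂ} {R : ℝ} {m : ℤ × ℤ} (h : ‖lat δ m - x‖ ≤ R) :
    m ∈ latF δ x R := by
  have h1 := (Complex.abs_re_le_norm (lat δ m - x)).trans h
  have h2 := (Complex.abs_im_le_norm (lat δ m - x)).trans h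
  simp only [lat, Complex.sub_re, Complex.sub_im] at h1 h2
  have h1' := abs_le.1 h1
  have h2' := abs_le.1 h2
  rw [latF, Finset.mem_product, Finset.mem_Icc, Finset.mem_Icc, Int.ceil_le, Int.le_floor,
    Int.ceil_le, Int.le_floor]
  refine ⟨⟨?_, ?_⟩, ?_, ?_⟩
  · rw [div_le_iff₀ hδ]; linarith [h1'.1]
  · rw [le_div_iff₀ hδ]; linarith [h1'.2]
  · rw [div_le_iff₀ hδ]; linarith [h2'.1]
  · rw [le_div_iff₀ hδ]; linarith [h2'.2]

lemma card_Icc_le {a b : ℝ} (h : a ≤ b) :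
    ((Finset.Icc ⌈a⌉ ⌊b⌋).card : ℝ) ≤ b - a + 1 := by
  rw [Int.card_Icc]
  have h1 : (((⌊b⌋ + 1 - ⌈a⌉).toNat : ℤ) : ℝ) ≤ b - a + 1 := by
    rw [Int.toNat_eq_max]
    push_cast
    refine max_le ?_ (by linarith)
    have := Int.floor_le b
    have := Int.le_ceil a
    linarith
  exact_mod_cast h1

lemma card_latF {δ : ℝ} (hδ : 0 < δ) (x : ℂ) {R : ℝ} (hR : 0 ≤ R) :
    ((latF δ x R).card : ℝ) ≤ (2 * R / δ + 1) ^ 2 := by
  rw [latF, Finset.card_product]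
  push_cast
  have h : ∀ a : ℝ, ((Finset.Icc ⌈(a - R) / δ⌉ ⌊(a + R) / δ⌋).card : ℝ) ≤ 2 * R / δ + 1 := by
    intro a
    refine (card_Icc_le (by gcongr; linarith)).trans (le_of_eq ?_)
    field_simp
    ring
  rw [sq]
  exact mul_le_mul (h _) (h _) (Nat.cast_nonneg _) (by positivity)

/-- candidates: fixed univalent `f`, fresh driving function `W`. -/
theorem exists_candidate {f : ℂ → ℂ} (hf : DifferentiableOn ℂ f Hs) (hfi : InjOn f Hs)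
    {W : ℝ → ℝ} (hW : ContinuousOn W (Ici 0)) {t : ℝ} (ht : 0 ≤ t) {y η δ R : ℝ} {x : ℂ}
    (hy : 0 < y) (hη : 0 < η) (hu : η ≤ ups (f ∘ ffl W t) (y * I))
    (hx : ‖f (ffl W t (y * I)) - x‖ ≤ R) (hδ : 0 < δ) (hδη : δ ≤ η / 50) :
    ∃ m ∈ latF δ x (R + δ), ∃ ζ : ℂ, 0 < ζ.im ∧ f ζ = lat δ m ∧ Alive W ζ t ∧
      ‖Zfl W t ζ‖ ≤ 2 * y ∧ y / 2 ≤ (Zfl W t ζ).im ∧
      (1 / 2 : ℝ) ≤ (Zfl W t ζ).im / ‖Zfl W t ζ‖ := by
  obtain ⟨m, hm⟩ := exists_lat hδ (f (ffl W t (y * I)))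
  have hmap : MapsTo (ffl W t) Hs Hs := fun _ hz => ffl_im_pos hW ht hz
  have hg : DifferentiableOn ℂ (f ∘ ffl W t) Hs := hf.comp (differentiableOn_ffl hW ht) hmap
  have hgi : InjOn (f ∘ ffl W t) Hs := hfi.comp (injOn_ffl hW ht) hmap
  obtain ⟨Z, hZ, hfZ, -, h2, h3, h4⟩ := exists_preimage_near hg hgi hy hη hu
    (w := lat δ m) (hm.trans hδη)
  refine ⟨m, mem_latF hδ ?_, ffl W t Z, ffl_im_pos hW ht hZ, hfZ, ffl_alive hW ht hZ, ?_⟩
  · have e : lat δ m - x = (lat δ m - f (ffl W t (y * I))) + (f (ffl W t (y * I)) - x) := by ring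
    rw [e]
    refine (norm_add_le _ _).trans ?_
    linarith
  · rw [Zfl_ffl hW ht hZ]
    exact ⟨h2, h3, h4⟩

/-- number of candidates at scale `k` with mesh `c U e^{-ck}/50` -/
lemma card_candidates {c U : ℝ} (hc0 : 0 < c) (hc1 : c ≤ 1) (hU : 0 < U) (x : ℂ) (k : ℕ) :
    ((latF (c * U * Real.exp (-(c * k)) / 50) x
      (U / 4 + c * U * Real.exp (-(c * k)) / 50)).card : ℝ) ≤
      (28 / c) ^ 2 * Real.exp (2 * c * k) := by
  have hδ : 0 < c * U * Real.exp (-(c * k)) / 50 := by positivity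
  refine (card_latF hδ x (by positivity)).trans ?_
  have e : Real.exp (2 * c * k) = Real.exp (c * k) ^ 2 := by
    rw [← Real.exp_nat_mul]; congr 1; push_cast; ring
  rw [e, ← mul_pow]
  have hE : 1 ≤ Real.exp (c * k) := Real.one_le_exp (by positivity)
  have h1 : 2 * (U / 4 + c * U * Real.exp (-(c * k)) / 50) / (c * U * Real.exp (-(c * k)) / 50) + 1 =
      25 / c * Real.exp (c * k) + 3 := by
    rw [Real.exp_neg]
    field_simp
    ring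
  rw [h1]
  have h2 : 3 ≤ 3 / c * Real.exp (c * k) := by
    have : 3 ≤ 3 / c := by rw [le_div_iff₀ hc0]; linarith
    nlinarith
  have h3 : 25 / c * Real.exp (c * k) + 3 ≤ 28 / c * Real.exp (c * k) := by
    have : 28 / c * Real.exp (c * k) = 25 / c * Real.exp (c * k) + 3 / c * Real.exp (c * k) := by
      ring
    linarith
  exact pow_le_pow_left₀ (by positivity) h3 2

/-- **LB2a, fixed `f` / fresh `W` form.** At a time `t` with `ρ ≤ r_t ≤ 2ρ` at which the new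
geodesic has a macroscopic excursion (`≥ U/20`) while it is in `ball x (U/4)`, some candidate
lattice point has `S_t ≥ 1/2`, `|Z_t| ≤ 20 ρ e^{-k}` with `k > ¼ log (U/u(iρ))`. -/
theorem lb2a {f : ℂ → ℂ} (hf : DifferentiableOn ℂ f Hs) (hfi : InjOn f Hs)
    {W : ℝ → ℝ} (hW : ContinuousOn W (Ici 0)) {t : ℝ} (ht : 0 ≤ t) {c U ρ r y : ℝ} {x : ℂ}
    (hc0 : 0 < c) (hc1 : c ≤ 1) (hU : 0 < U) (hρ : 0 < ρ) (hr1 : ρ ≤ r) (hr2 : r ≤ 2 * ρ)
    (htr : t ≤ r ^ 2) (hWr : |W t| ≤ r) (hv : ups f (ρ * I) ≤ th c * U) (hy0 : 0 < y)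
    (hy : y ≤ 10 * r) (hT : U / 20 ≤ ‖f (ffl W t (y * I)) - f ((10 * r : ℝ) * I)‖)
    (hx : ∀ y' : ℝ, 0 < y' → y' ≤ 10 * ρ → ‖f (ffl W t (y' * I)) - x‖ ≤ U / 4) :
    ∃ k : ℕ, 1 / 4 * Real.log (U / ups f (ρ * I)) < k ∧
      ∃ m ∈ latF (c * U * Real.exp (-(c * k)) / 50) x
        (U / 4 + c * U * Real.exp (-(c * k)) / 50), ∃ ζ : ℂ, 0 < ζ.im ∧
        f ζ = lat (c * U * Real.exp (-(c * k)) / 50) m ∧ Alive W ζ t ∧
        ‖Zfl W t ζ‖ ≤ 20 * ρ * Real.exp (-(k : ℝ)) ∧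
        (1 / 2 : ℝ) ≤ (Zfl W t ζ).im / ‖Zfl W t ζ‖ := by
  have hF : Step (ffl W t) r := step_of_ffl hW ht (by linarith) htr hWr
  obtain ⟨k, hk, hu⟩ := exists_scale hf hfi hF hc0 hc1 hU hρ hr1 hr2 hv hy0 hy hT
  obtain ⟨m, hm, ζ, h1, h2, h3, h4, -, h5⟩ := exists_candidate hf hfi hW ht (yk_pos hρ k)
    (by positivity : 0 < c * U * Real.exp (-(c * k))) hu (hx _ (yk_pos hρ k) (yk_le hρ k))
    (by positivity : 0 < c * U * Real.exp (-(c * k)) / 50) le_rfl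
  refine ⟨k, hk, m, hm, ζ, h1, h2, h3, ?_, h5⟩
  have : 2 * yk ρ k = 20 * ρ * Real.exp (-(k : ℝ)) := by unfold yk; ring
  linarith

end Crest.Agent.R162.LB2a
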