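import Mathlib
import Crest.Agent.R162.OSDefs

/-!
Row 162, node LB2b+c (helper636), abstract part.

* `sig hσ` : the σ-algebra `F_σ` (sets `A` with `EvST F σ A`).
* `union_bound`, `union_bound_exp` : conditional union bound over a random (F_σ-measurable) finite
  family of candidates taken from a fixed countable grid.
* `mix_bound`, `tail_bound`, `exp_moment` : the exponential moment of `Z'`.
-/

set_option autoImplicit false

open MeasureTheory Set
open scoped ENNReal NNReal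

namespace Crest.Agent.R162.LB2b

open Crest.Agent.R162.OS

section sigma

variable {Ω : Type*} {m : MeasurableSpace Ω}

/-- the σ-algebra of `σ`-past events -/
@[reducible] def sig (F : Filtration ℝ≥0 m) (σ : Ω → ℝ≥0) (hσ : IsST F σ) : MeasurableSpace Ω where
  MeasurableSet' A := EvST F σ A
  measurableSet_empty := by
    intro t
    simp
  measurableSet_compl := by
    intro A hA t
    have h1 : Aᶜ ∩ {ω | σ ω ≤ t} = {ω | σ ω ≤ t} \ (A ∩ {ω | σ ω ≤ t}) := by
      ext ω
      constructor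
      · rintro ⟨h1, h2⟩
        exact ⟨h2, fun h => h1 h.1⟩
      · rintro ⟨h1, h2⟩
        exact ⟨fun h => h2 ⟨h, h1⟩, h1⟩
    rw [h1]
    exact @MeasurableSet.diff _ (F t) _ _ (hσ t) (hA t)
  measurableSet_iUnion := by
    intro f hf t
    rw [iUnion_inter]
    exact @MeasurableSet.iUnion _ _ (F t) _ _ (fun i => hf i t)

theorem sig_iff {F : Filtration ℝ≥0 m} {σ : Ω → ℝ≥0} {hσ : IsST F σ} {A : Set Ω} :
    MeasurableSet[sig F σ hσ] A ↔ EvST F σ A := Iff.rfl

theorem sig_le (F : Filtration ℝ≥0 m) (σ : Ω → ℝ≥0) (hσ : IsST F σ) : sig F σ hσ ≤ m := by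
  intro A hA
  have h1 : A = ⋃ n : ℕ, A ∩ {ω | σ ω ≤ (n : ℝ≥0)} := by
    ext ω
    constructor
    · intro h
      obtain ⟨n, hn⟩ := exists_nat_ge (σ ω)
      exact mem_iUnion.2 ⟨n, h, hn⟩
    · intro h
      obtain ⟨n, hn⟩ := mem_iUnion.1 h
      exact hn.1
  rw [h1]
  exact MeasurableSet.iUnion (fun n => F.le _ _ (hA (n : ℝ≥0)))

end sigma

section abstract

/-- Conditional union bound (set-integral form).  `q k` bounds the conditional probability of each
candidate event of generation `k`, `N k` the number of candidates of generation `k`. -/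
theorem union_bound {Ω : Type*} (mF : MeasurableSpace Ω) [mΩ : MeasurableSpace Ω] (hle : mF ≤ mΩ)
    (P : Measure Ω)
    {ι : Type*} [Countable ι] (E Cand : ℕ → ι → Set Ω)
    (hCand : ∀ k w, MeasurableSet[mF] (Cand k w))
    (k0 : Ω → ℕ) (hk0 : ∀ k, MeasurableSet[mF] {ω | k0 ω ≤ k})
    (q N : ℕ → ℝ≥0∞)
    (hE : ∀ k w (A : Set Ω), MeasurableSet[mF] A → P (A ∩ E k w) ≤ q k * P A)
    (hN : ∀ k ω, ∑' w, (Cand k w).indicator (fun _ => (1 : ℝ≥0∞)) ω ≤ N k)
    (bad : Set Ω)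
    (hbad : ∀ ω ∈ bad, ∃ k, k0 ω ≤ k ∧ ∃ w, ω ∈ Cand k w ∧ ω ∈ E k w)
    (A : Set Ω) (hA : MeasurableSet[mF] A) :
    P (A ∩ bad) ≤ ∫⁻ ω in A, ∑' k, ({ω | k0 ω ≤ k}.indicator (fun _ => q k * N k) ω) ∂P := by
  classical
  -- the pieces
  set A' : ℕ → ι → Set Ω := fun k w => A ∩ ({ω | k0 ω ≤ k} ∩ Cand k w) with hA'
  have hA'm : ∀ k w, MeasurableSet[mF] (A' k w) := fun k w =>
    @MeasurableSet.inter _ mF _ _ hA (@MeasurableSet.inter _ mF _ _ (hk0 k) (hCand k w))
  have hsub : A ∩ bad ⊆ ⋃ k, ⋃ w, A' k w ∩ E k w := by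
    rintro ω ⟨h1, h2⟩
    obtain ⟨k, hk, w, hw, hwE⟩ := hbad ω h2
    exact mem_iUnion.2 ⟨k, mem_iUnion.2 ⟨w, ⟨h1, hk, hw⟩, hwE⟩⟩
  have hAm : MeasurableSet A := hle _ hA
  calc P (A ∩ bad) ≤ P (⋃ k, ⋃ w, A' k w ∩ E k w) := measure_mono hsub
    _ ≤ ∑' k, P (⋃ w, A' k w ∩ E k w) := measure_iUnion_le _
    _ ≤ ∑' k, ∑' w, P (A' k w ∩ E k w) := ENNReal.tsum_le_tsum (fun k => measure_iUnion_le _)
    _ ≤ ∑' k, ∑' w, q k * P (A' k w) :=
        ENNReal.tsum_le_tsum (fun k => ENNReal.tsum_le_tsum (fun w => hE k w _ (hA'm k w)))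
    _ = ∑' k, q k * ∑' w, P (A' k w) := by
        simp_rw [ENNReal.tsum_mul_left]
    _ ≤ ∑' k, ∫⁻ ω in A, ({ω | k0 ω ≤ k}.indicator (fun _ => q k * N k) ω) ∂P := by
        refine ENNReal.tsum_le_tsum (fun k => ?_)
        have hmk : MeasurableSet {ω | k0 ω ≤ k} := hle _ (hk0 k)
        have hmw : ∀ w, MeasurableSet ({ω | k0 ω ≤ k} ∩ Cand k w) := fun w =>
          hmk.inter (hle _ (hCand k w))
        have h1 : ∑' w, P (A' k w)
            = ∫⁻ ω in A, ∑' w, ({ω | k0 ω ≤ k} ∩ Cand k w).indicator (fun _ => (1 : ℝ≥0∞)) ω ∂P := by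
          rw [lintegral_tsum (fun w => (measurable_const.indicator (hmw w)).aemeasurable)]
          refine tsum_congr (fun w => ?_)
          rw [lintegral_indicator (hmw w), lintegral_const, one_mul,
            Measure.restrict_apply MeasurableSet.univ, univ_inter,
            Measure.restrict_apply (hmw w), inter_comm]
        rw [h1]
        have h2 : ∀ ω, ∑' w, ({ω | k0 ω ≤ k} ∩ Cand k w).indicator (fun _ => (1 : ℝ≥0∞)) ω
            ≤ ({ω | k0 ω ≤ k}.indicator (fun _ => N k) ω) := by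
          intro ω
          by_cases hω : k0 ω ≤ k
          · rw [indicator_of_mem (show ω ∈ {ω | k0 ω ≤ k} from hω)]
            refine le_trans (le_of_eq (tsum_congr (fun w => ?_))) (hN k ω)
            by_cases hw : ω ∈ Cand k w
            · rw [indicator_of_mem hw, indicator_of_mem
                (show ω ∈ {ω | k0 ω ≤ k} ∩ Cand k w from ⟨hω, hw⟩)]
            · rw [indicator_of_notMem hw, indicator_of_notMem (fun h => hw h.2)]
          · rw [indicator_of_notMem (show ω ∉ {ω | k0 ω ≤ k} from hω)]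
            refine le_of_eq (ENNReal.tsum_eq_zero.2 (fun w => ?_))
            exact indicator_of_notMem (fun h => hω h.1) _
        calc q k * ∫⁻ ω in A, ∑' w, ({ω | k0 ω ≤ k} ∩ Cand k w).indicator
                (fun _ => (1 : ℝ≥0∞)) ω ∂P
            ≤ q k * ∫⁻ ω in A, ({ω | k0 ω ≤ k}.indicator (fun _ => N k) ω) ∂P := by
              gcongr with ω
              exact h2 ω
          _ = ∫⁻ ω in A, q k * ({ω | k0 ω ≤ k}.indicator (fun _ => N k) ω) ∂P := by
              rw [lintegral_const_mul _ (measurable_const.indicator hmk)]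
          _ = ∫⁻ ω in A, ({ω | k0 ω ≤ k}.indicator (fun _ => q k * N k) ω) ∂P := by
              refine lintegral_congr (fun ω => ?_)
              by_cases hω : ω ∈ {ω | k0 ω ≤ k}
              · rw [indicator_of_mem hω, indicator_of_mem hω]
              · rw [indicator_of_notMem hω, indicator_of_notMem hω, mul_zero]
    _ = ∫⁻ ω in A, ∑' k, ({ω | k0 ω ≤ k}.indicator (fun _ => q k * N k) ω) ∂P := by
        rw [lintegral_tsum (fun k => (measurable_const.indicator (hle _ (hk0 k))).aemeasurable)]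

/-- the geometric tail `Σ_{k ≥ k0} C e^{-c' k} N e^{2 c k}` -/
theorem geom_tail {a : ℝ} (ha : 0 < a) {C : ℝ} (hC : 0 ≤ C) (k0 : ℕ) :
    ∑' k : ℕ, (if k0 ≤ k then ENNReal.ofReal (C * Real.exp (-(a * k))) else 0)
      ≤ ENNReal.ofReal (C / (1 - Real.exp (-a)) * Real.exp (-(a * k0))) := by
  have hr0 : 0 ≤ Real.exp (-a) := (Real.exp_pos _).le
  have hr1 : Real.exp (-a) < 1 := by
    rw [Real.exp_lt_one_iff]
    linarith
  have h1 : ∀ k : ℕ, Real.exp (-(a * k)) = Real.exp (-a) ^ k := by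
    intro k
    rw [← Real.exp_nat_mul]
    congr 1
    ring
  have hinj : Function.Injective (fun j : ℕ => j + k0) := fun a b h => by
    simpa using h
  have h2 : ∑' k : ℕ, (if k0 ≤ k then ENNReal.ofReal (C * Real.exp (-(a * k))) else 0)
      = ∑' j : ℕ, ENNReal.ofReal (C * Real.exp (-(a * ((j + k0 : ℕ) : ℝ)))) := by
    rw [← hinj.tsum_eq (f := fun k : ℕ =>
      (if k0 ≤ k then ENNReal.ofReal (C * Real.exp (-(a * k))) else 0))]
    · refine tsum_congr (fun j => ?_)
      rw [if_pos (Nat.le_add_left k0 j)]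
    · intro k hk
      rw [Function.mem_support] at hk
      by_cases h : k0 ≤ k
      · exact ⟨k - k0, Nat.sub_add_cancel h⟩
      · exact absurd (if_neg h) hk
  rw [h2]
  have h3 : ∀ j : ℕ, C * Real.exp (-(a * ((j + k0 : ℕ) : ℝ)))
      = (C * Real.exp (-(a * k0))) * Real.exp (-a) ^ j := by
    intro j
    rw [h1 (j + k0), h1 k0, pow_add]
    ring
  simp_rw [h3]
  have hs : Summable (fun j : ℕ => (C * Real.exp (-(a * k0))) * Real.exp (-a) ^ j) :=
    (summable_geometric_of_lt_one hr0 hr1).mul_left _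
  rw [← ENNReal.ofReal_tsum_of_nonneg (fun j => by positivity) hs, tsum_mul_left,
    tsum_geometric_of_lt_one hr0 hr1]
  refine ENNReal.ofReal_le_ofReal (le_of_eq ?_)
  field_simp

/-- Conditional union bound with exponential bounds. -/
theorem union_bound_exp {Ω : Type*} (mF : MeasurableSpace Ω) [mΩ : MeasurableSpace Ω]
    (hle : mF ≤ mΩ) (P : Measure Ω)
    {ι : Type*} [Countable ι] (E Cand : ℕ → ι → Set Ω)
    (hCand : ∀ k w, MeasurableSet[mF] (Cand k w))
    (k0 : Ω → ℕ) (hk0 : ∀ k, MeasurableSet[mF] {ω | k0 ω ≤ k})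
    {C c' N c : ℝ} (hC : 0 ≤ C) (hN0 : 0 ≤ N) (hc : 2 * c < c')
    (hE : ∀ k w (A : Set Ω), MeasurableSet[mF] A →
      P (A ∩ E k w) ≤ ENNReal.ofReal (C * Real.exp (-(c' * k))) * P A)
    (hN : ∀ k ω, ∑' w, (Cand k w).indicator (fun _ => (1 : ℝ≥0∞)) ω
      ≤ ENNReal.ofReal (N * Real.exp (2 * c * k)))
    (bad : Set Ω)
    (hbad : ∀ ω ∈ bad, ∃ k, k0 ω ≤ k ∧ ∃ w, ω ∈ Cand k w ∧ ω ∈ E k w)
    (A : Set Ω) (hA : MeasurableSet[mF] A) :
    P (A ∩ bad) ≤ ∫⁻ ω in A, ENNReal.ofReal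
      (C * N / (1 - Real.exp (-(c' - 2 * c))) * Real.exp (-((c' - 2 * c) * k0 ω))) ∂P := by
  refine (union_bound mF hle P E Cand hCand k0 hk0 _ _ hE hN bad hbad A hA).trans ?_
  refine lintegral_mono (fun ω => ?_)
  refine le_trans (le_of_eq ?_) (geom_tail (a := c' - 2 * c) (by linarith) (C := C * N)
    (by positivity) (k0 ω))
  refine tsum_congr (fun k => ?_)
  by_cases h : k0 ω ≤ k
  · rw [indicator_of_mem (show ω ∈ {ω | k0 ω ≤ k} from h), if_pos h,
      ← ENNReal.ofReal_mul (by positivity)]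
    congr 1
    have : Real.exp (-((c' - 2 * c) * k)) = Real.exp (-(c' * k)) * Real.exp (2 * c * k) := by
      rw [← Real.exp_add]
      congr 1
      ring
    rw [this]
    ring
  · rw [indicator_of_notMem (show ω ∉ {ω | k0 ω ≤ k} from h), if_neg h]

end abstract

end Crest.Agent.R162.LB2b
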