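import Mathlib
import Crest.Agent.R162.LB2b

/-!
Row 162, node LB2c (helper636): exponential moment of `Z'` (deterministic parameters).
-/

set_option autoImplicit false

open MeasureTheory Set
open scoped ENNReal NNReal

namespace Crest.Agent.R162.LB2c

/-- `min a b ≤ (a b)^{1/2}` -/
theorem min_le_sqrt {a b x : ℝ≥0∞} (ha : x ≤ a) (hb : x ≤ b) :
    x ≤ a ^ (1 / 2 : ℝ) * b ^ (1 / 2 : ℝ) := by
  calc x = x ^ (1 / 2 : ℝ) * x ^ (1 / 2 : ℝ) := by
        rw [← ENNReal.rpow_add_of_nonneg _ _ (by norm_num) (by norm_num)]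
        norm_num
    _ ≤ a ^ (1 / 2 : ℝ) * b ^ (1 / 2 : ℝ) := by gcongr

/-- pointwise: `e^{cz} ≤ 1 + Σ_n (e^{c(n+1)} - e^{cn}) 1_{n<z}` -/
theorem exp_le_tsum {c : ℝ} (hc : 0 ≤ c) (z : ℝ) :
    ENNReal.ofReal (Real.exp (c * z)) ≤ 1 + ∑' n : ℕ,
      (if (n : ℝ) < z then ENNReal.ofReal (Real.exp (c * (n + 1)) - Real.exp (c * n)) else 0) := by
  rcases le_or_gt z 0 with hz | hz
  · refine le_trans ?_ (le_add_right le_rfl)
    rw [← ENNReal.ofReal_one]
    refine ENNReal.ofReal_le_ofReal ?_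
    rw [Real.exp_le_one_iff]
    exact mul_nonpos_of_nonneg_of_nonpos hc hz
  · -- let N = ⌈z⌉₊
    set N := ⌈z⌉₊ with hN
    have h1 : ∀ n ∈ Finset.range N, (n : ℝ) < z := by
      intro n hn
      rw [Finset.mem_range] at hn
      exact Nat.lt_ceil.1 hn
    have h2 : z ≤ N := Nat.le_ceil z
    calc ENNReal.ofReal (Real.exp (c * z)) ≤ ENNReal.ofReal (Real.exp (c * N)) := by
          refine ENNReal.ofReal_le_ofReal (Real.exp_le_exp.2 ?_)
          exact mul_le_mul_of_nonneg_left h2 hc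
      _ = ENNReal.ofReal (1 + ∑ n ∈ Finset.range N,
            (Real.exp (c * (n + 1)) - Real.exp (c * n))) := by
          congr 1
          have := Finset.sum_range_sub (fun n : ℕ => Real.exp (c * n)) N
          push_cast at this
          rw [this]
          simp
      _ = 1 + ∑ n ∈ Finset.range N,
            ENNReal.ofReal (Real.exp (c * (n + 1)) - Real.exp (c * n)) := by
          have hnn : ∀ n ∈ Finset.range N, 0 ≤ Real.exp (c * (n + 1)) - Real.exp (c * n) := by
            intro n _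
            rw [sub_nonneg]
            refine Real.exp_le_exp.2 ?_
            nlinarith
          rw [ENNReal.ofReal_add zero_le_one (Finset.sum_nonneg hnn), ENNReal.ofReal_one,
            ENNReal.ofReal_sum_of_nonneg hnn]
      _ = 1 + ∑ n ∈ Finset.range N, (if (n : ℝ) < z then
            ENNReal.ofReal (Real.exp (c * (n + 1)) - Real.exp (c * n)) else 0) := by
          congr 1
          refine Finset.sum_congr rfl (fun n hn => ?_)
          rw [if_pos (h1 n hn)]
      _ ≤ _ := by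
          gcongr
          exact ENNReal.sum_le_tsum _

/-- Exponential moment from tails, `P(Z > n) ≤ D e^{-a n}`, `a = c''/2`. -/
theorem exp_moment_tail {Ω : Type*} [MeasurableSpace Ω] (P : Measure Ω) [IsProbabilityMeasure P]
    (Z : Ω → ℝ) {a D : ℝ} (ha : 0 < a) (hD : 0 ≤ D)
    (htail : ∀ n : ℕ, P {ω | (n : ℝ) < Z ω} ≤ ENNReal.ofReal (D * Real.exp (-(a * n))))
    {c : ℝ} (hc : 0 ≤ c) (hca : c ≤ a / 2) :
    ∫⁻ ω, ENNReal.ofReal (Real.exp (c * Z ω)) ∂P
      ≤ ENNReal.ofReal (1 + Real.exp (a / 2) * D / (1 - Real.exp (-(a / 2))) * c) := by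
  set b : ℕ → ℝ := fun n => Real.exp (c * (n + 1)) - Real.exp (c * n) with hb
  have hb0 : ∀ n, 0 ≤ b n := by
    intro n
    simp only [hb]
    rw [sub_nonneg]
    refine Real.exp_le_exp.2 ?_
    nlinarith
  have hb1 : ∀ n : ℕ, b n ≤ c * Real.exp (a / 2) * Real.exp (a / 2 * n) := by
    intro n
    have h1 : b n = Real.exp (c * n) * (Real.exp c - 1) := by
      simp only [hb]
      rw [mul_add, mul_one, Real.exp_add]
      ring
    have h2 : Real.exp c - 1 ≤ c * Real.exp c := by
      have h3 := Real.add_one_le_exp (-c)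
      have h4 : Real.exp c * Real.exp (-c) = 1 := by
        rw [← Real.exp_add]; simp
      nlinarith [Real.exp_pos c]
    have h5 : Real.exp c ≤ Real.exp (a / 2) := Real.exp_le_exp.2 hca
    have h6 : Real.exp (c * n) ≤ Real.exp (a / 2 * n) :=
      Real.exp_le_exp.2 (mul_le_mul_of_nonneg_right hca (Nat.cast_nonneg n))
    rw [h1]
    calc Real.exp (c * n) * (Real.exp c - 1)
        ≤ Real.exp (c * n) * (c * Real.exp c) := by gcongr
      _ ≤ Real.exp (a / 2 * n) * (c * Real.exp (a / 2)) := by gcongr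
      _ = _ := by ring
  set H : ℕ → Set Ω := fun n => toMeasurable P {ω | (n : ℝ) < Z ω} with hH
  have hHm : ∀ n, MeasurableSet (H n) := fun n => measurableSet_toMeasurable _ _
  have h1 : ∀ ω, ENNReal.ofReal (Real.exp (c * Z ω))
      ≤ 1 + ∑' n : ℕ, (H n).indicator (fun _ => ENNReal.ofReal (b n)) ω := by
    intro ω
    refine (exp_le_tsum hc (Z ω)).trans ?_
    gcongr with n
    by_cases h : (n : ℝ) < Z ω
    · rw [if_pos h, indicator_of_mem (subset_toMeasurable P _ h)]
    · rw [if_neg h]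
      exact zero_le
  calc ∫⁻ ω, ENNReal.ofReal (Real.exp (c * Z ω)) ∂P
      ≤ ∫⁻ ω, (1 + ∑' n : ℕ, (H n).indicator (fun _ => ENNReal.ofReal (b n)) ω) ∂P :=
        lintegral_mono h1
    _ = 1 + ∑' n : ℕ, ENNReal.ofReal (b n) * P {ω | (n : ℝ) < Z ω} := by
        rw [lintegral_add_left measurable_const, lintegral_const, measure_univ, one_mul,
          lintegral_tsum (fun n => (measurable_const.indicator (hHm n)).aemeasurable)]
        congr 1
        refine tsum_congr (fun n => ?_)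
        rw [lintegral_indicator (hHm n), setLIntegral_const, measure_toMeasurable]
    _ ≤ 1 + ∑' n : ℕ, ENNReal.ofReal ((c * Real.exp (a / 2) * D) * Real.exp (-(a / 2 * n))) := by
        gcongr with n
        refine (mul_le_mul' (ENNReal.ofReal_le_ofReal (hb1 n)) (htail n)).trans ?_
        rw [← ENNReal.ofReal_mul (by positivity)]
        refine ENNReal.ofReal_le_ofReal (le_of_eq ?_)
        have : Real.exp (-(a / 2 * n)) = Real.exp (a / 2 * n) * Real.exp (-(a * n)) := by
          rw [← Real.exp_add]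
          congr 1
          ring
        rw [this]
        ring
    _ ≤ 1 + ENNReal.ofReal ((c * Real.exp (a / 2) * D) / (1 - Real.exp (-(a / 2)))) := by
        have h2 := LB2b.geom_tail (a := a / 2) (by linarith) (C := c * Real.exp (a / 2) * D)
          (by positivity) 0
        simp only [Nat.zero_le, if_true, Nat.cast_zero, mul_zero, neg_zero, Real.exp_zero,
          mul_one] at h2
        gcongr
    _ = _ := by
        have h3 : Real.exp (-(a / 2)) < 1 := by
          rw [Real.exp_lt_one_iff]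
          linarith
        have h4 : 0 ≤ (c * Real.exp (a / 2) * D) / (1 - Real.exp (-(a / 2))) := by
          apply div_nonneg (by positivity)
          linarith
        rw [← ENNReal.ofReal_one, ← ENNReal.ofReal_add zero_le_one h4]
        congr 1
        ring

/-- **Exponential moment with scale decomposition.**  `S j` = "T at scale j". -/
theorem exp_moment {Ω : Type*} [MeasurableSpace Ω] (P : Measure Ω) [IsProbabilityMeasure P]
    {ι : Type*} [Countable ι] (Z : Ω → ℝ) (S : ι → Set Ω)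
    {c'' C0 C1 : ℝ} (hc'' : 0 < c'') (hC0 : 0 ≤ C0) (hC1 : 0 ≤ C1)
    (p : ι → ℝ≥0∞)
    (htail : ∀ j (n : ℕ), P ({ω | (n : ℝ) < Z ω} ∩ S j)
      ≤ ENNReal.ofReal (C0 * Real.exp (-(c'' * n))))
    (hp : ∀ j, P (S j) ≤ p j)
    (hsum : ∑' j, (p j) ^ (1 / 2 : ℝ) ≤ ENNReal.ofReal C1)
    (hcov : ∀ᵐ ω ∂P, ω ∈ ⋃ j, S j)
    {c : ℝ} (hc : 0 ≤ c) (hca : c ≤ c'' / 4) :
    ∫⁻ ω, ENNReal.ofReal (Real.exp (c * Z ω)) ∂P
      ≤ ENNReal.ofReal (1 + Real.exp (c'' / 4) * (Real.sqrt C0 * C1)
          / (1 - Real.exp (-(c'' / 4))) * c) := by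
  have h1 : ∀ n : ℕ, P {ω | (n : ℝ) < Z ω}
      ≤ ENNReal.ofReal ((Real.sqrt C0 * C1) * Real.exp (-(c'' / 2 * n))) := by
    intro n
    have hnull : P (⋃ j, S j)ᶜ = 0 := ae_iff.1 hcov
    have hsub : {ω | (n : ℝ) < Z ω} ⊆ (⋃ j, ({ω | (n : ℝ) < Z ω} ∩ S j)) ∪ (⋃ j, S j)ᶜ := by
      intro ω hω
      by_cases h : ω ∈ ⋃ j, S j
      · left
        rw [← inter_iUnion]
        exact ⟨hω, h⟩
      · right
        exact h
    calc P {ω | (n : ℝ) < Z ω}
        ≤ P (⋃ j, ({ω | (n : ℝ) < Z ω} ∩ S j)) + P (⋃ j, S j)ᶜ :=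
          (measure_mono hsub).trans (measure_union_le _ _)
      _ = P (⋃ j, ({ω | (n : ℝ) < Z ω} ∩ S j)) := by rw [hnull, add_zero]
      _ ≤ ∑' j, P ({ω | (n : ℝ) < Z ω} ∩ S j) := measure_iUnion_le _
      _ ≤ ∑' j, (ENNReal.ofReal (C0 * Real.exp (-(c'' * n)))) ^ (1 / 2 : ℝ)
            * (p j) ^ (1 / 2 : ℝ) :=
          ENNReal.tsum_le_tsum (fun j => min_le_sqrt (htail j n)
            ((measure_mono inter_subset_right).trans (hp j)))
      _ = (ENNReal.ofReal (C0 * Real.exp (-(c'' * n)))) ^ (1 / 2 : ℝ)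
            * ∑' j, (p j) ^ (1 / 2 : ℝ) := ENNReal.tsum_mul_left
      _ ≤ (ENNReal.ofReal (C0 * Real.exp (-(c'' * n)))) ^ (1 / 2 : ℝ) * ENNReal.ofReal C1 := by
          gcongr
      _ = ENNReal.ofReal ((Real.sqrt C0 * C1) * Real.exp (-(c'' / 2 * n))) := by
          rw [ENNReal.ofReal_rpow_of_nonneg (by positivity) (by norm_num),
            ← ENNReal.ofReal_mul (by positivity), Real.mul_rpow hC0 (Real.exp_pos _).le,
            ← Real.sqrt_eq_rpow, ← Real.exp_mul]
          congr 1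
          have : -(c'' * n) * (1 / 2 : ℝ) = -(c'' / 2 * n) := by ring
          rw [this]
          ring
  have h2 := exp_moment_tail P Z (a := c'' / 2) (D := Real.sqrt C0 * C1) (by linarith)
    (by positivity) h1 hc (by linarith)
  have h3 : c'' / 2 / 2 = c'' / 4 := by ring
  rw [h3] at h2
  exact h2

end Crest.Agent.R162.LB2c
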