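import Mathlib
import Crest.Agent.R162.FLC2
import Crest.Agent.R162.KB1H
import Crest.Agent.R162.Base
import Crest.Agent.R162.LB2c

/-!
Row 162, node LB2b+c (helper636): the KEY lemma (grid + OP3 + Koebe) for a fixed univalent `f` and a
fresh driving path.
-/

set_option autoImplicit false

open MeasureTheory Set Metric
open scoped ENNReal NNReal

namespace Crest.Agent.R162.LB2d

open Crest.Agent.R162.FL Crest.Agent.R162.FLC Crest.Agent.R162.KB1 Crest.Agent.R162.OP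

/-! ### deterministic part -/

section det

variable {W : ℝ → ℝ} {t : ℝ} {f : ℂ → ℂ}

theorem mapsTo_ffl (hW : ContinuousOn W (Ici 0)) (ht : 0 ≤ t) : MapsTo (ffl W t) Hs Hs :=
  fun _ hz => ffl_im_pos hW ht hz

theorem diffOn_comp (hW : ContinuousOn W (Ici 0)) (ht : 0 ≤ t) (hf : DifferentiableOn ℂ f Hs) :
    DifferentiableOn ℂ (f ∘ ffl W t) Hs :=
  hf.comp (differentiableOn_ffl hW ht) (mapsTo_ffl hW ht)

theorem injOn_comp (hW : ContinuousOn W (Ici 0)) (ht : 0 ≤ t) (hfi : InjOn f Hs) :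
    InjOn (f ∘ ffl W t) Hs :=
  hfi.comp (injOn_ffl hW ht) (mapsTo_ffl hW ht)

/-- Koebe: a point close to `h(iy)` is `h(Z)` with `Z` close to `iy`. -/
theorem exists_close {h : ℂ → ℂ} (hh : DifferentiableOn ℂ h Hs) (hi : InjOn h Hs) {y : ℝ}
    (hy : 0 < y) {w : ℂ} (hw : ‖w - h (y * Complex.I)‖ ≤ KB1.ups h (y * Complex.I) / 16) :
    ∃ Z ∈ Hs, h Z = w ∧ ‖Z‖ ≤ 2 * y ∧ 1 / 2 ≤ Z.im / ‖Z‖ := by
  have hyI : ((y : ℂ) * Complex.I) ∈ Hs := by
    show 0 < ((y : ℂ) * Complex.I).im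
    simpa using hy
  have hu : 0 < KB1.ups h (y * Complex.I) := ups_pos hh hi hyI
  have hmem : w ∈ ball (h (y * Complex.I)) (KB1.ups h (y * Complex.I) / 2) := by
    rw [mem_ball, dist_eq_norm]
    linarith
  obtain ⟨Z, hZ, hZw⟩ := ball_subset_image hh hi hyI hmem
  refine ⟨Z, hZ, hZw, ?_⟩
  have h1 := ups_le_norm_sub hh hi hyI hZ
  rw [hZw] at h1
  have h2 : phd (y * Complex.I) Z ≤ 1 / 8 := by
    have : KB1.ups h (y * Complex.I) * phd (y * Complex.I) Z / 2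
        ≤ KB1.ups h (y * Complex.I) / 16 := h1.trans hw
    by_contra hcon
    push Not at hcon
    have : KB1.ups h (y * Complex.I) * (1 / 8)
        < KB1.ups h (y * Complex.I) * phd (y * Complex.I) Z := mul_lt_mul_of_pos_left hcon hu
    linarith
  have hne : 0 < ‖Z - (starRingEnd ℂ) (y * Complex.I)‖ :=
    norm_pos_iff.2 (sub_conj_ne hyI hZ)
  have h3 : ‖Z - y * Complex.I‖ ≤ 1 / 8 * ‖Z - (starRingEnd ℂ) (y * Complex.I)‖ := by
    rw [phd, div_le_iff₀ hne] at h2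
    exact h2
  have h4 : ‖Z - (starRingEnd ℂ) (y * Complex.I)‖ ≤ ‖Z - y * Complex.I‖ + 2 * y := by
    have e1 : Z - (starRingEnd ℂ) (y * Complex.I) = (Z - y * Complex.I) + 2 * y * Complex.I := by
      simp only [map_mul, Complex.conj_ofReal, Complex.conj_I]
      ring
    rw [e1]
    refine (norm_add_le _ _).trans ?_
    have e2 : ‖(2 : ℂ) * y * Complex.I‖ = 2 * y := by
      simp [abs_of_pos hy]
    rw [e2]
  have h5 : ‖Z - y * Complex.I‖ ≤ 2 / 7 * y := by linarith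
  have h6 : ‖Z‖ ≤ 9 / 7 * y := by
    have e1 : Z = (Z - y * Complex.I) + y * Complex.I := by ring
    have e2 : ‖(y : ℂ) * Complex.I‖ = y := by simp [abs_of_pos hy]
    calc ‖Z‖ = ‖(Z - y * Complex.I) + y * Complex.I‖ := by rw [← e1]
      _ ≤ ‖Z - y * Complex.I‖ + ‖(y : ℂ) * Complex.I‖ := norm_add_le _ _
      _ ≤ 9 / 7 * y := by rw [e2]; linarith
  have h7 : 5 / 7 * y ≤ Z.im := by
    have e1 : |(Z - y * Complex.I).im| ≤ ‖Z - y * Complex.I‖ := Complex.abs_im_le_norm _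
    have e2 : (Z - y * Complex.I).im = Z.im - y := by simp
    rw [e2] at e1
    have := abs_le.1 (e1.trans h5)
    linarith [this.1]
  have hZpos : 0 < ‖Z‖ := by
    have : 0 < Z.im := hZ
    exact lt_of_lt_of_le this (Complex.im_le_norm Z)
  refine ⟨by linarith, ?_⟩
  rw [le_div_iff₀ hZpos]
  nlinarith

/-- the preimage of `w` under `f` (or `I`) -/
noncomputable def pre (f : ℂ → ℂ) (w : ℂ) : ℂ :=
  open Classical in if h : ∃ z ∈ Hs, f z = w then h.choose else Complex.I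

theorem pre_im (f : ℂ → ℂ) (w : ℂ) : 0 < (pre f w).im := by
  unfold pre
  split_ifs with h
  · exact h.choose_spec.1
  · simp

theorem pre_eq (hfi : InjOn f Hs) {z : ℂ} (hz : z ∈ Hs) : pre f (f z) = z := by
  have h : ∃ z' ∈ Hs, f z' = f z := ⟨z, hz, rfl⟩
  unfold pre
  rw [dif_pos h]
  exact hfi h.choose_spec.1 hz h.choose_spec.2

/-- deterministic half of KEY. -/
theorem key_det (hf : DifferentiableOn ℂ f Hs) (hfi : InjOn f Hs)
    (hW : ContinuousOn W (Ici 0)) (ht : 0 ≤ t) {y : ℝ} (hy : 0 < y) {w : ℂ}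
    (hw : ‖w - (f ∘ ffl W t) (y * Complex.I)‖ ≤ KB1.ups (f ∘ ffl W t) (y * Complex.I) / 16) :
    Alive W (pre f w) t ∧ 1 / 2 ≤ sfl W t (pre f w) ∧ ‖Zfl W t (pre f w)‖ ≤ 2 * y := by
  obtain ⟨Z, hZ, hZw, hn, hs⟩ := exists_close (diffOn_comp hW ht hf) (injOn_comp hW ht hfi) hy hw
  have h1 : pre f w = ffl W t Z := by
    rw [← hZw]
    exact pre_eq hfi (mapsTo_ffl hW ht hZ)
  have h2 : Zfl W t (ffl W t Z) = Z := Zfl_ffl hW ht hZ
  rw [h1]
  refine ⟨ffl_alive hW ht hZ, ?_, ?_⟩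
  · rw [sfl, h2]
    exact hs
  · rw [h2]
    exact hn

end det

/-! ### the grid -/

/-- grid point -/
noncomputable def gp (x : ℂ) (δ : ℝ) (j : ℤ × ℤ) : ℂ := x + δ * ((j.1 : ℂ) + (j.2 : ℂ) * Complex.I)

theorem exists_grid {x p : ℂ} {δ : ℝ} (hδ : 0 < δ) {M : ℕ} (hM : ‖p - x‖ ≤ M * δ) :
    ∃ j ∈ (Finset.Icc (-(M : ℤ)) M ×ˢ Finset.Icc (-(M : ℤ)) M), ‖gp x δ j - p‖ ≤ δ := by
  set a : ℝ := (p - x).re / δ with ha
  set b : ℝ := (p - x).im / δ with hb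
  have hre : |a| ≤ M := by
    rw [ha, abs_div, abs_of_pos hδ, div_le_iff₀ hδ]
    exact (Complex.abs_re_le_norm _).trans hM
  have him : |b| ≤ M := by
    rw [hb, abs_div, abs_of_pos hδ, div_le_iff₀ hδ]
    exact (Complex.abs_im_le_norm _).trans hM
  have key : ∀ r : ℝ, |r| ≤ M → round r ∈ Finset.Icc (-(M : ℤ)) M := by
    intro r hr
    rw [Finset.mem_Icc]
    have h1 := abs_le.1 hr
    constructor
    · have h2 : round (-(M : ℝ)) ≤ round r := by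
        rw [round_eq, round_eq]
        exact Int.floor_le_floor (by linarith [h1.1])
      have h3 : round (-(M : ℝ)) = -(M : ℤ) := by
        have : (-(M : ℝ)) = ((-(M : ℤ) : ℤ) : ℝ) := by push_cast; rfl
        rw [this, round_intCast]
      rw [h3] at h2
      exact h2
    · have h2 : round r ≤ round (M : ℝ) := by
        rw [round_eq, round_eq]
        exact Int.floor_le_floor (by linarith [h1.2])
      rw [round_natCast] at h2
      exact h2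
  refine ⟨(round a, round b), Finset.mem_product.2 ⟨key a hre, key b him⟩, ?_⟩
  have e1 : gp x δ (round a, round b) - p
      = ((δ * ((round a : ℝ) - a) : ℝ) : ℂ) + ((δ * ((round b : ℝ) - b) : ℝ) : ℂ) * Complex.I := by
    apply Complex.ext
    · simp [gp, ha]
      field_simp
      ring
    · simp [gp, hb]
      field_simp
      ring
  rw [e1]
  have h1 : |(round a : ℝ) - a| ≤ 1 / 2 := by
    rw [abs_sub_comm]
    exact abs_sub_round a
  have h2 : |(round b : ℝ) - b| ≤ 1 / 2 := by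
    rw [abs_sub_comm]
    exact abs_sub_round b
  refine (norm_add_le _ _).trans ?_
  rw [norm_mul, Complex.norm_I, mul_one, Complex.norm_real, Complex.norm_real, Real.norm_eq_abs,
    Real.norm_eq_abs, abs_mul, abs_mul, abs_of_pos hδ]
  nlinarith

/-- **KEY lemma.** -/
theorem key {Ω : Type*} [MeasurableSpace Ω] (P : Measure Ω) (W : Ω → ℝ → ℝ)
    (hW : ∀ ω, ContinuousOn (W ω) (Ici 0)) (R : Ω → ℝ → ℝ) {C c' : ℝ} (hC : 0 ≤ C)
    (hOP3 : ∀ z : ℂ, 0 < z.im → ∀ lam : ℝ, 0 < lam →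
      P {ω | ∃ t, 0 ≤ t ∧ Alive (W ω) z t ∧ 1 / 2 ≤ sfl (W ω) t z
        ∧ ‖Zfl (W ω) t z‖ ≤ lam * R ω t} ≤ ENNReal.ofReal (C * lam ^ c'))
    {f : ℂ → ℂ} (hf : DifferentiableOn ℂ f Hs) (hfi : InjOn f Hs) (x : ℂ) {U a y ρ : ℝ}
    (hU : 0 < U) (ha : 0 < a) (ha1 : a ≤ 1) (hy : 0 < y) (hρ : 0 < ρ) :
    P {ω | ∃ t, 0 ≤ t ∧ ρ ≤ R ω t ∧ ‖(f ∘ ffl (W ω) t) (y * Complex.I) - x‖ ≤ U / 8
        ∧ a * U ≤ KB1.ups (f ∘ ffl (W ω) t) (y * Complex.I)}
      ≤ ENNReal.ofReal (49 * C / a ^ 2 * (2 * y / ρ) ^ c') := by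
  classical
  set δ : ℝ := a * U / 16 with hδ
  have hδ0 : 0 < δ := by positivity
  set M : ℕ := ⌈2 / a⌉₊ with hM
  set I : Finset (ℤ × ℤ) := (Finset.Icc (-(M : ℤ)) M ×ˢ Finset.Icc (-(M : ℤ)) M) with hI
  set lam : ℝ := 2 * y / ρ with hlam
  have hlam0 : 0 < lam := by positivity
  have hMδ : U / 8 ≤ M * δ := by
    have h1 : 2 / a ≤ M := Nat.le_ceil _
    have h2 : U / 8 = 2 / a * δ := by
      rw [hδ]
      field_simp
      ring
    rw [h2]
    gcongr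
  have hsub : {ω | ∃ t, 0 ≤ t ∧ ρ ≤ R ω t ∧ ‖(f ∘ ffl (W ω) t) (y * Complex.I) - x‖ ≤ U / 8
        ∧ a * U ≤ KB1.ups (f ∘ ffl (W ω) t) (y * Complex.I)}
      ⊆ ⋃ j ∈ I, {ω | ∃ t, 0 ≤ t ∧ Alive (W ω) (pre f (gp x δ j)) t
        ∧ 1 / 2 ≤ sfl (W ω) t (pre f (gp x δ j))
        ∧ ‖Zfl (W ω) t (pre f (gp x δ j))‖ ≤ lam * R ω t} := by
    rintro ω ⟨t, ht, hρt, hclose, hups⟩
    obtain ⟨j, hj, hjd⟩ := exists_grid (x := x) hδ0 (hclose.trans hMδ)
    refine mem_iUnion₂.2 ⟨j, hj, t, ht, ?_⟩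
    have h1 : ‖gp x δ j - (f ∘ ffl (W ω) t) (y * Complex.I)‖
        ≤ KB1.ups (f ∘ ffl (W ω) t) (y * Complex.I) / 16 := by
      refine hjd.trans ?_
      rw [hδ]
      linarith
    obtain ⟨h2, h3, h4⟩ := key_det hf hfi (hW ω) ht hy h1
    refine ⟨h2, h3, h4.trans ?_⟩
    rw [hlam, div_mul_eq_mul_div, le_div_iff₀ hρ]
    gcongr
  have hcard : (I.card : ℝ) ≤ 49 / a ^ 2 := by
    have h1 : (M : ℝ) ≤ 2 / a + 1 := (Nat.ceil_lt_add_one (by positivity)).le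
    have h2 : I.card = (2 * M + 1) ^ 2 := by
      rw [hI, Finset.card_product, Int.card_Icc]
      have : ((M : ℤ) + 1 - -(M : ℤ)).toNat = 2 * M + 1 := by omega
      rw [this]
      ring
    rw [h2]
    push_cast
    have h3 : (2 * (M : ℝ) + 1) ≤ 7 / a := by
      have : (3 : ℝ) ≤ 3 / a := by
        rw [le_div_iff₀ ha]
        linarith
      calc 2 * (M : ℝ) + 1 ≤ 2 * (2 / a + 1) + 1 := by linarith
        _ = 4 / a + 3 := by ring
        _ ≤ 4 / a + 3 / a := by linarith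
        _ = 7 / a := by ring
    calc (2 * (M : ℝ) + 1) ^ 2 ≤ (7 / a) ^ 2 := by gcongr
      _ = 49 / a ^ 2 := by ring
  calc P _ ≤ P (⋃ j ∈ I, {ω | ∃ t, 0 ≤ t ∧ Alive (W ω) (pre f (gp x δ j)) t
        ∧ 1 / 2 ≤ sfl (W ω) t (pre f (gp x δ j))
        ∧ ‖Zfl (W ω) t (pre f (gp x δ j))‖ ≤ lam * R ω t}) := measure_mono hsub
    _ ≤ ∑ j ∈ I, P {ω | ∃ t, 0 ≤ t ∧ Alive (W ω) (pre f (gp x δ j)) t
        ∧ 1 / 2 ≤ sfl (W ω) t (pre f (gp x δ j))
        ∧ ‖Zfl (W ω) t (pre f (gp x δ j))‖ ≤ lam * R ω t} := measure_biUnion_finset_le _ _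
    _ ≤ ∑ j ∈ I, ENNReal.ofReal (C * lam ^ c') :=
        Finset.sum_le_sum (fun j _ => hOP3 _ (pre_im f _) lam hlam0)
    _ = ENNReal.ofReal ((I.card : ℝ) * (C * lam ^ c')) := by
        rw [Finset.sum_const, nsmul_eq_mul, ENNReal.ofReal_mul (p := (I.card : ℝ)) (by positivity),
          ENNReal.ofReal_natCast]
    _ ≤ ENNReal.ofReal (49 * C / a ^ 2 * lam ^ c') := by
        refine ENNReal.ofReal_le_ofReal ?_
        calc (I.card : ℝ) * (C * lam ^ c') ≤ 49 / a ^ 2 * (C * lam ^ c') := by gcongr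
          _ = _ := by ring

end Crest.Agent.R162.LB2d
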