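import Mathlib
import Crest.Agent.R162.LB2a
import Crest.Agent.R162.LB2d


/-!
Row 162, node LB2b+c (helper636): (b) probability that the tip escapes at scale `ρ`; (c) tail of
`Z'` at scale `ρ`.
-/

set_option autoImplicit false

open MeasureTheory Set Metric
open scoped ENNReal NNReal

namespace Crest.Agent.R162.LB2e

open Crest.Agent.R162.FL Crest.Agent.R162.FLC Crest.Agent.R162.KB1 Crest.Agent.R162.LB2a

/-! ### (B') : the localised form of 328's `exists_scale` -/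

theorem chain_point' {g : ℂ → ℂ} (hg : DifferentiableOn ℂ g Hs) (hgi : InjOn g Hs) {ρ y : ℝ}
    (hρ : 0 < ρ) (hy0 : 0 < y) (hy : y ≤ 10 * ρ) :
    ∃ n : ℕ, y ≤ yk ρ n ∧ ‖g (y * Complex.I) - g ((10 * ρ : ℝ) * Complex.I)‖ ≤
      ∑ k ∈ Finset.range (n + 1), 4 * KB1.ups g (yk ρ k * Complex.I) := by
  have hq : 1 ≤ 10 * ρ / y := by rw [le_div_iff₀ hy0]; linarith
  have hl : 0 ≤ Real.log (10 * ρ / y) := Real.log_nonneg hq
  set n := ⌊Real.log (10 * ρ / y)⌋₊ with hn
  have h1 : (n : ℝ) ≤ Real.log (10 * ρ / y) := Nat.floor_le hl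
  have h2 : Real.log (10 * ρ / y) < n + 1 := Nat.lt_floor_add_one _
  have e0 : y = 10 * ρ * Real.exp (-Real.log (10 * ρ / y)) := by
    rw [Real.exp_neg, Real.exp_log (by positivity)]
    field_simp
  have h3 : y ≤ yk ρ n := by
    rw [e0]; unfold yk
    gcongr
  have h4 : yk ρ (n + 1) ≤ y := by
    rw [e0]; unfold yk
    gcongr
    push_cast
    linarith
  refine ⟨n, h3, ?_⟩
  have h5 := (dist_axis hg hgi hy0 h3 ((yk_le_three hρ n).trans (by linarith))).1
  rw [Finset.sum_range_succ]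
  have e : g (y * Complex.I) - g ((10 * ρ : ℝ) * Complex.I) =
      (g (yk ρ n * Complex.I) - g (yk ρ 0 * Complex.I)) +
        (g (y * Complex.I) - g (yk ρ n * Complex.I)) := by
    rw [yk_zero]; ring
  rw [e]
  exact (norm_add_le _ _).trans (add_le_add (chain_scales hg hgi hρ n) h5)

lemma yk_anti {ρ : ℝ} (hρ : 0 < ρ) {k n : ℕ} (h : k ≤ n) : yk ρ n ≤ yk ρ k := by
  unfold yk
  gcongr

section Main

variable {f F : ℂ → ℂ} {r : ℝ} (hf : DifferentiableOn ℂ f Hs) (hfi : InjOn f Hs) (hF : Step F r)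
include hf hfi hF

/-- bound at the top: `|h(i10r) - f(i10r)| ≤ 400 ups f (iρ)`. -/
theorem top_bound {ρ : ℝ} (hρ : 0 < ρ) (hr1 : ρ ≤ r) (hr2 : r ≤ 2 * ρ) :
    ‖f (F ((10 * r : ℝ) * Complex.I)) - f ((10 * r : ℝ) * Complex.I)‖
      ≤ 400 * KB1.ups f (ρ * Complex.I) := by
  have him : 0 < ((ρ : ℂ) * Complex.I).im := by rw [mulI_im]; exact hρ
  have hu0 := ups_pos hf hfi him
  refine (dist_comp_axis hf hfi hF (y := 10 * r) le_rfl).trans ?_
  have h3 := (ups_axis hf hfi hρ (by linarith : ρ ≤ 10 * r)).2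
  refine h3.trans ?_
  have h4 : 10 * r / ρ ≤ 20 := by rw [div_le_iff₀ hρ]; linarith
  have h5 : 0 ≤ 10 * r / ρ := by have := hF.pos; positivity
  have h6 : (10 * r / ρ) ^ 2 ≤ 400 := by nlinarith
  exact mul_le_mul_of_nonneg_right h6 hu0.le

omit hf hfi hF in
theorem th_small {c v : ℝ} (hc0 : 0 < c) (hc1 : c ≤ 1) (hv0 : 0 < v) (h : v ≤ th c) :
    v ≤ 1 / 4000000 := by
  have hv1 : v ≤ 1 := h.trans (th_le_one hc0 hc1)
  have hvc : v ≤ v ^ (c / 8) := by
    have := Real.rpow_le_rpow_of_exponent_ge hv0 hv1 (by linarith : c / 8 ≤ 1)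
    rwa [Real.rpow_one] at this
  exact hvc.trans ((rpow_le_of_le_th hc0 hv0 h).trans (by linarith))

/-- **(B')** as `exists_scale`, with the additional localisation `y ≤ y_k`. -/
theorem exists_scale' {c U ρ y : ℝ} (hc0 : 0 < c) (hc1 : c ≤ 1) (hU : 0 < U) (hρ : 0 < ρ)
    (hr1 : ρ ≤ r) (hr2 : r ≤ 2 * ρ) (hv : KB1.ups f (ρ * Complex.I) ≤ th c * U) (hy0 : 0 < y)
    (hy : y ≤ 10 * r)
    (hT : U / 20 ≤ ‖f (F (y * Complex.I)) - f ((10 * r : ℝ) * Complex.I)‖) :
    ∃ k : ℕ, 1 / 4 * Real.log (U / KB1.ups f (ρ * Complex.I)) < k ∧ y ≤ yk ρ k ∧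
      c * U * Real.exp (-(c * k)) ≤ KB1.ups (f ∘ F) (yk ρ k * Complex.I) := by
  by_contra hcon
  push Not at hcon
  have hg := comp_diff hf hF
  have hgi := comp_inj hfi hF
  have him : 0 < ((ρ : ℂ) * Complex.I).im := by rw [mulI_im]; exact hρ
  have hu0 := ups_pos hf hfi him
  set v := KB1.ups f (ρ * Complex.I) / U with hvdef
  have hv0 : 0 < v := div_pos hu0 hU
  have hvU : v * U = KB1.ups f (ρ * Complex.I) := by rw [hvdef]; field_simp
  have hvth : v ≤ th c := by rw [hvdef, div_le_iff₀ hU]; exact hv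
  have hv1 : v ≤ 1 := hvth.trans (th_le_one hc0 hc1)
  have hinv : U / KB1.ups f (ρ * Complex.I) = 1 / v := by rw [hvdef]; field_simp
  rw [hinv] at hcon
  have hlog0 : 0 ≤ 1 / 4 * Real.log (1 / v) := by
    have : 0 ≤ Real.log (1 / v) := Real.log_nonneg (by rw [le_div_iff₀ hv0]; linarith)
    linarith
  classical
  set a : ℕ → ℝ := fun k => if k = 0 ∨ y ≤ yk ρ k then
    KB1.ups (f ∘ F) (yk ρ k * Complex.I) else 0 with ha
  have hpos : ∀ k, 0 < KB1.ups (f ∘ F) (yk ρ k * Complex.I) := fun k =>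
    ups_pos hg hgi (by rw [mulI_im]; exact yk_pos hρ k)
  have ha0 : ∀ k, 0 ≤ a k := by
    intro k
    simp only [ha]
    split_ifs
    · exact (hpos k).le
    · exact le_rfl
  have h1 : ∀ k : ℕ, a k ≤ 6400 * v * Real.exp (2 * k) * U := by
    intro k
    have h := ups_comp_le hf hfi hF hρ hr2 (yk_pos hρ k) ((yk_le hρ k).trans (by linarith))
    have e : (20 * ρ / yk ρ k) ^ 2 = 4 * Real.exp (2 * k) := by
      unfold yk
      rw [Real.exp_neg]
      have h2 : Real.exp (2 * k) = Real.exp k ^ 2 := by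
        rw [← Real.exp_nat_mul]; norm_num
      rw [h2]
      field_simp
      ring
    rw [e, ← hvU] at h
    have h' : KB1.ups (f ∘ F) (yk ρ k * Complex.I) ≤ 6400 * v * Real.exp (2 * k) * U := by
      calc KB1.ups (f ∘ F) (yk ρ k * Complex.I) ≤ _ := h
        _ = _ := by ring
    simp only [ha]
    split_ifs
    · exact h'
    · exact (hpos k).le.trans h'
  have h2 : ∀ k : ℕ, 1 / 4 * Real.log (1 / v) < k → a k ≤ c * U * Real.exp (-(c * k)) := by
    intro k hk
    simp only [ha]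
    split_ifs with hcase
    · rcases hcase with h0 | h0
      · exfalso
        rw [h0] at hk
        push_cast at hk
        linarith
      · exact (hcon k hk h0).le
    · positivity
  have hS := sum_bound hc0 hc1 hv0 hv1 hU (by norm_num : (0:ℝ) ≤ 6400) h1 h2
  have ha00 : a 0 = KB1.ups (f ∘ F) (yk ρ 0 * Complex.I) := by
    simp [ha]
  -- the three pieces
  have p3 := top_bound hf hfi hF hρ hr1 hr2
  rw [← hvU] at p3
  have p2 : ‖f (F ((10 * r : ℝ) * Complex.I)) - f (F ((10 * ρ : ℝ) * Complex.I))‖ ≤ 4 * a 0 := by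
    have := (dist_axis hg hgi (by linarith : 0 < 10 * ρ) (by linarith : 10 * ρ ≤ 10 * r)
      (by linarith)).2
    rw [ha00, yk_zero]
    exact this
  have p1 : ∃ n : ℕ, ‖f (F (y * Complex.I)) - f (F ((10 * ρ : ℝ) * Complex.I))‖ ≤
      ∑ k ∈ Finset.range (n + 1), 4 * a k := by
    rcases le_or_gt y (10 * ρ) with hle | hgt
    · obtain ⟨n, hn1, hn2⟩ := chain_point' hg hgi hρ hy0 hle
      refine ⟨n, hn2.trans (le_of_eq (Finset.sum_congr rfl (fun k hk => ?_)))⟩
      have : y ≤ yk ρ k := hn1.trans (yk_anti hρ (Nat.lt_succ_iff.1 (Finset.mem_range.1 hk)))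
      simp only [ha, this, or_true, if_true]
    · refine ⟨0, ?_⟩
      have := (dist_axis hg hgi (by linarith : 0 < 10 * ρ) hgt.le (by linarith)).2
      rw [zero_add, Finset.sum_range_one, ha00, yk_zero]
      exact this
  obtain ⟨n, hn⟩ := p1
  rw [← Finset.mul_sum] at hn
  have hSn := hS (n + 1)
  have ha0n : a 0 ≤ ∑ k ∈ Finset.range (n + 1), a k :=
    Finset.single_le_sum (fun k _ => ha0 k) (Finset.mem_range.2 (Nat.succ_pos n))
  have htri : ‖f (F (y * Complex.I)) - f ((10 * r : ℝ) * Complex.I)‖ ≤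
      8 * ∑ k ∈ Finset.range (n + 1), a k + 400 * (v * U) := by
    have e : f (F (y * Complex.I)) - f ((10 * r : ℝ) * Complex.I) =
        (f (F (y * Complex.I)) - f (F ((10 * ρ : ℝ) * Complex.I))) -
          (f (F ((10 * r : ℝ) * Complex.I)) - f (F ((10 * ρ : ℝ) * Complex.I))) +
          (f (F ((10 * r : ℝ) * Complex.I)) - f ((10 * r : ℝ) * Complex.I)) := by ring
    rw [e]
    refine (norm_add_le _ _).trans ?_
    have := norm_sub_le (f (F (y * Complex.I)) - f (F ((10 * ρ : ℝ) * Complex.I)))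
      (f (F ((10 * r : ℝ) * Complex.I)) - f (F ((10 * ρ : ℝ) * Complex.I)))
    linarith
  have hvt := rpow_le_of_le_th hc0 hv0 hvth
  have hfin : 8 * ((6400 + 1) * (3 / c) * v ^ (c / 8) * U) + 400 * (v * U) ≤
      154024 / 4000000 * U := by
    have e1 : (6400 + 1) * (3 / c) * v ^ (c / 8) * U = 19203 * U * (v ^ (c / 8) / c) := by ring
    have e2 : v ^ (c / 8) / c ≤ 1 / 4000000 := by
      rw [div_le_iff₀ hc0]; linarith
    have e3 : v ≤ 1 / 4000000 := th_small hc0 hc1 hv0 hvth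
    rw [e1]
    nlinarith
  have : U / 20 ≤ 154024 / 4000000 * U := by
    linarith [hT.trans htri]
  linarith

/-- **localised scale**: the tip escapes `⟹` some `u_t(iy_k)` is large at a point `f_t(iy_k)` close
to `x`. -/
theorem exists_scale_near {c U ρ y : ℝ} {x : ℂ} (hc0 : 0 < c) (hc1 : c ≤ 1) (hU : 0 < U)
    (hρ : 0 < ρ) (hr1 : ρ ≤ r) (hr2 : r ≤ 2 * ρ) (hv : KB1.ups f (ρ * Complex.I) ≤ th c * U)
    (hx : ‖f ((10 * r : ℝ) * Complex.I) - x‖ ≤ U / 32) (hy0 : 0 < y) (hy : y ≤ 10 * r)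
    (hT : U / 16 < ‖f (F (y * Complex.I)) - f ((10 * r : ℝ) * Complex.I)‖) :
    ∃ k : ℕ, 1 / 4 * Real.log (U / KB1.ups f (ρ * Complex.I)) < k ∧
      ‖(f ∘ F) (yk ρ k * Complex.I) - x‖ ≤ U / 8 ∧
      c * U * Real.exp (-(c * k)) ≤ KB1.ups (f ∘ F) (yk ρ k * Complex.I) := by
  have hg := comp_diff hf hF
  have him : 0 < ((ρ : ℂ) * Complex.I).im := by rw [mulI_im]; exact hρ
  have hu0 := ups_pos hf hfi him
  set v := KB1.ups f (ρ * Complex.I) / U with hvdef
  have hv0 : 0 < v := div_pos hu0 hU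
  have hvU : v * U = KB1.ups f (ρ * Complex.I) := by rw [hvdef]; field_simp
  have hvth : v ≤ th c := by rw [hvdef, div_le_iff₀ hU]; exact hv
  have hv1 : v ≤ 1 := hvth.trans (th_le_one hc0 hc1)
  -- the function
  set φ : ℝ → ℝ := fun s => ‖f (F (s * Complex.I)) - f ((10 * r : ℝ) * Complex.I)‖ with hφ
  have hcont : ContinuousOn φ (Icc y (10 * r)) := by
    have h1 : ContinuousOn (fun s : ℝ => (f ∘ F) (s * Complex.I)) (Icc y (10 * r)) := by
      refine hg.continuousOn.comp (by fun_prop) ?_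
      intro s hs
      show 0 < ((s : ℂ) * Complex.I).im
      rw [mulI_im]
      exact lt_of_lt_of_le hy0 hs.1
    exact (h1.sub continuousOn_const).norm
  have htop : φ (10 * r) < U / 16 := by
    have := top_bound hf hfi hF hρ hr1 hr2
    rw [← hvU] at this
    have e3 : v ≤ 1 / 4000000 := th_small hc0 hc1 hv0 hvth
    have h3 : φ (10 * r) ≤ 400 * (v * U) := this
    nlinarith
  -- the greatest point with `φ ≥ U/16`
  have hSc : IsCompact (Icc y (10 * r) ∩ φ ⁻¹' Ici (U / 16)) :=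
    isCompact_Icc.of_isClosed_subset
      (hcont.preimage_isClosed_of_isClosed isClosed_Icc isClosed_Ici) inter_subset_left
  have hSne : (Icc y (10 * r) ∩ φ ⁻¹' Ici (U / 16)).Nonempty := ⟨y, ⟨le_rfl, hy⟩, hT.le⟩
  obtain ⟨y', ⟨hy'1, hy'2⟩, hy'3⟩ := hSc.exists_isGreatest hSne
  have hy'2' : U / 16 ≤ φ y' := hy'2
  have hy'lt : y' < 10 * r := by
    rcases hy'1.2.lt_or_eq with h | h
    · exact h
    · rw [h] at hy'2'
      linarith
  have hy'0 : 0 < y' := lt_of_lt_of_le hy0 hy'1.1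
  have hy'eq : φ y' ≤ U / 16 := by
    by_contra hgt
    push Not at hgt
    have hc2 : ContinuousOn φ (Icc y' (10 * r)) := hcont.mono (Icc_subset_Icc hy'1.1 le_rfl)
    obtain ⟨s, hs, hsv⟩ := intermediate_value_Icc' hy'1.2 hc2
      (show (U / 16) ∈ Icc (φ (10 * r)) (φ y') from ⟨htop.le, hgt.le⟩)
    have hs2 : s ≤ y' := hy'3 ⟨⟨hy'1.1.trans hs.1, hs.2⟩, by
      show U / 16 ≤ φ s
      rw [hsv]⟩
    have : s = y' := le_antisymm hs2 hs.1
    rw [this] at hsv
    linarith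
  obtain ⟨k, hk1, hk2, hk3⟩ := exists_scale' hf hfi hF hc0 hc1 hU hρ hr1 hr2 hv hy'0 hy'1.2
    (le_trans (by linarith) hy'2')
  refine ⟨k, hk1, ?_, hk3⟩
  have hk4 : φ (yk ρ k) ≤ U / 16 := by
    rcases hk2.lt_or_eq with h | h
    · by_contra hgt
      push Not at hgt
      have : yk ρ k ≤ y' := hy'3 ⟨⟨hy'1.1.trans hk2, (yk_le hρ k).trans (by linarith)⟩, hgt.le⟩
      linarith
    · rw [← h]
      exact hy'eq
  have e : (f ∘ F) (yk ρ k * Complex.I) - x
      = (f (F (yk ρ k * Complex.I)) - f ((10 * r : ℝ) * Complex.I))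
        + (f ((10 * r : ℝ) * Complex.I) - x) := by
    simp only [Function.comp_apply]
    ring
  rw [e]
  refine (norm_add_le _ _).trans ?_
  have : ‖f (F (yk ρ k * Complex.I)) - f ((10 * r : ℝ) * Complex.I)‖ ≤ U / 16 := hk4
  linarith

end Main

end Crest.Agent.R162.LB2e
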