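import Mathlib
import Crest.Agent.R162.LB2e

/-!
Row 162, node LB2b+c (helper636): (b) escape probability at scale `ρ`, (c) tail of `Z'`.
-/

set_option autoImplicit false

open MeasureTheory Set Metric
open scoped ENNReal NNReal

namespace Crest.Agent.R162.LB2f

open Crest.Agent.R162.FL Crest.Agent.R162.FLC Crest.Agent.R162.KB1 Crest.Agent.R162.LB2a
open Crest.Agent.R162.LB2e Crest.Agent.R162.OP

/-- OP3 for a fixed start point, at time `0` (`c₀ = 1/2`). -/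
def OP3 {Ω : Type*} [MeasurableSpace Ω] (P : Measure Ω) (W : Ω → ℝ → ℝ) (R : Ω → ℝ → ℝ)
    (C c' : ℝ) : Prop :=
  ∀ z : ℂ, 0 < z.im → ∀ lam : ℝ, 0 < lam →
      P {ω | ∃ t, 0 ≤ t ∧ Alive (W ω) z t ∧ 1 / 2 ≤ sfl (W ω) t z
        ∧ ‖Zfl (W ω) t z‖ ≤ lam * R ω t} ≤ ENNReal.ofReal (C * lam ^ c')

/-- the event of KEY at scale `k` -/
def Ev {Ω : Type*} (W : Ω → ℝ → ℝ) (R : Ω → ℝ → ℝ) (f : ℂ → ℂ) (x : ℂ) (U ρ c b : ℝ) (k : ℕ) :
    Set Ω :=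
  {ω | ∃ t, 0 ≤ t ∧ ρ ≤ R ω t ∧ ‖(f ∘ ffl (W ω) t) (yk ρ k * Complex.I) - x‖ ≤ U / 8
        ∧ b * Real.exp (-(c * k)) * U ≤ KB1.ups (f ∘ ffl (W ω) t) (yk ρ k * Complex.I)}

variable {Ω : Type*} [MeasurableSpace Ω] {P : Measure Ω} {W : Ω → ℝ → ℝ} {R : Ω → ℝ → ℝ}
  {C c' : ℝ} {f : ℂ → ℂ} {x : ℂ} {U ρ c b : ℝ}

theorem ev_le (hW : ∀ ω, ContinuousOn (W ω) (Ici 0)) (hC : 0 ≤ C) (hOP3 : OP3 P W R C c')
    (hf : DifferentiableOn ℂ f Hs) (hfi : InjOn f Hs) (hU : 0 < U) (hρ : 0 < ρ) (hc0 : 0 < c)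
    (hb : 0 < b) (hb1 : b ≤ 1) (k : ℕ) :
    P (Ev W R f x U ρ c b k)
      ≤ ENNReal.ofReal (49 * C / b ^ 2 * 20 ^ c' * Real.exp (-((c' - 2 * c) * k))) := by
  have ha : 0 < b * Real.exp (-(c * k)) := by positivity
  have ha1 : b * Real.exp (-(c * k)) ≤ 1 := by
    have : Real.exp (-(c * k)) ≤ 1 := Real.exp_le_one_iff.2 (by
      have : 0 ≤ c * k := by positivity
      linarith)
    calc b * Real.exp (-(c * k)) ≤ 1 * 1 := by gcongr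
      _ = 1 := by ring
  refine (LB2d.key P W hW R hC hOP3 hf hfi x hU ha ha1 (yk_pos hρ k) hρ).trans ?_
  refine ENNReal.ofReal_le_ofReal (le_of_eq ?_)
  have e1 : 2 * yk ρ k / ρ = 20 * Real.exp (-(k : ℝ)) := by
    unfold yk
    field_simp
    ring
  have e2 : (20 * Real.exp (-(k : ℝ))) ^ c' = 20 ^ c' * Real.exp (-(k * c')) := by
    rw [Real.mul_rpow (by norm_num) (Real.exp_pos _).le, ← Real.exp_mul]
    congr 2
    ring
  have e3 : Real.exp (-((c' - 2 * c) * k)) = Real.exp (-(k * c')) * Real.exp (2 * (c * k)) := by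
    rw [← Real.exp_add]
    congr 1
    ring
  have e4 : (b * Real.exp (-(c * k))) ^ 2 * Real.exp (2 * (c * k)) = b ^ 2 := by
    rw [mul_pow, ← Real.exp_nat_mul, mul_assoc, ← Real.exp_add]
    have : ((2 : ℕ) : ℝ) * -(c * k) + 2 * (c * k) = 0 := by push_cast; ring
    rw [this, Real.exp_zero, mul_one]
  rw [e1, e2, e3]
  have h5 : (b * Real.exp (-(c * k))) ^ 2 ≠ 0 := by positivity
  have h6 : b ^ 2 ≠ 0 := by positivity
  rw [div_mul_eq_mul_div, div_mul_eq_mul_div, div_mul_eq_mul_div, div_eq_div_iff h5 h6, ← e4]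
  ring

/-- union over the scales `k > L`. -/
theorem ev_tail (hW : ∀ ω, ContinuousOn (W ω) (Ici 0)) (hC : 0 ≤ C) (hOP3 : OP3 P W R C c')
    (hf : DifferentiableOn ℂ f Hs) (hfi : InjOn f Hs) (hU : 0 < U) (hρ : 0 < ρ) (hc0 : 0 < c)
    (hb : 0 < b) (hb1 : b ≤ 1) (hcc : 2 * c < c') (k0 : ℕ) :
    P (⋃ k ∈ {k : ℕ | k0 ≤ k}, Ev W R f x U ρ c b k)
      ≤ ENNReal.ofReal (49 * C / b ^ 2 * 20 ^ c' / (1 - Real.exp (-(c' - 2 * c)))
          * Real.exp (-((c' - 2 * c) * k0))) := by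
  have h0 : 0 ≤ 49 * C / b ^ 2 * 20 ^ c' := by positivity
  refine le_trans ?_ (LB2b.geom_tail (a := c' - 2 * c) (by linarith) h0 k0)
  refine (measure_iUnion_le _).trans (ENNReal.tsum_le_tsum (fun k => ?_))
  by_cases hk : k0 ≤ k
  · rw [if_pos hk]
    refine le_trans (measure_mono ?_) (ev_le (x := x) hW hC hOP3 hf hfi hU hρ hc0 hb hb1 k)
    intro ω hω
    obtain ⟨_, h⟩ := mem_iUnion.1 hω
    exact h
  · rw [if_neg hk]
    have : (⋃ (_ : k ∈ {k : ℕ | k0 ≤ k}), Ev W R f x U ρ c b k) = ∅ := by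
      rw [iUnion_eq_empty]
      intro h
      exact absurd h hk
    rw [this, measure_empty]

/-- **(b)** escape at scale `ρ`. -/
theorem esc (hW : ∀ ω, ContinuousOn (W ω) (Ici 0))
    (hR0 : ∀ ω t, 0 ≤ t → t ≤ R ω t ^ 2) (hRW : ∀ ω t, 0 ≤ t → |W ω t| ≤ R ω t)
    (hC : 0 ≤ C) (hOP3 : OP3 P W R C c')
    (hf : DifferentiableOn ℂ f Hs) (hfi : InjOn f Hs) (hU : 0 < U) (hρ : 0 < ρ)
    (hc0 : 0 < c) (hc1 : c ≤ 1) (hcc : 2 * c < c')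
    (hv : KB1.ups f (ρ * Complex.I) ≤ th c * U)
    (hx : ∀ y : ℝ, 10 * ρ ≤ y → y ≤ 20 * ρ → ‖f (y * Complex.I) - x‖ ≤ U / 32) :
    P {ω | ∃ t, 0 ≤ t ∧ ρ ≤ R ω t ∧ R ω t ≤ 2 * ρ ∧ ∃ y : ℝ, 0 < y ∧ y ≤ 10 * R ω t ∧
        U / 16 < ‖f (ffl (W ω) t (y * Complex.I)) - f ((10 * R ω t : ℝ) * Complex.I)‖}
      ≤ ENNReal.ofReal (49 * C / c ^ 2 * 20 ^ c' / (1 - Real.exp (-(c' - 2 * c)))
          * (KB1.ups f (ρ * Complex.I) / U) ^ ((c' - 2 * c) / 4)) := by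
  have him : 0 < ((ρ : ℂ) * Complex.I).im := by rw [mulI_im]; exact hρ
  have hu0 := ups_pos hf hfi him
  set v := KB1.ups f (ρ * Complex.I) / U with hvdef
  have hv0 : 0 < v := div_pos hu0 hU
  have hvth : v ≤ th c := by rw [hvdef, div_le_iff₀ hU]; exact hv
  have hv1 : v ≤ 1 := hvth.trans (th_le_one hc0 hc1)
  have hinv : U / KB1.ups f (ρ * Complex.I) = 1 / v := by rw [hvdef]; field_simp
  set L := 1 / 4 * Real.log (1 / v) with hL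
  have hL0 : 0 ≤ L := by
    have : 0 ≤ Real.log (1 / v) := Real.log_nonneg (by rw [le_div_iff₀ hv0]; linarith)
    rw [hL]
    linarith
  set k0 : ℕ := ⌊L⌋₊ + 1 with hk0
  have hsub : {ω | ∃ t, 0 ≤ t ∧ ρ ≤ R ω t ∧ R ω t ≤ 2 * ρ ∧ ∃ y : ℝ, 0 < y ∧ y ≤ 10 * R ω t ∧
        U / 16 < ‖f (ffl (W ω) t (y * Complex.I)) - f ((10 * R ω t : ℝ) * Complex.I)‖}
      ⊆ ⋃ k ∈ {k : ℕ | k0 ≤ k}, Ev W R f x U ρ c c k := by
    rintro ω ⟨t, ht, h1, h2, y, hy0, hy, hT⟩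
    have hstep : Step (ffl (W ω) t) (R ω t) :=
      step_of_ffl (hW ω) ht (hρ.trans_le h1) (hR0 ω t ht) (hRW ω t ht)
    obtain ⟨k, hk1, hk2, hk3⟩ := exists_scale_near hf hfi hstep hc0 hc1 hU hρ h1 h2 hv
      (hx (10 * R ω t) (by linarith) (by linarith)) hy0 hy hT
    rw [hinv] at hk1
    have hk : k0 ≤ k := by
      have : ⌊L⌋₊ < k := (Nat.floor_lt hL0).2 hk1
      omega
    refine mem_iUnion₂.2 ⟨k, hk, t, ht, h1, hk2, ?_⟩
    refine le_trans (le_of_eq ?_) hk3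
    ring
  have hc1' : c ≤ 1 := hc1
  refine (measure_mono hsub).trans ((ev_tail hW hC hOP3 hf hfi hU hρ hc0 hc0 hc1 hcc k0).trans ?_)
  refine ENNReal.ofReal_le_ofReal ?_
  have hexp : Real.exp (-((c' - 2 * c) * k0)) ≤ v ^ ((c' - 2 * c) / 4) := by
    have h1 : L ≤ k0 := by
      rw [hk0]
      push_cast
      exact (Nat.lt_floor_add_one L).le
    have h2 : v ^ ((c' - 2 * c) / 4) = Real.exp (-((c' - 2 * c) * L)) := by
      rw [Real.rpow_def_of_pos hv0, hL, one_div v, Real.log_inv]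
      congr 1
      ring
    rw [h2]
    refine Real.exp_le_exp.2 ?_
    have : (c' - 2 * c) * L ≤ (c' - 2 * c) * k0 :=
      mul_le_mul_of_nonneg_left h1 (by linarith)
    linarith
  have hpos : 0 ≤ 49 * C / c ^ 2 * 20 ^ c' / (1 - Real.exp (-(c' - 2 * c))) := by
    have : Real.exp (-(c' - 2 * c)) < 1 := by
      rw [Real.exp_lt_one_iff]
      linarith
    apply div_nonneg (by positivity)
    linarith
  exact mul_le_mul_of_nonneg_left hexp hpos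

/-- **(c)** tail of `Z'` at scale `ρ`.  `J` is any functional for which the deterministic bound
`hJ` holds. -/
theorem tail' (hW : ∀ ω, ContinuousOn (W ω) (Ici 0))
    (hC : 0 ≤ C) (hOP3 : OP3 P W R C c')
    (hf : DifferentiableOn ℂ f Hs) (hfi : InjOn f Hs) (hU : 0 < U) (hρ : 0 < ρ)
    (hc0 : 0 < c) (hcc : 2 * c < c') (J : (ℂ → ℂ) → ℝ → ℝ≥0∞) (K : ℕ → ℝ≥0∞)
    (hJ : ∀ (h : ℂ → ℂ) (r : ℝ) (n : ℕ), DifferentiableOn ℂ h Hs → InjOn h Hs → ρ ≤ r →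
      r ≤ 2 * ρ → (∀ y : ℝ, 0 < y → y ≤ 10 * r → ‖h (y * Complex.I) - x‖ ≤ U / 8) →
      (∀ k : ℕ, n ≤ k → KB1.ups h (yk ρ k * Complex.I) ≤ Real.exp (-(c * k)) * U) →
      J h (10 * r) ≤ K n) (n : ℕ) :
    P {ω | ∃ t, 0 ≤ t ∧ ρ ≤ R ω t ∧ R ω t ≤ 2 * ρ ∧
        (∀ y : ℝ, 0 < y → y ≤ 10 * R ω t → ‖(f ∘ ffl (W ω) t) (y * Complex.I) - x‖ ≤ U / 8) ∧
        K n < J (f ∘ ffl (W ω) t) (10 * R ω t)}
      ≤ ENNReal.ofReal (49 * C * 20 ^ c' / (1 - Real.exp (-(c' - 2 * c)))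
          * Real.exp (-((c' - 2 * c) * n))) := by
  have hsub : {ω | ∃ t, 0 ≤ t ∧ ρ ≤ R ω t ∧ R ω t ≤ 2 * ρ ∧
        (∀ y : ℝ, 0 < y → y ≤ 10 * R ω t → ‖(f ∘ ffl (W ω) t) (y * Complex.I) - x‖ ≤ U / 8) ∧
        K n < J (f ∘ ffl (W ω) t) (10 * R ω t)}
      ⊆ ⋃ k ∈ {k : ℕ | n ≤ k}, Ev W R f x U ρ c 1 k := by
    rintro ω ⟨t, ht, h1, h2, hloc, hlt⟩
    have hg := LB2d.diffOn_comp (f := f) (hW ω) ht hf
    have hgi := LB2d.injOn_comp (f := f) (hW ω) ht hfi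
    by_contra hcon
    have hall : ∀ k : ℕ, n ≤ k →
        KB1.ups (f ∘ ffl (W ω) t) (yk ρ k * Complex.I) ≤ Real.exp (-(c * k)) * U := by
      intro k hk
      by_contra hgt
      push Not at hgt
      refine hcon (mem_iUnion₂.2 ⟨k, hk, t, ht, h1, hloc _ (yk_pos hρ k)
        ((yk_le hρ k).trans (by linarith)), ?_⟩)
      rw [one_mul]
      exact hgt.le
    exact absurd (hJ _ _ n hg hgi h1 h2 hloc hall) (not_le.2 hlt)
  refine (measure_mono hsub).trans ((ev_tail hW hC hOP3 hf hfi hU hρ hc0 one_pos le_rfl hcc n).trans ?_)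
  refine ENNReal.ofReal_le_ofReal (le_of_eq ?_)
  ring

end Crest.Agent.R162.LB2f
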