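import Mathlib
import Crest.Agent.R162.KB1H

/-!
Row 162, node LB2b+c, lemma (W) (helper620, for helper636): deterministic bound of the
logarithmic content of a vertical geodesic along which the conformal radius decays.
-/

set_option autoImplicit false
open MeasureTheory Set Filter Topology Complex
open scoped ENNReal

namespace Crest.Agent.R162.LB2w

open Crest.Agent.R162

lemma lintegral_div_Ioc {a b C : ℝ} (ha : 0 < a) (hab : a ≤ b) (hC : 0 ≤ C) :
    ∫⁻ s in Ioc a b, ENNReal.ofReal (C / s) = ENNReal.ofReal (C * Real.log (b / a)) := by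
  have hb : 0 < b := ha.trans_le hab
  have hci : ContinuousOn (fun s : ℝ => C / s) (Icc a b) :=
    continuousOn_const.div continuousOn_id (fun s hs => (ha.trans_le hs.1).ne')
  have hint : IntegrableOn (fun s : ℝ => C / s) (Ioc a b) volume :=
    (hci.integrableOn_compact isCompact_Icc).mono_set Ioc_subset_Icc_self
  rw [← ofReal_integral_eq_lintegral_ofReal hint]
  · congr 1
    rw [← intervalIntegral.integral_of_le hab]
    simp_rw [div_eq_mul_inv C]
    rw [intervalIntegral.integral_const_mul, integral_inv_of_pos ha hb]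
  · refine (ae_restrict_iff' measurableSet_Ioc).2 (Eventually.of_forall fun s hs => ?_)
    exact div_nonneg hC (ha.trans hs.1).le

/-- every `s ∈ (0, y₀]` lies in one of the `(y₀ e^{-(k+1)}, y₀ e^{-k}]` -/
lemma exists_block {y0 s : ℝ} (hs : 0 < s) (hs1 : s ≤ y0) :
    ∃ k : ℕ, s ∈ Ioc (y0 * Real.exp (-((k : ℝ) + 1))) (y0 * Real.exp (-(k : ℝ))) := by
  have hy : 0 < y0 := hs.trans_le hs1
  have hlog : 0 ≤ Real.log (y0 / s) := Real.log_nonneg (by rw [le_div_iff₀ hs]; linarith)
  refine ⟨⌊Real.log (y0 / s)⌋₊, ?_, ?_⟩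
  · have h1 := Nat.lt_floor_add_one (Real.log (y0 / s))
    have h2 : y0 / s < Real.exp ((⌊Real.log (y0 / s)⌋₊ : ℝ) + 1) := by
      rw [← Real.log_lt_iff_lt_exp (by positivity)]
      exact h1
    rw [Real.exp_neg, ← div_eq_mul_inv, div_lt_iff₀ (Real.exp_pos _)]
    rw [div_lt_iff₀ hs] at h2
    linarith
  · have h1 := Nat.floor_le hlog
    have h2 : Real.exp (⌊Real.log (y0 / s)⌋₊ : ℝ) ≤ y0 / s := by
      rw [← Real.le_log_iff_exp_le (by positivity)]
      exact h1
    rw [Real.exp_neg, ← div_eq_mul_inv, le_div_iff₀ (Real.exp_pos _)]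
    rw [le_div_iff₀ hs] at h2
    linarith

lemma exp_two_le : (8 / 7 : ℝ) * Real.exp 2 ≤ 9 := by
  have h := Real.exp_one_lt_d9
  have h0 := Real.exp_pos 1
  have e : Real.exp 2 = Real.exp 1 * Real.exp 1 := by rw [← Real.exp_add]; norm_num
  rw [e]
  nlinarith

/-- (W) of helper636. -/
theorem Jv_le {h : ℂ → ℂ} (hh : DifferentiableOn ℂ h KB1.Hs) (hi : InjOn h KB1.Hs)
    {u0 : ℂ → ℝ} (hu1 : ∀ p, 1 ≤ u0 p) (hul : LipschitzWith 1 u0) {x : ℂ} {q c r rho : ℝ}
    (hq : 0 < q) (hc : 0 < c) (hrho : 0 < rho) (h1 : rho ≤ r) (h2 : r ≤ 2 * rho)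
    (hA : ∀ y : ℝ, 0 < y → y ≤ 10 * r → ‖h (y * I) - x‖ ≤ u0 x / 8) (n : ℕ)
    (hB : ∀ k : ℕ, n ≤ k → KB1.ups h ((10 * rho * Real.exp (-(k : ℝ)) : ℝ) * I) ≤
      Real.exp (-(c * k)) * u0 x) :
    ∫⁻ s in Ioc 0 (10 * r),
        ENNReal.ofReal ((min (KB1.ups h (s * I) / u0 (h (s * I))) 1) ^ q / s) ≤
      ENNReal.ofReal (n + Real.log 2 + 9 ^ q / (1 - Real.exp (-(c * q)))) := by
  have hr : 0 < r := hrho.trans_le h1
  have hux : 0 < u0 x := zero_lt_one.trans_le (hu1 x)
  have him : ∀ s : ℝ, ((s : ℂ) * I).im = s := fun s => by simp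
  have hre : ∀ s : ℝ, ((s : ℂ) * I).re = 0 := fun s => by simp
  have hups0 : ∀ s : ℝ, 0 < s → 0 < KB1.ups h (s * I) := fun s hs =>
    KB1.ups_pos hh hi (by rw [him]; exact hs)
  -- the generic bounds of the integrand
  have hnn : ∀ s : ℝ, 0 < s → 0 ≤ min (KB1.ups h (s * I) / u0 (h (s * I))) 1 := fun s hs =>
    le_min (div_nonneg (hups0 s hs).le (zero_le_one.trans (hu1 _))) zero_le_one
  have hle1 : ∀ s : ℝ, 0 < s →
      (min (KB1.ups h (s * I) / u0 (h (s * I))) 1) ^ q / s ≤ 1 / s := fun s hs => by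
    refine div_le_div_of_nonneg_right ?_ hs.le
    exact Real.rpow_le_one (hnn s hs) (min_le_right _ _) hq.le
  set y : ℕ → ℝ := fun k => 10 * rho * Real.exp (-(k : ℝ)) with hy_def
  have hypos : ∀ k, 0 < y k := fun k => by positivity
  have hyle : ∀ k, y k ≤ 10 * rho := fun k => by
    have : Real.exp (-(k : ℝ)) ≤ 1 := Real.exp_le_one_iff.2 (by simp)
    calc 10 * rho * Real.exp (-(k : ℝ)) ≤ 10 * rho * 1 := by gcongr
      _ = 10 * rho := mul_one _
  have hysucc : ∀ k, y k = Real.exp 1 * y (k + 1) := fun k => by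
    simp only [hy_def]
    have e : Real.exp (-(k : ℝ)) = Real.exp 1 * Real.exp (-((k + 1 : ℕ) : ℝ)) := by
      rw [← Real.exp_add]
      congr 1
      push_cast
      ring
    rw [e]
    ring
  -- bound on one block
  have hblock : ∀ k : ℕ, n ≤ k → ∀ s ∈ Ioc (y (k + 1)) (y k),
      (min (KB1.ups h (s * I) / u0 (h (s * I))) 1) ^ q / s ≤
        (9 * Real.exp (-(c * k))) ^ q / s := by
    intro k hk s hs
    have hs0 : 0 < s := (hypos _).trans hs.1
    refine div_le_div_of_nonneg_right ?_ hs0.le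
    refine Real.rpow_le_rpow (hnn s hs0) ?_ hq.le
    refine (min_le_left _ _).trans ?_
    have hu : 7 / 8 * u0 x ≤ u0 (h (s * I)) := by
      have hd := hul.dist_le_mul (h (s * I)) x
      rw [NNReal.coe_one, one_mul, Real.dist_eq, dist_eq_norm] at hd
      have hA' := hA s hs0 (hs.2.trans ((hyle k).trans (by linarith)))
      have := (abs_le.1 (hd.trans hA')).1
      linarith
    have hups : KB1.ups h (s * I) ≤ Real.exp 2 * (Real.exp (-(c * k)) * u0 x) := by
      have hv := KB1.ups_vert_le' hh hi (z := (s : ℂ) * I) (w := ((y k : ℝ) : ℂ) * I)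
        (by rw [him]; exact hs0) (by rw [him, him]; exact hs.2) (by rw [hre, hre])
      rw [him, him] at hv
      have hratio : y k / s ≤ Real.exp 1 := by
        rw [div_le_iff₀ hs0, hysucc k]
        exact mul_le_mul_of_nonneg_left hs.1.le (Real.exp_pos _).le
      have hr2 : (y k / s) ^ 2 ≤ Real.exp 2 := by
        have e : Real.exp 2 = Real.exp 1 ^ 2 := by rw [← Real.exp_nat_mul]; norm_num
        rw [e]
        exact pow_le_pow_left₀ (div_nonneg (hypos k).le hs0.le) hratio 2
      calc KB1.ups h (s * I) ≤ KB1.ups h ((y k : ℝ) * I) * (y k / s) ^ 2 := hv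
        _ ≤ (Real.exp (-(c * k)) * u0 x) * Real.exp 2 := by
            refine mul_le_mul (hB k hk) hr2 (by positivity) (by positivity)
        _ = _ := by ring
    rw [div_le_iff₀ (by linarith [hux])]
    have h9 := exp_two_le
    calc KB1.ups h (s * I) ≤ Real.exp 2 * (Real.exp (-(c * k)) * u0 x) := hups
      _ = (8 / 7 * Real.exp 2) * Real.exp (-(c * k)) * (7 / 8 * u0 x) := by ring
      _ ≤ 9 * Real.exp (-(c * k)) * u0 (h (s * I)) := by
          refine mul_le_mul ?_ hu (by positivity) (by positivity)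
          exact mul_le_mul_of_nonneg_right h9 (Real.exp_pos _).le
  -- the covering
  have hcov : Ioc 0 (10 * r) ⊆ Ioc (y n) (10 * r) ∪ ⋃ k : ℕ, Ioc (y (n + k + 1)) (y (n + k)) := by
    intro s hs
    rcases lt_or_ge (y n) s with hlt | hge
    · exact Or.inl ⟨hlt, hs.2⟩
    · right
      obtain ⟨k, hk⟩ := exists_block hs.1 hge
      refine mem_iUnion.2 ⟨k, ?_⟩
      have e1 : y (n + k + 1) = y n * Real.exp (-((k : ℝ) + 1)) := by
        simp only [hy_def]
        have e : Real.exp (-((n + k + 1 : ℕ) : ℝ)) =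
            Real.exp (-(n : ℝ)) * Real.exp (-((k : ℝ) + 1)) := by
          rw [← Real.exp_add]
          congr 1
          push_cast
          ring
        rw [e]
        ring
      have e2 : y (n + k) = y n * Real.exp (-(k : ℝ)) := by
        simp only [hy_def]
        have e : Real.exp (-((n + k : ℕ) : ℝ)) =
            Real.exp (-(n : ℝ)) * Real.exp (-(k : ℝ)) := by
          rw [← Real.exp_add]
          congr 1
          push_cast
          ring
        rw [e]
        ring
      rw [e1, e2]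
      exact hk
  set f : ℝ → ℝ≥0∞ := fun s =>
    ENNReal.ofReal ((min (KB1.ups h (s * I) / u0 (h (s * I))) 1) ^ q / s) with hf_def
  have hynr : y n ≤ 10 * r := (hyle n).trans (by linarith)
  have hpart1 : ∫⁻ s in Ioc (y n) (10 * r), f s ≤ ENNReal.ofReal (n + Real.log 2) := by
    calc ∫⁻ s in Ioc (y n) (10 * r), f s ≤
        ∫⁻ s in Ioc (y n) (10 * r), ENNReal.ofReal (1 / s) := by
          refine setLIntegral_mono' measurableSet_Ioc fun s hs => ?_
          exact ENNReal.ofReal_le_ofReal (hle1 s ((hypos n).trans hs.1))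
      _ = ENNReal.ofReal (1 * Real.log (10 * r / y n)) :=
          lintegral_div_Ioc (hypos n) hynr zero_le_one
      _ ≤ ENNReal.ofReal (n + Real.log 2) := by
          refine ENNReal.ofReal_le_ofReal ?_
          rw [one_mul]
          have e : (n : ℝ) + Real.log 2 = Real.log (Real.exp n * 2) := by
            rw [Real.log_mul (Real.exp_pos _).ne' two_ne_zero, Real.log_exp]
          rw [e]
          refine Real.log_le_log (div_pos (by linarith) (hypos n)) ?_
          rw [div_le_iff₀ (hypos n)]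
          have e2 : Real.exp n * 2 * y n = 20 * rho := by
            simp only [hy_def]
            have : Real.exp (n : ℝ) * Real.exp (-(n : ℝ)) = 1 := by
              rw [← Real.exp_add]; simp
            calc Real.exp (n : ℝ) * 2 * (10 * rho * Real.exp (-(n : ℝ))) =
                20 * rho * (Real.exp (n : ℝ) * Real.exp (-(n : ℝ))) := by ring
              _ = 20 * rho := by rw [this, mul_one]
          rw [e2]
          linarith
  have hpart2 : ∀ k : ℕ, ∫⁻ s in Ioc (y (n + k + 1)) (y (n + k)), f s ≤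
      ENNReal.ofReal (9 ^ q * Real.exp (-(c * q)) ^ k) := by
    intro k
    have hC : 0 ≤ (9 * Real.exp (-(c * ((n + k : ℕ) : ℝ)))) ^ q := by positivity
    calc ∫⁻ s in Ioc (y (n + k + 1)) (y (n + k)), f s ≤
        ∫⁻ s in Ioc (y (n + k + 1)) (y (n + k)),
          ENNReal.ofReal ((9 * Real.exp (-(c * ((n + k : ℕ) : ℝ)))) ^ q / s) := by
          refine setLIntegral_mono' measurableSet_Ioc fun s hs => ?_
          exact ENNReal.ofReal_le_ofReal (hblock (n + k) (Nat.le_add_right _ _) s hs)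
      _ = ENNReal.ofReal ((9 * Real.exp (-(c * ((n + k : ℕ) : ℝ)))) ^ q *
            Real.log (y (n + k) / y (n + k + 1))) := by
          refine lintegral_div_Ioc (hypos _) ?_ hC
          rw [hysucc (n + k)]
          have : 1 ≤ Real.exp 1 := Real.one_le_exp zero_le_one
          nlinarith [hypos (n + k + 1)]
      _ ≤ ENNReal.ofReal (9 ^ q * Real.exp (-(c * q)) ^ k) := by
          refine ENNReal.ofReal_le_ofReal ?_
          have e : y (n + k) / y (n + k + 1) = Real.exp 1 := by
            rw [div_eq_iff (hypos _).ne']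
            exact hysucc (n + k)
          rw [e, Real.log_exp, mul_one, Real.mul_rpow (by norm_num) (Real.exp_pos _).le,
            ← Real.exp_mul, ← Real.exp_nat_mul]
          refine mul_le_mul_of_nonneg_left ?_ (by positivity)
          refine Real.exp_le_exp.2 ?_
          push_cast
          have : 0 ≤ c * q * n := by positivity
          nlinarith
  have hgeo : 0 ≤ Real.exp (-(c * q)) ∧ Real.exp (-(c * q)) < 1 :=
    ⟨(Real.exp_pos _).le, Real.exp_lt_one_iff.2 (by have := mul_pos hc hq; linarith)⟩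
  have hsum : ∑' k : ℕ, ENNReal.ofReal (9 ^ q * Real.exp (-(c * q)) ^ k) =
      ENNReal.ofReal (9 ^ q / (1 - Real.exp (-(c * q)))) := by
    rw [← ENNReal.ofReal_tsum_of_nonneg (fun k => by positivity)
      ((summable_geometric_of_lt_one hgeo.1 hgeo.2).mul_left _), tsum_mul_left,
      tsum_geometric_of_lt_one hgeo.1 hgeo.2, div_eq_mul_inv]
  calc ∫⁻ s in Ioc 0 (10 * r), f s
      ≤ ∫⁻ s in Ioc (y n) (10 * r) ∪ ⋃ k : ℕ, Ioc (y (n + k + 1)) (y (n + k)), f s :=
        lintegral_mono_set hcov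
    _ ≤ (∫⁻ s in Ioc (y n) (10 * r), f s) +
          ∫⁻ s in ⋃ k : ℕ, Ioc (y (n + k + 1)) (y (n + k)), f s := lintegral_union_le _ _ _
    _ ≤ (∫⁻ s in Ioc (y n) (10 * r), f s) +
          ∑' k : ℕ, ∫⁻ s in Ioc (y (n + k + 1)) (y (n + k)), f s := by
        gcongr
        exact lintegral_iUnion_le _ _
    _ ≤ ENNReal.ofReal (n + Real.log 2) +
          ∑' k : ℕ, ENNReal.ofReal (9 ^ q * Real.exp (-(c * q)) ^ k) :=
        add_le_add hpart1 (ENNReal.tsum_le_tsum hpart2)
    _ = ENNReal.ofReal (n + Real.log 2 + 9 ^ q / (1 - Real.exp (-(c * q)))) := by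
        rw [hsum, ← ENNReal.ofReal_add]
        · have := Real.log_nonneg (show (1:ℝ) ≤ 2 by norm_num)
          positivity
        · have : 0 < 1 - Real.exp (-(c * q)) := by linarith [hgeo.2]
          positivity

end Crest.Agent.R162.LB2w
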