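import Crest.Agent.R162.LBDefs
import Crest.Agent.R162.OSDefs
import Crest.Prelude.Def_Loewner

/-!
Row 162, node STEP (helper561): the exact statements (Props) which the STEP theorem uses, on the
frozen vocabulary `LBDefs` of helper888.  Fixed univalent `f`, fresh path `W = driving κ B ω`.
-/

set_option autoImplicit false

open MeasureTheory ProbabilityTheory Set Filter Topology Complex
open scoped NNReal ENNReal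
open Crest.ProbabilityR.Loewner

namespace Crest.Agent.R162.LBStep

open Crest.Agent.R162.LB Crest.Agent.R162.FL Crest.Agent.R162.OS

universe u

/-- standing assumptions on the state map `f` -/
structure State (p : LB.Par) (f : ℂ → ℂ) : Prop where
  diff : DifferentiableOn ℂ f KB1.Hs
  inj : InjOn f KB1.Hs
  v_tendsto : Tendsto (vv p.u0 f) atTop (𝓝 1)
  lam : p.Λ f ≠ ⊤
  J : ∀ y, Jv p.u0 p.q f y ≠ ⊤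

/-- `T₂`-event in the window `2^k ≤ ρ_t < 2^{k+1}` -/
def E2 (p : LB.Par) (f : ℂ → ℂ) (W : ℝ → ℝ) (k : ℤ) : Prop :=
  ∃ t : ℝ, 0 < t ∧ (2 : ℝ) ^ k ≤ rad W t ∧ rad W t < (2 : ℝ) ^ (k + 1) ∧ p.Bad2 f W t

/-- `T₃`-event at scale `2^k`, before `T₂` -/
def E3 (p : LB.Par) (f : ℂ → ℂ) (W : ℝ → ℝ) (k : ℤ) : Prop :=
  ∃ t : ℝ, 0 < t ∧ (∀ s, 0 < s → s < t → ¬ p.Bad2 f W s) ∧ p.Bad3 f W t k

/-- large new potential in the window `2^k ≤ ρ_t < 2^{k+1}` at a time not after `T₂` -/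
def EZ (p : LB.Par) (f : ℂ → ℂ) (W : ℝ → ℝ) (k : ℤ) (n : ℕ) : Prop :=
  ∃ t : ℝ, 0 < t ∧ (2 : ℝ) ^ k ≤ rad W t ∧ rad W t < (2 : ℝ) ^ (k + 1) ∧ ¬ p.Bad2 f W t ∧
    ENNReal.ofReal n < Jv p.u0 p.q (LB.Par.st f W t) (10 * rad W t)

/-- the tube event of OP4 for the point `i y` (771's `LB4.Tube`, `K`-time `4`) -/
def Tube (W : ℝ → ℝ) (y t : ℝ) : Prop :=
  Alive W (y * I) t ∧ OP.ath W t (y * I) = 4 ∧ ∀ s ∈ Icc 0 t, |OP.xfl W s (y * I)| ≤ 1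

/-- LB2b (636): `P(T₂ in window k) ≤ C v(2^k)^{c*}`. Constants: `c*₀, C` depend on `κ` only. -/
def In2 (κ : ℝ) : Prop :=
  ∃ cs0 C : ℝ, 0 < cs0 ∧ 0 ≤ C ∧ ∀ cs q η K3 K4 : ℝ, 0 < cs → cs ≤ cs0 → 0 < q → q ≤ 1 / 8 →
    0 < η → η ≤ 1 / 8 → 0 < K3 → 1 ≤ K4 →
    ∃ θ0 : ℝ, 0 < θ0 ∧ ∀ p : LB.Par, p.κ = κ → p.cs = cs → p.q = q → p.η = η → p.K3 = K3 →
      p.K4 = K4 → 0 < p.θ → p.θ ≤ θ0 → p.Adm → ∀ f, State p f →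
    ∀ (Ω : Type u) [MeasurableSpace Ω] (P : Measure Ω) [IsProbabilityMeasure P]
      (F : Filtration ℝ≥0 (inferInstance : MeasurableSpace Ω)) (B : ℝ≥0 → Ω → ℝ)
      (_ : IsBM F B P) (k : ℤ), (2 : ℝ) ^ k ≤ p.rho1 f →
      P {ω | E2 p f (driving κ B ω) k} ≤ ENNReal.ofReal (C * vv p.u0 f (2 ^ k) ^ cs)

/-- LB3b (268): `P(T₃ at scale 2^k) ≤ C v(2^k)^{c*/2}`. `c*₀, C` depend on `κ, c₁` only; `θ₀` on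
`c*, q, η, K₃, K₄`; `ε₀` on everything before. -/
def In3 (κ c1 : ℝ) : Prop :=
  ∃ cs0 C : ℝ, 0 < cs0 ∧ 0 ≤ C ∧ ∀ cs q η K3 K4 : ℝ, 0 < cs → cs ≤ cs0 → 0 < q → q ≤ 1 / 8 →
    0 < η → η ≤ 1 / 8 → 0 < K3 → 1 ≤ K4 →
    ∃ θ0 : ℝ, 0 < θ0 ∧ ∀ θ : ℝ, 0 < θ → θ ≤ θ0 → ∃ ε0 : ℝ, 0 < ε0 ∧
    ∀ p : LB.Par, p.κ = κ → p.c1 = c1 → p.cs = cs → p.q = q → p.η = η → p.K3 = K3 →
      p.K4 = K4 → p.θ = θ → 0 < p.ε → p.ε ≤ ε0 → p.Adm → ∀ f, State p f →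
    ∀ (Ω : Type u) [MeasurableSpace Ω] (P : Measure Ω) [IsProbabilityMeasure P]
      (F : Filtration ℝ≥0 (inferInstance : MeasurableSpace Ω)) (B : ℝ≥0 → Ω → ℝ)
      (_ : IsBM F B P) (k : ℤ), (2 : ℝ) ^ k ≤ p.rho1 f →
      P {ω | E3 p f (driving κ B ω) k} ≤ ENNReal.ofReal (C * vv p.u0 f (2 ^ k) ^ (cs / 2))

/-- LB2c (636): tail of the new potential `Z'`. `C, a` depend on `κ, q` only. -/
def InZ (κ : ℝ) : Prop :=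
  ∀ q : ℝ, 0 < q → q ≤ 1 / 8 → ∃ a C : ℝ, 0 < a ∧ 0 ≤ C ∧ ∀ cs η K3 K4 : ℝ, 0 < cs →
    0 < η → η ≤ 1 / 8 → 0 < K3 → 1 ≤ K4 →
    ∃ θ0 : ℝ, 0 < θ0 ∧ ∀ p : LB.Par, p.κ = κ → p.cs = cs → p.q = q → p.η = η → p.K3 = K3 →
      p.K4 = K4 → 0 < p.θ → p.θ ≤ θ0 → p.Adm → ∀ f, State p f →
    ∀ (Ω : Type u) [MeasurableSpace Ω] (P : Measure Ω) [IsProbabilityMeasure P]
      (F : Filtration ℝ≥0 (inferInstance : MeasurableSpace Ω)) (B : ℝ≥0 → Ω → ℝ)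
      (_ : IsBM F B P) (k : ℤ) (n : ℕ), (2 : ℝ) ^ k ≤ p.rho1 f →
      P {ω | EZ p f (driving κ B ω) k n} ≤ ENNReal.ofReal (C * Real.exp (-(a * n)))

/-- LB4, probability (149 OP4 / 771): the tube event has probability `≥ p(κ)`. -/
def In4 (κ : ℝ) : Prop :=
  ∃ p0 : ℝ, 0 < p0 ∧ p0 ≤ 1 ∧
    ∀ (Ω : Type u) [MeasurableSpace Ω] (P : Measure Ω) [IsProbabilityMeasure P]
      (F : Filtration ℝ≥0 (inferInstance : MeasurableSpace Ω)) (B : ℝ≥0 → Ω → ℝ)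
      (_ : IsBM F B P) (y : ℝ), 0 < y →
      ENNReal.ofReal p0 ≤ P {ω | ∃ t : ℝ, 0 ≤ t ∧ Tube (driving κ B ω) y t}

/-- LB3c (868): the far content of a step is `≤ C₆ ϖ`, pathwise. -/
def InFar (κ c1 : ℝ) : Prop :=
  ∀ cs q η K3 K4 : ℝ, 0 < cs → 0 < q → q ≤ 1 / 8 → 0 < η → η ≤ 1 / 8 → 0 < K3 → 1 ≤ K4 →
    ∃ θ0 : ℝ, 0 < θ0 ∧ ∀ θ : ℝ, 0 < θ → θ ≤ θ0 → ∃ ε0 C6 : ℝ, 0 < ε0 ∧ 0 ≤ C6 ∧
    ∀ p : LB.Par, p.κ = κ → p.c1 = c1 → p.cs = cs → p.q = q → p.η = η → p.K3 = K3 →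
      p.K4 = K4 → p.θ = θ → 0 < p.ε → p.ε ≤ ε0 → p.Adm → ∀ f, State p f →
    ∀ W : ℝ → ℝ, ContinuousOn W (Ici 0) → W 0 = 0 → 0 < p.T f W →
      p.farC f W (Ioc 0 (p.T f W)) ≤ ENNReal.ofReal (C6 * p.varpi f)

end Crest.Agent.R162.LBStep
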