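import Mathlib
import Crest.Agent.R162.LB0D
import Crest.Agent.R162.LBStepIn
import Crest.Agent.R162.LB2w
import Crest.Agent.R162.LB2f

/-!
Row 162, node LB2b+c (helper636): `In2 κ` and `InZ κ` (561's input Props) from OP3 at time `0`.
-/

set_option autoImplicit false

open MeasureTheory ProbabilityTheory Set Filter Topology
open scoped ENNReal NNReal
open Crest.ProbabilityR.Loewner

namespace Crest.Agent.R162.LB2h

open Crest.Agent.R162.FL Crest.Agent.R162.KB1 Crest.Agent.R162.OS Crest.Agent.R162.LBStep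
open Crest.Agent.R162.LB Crest.Agent.R162.LB2a

universe u

/-- OP3 at time `0`, all probability spaces. -/
def OP3K (κ : ℝ) : Prop :=
  ∃ C c' : ℝ, 0 ≤ C ∧ 0 < c' ∧ ∀ (Ω : Type u) [MeasurableSpace Ω] (P : Measure Ω)
    [IsProbabilityMeasure P] (F : Filtration ℝ≥0 (inferInstance : MeasurableSpace Ω))
    (B : ℝ≥0 → Ω → ℝ) (_ : IsBM F B P),
    LB2f.OP3 P (fun ω => driving κ B ω) (fun ω t => rad (driving κ B ω) t) C c'

/-- the old geodesic from `State` -/
theorem geo_state {p : LB.Par} (hA : p.Adm) (hc : LB0.Small p) {f : ℂ → ℂ} (hS : State p f)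
    (hθ : p.θ ≤ 1 / 2) : LB0.Geo p f := by
  have hf := hS.diff
  have hfi := hS.inj
  have hv : ∃ y : ℝ, 0 < y ∧ p.θ ≤ LB.vv p.u0 f y := by
    have h1 : ∀ᶠ y in atTop, (1 / 2 : ℝ) < LB.vv p.u0 f y :=
      hS.v_tendsto.eventually (lt_mem_nhds (by norm_num))
    obtain ⟨y, hy1, hy2⟩ := (h1.and (eventually_gt_atTop 0)).exists
    exact ⟨y, hy2, hθ.trans hy1.le⟩
  obtain ⟨y0, hy0, hvy0⟩ := hv
  have hK42 : 1 ≤ p.K4 ^ 2 := one_le_pow₀ hc.K4_ge
  have hθ1 : p.θ ≤ 1 := by linarith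
  have hJ : ∀ y, LB0.Jv p.u0 p.q f y < ⊤ := fun y => lt_top_iff_ne_top.2 (hS.J y)
  have hne : (LB0.bad p.u0 p.q f p.θ p.K3).Nonempty := ⟨y0, hy0, Or.inl hvy0⟩
  obtain ⟨g1, g2, g3, g4, g5, g6⟩ := LB0.geo (K4 := p.K4) hf hfi hA.lip hA.one_le hc.q_pos
    hc.q_lt hc.θ_pos hc.K3_pos hc.K4_ge hc.sm1 hc.sm2 ⟨1, one_pos, hJ 1⟩ hne
  have hrho : p.rho1 f = LB0.rho1 p.u0 p.q f p.θ p.K3 p.K4 := by
    unfold LB.Par.rho1 LB0.rho1
    rfl
  rw [← hrho] at g2 g3 g4 g5 g6
  have hvy : LB.vv p.u0 f (p.y f) ≤ p.θ := LB0.vv_yx_le hf hA.lip hA.one_le g1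
  have hJy : LB.Jv p.u0 p.q f (p.y f) ≤ ENNReal.ofReal p.K3 :=
    LB0.Jv_yx_le hf hfi hA.one_le hc.q_pos g1
  have hnear : ∀ y : ℝ, 0 < y → y ≤ 10 * p.rho1 f →
      ‖f (y * Complex.I) - p.x f‖ ≤ p.u0 (p.x f) / 64 := fun y hy hy2 => g4 y hy hy2
  refine
    { y_pos := g1
      rho_pos := g2
      y_le := g3
      near := hnear
      vv_le := fun y hy hy2 => g5 y hy hy2
      vv_le_one := fun y hy hy2 => (g5 y hy hy2).trans (by have := hc.sm2; nlinarith)
      Jv_le := g6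
      Jv_lt_top := hJ
      lt_y := fun y hy hy2 => LB0.good_of_lt hy hy2
      vv_y_le := hvy
      Jv_y_le := hJy
      caseA := fun h => ⟨le_antisymm hvy h, by unfold LB.Par.rho1; rw [if_pos h]⟩
      caseB := fun h => ?_
      u0_near := fun y hy hy2 => LB0.u0_comparable hA.lip (hnear y hy hy2)
      norm_sub := fun y y' hy hy2 hy' hy2' => ?_ }
  · refine ⟨by unfold LB.Par.rho1; rw [if_neg h]; ring, le_antisymm hJy ?_⟩
    exact LB0.le_Jv_yx hf hfi hA.lip hA.one_le hc.q_pos hne g1 (not_le.1 h)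
  · have h3 := hnear y hy hy2
    have h4 := hnear y' hy' hy2'
    calc ‖f (y * Complex.I) - f (y' * Complex.I)‖
        = ‖(f (y * Complex.I) - p.x f) - (f (y' * Complex.I) - p.x f)‖ := by ring_nf
      _ ≤ ‖f (y * Complex.I) - p.x f‖ + ‖f (y' * Complex.I) - p.x f‖ := norm_sub_le _ _
      _ ≤ _ := by linarith

/-- consequences of `Geo` used below: bound up to `20 ρ₁`. -/
theorem near20 {p : LB.Par} (hA : p.Adm) {f : ℂ → ℂ} (hS : State p f) (hG : LB0.Geo p f)
    (hsm : 3200 * p.K4 ^ 2 * p.θ ≤ 1 / 10) {y : ℝ} (hy0 : 0 < y) (hy : y ≤ 20 * p.rho1 f) :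
    ‖f (y * Complex.I) - p.x f‖ ≤ p.u0 (p.x f) / 32 := by
  have hU : 0 < p.u0 (p.x f) := lt_of_lt_of_le one_pos (hA.one_le _)
  rcases le_or_gt y (10 * p.rho1 f) with h | h
  · have := hG.near y hy0 h
    linarith
  · have h10 : 0 < 10 * p.rho1 f := by have := hG.rho_pos; linarith
    have h1 := (dist_axis hS.diff hS.inj h10 h.le (by linarith)).2
    have h2 := hG.near (10 * p.rho1 f) h10 le_rfl
    have h3 := hG.vv_le (10 * p.rho1 f) h10 le_rfl
    have h4 := (hG.u0_near (10 * p.rho1 f) h10 le_rfl).2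
    have h5 : KB1.ups f ((10 * p.rho1 f : ℝ) * Complex.I)
        = LB.vv p.u0 f (10 * p.rho1 f) * p.u0 (f ((10 * p.rho1 f : ℝ) * Complex.I)) := by
      have : 0 < p.u0 (f ((10 * p.rho1 f : ℝ) * Complex.I)) :=
        lt_of_lt_of_le one_pos (hA.one_le _)
      unfold LB.vv
      field_simp
    have h6 : LB.vv p.u0 f (10 * p.rho1 f) ≤ 1 / 300 := by
      refine h3.trans ?_
      linarith
    have h7 : KB1.ups f ((10 * p.rho1 f : ℝ) * Complex.I) ≤ 1 / 300 * (65 / 64 * p.u0 (p.x f)) := by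
      rw [h5]
      have h0 : 0 ≤ p.u0 (f ((10 * p.rho1 f : ℝ) * Complex.I)) :=
        le_trans zero_le_one (hA.one_le _)
      exact mul_le_mul h6 h4 h0 (by norm_num)
    have e : f (y * Complex.I) - p.x f = (f (y * Complex.I) - f ((10 * p.rho1 f : ℝ) * Complex.I))
        + (f ((10 * p.rho1 f : ℝ) * Complex.I) - p.x f) := by ring
    rw [e]
    refine (norm_add_le _ _).trans ?_
    linarith

/-- the exponents: `c = min (c'/4) 1` -/
noncomputable def cE (c' : ℝ) : ℝ := min (c' / 4) 1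

lemma cE_pos {c' : ℝ} (h : 0 < c') : 0 < cE c' := lt_min (by linarith) one_pos
lemma cE_le_one (c' : ℝ) : cE c' ≤ 1 := min_le_right _ _
lemma cE_le (c' : ℝ) : cE c' ≤ c' / 4 := min_le_left _ _
lemma cE_lt {c' : ℝ} (h : 0 < c') : 2 * cE c' < c' := by have := cE_le c'; linarith

/-- choice of `θ₀` -/
theorem exists_th0 {q K3 K4 c : ℝ} (hq : 0 < q) (hq1 : q < 1) (hK3 : 0 < K3) (hK4 : 1 ≤ K4)
    (hc : 0 < c) :
    ∃ θ0 : ℝ, 0 < θ0 ∧ ∀ θ : ℝ, 0 < θ → θ ≤ θ0 →
      K3 * θ ^ (1 - q) ≤ 1 / 130 ∧ 3200 * K4 ^ 2 * θ ≤ 1 / 10 ∧ θ ≤ 1 / 2 ∧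
        204 * K4 ^ 2 * θ ≤ th c := by
  obtain ⟨θ1, h1, h2⟩ := LB0.exists_theta hq hq1 hK3 hK4
  have hK40 : 0 < K4 := by linarith
  have hth := th_pos hc
  refine ⟨min (min θ1 (1 / 2)) (min (1 / (32000 * K4 ^ 2)) (th c / (204 * K4 ^ 2))), ?_, ?_⟩
  · refine lt_min (lt_min h1 (by norm_num)) (lt_min (by positivity) (by positivity))
  · intro θ hθ hle
    have a1 := hle.trans ((min_le_left _ _).trans (min_le_left _ _))
    have a2 := hle.trans ((min_le_left _ _).trans (min_le_right _ _))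
    have a3 := hle.trans ((min_le_right _ _).trans (min_le_left _ _))
    have a4 := hle.trans ((min_le_right _ _).trans (min_le_right _ _))
    refine ⟨(h2 θ hθ a1).1, ?_, a2, ?_⟩
    · rw [le_div_iff₀ (by positivity)] at a3
      linarith
    · rw [le_div_iff₀ (by positivity)] at a4
      linarith

lemma cont_driving {Ω : Type*} [MeasurableSpace Ω] {P : Measure Ω}
    {F : Filtration ℝ≥0 (inferInstance : MeasurableSpace Ω)} {B : ℝ≥0 → Ω → ℝ}
    (hB : IsBM F B P) (κ : ℝ) (ω : Ω) : ContinuousOn (driving κ B ω) (Ici 0) := by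
  have h1 : Continuous (driving κ B ω) := by
    unfold driving
    exact continuous_const.mul ((hB.cont ω).comp continuous_real_toNNReal)
  exact h1.continuousOn

/-- **LB2b**: `In2 κ`. -/
theorem in2 {κ : ℝ} (h3 : OP3K.{u} κ) : In2.{u} κ := by
  obtain ⟨C, c', hC, hc', hall⟩ := h3
  set c := cE c' with hcdef
  have hc0 : 0 < c := cE_pos hc'
  have hc1 : c ≤ 1 := cE_le_one c'
  have hcc : 2 * c < c' := cE_lt hc'
  set e : ℝ := (c' - 2 * c) / 4 with he
  have he0 : 0 < e := by rw [he]; linarith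
  set Cb : ℝ := 49 * C / c ^ 2 * 20 ^ c' / (1 - Real.exp (-(c' - 2 * c))) with hCb
  have hCb0 : 0 ≤ Cb := by
    have : Real.exp (-(c' - 2 * c)) < 1 := by
      rw [Real.exp_lt_one_iff]
      linarith
    apply div_nonneg (by positivity)
    linarith
  refine ⟨e, Cb * 2 ^ e, he0, by positivity, ?_⟩
  intro cs q η K3 K4 hcs hcs2 hq hq8 hη hη8 hK3 hK4
  obtain ⟨θ0, hθ0, hθall⟩ := exists_th0 hq (by linarith : q < 1) hK3 hK4 hc0
  refine ⟨θ0, hθ0, ?_⟩
  intro p hκ hpcs hpq hpη hpK3 hpK4 hpθ0 hpθ hA f hS Ω _ P _ F B hB k hk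
  obtain ⟨s1, s2, s3, s4⟩ := hθall p.θ hpθ0 hpθ
  have hsmall : LB0.Small p :=
    { q_pos := by rw [hpq]; exact hq
      q_lt := by rw [hpq]; linarith
      η_nonneg := by rw [hpη]; exact hη.le
      θ_pos := hpθ0
      K3_pos := by rw [hpK3]; exact hK3
      K4_ge := by rw [hpK4]; exact hK4
      sm1 := by rw [hpK3, hpq]; exact s1
      sm2 := by rw [hpK4]; linarith }
  have hG := geo_state hA hsmall hS s3
  have hρ : (0 : ℝ) < (2 : ℝ) ^ k := by positivity
  set ρ : ℝ := (2 : ℝ) ^ k with hρdef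
  have hρ10 : ρ ≤ 10 * p.rho1 f := by have := hG.rho_pos; linarith
  have hU : 0 < p.u0 (p.x f) := lt_of_lt_of_le one_pos (hA.one_le _)
  set U := p.u0 (p.x f) with hUdef
  have hu0p : 0 < p.u0 (f (ρ * Complex.I)) := lt_of_lt_of_le one_pos (hA.one_le _)
  have hvv : KB1.ups f (ρ * Complex.I) = LB.vv p.u0 f ρ * p.u0 (f (ρ * Complex.I)) := by
    unfold LB.vv
    field_simp
  have hups0 : 0 < KB1.ups f (ρ * Complex.I) :=
    ups_pos hS.diff hS.inj (by rw [mulI_im]; exact hρ)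
  have hvv0 : 0 < LB.vv p.u0 f ρ := div_pos hups0 hu0p
  have hvv1 : LB.vv p.u0 f ρ ≤ 1 := hG.vv_le_one ρ hρ hρ10
  have hratio : KB1.ups f (ρ * Complex.I) ≤ 2 * LB.vv p.u0 f ρ * U := by
    rw [hvv]
    have h1 := (hG.u0_near ρ hρ hρ10).2
    have h2 : p.u0 (f (ρ * Complex.I)) ≤ 2 * U := by rw [hUdef]; linarith
    calc LB.vv p.u0 f ρ * p.u0 (f (ρ * Complex.I)) ≤ LB.vv p.u0 f ρ * (2 * U) := by gcongr
      _ = _ := by ring
  have hv : KB1.ups f (ρ * Complex.I) ≤ th c * U := by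
    refine hratio.trans ?_
    have h1 := hG.vv_le ρ hρ hρ10
    rw [hpK4] at h1
    have : 2 * LB.vv p.u0 f ρ ≤ th c := by linarith
    gcongr
  have hx : ∀ y : ℝ, 10 * ρ ≤ y → y ≤ 20 * ρ → ‖f (y * Complex.I) - p.x f‖ ≤ U / 32 := by
    intro y hy1 hy2
    refine near20 hA hS hG (by rw [hpK4]; exact s2) (by linarith) ?_
    linarith
  have hesc := LB2f.esc (P := P) (W := fun ω => driving κ B ω)
    (R := fun ω t => rad (driving κ B ω) t) (x := p.x f) (cont_driving hB κ)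
    (fun ω t ht => le_rad_sq ht) (fun ω t ht => abs_le_rad (cont_driving hB κ ω) ht le_rfl)
    hC (hall Ω P F B hB) hS.diff hS.inj hU hρ hc0 hc1 hcc hv hx
  refine (measure_mono ?_).trans (hesc.trans ?_)
  · rintro ω ⟨t, ht, h1, h2, hbad⟩
    refine ⟨t, ht.le, h1, ?_, ?_⟩
    · have : (2 : ℝ) ^ (k + 1) = 2 * ρ := by
        rw [hρdef, zpow_add₀ (by norm_num), zpow_one]
        ring
      rw [this] at h2
      exact h2.le
    · exact hbad
  · refine ENNReal.ofReal_le_ofReal ?_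
    rw [mul_assoc]
    refine mul_le_mul_of_nonneg_left ?_ hCb0
    have h1 : KB1.ups f (ρ * Complex.I) / U ≤ 2 * LB.vv p.u0 f ρ := by
      rw [div_le_iff₀ hU]
      exact hratio
    calc (KB1.ups f (ρ * Complex.I) / U) ^ e ≤ (2 * LB.vv p.u0 f ρ) ^ e :=
          Real.rpow_le_rpow (by positivity) h1 he0.le
      _ = 2 ^ e * LB.vv p.u0 f ρ ^ e := Real.mul_rpow (by norm_num) hvv0.le
      _ ≤ 2 ^ e * LB.vv p.u0 f ρ ^ cs := by
          gcongr ?_ * ?_
          exact Real.rpow_le_rpow_of_exponent_ge hvv0 hvv1 hcs2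

/-- **LB2c**: `InZ κ`. -/
theorem inZ {κ : ℝ} (h3 : OP3K.{u} κ) : InZ.{u} κ := by
  obtain ⟨C, c', hC, hc', hall⟩ := h3
  set c := cE c' with hcdef
  have hc0 : 0 < c := cE_pos hc'
  have hc1 : c ≤ 1 := cE_le_one c'
  have hcc : 2 * c < c' := cE_lt hc'
  intro q hq hq8
  set a : ℝ := c' - 2 * c with ha
  have ha0 : 0 < a := by rw [ha]; linarith
  set D : ℝ := 49 * C * 20 ^ c' / (1 - Real.exp (-(c' - 2 * c))) with hD
  have hD0 : 0 ≤ D := by
    have : Real.exp (-(c' - 2 * c)) < 1 := by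
      rw [Real.exp_lt_one_iff]
      linarith
    apply div_nonneg (by positivity)
    linarith
  set K : ℝ := Real.log 2 + 9 ^ q / (1 - Real.exp (-(c * q))) with hK
  set N0 : ℕ := ⌈K⌉₊ with hN0
  refine ⟨a, max D 1 * Real.exp (a * N0), ha0, by positivity, ?_⟩
  intro cs η K3 K4 hcs hη hη8 hK3 hK4
  obtain ⟨θ0, hθ0, hθall⟩ := exists_th0 hq (by linarith : q < 1) hK3 hK4 hc0
  refine ⟨θ0, hθ0, ?_⟩
  intro p hκ hpcs hpq hpη hpK3 hpK4 hpθ0 hpθ hA f hS Ω _ P _ F B hB k n hk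
  obtain ⟨s1, s2, s3, s4⟩ := hθall p.θ hpθ0 hpθ
  have hsmall : LB0.Small p :=
    { q_pos := by rw [hpq]; exact hq
      q_lt := by rw [hpq]; linarith
      η_nonneg := by rw [hpη]; exact hη.le
      θ_pos := hpθ0
      K3_pos := by rw [hpK3]; exact hK3
      K4_ge := by rw [hpK4]; exact hK4
      sm1 := by rw [hpK3, hpq]; exact s1
      sm2 := by rw [hpK4]; linarith }
  have hG := geo_state hA hsmall hS s3
  have hρ : (0 : ℝ) < (2 : ℝ) ^ k := by positivity
  set ρ : ℝ := (2 : ℝ) ^ k with hρdef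
  have hU : 0 < p.u0 (p.x f) := lt_of_lt_of_le one_pos (hA.one_le _)
  -- small n
  rcases lt_or_ge n N0 with hn | hn
  · refine (prob_le_one).trans ?_
    rw [← ENNReal.ofReal_one]
    refine ENNReal.ofReal_le_ofReal ?_
    have h1 : (1 : ℝ) ≤ Real.exp (a * N0) * Real.exp (-(a * n)) := by
      rw [← Real.exp_add]
      refine Real.one_le_exp ?_
      have : (n : ℝ) ≤ N0 := by exact_mod_cast hn.le
      nlinarith
    calc (1 : ℝ) ≤ 1 * (Real.exp (a * N0) * Real.exp (-(a * n))) := by linarith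
      _ ≤ max D 1 * (Real.exp (a * N0) * Real.exp (-(a * n))) := by
          gcongr
          exact le_max_right _ _
      _ = _ := by ring
  · obtain ⟨m, rfl⟩ := Nat.exists_eq_add_of_le hn
    have htail := LB2f.tail' (P := P) (W := fun ω => driving κ B ω)
      (R := fun ω t => rad (driving κ B ω) t) (x := p.x f) (U := p.u0 (p.x f)) (ρ := ρ)
      (cont_driving hB κ) hC (hall Ω P F B hB) hS.diff hS.inj hU hρ hc0 hcc
      (LB.Jv p.u0 p.q) (fun n => ENNReal.ofReal (n + Real.log 2 + 9 ^ q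
        / (1 - Real.exp (-(c * q)))))
      (fun h r n hh hi h1 h2 hA1 hB1 => by
        have := LB2w.Jv_le hh hi hA.one_le hA.lip (x := p.x f) hq hc0 hρ h1 h2 hA1 n hB1
        rw [hpq]
        exact this) m
    refine (measure_mono ?_).trans (htail.trans ?_)
    · rintro ω ⟨t, ht, h1, h2, hbad, hJ⟩
      have h2' : rad (driving κ B ω) t ≤ 2 * ρ := by
        have : (2 : ℝ) ^ (k + 1) = 2 * ρ := by
          rw [hρdef, zpow_add₀ (by norm_num), zpow_one]
          ring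
        rw [this] at h2
        exact h2.le
      refine ⟨t, ht.le, h1, h2', ?_, ?_⟩
      · intro y hy0 hy
        have h3 : ‖f (ffl (driving κ B ω) t (y * Complex.I))
            - f ((10 * rad (driving κ B ω) t : ℝ) * Complex.I)‖ ≤ p.u0 (p.x f) / 16 := by
          by_contra hgt
          push Not at hgt
          exact hbad ⟨y, hy0, hy, hgt⟩
        have h4 : ‖f ((10 * rad (driving κ B ω) t : ℝ) * Complex.I) - p.x f‖
            ≤ p.u0 (p.x f) / 32 := by
          refine near20 hA hS hG (by rw [hpK4]; exact s2) ?_ ?_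
          · have : 0 < rad (driving κ B ω) t := hρ.trans_le h1
            linarith
          · linarith
        have e : (f ∘ ffl (driving κ B ω) t) (y * Complex.I) - p.x f
            = (f (ffl (driving κ B ω) t (y * Complex.I))
              - f ((10 * rad (driving κ B ω) t : ℝ) * Complex.I))
              + (f ((10 * rad (driving κ B ω) t : ℝ) * Complex.I) - p.x f) := by
          simp only [Function.comp_apply]
          ring
        rw [e]
        refine (norm_add_le _ _).trans ?_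
        linarith
      · refine lt_of_le_of_lt (ENNReal.ofReal_le_ofReal ?_) hJ
        have : K ≤ N0 := Nat.le_ceil K
        push_cast
        rw [hK] at this
        linarith
    · refine ENNReal.ofReal_le_ofReal ?_
      have h1 : Real.exp (-((c' - 2 * c) * m)) = Real.exp (a * N0) * Real.exp (-(a * (N0 + m : ℕ))) := by
        rw [← Real.exp_add]
        congr 1
        push_cast
        rw [ha]
        ring
      rw [h1, ← hD]
      calc D * (Real.exp (a * N0) * Real.exp (-(a * (N0 + m : ℕ))))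
          ≤ max D 1 * (Real.exp (a * N0) * Real.exp (-(a * (N0 + m : ℕ)))) := by
            gcongr
            exact le_max_left _ _
        _ = _ := by ring

end Crest.Agent.R162.LB2h
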