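import Mathlib
import Crest.Agent.R162.LB2h
import Crest.Agent.R162.LB2br

/-!
Row 162, node LB2b+c (helper636): `In2 κ`, `InZ κ` from 376's `HOP3 κ`, or from 149's OP1, OP2.
-/

set_option autoImplicit false

open MeasureTheory
open scoped ENNReal NNReal

namespace Crest.Agent.R162.LB2k

open Crest.Agent.R162.LB2h Crest.Agent.R162.LBStep

universe u

theorem op3K_of {κ : ℝ} (h : LB2br.HOP3.{u} κ) : OP3K.{u} κ := by
  obtain ⟨C, c', hC, hc', h⟩ := h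
  refine ⟨C, c', hC.le, hc', ?_⟩
  intro Ω _ P _ F B hB z hz lam hlam
  exact h hB z hz lam hlam

theorem in2_of {κ : ℝ} (h : LB2br.HOP3.{u} κ) : In2.{u} κ := in2 (op3K_of h)

theorem inZ_of {κ : ℝ} (h : LB2br.HOP3.{u} κ) : InZ.{u} κ := inZ (op3K_of h)

theorem in2_of_OP {κ : ℝ} (h1 : LB2br.OP1S.{u} κ) (h2 : LB2br.OP2S.{u} κ) : In2.{u} κ :=
  in2_of (LB2br.hOP3_of h1 h2)

theorem inZ_of_OP {κ : ℝ} (h1 : LB2br.OP1S.{u} κ) (h2 : LB2br.OP2S.{u} κ) : InZ.{u} κ :=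
  inZ_of (LB2br.hOP3_of h1 h2)

end Crest.Agent.R162.LB2k
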