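import Mathlib
import Crest.Agent.R162.OPM
import Crest.Agent.R162.OPd
import Crest.Agent.R162.LB2br
import Crest.Agent.R162.LB2h

/-!
Row 162, node LB2b+c (helper376): the hypothesis `hOP3` of `LB2d.key`, unconditionally, from 149's
`OP3'` and 9's `opm`.
-/

set_option autoImplicit false

open MeasureTheory Set ProbabilityTheory Filter Topology
open scoped ENNReal NNReal
open Crest.ProbabilityR.Loewner

namespace Crest.Agent.R162.LB2op

open Crest.Agent.R162.FL Crest.Agent.R162.OP Crest.Agent.R162.OS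
open Crest.Agent.R162.LB (rad)

universe u

/-- `hOP3` for a fixed Brownian motion, explicit constants of `OP3'` -/
theorem hop3_fix {Ω : Type u} {m : MeasurableSpace Ω} {P : Measure Ω} [IsProbabilityMeasure P]
    {Fl : Filtration ℝ≥0 m} {B : ℝ≥0 → Ω → ℝ} (hB : IsBM Fl B P) {κ : ℝ} (hκ : 0 < κ)
    (hκ8 : κ < 8) {z : ℂ} (hz : 0 < z.im) {lam : ℝ} (hlam : 0 < lam) :
    P {ω | ∃ t : ℝ, 0 ≤ t ∧ Alive (driving κ B ω) z t ∧ 1 / 2 ≤ sfl (driving κ B ω) t z ∧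
        ‖Zfl (driving κ B ω) t z‖ ≤ lam * rad (driving κ B ω) t} ≤
      ENNReal.ofReal (OP.C3' κ (1 / 2) * lam ^ OP.c3' κ) := by
  have key := OP.OP3' (hM := OPM.opm.{u}) (hB := hB) (hκ := hκ) (hκ8 := hκ8) (w := z) (hw := hz)
    (σ := fun _ => (0 : ℝ≥0)) (LB2br.isST_zero Fl) (A := univ) (LB2br.evST_univ Fl)
    (c₀ := 1 / 2) (by norm_num) (R := fun ω t => rad (driving κ B ω) t)
    (by
      intro ω _ t ht C hC
      have ht0 : (0 : ℝ) ≤ t := ht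
      refine LB2br.rad_le_of ht0 ?_ ?_
      · have := (hC t ⟨ht, le_rfl⟩).1
        simpa using this
      · intro s hs
        have := (hC s ⟨hs.1, hs.2⟩).2
        simpa [LB2br.driving_zero hB κ ω] using this)
    (lam := lam) hlam
  have e1 : P.real (univ : Set Ω) = 1 := by simp
  rw [e1, mul_one] at key
  have e2 : {ω | ∃ t : ℝ, 0 ≤ t ∧ Alive (driving κ B ω) z t ∧ 1 / 2 ≤ sfl (driving κ B ω) t z ∧
        ‖Zfl (driving κ B ω) t z‖ ≤ lam * rad (driving κ B ω) t} =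
      {ω ∈ (univ : Set Ω) | ∃ t : ℝ, (((0 : ℝ≥0) : ℝ)) ≤ t ∧ Alive (driving κ B ω) z t ∧
        1 / 2 ≤ sfl (driving κ B ω) t z ∧
        ‖Zfl (driving κ B ω) t z‖ ≤ lam * rad (driving κ B ω) t} := by
    ext ω
    simp
  rw [e2, ← ENNReal.ofReal_toReal (measure_ne_top P _)]
  exact ENNReal.ofReal_le_ofReal key

/-- **`hOP3`**, unconditional. -/
theorem hop3 {κ : ℝ} (hκ : 0 < κ) (hκ8 : κ < 8) : LB2br.HOP3.{u} κ :=
  ⟨OP.C3' κ (1 / 2), OP.c3' κ, OP.C3'_pos (by norm_num), OP.c3'_pos hκ hκ8,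
    fun hB _ hz _ hlam => hop3_fix hB hκ hκ8 hz hlam⟩

/-- **`LB2h.OP3K`**, unconditional. -/
theorem op3K {κ : ℝ} (hκ : 0 < κ) (hκ8 : κ < 8) : LB2h.OP3K.{u} κ := by
  refine ⟨OP.C3' κ (1 / 2), OP.c3' κ, (OP.C3'_pos (by norm_num)).le, OP.c3'_pos hκ hκ8, ?_⟩
  intro Ω _ P _ F B hB z hz lam hlam
  exact hop3_fix hB hκ hκ8 hz hlam

/-- **In2**, unconditional (561's exact Prop) -/
theorem in2 {κ : ℝ} (hκ : 0 < κ) (hκ8 : κ < 8) : LBStep.In2.{u} κ := LB2h.in2 (op3K hκ hκ8)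

/-- **InZ**, unconditional (561's exact Prop) -/
theorem inZ {κ : ℝ} (hκ : 0 < κ) (hκ8 : κ < 8) : LBStep.InZ.{u} κ := LB2h.inZ (op3K hκ hκ8)

end Crest.Agent.R162.LB2op
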