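import Mathlib
import Crest.Agent.R162.LB2a

/-!
Row 162, node LB2b+c (helper376): SCALE SUM (deterministic).
`Σ_j v(ρ₁ 2^{-j})^{2q} ≤ C_q θ^q K`.
-/

set_option autoImplicit false

open MeasureTheory Set Complex
open scoped ENNReal NNReal

namespace Crest.Agent.R162.LB2s

open Crest.Agent.R162.KB1

/-- the constant of the scale sum -/
noncomputable def Cq (q : ℝ) : ℝ := 2 * (33 / 8 : ℝ) ^ (2 * q)

lemma Cq_pos (q : ℝ) : 0 < Cq q := by unfold Cq; positivity

theorem scale_sum {f : ℂ → ℂ} (hf : DifferentiableOn ℂ f KB1.Hs) (hfi : InjOn f KB1.Hs)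
    {u0 : ℂ → ℝ} (hu1 : ∀ p, 1 ≤ u0 p) (hul : LipschitzWith 1 u0) {x : ℂ} {q th K rho1 : ℝ}
    (hq : 0 < q) (hth : 0 < th) (hr : 0 < rho1)
    (hP1 : ∀ y : ℝ, 0 < y → y ≤ 10 * rho1 → ‖f (y * I) - x‖ ≤ u0 x / 32)
    (hP2 : ∀ y : ℝ, 0 < y → y ≤ 10 * rho1 → KB1.ups f (y * I) / u0 (f (y * I)) ≤ th)
    (hth1 : th ≤ 1)
    (hP3 : ∫⁻ s in Ioc 0 (10 * rho1),
      ENNReal.ofReal ((min (KB1.ups f (s * I) / u0 (f (s * I))) 1) ^ q / s) ≤ ENNReal.ofReal K) :
    ∑' j : ℕ, ENNReal.ofReal ((KB1.ups f ((rho1 / 2 ^ j : ℝ) * I) / u0 x) ^ (2 * q)) ≤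
      ENNReal.ofReal (Cq q * th ^ q * K) := by
  set g : ℝ → ℝ≥0∞ := fun s =>
    ENNReal.ofReal ((min (KB1.ups f (s * I) / u0 (f (s * I))) 1) ^ q / s) with hg
  set y : ℕ → ℝ := fun j => rho1 / 2 ^ j with hy
  set a : ℕ → ℝ := fun j => KB1.ups f ((y j : ℝ) * I) / u0 x with ha
  have hx1 : 1 ≤ u0 x := hu1 x
  have hx0 : 0 < u0 x := by linarith
  have hy0 : ∀ j, 0 < y j := fun j => by simp only [hy]; positivity
  have hy1 : ∀ j, y j ≤ rho1 := fun j => by
    simp only [hy]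
    exact div_le_self hr.le (one_le_pow₀ (by norm_num))
  have hys : ∀ j, y (j + 1) = y j / 2 := fun j => by
    simp only [hy, pow_succ]; field_simp
  have him : ∀ s : ℝ, ((s : ℂ) * I).im = s := fun s => by simp
  have hups0 : ∀ s : ℝ, 0 < s → 0 < ups f (s * I) := fun s hs =>
    ups_pos hf hfi (by rw [him]; exact hs)
  have ha0 : ∀ j, 0 < a j := fun j => div_pos (hups0 _ (hy0 j)) hx0
  -- pointwise comparison
  have hcmp : ∀ j : ℕ, ∀ s : ℝ, y (j + 1) < s → s ≤ y j →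
      8 / 33 * a j ≤ ups f (s * I) / u0 (f (s * I)) := by
    intro j s h1 h2
    have hs0 : 0 < s := (hy0 _).trans h1
    have hs10 : s ≤ 10 * rho1 := by have := hy1 j; linarith
    have e1 := (LB2a.ups_axis hf hfi hs0 h2).2
    have e2 : (y j / s) ^ 2 ≤ 4 := by
      have h3 : y j / s ≤ 2 := by
        rw [div_le_iff₀ hs0]; rw [hys j] at h1; linarith
      have h4 : 0 ≤ y j / s := by have := hy0 j; positivity
      nlinarith
    have hu := hups0 s hs0
    have e3 : ups f (y j * I) ≤ 4 * ups f (s * I) :=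
      e1.trans (mul_le_mul_of_nonneg_right e2 hu.le)
    have e4 : u0 (f (s * I)) ≤ 33 / 32 * u0 x := by
      have h5 := hul.dist_le_mul (f (s * I)) x
      rw [NNReal.coe_one, one_mul, Real.dist_eq, dist_eq_norm] at h5
      have h6 := (abs_le.1 (h5.trans (hP1 s hs0 hs10))).2
      linarith
    have hu0p : 0 < u0 (f (s * I)) := by linarith [hu1 (f (s * I))]
    rw [le_div_iff₀ hu0p]
    have e5 : a j * u0 x = ups f (y j * I) := by
      simp only [ha]; field_simp
    have := ha0 j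
    calc 8 / 33 * a j * u0 (f (s * I)) ≤ 8 / 33 * a j * (33 / 32 * u0 x) := by gcongr
      _ = 1 / 4 * (a j * u0 x) := by ring
      _ = 1 / 4 * ups f (y j * I) := by rw [e5]
      _ ≤ ups f (s * I) := by linarith
  have hath : ∀ j, a j ≤ 33 / 8 * th := by
    intro j
    have h1 := hcmp j (y j) (by rw [hys j]; linarith [hy0 j]) le_rfl
    have h2 := hP2 (y j) (hy0 j) (by have := hy1 j; linarith)
    linarith
  -- integral over one scale
  have hI : ∀ j : ℕ, ENNReal.ofReal ((8 / 33 * a j) ^ q / 2) ≤ ∫⁻ s in Ioc (y (j + 1)) (y j), g s := by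
    intro j
    have h1 : ∫⁻ _s in Ioc (y (j + 1)) (y j), ENNReal.ofReal ((8 / 33 * a j) ^ q / y j)
        ≤ ∫⁻ s in Ioc (y (j + 1)) (y j), g s := by
      refine setLIntegral_mono' measurableSet_Ioc (fun s hs => ?_)
      have hs0 : 0 < s := (hy0 _).trans hs.1
      have hs10 : s ≤ 10 * rho1 := by have := hy1 j; have := hs.2; linarith
      have h2 := hcmp j s hs.1 hs.2
      have h3 := hP2 s hs0 hs10
      simp only [hg]
      rw [min_eq_left (h3.trans hth1)]
      refine ENNReal.ofReal_le_ofReal ?_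
      have := ha0 j
      have h4 : (8 / 33 * a j) ^ q ≤ (ups f (s * I) / u0 (f (s * I))) ^ q :=
        Real.rpow_le_rpow (by positivity) h2 hq.le
      have h5 : 0 ≤ (8 / 33 * a j) ^ q := by positivity
      exact div_le_div₀ (h5.trans h4) h4 hs0 hs.2
    refine le_trans (le_of_eq ?_) h1
    rw [setLIntegral_const, Real.volume_Ioc, ← ENNReal.ofReal_mul (by
      have := ha0 j; have := hy0 j; positivity)]
    congr 1
    rw [hys j]
    have := hy0 j
    field_simp
    ring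
  -- the sum of the integrals
  have hsum : ∑' j : ℕ, ∫⁻ s in Ioc (y (j + 1)) (y j), g s ≤ ENNReal.ofReal K := by
    have hanti : Antitone y := by
      refine antitone_nat_of_succ_le (fun j => ?_)
      rw [hys j]; linarith [hy0 j]
    have hdis : Pairwise (Function.onFun Disjoint fun j : ℕ => Ioc (y (j + 1)) (y j)) := by
      have h := hanti.pairwise_disjoint_on_Ioc_succ
      simpa [Order.succ_eq_add_one] using h
    rw [← lintegral_iUnion (fun _ => measurableSet_Ioc) hdis]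
    refine le_trans (lintegral_mono_set ?_) hP3
    refine iUnion_subset (fun j s hs => ⟨(hy0 _).trans hs.1, ?_⟩)
    have := hy1 j
    have := hs.2
    linarith
  -- conclusion
  have hterm : ∀ j : ℕ, ENNReal.ofReal (a j ^ (2 * q)) ≤
      ENNReal.ofReal (Cq q * th ^ q) * ∫⁻ s in Ioc (y (j + 1)) (y j), g s := by
    intro j
    have h1 : a j ^ (2 * q) ≤ Cq q * th ^ q * ((8 / 33 * a j) ^ q / 2) := by
      have hj := ha0 j
      have e1 : a j ^ (2 * q) = a j ^ q * a j ^ q := by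
        rw [← Real.rpow_add hj]; congr 1; ring
      have e2 : a j ^ q ≤ (33 / 8 * th) ^ q := Real.rpow_le_rpow hj.le (hath j) hq.le
      have e3 : (33 / 8 * th) ^ q = (33 / 8 : ℝ) ^ q * th ^ q :=
        Real.mul_rpow (by norm_num) hth.le
      have e4 : (33 / 8 : ℝ) ^ (2 * q) = (33 / 8 : ℝ) ^ q * (33 / 8 : ℝ) ^ q := by
        rw [← Real.rpow_add (by norm_num)]; congr 1; ring
      have e5 : (8 / 33 * a j) ^ q = (8 / 33 : ℝ) ^ q * a j ^ q :=
        Real.mul_rpow (by norm_num) hj.le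
      have e6 : (33 / 8 : ℝ) ^ q * (8 / 33 : ℝ) ^ q = 1 := by
        rw [← Real.mul_rpow (by norm_num) (by norm_num)]; norm_num
      unfold Cq
      rw [e1, e4, e5]
      have hp : 0 ≤ a j ^ q := by positivity
      calc a j ^ q * a j ^ q ≤ (33 / 8 * th) ^ q * a j ^ q := by gcongr
        _ = (33 / 8 : ℝ) ^ q * th ^ q * a j ^ q * 1 := by rw [e3]; ring
        _ = (33 / 8 : ℝ) ^ q * th ^ q * a j ^ q * ((33 / 8 : ℝ) ^ q * (8 / 33 : ℝ) ^ q) := by
            rw [e6]
        _ = _ := by ring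
    calc ENNReal.ofReal (a j ^ (2 * q))
        ≤ ENNReal.ofReal (Cq q * th ^ q * ((8 / 33 * a j) ^ q / 2)) :=
          ENNReal.ofReal_le_ofReal h1
      _ = ENNReal.ofReal (Cq q * th ^ q) * ENNReal.ofReal ((8 / 33 * a j) ^ q / 2) := by
          rw [ENNReal.ofReal_mul (by have := Cq_pos q; positivity)]
      _ ≤ _ := by gcongr; exact hI j
  calc ∑' j : ℕ, ENNReal.ofReal (a j ^ (2 * q))
      ≤ ∑' j : ℕ, ENNReal.ofReal (Cq q * th ^ q) * ∫⁻ s in Ioc (y (j + 1)) (y j), g s :=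
        ENNReal.tsum_le_tsum hterm
    _ = ENNReal.ofReal (Cq q * th ^ q) * ∑' j : ℕ, ∫⁻ s in Ioc (y (j + 1)) (y j), g s :=
        ENNReal.tsum_mul_left
    _ ≤ ENNReal.ofReal (Cq q * th ^ q) * ENNReal.ofReal K := by gcongr
    _ = ENNReal.ofReal (Cq q * th ^ q * K) :=
        (ENNReal.ofReal_mul (by have := Cq_pos q; positivity)).symm

end Crest.Agent.R162.LB2s
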