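import Mathlib
import Crest.Agent.R162.LBDefs

/-! # Row 162, node LB2t: the step time is positive almost surely -/

set_option autoImplicit false

namespace Crest.Agent.R162.LB2t

open Set MeasureTheory Filter Topology
open Crest.Agent.R162.LB Crest.Agent.R162.FL
open scoped ENNReal

/-- the set defining `T` is nonempty -/
lemma T_set_nonempty (p : Par) (f : ℂ → ℂ) (W : ℝ → ℝ) : {t | 0 < t ∧ p.Bad f W t}.Nonempty := by
  refine ⟨(max (p.rho1 f) 0) ^ 2 + 1, by positivity, Or.inl ?_⟩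
  unfold Par.Bad1
  refine lt_of_lt_of_le ?_ (sqrt_le_rad W _)
  calc p.rho1 f ≤ max (p.rho1 f) 0 := le_max_left _ _
    _ = Real.sqrt ((max (p.rho1 f) 0) ^ 2) := (Real.sqrt_sq (le_max_right _ _)).symm
    _ < _ := Real.sqrt_lt_sqrt (by positivity) (by linarith)

/-- a lower bound for `T` from the absence of bad times -/
lemma le_T {p : Par} {f : ℂ → ℂ} {W : ℝ → ℝ} {δ : ℝ}
    (h : ∀ t, 0 < t → t < δ → ¬ p.Bad f W t) : δ ≤ p.T f W := by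
  refine le_csInf (T_set_nonempty p f W) ?_
  rintro t ⟨ht, hb⟩
  by_contra hcon
  push Not at hcon
  exact h t ht hcon hb

lemma rad_pos {W : ℝ → ℝ} {t : ℝ} (ht : 0 < t) : 0 < rad W t :=
  lt_of_lt_of_le (Real.sqrt_pos.2 ht) (sqrt_le_rad W t)

/-- `rad W t → 0` as `t ↓ 0`. -/
lemma rad_small {W : ℝ → ℝ} (hW : ContinuousOn W (Ici 0)) (h0 : W 0 = 0) {η : ℝ} (hη : 0 < η) :
    ∃ δ > 0, ∀ t, 0 < t → t < δ → rad W t < η := by
  have hc : ContinuousWithinAt W (Ici 0) 0 := hW 0 self_mem_Ici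
  have h1 := (Metric.continuousWithinAt_iff.1 hc) (η / 2) (by positivity)
  obtain ⟨δ1, hδ1, h2⟩ := h1
  refine ⟨min δ1 ((η / 2) ^ 2), by positivity, fun t ht htδ => ?_⟩
  have ht1 : t < δ1 := lt_of_lt_of_le htδ (min_le_left _ _)
  have ht2 : t < (η / 2) ^ 2 := lt_of_lt_of_le htδ (min_le_right _ _)
  unfold rad
  refine max_lt ?_ ?_
  · have : Real.sqrt t < Real.sqrt ((η / 2) ^ 2) := Real.sqrt_lt_sqrt ht.le ht2
    rw [Real.sqrt_sq (by positivity)] at this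
    linarith
  · refine lt_of_le_of_lt (csSup_le ?_ ?_) (by linarith : η / 2 < η)
    · exact ⟨_, 0, ⟨le_rfl, ht.le⟩, rfl⟩
    · rintro _ ⟨s, hs, rfl⟩
      have h3 : dist s 0 < δ1 := by
        rw [Real.dist_eq, sub_zero, abs_of_nonneg hs.1]
        linarith [hs.2]
      have h4 := h2 (x := s) hs.1 h3
      rw [Real.dist_eq, h0, sub_zero] at h4
      exact h4.le

/-- the event "a bad time of type 2 or 3 in the window `[2^k, 2^{k+1})`" -/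
def EE {Ω : Type*} (p : Par) (f : ℂ → ℂ) (W : Ω → ℝ → ℝ) (k : ℤ) : Set Ω :=
  {ω | ∃ t, 0 < t ∧ (2 : ℝ) ^ k ≤ rad (W ω) t ∧ rad (W ω) t < (2 : ℝ) ^ (k + 1) ∧
    (p.Bad2 f (W ω) t ∨ ∃ j, p.Bad3 f (W ω) t j)}

/-- pathwise version -/
theorem T_pos_of_eventually {p : Par} {f : ℂ → ℂ} {W : ℝ → ℝ} (hW : ContinuousOn W (Ici 0))
    (h0 : W 0 = 0) (hρ : 0 < p.rho1 f) {K : ℤ}
    (h : ∀ k : ℤ, k ≤ K → ¬ ∃ t, 0 < t ∧ (2 : ℝ) ^ k ≤ rad W t ∧ rad W t < (2 : ℝ) ^ (k + 1) ∧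
      (p.Bad2 f W t ∨ ∃ j, p.Bad3 f W t j)) : 0 < p.T f W := by
  have h2 : (0 : ℝ) < min (2 ^ (K + 1)) (p.rho1 f) := lt_min (by positivity) hρ
  obtain ⟨δ, hδ, hr⟩ := rad_small hW h0 h2
  refine lt_of_lt_of_le hδ (le_T fun t ht htδ hb => ?_)
  have hrt := hr t ht htδ
  have hr1 : rad W t < 2 ^ (K + 1) := lt_of_lt_of_le hrt (min_le_left _ _)
  have hr2 : rad W t < p.rho1 f := lt_of_lt_of_le hrt (min_le_right _ _)
  have hr0 : 0 < rad W t := rad_pos ht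
  obtain ⟨k, hk⟩ := exists_mem_Ico_zpow hr0 (one_lt_two (α := ℝ))
  have hkK : k ≤ K := by
    have h3 : (2 : ℝ) ^ k < 2 ^ (K + 1) := lt_of_le_of_lt hk.1 hr1
    have h4 := (zpow_lt_zpow_iff_right₀ (one_lt_two (α := ℝ))).1 h3
    omega
  rcases hb with hb | hb | hb
  · unfold Par.Bad1 at hb
    linarith
  · exact h k hkK ⟨t, ht, hk.1, hk.2, Or.inl hb⟩
  · exact h k hkK ⟨t, ht, hk.1, hk.2, Or.inr hb⟩

/-- **`T > 0` almost surely** (Borel–Cantelli over the windows `k → -∞`). -/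
theorem ae_T_pos {Ω : Type*} [MeasurableSpace Ω] (P : Measure Ω) (p : Par) (f : ℂ → ℂ)
    (W : Ω → ℝ → ℝ) (hW : ∀ᵐ ω ∂P, ContinuousOn (W ω) (Ici 0)) (h0 : ∀ᵐ ω ∂P, W ω 0 = 0)
    (hρ : 0 < p.rho1 f) (k1 : ℤ) (hsum : ∑' n : ℕ, P (EE p f W (k1 - n)) ≠ ∞) :
    ∀ᵐ ω ∂P, 0 < p.T f (W ω) := by
  have hBC := ae_eventually_notMem hsum
  filter_upwards [hBC, hW, h0] with ω h1 h2 h3
  obtain ⟨N, hN⟩ := eventually_atTop.1 h1
  refine T_pos_of_eventually h2 h3 hρ (K := k1 - N) ?_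
  intro k hk hex
  have hn : N ≤ (k1 - k).toNat := by omega
  have h4 := hN _ hn
  have h5 : k1 - ((k1 - k).toNat : ℤ) = k := by omega
  rw [h5] at h4
  exact h4 hex

/-- the sum over `{k : ℤ // k ≤ k1}` -/
theorem ae_T_pos' {Ω : Type*} [MeasurableSpace Ω] (P : Measure Ω) (p : Par) (f : ℂ → ℂ)
    (W : Ω → ℝ → ℝ) (hW : ∀ᵐ ω ∂P, ContinuousOn (W ω) (Ici 0)) (h0 : ∀ᵐ ω ∂P, W ω 0 = 0)
    (hρ : 0 < p.rho1 f) (k1 : ℤ)
    (hsum : ∑' k : ℤ, (if k ≤ k1 then P (EE p f W k) else 0) ≠ ∞) :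
    ∀ᵐ ω ∂P, 0 < p.T f (W ω) := by
  refine ae_T_pos P p f W hW h0 hρ k1 (ne_top_of_le_ne_top hsum ?_)
  have hinj : Function.Injective (fun n : ℕ => k1 - (n : ℤ)) := by
    intro a b h
    have : (a : ℤ) = b := by simpa using h
    exact_mod_cast this
  have h := ENNReal.tsum_comp_le_tsum_of_injective hinj
    (fun k : ℤ => if k ≤ k1 then P (EE p f W k) else 0)
  refine le_trans (le_of_eq ?_) h
  apply tsum_congr
  intro n
  have : k1 - (n : ℤ) ≤ k1 := by omega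
  simp [this]

/-- bound by a geometric series in the scale: enough to have `P (E_k) ≤ C a^{k1-k}`, `a < 1`. -/
theorem ae_T_pos_geom {Ω : Type*} [MeasurableSpace Ω] (P : Measure Ω) (p : Par) (f : ℂ → ℂ)
    (W : Ω → ℝ → ℝ) (hW : ∀ᵐ ω ∂P, ContinuousOn (W ω) (Ici 0)) (h0 : ∀ᵐ ω ∂P, W ω 0 = 0)
    (hρ : 0 < p.rho1 f) (k1 : ℤ) (b : ℕ → ℝ) (hb : Summable b) (hb0 : ∀ n, 0 ≤ b n)
    (hE : ∀ n : ℕ, P (EE p f W (k1 - n)) ≤ ENNReal.ofReal (b n)) :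
    ∀ᵐ ω ∂P, 0 < p.T f (W ω) := by
  refine ae_T_pos P p f W hW h0 hρ k1 (ne_top_of_le_ne_top ?_ (ENNReal.tsum_le_tsum hE))
  rw [← ENNReal.ofReal_tsum_of_nonneg hb0 hb]
  exact ENNReal.ofReal_ne_top

end Crest.Agent.R162.LB2t
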