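import Mathlib
import Crest.Agent.R162.LBStepIn
import Crest.Agent.R162.LB0D
import Crest.Agent.R162.LB2d
import Crest.Agent.R162.LB2w
import Crest.Agent.R162.OPd
import Crest.Agent.R162.OPM

/-!
Row 162, node LB2c (helper620): `InZ κ` of `LBStepIn` (tail of the new potential `Z'`), from the
KEY lemma `LB2d.key` (636), `OP3'` (149), `LB2w.Jv_le` and the old-geodesic facts of `LB0` (411).
-/

set_option autoImplicit false

open MeasureTheory ProbabilityTheory Set Filter Topology Complex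
open scoped NNReal ENNReal
open Crest.ProbabilityR.Loewner

namespace Crest.Agent.R162.LB2z

open Crest.Agent.R162.LB Crest.Agent.R162.FL Crest.Agent.R162.OS Crest.Agent.R162.LBStep
open Crest.Agent.R162

universe u

/-! ### the old geodesic from `State` -/

/-- `LB0.geoP` with finiteness of `J` as hypothesis. -/
theorem geoP' {p : LB.Par} (hA : p.Adm) (hc : LB0.Small p) {f : ℂ → ℂ}
    (hf : DifferentiableOn ℂ f KB1.Hs) (hfi : InjOn f KB1.Hs)
    (hJ : ∀ y : ℝ, LB.Jv p.u0 p.q f y < ⊤)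
    (hv : ∃ y : ℝ, 0 < y ∧ p.θ ≤ LB.vv p.u0 f y) : LB0.Geo p f := by
  obtain ⟨y0, hy0, hvy0⟩ := hv
  have hK42 : 1 ≤ p.K4 ^ 2 := one_le_pow₀ hc.K4_ge
  have hne : (LB0.bad p.u0 p.q f p.θ p.K3).Nonempty := ⟨y0, hy0, Or.inl hvy0⟩
  obtain ⟨g1, g2, g3, g4, g5, g6⟩ := LB0.geo (K4 := p.K4) hf hfi hA.lip hA.one_le hc.q_pos hc.q_lt
    hc.θ_pos hc.K3_pos hc.K4_ge hc.sm1 hc.sm2 ⟨1, one_pos, hJ 1⟩ hne
  have hrho : p.rho1 f = LB0.rho1 p.u0 p.q f p.θ p.K3 p.K4 := by
    unfold LB.Par.rho1 LB0.rho1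
    rfl
  rw [← hrho] at g2 g3 g4 g5 g6
  have hvy : LB.vv p.u0 f (p.y f) ≤ p.θ := LB0.vv_yx_le hf hA.lip hA.one_le g1
  have hJy : LB.Jv p.u0 p.q f (p.y f) ≤ ENNReal.ofReal p.K3 :=
    LB0.Jv_yx_le hf hfi hA.one_le hc.q_pos g1
  have hnear : ∀ y : ℝ, 0 < y → y ≤ 10 * p.rho1 f →
      ‖f (y * Complex.I) - p.x f‖ ≤ p.u0 (p.x f) / 64 := fun y hy hy2 => g4 y hy hy2
  refine
    { y_pos := g1
      rho_pos := g2
      y_le := g3
      near := hnear
      vv_le := fun y hy hy2 => g5 y hy hy2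
      vv_le_one := fun y hy hy2 => (g5 y hy hy2).trans (by have := hc.sm2; nlinarith)
      Jv_le := g6
      Jv_lt_top := hJ
      lt_y := fun y hy hy2 => LB0.good_of_lt hy hy2
      vv_y_le := hvy
      Jv_y_le := hJy
      caseA := fun h => ⟨le_antisymm hvy h, by unfold LB.Par.rho1; rw [if_pos h]⟩
      caseB := fun h => ?_
      u0_near := fun y hy hy2 => LB0.u0_comparable hA.lip (hnear y hy hy2)
      norm_sub := fun y y' hy hy2 hy' hy2' => ?_ }
  · refine ⟨by unfold LB.Par.rho1; rw [if_neg h]; ring, le_antisymm hJy ?_⟩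
    exact LB0.le_Jv_yx hf hfi hA.lip hA.one_le hc.q_pos hne g1 (not_le.1 h)
  · have h3 := hnear y hy hy2
    have h4 := hnear y' hy' hy2'
    calc ‖f (y * Complex.I) - f (y' * Complex.I)‖
        = ‖(f (y * Complex.I) - p.x f) - (f (y' * Complex.I) - p.x f)‖ := by ring_nf
      _ ≤ ‖f (y * Complex.I) - p.x f‖ + ‖f (y' * Complex.I) - p.x f‖ := norm_sub_le _ _
      _ ≤ _ := by linarith

/-- the old geodesic from `State` -/
theorem geo_of_state {p : LB.Par} (hA : p.Adm) (hc : LB0.Small p) {f : ℂ → ℂ}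
    (hS : State p f) (hθ : p.θ < 1) : LB0.Geo p f := by
  refine geoP' hA hc hS.diff hS.inj (fun y => lt_top_iff_ne_top.2 (hS.J y)) ?_
  have h1 : ∀ᶠ y in atTop, p.θ < vv p.u0 f y := hS.v_tendsto.eventually (lt_mem_nhds hθ)
  obtain ⟨y, hy, hy0⟩ := (h1.and (eventually_gt_atTop 0)).exists
  exact ⟨y, hy0, hy.le⟩

/-- (P1) up to `20 ρ₁`. -/
theorem near20 {p : LB.Par} {f : ℂ → ℂ} (hA : p.Adm) (hc : LB0.Small p) (hS : State p f)
    (hG : LB0.Geo p f) (hθ : 10000 * p.K4 ^ 2 * p.θ ≤ 1) {y : ℝ} (hy : 0 < y)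
    (hy2 : y ≤ 20 * p.rho1 f) :
    ‖f (y * Complex.I) - p.x f‖ ≤ p.u0 (p.x f) / 16 := by
  have hux : 0 < p.u0 (p.x f) := zero_lt_one.trans_le (hA.one_le _)
  rcases le_or_gt y (10 * p.rho1 f) with h | h
  · exact (hG.near y hy h).trans (by linarith)
  · have hr := hG.rho_pos
    set z : ℂ := ((10 * p.rho1 f : ℝ) : ℂ) * Complex.I with hz_def
    set w : ℂ := (y : ℂ) * Complex.I with hw_def
    have hz : z.im = 10 * p.rho1 f := by simp [hz_def]
    have hw : w.im = y := by simp [hw_def]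
    have hz0 : 0 < z.im := by rw [hz]; linarith
    have hw0 : 0 < w.im := by rw [hw]; exact hy
    have hhd : KB1.hd z w ≤ Real.log 2 := by
      rw [KB1.hd_vert hz0 hw0 (by simp [hz_def, hw_def]), hz, hw, abs_sub_comm,
        ← Real.log_div hy.ne' (by linarith)]
      have h1 : 1 ≤ y / (10 * p.rho1 f) := by
        rw [le_div_iff₀ (by linarith)]; linarith
      rw [abs_of_nonneg (Real.log_nonneg h1)]
      refine Real.log_le_log (by positivity) ?_
      rw [div_le_iff₀ (by linarith)]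
      linarith
    have hexp : Real.exp (2 * KB1.hd z w) ≤ 4 := by
      calc Real.exp (2 * KB1.hd z w) ≤ Real.exp (2 * Real.log 2) :=
            Real.exp_le_exp.2 (by linarith)
        _ = 4 := by
            rw [two_mul, Real.exp_add, Real.exp_log (by norm_num)]; norm_num
    have hups0 := KB1.ups_pos hS.diff hS.inj hz0
    have hn := KB1.norm_sub_le_exp hS.diff hS.inj hz0 hw0
    have hn2 : ‖f w - f z‖ ≤ KB1.ups f z * (3 / 2) := by
      refine hn.trans (mul_le_mul_of_nonneg_left ?_ hups0.le)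
      linarith
    have hv := hG.vv_le (10 * p.rho1 f) (by linarith) le_rfl
    have hu := (hG.u0_near (10 * p.rho1 f) (by linarith) le_rfl).2
    have hu0 : 0 < p.u0 (f z) := zero_lt_one.trans_le (hA.one_le _)
    have hups : KB1.ups f z ≤ 102 * p.K4 ^ 2 * p.θ * p.u0 (f z) := by
      have : KB1.ups f z / p.u0 (f z) ≤ 102 * p.K4 ^ 2 * p.θ := hv
      rwa [div_le_iff₀ hu0] at this
    have hnz := hG.near (10 * p.rho1 f) (by linarith) le_rfl
    have hKθ : 102 * p.K4 ^ 2 * p.θ ≤ 102 / 10000 := by linarith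
    have hKθ0 : 0 ≤ 102 * p.K4 ^ 2 * p.θ := by have := hc.θ_pos; positivity
    have h5 : KB1.ups f z ≤ 102 / 10000 * (65 / 64 * p.u0 (p.x f)) :=
      hups.trans (mul_le_mul hKθ hu hu0.le (by norm_num))
    calc ‖f w - p.x f‖ = ‖(f w - f z) + (f z - p.x f)‖ := by ring_nf
      _ ≤ ‖f w - f z‖ + ‖f z - p.x f‖ := norm_add_le _ _
      _ ≤ p.u0 (p.x f) / 16 := by linarith

/-! ### the union bound -/

/-- abstract form of the tail -/
theorem tail_core {Ω : Type*} [MeasurableSpace Ω] (P : Measure Ω) [IsProbabilityMeasure P]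
    {E : ℕ → Set Ω} {A : ℕ → Set Ω} {C a : ℝ} (hC : 0 ≤ C) (ha : 0 < a) (M : ℕ)
    (hA : ∀ j, P (A j) ≤ ENNReal.ofReal (C * Real.exp (-(a * j))))
    (hE : ∀ m : ℕ, E (m + M) ⊆ ⋃ j : ℕ, A (m + j)) (n : ℕ) :
    P (E n) ≤ ENNReal.ofReal (Real.exp (a * M) * (1 + C / (1 - Real.exp (-a))) *
      Real.exp (-(a * n))) := by
  have hgeo : 0 ≤ Real.exp (-a) ∧ Real.exp (-a) < 1 :=
    ⟨(Real.exp_pos _).le, Real.exp_lt_one_iff.2 (by linarith)⟩
  have h1a : 0 < 1 - Real.exp (-a) := by linarith [hgeo.2]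
  rcases lt_or_ge n M with hn | hn
  · calc P (E n) ≤ 1 := prob_le_one
      _ = ENNReal.ofReal 1 := by simp
      _ ≤ _ := by
        refine ENNReal.ofReal_le_ofReal ?_
        have h2 : 1 ≤ Real.exp (a * M) * Real.exp (-(a * n)) := by
          rw [← Real.exp_add]
          refine Real.one_le_exp ?_
          have : (n : ℝ) ≤ M := by exact_mod_cast hn.le
          nlinarith
        have h3 : 0 ≤ C / (1 - Real.exp (-a)) := by positivity
        calc (1 : ℝ) ≤ Real.exp (a * M) * Real.exp (-(a * n)) * 1 := by linarith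
          _ ≤ Real.exp (a * M) * Real.exp (-(a * n)) * (1 + C / (1 - Real.exp (-a))) := by
              gcongr; linarith
          _ = _ := by ring
  · obtain ⟨m, rfl⟩ := Nat.exists_eq_add_of_le hn
    have hEm := hE m
    rw [add_comm m M] at hEm
    calc P (E (M + m)) ≤ P (⋃ j : ℕ, A (m + j)) := measure_mono hEm
      _ ≤ ∑' j : ℕ, P (A (m + j)) := measure_iUnion_le _
      _ ≤ ∑' j : ℕ, ENNReal.ofReal ((C * Real.exp (-(a * m))) * Real.exp (-a) ^ j) := by
          refine ENNReal.tsum_le_tsum fun j => (hA _).trans (le_of_eq ?_)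
          congr 1
          rw [mul_assoc, ← Real.exp_nat_mul, ← Real.exp_add]
          congr 2
          push_cast
          ring
      _ = ENNReal.ofReal ((C * Real.exp (-(a * m))) * (1 - Real.exp (-a))⁻¹) := by
          rw [← ENNReal.ofReal_tsum_of_nonneg (fun j => by positivity)
            ((summable_geometric_of_lt_one hgeo.1 hgeo.2).mul_left _), tsum_mul_left,
            tsum_geometric_of_lt_one hgeo.1 hgeo.2]
      _ ≤ _ := by
          refine ENNReal.ofReal_le_ofReal ?_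
          have e : Real.exp (a * M) * Real.exp (-(a * ((M + m : ℕ) : ℝ))) =
              Real.exp (-(a * m)) := by
            rw [← Real.exp_add]
            congr 1
            push_cast
            ring
          calc (C * Real.exp (-(a * m))) * (1 - Real.exp (-a))⁻¹
              = C / (1 - Real.exp (-a)) * Real.exp (-(a * m)) := by
                rw [div_eq_mul_inv]; ring
            _ ≤ (1 + C / (1 - Real.exp (-a))) * Real.exp (-(a * m)) := by
                gcongr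
                linarith
            _ = (1 + C / (1 - Real.exp (-a))) *
                (Real.exp (a * M) * Real.exp (-(a * ((M + m : ℕ) : ℝ)))) := by rw [e]
            _ = _ := by ring

/-- OP3 in the form used by `LB2d.key`, with `R = rad`. -/
theorem op3_rad {κ : ℝ} (hκ : 0 < κ) (hκ8 : κ < 8) {Ω : Type u} [m : MeasurableSpace Ω]
    {P : Measure Ω} [IsProbabilityMeasure P] {F : Filtration ℝ≥0 m} {B : ℝ≥0 → Ω → ℝ}
    (hB : IsBM F B P) (z : ℂ) (hz : 0 < z.im) (lam : ℝ) (hlam : 0 < lam) :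
    P {ω | ∃ t, 0 ≤ t ∧ Alive (driving κ B ω) z t ∧ 1 / 2 ≤ OP.sfl (driving κ B ω) t z
        ∧ ‖Zfl (driving κ B ω) t z‖ ≤ lam * rad (driving κ B ω) t} ≤
      ENNReal.ofReal (OP.C3' κ (1 / 2) * lam ^ OP.c3' κ) := by
  have hW0 : ∀ ω, driving κ B ω 0 = 0 := fun ω => by simp [driving, hB.zero ω]
  have h := OP.OP3' (A := (univ : Set Ω)) (σ := fun _ => 0) (c₀ := 1 / 2)
    (R := fun ω t => rad (driving κ B ω) t) Crest.Agent.R162.OPM.opm.{u} hB hκ hκ8 hz
    (fun t => by simp) (fun t => by simp) (by norm_num) (fun ω _ t ht C hC => ?_) hlam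
  · rw [Measure.real, Measure.real, measure_univ, ENNReal.toReal_one, mul_one] at h
    have h2 := (ENNReal.le_ofReal_iff_toReal_le (measure_ne_top P _)
      (by have := OP.C3'_pos (κ := κ) (c₀ := 1 / 2) (by norm_num); positivity)).2 h
    refine le_trans (measure_mono ?_) h2
    rintro ω ⟨t, ht, h3, h4, h5⟩
    exact ⟨mem_univ _, t, by simpa using ht, h3, h4, h5⟩
  · simp only [NNReal.coe_zero, sub_zero, hW0] at hC ht ⊢
    refine max_le (hC t ⟨ht, le_rfl⟩).1 ?_
    refine csSup_le (Set.Nonempty.image _ ⟨0, le_rfl, ht⟩) ?_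
    rintro _ ⟨s, hs, rfl⟩
    exact (hC s hs).2

/-- **LB2c**: the Prop `InZ` of the step theorem. -/
theorem inZ {κ : ℝ} (hκ : 0 < κ) (hκ8 : κ < 8) : InZ.{u} κ := by
  intro q hq hq8
  set c' := OP.c3' κ with hc'_def
  set C3 := OP.C3' κ (1 / 2) with hC3_def
  have hc' : 0 < c' := OP.c3'_pos hκ hκ8
  have hC3 : 0 < C3 := OP.C3'_pos (by norm_num)
  set c := c' / 4 with hc_def
  have hc : 0 < c := by positivity
  set a := c' / 2 with ha_def
  have ha : 0 < a := by positivity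
  set D := Real.log 2 + 9 ^ q / (1 - Real.exp (-(c * q))) with hD_def
  set M := ⌈D⌉₊ with hM_def
  set C1 := 49 * C3 * 20 ^ c' with hC1_def
  have hC1 : 0 ≤ C1 := by positivity
  have h1a : 0 < 1 - Real.exp (-a) := by
    have := Real.exp_lt_one_iff.2 (show -a < 0 by linarith)
    linarith
  refine ⟨a, Real.exp (a * M) * (1 + C1 / (1 - Real.exp (-a))), ha, by positivity, ?_⟩
  intro cs η K3 K4 hcs hη hη8 hK3 hK4
  obtain ⟨θ1, hθ1, hsm⟩ := LB0.exists_theta hq (by linarith : q < 1) hK3 hK4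
  refine ⟨min θ1 (1 / (10000 * K4 ^ 2)), lt_min hθ1 (by positivity), ?_⟩
  intro p hpκ hpcs hpq hpη hpK3 hpK4 hpθ hpθ0 hAdm f hS Ω _ P _ F B hB k n hk
  subst hpκ hpcs hpq hpη hpK3 hpK4
  have hK42 : 1 ≤ p.K4 ^ 2 := one_le_pow₀ hK4
  obtain ⟨sm1, sm2⟩ := hsm p.θ hpθ (hpθ0.trans (min_le_left _ _))
  have hsmall : LB0.Small p := ⟨hq, by linarith, hη.le, hpθ, hK3, hK4, sm1, sm2⟩
  have hθ10 : 10000 * p.K4 ^ 2 * p.θ ≤ 1 := by
    have := hpθ0.trans (min_le_right _ _)
    rw [le_div_iff₀ (by positivity)] at this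
    linarith
  have hθlt : p.θ < 1 := by nlinarith
  have hG := geo_of_state hAdm hsmall hS hθlt
  have hux : 0 < p.u0 (p.x f) := zero_lt_one.trans_le (hAdm.one_le _)
  have hcont : ∀ ω, ContinuousOn (driving p.κ B ω) (Ici 0) := fun ω =>
    (OPTr.driving_cont hB p.κ ω).continuousOn
  set ρ : ℝ := (2 : ℝ) ^ k with hρ_def
  have hρ : 0 < ρ := by positivity
  -- the scales
  set y : ℕ → ℝ := fun j => 10 * ρ * Real.exp (-(j : ℝ)) with hy_def
  have hy0 : ∀ j, 0 < y j := fun j => by positivity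
  have hyle : ∀ j, y j ≤ 10 * ρ := fun j => by
    have : Real.exp (-(j : ℝ)) ≤ 1 := Real.exp_le_one_iff.2 (by simp)
    calc 10 * ρ * Real.exp (-(j : ℝ)) ≤ 10 * ρ * 1 := by gcongr
      _ = 10 * ρ := mul_one _
  set A : ℕ → Set Ω := fun j => {ω | ∃ t, 0 ≤ t ∧ ρ ≤ rad (driving p.κ B ω) t ∧
    ‖(f ∘ ffl (driving p.κ B ω) t) (y j * Complex.I) - p.x f‖ ≤ p.u0 (p.x f) / 8 ∧
    Real.exp (-(c * j)) * p.u0 (p.x f) ≤
      KB1.ups (f ∘ ffl (driving p.κ B ω) t) (y j * Complex.I)} with hA_def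
  have hPA : ∀ j, P (A j) ≤ ENNReal.ofReal (C1 * Real.exp (-(a * j))) := by
    intro j
    have hkey := LB2d.key P (fun ω => driving p.κ B ω) hcont
      (fun ω t => rad (driving p.κ B ω) t) hC3.le
      (fun z hz lam hlam => op3_rad hκ hκ8 hB z hz lam hlam) hS.diff hS.inj (p.x f)
      (U := p.u0 (p.x f)) (a := Real.exp (-(c * j))) (y := y j) (ρ := ρ) hux (Real.exp_pos _)
      (Real.exp_le_one_iff.2 (by have : 0 ≤ c * j := by positivity
                                 linarith)) (hy0 j) hρ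
    refine hkey.trans (ENNReal.ofReal_le_ofReal (le_of_eq ?_))
    have e1 : 2 * y j / ρ = 20 * Real.exp (-(j : ℝ)) := by
      simp only [hy_def]
      field_simp
      ring
    have e2 : (20 * Real.exp (-(j : ℝ))) ^ c' = 20 ^ c' * Real.exp (-(c' * j)) := by
      rw [Real.mul_rpow (by norm_num) (Real.exp_pos _).le, ← Real.exp_mul]
      congr 2
      ring
    have e3 : Real.exp (-(c * j)) ^ 2 = Real.exp (-(2 * c * j)) := by
      rw [← Real.exp_nat_mul]
      congr 1
      push_cast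
      ring
    rw [e1, e2, e3, hC1_def]
    have e4 : Real.exp (-(a * j)) = Real.exp (-(c' * j)) / Real.exp (-(2 * c * j)) := by
      rw [← Real.exp_sub]
      congr 1
      rw [ha_def, hc_def]
      ring
    rw [e4]
    ring
  have hmain := tail_core P (E := fun n => {ω | EZ p f (driving p.κ B ω) k n}) (A := A)
    hC1 ha M hPA (fun m => ?_) n
  · exact hmain
  · rintro ω ⟨t, ht, ht1, ht2, hnb, hJn⟩
    set W := driving p.κ B ω with hW_def
    by_contra hcon
    simp only [mem_iUnion, not_exists] at hcon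
    set r := rad W t with hr_def
    have hr0 : 0 < r := hρ.trans_le ht1
    have hr2 : r ≤ 2 * ρ := by
      have e : (2 : ℝ) ^ (k + 1) = 2 * ρ := by
        rw [zpow_add_one₀ (by norm_num : (2 : ℝ) ≠ 0), hρ_def]; ring
      rw [e] at ht2
      exact ht2.le
    -- the new geodesic is near `x`
    have hA : ∀ s : ℝ, 0 < s → s ≤ 10 * r →
        ‖(f ∘ ffl W t) (s * Complex.I) - p.x f‖ ≤ p.u0 (p.x f) / 8 := by
      intro s hs hs2
      have h1 : ‖f (ffl W t (s * Complex.I)) - f ((10 * r : ℝ) * Complex.I)‖ ≤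
          p.u0 (p.x f) / 16 := by
        by_contra h
        exact hnb ⟨s, hs, hs2, not_le.1 h⟩
      have h2 := near20 hAdm hsmall hS hG hθ10 (y := 10 * r) (by positivity) (by linarith)
      calc ‖(f ∘ ffl W t) (s * Complex.I) - p.x f‖
          = ‖(f (ffl W t (s * Complex.I)) - f ((10 * r : ℝ) * Complex.I)) +
              (f ((10 * r : ℝ) * Complex.I) - p.x f)‖ := by
            simp only [Function.comp_apply]; ring_nf
        _ ≤ _ := norm_add_le _ _
        _ ≤ _ := by linarith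
    have hBk : ∀ j : ℕ, m ≤ j → KB1.ups (f ∘ ffl W t)
        ((10 * ρ * Real.exp (-(j : ℝ)) : ℝ) * Complex.I) ≤
        Real.exp (-(c * j)) * p.u0 (p.x f) := by
      intro j hj
      obtain ⟨i, rfl⟩ := Nat.exists_eq_add_of_le hj
      by_contra h
      refine hcon i ⟨t, ht.le, ht1, hA _ (hy0 _) ((hyle _).trans (by linarith)), ?_⟩
      exact (not_le.1 h).le
    have hJ := LB2w.Jv_le (LB2d.diffOn_comp (hcont ω) ht.le hS.diff)
      (LB2d.injOn_comp (hcont ω) ht.le hS.inj) hAdm.one_le hAdm.lip (x := p.x f) hq hc hρ ht1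
      hr2 hA m hBk
    have hJ2 : Jv p.u0 p.q (LB.Par.st f W t) (10 * rad W t) ≤
        ENNReal.ofReal (m + Real.log 2 + 9 ^ p.q / (1 - Real.exp (-(c * p.q)))) := hJ
    refine absurd hJn (not_lt.2 (hJ2.trans (ENNReal.ofReal_le_ofReal ?_)))
    have hD : D ≤ M := Nat.le_ceil _
    push_cast
    rw [hD_def] at hD
    linarith

end Crest.Agent.R162.LB2z
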