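import Mathlib
import Crest.Prelude.Def_Loewner
import Crest.Agent.R162.KB1

/-!
Row 162, node LB3a (helper429): the SHELL LEMMA (Lemma A').
`f` univalent on the half-plane, `u = Ups_f`, `S = Im z / |z|`, `d = 1 + κ/8`, `b = 8/κ - 1`:
`∫_{r ≤ |z| ≤ 2r, |f z - x| ≤ L, u z ≤ L} u^d S^b dxdy/y² ≤ C L^d min(1, u(ir)/L)^c`.
-/

set_option autoImplicit false

open MeasureTheory Set Filter Topology
open scoped ENNReal NNReal
open Crest.ProbabilityR.Loewner

namespace Crest.Agent.R162.LB3a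

open Crest.Agent.R162.KB1 (Hs ups isOpen_Hs ups_pos)

/-- KB6 (Lemma A), the form used in this file. -/
def KB6Stmt (α : ℝ) : Prop :=
  ∃ C : ℝ, 0 < C ∧ ∀ f : ℂ → ℂ, DifferentiableOn ℂ f Hs → InjOn f Hs → ∀ v r : ℝ, 0 < v → 0 < r →
    ∫⁻ z in {z : ℂ | 0 < z.im ∧ r ≤ ‖z‖ ∧ ‖z‖ ≤ 2 * r ∧ v ≤ ups f z ∧ ups f z ≤ 2 * v},
        ENNReal.ofReal (z.im / ‖z‖ / z.im ^ 2)
      ≤ ENNReal.ofReal (C * min 1 ((ups f (Complex.I * r) / v) ^ α))

theorem measurable_ups (f : ℂ → ℂ) : Measurable (ups f) :=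
  Complex.measurable_im.mul (measurable_deriv f).norm

/-- the shell -/
def shl (r : ℝ) : Set ℂ := {z : ℂ | 0 < z.im ∧ r ≤ ‖z‖ ∧ ‖z‖ ≤ 2 * r}

theorem measurableSet_shl (r : ℝ) : MeasurableSet (shl r) := by
  refine (measurableSet_lt measurable_const Complex.measurable_im).inter
    ((measurableSet_le measurable_const measurable_norm).inter
      (measurableSet_le measurable_norm measurable_const))

theorem measurableSet_near {f : ℂ → ℂ} (hf : DifferentiableOn ℂ f Hs) (x : ℂ) (L : ℝ) :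
    MeasurableSet {z : ℂ | 0 < z.im ∧ ‖f z - x‖ ≤ L} := by
  have h1 : IsOpen (Hs ∩ f ⁻¹' (Metric.closedBall x L)ᶜ) :=
    hf.continuousOn.isOpen_inter_preimage isOpen_Hs Metric.isClosed_closedBall.isOpen_compl
  have h2 : {z : ℂ | 0 < z.im ∧ ‖f z - x‖ ≤ L} = Hs \ (Hs ∩ f ⁻¹' (Metric.closedBall x L)ᶜ) := by
    ext z
    simp only [mem_ofPred_eq, Set.mem_sdiff, mem_inter_iff, mem_preimage, mem_compl_iff,
      Metric.mem_closedBall, dist_eq_norm, not_and, not_not]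
    constructor
    · rintro ⟨h, h'⟩; exact ⟨h, fun _ => h'⟩
    · rintro ⟨h, h'⟩; exact ⟨h, h' h⟩
  rw [h2]
  exact isOpen_Hs.measurableSet.diff h1.measurableSet

/-- numeric: `min(1,(U 2^{i+1})^α) ≤ min(1,U)^c 2^{(i+1)c}` for `0 < c ≤ α`. -/
theorem min_aux {α c U : ℝ} (hc : 0 < c) (hcα : c ≤ α) (hU : 0 < U) (i : ℕ) :
    min 1 ((U * 2 ^ (i + 1)) ^ α) ≤ (min 1 U) ^ c * ((2:ℝ) ^ (i + 1)) ^ c := by
  have h2 : (1:ℝ) ≤ 2 ^ (i + 1) := one_le_pow₀ (by norm_num)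
  have h2p : (0:ℝ) < 2 ^ (i + 1) := by positivity
  have hm : 0 < min 1 U := lt_min one_pos hU
  rw [← Real.mul_rpow hm.le h2p.le]
  rcases le_total (U * 2 ^ (i + 1)) 1 with h | h
  · have hU1 : U ≤ 1 := by nlinarith
    rw [min_eq_right hU1]
    refine (min_le_right _ _).trans ?_
    exact Real.rpow_le_rpow_of_exponent_ge (by positivity) h hcα
  · refine (min_le_left _ _).trans ?_
    apply Real.one_le_rpow _ hc.le
    rcases le_total 1 U with h1 | h1
    · rw [min_eq_left h1, one_mul]; exact h2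
    · rw [min_eq_right h1]; exact h

/-- Step A: weighted version of KB6. -/
theorem weighted {α : ℝ} (hα : 0 < α) (hK : KB6Stmt α) {p : ℝ} (hp : 0 < p) :
    ∃ C c : ℝ, 0 < C ∧ 0 < c ∧ ∀ f : ℂ → ℂ, DifferentiableOn ℂ f Hs → InjOn f Hs →
      ∀ r : ℝ, 0 < r →
      ∫⁻ z in shl r ∩ {z | ups f z ≤ 1},
        ENNReal.ofReal ((ups f z) ^ p * (z.im / ‖z‖ / z.im ^ 2))
      ≤ ENNReal.ofReal (C * (min 1 (ups f (Complex.I * r))) ^ c) := by
  obtain ⟨C, hC, hK⟩ := hK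
  set c : ℝ := min α (p / 2) with hcdef
  have hc : 0 < c := lt_min hα (by linarith)
  have hcα : c ≤ α := min_le_left _ _
  have hcp : c ≤ p / 2 := min_le_right _ _
  set q : ℝ := (1/2 : ℝ) ^ (p - c) with hq
  have hq0 : 0 < q := by rw [hq]; positivity
  have hq1 : q < 1 := by
    rw [hq]
    exact Real.rpow_lt_one (by norm_num) (by norm_num) (by linarith)
  refine ⟨C * 2 ^ c * (1 - q)⁻¹, c, ?_, hc, ?_⟩
  · have : 0 < (1 - q)⁻¹ := inv_pos.2 (by linarith)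
    positivity
  intro f hf hfi r hr
  set U := ups f (Complex.I * r) with hU
  have hU0 : 0 < U := ups_pos hf hfi (by simp [hr])
  have hm : 0 < min 1 U := lt_min one_pos hU0
  set A : ℕ → Set ℂ := fun i => {z : ℂ | 0 < z.im ∧ r ≤ ‖z‖ ∧ ‖z‖ ≤ 2 * r ∧
    (1/2:ℝ) ^ (i + 1) ≤ ups f z ∧ ups f z ≤ 2 * (1/2:ℝ) ^ (i + 1)} with hA
  have hcov : shl r ∩ {z | ups f z ≤ 1} ⊆ ⋃ i, A i := by
    rintro z ⟨⟨hz, hz1, hz2⟩, hz3⟩
    have hup : 0 < ups f z := ups_pos hf hfi hz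
    obtain ⟨i, hi1, hi2⟩ := exists_nat_pow_near_of_lt_one (x := ups f z) (y := (1/2:ℝ)) hup hz3
      (by norm_num) (by norm_num)
    refine mem_iUnion.2 ⟨i, hz, hz1, hz2, hi1.le, ?_⟩
    rw [pow_succ]; linarith
  have hterm : ∀ i, ∫⁻ z in A i, ENNReal.ofReal ((ups f z) ^ p * (z.im / ‖z‖ / z.im ^ 2))
      ≤ ENNReal.ofReal (C * (min 1 U) ^ c * 2 ^ c * q ^ i) := by
    intro i
    have hmA : MeasurableSet (A i) := by
      have : A i = shl r ∩ {z | (1/2:ℝ) ^ (i + 1) ≤ ups f z ∧ ups f z ≤ 2 * (1/2:ℝ) ^ (i + 1)} := by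
        ext z; simp only [hA, shl, mem_ofPred_eq, mem_inter_iff, and_assoc]
      rw [this]
      exact (measurableSet_shl r).inter ((measurableSet_le measurable_const (measurable_ups f)).inter
        (measurableSet_le (measurable_ups f) measurable_const))
    calc ∫⁻ z in A i, ENNReal.ofReal ((ups f z) ^ p * (z.im / ‖z‖ / z.im ^ 2))
        ≤ ∫⁻ z in A i, ENNReal.ofReal (((1/2:ℝ) ^ i) ^ p) *
            ENNReal.ofReal (z.im / ‖z‖ / z.im ^ 2) := by
          apply setLIntegral_mono' hmA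
          rintro z ⟨hz, hz1, hz2, hz3, hz4⟩
          rw [← ENNReal.ofReal_mul (by positivity)]
          apply ENNReal.ofReal_le_ofReal
          apply mul_le_mul_of_nonneg_right _ (by positivity)
          apply Real.rpow_le_rpow (ups_pos hf hfi hz).le _ hp.le
          calc ups f z ≤ 2 * (1/2:ℝ) ^ (i + 1) := hz4
            _ = (1/2:ℝ) ^ i := by rw [pow_succ]; ring
      _ = ENNReal.ofReal (((1/2:ℝ) ^ i) ^ p) *
            ∫⁻ z in A i, ENNReal.ofReal (z.im / ‖z‖ / z.im ^ 2) := by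
          rw [lintegral_const_mul']
          exact ENNReal.ofReal_ne_top
      _ ≤ ENNReal.ofReal (((1/2:ℝ) ^ i) ^ p) *
            ENNReal.ofReal (C * min 1 ((U / (1/2:ℝ) ^ (i + 1)) ^ α)) := by
          gcongr
          exact hK f hf hfi _ r (by positivity) hr
      _ = ENNReal.ofReal (((1/2:ℝ) ^ i) ^ p * (C * min 1 ((U / (1/2:ℝ) ^ (i + 1)) ^ α))) :=
          (ENNReal.ofReal_mul (by positivity)).symm
      _ ≤ ENNReal.ofReal (C * (min 1 U) ^ c * 2 ^ c * q ^ i) := by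
          apply ENNReal.ofReal_le_ofReal
          have e1 : U / (1/2:ℝ) ^ (i + 1) = U * 2 ^ (i + 1) := by
            rw [one_div, inv_pow, div_inv_eq_mul]
          rw [e1]
          have h1 := min_aux hc hcα hU0 i
          have e2 : ((2:ℝ) ^ (i + 1)) ^ c = 2 ^ c * ((2:ℝ) ^ i) ^ c := by
            rw [pow_succ, Real.mul_rpow (by positivity) (by positivity)]; ring
          have e3 : ((1/2:ℝ) ^ i) ^ p * ((2:ℝ) ^ i) ^ c = q ^ i := by
            have e4 : ((2:ℝ) ^ i) ^ c = ((1/2:ℝ) ^ i) ^ (-c) := by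
              rw [Real.rpow_neg (by positivity), ← Real.inv_rpow (by positivity)]
              congr 1
              rw [one_div, inv_pow, inv_inv]
            rw [e4, ← Real.rpow_add (by positivity), hq, ← Real.rpow_natCast, ← Real.rpow_natCast,
              ← Real.rpow_mul (by norm_num), ← Real.rpow_mul (by norm_num)]
            congr 1
            ring
          calc ((1/2:ℝ) ^ i) ^ p * (C * min 1 ((U * 2 ^ (i + 1)) ^ α))
              ≤ ((1/2:ℝ) ^ i) ^ p * (C * ((min 1 U) ^ c * ((2:ℝ) ^ (i + 1)) ^ c)) := by gcongr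
            _ = C * (min 1 U) ^ c * 2 ^ c * (((1/2:ℝ) ^ i) ^ p * ((2:ℝ) ^ i) ^ c) := by
                rw [e2]; ring
            _ = _ := by rw [e3]
  calc ∫⁻ z in shl r ∩ {z | ups f z ≤ 1},
        ENNReal.ofReal ((ups f z) ^ p * (z.im / ‖z‖ / z.im ^ 2))
      ≤ ∫⁻ z in ⋃ i, A i, ENNReal.ofReal ((ups f z) ^ p * (z.im / ‖z‖ / z.im ^ 2)) :=
        lintegral_mono_set hcov
    _ ≤ ∑' i, ∫⁻ z in A i, ENNReal.ofReal ((ups f z) ^ p * (z.im / ‖z‖ / z.im ^ 2)) :=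
        lintegral_iUnion_le _ _
    _ ≤ ∑' i, ENNReal.ofReal (C * (min 1 U) ^ c * 2 ^ c * q ^ i) := ENNReal.tsum_le_tsum hterm
    _ = ENNReal.ofReal (∑' i, C * (min 1 U) ^ c * 2 ^ c * q ^ i) := by
        rw [ENNReal.ofReal_tsum_of_nonneg]
        · intro i; positivity
        · exact (summable_geometric_of_lt_one hq0.le hq1).mul_left _
    _ = ENNReal.ofReal (C * 2 ^ c * (1 - q)⁻¹ * (min 1 U) ^ c) := by
        rw [tsum_mul_left, tsum_geometric_of_lt_one hq0.le hq1]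
        congr 1; ring

/-- the area bound -/
theorem area_le {f : ℂ → ℂ} (hf : DifferentiableOn ℂ f Hs) (hfi : InjOn f Hs) {E : Set ℂ}
    (hE : MeasurableSet E) (hEH : E ⊆ Hs) {x : ℂ} (hEx : ∀ z ∈ E, ‖f z - x‖ ≤ 1) :
    ∫⁻ z in E, ENNReal.ofReal ((ups f z) ^ 2 / z.im ^ 2) ≤ ENNReal.ofReal Real.pi := by
  have h1 : ∫⁻ z in E, ENNReal.ofReal ((ups f z) ^ 2 / z.im ^ 2)
      = ∫⁻ z in E, ENNReal.ofReal (‖deriv f z‖ ^ 2) := by
    apply setLIntegral_congr_fun hE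
    intro z hz
    have hz0 : 0 < z.im := hEH hz
    simp only
    congr 1
    rw [ups]; field_simp
  rw [h1, Crest.Agent.Lib.Bieberbach.vol_image hE
    (fun z hz => (hf.differentiableAt (isOpen_Hs.mem_nhds (hEH hz))).hasDerivAt) (hfi.mono hEH)]
  calc volume (f '' E) ≤ volume (Metric.closedBall x 1) := by
        apply measure_mono
        rintro _ ⟨z, hz, rfl⟩
        rw [Metric.mem_closedBall, dist_eq_norm]
        exact hEx z hz
    _ = ENNReal.ofReal Real.pi := by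
        rw [Complex.volume_closedBall]
        simp [← ENNReal.ofReal_coe_nnreal]

/-- Step B: unit scale. -/
theorem shell_one {α κ : ℝ} (hα : 0 < α) (hK : KB6Stmt α) (hκ : 0 < κ) (hκ8 : κ < 8) :
    ∃ C c : ℝ, 0 < C ∧ 0 < c ∧ ∀ f : ℂ → ℂ, DifferentiableOn ℂ f Hs → InjOn f Hs →
      ∀ (x : ℂ) (r : ℝ), 0 < r →
      ∫⁻ z in shl r ∩ {z | ‖f z - x‖ ≤ 1 ∧ ups f z ≤ 1},
        ENNReal.ofReal ((ups f z) ^ (dimParam κ) * (z.im / ‖z‖) ^ (8 / κ - 1) / z.im ^ 2)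
      ≤ ENNReal.ofReal (C * (min 1 (ups f (Complex.I * r))) ^ c) := by
  set b : ℝ := 8 / κ - 1 with hb
  have hb0 : 0 < b := by
    rw [hb, sub_pos, lt_div_iff₀ hκ]; linarith
  set d : ℝ := dimParam κ with hd
  have hd1 : d = 1 + κ / 8 := rfl
  set β : ℝ := min b 1 with hβ
  have hβ0 : 0 < β := lt_min hb0 one_pos
  have hβ1 : β ≤ 1 := min_le_right _ _
  have hβb : β ≤ b := min_le_left _ _
  have he0 : 0 < d - 2 + 2 * β := by
    rcases le_total b 1 with h | h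
    · rw [hβ, min_eq_left h]
      have : d - 2 + 2 * b = b * (2 - κ / 8) := by
        rw [hd1, hb]; field_simp; ring
      rw [this]
      have : 0 < 2 - κ / 8 := by linarith
      positivity
    · rw [hβ, min_eq_right h, hd1]; linarith
  obtain ⟨C, c, hC, hc, hW⟩ := weighted hα hK (p := (d - 2 + 2 * β) / β) (by positivity)
  refine ⟨Real.pi ^ (1 - β) * C ^ β, c * β, by positivity, by positivity, ?_⟩
  intro f hf hfi x r hr
  set U := ups f (Complex.I * r) with hU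
  have hU0 : 0 < U := ups_pos hf hfi (by simp [hr])
  have hm : 0 < min 1 U := lt_min one_pos hU0
  set E : Set ℂ := shl r ∩ {z | ‖f z - x‖ ≤ 1 ∧ ups f z ≤ 1} with hE
  have hEm : MeasurableSet E := by
    have : E = (shl r ∩ {z | ups f z ≤ 1}) ∩ {z : ℂ | 0 < z.im ∧ ‖f z - x‖ ≤ 1} := by
      ext z
      simp only [hE, shl, mem_inter_iff, mem_ofPred_eq]
      tauto
    rw [this]
    exact ((measurableSet_shl r).inter (measurableSet_le (measurable_ups f) measurable_const)).inter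
      (measurableSet_near hf x 1)
  have hEH : E ⊆ Hs := fun z hz => hz.1.1
  have hmu := measurable_ups f
  calc ∫⁻ z in E, ENNReal.ofReal ((ups f z) ^ d * (z.im / ‖z‖) ^ b / z.im ^ 2)
      ≤ ∫⁻ z in E, (ENNReal.ofReal ((ups f z) ^ 2 / z.im ^ 2)) ^ (1 - β) *
          (ENNReal.ofReal ((ups f z) ^ ((d - 2 + 2 * β) / β) * (z.im / ‖z‖ / z.im ^ 2))) ^ β := by
        apply setLIntegral_mono' hEm
        intro z hz
        have hz0 : 0 < z.im := hEH hz
        have hu0 : 0 < ups f z := ups_pos hf hfi hz0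
        have hn : 0 < ‖z‖ := hr.trans_le hz.1.2.1
        have hS : z.im / ‖z‖ ≤ 1 := by
          rw [div_le_one hn]; exact (le_abs_self _).trans (Complex.abs_im_le_norm z)
        have hS0 : 0 < z.im / ‖z‖ := by positivity
        rw [ENNReal.ofReal_rpow_of_nonneg (by positivity) (by linarith),
          ENNReal.ofReal_rpow_of_nonneg (by positivity) hβ0.le, ← ENNReal.ofReal_mul (by positivity)]
        apply ENNReal.ofReal_le_ofReal
        have h1 : (z.im / ‖z‖) ^ b ≤ (z.im / ‖z‖) ^ β :=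
          Real.rpow_le_rpow_of_exponent_ge hS0 hS hβb
        have h2 : ((ups f z) ^ 2 / z.im ^ 2) ^ (1 - β) *
            ((ups f z) ^ ((d - 2 + 2 * β) / β) * (z.im / ‖z‖ / z.im ^ 2)) ^ β
            = (ups f z) ^ d * (z.im / ‖z‖) ^ β / z.im ^ 2 := by
          have a1 : ((ups f z) ^ 2 / z.im ^ 2) ^ (1 - β)
              = (ups f z) ^ (2 * (1 - β)) / z.im ^ (2 * (1 - β)) := by
            rw [Real.div_rpow (by positivity) (by positivity), ← Real.rpow_natCast,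
              ← Real.rpow_natCast, ← Real.rpow_mul hu0.le, ← Real.rpow_mul hz0.le]
            norm_num
          have a2 : ((ups f z) ^ ((d - 2 + 2 * β) / β) * (z.im / ‖z‖ / z.im ^ 2)) ^ β
              = (ups f z) ^ (d - 2 + 2 * β) * ((z.im / ‖z‖) ^ β / z.im ^ (2 * β)) := by
            rw [Real.mul_rpow (by positivity) (by positivity), ← Real.rpow_mul hu0.le,
              div_mul_cancel₀ _ hβ0.ne', Real.div_rpow hS0.le (by positivity), ← Real.rpow_natCast,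
              ← Real.rpow_mul hz0.le]
            norm_num
          rw [a1, a2]
          have a3 : (ups f z) ^ d = (ups f z) ^ (2 * (1 - β)) * (ups f z) ^ (d - 2 + 2 * β) := by
            rw [← Real.rpow_add hu0]; congr 1; ring
          have a4 : z.im ^ 2 = z.im ^ (2 * (1 - β)) * z.im ^ (2 * β) := by
            rw [← Real.rpow_add hz0, ← Real.rpow_natCast]; congr 1; push_cast; ring
          rw [a3, a4]
          have p1 : z.im ^ (2 * (1 - β)) ≠ 0 := (Real.rpow_pos_of_pos hz0 _).ne'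
          have p2 : z.im ^ (2 * β) ≠ 0 := (Real.rpow_pos_of_pos hz0 _).ne'
          field_simp
        rw [h2]
        gcongr
    _ ≤ (∫⁻ z in E, ENNReal.ofReal ((ups f z) ^ 2 / z.im ^ 2)) ^ (1 - β) *
          (∫⁻ z in E, ENNReal.ofReal ((ups f z) ^ ((d - 2 + 2 * β) / β) *
            (z.im / ‖z‖ / z.im ^ 2))) ^ β := by
        apply ENNReal.lintegral_mul_norm_pow_le
        · exact (ENNReal.measurable_ofReal.comp
            ((hmu.pow_const 2).div (Complex.measurable_im.pow_const 2))).aemeasurable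
        · exact (ENNReal.measurable_ofReal.comp ((hmu.pow_const _).mul
            ((Complex.measurable_im.div measurable_norm).div
              (Complex.measurable_im.pow_const 2)))).aemeasurable
        · linarith
        · exact hβ0.le
        · ring
    _ ≤ (ENNReal.ofReal Real.pi) ^ (1 - β) *
          (ENNReal.ofReal (C * (min 1 U) ^ c)) ^ β := by
        have hsub : E ⊆ shl r ∩ {z | ups f z ≤ 1} := fun z hz => ⟨hz.1, hz.2.2⟩
        have i1 := area_le hf hfi hEm hEH (x := x) (fun z hz => hz.2.1)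
        have i2 := (lintegral_mono_set hsub).trans (hW f hf hfi r hr)
        exact mul_le_mul' (ENNReal.rpow_le_rpow i1 (by linarith)) (ENNReal.rpow_le_rpow i2 hβ0.le)
    _ = ENNReal.ofReal (Real.pi ^ (1 - β) * C ^ β * (min 1 U) ^ (c * β)) := by
        rw [ENNReal.ofReal_rpow_of_nonneg Real.pi_pos.le (by linarith),
          ENNReal.ofReal_rpow_of_nonneg (by positivity) hβ0.le, ← ENNReal.ofReal_mul (by positivity),
          Real.mul_rpow hC.le (by positivity), ← Real.rpow_mul hm.le, mul_assoc]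

theorem ups_div {f : ℂ → ℂ} (hf : DifferentiableOn ℂ f Hs) {L : ℝ} (hL : 0 < L) {z : ℂ}
    (hz : 0 < z.im) : ups (fun z => f z / L) z = ups f z / L := by
  have h1 : HasDerivAt (fun z => f z / (L:ℂ)) (deriv f z / L) z :=
    ((hf.differentiableAt (isOpen_Hs.mem_nhds hz)).hasDerivAt).div_const _
  rw [ups, h1.deriv, ups, norm_div, Complex.norm_real, Real.norm_of_nonneg hL.le]
  ring

/-- **LB3a**, the shell lemma at scale `L`. -/
theorem shell {α κ : ℝ} (hα : 0 < α) (hK : KB6Stmt α) (hκ : 0 < κ) (hκ8 : κ < 8) :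
    ∃ C c : ℝ, 0 < C ∧ 0 < c ∧ ∀ f : ℂ → ℂ, DifferentiableOn ℂ f Hs → InjOn f Hs →
      ∀ (x : ℂ) (r L : ℝ), 0 < r → 0 < L →
      ∫⁻ z in {z : ℂ | 0 < z.im ∧ r ≤ ‖z‖ ∧ ‖z‖ ≤ 2 * r ∧ ‖f z - x‖ ≤ L ∧ ups f z ≤ L},
        ENNReal.ofReal ((ups f z) ^ (dimParam κ) * (z.im / ‖z‖) ^ (8 / κ - 1) / z.im ^ 2)
      ≤ ENNReal.ofReal (C * L ^ (dimParam κ) * (min 1 (ups f (Complex.I * r) / L)) ^ c) := by
  obtain ⟨C, c, hC, hc, h⟩ := shell_one hα hK hκ hκ8
  refine ⟨C, c, hC, hc, ?_⟩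
  intro f hf hfi x r L hr hL
  have hLc : (L:ℂ) ≠ 0 := by exact_mod_cast hL.ne'
  have hg : DifferentiableOn ℂ (fun z => f z / (L:ℂ)) Hs := hf.div_const _
  have hgi : InjOn (fun z => f z / (L:ℂ)) Hs := by
    intro z hz w hw hzw
    apply hfi hz hw
    simp only at hzw
    rwa [div_left_inj' hLc] at hzw
  have key := h (fun z => f z / (L:ℂ)) hg hgi (x / L) r hr
  have hset : {z : ℂ | 0 < z.im ∧ r ≤ ‖z‖ ∧ ‖z‖ ≤ 2 * r ∧ ‖f z - x‖ ≤ L ∧ ups f z ≤ L}
      = shl r ∩ {z | ‖f z / (L:ℂ) - x / L‖ ≤ 1 ∧ ups (fun z => f z / (L:ℂ)) z ≤ 1} := by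
    ext z
    simp only [shl, mem_ofPred_eq, mem_inter_iff]
    have e1 : ‖f z / (L:ℂ) - x / L‖ ≤ 1 ↔ ‖f z - x‖ ≤ L := by
      rw [← sub_div, norm_div, Complex.norm_real, Real.norm_of_nonneg hL.le, div_le_one hL]
    constructor
    · rintro ⟨h1, h2, h3, h4, h5⟩
      refine ⟨⟨h1, h2, h3⟩, e1.2 h4, ?_⟩
      rw [ups_div hf hL h1, div_le_one hL]; exact h5
    · rintro ⟨⟨h1, h2, h3⟩, h4, h5⟩
      refine ⟨h1, h2, h3, e1.1 h4, ?_⟩
      rw [ups_div hf hL h1, div_le_one hL] at h5; exact h5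
  rw [hset]
  have hms : MeasurableSet (shl r ∩ {z | ‖f z / (L:ℂ) - x / L‖ ≤ 1 ∧
      ups (fun z => f z / (L:ℂ)) z ≤ 1}) := by
    have : (shl r ∩ {z | ‖f z / (L:ℂ) - x / L‖ ≤ 1 ∧ ups (fun z => f z / (L:ℂ)) z ≤ 1})
        = (shl r ∩ {z | ups (fun z => f z / (L:ℂ)) z ≤ 1}) ∩
          {z : ℂ | 0 < z.im ∧ ‖f z / (L:ℂ) - x / L‖ ≤ 1} := by
      ext z
      simp only [shl, mem_inter_iff, mem_ofPred_eq]
      tauto
    rw [this]
    exact ((measurableSet_shl r).inter (measurableSet_le (measurable_ups _) measurable_const)).inter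
      (measurableSet_near hg (x / L) 1)
  calc ∫⁻ z in shl r ∩ {z | ‖f z / (L:ℂ) - x / L‖ ≤ 1 ∧ ups (fun z => f z / (L:ℂ)) z ≤ 1},
        ENNReal.ofReal ((ups f z) ^ (dimParam κ) * (z.im / ‖z‖) ^ (8 / κ - 1) / z.im ^ 2)
      = ∫⁻ z in shl r ∩ {z | ‖f z / (L:ℂ) - x / L‖ ≤ 1 ∧ ups (fun z => f z / (L:ℂ)) z ≤ 1},
        ENNReal.ofReal (L ^ (dimParam κ)) * ENNReal.ofReal ((ups (fun z => f z / (L:ℂ)) z)
          ^ (dimParam κ) * (z.im / ‖z‖) ^ (8 / κ - 1) / z.im ^ 2) := by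
        apply setLIntegral_congr_fun hms
        intro z hz
        have hz0 : 0 < z.im := hz.1.1
        have hu0 : 0 < ups f z := ups_pos hf hfi hz0
        simp only
        rw [← ENNReal.ofReal_mul (by positivity), ups_div hf hL hz0,
          Real.div_rpow hu0.le hL.le]
        congr 1
        have : L ^ dimParam κ ≠ 0 := (Real.rpow_pos_of_pos hL _).ne'
        field_simp
    _ = ENNReal.ofReal (L ^ (dimParam κ)) *
        ∫⁻ z in shl r ∩ {z | ‖f z / (L:ℂ) - x / L‖ ≤ 1 ∧ ups (fun z => f z / (L:ℂ)) z ≤ 1},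
          ENNReal.ofReal ((ups (fun z => f z / (L:ℂ)) z)
          ^ (dimParam κ) * (z.im / ‖z‖) ^ (8 / κ - 1) / z.im ^ 2) :=
        lintegral_const_mul' _ _ ENNReal.ofReal_ne_top
    _ ≤ ENNReal.ofReal (L ^ (dimParam κ)) * ENNReal.ofReal
          (C * (min 1 (ups (fun z => f z / (L:ℂ)) (Complex.I * r))) ^ c) := by gcongr
    _ = _ := by
        rw [← ENNReal.ofReal_mul (by positivity), ups_div hf hL (by simp [hr])]
        congr 1; ring

/-- change of variables for an injective holomorphic map -/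
theorem lintegral_image {f : ℂ → ℂ} (hf : DifferentiableOn ℂ f Hs) (hfi : InjOn f Hs) {E : Set ℂ}
    (hE : MeasurableSet E) (hEH : E ⊆ Hs) (F : ℂ → ℝ≥0∞) :
    ∫⁻ w in f '' E, F w = ∫⁻ z in E, ENNReal.ofReal (‖deriv f z‖ ^ 2) * F (f z) := by
  rw [lintegral_image_eq_lintegral_abs_det_fderiv_mul volume hE
    (fun z hz => (((hf.differentiableAt (isOpen_Hs.mem_nhds (hEH hz))).hasDerivAt
      ).hasFDerivAt.restrictScalars ℝ).hasFDerivWithinAt) (hfi.mono hEH) F]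
  apply setLIntegral_congr_fun hE
  intro z _
  simp only
  congr 2
  simp [ContinuousLinearMap.det, LinearMap.det_restrictScalars, Algebra.norm_complex_eq,
    Complex.normSq_eq_norm_sq]

/-- **LB3a**, physical form: `g` is the inverse of `f`. -/
theorem shell_image {α κ : ℝ} (hα : 0 < α) (hK : KB6Stmt α) (hκ : 0 < κ) (hκ8 : κ < 8) :
    ∃ C c : ℝ, 0 < C ∧ 0 < c ∧ ∀ f g : ℂ → ℂ, DifferentiableOn ℂ f Hs → InjOn f Hs →
      (∀ z ∈ Hs, g (f z) = z) → ∀ (x : ℂ) (r L : ℝ), 0 < r → 0 < L →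
      ∫⁻ w in {w : ℂ | w ∈ f '' Hs ∧ r ≤ ‖g w‖ ∧ ‖g w‖ ≤ 2 * r ∧ ‖w - x‖ ≤ L ∧
          ups f (g w) ≤ L},
        ENNReal.ofReal ((ups f (g w)) ^ (κ / 8 - 1) * ((g w).im / ‖g w‖) ^ (8 / κ - 1))
      ≤ ENNReal.ofReal (C * L ^ (dimParam κ) * (min 1 (ups f (Complex.I * r) / L)) ^ c) := by
  obtain ⟨C, c, hC, hc, h⟩ := shell hα hK hκ hκ8
  refine ⟨C, c, hC, hc, ?_⟩
  intro f g hf hfi hg x r L hr hL
  set E : Set ℂ := {z : ℂ | 0 < z.im ∧ r ≤ ‖z‖ ∧ ‖z‖ ≤ 2 * r ∧ ‖f z - x‖ ≤ L ∧ ups f z ≤ L}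
    with hE
  have hEm : MeasurableSet E := by
    have : E = (shl r ∩ {z | ups f z ≤ L}) ∩ {z : ℂ | 0 < z.im ∧ ‖f z - x‖ ≤ L} := by
      ext z
      simp only [hE, shl, mem_inter_iff, mem_ofPred_eq]
      tauto
    rw [this]
    exact ((measurableSet_shl r).inter (measurableSet_le (measurable_ups f) measurable_const)).inter
      (measurableSet_near hf x L)
  have hEH : E ⊆ Hs := fun z hz => hz.1
  have hset : {w : ℂ | w ∈ f '' Hs ∧ r ≤ ‖g w‖ ∧ ‖g w‖ ≤ 2 * r ∧ ‖w - x‖ ≤ L ∧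
      ups f (g w) ≤ L} = f '' E := by
    ext w
    simp only [mem_ofPred_eq, mem_image]
    constructor
    · rintro ⟨⟨z, hz, rfl⟩, h1, h2, h3, h4⟩
      rw [hg z hz] at h1 h2 h4
      exact ⟨z, ⟨hz, h1, h2, h3, h4⟩, rfl⟩
    · rintro ⟨z, ⟨hz, h1, h2, h3, h4⟩, rfl⟩
      rw [hg z hz]
      exact ⟨⟨z, hz, rfl⟩, h1, h2, h3, h4⟩
  rw [hset, lintegral_image hf hfi hEm hEH]
  refine le_trans (le_of_eq ?_) (h f hf hfi x r L hr hL)
  apply setLIntegral_congr_fun hEm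
  intro z hz
  have hz0 : 0 < z.im := hEH hz
  have hu0 : 0 < ups f z := ups_pos hf hfi hz0
  simp only
  rw [hg z hz0, ← ENNReal.ofReal_mul (by positivity)]
  congr 1
  have e1 : (ups f z) ^ dimParam κ = (ups f z) ^ 2 * (ups f z) ^ (κ / 8 - 1) := by
    rw [← Real.rpow_natCast, ← Real.rpow_add hu0]; congr 1
    rw [dimParam]; push_cast; ring
  rw [e1]
  have e2 : ‖deriv f z‖ ^ 2 = (ups f z) ^ 2 / z.im ^ 2 := by rw [ups]; field_simp
  rw [e2]; ring

end Crest.Agent.R162.LB3a
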