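import Mathlib
import Crest.Prelude.Def_Loewner
import Crest.Agent.R162.LB3a
import Crest.Agent.R162.KB6

/-!
Row 162, node LB3a (helper429): unconditional shell lemma (KB6 of helper668 plugged in).
-/

set_option autoImplicit false

open MeasureTheory Set
open scoped ENNReal NNReal
open Crest.ProbabilityR.Loewner

namespace Crest.Agent.R162.LB3a

open Crest.Agent.R162.KB1 (Hs ups isOpen_Hs ups_pos)

theorem kb6Stmt : KB6Stmt (1 / 8) := by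
  refine ⟨34560 * (1 + 2) / (1 / 8), by norm_num, ?_⟩
  intro f hf hfi v r hv hr
  have h := Crest.Agent.R162.KB6.kb6 hf hfi (al := 1 / 8) (r := r) (v := v) (L := 2)
    (by norm_num) le_rfl hr hv (by norm_num)
  have e : Complex.I * (r : ℂ) = (r : ℂ) * Complex.I := mul_comm _ _
  rw [e]
  exact h

/-- **LB3a**, unconditional. -/
theorem shell' {κ : ℝ} (hκ : 0 < κ) (hκ8 : κ < 8) :
    ∃ C c : ℝ, 0 < C ∧ 0 < c ∧ ∀ f : ℂ → ℂ, DifferentiableOn ℂ f Hs → InjOn f Hs →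
      ∀ (x : ℂ) (r L : ℝ), 0 < r → 0 < L →
      ∫⁻ z in {z : ℂ | 0 < z.im ∧ r ≤ ‖z‖ ∧ ‖z‖ ≤ 2 * r ∧ ‖f z - x‖ ≤ L ∧ ups f z ≤ L},
        ENNReal.ofReal ((ups f z) ^ (dimParam κ) * (z.im / ‖z‖) ^ (8 / κ - 1) / z.im ^ 2)
      ≤ ENNReal.ofReal (C * L ^ (dimParam κ) * (min 1 (ups f (Complex.I * r) / L)) ^ c) :=
  shell (by norm_num) kb6Stmt hκ hκ8

/-- **LB3a**, physical form, unconditional. -/
theorem shell_image' {κ : ℝ} (hκ : 0 < κ) (hκ8 : κ < 8) :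
    ∃ C c : ℝ, 0 < C ∧ 0 < c ∧ ∀ f g : ℂ → ℂ, DifferentiableOn ℂ f Hs → InjOn f Hs →
      (∀ z ∈ Hs, g (f z) = z) → ∀ (x : ℂ) (r L : ℝ), 0 < r → 0 < L →
      ∫⁻ w in {w : ℂ | w ∈ f '' Hs ∧ r ≤ ‖g w‖ ∧ ‖g w‖ ≤ 2 * r ∧ ‖w - x‖ ≤ L ∧
          ups f (g w) ≤ L},
        ENNReal.ofReal ((ups f (g w)) ^ (κ / 8 - 1) * ((g w).im / ‖g w‖) ^ (8 / κ - 1))
      ≤ ENNReal.ofReal (C * L ^ (dimParam κ) * (min 1 (ups f (Complex.I * r) / L)) ^ c) :=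
  shell_image (by norm_num) kb6Stmt hκ hκ8

end Crest.Agent.R162.LB3a
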