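import Mathlib

set_option autoImplicit false

namespace Crest.Agent.R162.LB3area

open MeasureTheory Set

/-- Change of variables for an injective holomorphic map on the upper half-plane. -/
theorem lintegral_deriv_sq (f : ℂ → ℂ) (hf : DifferentiableOn ℂ f {z : ℂ | 0 < z.im})
    (hi : Set.InjOn f {z : ℂ | 0 < z.im}) (A : Set ℂ) (hA : MeasurableSet A)
    (hAH : A ⊆ {z : ℂ | 0 < z.im}) :
    ∫⁻ z in A, ENNReal.ofReal (‖deriv f z‖ ^ 2) = volume (f '' A) := by
  have hopen : IsOpen {z : ℂ | 0 < z.im} := isOpen_lt continuous_const Complex.continuous_im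
  rw [← lintegral_abs_det_fderiv_eq_addHaar_image volume hA
    (f' := fun z => (ContinuousLinearMap.toSpanSingleton ℂ (deriv f z)).restrictScalars ℝ)
    (fun z hz => ?_) (hi.mono hAH)]
  · refine lintegral_congr fun z => ?_
    congr 1
    simp [ContinuousLinearMap.det, LinearMap.det_restrictScalars, Algebra.norm_complex_eq,
      Complex.normSq_eq_norm_sq]
  · have h1 : HasDerivAt f (deriv f z) z :=
      ((hf z (hAH hz)).differentiableAt (hopen.mem_nhds (hAH hz))).hasDerivAt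
    exact (h1.hasFDerivAt.restrictScalars ℝ).hasFDerivWithinAt

/-- Hyperbolic area of a level set of the conformal radius. -/
theorem hyparea_le (f : ℂ → ℂ) (hf : DifferentiableOn ℂ f {z : ℂ | 0 < z.im})
    (hi : Set.InjOn f {z : ℂ | 0 < z.im}) (A : Set ℂ) (hA : MeasurableSet A)
    (x : ℂ) (r v : ℝ) (hv : 0 < v)
    (hAH : ∀ z ∈ A, 0 < z.im ∧ ‖f z - x‖ ≤ r ∧ v ≤ z.im * ‖deriv f z‖) :
    ∫⁻ z in A, ENNReal.ofReal (1 / z.im ^ 2) ≤ ENNReal.ofReal (Real.pi * r ^ 2 / v ^ 2) := by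
  rcases A.eq_empty_or_nonempty with rfl | ⟨z0, hz0⟩
  · simp
  have hr : 0 ≤ r := (norm_nonneg _).trans (hAH z0 hz0).2.1
  have h1 : ∫⁻ z in A, ENNReal.ofReal (‖deriv f z‖ ^ 2) ≤ ENNReal.ofReal (Real.pi * r ^ 2) := by
    rw [lintegral_deriv_sq f hf hi A hA (fun z hz => (hAH z hz).1)]
    calc volume (f '' A) ≤ volume (Metric.closedBall x r) := by
          apply measure_mono
          rintro _ ⟨z, hz, rfl⟩
          rw [Metric.mem_closedBall, dist_eq_norm]
          exact (hAH z hz).2.1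
      _ = ENNReal.ofReal (Real.pi * r ^ 2) := by
          rw [Complex.volume_closedBall, mul_comm Real.pi, ENNReal.ofReal_mul (by positivity),
            ENNReal.ofReal_pow hr]
          congr 1
          rw [← NNReal.coe_real_pi, ENNReal.ofReal_coe_nnreal]
  have h2 : ∀ z ∈ A, ENNReal.ofReal (1 / z.im ^ 2) ≤
      ENNReal.ofReal (1 / v ^ 2) * ENNReal.ofReal (‖deriv f z‖ ^ 2) := by
    intro z hz
    obtain ⟨hz1, -, hz3⟩ := hAH z hz
    rw [← ENNReal.ofReal_mul (by positivity)]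
    apply ENNReal.ofReal_le_ofReal
    rw [div_mul_eq_mul_div, one_mul, div_le_div_iff₀ (by positivity) (by positivity)]
    nlinarith [mul_self_le_mul_self hv.le hz3]
  calc ∫⁻ z in A, ENNReal.ofReal (1 / z.im ^ 2)
      ≤ ∫⁻ z in A, ENNReal.ofReal (1 / v ^ 2) * ENNReal.ofReal (‖deriv f z‖ ^ 2) :=
        setLIntegral_mono' hA h2
    _ = ENNReal.ofReal (1 / v ^ 2) * ∫⁻ z in A, ENNReal.ofReal (‖deriv f z‖ ^ 2) := by
        rw [lintegral_const_mul' _ _ ENNReal.ofReal_ne_top]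
    _ ≤ ENNReal.ofReal (1 / v ^ 2) * ENNReal.ofReal (Real.pi * r ^ 2) := by gcongr
    _ = ENNReal.ofReal (Real.pi * r ^ 2 / v ^ 2) := by
        rw [← ENNReal.ofReal_mul (by positivity)]
        congr 1
        ring

/-- Hoelder form: for `0 < b ≤ 1` the `S^b`-weighted hyperbolic area is controlled by the
`S`-weighted one. -/
theorem hoelder_area (f : ℂ → ℂ) (hf : DifferentiableOn ℂ f {z : ℂ | 0 < z.im})
    (hi : Set.InjOn f {z : ℂ | 0 < z.im}) (A : Set ℂ) (hA : MeasurableSet A)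
    (x : ℂ) (r v : ℝ) (hv : 0 < v)
    (hAH : ∀ z ∈ A, 0 < z.im ∧ ‖f z - x‖ ≤ r ∧ v ≤ z.im * ‖deriv f z‖)
    (b : ℝ) (hb : 0 < b) (hb1 : b ≤ 1) :
    ∫⁻ z in A, ENNReal.ofReal ((z.im / ‖z‖) ^ b / z.im ^ 2) ≤
      (∫⁻ z in A, ENNReal.ofReal (z.im / ‖z‖ / z.im ^ 2)) ^ b *
        ENNReal.ofReal (Real.pi * r ^ 2 / v ^ 2) ^ (1 - b) := by
  have hbase := hyparea_le f hf hi A hA x r v hv hAH
  have hmS : Measurable (fun z : ℂ => z.im / ‖z‖) := by fun_prop
  rcases eq_or_lt_of_le hb1 with rfl | hb1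
  · simp
  have hpq : (1 / b).HolderConjugate (1 / (1 - b)) := by
    rw [Real.holderConjugate_iff]
    constructor
    · rw [lt_div_iff₀ hb]; linarith
    · simp
  have hH := ENNReal.lintegral_mul_le_Lp_mul_Lq (volume.restrict A) hpq
    (f := fun z : ℂ => ENNReal.ofReal (z.im / ‖z‖ / z.im ^ 2) ^ b)
    (g := fun z : ℂ => ENNReal.ofReal (1 / z.im ^ 2) ^ (1 - b))
    (by fun_prop) (by fun_prop)
  have e1 : (fun z : ℂ => (ENNReal.ofReal (z.im / ‖z‖ / z.im ^ 2) ^ b) ^ (1 / b)) =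
      fun z : ℂ => ENNReal.ofReal (z.im / ‖z‖ / z.im ^ 2) := by
    funext z
    rw [← ENNReal.rpow_mul, mul_one_div_cancel hb.ne', ENNReal.rpow_one]
  have hb' : (1 - b) ≠ 0 := by linarith
  have e2 : (fun z : ℂ => (ENNReal.ofReal (1 / z.im ^ 2) ^ (1 - b)) ^ (1 / (1 - b))) =
      fun z : ℂ => ENNReal.ofReal (1 / z.im ^ 2) := by
    funext z
    rw [← ENNReal.rpow_mul, mul_one_div_cancel hb', ENNReal.rpow_one]
  have hle : ∫⁻ z in A, ENNReal.ofReal ((z.im / ‖z‖) ^ b / z.im ^ 2) =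
      ∫⁻ z in A, ((fun z : ℂ => ENNReal.ofReal (z.im / ‖z‖ / z.im ^ 2) ^ b) *
        fun z : ℂ => ENNReal.ofReal (1 / z.im ^ 2) ^ (1 - b)) z := by
    refine setLIntegral_congr_fun hA fun z hz => ?_
    have hz1 : 0 < z.im := (hAH z hz).1
    have hz2 : 0 < ‖z‖ := norm_pos_iff.2 (fun h => by simp [h] at hz1)
    simp only [Pi.mul_apply]
    rw [ENNReal.ofReal_rpow_of_pos (by positivity), ENNReal.ofReal_rpow_of_pos (by positivity),
      ← ENNReal.ofReal_mul (by positivity)]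
    congr 1
    have h3 : (z.im / ‖z‖ / z.im ^ 2) ^ b = (z.im / ‖z‖) ^ b * (1 / z.im ^ 2) ^ b := by
      rw [← Real.mul_rpow (by positivity) (by positivity)]
      congr 1
      ring
    rw [h3, mul_assoc, ← Real.rpow_add (by positivity)]
    rw [show b + (1 - b) = 1 by ring, Real.rpow_one]
    ring
  rw [hle]
  refine hH.trans ?_
  simp only [e1, e2]
  rw [one_div_one_div, one_div_one_div]
  gcongr

end Crest.Agent.R162.LB3area
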