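import Mathlib
import Crest.Agent.R162.Base
import Crest.Agent.Lib.Bieberbach

/-!
Row 162 (S0243), node LB3b, deterministic part: the Green mass near the tip, weighted with
`min (1, (ρ/|Z|)²)`, is a sum over dyadic shells; numerical summation of the shells.
-/

set_option autoImplicit false

open MeasureTheory Set
open scoped ENNReal NNReal

namespace Crest.Agent.R162.LB3b

/-- `u_f(z) = Im z |f'(z)|`. -/
noncomputable def uf (f : ℂ → ℂ) (z : ℂ) : ℝ := z.im * ‖deriv f z‖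

/-- `S(z) = Im z / |z|`. -/
noncomputable def Sf (z : ℂ) : ℝ := z.im / ‖z‖

/-- the shell `{r ≤ |z| ≤ 2 r}` intersected with `{f z ∈ closed ball x r0}`. -/
def shell (f : ℂ → ℂ) (x : ℂ) (r0 r : ℝ) : Set ℂ :=
  {z | 0 < z.im ∧ r ≤ ‖z‖ ∧ ‖z‖ ≤ 2 * r ∧ ‖f z - x‖ ≤ r0}

/-- the mass density of the Green function in the half-plane: `u^d S^b / y²`. -/
noncomputable def gd (d b : ℝ) (f : ℂ → ℂ) (z : ℂ) : ℝ := uf f z ^ d * Sf z ^ b / z.im ^ 2

theorem isOpen_H : IsOpen {z : ℂ | 0 < z.im} := isOpen_lt continuous_const Complex.continuous_im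

theorem measurableSet_H : MeasurableSet {z : ℂ | 0 < z.im} := isOpen_H.measurableSet

/-- change of variables for an injective holomorphic function on the half-plane -/
theorem lintegral_image_H {f : ℂ → ℂ} (hf : DifferentiableOn ℂ f {z | 0 < z.im})
    (hinj : InjOn f {z | 0 < z.im}) {s : Set ℂ} (hs : MeasurableSet s) (hsH : s ⊆ {z | 0 < z.im})
    (g : ℂ → ℝ≥0∞) :
    ∫⁻ w in f '' s, g w = ∫⁻ z in s, ENNReal.ofReal (‖deriv f z‖ ^ 2) * g (f z) := by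
  have hder : ∀ z ∈ s, HasFDerivWithinAt f
      ((ContinuousLinearMap.toSpanSingleton ℂ (deriv f z)).restrictScalars ℝ) s z := by
    intro z hz
    have h1 : HasDerivAt f (deriv f z) z :=
      (hf.differentiableAt (isOpen_H.mem_nhds (hsH hz))).hasDerivAt
    exact (h1.hasFDerivAt.restrictScalars ℝ).hasFDerivWithinAt
  rw [lintegral_image_eq_lintegral_abs_det_fderiv_mul volume hs hder (hinj.mono hsH) g]
  refine setLIntegral_congr_fun hs (fun z _ => ?_)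
  congr 2
  simp [ContinuousLinearMap.det, LinearMap.det_restrictScalars, Algebra.norm_complex_eq,
    Complex.normSq_eq_norm_sq]

theorem uf_nonneg {f : ℂ → ℂ} {z : ℂ} (hz : 0 < z.im) : 0 ≤ uf f z :=
  mul_nonneg hz.le (norm_nonneg _)

theorem Sf_nonneg {z : ℂ} (hz : 0 < z.im) : 0 ≤ Sf z := div_nonneg hz.le (norm_nonneg _)

theorem gd_nonneg {d b : ℝ} {f : ℂ → ℂ} {z : ℂ} (hz : 0 < z.im) : 0 ≤ gd d b f z := by
  have h1 := uf_nonneg (f := f) hz
  have h2 := Sf_nonneg hz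
  unfold gd
  positivity

theorem measurableSet_near {f : ℂ → ℂ} (hf : DifferentiableOn ℂ f {z | 0 < z.im}) (x : ℂ)
    (r0 : ℝ) : MeasurableSet {z : ℂ | 0 < z.im ∧ ‖f z - x‖ ≤ r0} := by
  have h1 : {z : ℂ | 0 < z.im ∧ ‖f z - x‖ ≤ r0}
      = {z : ℂ | 0 < z.im} \ ({z : ℂ | 0 < z.im} ∩ f ⁻¹' (Metric.closedBall x r0)ᶜ) := by
    ext z
    simp only [mem_setOf_eq, mem_diff, mem_inter_iff, mem_preimage, mem_compl_iff,
      Metric.mem_closedBall, dist_eq_norm]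
    tauto
  rw [h1]
  have h2 : IsOpen ({z : ℂ | 0 < z.im} ∩ f ⁻¹' (Metric.closedBall x r0)ᶜ) :=
    hf.continuousOn.isOpen_inter_preimage isOpen_H Metric.isClosed_closedBall.isOpen_compl
  exact measurableSet_H.diff h2.measurableSet

theorem measurableSet_shell {f : ℂ → ℂ} (hf : DifferentiableOn ℂ f {z | 0 < z.im}) (x : ℂ)
    (r0 r : ℝ) : MeasurableSet (shell f x r0 r) := by
  have h1 : shell f x r0 r = {z : ℂ | 0 < z.im ∧ ‖f z - x‖ ≤ r0} ∩
      ({z | r ≤ ‖z‖} ∩ {z | ‖z‖ ≤ 2 * r}) := by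
    ext z
    simp only [shell, mem_setOf_eq, mem_inter_iff]
    tauto
  rw [h1]
  exact (measurableSet_near hf x r0).inter
    ((measurableSet_le measurable_const measurable_norm).inter
      (measurableSet_le measurable_norm measurable_const))

/-- Shell decomposition of the mass in the half-plane. -/
theorem mass_le_shells {f : ℂ → ℂ} (hf : DifferentiableOn ℂ f {z | 0 < z.im})
    {d b : ℝ} {x : ℂ} {r0 ρ : ℝ} (hρ : 0 < ρ) (B : ℤ → ℝ≥0∞)
    (hsh : ∀ j : ℤ, ∫⁻ z in shell f x r0 ((2 : ℝ) ^ j * ρ), ENNReal.ofReal (gd d b f z) ≤ B j) :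
    ∫⁻ z in {z | 0 < z.im ∧ ‖f z - x‖ ≤ r0},
        ENNReal.ofReal (gd d b f z * min 1 ((ρ / ‖z‖) ^ 2))
      ≤ ∑' j : ℤ, ENNReal.ofReal (min 1 (((2 : ℝ) ^ j)⁻¹ ^ 2)) * B j := by
  have hsub : {z : ℂ | 0 < z.im ∧ ‖f z - x‖ ≤ r0} ⊆ ⋃ j : ℤ, shell f x r0 ((2 : ℝ) ^ j * ρ) := by
    intro z hz
    have hz0 : 0 < ‖z‖ := by
      rw [norm_pos_iff]
      rintro rfl
      simp at hz
    obtain ⟨j, hj⟩ := exists_mem_Ico_zpow (x := ‖z‖ / ρ) (y := (2 : ℝ)) (by positivity)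
      (by norm_num)
    refine mem_iUnion.2 ⟨j, hz.1, ?_, ?_, hz.2⟩
    · have := hj.1
      rwa [le_div_iff₀ hρ] at this
    · have := hj.2.le
      rw [div_le_iff₀ hρ, zpow_add₀ (by norm_num : (2 : ℝ) ≠ 0), zpow_one] at this
      linarith
  calc ∫⁻ z in {z | 0 < z.im ∧ ‖f z - x‖ ≤ r0},
        ENNReal.ofReal (gd d b f z * min 1 ((ρ / ‖z‖) ^ 2))
      ≤ ∫⁻ z in ⋃ j : ℤ, shell f x r0 ((2 : ℝ) ^ j * ρ),
        ENNReal.ofReal (gd d b f z * min 1 ((ρ / ‖z‖) ^ 2)) := lintegral_mono_set hsub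
    _ ≤ ∑' j : ℤ, ∫⁻ z in shell f x r0 ((2 : ℝ) ^ j * ρ),
        ENNReal.ofReal (gd d b f z * min 1 ((ρ / ‖z‖) ^ 2)) := lintegral_iUnion_le _ _
    _ ≤ ∑' j : ℤ, ENNReal.ofReal (min 1 (((2 : ℝ) ^ j)⁻¹ ^ 2)) * B j := by
        refine ENNReal.tsum_le_tsum fun j => ?_
        refine le_trans ?_ (mul_le_mul_right (hsh j) _)
        rw [← lintegral_const_mul' _ _ ENNReal.ofReal_ne_top]
        refine setLIntegral_mono' (measurableSet_shell hf x r0 _) fun z hz => ?_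
        rw [← ENNReal.ofReal_mul (by positivity)]
        refine ENNReal.ofReal_le_ofReal ?_
        rw [mul_comm]
        refine mul_le_mul_of_nonneg_right ?_ (gd_nonneg hz.1)
        refine min_le_min le_rfl ?_
        have h2j : (0 : ℝ) < (2 : ℝ) ^ j := by positivity
        have hz1 := hz.2.1
        have hz0 : 0 < ‖z‖ := lt_of_lt_of_le (by positivity) hz1
        refine pow_le_pow_left₀ (by positivity) ?_ 2
        rw [div_le_iff₀ hz0, inv_mul_eq_div, le_div_iff₀ h2j]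
        linarith [mul_comm ρ ((2 : ℝ) ^ j)]

/-- Shell decomposition, physical side. -/
theorem phys_mass_le {f : ℂ → ℂ} (hf : DifferentiableOn ℂ f {z | 0 < z.im})
    (hinj : InjOn f {z | 0 < z.im})
    {d b : ℝ} {x : ℂ} {r0 ρ : ℝ} (hρ : 0 < ρ) (B : ℤ → ℝ≥0∞)
    (hsh : ∀ j : ℤ, ∫⁻ z in shell f x r0 ((2 : ℝ) ^ j * ρ), ENNReal.ofReal (gd d b f z) ≤ B j)
    (g : ℂ → ℝ≥0∞)
    (hg : ∀ z : ℂ, 0 < z.im → ‖f z - x‖ ≤ r0 → g (f z) ≤
      ENNReal.ofReal (uf f z ^ (d - 2) * Sf z ^ b * min 1 ((ρ / ‖z‖) ^ 2))) :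
    ∫⁻ w in f '' {z | 0 < z.im ∧ ‖f z - x‖ ≤ r0}, g w
      ≤ ∑' j : ℤ, ENNReal.ofReal (min 1 (((2 : ℝ) ^ j)⁻¹ ^ 2)) * B j := by
  refine le_trans ?_ (mass_le_shells hf hρ B hsh)
  rw [lintegral_image_H hf hinj (measurableSet_near hf x r0) (fun z hz => hz.1) g]
  refine setLIntegral_mono' (measurableSet_near hf x r0) fun z hz => ?_
  have hz1 : 0 < z.im := hz.1
  refine (mul_le_mul_right (hg z hz1 hz.2) _).trans ?_
  rw [← ENNReal.ofReal_mul (by positivity)]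
  refine ENNReal.ofReal_le_ofReal ?_
  have hu := uf_nonneg (f := f) hz1
  have hS := Sf_nonneg hz1
  rcases eq_or_lt_of_le (norm_nonneg (deriv f z)) with h0 | h0
  · rw [← h0]
    have := gd_nonneg (d := d) (b := b) (f := f) hz1
    have : 0 ≤ gd d b f z * min 1 ((ρ / ‖z‖) ^ 2) := by positivity
    simpa using this
  · have hupos : 0 < uf f z := mul_pos hz1 h0
    have h1 : ‖deriv f z‖ ^ 2 * uf f z ^ (d - 2) = uf f z ^ d / z.im ^ 2 := by
      rw [Real.rpow_sub hupos, Real.rpow_two]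
      have : ‖deriv f z‖ = uf f z / z.im := by
        unfold uf
        field_simp
      rw [this]
      field_simp
    have h2 : ‖deriv f z‖ ^ 2 * (uf f z ^ (d - 2) * Sf z ^ b * min 1 ((ρ / ‖z‖) ^ 2))
        = gd d b f z * min 1 ((ρ / ‖z‖) ^ 2) := by
      unfold gd
      rw [show ‖deriv f z‖ ^ 2 * (uf f z ^ (d - 2) * Sf z ^ b * min 1 ((ρ / ‖z‖) ^ 2))
        = (‖deriv f z‖ ^ 2 * uf f z ^ (d - 2)) * Sf z ^ b * min 1 ((ρ / ‖z‖) ^ 2) by ring, h1]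
      ring
    rw [h2]

/-! ### numerical summation -/

/-- splitting of a sum over `ℤ` at `3`, with the negative part split into even and odd terms -/
theorem tsum_int_le (F : ℤ → ℝ≥0∞) :
    ∑' j : ℤ, F j ≤ (∑' i : ℕ, F (4 + i)) + (∑' i : ℕ, F (3 - 2 * i)) + ∑' i : ℕ, F (2 - 2 * i) := by
  let e : Fin 3 × ℕ → ℤ := fun p =>
    if p.1 = 0 then 4 + (p.2 : ℤ) else if p.1 = 1 then 3 - 2 * (p.2 : ℤ) else 2 - 2 * (p.2 : ℤ)
  have he : Function.Surjective e := by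
    intro j
    rcases le_or_gt 4 j with hj | hj
    · exact ⟨(0, (j - 4).toNat), by simp [e]; omega⟩
    · rcases Int.emod_two_eq_zero_or_one j with h | h
      · exact ⟨(2, ((2 - j) / 2).toNat), by simp [e]; omega⟩
      · exact ⟨(1, ((3 - j) / 2).toNat), by simp [e]; omega⟩
  refine (ENNReal.tsum_le_tsum_comp_of_surjective he F).trans ?_
  rw [ENNReal.tsum_prod']
  simp only [tsum_fintype, Fin.sum_univ_three]
  simp [e]

/-- `y_k = 10 ρ e^{-k}` -/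
noncomputable def yk (ρ : ℝ) (k : ℕ) : ℝ := 10 * ρ * Real.exp (-(k : ℝ))

theorem yk_pos {ρ : ℝ} (hρ : 0 < ρ) (k : ℕ) : 0 < yk ρ k := by unfold yk; positivity

theorem min_rpow_le {m1 m2 c E : ℝ} (hc : 0 < c) (hE : 1 ≤ E) (h0 : 0 ≤ m1) (h0' : 0 ≤ m2)
    (h : m1 ≤ E * m2) : (min 1 m1) ^ c ≤ E ^ c * (min 1 m2) ^ c := by
  rw [← Real.mul_rpow (by linarith) (by positivity)]
  refine Real.rpow_le_rpow (by positivity) ?_ hc.le
  rcases le_total 1 m2 with h1 | h1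
  · rw [min_eq_left h1]
    exact (min_le_left _ _).trans (by linarith)
  · rw [min_eq_right h1]
    exact (min_le_right _ _).trans h

/-- the sum over the small shells is a sum over the `y_k` -/
theorem small_shells {m : ℝ → ℝ} {ρ c a : ℝ} (hρ : 0 < ρ) (hc : 0 < c) (hm : ∀ y, 0 < y → 0 ≤ m y)
    (hlip : ∀ y y', 0 < y' → y' ≤ y → y ≤ Real.exp 1 * y' → m y' ≤ Real.exp 2 * m y)
    (ha : 0 < a) (ha10 : a ≤ 10) :
    ∑' i : ℕ, ENNReal.ofReal ((min 1 (m (a * (4 : ℝ)⁻¹ ^ i * ρ))) ^ c)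
      ≤ ENNReal.ofReal (Real.exp 2 ^ c) * ∑' k : ℕ, ENNReal.ofReal ((min 1 (m (yk ρ k))) ^ c) := by
  have h4 : (1 : ℝ) < Real.log 4 := by
    have h2 := Real.log_two_gt_d9
    have : Real.log 4 = 2 * Real.log 2 := by
      rw [show (4 : ℝ) = 2 ^ 2 by norm_num, Real.log_pow]; norm_num
    rw [this]; linarith
  have hL0 : 0 ≤ Real.log (10 / a) := Real.log_nonneg ((one_le_div ha).2 ha10)
  let κ : ℕ → ℕ := fun i => ⌊Real.log (10 / a) + i * Real.log 4⌋₊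
  have harg : ∀ i : ℕ, 0 ≤ Real.log (10 / a) + i * Real.log 4 := fun i => by positivity
  have hκinj : Function.Injective κ := by
    have : StrictMono κ := by
      refine strictMono_nat_of_lt_succ fun i => ?_
      have h1 : (κ i : ℝ) ≤ Real.log (10 / a) + i * Real.log 4 := Nat.floor_le (harg i)
      have h2 : (κ i + 1 : ℕ) ≤ κ (i + 1) := by
        refine Nat.le_floor ?_
        push_cast
        nlinarith
      omega
    exact this.injective
  have hterm : ∀ i : ℕ, (min 1 (m (a * (4 : ℝ)⁻¹ ^ i * ρ))) ^ c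
      ≤ Real.exp 2 ^ c * (min 1 (m (yk ρ (κ i)))) ^ c := by
    intro i
    have hy' : 0 < a * (4 : ℝ)⁻¹ ^ i * ρ := by positivity
    have hexp : Real.exp (Real.log (10 / a) + i * Real.log 4) = 10 / a * 4 ^ i := by
      rw [Real.exp_add, Real.exp_log (by positivity), ← Real.log_pow, Real.exp_log (by positivity)]
    have hy'eq : a * (4 : ℝ)⁻¹ ^ i * ρ
        = 10 * ρ * Real.exp (-(Real.log (10 / a) + i * Real.log 4)) := by
      rw [Real.exp_neg, hexp, inv_pow]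
      field_simp
    have h1 : (κ i : ℝ) ≤ Real.log (10 / a) + i * Real.log 4 := Nat.floor_le (harg i)
    have h2 : Real.log (10 / a) + i * Real.log 4 < κ i + 1 := Nat.lt_floor_add_one _
    refine min_rpow_le hc (Real.one_le_exp (by norm_num)) (hm _ hy') (hm _ (yk_pos hρ _)) ?_
    refine hlip _ _ hy' ?_ ?_
    · rw [hy'eq]
      unfold yk
      gcongr
    · rw [hy'eq]
      unfold yk
      rw [show Real.exp 1 * (10 * ρ * Real.exp (-(Real.log (10 / a) + i * Real.log 4)))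
        = 10 * ρ * Real.exp (1 - (Real.log (10 / a) + i * Real.log 4)) by
          rw [sub_eq_add_neg, Real.exp_add]; ring]
      gcongr
      linarith
  calc ∑' i : ℕ, ENNReal.ofReal ((min 1 (m (a * (4 : ℝ)⁻¹ ^ i * ρ))) ^ c)
      ≤ ∑' i : ℕ, ENNReal.ofReal (Real.exp 2 ^ c) * ENNReal.ofReal ((min 1 (m (yk ρ (κ i)))) ^ c) := by
        refine ENNReal.tsum_le_tsum fun i => ?_
        rw [← ENNReal.ofReal_mul (by positivity)]
        exact ENNReal.ofReal_le_ofReal (hterm i)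
    _ = ENNReal.ofReal (Real.exp 2 ^ c) * ∑' i : ℕ, ENNReal.ofReal ((min 1 (m (yk ρ (κ i)))) ^ c) :=
        ENNReal.tsum_mul_left
    _ ≤ _ := mul_le_mul_right (ENNReal.tsum_comp_le_tsum_of_injective hκinj
          (fun k => ENNReal.ofReal ((min 1 (m (yk ρ k))) ^ c))) _

/-- the sum over the large shells -/
theorem large_shells {m : ℝ → ℝ} {ρ c M : ℝ} (hρ : 0 < ρ) (hc : 0 < c) (hc2 : c ≤ 1 / 2)
    (hM : 0 ≤ M) (hm : ∀ y, 0 < y → 0 ≤ m y)
    (hbig : ∀ y, 10 * ρ ≤ y → m y ≤ M * (y / ρ) ^ 2) :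
    ∑' i : ℕ, ENNReal.ofReal (min 1 (((2 : ℝ) ^ (4 + (i : ℤ)))⁻¹ ^ 2)
        * (min 1 (m ((2 : ℝ) ^ (4 + (i : ℤ)) * ρ))) ^ c) ≤ ENNReal.ofReal (M ^ c) := by
  have hterm : ∀ i : ℕ, min 1 (((2 : ℝ) ^ (4 + (i : ℤ)))⁻¹ ^ 2)
        * (min 1 (m ((2 : ℝ) ^ (4 + (i : ℤ)) * ρ))) ^ c ≤ M ^ c * ((1 / 2) * (1 / 2 : ℝ) ^ i) := by
    intro i
    set t : ℝ := (2 : ℝ) ^ (4 + i : ℕ) with ht
    have htz : (2 : ℝ) ^ (4 + (i : ℤ)) = t := by
      rw [ht]; exact_mod_cast (zpow_natCast (2 : ℝ) (4 + i))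
    rw [htz]
    have ht16 : 16 ≤ t := by
      rw [ht, pow_add]
      have : (1 : ℝ) ≤ 2 ^ i := one_le_pow₀ (by norm_num)
      nlinarith
    have ht0 : 0 < t := by linarith
    have h1 : m (t * ρ) ≤ M * t ^ 2 := by
      have := hbig (t * ρ) (by nlinarith)
      rwa [mul_div_assoc, div_self hρ.ne', mul_one] at this
    have h2 : (min 1 (m (t * ρ))) ^ c ≤ M ^ c * t := by
      calc (min 1 (m (t * ρ))) ^ c ≤ (M * t ^ 2) ^ c := by
            refine Real.rpow_le_rpow ?_ ((min_le_right _ _).trans h1) hc.le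
            exact le_min zero_le_one (hm _ (by positivity))
        _ = M ^ c * (t ^ 2) ^ c := Real.mul_rpow hM (by positivity)
        _ ≤ M ^ c * t := by
            have hMc : 0 ≤ M ^ c := Real.rpow_nonneg hM c
            refine mul_le_mul_of_nonneg_left ?_ hMc
            rw [← Real.rpow_natCast t 2, ← Real.rpow_mul ht0.le]
            calc t ^ (((2 : ℕ) : ℝ) * c) ≤ t ^ (1 : ℝ) :=
                  Real.rpow_le_rpow_of_exponent_le (by linarith) (by push_cast; linarith)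
              _ = t := Real.rpow_one t
    calc min 1 ((t)⁻¹ ^ 2) * (min 1 (m (t * ρ))) ^ c ≤ (t⁻¹ ^ 2) * (M ^ c * t) := by
          have := min_le_right 1 (t⁻¹ ^ 2)
          gcongr
          exact Real.rpow_nonneg (le_min zero_le_one (hm _ (by positivity))) _
      _ = M ^ c * t⁻¹ := by field_simp
      _ ≤ M ^ c * ((1 / 2) * (1 / 2 : ℝ) ^ i) := by
          have hMc : 0 ≤ M ^ c := Real.rpow_nonneg hM c
          refine mul_le_mul_of_nonneg_left ?_ hMc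
          rw [ht, pow_add, mul_inv, one_div, inv_pow]
          gcongr
          norm_num
  calc ∑' i : ℕ, ENNReal.ofReal (min 1 (((2 : ℝ) ^ (4 + (i : ℤ)))⁻¹ ^ 2)
        * (min 1 (m ((2 : ℝ) ^ (4 + (i : ℤ)) * ρ))) ^ c)
      ≤ ∑' i : ℕ, ENNReal.ofReal (M ^ c * ((1 / 2) * (1 / 2 : ℝ) ^ i)) :=
        ENNReal.tsum_le_tsum fun i => ENNReal.ofReal_le_ofReal (hterm i)
    _ = ENNReal.ofReal (∑' i : ℕ, M ^ c * ((1 / 2) * (1 / 2 : ℝ) ^ i)) := by
        rw [ENNReal.ofReal_tsum_of_nonneg]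
        · intro i
          have hMc : 0 ≤ M ^ c := Real.rpow_nonneg hM c
          positivity
        · exact (summable_geometric_two.mul_left _).mul_left _
    _ = ENNReal.ofReal (M ^ c) := by
        rw [tsum_mul_left, tsum_mul_left, tsum_geometric_two]
        congr 1
        ring

/-- total: the weighted sum over all dyadic shells -/
theorem all_shells {m : ℝ → ℝ} {ρ c M A : ℝ} (hρ : 0 < ρ) (hc : 0 < c) (hc2 : c ≤ 1 / 2)
    (hM : 0 ≤ M) (hA : 0 ≤ A) (hm : ∀ y, 0 < y → 0 ≤ m y)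
    (hlip : ∀ y y', 0 < y' → y' ≤ y → y ≤ Real.exp 1 * y' → m y' ≤ Real.exp 2 * m y)
    (hbig : ∀ y, 10 * ρ ≤ y → m y ≤ M * (y / ρ) ^ 2) :
    ∑' j : ℤ, ENNReal.ofReal (min 1 (((2 : ℝ) ^ j)⁻¹ ^ 2))
        * ENNReal.ofReal (A * (min 1 (m ((2 : ℝ) ^ j * ρ))) ^ c)
      ≤ ENNReal.ofReal A * (ENNReal.ofReal (M ^ c)
        + 2 * (ENNReal.ofReal (Real.exp 2 ^ c)
          * ∑' k : ℕ, ENNReal.ofReal ((min 1 (m (yk ρ k))) ^ c))) := by
  have hpt : ∀ j : ℤ, 0 ≤ (min 1 (m ((2 : ℝ) ^ j * ρ))) ^ c := fun j =>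
    Real.rpow_nonneg (le_min zero_le_one (hm _ (by positivity))) _
  have h0 : ∀ j : ℤ, ENNReal.ofReal (min 1 (((2 : ℝ) ^ j)⁻¹ ^ 2))
        * ENNReal.ofReal (A * (min 1 (m ((2 : ℝ) ^ j * ρ))) ^ c)
      = ENNReal.ofReal A * ENNReal.ofReal (min 1 (((2 : ℝ) ^ j)⁻¹ ^ 2)
        * (min 1 (m ((2 : ℝ) ^ j * ρ))) ^ c) := by
    intro j
    rw [← ENNReal.ofReal_mul (by positivity), ← ENNReal.ofReal_mul hA]
    congr 1
    ring
  simp_rw [h0]
  rw [ENNReal.tsum_mul_left]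
  gcongr
  refine (tsum_int_le _).trans ?_
  have hs : ∀ (a : ℝ) (z : ℤ), 0 < a → a ≤ 10 → (2 : ℝ) ^ z = a →
      ∑' i : ℕ, ENNReal.ofReal (min 1 (((2 : ℝ) ^ (z - 2 * (i : ℤ)))⁻¹ ^ 2)
        * (min 1 (m ((2 : ℝ) ^ (z - 2 * (i : ℤ)) * ρ))) ^ c)
      ≤ ENNReal.ofReal (Real.exp 2 ^ c)
          * ∑' k : ℕ, ENNReal.ofReal ((min 1 (m (yk ρ k))) ^ c) := by
    intro a z ha ha10 hz
    refine le_trans ?_ (small_shells hρ hc hm hlip ha ha10)
    refine ENNReal.tsum_le_tsum fun i => ENNReal.ofReal_le_ofReal ?_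
    have h2 : (2 : ℝ) ^ (z - 2 * (i : ℤ)) = a * (4 : ℝ)⁻¹ ^ i := by
      rw [zpow_sub₀ (by norm_num), hz, zpow_mul, zpow_natCast, inv_pow]
      norm_num
      rfl
    rw [← h2]
    have h3 := hpt (z - 2 * (i : ℤ))
    calc min 1 (((2 : ℝ) ^ (z - 2 * (i : ℤ)))⁻¹ ^ 2) * (min 1 (m ((2 : ℝ) ^ (z - 2 * (i : ℤ)) * ρ))) ^ c
        ≤ 1 * (min 1 (m ((2 : ℝ) ^ (z - 2 * (i : ℤ)) * ρ))) ^ c :=
          mul_le_mul_of_nonneg_right (min_le_left _ _) h3
      _ = _ := one_mul _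
  have h8 := hs 8 3 (by norm_num) (by norm_num) (by norm_num)
  have h4 := hs 4 2 (by norm_num) (by norm_num) (by norm_num)
  have hl := large_shells hρ hc hc2 hM hm hbig
  rw [two_mul, ← add_assoc]
  exact add_le_add (add_le_add hl h8) h4

end Crest.Agent.R162.LB3b
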