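import Mathlib
import Crest.Agent.R162.LB3b
import Crest.Agent.R162.LB3aF
import Crest.Agent.R162.LB2a
import Crest.Agent.R162.FLC3

/-!
Row 162 (S0243), node LB3b, second part (helper268): the Green mass near the tip at one time.
-/

set_option autoImplicit false

open MeasureTheory Set
open scoped ENNReal NNReal
open Crest.ProbabilityR.Loewner

namespace Crest.Agent.R162.LB3b

open Crest.Agent.R162.KB1 (Hs ups isOpen_Hs ups_pos)
open Crest.Agent.R162.FL

theorem dim_sub_two {κ : ℝ} : dimParam κ - 2 = κ / 8 - 1 := by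
  unfold dimParam; ring

/-- The Green mass near the tip for one univalent map. -/
theorem mass_bound {κ : ℝ} (hκ : 0 < κ) (hκ8 : κ < 8) :
    ∃ C c : ℝ, 0 < C ∧ 0 < c ∧ c ≤ 1 / 2 ∧ ∀ f : ℂ → ℂ, DifferentiableOn ℂ f Hs → InjOn f Hs →
      ∀ (x : ℂ) (r0 L ρ M : ℝ), 0 < ρ → 0 < L → r0 ≤ L →
      (∀ z : ℂ, 0 < z.im → ‖f z - x‖ ≤ r0 → ups f z ≤ L) → 0 ≤ M →
      ups f (((10 * ρ : ℝ) : ℂ) * Complex.I) ≤ M * L →
      ∫⁻ z in {z | 0 < z.im ∧ ‖f z - x‖ ≤ r0},
        ENNReal.ofReal (gd (dimParam κ) (8 / κ - 1) f z * min 1 ((ρ / ‖z‖) ^ 2))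
      ≤ ENNReal.ofReal (C * L ^ dimParam κ) * (ENNReal.ofReal (M ^ c)
        + ∑' k : ℕ, ENNReal.ofReal ((min 1 (ups f ((yk ρ k : ℂ) * Complex.I) / L)) ^ c)) := by
  obtain ⟨C0, c0, hC0, hc0, hsh⟩ := LB3a.shell' hκ hκ8
  set c : ℝ := min c0 (1 / 2) with hc
  have hcpos : 0 < c := lt_min hc0 (by norm_num)
  have hc2 : c ≤ 1 / 2 := min_le_right _ _
  have hcc : c ≤ c0 := min_le_left _ _
  refine ⟨C0 * (2 * Real.exp 2 ^ c), c, by positivity, hcpos, hc2, ?_⟩
  intro f hf hfi x r0 L ρ M hρ hL hr0 hups hM hM10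
  have hLd : 0 < L ^ dimParam κ := Real.rpow_pos_of_pos hL _
  set m : ℝ → ℝ := fun y => ups f ((y : ℂ) * Complex.I) / L with hm
  have him : ∀ y : ℝ, ((y : ℂ) * Complex.I).im = y := fun y => by simp
  have hm0 : ∀ y, 0 < y → 0 ≤ m y := fun y hy =>
    div_nonneg (ups_pos hf hfi (by show 0 < _; rw [him]; exact hy)).le hL.le
  have hlip : ∀ y y', 0 < y' → y' ≤ y → y ≤ Real.exp 1 * y' → m y' ≤ Real.exp 2 * m y := by
    intro y y' hy' h h2
    have h3 := (LB2a.ups_axis hf hfi hy' h).1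
    have hy : 0 < y := lt_of_lt_of_le hy' h
    have h4 : (y / y') ^ 2 ≤ Real.exp 2 := by
      have : y / y' ≤ Real.exp 1 := by rwa [div_le_iff₀ hy']
      calc (y / y') ^ 2 ≤ (Real.exp 1) ^ 2 := by gcongr
        _ = Real.exp 2 := by rw [← Real.exp_nat_mul]; norm_num
    simp only [hm]
    rw [← mul_div_assoc]
    refine div_le_div_of_nonneg_right ?_ hL.le
    refine h3.trans (mul_le_mul_of_nonneg_right h4 ?_)
    exact (ups_pos hf hfi (by show 0 < _; rw [him]; exact hy)).le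
  have hbig : ∀ y, 10 * ρ ≤ y → m y ≤ M * (y / ρ) ^ 2 := by
    intro y hy
    have hρ10 : 0 < 10 * ρ := by positivity
    have h3 := (LB2a.ups_axis hf hfi hρ10 hy).2
    have hy0 : 0 < y := by linarith
    simp only [hm]
    rw [div_le_iff₀ hL]
    refine h3.trans ?_
    calc (y / (10 * ρ)) ^ 2 * ups f (((10 * ρ : ℝ) : ℂ) * Complex.I)
        ≤ (y / (10 * ρ)) ^ 2 * (M * L) := by gcongr
      _ = (1 / 100) * (M * (y / ρ) ^ 2 * L) := by
          rw [div_pow, div_pow, mul_pow]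
          have hρ2 : ρ ^ 2 ≠ 0 := by positivity
          field_simp
          ring
      _ ≤ M * (y / ρ) ^ 2 * L := by
          have : 0 ≤ M * (y / ρ) ^ 2 * L := by positivity
          linarith
  have hB : ∀ j : ℤ, ∫⁻ z in shell f x r0 ((2 : ℝ) ^ j * ρ),
      ENNReal.ofReal (gd (dimParam κ) (8 / κ - 1) f z)
      ≤ ENNReal.ofReal (C0 * L ^ dimParam κ * (min 1 (m ((2 : ℝ) ^ j * ρ))) ^ c) := by
    intro j
    set r : ℝ := (2 : ℝ) ^ j * ρ with hr
    have hrpos : 0 < r := by positivity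
    have h1 := hsh f hf hfi x r L hrpos hL
    refine le_trans (le_trans (lintegral_mono_set ?_) h1) ?_
    · rintro z ⟨h1, h2, h3, h4⟩
      exact ⟨h1, h2, h3, h4.trans hr0, hups z h1 h4⟩
    · refine ENNReal.ofReal_le_ofReal ?_
      have e : Complex.I * (r : ℂ) = (r : ℂ) * Complex.I := mul_comm _ _
      rw [e]
      have h5 : 0 < ups f ((r : ℂ) * Complex.I) / L :=
        div_pos (ups_pos hf hfi (by show 0 < _; rw [him]; exact hrpos)) hL
      refine mul_le_mul_of_nonneg_left ?_ (by positivity)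
      exact Real.rpow_le_rpow_of_exponent_ge (lt_min one_pos h5) (min_le_left _ _) hcc
  have hE : (1 : ℝ) ≤ 2 * Real.exp 2 ^ c := by
    have : (1 : ℝ) ≤ Real.exp 2 ^ c :=
      Real.one_le_rpow (Real.one_le_exp (by norm_num)) hcpos.le
    linarith
  have h1 := mass_le_shells (f := f) hf (d := dimParam κ) (b := 8 / κ - 1) (x := x) (r0 := r0) hρ _ hB
  refine h1.trans ((all_shells hρ hcpos hc2 hM (by positivity) hm0 hlip hbig).trans ?_)
  rw [show C0 * (2 * Real.exp 2 ^ c) * L ^ dimParam κ = (C0 * L ^ dimParam κ) * (2 * Real.exp 2 ^ c)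
    by ring, ENNReal.ofReal_mul (p := C0 * L ^ dimParam κ) (by positivity), mul_assoc]
  refine mul_le_mul_right ?_ _
  rw [mul_add]
  refine add_le_add ?_ ?_
  · refine le_mul_of_one_le_left zero_le ?_
    rw [← ENNReal.ofReal_one]
    exact ENNReal.ofReal_le_ofReal hE
  · rw [← mul_assoc]
    refine mul_le_mul_left (le_of_eq ?_) _
    rw [ENNReal.ofReal_mul (by norm_num)]
    norm_num

end Crest.Agent.R162.LB3b
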