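import Crest.Agent.R162.FL3

/-!
Row 162 (S0243), part of LB3b: far window lemma. If `‖Z_σ(z)‖ ≥ 10 r`, the time window `[σ,T]` has
length `≤ 4 r²` and the driving function moves by at most `3 r` on it, then `z` is alive at `T` and
`‖Z‖`, `Im Z`, `Υ`, `S` change only by bounded factors on the window. Then the increment of the content
carried by such a point.
-/

set_option autoImplicit false

open Set MeasureTheory intervalIntegral

namespace Crest.Agent.R162.LB3bFar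

open Crest.Agent.R162.FL

variable {W : ℝ → ℝ} {z : ℂ} {T σ s r : ℝ}

/-- `‖Z‖ ≥ 5 r` as long as the point is alive -/
theorem five_le_of_alive (hW : ContinuousOn W (Ici 0)) (hσ : 0 ≤ σ) (hr : 0 < r)
    (hT : T - σ ≤ 4 * r ^ 2) (hosc : ∀ s ∈ Icc σ T, |W s - W σ| ≤ 3 * r)
    (hfar : 10 * r ≤ ‖Zfl W σ z‖) {t : ℝ} (htT : t ≤ T) (ha : Alive W z t) :
    ∀ s ∈ Icc σ t, 5 * r ≤ ‖Zfl W s z‖ := by
  by_contra hcon
  push Not at hcon
  obtain ⟨s1, hs1, hlt⟩ := hcon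
  have hcont : ContinuousOn (fun s => ‖Zfl W s z‖) (Icc σ s1) :=
    ((continuousOn_Zfl hW ha).norm).mono (Icc_subset_Icc hσ hs1.2)
  -- the closed set of times where `‖Z‖ ≤ 5 r`
  set A : Set ℝ := {s | s ∈ Icc σ s1 ∧ ‖Zfl W s z‖ ≤ 5 * r} with hA
  have hAne : A.Nonempty := ⟨s1, ⟨hs1.1, le_rfl⟩, hlt.le⟩
  have hAc : IsClosed A := by
    have : A = Icc σ s1 ∩ (fun s => ‖Zfl W s z‖) ⁻¹' (Iic (5 * r)) := by
      ext s; simp [hA]
    rw [this]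
    exact hcont.preimage_isClosed_of_isClosed isClosed_Icc isClosed_Iic
  have hAb : BddBelow A := ⟨σ, fun s hs => hs.1.1⟩
  have hmem : sInf A ∈ A := hAc.csInf_mem hAne hAb
  set s2 := sInf A with hs2
  have hs2' : σ ≤ s2 := hmem.1.1
  have hs2t : s2 ≤ t := hmem.1.2.trans hs1.2
  -- on `[σ, s2]` we have `‖Z‖ ≥ 5 r`
  have hge : ∀ u ∈ Icc σ s2, 5 * r ≤ ‖Zfl W u z‖ := by
    intro u hu
    rcases hu.2.lt_or_eq with h | h
    · by_contra hc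
      have : u ∈ A := ⟨⟨hu.1, hu.2.trans hmem.1.2⟩, (not_le.1 hc).le⟩
      exact absurd (csInf_le hAb this) (not_le.2 h)
    · subst h
      -- by continuity
      rcases hs2'.lt_or_eq with h' | h'
      · have hcl : s2 ∈ closure (Ico σ s2) := by
          rw [closure_Ico h'.ne]; exact ⟨hs2', le_rfl⟩
        have hc2 : ContinuousWithinAt (fun s => ‖Zfl W s z‖) (Ico σ s2) s2 :=
          (hcont s2 ⟨hs2', hmem.1.2⟩).mono
            (fun u hu => ⟨hu.1, hu.2.le.trans hmem.1.2⟩)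
        have : (nhdsWithin s2 (Ico σ s2)).NeBot := mem_closure_iff_nhdsWithin_neBot.1 hcl
        refine ge_of_tendsto hc2 ?_
        filter_upwards [self_mem_nhdsWithin] with u hu
        by_contra hc
        have : u ∈ A := ⟨⟨hu.1, hu.2.le.trans hmem.1.2⟩, (not_le.1 hc).le⟩
        exact absurd (csInf_le hAb this) (not_le.2 hu.2)
      · rw [← h']
        linarith
  have h1 := norm_gfl_sub_le' hW ha hσ hs2' hs2t (m := 5 * r) (by linarith) hge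
  have h2 := abs_norm_Zfl_sub_le W s2 σ z
  have h3 := hosc s2 ⟨hs2', hs2t.trans htT⟩
  have h4 : 2 * (s2 - σ) / (5 * r) ≤ 8 / 5 * r := by
    rw [div_le_iff₀ (by linarith)]
    have : s2 - σ ≤ 4 * r ^ 2 := by linarith
    nlinarith
  have h5 := (abs_le.1 h2).1
  have h6 := hmem.2
  linarith

theorem ath_le_of_alive (hW : ContinuousOn W (Ici 0)) (hσ : 0 ≤ σ) (hr : 0 < r)
    (hT : T - σ ≤ 4 * r ^ 2) (hosc : ∀ s ∈ Icc σ T, |W s - W σ| ≤ 3 * r)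
    (hfar : 10 * r ≤ ‖Zfl W σ z‖) {t : ℝ} (htT : t ≤ T) (hσt : σ ≤ t) (ha : Alive W z t) :
    OP.ath W t z - OP.ath W σ z ≤ 4 / 25 := by
  have h6 := five_le_of_alive hW hσ hr hT hosc hfar htT ha
  refine (ath_sub_le hW ha hσ hσt le_rfl (m := 5 * r) (by linarith) h6).trans ?_
  rw [div_le_iff₀ (by positivity)]
  nlinarith

/-- a far point stays alive -/
theorem alive (hW : ContinuousOn W (Ici 0)) (hσ : 0 ≤ σ) (hσT : σ ≤ T) (h : Alive W z σ)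
    (hr : 0 < r) (hT : T - σ ≤ 4 * r ^ 2) (hosc : ∀ s ∈ Icc σ T, |W s - W σ| ≤ 3 * r)
    (hfar : 10 * r ≤ ‖Zfl W σ z‖) : Alive W z T := by
  have hδ : 0 < (gfl W σ z).im * Real.exp (-(8 / 25)) :=
    mul_pos (gfl_im_pos h) (Real.exp_pos _)
  refine alive_of_apriori hW h.im_pos (hσ.trans hσT) hδ fun s hs hsT ha => ?_
  rcases le_total s σ with hsσ | hsσ
  · have h1 := im_anti h hs hsσ
    have h2 : Real.exp (-(8 / 25) : ℝ) ≤ 1 := Real.exp_le_one_iff.2 (by norm_num)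
    nlinarith [gfl_im_pos h]
  · have h1 := im_eq_exp_ath hW ha
    have h2 := im_eq_exp_ath hW h
    have h3 := ath_le_of_alive hW hσ hr hT hosc hfar hsT.le hsσ ha
    rw [h1, h2, mul_assoc, ← Real.exp_add]
    have hz := h.im_pos
    have : Real.exp (-2 * OP.ath W σ z + -(8 / 25)) ≤ Real.exp (-2 * OP.ath W s z) := by
      apply Real.exp_le_exp.2; linarith
    exact mul_le_mul_of_nonneg_left this hz.le

/-- a far window -/
structure Win (W : ℝ → ℝ) (z : ℂ) (σ T r : ℝ) : Prop where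
  hW : ContinuousOn W (Ici 0)
  hσ : 0 ≤ σ
  hσT : σ ≤ T
  h : Alive W z σ
  hr : 0 < r
  hT : T - σ ≤ 4 * r ^ 2
  hosc : ∀ s ∈ Icc σ T, |W s - W σ| ≤ 3 * r
  hfar : 10 * r ≤ ‖Zfl W σ z‖

namespace Win

variable (w : Win W z σ T r)
include w

theorem aliveT : Alive W z T := alive w.hW w.hσ w.hσT w.h w.hr w.hT w.hosc w.hfar

theorem aliveS (hs : s ∈ Icc σ T) : Alive W z s :=
  w.aliveT.mono (w.hσ.trans hs.1) hs.2

theorem five_le (hs : s ∈ Icc σ T) : 5 * r ≤ ‖Zfl W s z‖ :=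
  five_le_of_alive w.hW w.hσ w.hr w.hT w.hosc w.hfar le_rfl w.aliveT s hs

theorem norm_gfl_sub_le (hs : s ∈ Icc σ T) : ‖gfl W s z - gfl W σ z‖ ≤ 8 / 5 * r := by
  have hr := w.hr
  have h1 := norm_gfl_sub_le' w.hW w.aliveT w.hσ hs.1 hs.2 (m := 5 * r) (by linarith)
    (fun u hu => w.five_le ⟨hu.1, hu.2.trans hs.2⟩)
  refine h1.trans ?_
  rw [div_le_iff₀ (by linarith)]
  have : s - σ ≤ 4 * r ^ 2 := by linarith [w.hT, hs.2]
  nlinarith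

theorem abs_norm_sub_le (hs : s ∈ Icc σ T) : |‖Zfl W s z‖ - ‖Zfl W σ z‖| ≤ 23 / 5 * r := by
  have h1 := abs_norm_Zfl_sub_le W s σ z
  have h2 := w.norm_gfl_sub_le hs
  have h3 := w.hosc s hs
  linarith

theorem norm_le (hs : s ∈ Icc σ T) : ‖Zfl W s z‖ ≤ 73 / 50 * ‖Zfl W σ z‖ := by
  have h1 := (abs_le.1 (w.abs_norm_sub_le hs)).2
  have := w.hfar
  linarith

theorem le_norm (hs : s ∈ Icc σ T) : 27 / 50 * ‖Zfl W σ z‖ ≤ ‖Zfl W s z‖ := by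
  have h1 := (abs_le.1 (w.abs_norm_sub_le hs)).1
  have := w.hfar
  linarith

theorem norm_pos : 0 < ‖Zfl W σ z‖ := by
  have := w.hfar
  have := w.hr
  linarith

/-- K-time of the window -/
theorem ath_le (hs : s ∈ Icc σ T) :
    OP.ath W s z - OP.ath W σ z ≤ 14 * (r / ‖Zfl W σ z‖) ^ 2 := by
  have hp := w.norm_pos
  have h1 := ath_sub_le w.hW w.aliveT w.hσ hs.1 hs.2 (m := 27 / 50 * ‖Zfl W σ z‖) (by positivity)
    (fun u hu => w.le_norm ⟨hu.1, hu.2.trans hs.2⟩)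
  refine h1.trans ?_
  have h2 : s - σ ≤ 4 * r ^ 2 := by linarith [w.hT, hs.2]
  rw [div_le_iff₀ (by positivity), div_pow]
  have : 14 * (r ^ 2 / ‖Zfl W σ z‖ ^ 2) * (27 / 50 * ‖Zfl W σ z‖) ^ 2
      = 14 * (27 / 50) ^ 2 * r ^ 2 := by
    field_simp
  rw [this]
  nlinarith [sq_nonneg r]

theorem ratio_sq_le : (r / ‖Zfl W σ z‖) ^ 2 ≤ 1 / 100 := by
  have hp := w.norm_pos
  have h : r / ‖Zfl W σ z‖ ≤ 1 / 10 := by
    rw [div_le_iff₀ hp]; linarith [w.hfar]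
  have h0 : 0 ≤ r / ‖Zfl W σ z‖ := div_nonneg w.hr.le hp.le
  nlinarith

theorem im_le (hs : s ∈ Icc σ T) : (Zfl W s z).im ≤ (Zfl W σ z).im := by
  rw [Zfl_im, Zfl_im]
  exact im_anti (w.aliveS hs) w.hσ hs.1

theorem le_im (hs : s ∈ Icc σ T) :
    Real.exp (-(28 * (r / ‖Zfl W σ z‖) ^ 2)) * (Zfl W σ z).im ≤ (Zfl W s z).im := by
  rw [Zfl_im, Zfl_im, im_eq_exp_ath w.hW (w.aliveS hs), im_eq_exp_ath w.hW w.h]
  have h3 := w.ath_le hs
  have hz := w.h.im_pos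
  have : Real.exp (-(28 * (r / ‖Zfl W σ z‖) ^ 2)) * (z.im * Real.exp (-2 * OP.ath W σ z))
      = z.im * Real.exp (-(28 * (r / ‖Zfl W σ z‖) ^ 2) + -2 * OP.ath W σ z) := by
    rw [Real.exp_add]; ring
  rw [this]
  apply mul_le_mul_of_nonneg_left _ hz.le
  apply Real.exp_le_exp.2; linarith

theorem im_pos (hs : s ∈ Icc σ T) : 0 < (Zfl W s z).im := Zfl_im_pos (w.aliveS hs)

theorem norm_pos' (hs : s ∈ Icc σ T) : 0 < ‖Zfl W s z‖ := by
  have := w.five_le hs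
  have := w.hr
  linarith

theorem ups_le (hs : s ∈ Icc σ T) : OP.ups W s z ≤ OP.ups W σ z :=
  ups_anti w.hW (w.aliveS hs) w.hσ hs.1

theorem ups_pos (hs : s ∈ Icc σ T) : 0 < OP.ups W s z := FL.ups_pos (w.aliveS hs)

theorem int_le (hs : s ∈ Icc σ T) :
    ∫ u in σ..s, 4 * (Zfl W u z).im ^ 2 / ‖Zfl W u z‖ ^ 4 ≤ 56 * (r / ‖Zfl W σ z‖) ^ 2 := by
  have h1 := w.ath_le hs
  rw [ath_sub w.hW w.aliveT w.hσ hs.1 hs.2] at h1
  have h2 : ∫ u in σ..s, 4 * (Zfl W u z).im ^ 2 / ‖Zfl W u z‖ ^ 4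
      ≤ ∫ u in σ..s, 4 * (1 / ‖Zfl W u z‖ ^ 2) := by
    apply integral_mono_on hs.1
    · apply ContinuousOn.intervalIntegrable
      rw [uIcc_of_le hs.1]
      have hc : ContinuousOn (fun r => 4 * (Zfl W r z).im ^ 2 / ‖Zfl W r z‖ ^ 4) (Icc 0 T) := by
        refine ContinuousOn.div ?_ ((continuousOn_Zfl w.hW w.aliveT).norm.pow 4) ?_
        · exact continuousOn_const.mul
            ((Complex.continuous_im.comp_continuousOn (continuousOn_Zfl w.hW w.aliveT)).pow 2)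
        · exact fun r hr => pow_ne_zero _ (norm_Zfl_pos_of_mem w.aliveT hr).ne'
      exact hc.mono (Icc_subset_Icc w.hσ hs.2)
    · apply ContinuousOn.intervalIntegrable
      rw [uIcc_of_le hs.1]
      exact (continuousOn_const.mul (continuousOn_inv_norm_sq w.hW w.aliveT)).mono
        (Icc_subset_Icc w.hσ hs.2)
    · intro u hu
      have hu' : u ∈ Icc σ T := ⟨hu.1, hu.2.trans hs.2⟩
      have hp := w.norm_pos' hu'
      have h5 : (Zfl W u z).im ^ 2 ≤ ‖Zfl W u z‖ ^ 2 := by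
        rw [FL.norm_sq_eq]; nlinarith [sq_nonneg (Zfl W u z).re]
      rw [mul_one_div, div_le_div_iff₀ (by positivity) (by positivity)]
      have : ‖Zfl W u z‖ ^ 4 = ‖Zfl W u z‖ ^ 2 * ‖Zfl W u z‖ ^ 2 := by ring
      rw [this]
      have h6 : 0 ≤ ‖Zfl W u z‖ ^ 2 := by positivity
      nlinarith [mul_le_mul_of_nonneg_right h5 h6]
  rw [intervalIntegral.integral_const_mul] at h2
  linarith

theorem le_ups (hs : s ∈ Icc σ T) :
    Real.exp (-(56 * (r / ‖Zfl W σ z‖) ^ 2)) * OP.ups W σ z ≤ OP.ups W s z := by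
  have h1 := log_ups_sub w.hW w.aliveT w.hσ hs.1 hs.2
  have h2 := w.int_le hs
  have hu := w.ups_pos hs
  have hu0 := w.ups_pos (s := σ) ⟨le_rfl, w.hσT⟩
  calc Real.exp (-(56 * (r / ‖Zfl W σ z‖) ^ 2)) * OP.ups W σ z
      = Real.exp (-(56 * (r / ‖Zfl W σ z‖) ^ 2) + Real.log (OP.ups W σ z)) := by
        rw [Real.exp_add, Real.exp_log hu0]
    _ ≤ Real.exp (Real.log (OP.ups W s z)) := by
        apply Real.exp_le_exp.2
        linarith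
    _ = OP.ups W s z := Real.exp_log hu

theorem sfl_le (hs : s ∈ Icc σ T) : OP.sfl W s z ≤ 2 * OP.sfl W σ z := by
  unfold OP.sfl
  have hp := w.norm_pos
  have hp' := w.norm_pos' hs
  have h1 := w.im_le hs
  have h2 := w.le_norm hs
  have h3 := w.im_pos hs
  rw [← mul_div_assoc, div_le_div_iff₀ hp' hp]
  nlinarith [mul_le_mul h1 h2 (by positivity) (h3.le.trans h1),
    mul_pos (h3.trans_le h1) hp']

theorem le_sfl (hs : s ∈ Icc σ T) : 12 / 25 * OP.sfl W σ z ≤ OP.sfl W s z := by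
  unfold OP.sfl
  have hp := w.norm_pos
  have hp' := w.norm_pos' hs
  have h1 := w.le_im hs
  have h2 := w.norm_le hs
  have h0 := w.im_pos (s := σ) ⟨le_rfl, w.hσT⟩
  have h4 : (18 / 25 : ℝ) ≤ Real.exp (-(28 * (r / ‖Zfl W σ z‖) ^ 2)) := by
    have h5 := w.ratio_sq_le
    have h6 := Real.add_one_le_exp (-(28 * (r / ‖Zfl W σ z‖) ^ 2))
    linarith
  have h7 : 18 / 25 * (Zfl W σ z).im ≤ (Zfl W s z).im := by
    refine le_trans ?_ h1
    exact mul_le_mul_of_nonneg_right h4 h0.le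
  rw [← mul_div_assoc, div_le_div_iff₀ hp hp']
  nlinarith [mul_le_mul_of_nonneg_left h2 h0.le, mul_le_mul_of_nonneg_right h7 hp.le,
    mul_pos h0 hp]

theorem sfl_pos (hs : s ∈ Icc σ T) : 0 < OP.sfl W s z := div_pos (w.im_pos hs) (w.norm_pos' hs)

/-- `Υ_σ ≤ 3 Υ_s` -/
theorem ups_le' (hs : s ∈ Icc σ T) : OP.ups W σ z ≤ 3 * OP.ups W s z := by
  have h1 := w.le_ups hs
  have h4 : (11 / 25 : ℝ) ≤ Real.exp (-(56 * (r / ‖Zfl W σ z‖) ^ 2)) := by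
    have h5 := w.ratio_sq_le
    have h6 := Real.add_one_le_exp (-(56 * (r / ‖Zfl W σ z‖) ^ 2))
    linarith
  have h7 := w.ups_pos (s := σ) ⟨le_rfl, w.hσT⟩
  nlinarith [mul_le_mul_of_nonneg_right h4 h7.le]

/-- Green's function changes by a bounded factor (with the dilation factor `a`) -/
theorem green_le {κ a : ℝ} (hκ : 0 < κ) (hκ8 : κ < 8) (ha : 0 < a) (hs : s ∈ Icc σ T) :
    (a * OP.ups W s z) ^ (κ / 8 - 1) * OP.sfl W s z ^ (8 / κ - 1)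
      ≤ 3 ^ (1 - κ / 8) * 2 ^ (8 / κ - 1)
        * ((a * OP.ups W σ z) ^ (κ / 8 - 1) * OP.sfl W σ z ^ (8 / κ - 1)) := by
  have hb : 0 ≤ 8 / κ - 1 := by
    rw [sub_nonneg, le_div_iff₀ hκ]; linarith
  have ha' : 0 ≤ 1 - κ / 8 := by linarith
  have hu := w.ups_pos hs
  have hu0 := w.ups_pos (s := σ) ⟨le_rfl, w.hσT⟩
  have h1 : (a * OP.ups W s z) ^ (κ / 8 - 1)
      ≤ 3 ^ (1 - κ / 8) * (a * OP.ups W σ z) ^ (κ / 8 - 1) := by
    have e1 : κ / 8 - 1 = -(1 - κ / 8) := by ring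
    have hau : 0 < a * OP.ups W s z := mul_pos ha hu
    have hau0 : 0 < a * OP.ups W σ z := mul_pos ha hu0
    rw [e1, Real.rpow_neg hau.le, Real.rpow_neg hau0.le]
    have h2 : (a * OP.ups W σ z) ^ (1 - κ / 8) ≤ 3 ^ (1 - κ / 8) * (a * OP.ups W s z) ^ (1 - κ / 8) := by
      rw [← Real.mul_rpow (by norm_num) hau.le]
      refine Real.rpow_le_rpow hau0.le ?_ ha'
      have := w.ups_le' hs
      nlinarith
    have h3 : 0 < (a * OP.ups W σ z) ^ (1 - κ / 8) := Real.rpow_pos_of_pos hau0 _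
    have h4 : 0 < (a * OP.ups W s z) ^ (1 - κ / 8) := Real.rpow_pos_of_pos hau _
    rw [← div_eq_mul_inv, le_div_iff₀ h3, inv_mul_le_iff₀ h4]
    linarith
  have h2 : OP.sfl W s z ^ (8 / κ - 1) ≤ 2 ^ (8 / κ - 1) * OP.sfl W σ z ^ (8 / κ - 1) := by
    have hu := w.sfl_pos hs
    have hu0 := w.sfl_pos (s := σ) ⟨le_rfl, w.hσT⟩
    rw [← Real.mul_rpow (by norm_num) hu0.le]
    exact Real.rpow_le_rpow hu.le (w.sfl_le hs) hb
  have h3 : 0 ≤ OP.sfl W s z ^ (8 / κ - 1) := Real.rpow_nonneg (w.sfl_pos hs).le _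
  have h4 : 0 ≤ (a * OP.ups W σ z) ^ (κ / 8 - 1) := Real.rpow_nonneg (mul_pos ha hu0).le _
  calc (a * OP.ups W s z) ^ (κ / 8 - 1) * OP.sfl W s z ^ (8 / κ - 1)
      ≤ (3 ^ (1 - κ / 8) * (a * OP.ups W σ z) ^ (κ / 8 - 1))
        * (2 ^ (8 / κ - 1) * OP.sfl W σ z ^ (8 / κ - 1)) := by
        apply mul_le_mul h1 h2 h3
        exact mul_nonneg (Real.rpow_nonneg (by norm_num) _) h4
    _ = _ := by ring

end Win

/-- the form asked by helper268 -/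
theorem far_kin {W : ℝ → ℝ} (hW : ContinuousOn W (Ici 0)) {ρ t1 t2 : ℝ} (hρ : 0 < ρ) (h1 : 0 ≤ t1)
    (h12 : t1 ≤ t2) (ht2 : t2 - t1 ≤ 4 * ρ ^ 2) (hWb : ∀ s ∈ Icc t1 t2, |W s - W t1| ≤ 3 * ρ)
    {z : ℂ} (hz : Alive W z t1) (hfar : 10 * ρ < ‖Zfl W t1 z‖) :
    Alive W z t2 ∧ ∀ s ∈ Icc t1 t2, ‖Zfl W t1 z‖ / 2 ≤ ‖Zfl W s z‖ ∧
      OP.sfl W s z ≤ 2 * OP.sfl W t1 z ∧ OP.ups W t1 z ≤ 3 * OP.ups W s z := by
  have w : Win W z t1 t2 ρ := ⟨hW, h1, h12, hz, hρ, ht2, hWb, hfar.le⟩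
  refine ⟨w.aliveT, fun s hs => ⟨?_, w.sfl_le hs, w.ups_le' hs⟩⟩
  have := w.le_norm hs
  have := w.norm_pos
  linarith

open Classical in
/-- the increment of the content carried by a far point -/
theorem far_incr {W : ℝ → ℝ} (hW : ContinuousOn W (Ici 0)) {ρ t1 t2 : ℝ} (hρ : 0 < ρ) (h1 : 0 ≤ t1)
    (h12 : t1 ≤ t2) (ht2 : t2 - t1 ≤ 4 * ρ ^ 2) (hWb : ∀ s ∈ Icc t1 t2, |W s - W t1| ≤ 3 * ρ)
    {z : ℂ} (hz : Alive W z t1) (hfar : 10 * ρ < ‖Zfl W t1 z‖)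
    {χ : ℝ → ℝ} {Cχ : ℝ} (hχ0 : ∀ x, 0 ≤ χ x) (hχC : ∀ x, χ x ≤ Cχ) {κ a c1 ε : ℝ}
    (hκ : 0 < κ) (hκ8 : κ < 8) (ha : 0 < a) :
    ∫⁻ s in Ioc t1 t2, ENNReal.ofReal (χ (a * OP.ups W s z / ε) *
        ((a * OP.ups W s z) ^ (κ / 8 - 1) * (OP.sfl W s z) ^ (8 / κ - 1)) *
        (if c1 ≤ OP.sfl W s z then 1 else 0) * (4 * (OP.sfl W s z) ^ 2 / ‖Zfl W s z‖ ^ 2))
      ≤ ENNReal.ofReal ((256 * Cχ * (3 ^ (1 - κ / 8) * 2 ^ (8 / κ - 1)))
        * ((a * OP.ups W t1 z) ^ (κ / 8 - 1) * (OP.sfl W t1 z) ^ (8 / κ - 1))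
        * (ρ / ‖Zfl W t1 z‖) ^ 2) := by
  have w : Win W z t1 t2 ρ := ⟨hW, h1, h12, hz, hρ, ht2, hWb, hfar.le⟩
  set G0 : ℝ := (a * OP.ups W t1 z) ^ (κ / 8 - 1) * (OP.sfl W t1 z) ^ (8 / κ - 1) with hG0
  set K : ℝ := 3 ^ (1 - κ / 8) * 2 ^ (8 / κ - 1) with hK
  have hC0 : 0 ≤ Cχ := (hχ0 0).trans (hχC 0)
  have hu0 := w.ups_pos (s := t1) ⟨le_rfl, h12⟩
  have hs0 := w.sfl_pos (s := t1) ⟨le_rfl, h12⟩
  have hG0pos : 0 ≤ G0 := by
    apply mul_nonneg (Real.rpow_nonneg (mul_pos ha hu0).le _) (Real.rpow_nonneg hs0.le _)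
  have hKpos : 0 ≤ K := by positivity
  have hZ := w.norm_pos
  have hpt : ∀ s ∈ Ioc t1 t2, χ (a * OP.ups W s z / ε) *
        ((a * OP.ups W s z) ^ (κ / 8 - 1) * (OP.sfl W s z) ^ (8 / κ - 1)) *
        (if c1 ≤ OP.sfl W s z then 1 else 0) * (4 * (OP.sfl W s z) ^ 2 / ‖Zfl W s z‖ ^ 2)
      ≤ Cχ * (K * G0) * (64 / ‖Zfl W t1 z‖ ^ 2) := by
    intro s hs
    have hs' : s ∈ Icc t1 t2 := ⟨hs.1.le, hs.2⟩
    have hus := w.ups_pos hs'
    have hss := w.sfl_pos hs'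
    have e1 := w.green_le hκ hκ8 ha hs'
    have hGs : 0 ≤ (a * OP.ups W s z) ^ (κ / 8 - 1) * (OP.sfl W s z) ^ (8 / κ - 1) :=
      mul_nonneg (Real.rpow_nonneg (mul_pos ha hus).le _) (Real.rpow_nonneg hss.le _)
    have e2 : (if c1 ≤ OP.sfl W s z then (1:ℝ) else 0) ≤ 1 := by split_ifs <;> norm_num
    have e2' : (0:ℝ) ≤ (if c1 ≤ OP.sfl W s z then (1:ℝ) else 0) := by split_ifs <;> norm_num
    have hsle : OP.sfl W s z ≤ 1 := by
      unfold OP.sfl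
      rw [div_le_one (w.norm_pos' hs')]
      exact (le_abs_self _).trans (Complex.abs_im_le_norm _)
    have e3 : 4 * (OP.sfl W s z) ^ 2 / ‖Zfl W s z‖ ^ 2 ≤ 64 / ‖Zfl W t1 z‖ ^ 2 := by
      have hn := w.le_norm hs'
      have hn2 : ‖Zfl W t1 z‖ ^ 2 ≤ 4 * ‖Zfl W s z‖ ^ 2 := by nlinarith
      rw [div_le_div_iff₀ (pow_pos (w.norm_pos' hs') 2) (pow_pos hZ 2)]
      have : (OP.sfl W s z) ^ 2 ≤ 1 := by nlinarith
      nlinarith [mul_le_mul this hn2 (by positivity) (by norm_num)]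
    have e3' : 0 ≤ 4 * (OP.sfl W s z) ^ 2 / ‖Zfl W s z‖ ^ 2 := by positivity
    have f1 : χ (a * OP.ups W s z / ε) *
        ((a * OP.ups W s z) ^ (κ / 8 - 1) * (OP.sfl W s z) ^ (8 / κ - 1)) ≤ Cχ * (K * G0) :=
      mul_le_mul (hχC _) e1 hGs hC0
    have f1' : 0 ≤ χ (a * OP.ups W s z / ε) *
        ((a * OP.ups W s z) ^ (κ / 8 - 1) * (OP.sfl W s z) ^ (8 / κ - 1)) := mul_nonneg (hχ0 _) hGs
    have f2 : χ (a * OP.ups W s z / ε) *
        ((a * OP.ups W s z) ^ (κ / 8 - 1) * (OP.sfl W s z) ^ (8 / κ - 1)) *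
        (if c1 ≤ OP.sfl W s z then 1 else 0) ≤ Cχ * (K * G0) := by
      calc _ ≤ χ (a * OP.ups W s z / ε) *
        ((a * OP.ups W s z) ^ (κ / 8 - 1) * (OP.sfl W s z) ^ (8 / κ - 1)) * 1 :=
            mul_le_mul_of_nonneg_left e2 f1'
        _ ≤ _ := by rw [mul_one]; exact f1
    exact mul_le_mul f2 e3 e3' (by positivity)
  calc ∫⁻ s in Ioc t1 t2, ENNReal.ofReal (χ (a * OP.ups W s z / ε) *
        ((a * OP.ups W s z) ^ (κ / 8 - 1) * (OP.sfl W s z) ^ (8 / κ - 1)) *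
        (if c1 ≤ OP.sfl W s z then 1 else 0) * (4 * (OP.sfl W s z) ^ 2 / ‖Zfl W s z‖ ^ 2))
      ≤ ∫⁻ s in Ioc t1 t2, ENNReal.ofReal (Cχ * (K * G0) * (64 / ‖Zfl W t1 z‖ ^ 2)) := by
        apply setLIntegral_mono' measurableSet_Ioc
        intro s hs
        exact ENNReal.ofReal_le_ofReal (hpt s hs)
    _ = ENNReal.ofReal (Cχ * (K * G0) * (64 / ‖Zfl W t1 z‖ ^ 2)) * ENNReal.ofReal (t2 - t1) := by
        rw [setLIntegral_const, Real.volume_Ioc]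
    _ = ENNReal.ofReal (Cχ * (K * G0) * (64 / ‖Zfl W t1 z‖ ^ 2) * (t2 - t1)) := by
        exact (ENNReal.ofReal_mul (by positivity)).symm
    _ ≤ ENNReal.ofReal (256 * Cχ * K * G0 * (ρ / ‖Zfl W t1 z‖) ^ 2) := by
        apply ENNReal.ofReal_le_ofReal
        have h5 : Cχ * (K * G0) * (64 / ‖Zfl W t1 z‖ ^ 2) * (t2 - t1)
            ≤ Cχ * (K * G0) * (64 / ‖Zfl W t1 z‖ ^ 2) * (4 * ρ ^ 2) :=
          mul_le_mul_of_nonneg_left ht2 (by positivity)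
        refine h5.trans (le_of_eq ?_)
        rw [div_pow]; ring

end Crest.Agent.R162.LB3bFar
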