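import Mathlib
import Crest.Agent.R162.LBDefs
import Crest.Agent.R162.LB3bFar
import Crest.Agent.R162.FLE2
import Crest.Agent.R162.OS

/-!
Row 162 (S0243), node LB3b, fourth part (helper268): the content of one point collected in a scale
window, in expectation.
-/

set_option autoImplicit false

open MeasureTheory Set
open scoped ENNReal NNReal
open Crest.ProbabilityR.Loewner

namespace Crest.Agent.R162.LB3b

open Crest.Agent.R162.FL Crest.Agent.R162.OP Crest.Agent.R162.OS Crest.Agent.R162.FLD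

universe u

/-- Green weight of a point, state map with `|f'(z)| = lam`. -/
noncomputable def Gw (κ lam : ℝ) (W : ℝ → ℝ) (s : ℝ) (z : ℂ) : ℝ :=
  (lam * ups W s z) ^ (κ / 8 - 1) * sfl W s z ^ (8 / κ - 1)

/-- LB-CONTENT (b): the content collected in `(σ, τ]` is at most the Green weight at `σ`. -/
def ContB (κ : ℝ) (Cb : ℝ) : Prop :=
  ∀ {Ω : Type u} {m : MeasurableSpace Ω} {P : Measure Ω} [IsProbabilityMeasure P]
    {F : Filtration ℝ≥0 m} {B : ℝ≥0 → Ω → ℝ} (_ : IsBM F B P) {ε c1 lam : ℝ} (_ : 0 < ε)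
    (_ : 0 < lam) {z : ℂ} (_ : 0 < z.im) {σ τ : Ω → ℝ≥0} (_ : IsST F σ) (_ : IsST F τ)
    (_ : ∀ ω, σ ω ≤ τ ω) {T : ℝ≥0} (_ : ∀ ω, τ ω ≤ T) {A : Set Ω} (_ : EvST F σ A),
    ∫⁻ ω in A, LB.cz κ ε c1 lam (driving κ B ω) (Ioc (σ ω : ℝ) (τ ω)) z ∂P
      ≤ ENNReal.ofReal Cb * ∫⁻ ω in A ∩ {ω | Alive (driving κ B ω) z (σ ω)},
        ENNReal.ofReal (Gw κ lam (driving κ B ω) (σ ω) z) ∂P

theorem Gw_nonneg {κ lam : ℝ} (hlam : 0 ≤ lam) {W : ℝ → ℝ} {s : ℝ} {z : ℂ} (hz : Alive W z s) :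
    0 ≤ Gw κ lam W s z := by
  unfold Gw
  have h1 := FL.ups_nonneg W s z
  have h2 : 0 ≤ sfl W s z := div_nonneg (Zfl_im_pos hz).le (norm_nonneg _)
  positivity

/-- the constant of one point -/
noncomputable def C1 (κ Cb : ℝ) : ℝ :=
  100 * Cb + 256 * (Real.log 2)⁻¹ * (3 ^ (1 - κ / 8) * 2 ^ (8 / κ - 1))

/-- one point, one window -/
theorem one_point {κ Cb : ℝ} (hκ : 0 < κ) (hκ8 : κ < 8) (hCb : 0 ≤ Cb) (hLBC : ContB.{u} κ Cb)
    {Ω : Type u} {m : MeasurableSpace Ω} {P : Measure Ω} [IsProbabilityMeasure P]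
    {F : Filtration ℝ≥0 m} {B : ℝ≥0 → Ω → ℝ} (hB : IsBM F B P) {ε c1 lam : ℝ} (hε : 0 < ε)
    (hlam : 0 < lam) {z : ℂ} (hz : 0 < z.im) {ρ : ℝ} (hρ : 0 < ρ) {σ τ : Ω → ℝ≥0}
    (hσ : IsST F σ) (hτ : IsST F τ) (hστ : ∀ ω, σ ω ≤ τ ω) {T : ℝ≥0} (hT : ∀ ω, τ ω ≤ T)
    (hdur : ∀ ω, (τ ω : ℝ) - σ ω ≤ 4 * ρ ^ 2)
    (hosc : ∀ ω, ∀ s ∈ Icc (σ ω : ℝ) (τ ω), |driving κ B ω s - driving κ B ω (σ ω)| ≤ 3 * ρ)
    {A : Set Ω} (hA : EvST F σ A) :
    ∫⁻ ω in A, LB.cz κ ε c1 lam (driving κ B ω) (Ioc (σ ω : ℝ) (τ ω)) z ∂P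
      ≤ ENNReal.ofReal (C1 κ Cb) * ∫⁻ ω in A ∩ {ω | Alive (driving κ B ω) z (σ ω)},
        ENNReal.ofReal (Gw κ lam (driving κ B ω) (σ ω) z
          * min 1 ((ρ / ‖Zfl (driving κ B ω) (σ ω) z‖) ^ 2)) ∂P := by
  classical
  set Al : Set Ω := {ω | Alive (driving κ B ω) z (σ ω)} with hAl
  set Fr : Set Ω := Al ∩ {ω | Zfl (driving κ B ω) (σ ω) z ∈ {w : ℂ | 10 * ρ < ‖w‖}} with hFr
  have hAlE : EvST F σ Al := evST_alive hB κ z hσ
  have hFrE : EvST F σ Fr := evST_inter hAlE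
    (evST_Zfl hB κ z (measurableSet_lt measurable_const measurable_norm) hσ)
  have hAm : MeasurableSet A := hA.measurableSet
  have hFrm : MeasurableSet Fr := hFrE.measurableSet
  have hAlm : MeasurableSet Al := hAlE.measurableSet
  set Cf : ℝ := 256 * (Real.log 2)⁻¹ * (3 ^ (1 - κ / 8) * 2 ^ (8 / κ - 1)) with hCf
  have hlog : 0 < Real.log 2 := Real.log_pos (by norm_num)
  have hCf0 : 0 ≤ Cf := by positivity
  set g : Ω → ℝ := fun ω => Gw κ lam (driving κ B ω) (σ ω) z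
          * min 1 ((ρ / ‖Zfl (driving κ B ω) (σ ω) z‖) ^ 2) with hg
  have hcont : ∀ ω, ContinuousOn (driving κ B ω) (Ici 0) := fun ω =>
    (driving_cont hB κ ω).continuousOn
  -- far points
  have hfar : ∫⁻ ω in A ∩ Fr, LB.cz κ ε c1 lam (driving κ B ω) (Ioc (σ ω : ℝ) (τ ω)) z ∂P
      ≤ ENNReal.ofReal Cf * ∫⁻ ω in A ∩ Al, ENNReal.ofReal (g ω) ∂P := by
    calc ∫⁻ ω in A ∩ Fr, LB.cz κ ε c1 lam (driving κ B ω) (Ioc (σ ω : ℝ) (τ ω)) z ∂P
        ≤ ∫⁻ ω in A ∩ Fr, ENNReal.ofReal Cf * ENNReal.ofReal (g ω) ∂P := by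
          refine setLIntegral_mono' (hAm.inter hFrm) fun ω hω => ?_
          have hal : Alive (driving κ B ω) z (σ ω) := hω.2.1
          have hff : 10 * ρ < ‖Zfl (driving κ B ω) (σ ω) z‖ := hω.2.2
          have h1 := LB3bFar.far_incr (hcont ω) hρ (σ ω).2
            (by exact_mod_cast hστ ω) (hdur ω) (hosc ω) hal hff (χ := LB.chi)
            (Cχ := (Real.log 2)⁻¹) LB.chi_nonneg LB.chi_le (κ := κ) (a := lam) (c1 := c1)
            (ε := ε) hκ hκ8 hlam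
          have h2 : LB.cz κ ε c1 lam (driving κ B ω) (Ioc (σ ω : ℝ) (τ ω)) z
              = ∫⁻ s in Ioc (σ ω : ℝ) (τ ω), ENNReal.ofReal (LB.chi (lam * OP.ups (driving κ B ω) s z / ε) *
        ((lam * OP.ups (driving κ B ω) s z) ^ (κ / 8 - 1) * (OP.sfl (driving κ B ω) s z) ^ (8 / κ - 1)) *
        (if c1 ≤ OP.sfl (driving κ B ω) s z then 1 else 0) * (4 * (OP.sfl (driving κ B ω) s z) ^ 2 / ‖Zfl (driving κ B ω) s z‖ ^ 2)) := by
            unfold LB.cz LB.cd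
            refine lintegral_congr fun s => ?_
            rw [mul_assoc (LB.chi _)]
          rw [h2]
          refine h1.trans ?_
          rw [← ENNReal.ofReal_mul hCf0]
          refine ENNReal.ofReal_le_ofReal ?_
          have hr : (ρ / ‖Zfl (driving κ B ω) (σ ω) z‖) ^ 2 ≤ 1 := by
            have hpos : 0 < ‖Zfl (driving κ B ω) (σ ω) z‖ := by linarith
            have : ρ / ‖Zfl (driving κ B ω) (σ ω) z‖ ≤ 1 := by
              rw [div_le_one hpos]; linarith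
            exact pow_le_one₀ (by positivity) this
          have e : g ω = Gw κ lam (driving κ B ω) (σ ω) z
              * (ρ / ‖Zfl (driving κ B ω) (σ ω) z‖) ^ 2 := by
            simp only [hg]
            rw [min_eq_right hr]
          rw [e, hCf]
          exact le_of_eq (mul_assoc _ _ _)
      _ = ENNReal.ofReal Cf * ∫⁻ ω in A ∩ Fr, ENNReal.ofReal (g ω) ∂P :=
          lintegral_const_mul' _ _ ENNReal.ofReal_ne_top
      _ ≤ _ := by
          refine mul_le_mul_right ?_ _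
          exact lintegral_mono_set (inter_subset_inter_right _ inter_subset_left)
  -- near points
  have hnear : ∫⁻ ω in A ∩ Frᶜ, LB.cz κ ε c1 lam (driving κ B ω) (Ioc (σ ω : ℝ) (τ ω)) z ∂P
      ≤ ENNReal.ofReal (100 * Cb) * ∫⁻ ω in A ∩ Al, ENNReal.ofReal (g ω) ∂P := by
    have h1 := hLBC hB (ε := ε) (c1 := c1) hε hlam hz hσ hτ hστ hT
      (hA.inter (EvST.compl hσ hFrE))
    refine h1.trans ?_
    rw [mul_comm (100 : ℝ) Cb, ENNReal.ofReal_mul hCb, mul_assoc]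
    refine mul_le_mul_right ?_ _
    rw [← lintegral_const_mul' _ _ ENNReal.ofReal_ne_top]
    refine (setLIntegral_mono' ((hAm.inter hFrm.compl).inter hAlm) fun ω hω => ?_).trans
      (lintegral_mono_set ?_)
    · have hal : Alive (driving κ B ω) z (σ ω) := hω.2
      have hn : ‖Zfl (driving κ B ω) (σ ω) z‖ ≤ 10 * ρ := by
        by_contra hcon
        exact hω.1.2 ⟨hal, lt_of_not_ge hcon⟩
      have hZ : 0 < ‖Zfl (driving κ B ω) (σ ω) z‖ := norm_pos_iff.2 (Zfl_ne_zero hal)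
      rw [← ENNReal.ofReal_mul (by norm_num)]
      refine ENNReal.ofReal_le_ofReal ?_
      have hG := Gw_nonneg (κ := κ) hlam.le hal
      have hm : (1 / 100 : ℝ) ≤ min 1 ((ρ / ‖Zfl (driving κ B ω) (σ ω) z‖) ^ 2) := by
        refine le_min (by norm_num) ?_
        have : (1 / 10 : ℝ) ≤ ρ / ‖Zfl (driving κ B ω) (σ ω) z‖ := by
          rw [le_div_iff₀ hZ]; linarith
        calc (1 / 100 : ℝ) = (1 / 10) ^ 2 := by norm_num
          _ ≤ _ := pow_le_pow_left₀ (by norm_num) this 2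
      simp only [hg]
      nlinarith [mul_le_mul_of_nonneg_left hm hG]
    · intro ω hω
      exact ⟨hω.1.1, hω.2⟩
  calc ∫⁻ ω in A, LB.cz κ ε c1 lam (driving κ B ω) (Ioc (σ ω : ℝ) (τ ω)) z ∂P
      = ∫⁻ ω in A ∩ Fr, LB.cz κ ε c1 lam (driving κ B ω) (Ioc (σ ω : ℝ) (τ ω)) z ∂P
        + ∫⁻ ω in A ∩ Frᶜ, LB.cz κ ε c1 lam (driving κ B ω) (Ioc (σ ω : ℝ) (τ ω)) z ∂P := by
        rw [← lintegral_inter_add_sdiff _ A hFrm]
        rfl
    _ ≤ ENNReal.ofReal Cf * ∫⁻ ω in A ∩ Al, ENNReal.ofReal (g ω) ∂P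
        + ENNReal.ofReal (100 * Cb) * ∫⁻ ω in A ∩ Al, ENNReal.ofReal (g ω) ∂P :=
        add_le_add hfar hnear
    _ = ENNReal.ofReal (C1 κ Cb) * ∫⁻ ω in A ∩ Al, ENNReal.ofReal (g ω) ∂P := by
        rw [← add_mul, ← ENNReal.ofReal_add hCf0 (by positivity)]
        congr 2
        unfold C1
        rw [hCf]
        ring

end Crest.Agent.R162.LB3b
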