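import Mathlib
import Crest.Agent.R162.KB1

/-!
Row 162 (S0243), node LB3b: the conformal radius of `f` at `z` is bounded by the distance of `f z`
to the image of a short piece of the imaginary axis (the curve at its tip).
-/

set_option autoImplicit false

namespace Crest.Agent.R162.LB3bAx

open Complex Set Metric Filter Topology
open Crest.Agent.R162.KB1

/-- if `f (iy)` stays in the ball `closedBall x r1` as `y ↓ 0`, then that ball is not contained in
a compact part of the image; so `ups f z ≤ 2 (‖f z - x‖ + r1)`. -/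
theorem ups_le_of_axis {f : ℂ → ℂ} (hf : DifferentiableOn ℂ f Hs) (hfi : InjOn f Hs)
    {x : ℂ} {r1 y0 : ℝ} (hy0 : 0 < y0)
    (hax : ∀ y ∈ Ioc 0 y0, ‖f (y * Complex.I) - x‖ ≤ r1) {z : ℂ} (hz : z ∈ Hs) :
    ups f z ≤ 2 * (‖f z - x‖ + r1) := by
  by_contra hcon
  push Not at hcon
  have hsub : closedBall x r1 ⊆ f '' Hs := by
    intro w hw
    apply ball_subset_image hf hfi hz
    rw [mem_ball, dist_eq_norm]
    have h1 : ‖w - x‖ ≤ r1 := by
      rw [← dist_eq_norm]; exact mem_closedBall.1 hw
    have h2 : ‖w - f z‖ ≤ ‖w - x‖ + ‖f z - x‖ := by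
      have h3 := norm_sub_le (w - x) (f z - x)
      have h4 : w - x - (f z - x) = w - f z := by ring
      rwa [h4] at h3
    linarith
  obtain ⟨g, hgd, -, hgim, hgl, hgr⟩ := Crest.Agent.Lib.exists_holomorphic_inverse isOpen_Hs hf hfi
  have hgc : ContinuousOn g (closedBall x r1) := hgd.continuousOn.mono hsub
  have hcomp : IsCompact (closedBall x r1) := isCompact_closedBall x r1
  have hmemax : ∀ y ∈ Ioc 0 y0, f (y * Complex.I) ∈ closedBall x r1 := by
    intro y hy
    rw [mem_closedBall, dist_eq_norm]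
    exact hax y hy
  have hne : (closedBall x r1).Nonempty := ⟨_, hmemax y0 ⟨hy0, le_rfl⟩⟩
  obtain ⟨w0, hw0, hmin⟩ := hcomp.exists_isMinOn hne
    (Complex.continuous_im.comp_continuousOn hgc)
  have hpos : 0 < (g w0).im := by
    have : g w0 ∈ g '' (f '' Hs) := mem_image_of_mem g (hsub hw0)
    rw [hgim] at this
    exact this
  set y : ℝ := min y0 ((g w0).im / 2) with hy
  have hy1 : 0 < y := lt_min hy0 (by positivity)
  have hy2 : y ≤ y0 := min_le_left _ _
  have hy3 : y ≤ (g w0).im / 2 := min_le_right _ _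
  have hyH : ((y : ℂ) * Complex.I) ∈ Hs := by
    show 0 < ((y : ℂ) * Complex.I).im
    simpa using hy1
  have h5 := hmin (hmemax y ⟨hy1, hy2⟩)
  simp only [Set.mem_ofPred_eq, Function.comp_apply] at h5
  rw [hgl _ hyH] at h5
  have h6 : ((y : ℂ) * Complex.I).im = y := by simp
  rw [h6] at h5
  linarith

end Crest.Agent.R162.LB3bAx
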