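import Crest.Agent.R162.OS5b

/-!
Row 162, node OS5c (helper430): the running maximum `runMax B u = max_{t ≤ u} |B t|`, its tail and
its fourth moment; conditional (past-independent) form.
-/

set_option autoImplicit false

open MeasureTheory ProbabilityTheory Filter Topology Set
open scoped NNReal ENNReal

noncomputable section

namespace Crest.Agent.R162.OS

variable {Ω : Type*} {m : MeasurableSpace Ω} {P : Measure Ω}

/-- running maximum of `|B|` on `[0,u]`. -/
def runMax (B : ℝ≥0 → Ω → ℝ) (u : ℝ≥0) (ω : Ω) : ℝ :=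
  ⨆ q : ℚ, |B (u * Real.toNNReal (min (q : ℝ) 1)) ω|

section

variable {F : Filtration ℝ≥0 m} {B : ℝ≥0 → Ω → ℝ}

lemma runMax_arg_le (u : ℝ≥0) (r : ℝ) : u * Real.toNNReal (min r 1) ≤ u := by
  have : Real.toNNReal (min r 1) ≤ 1 := by
    rw [Real.toNNReal_le_one]; exact min_le_right _ _
  calc u * Real.toNNReal (min r 1) ≤ u * 1 := by gcongr
    _ = u := mul_one u

lemma runMax_bdd {ω : Ω} (hc : Continuous fun t => B t ω) (u : ℝ≥0) :
    ∃ t ≤ u, ∀ s ≤ u, |B s ω| ≤ |B t ω| := by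
  obtain ⟨t, ht, hmax⟩ := (isCompact_Icc (a := (0 : ℝ≥0)) (b := u)).exists_isMaxOn
    ⟨0, ⟨le_rfl, zero_le⟩⟩ (hc.abs.continuousOn)
  exact ⟨t, ht.2, fun s hs => hmax ⟨zero_le, hs⟩⟩

lemma le_runMax {ω : Ω} (hc : Continuous fun t => B t ω) {t u : ℝ≥0} (ht : t ≤ u) :
    |B t ω| ≤ runMax B u ω := by
  obtain ⟨t0, ht0, hmax⟩ := runMax_bdd hc u
  have hbdd : BddAbove (range fun q : ℚ => |B (u * Real.toNNReal (min (q : ℝ) 1)) ω|) := by
    refine ⟨|B t0 ω|, ?_⟩
    rintro _ ⟨q, rfl⟩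
    exact hmax _ (runMax_arg_le u q)
  have hφ : Continuous fun r : ℝ => |B (u * Real.toNNReal (min r 1)) ω| := by
    refine (hc.comp ?_).abs
    exact continuous_const.mul (continuous_real_toNNReal.comp (by fun_prop))
  have hall : ∀ r : ℝ, |B (u * Real.toNNReal (min r 1)) ω| ≤ runMax B u ω := by
    intro r
    have hcl : IsClosed {r : ℝ | |B (u * Real.toNNReal (min r 1)) ω| ≤ runMax B u ω} :=
      isClosed_le hφ continuous_const
    have hsub : range ((↑) : ℚ → ℝ) ⊆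
        {r : ℝ | |B (u * Real.toNNReal (min r 1)) ω| ≤ runMax B u ω} := by
      rintro _ ⟨q, rfl⟩
      exact le_ciSup hbdd q
    have := hcl.closure_subset_iff.2 hsub
    rw [Rat.denseRange_cast.closure_range] at this
    exact this (mem_univ r)
  rcases eq_or_ne u 0 with hu | hu
  · have : t = 0 := le_antisymm (hu ▸ ht) zero_le
    have h1 := hall 0
    rw [hu, zero_mul] at h1
    rw [this]
    rw [hu]
    exact h1
  · have h1 := hall ((t : ℝ) / u)
    have hu' : (0 : ℝ) < u := NNReal.coe_pos.2 (pos_iff_ne_zero.2 hu)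
    have h2 : min ((t : ℝ) / u) 1 = (t : ℝ) / u := by
      rw [min_eq_left]
      rw [div_le_one hu']
      exact_mod_cast ht
    have h3 : u * Real.toNNReal (min ((t : ℝ) / u) 1) = t := by
      rw [h2, Real.toNNReal_div' (NNReal.coe_nonneg u), Real.toNNReal_coe, Real.toNNReal_coe]
      field_simp
    rwa [h3] at h1

lemma runMax_nonneg {ω : Ω} (hc : Continuous fun t => B t ω) (u : ℝ≥0) : 0 ≤ runMax B u ω :=
  (abs_nonneg _).trans (le_runMax hc (zero_le : (0 : ℝ≥0) ≤ u))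

lemma le_runMax_iff {ω : Ω} (hc : Continuous fun t => B t ω) {u : ℝ≥0} {x : ℝ} :
    x ≤ runMax B u ω ↔ ∃ t ≤ u, x ≤ |B t ω| := by
  constructor
  · intro h
    obtain ⟨t0, ht0, hmax⟩ := runMax_bdd hc u
    refine ⟨t0, ht0, h.trans ?_⟩
    exact ciSup_le fun q => hmax _ (runMax_arg_le u q)
  · rintro ⟨t, ht, h⟩
    exact h.trans (le_runMax hc ht)

lemma runMax_le {ω : Ω} {u : ℝ≥0} {x : ℝ} (h : ∀ t ≤ u, |B t ω| ≤ x) : runMax B u ω ≤ x :=
  ciSup_le fun q => h _ (runMax_arg_le u q)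

lemma IsBM.measurable_runMax (h : IsBM F B P) (u : ℝ≥0) : Measurable[F u] (runMax B u) := by
  let _ : MeasurableSpace Ω := F u
  have h1 : ∀ q : ℚ, Measurable fun ω => |B (u * Real.toNNReal (min (q : ℝ) 1)) ω| := fun q =>
    (((h.adapted _).mono (F.mono (runMax_arg_le u q)) le_rfl)).abs
  exact Measurable.iSup h1

/-- tail of the running maximum. -/
lemma IsBM.runMax_tail [IsProbabilityMeasure P] (h : IsBM F B P) (u : ℝ≥0) (hu : 0 < u) {x : ℝ}
    (hx : 0 < x) :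
    P {ω | x ≤ runMax B u ω} ≤ ENNReal.ofReal (2 * Real.exp (-(x ^ 2 / (2 * u)))) := by
  have : {ω | x ≤ runMax B u ω} = {ω | ∃ t ≤ u, x ≤ |B t ω|} := by
    ext ω; exact le_runMax_iff (h.cont ω)
  rw [this]; exact h.tail u hu hx

/-- fourth moment of the running maximum. -/
theorem IsBM.lintegral_runMax_pow_four [IsProbabilityMeasure P] (h : IsBM F B P) (u : ℝ≥0) :
    ∫⁻ ω, ENNReal.ofReal (runMax B u ω ^ 4) ∂P ≤ ENNReal.ofReal (16 * (u : ℝ) ^ 2) := by
  rcases eq_or_ne u 0 with hu | hu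
  · have : ∀ ω, runMax B u ω = 0 := by
      intro ω
      refine le_antisymm (runMax_le fun t ht => ?_) (runMax_nonneg (h.cont ω) u)
      have : t = 0 := le_antisymm (hu ▸ ht) zero_le
      rw [this, h.zero, abs_zero]
    simp [this]
  have hu0 : 0 < u := pos_iff_ne_zero.2 hu
  have hupos : (0 : ℝ) < u := NNReal.coe_pos.2 hu0
  have hmeas : Measurable (runMax B u) := (h.measurable_runMax u).mono (F.le u) le_rfl
  have h1 := lintegral_rpow_eq_lintegral_meas_le_mul P (f := runMax B u)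
    (Eventually.of_forall fun ω => runMax_nonneg (h.cont ω) u) hmeas.aemeasurable
    (p := 4) (by norm_num)
  have h2 : ∫⁻ ω, ENNReal.ofReal (runMax B u ω ^ 4) ∂P =
      ∫⁻ ω, ENNReal.ofReal (runMax B u ω ^ (4 : ℝ)) ∂P := by
    refine lintegral_congr fun ω => ?_
    norm_cast
  rw [h2, h1]
  have h3 : ∫⁻ t in Ioi (0 : ℝ), P {a : Ω | t ≤ runMax B u a} * ENNReal.ofReal (t ^ ((4 : ℝ) - 1)) ≤
      ∫⁻ t in Ioi (0 : ℝ), ENNReal.ofReal (2 * (t ^ (3 : ℝ) *
        Real.exp (-(1 / (2 * (u : ℝ))) * t ^ (2 : ℝ)))) := by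
    refine setLIntegral_mono' measurableSet_Ioi fun t ht => ?_
    have ht' : (0 : ℝ) < t := ht
    calc P {a : Ω | t ≤ runMax B u a} * ENNReal.ofReal (t ^ ((4 : ℝ) - 1))
        ≤ ENNReal.ofReal (2 * Real.exp (-(t ^ 2 / (2 * u)))) * ENNReal.ofReal (t ^ ((4 : ℝ) - 1)) := by
          gcongr
          exact h.runMax_tail u hu0 ht'
      _ = ENNReal.ofReal (2 * (t ^ (3 : ℝ) *
        Real.exp (-(1 / (2 * (u : ℝ))) * t ^ (2 : ℝ)))) := by
          rw [← ENNReal.ofReal_mul (by positivity)]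
          congr 1
          have e1 : (4 : ℝ) - 1 = 3 := by norm_num
          have e2 : -(t ^ 2 / (2 * (u : ℝ))) = -(1 / (2 * (u : ℝ))) * t ^ (2 : ℝ) := by
            have e3 : t ^ (2 : ℝ) = t ^ 2 := Real.rpow_two t
            rw [e3]; field_simp
          rw [e1, e2]; ring
  have hb : (0 : ℝ) < 1 / (2 * (u : ℝ)) := by positivity
  have h4 : ∫ t in Ioi (0 : ℝ), t ^ (3 : ℝ) * Real.exp (-(1 / (2 * (u : ℝ))) * t ^ (2 : ℝ)) =
      2 * (u : ℝ) ^ 2 := by
    rw [integral_rpow_mul_exp_neg_mul_rpow (by norm_num) (by norm_num) hb]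
    have e1 : (-((3 : ℝ) + 1) / 2) = -(2 : ℕ) := by norm_num
    have e2 : (((3 : ℝ) + 1) / 2) = 2 := by norm_num
    rw [e1, e2, Real.rpow_neg hb.le, Real.rpow_natCast, Real.Gamma_two]
    field_simp
  have hint : IntegrableOn (fun t : ℝ => t ^ (3 : ℝ) *
      Real.exp (-(1 / (2 * (u : ℝ))) * t ^ (2 : ℝ))) (Ioi 0) := by
    by_contra hcon
    have := integral_undef hcon
    rw [h4] at this
    have : (0 : ℝ) < 2 * (u : ℝ) ^ 2 := by positivity
    linarith
  have h5 : ∫⁻ t in Ioi (0 : ℝ), ENNReal.ofReal (2 * (t ^ (3 : ℝ) *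
        Real.exp (-(1 / (2 * (u : ℝ))) * t ^ (2 : ℝ)))) = ENNReal.ofReal (4 * (u : ℝ) ^ 2) := by
    rw [← ofReal_integral_eq_lintegral_ofReal (hint.const_mul 2)]
    · rw [integral_const_mul, h4]; congr 1; ring
    · refine (ae_restrict_iff' measurableSet_Ioi).2 (Eventually.of_forall fun t ht => ?_)
      have ht' : (0 : ℝ) < t := ht
      change (0 : ℝ) ≤ 2 * (t ^ (3 : ℝ) * Real.exp (-(1 / (2 * (u : ℝ))) * t ^ (2 : ℝ)))
      positivity
  calc ENNReal.ofReal 4 * ∫⁻ t in Ioi (0 : ℝ),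
        P {a : Ω | t ≤ runMax B u a} * ENNReal.ofReal (t ^ ((4 : ℝ) - 1))
      ≤ ENNReal.ofReal 4 * ENNReal.ofReal (4 * (u : ℝ) ^ 2) := by
        rw [← h5]; gcongr
    _ = ENNReal.ofReal (16 * (u : ℝ) ^ 2) := by
        rw [← ENNReal.ofReal_mul (by norm_num)]; congr 1; ring

/-- conditional form of the fourth moment: for `A ∈ F s`,
`E[1_A max_{t ≤ u} |B_{s+t} - B_s|^4] ≤ 16 u² P(A)`. -/
theorem IsBM.lintegral_runMax_shift [IsProbabilityMeasure P] (h : IsBM F B P) (s u : ℝ≥0)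
    {A : Set Ω} (hA : MeasurableSet[F s] A) :
    ∫⁻ ω in A, ENNReal.ofReal (runMax (fun t ω => B (s + t) ω - B s ω) u ω ^ 4) ∂P ≤
      ENNReal.ofReal (16 * (u : ℝ) ^ 2) * P A := by
  have hs := h.shift s
  have h1 := hs.lintegral_runMax_pow_four u
  set f : Ω → ℝ≥0∞ := fun ω =>
    ENNReal.ofReal (runMax (fun t ω => B (s + t) ω - B s ω) u ω ^ 4) with hf
  have hfm : Measurable[MeasurableSpace.comap (fun ω (u : ℝ≥0) => B (s + u) ω - B s ω)
      MeasurableSpace.pi] f := by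
    have h2 : Measurable[MeasurableSpace.comap (fun ω (u : ℝ≥0) => B (s + u) ω - B s ω)
        MeasurableSpace.pi] (fun ω (u : ℝ≥0) => B (s + u) ω - B s ω) := comap_measurable _
    let φ : (ℝ≥0 → ℝ) → ℝ≥0∞ := fun x =>
      ENNReal.ofReal ((⨆ q : ℚ, |x (u * Real.toNNReal (min (q : ℝ) 1))|) ^ 4)
    have hφ : Measurable φ := by
      have : Measurable fun x : ℝ≥0 → ℝ => ⨆ q : ℚ, |x (u * Real.toNNReal (min (q : ℝ) 1))| :=
        Measurable.iSup fun q => (measurable_pi_apply _).abs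
      exact ENNReal.measurable_ofReal.comp (this.pow_const 4)
    have hfe : f = φ ∘ (fun ω (u : ℝ≥0) => B (s + u) ω - B s ω) := by
      funext ω
      simp only [hf, φ, runMax, Function.comp]
    rw [hfe]
    exact Measurable.comp hφ h2
  have hle : MeasurableSpace.comap (fun ω (u : ℝ≥0) => B (s + u) ω - B s ω)
      MeasurableSpace.pi ≤ m := by
    rw [← measurable_iff_comap_le]
    exact measurable_pi_lambda _ fun u => (h.measurable _).sub (h.measurable _)
  have hg : Measurable[F s] (A.indicator (fun _ => (1 : ℝ≥0∞))) :=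
    measurable_const.indicator hA
  have key := lintegral_mul_eq_lintegral_mul_lintegral_of_independent_measurableSpace
    hle (F.le s) (h.indep s) hfm hg
  have e1 : ∫⁻ ω in A, f ω ∂P = ∫⁻ ω, f ω * A.indicator (fun _ => (1 : ℝ≥0∞)) ω ∂P := by
    rw [← lintegral_indicator (F.le s _ hA)]
    refine lintegral_congr fun ω => ?_
    by_cases hω : ω ∈ A <;> simp [hω]
  have e2 : ∫⁻ ω, A.indicator (fun _ => (1 : ℝ≥0∞)) ω ∂P = P A := by
    rw [lintegral_indicator (F.le s _ hA)]; simp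
  rw [e1, key, e2]
  gcongr

end

end Crest.Agent.R162.OS
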