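import Crest.Prelude.Def_Loewner
import Crest.Agent.R162.LBDefs
import Crest.Agent.R162.OS
import Crest.Agent.R162.OS5c

/-!
Row 162 (S0243), node LB3b: the first time `tk` at which `rad` reaches `2^k` (helper127).
-/

set_option autoImplicit false

open MeasureTheory ProbabilityTheory Set Filter Topology
open scoped NNReal ENNReal
open Crest.ProbabilityR.Loewner

namespace Crest.Agent.R162.LB3b

open Crest.Agent.R162.OS

theorem mset_le {Ω : Type*} (m' : MeasurableSpace Ω) {f g : Ω → ℝ} (hf : Measurable[m'] f)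
    (hg : Measurable[m'] g) : MeasurableSet[m'] {ω | f ω ≤ g ω} := measurableSet_le hf hg

theorem mset_le' {Ω : Type*} (m' : MeasurableSpace Ω) {f g : Ω → ℝ≥0} (hf : Measurable[m'] f)
    (hg : Measurable[m'] g) : MeasurableSet[m'] {ω | f ω ≤ g ω} := measurableSet_le hf hg

theorem meas_of_Iic {Ω : Type*} (m' : MeasurableSpace Ω) {f : Ω → ℝ≥0}
    (hf : ∀ x, MeasurableSet[m'] (f ⁻¹' Iic x)) : Measurable[m'] f := measurable_of_Iic hf

/-! ### continuity of `rad` -/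

theorem image_Icc_eq (W : ℝ → ℝ) {t : ℝ} (ht : 0 ≤ t) :
    (fun s => |W s|) '' Icc 0 t = (fun u => |W (t * u)|) '' Icc 0 1 := by
  have h : Icc 0 t = (fun u => t * u) '' Icc (0:ℝ) 1 := by
    rw [Set.image_mul_left_Icc ht zero_le_one]; simp
  rw [h, image_image]

theorem continuous_sSup_rad {W : ℝ → ℝ} (hW : Continuous W) :
    Continuous fun t : ℝ => sSup ((fun u => |W (t * u)|) '' Icc (0:ℝ) 1) := by
  have := (isCompact_Icc (a := (0:ℝ)) (b := 1)).continuous_sSup (f := fun t u : ℝ => |W (t * u)|)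
    (by
      have : Continuous fun p : ℝ × ℝ => |W (p.1 * p.2)| :=
        (hW.comp (continuous_fst.mul continuous_snd)).abs
      exact this)
  exact this

theorem continuousOn_rad {W : ℝ → ℝ} (hW : Continuous W) : ContinuousOn (LB.rad W) (Ici 0) := by
  have h : ContinuousOn (fun t => max (Real.sqrt t) (sSup ((fun u => |W (t * u)|) '' Icc (0:ℝ) 1)))
      (Ici 0) := (Real.continuous_sqrt.max (continuous_sSup_rad hW)).continuousOn
  refine h.congr fun t ht => ?_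
  rw [LB.rad, image_Icc_eq W ht]

theorem rad_zero {W : ℝ → ℝ} (h0 : W 0 = 0) : LB.rad W 0 = 0 := by
  simp [LB.rad, h0]

/-! ### the deterministic first time -/

/-- first time at which `rad W ≥ c` -/
noncomputable def tc (W : ℝ → ℝ) (c : ℝ) : ℝ≥0 := sInf {t : ℝ≥0 | c ≤ LB.rad W t}

variable {W : ℝ → ℝ} {c : ℝ}

theorem sq_mem (hc : 0 ≤ c) : c.toNNReal ^ 2 ∈ {t : ℝ≥0 | c ≤ LB.rad W t} := by
  have h := LB.sqrt_le_rad W ((c.toNNReal ^ 2 : ℝ≥0) : ℝ)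
  show c ≤ LB.rad W ((c.toNNReal ^ 2 : ℝ≥0) : ℝ)
  refine le_trans (le_of_eq ?_) h
  push_cast
  rw [Real.coe_toNNReal c hc, Real.sqrt_sq hc]

theorem tc_mem (hW : Continuous W) (hc : 0 ≤ c) : c ≤ LB.rad W (tc W c) := by
  have hcl : IsClosed {t : ℝ≥0 | c ≤ LB.rad W t} := by
    apply isClosed_le continuous_const
    have h := (continuousOn_rad hW)
    rw [continuousOn_iff_continuous_domRestrict] at h
    exact h
  exact hcl.csInf_mem ⟨_, sq_mem hc⟩ (OrderBot.bddBelow _)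

theorem tc_le_sq (hc : 0 ≤ c) : (tc W c : ℝ) ≤ c ^ 2 := by
  have h : tc W c ≤ c.toNNReal ^ 2 := csInf_le (OrderBot.bddBelow _) (sq_mem hc)
  have h' : (tc W c : ℝ) ≤ ((c.toNNReal ^ 2 : ℝ≥0) : ℝ) := NNReal.coe_le_coe.2 h
  push_cast at h'
  rwa [Real.coe_toNNReal c hc] at h'

theorem le_rad_iff' (hW : Continuous W) (hc : 0 ≤ c) {t : ℝ≥0} :
    c ≤ LB.rad W t ↔ tc W c ≤ t := by
  constructor
  · intro h; exact csInf_le (OrderBot.bddBelow _) h
  · intro h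
    exact (tc_mem hW hc).trans (LB.rad_mono hW.continuousOn (tc W c).2 (NNReal.coe_le_coe.2 h))

theorem tc_le_rad_iff (hW : Continuous W) (hc : 0 ≤ c) {s : ℝ} (hs : 0 ≤ s) :
    c ≤ LB.rad W s ↔ (tc W c : ℝ) ≤ s := by
  lift s to ℝ≥0 using hs
  rw [le_rad_iff' hW hc, NNReal.coe_le_coe]

theorem tc_pos (hW : Continuous W) (h0 : W 0 = 0) (hc : 0 < c) : 0 < tc W c := by
  rw [pos_iff_ne_zero]
  intro h
  have h1 := tc_mem hW hc.le
  rw [h, NNReal.coe_zero, rad_zero h0] at h1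
  linarith

theorem rad_tc (hW : Continuous W) (h0 : W 0 = 0) (hc : 0 < c) : LB.rad W (tc W c) = c := by
  apply le_antisymm _ (tc_mem hW hc.le)
  have hp := tc_pos hW h0 hc
  have hcont : ContinuousWithinAt (LB.rad W) (Ico 0 (tc W c : ℝ)) (tc W c) :=
    (continuousOn_rad hW _ (tc W c).2).mono fun _ h => h.1
  have hcl : (tc W c : ℝ) ∈ closure (Ico 0 (tc W c : ℝ)) := by
    rw [closure_Ico (by exact_mod_cast hp.ne)]
    exact ⟨(tc W c).2, le_rfl⟩
  have : (nhdsWithin (tc W c : ℝ) (Ico 0 (tc W c : ℝ))).NeBot :=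
    mem_closure_iff_nhdsWithin_neBot.1 hcl
  refine le_of_tendsto hcont ?_
  filter_upwards [self_mem_nhdsWithin] with s hs
  by_contra hcon
  have h1 := (tc_le_rad_iff hW hc.le hs.1).1 (not_le.1 hcon).le
  linarith [hs.2]

theorem tc_mono (hc : 0 ≤ c) {c' : ℝ} (hcc' : c ≤ c') : tc W c ≤ tc W c' :=
  csInf_le_csInf (OrderBot.bddBelow _) ⟨_, sq_mem (hc.trans hcc')⟩ fun _ h => hcc'.trans h

/-! ### the stopping time -/

variable {Ω : Type*} {mΩ : MeasurableSpace Ω} {F : Filtration ℝ≥0 mΩ} {B : ℝ≥0 → Ω → ℝ}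
  {P : Measure Ω}

/-- first time at which `rad ≥ 2^k` -/
noncomputable def tk (κ : ℝ) (B : ℝ≥0 → Ω → ℝ) (k : ℤ) (ω : Ω) : ℝ≥0 :=
  sInf {t : ℝ≥0 | (2:ℝ) ^ k ≤ LB.rad (driving κ B ω) t}

theorem tk_eq (κ : ℝ) (B : ℝ≥0 → Ω → ℝ) (k : ℤ) (ω : Ω) :
    tk κ B k ω = tc (driving κ B ω) ((2:ℝ) ^ k) := rfl

theorem continuous_drv (hB : IsBM F B P) (κ : ℝ) (ω : Ω) : Continuous (driving κ B ω) := by
  unfold driving
  exact continuous_const.mul ((hB.cont ω).comp continuous_real_toNNReal)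

theorem drv_zero (hB : IsBM F B P) (κ : ℝ) (ω : Ω) : driving κ B ω 0 = 0 := by
  simp [driving, hB.zero ω]

/-- `rad` of the driving function through the running maximum -/
theorem rad_driving (hB : IsBM F B P) (κ : ℝ) (ω : Ω) (t : ℝ≥0) :
    LB.rad (driving κ B ω) t = max (Real.sqrt t) (Real.sqrt κ * runMax B t ω) := by
  rw [LB.rad]
  congr 1
  have hc := hB.cont ω
  apply le_antisymm
  · apply csSup_le (Set.image_nonempty.2 (nonempty_Icc.2 t.2))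
    rintro _ ⟨s, hs, rfl⟩
    simp only [driving, abs_mul, abs_of_nonneg (Real.sqrt_nonneg κ)]
    apply mul_le_mul_of_nonneg_left _ (Real.sqrt_nonneg κ)
    apply le_runMax hc
    rw [Real.toNNReal_le_iff_le_coe]; exact hs.2
  · obtain ⟨s, hst, hs⟩ := (le_runMax_iff hc (x := runMax B t ω)).1 le_rfl
    refine le_csSup_of_le (LB.bddAbove_abs (continuous_drv hB κ ω).continuousOn)
      ⟨(s : ℝ), ⟨s.2, NNReal.coe_le_coe.2 hst⟩, rfl⟩ ?_
    simp only [driving, abs_mul, abs_of_nonneg (Real.sqrt_nonneg κ), Real.toNNReal_coe]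
    exact mul_le_mul_of_nonneg_left hs (Real.sqrt_nonneg κ)

/-- `rad` at a fixed time is adapted -/
theorem measurable_rad (hB : IsBM F B P) (κ : ℝ) (t : ℝ≥0) :
    Measurable[F t] fun ω => LB.rad (driving κ B ω) t := by
  have h : (fun ω => LB.rad (driving κ B ω) t)
      = fun ω => max (Real.sqrt t) (Real.sqrt κ * runMax B t ω) := by
    funext ω; exact rad_driving hB κ ω t
  rw [h]
  exact measurable_const.max ((hB.measurable_runMax t).const_mul _)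

theorem isST_tc (hB : IsBM F B P) (κ : ℝ) {c : ℝ} (hc : 0 ≤ c) :
    IsST F (fun ω => tc (driving κ B ω) c) := by
  intro t
  have h : {ω | tc (driving κ B ω) c ≤ t} = {ω | c ≤ LB.rad (driving κ B ω) t} := by
    ext ω
    exact (le_rad_iff' (continuous_drv hB κ ω) hc).symm
  rw [h]
  exact mset_le (F t) (@measurable_const _ _ _ (F t) c) (measurable_rad hB κ t)

theorem isST_tk (hB : IsBM F B P) (κ : ℝ) (k : ℤ) : IsST F (tk κ B k) :=
  isST_tc hB κ (by positivity)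

theorem tk_pos (hB : IsBM F B P) (κ : ℝ) (k : ℤ) (ω : Ω) : 0 < tk κ B k ω :=
  tc_pos (continuous_drv hB κ ω) (drv_zero hB κ ω) (by positivity)

theorem rad_tk (hB : IsBM F B P) (κ : ℝ) (k : ℤ) (ω : Ω) :
    LB.rad (driving κ B ω) (tk κ B k ω) = (2:ℝ) ^ k :=
  rad_tc (continuous_drv hB κ ω) (drv_zero hB κ ω) (by positivity)

theorem tk_le_sq (κ : ℝ) (B : ℝ≥0 → Ω → ℝ) (k : ℤ) (ω : Ω) :
    (tk κ B k ω : ℝ) ≤ ((2:ℝ) ^ k) ^ 2 := tc_le_sq (by positivity)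

theorem le_rad_iff (hB : IsBM F B P) (κ : ℝ) (k : ℤ) (ω : Ω) {s : ℝ} (hs : 0 ≤ s) :
    (2:ℝ) ^ k ≤ LB.rad (driving κ B ω) s ↔ (tk κ B k ω : ℝ) ≤ s :=
  tc_le_rad_iff (continuous_drv hB κ ω) (by positivity) hs

theorem tk_le_succ (κ : ℝ) (B : ℝ≥0 → Ω → ℝ) (k : ℤ) (ω : Ω) : tk κ B k ω ≤ tk κ B (k + 1) ω :=
  tc_mono (by positivity) (zpow_le_zpow_right₀ one_le_two (by lia))

theorem win_eq (hB : IsBM F B P) (κ : ℝ) (k : ℤ) (ω : Ω) (t : ℝ) :
    LB.win (driving κ B ω) t k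
      = {s | (tk κ B k ω : ℝ) ≤ s ∧ s < tk κ B (k + 1) ω ∧ s ≤ t} := by
  ext s
  simp only [LB.win, mem_ofPred_eq]
  constructor
  · rintro ⟨h0, h1, h2, h3⟩
    refine ⟨(le_rad_iff hB κ k ω h0.le).1 h2, ?_, h1⟩
    by_contra hcon
    exact absurd ((le_rad_iff hB κ (k + 1) ω h0.le).2 (not_lt.1 hcon)) (not_le.2 h3)
  · rintro ⟨h1, h2, h3⟩
    have h0 : 0 < s := lt_of_lt_of_le (NNReal.coe_pos.2 (tk_pos hB κ k ω)) h1
    refine ⟨h0, h3, (le_rad_iff hB κ k ω h0.le).2 h1, ?_⟩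
    by_contra hcon
    exact absurd ((le_rad_iff hB κ (k + 1) ω h0.le).1 (not_lt.1 hcon)) (not_le.2 h2)

/-- on the window `[t_k, t_{k+1}]` the driving function moves by at most `3 · 2^k` -/
theorem osc_le (hB : IsBM F B P) (κ : ℝ) (k : ℤ) (ω : Ω) {s : ℝ}
    (hs : s ∈ Icc (tk κ B k ω : ℝ) (tk κ B (k + 1) ω)) :
    |driving κ B ω s - driving κ B ω (tk κ B k ω)| ≤ 3 * (2:ℝ) ^ k := by
  have hc := (continuous_drv hB κ ω).continuousOn (s := Ici 0)
  have h0 : (0:ℝ) ≤ tk κ B k ω := (tk κ B k ω).2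
  have h1 := LB.abs_le_rad hc h0 le_rfl
  rw [rad_tk hB κ k ω] at h1
  have h2 := LB.abs_le_rad hc (h0.trans hs.1) hs.2
  rw [rad_tk hB κ (k + 1) ω, zpow_add_one₀ (by norm_num)] at h2
  calc |driving κ B ω s - driving κ B ω (tk κ B k ω)|
      ≤ |driving κ B ω s| + |driving κ B ω (tk κ B k ω)| := abs_sub _ _
    _ ≤ 3 * (2:ℝ) ^ k := by linarith

theorem tk_succ_sub_le (κ : ℝ) (B : ℝ≥0 → Ω → ℝ) (k : ℤ) (ω : Ω) :
    (tk κ B (k + 1) ω : ℝ) - tk κ B k ω ≤ 4 * ((2:ℝ) ^ k) ^ 2 := by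
  have h1 := tk_le_sq κ B (k + 1) ω
  have h2 : (0:ℝ) ≤ tk κ B k ω := (tk κ B k ω).2
  rw [zpow_add_one₀ (by norm_num)] at h1
  nlinarith

theorem evST_lt {σ τ : Ω → ℝ≥0} (hσ : IsST F σ) (hτ : IsST F τ) : EvST F σ {ω | σ ω < τ ω} := by
  intro t
  have h : {ω | σ ω < τ ω} ∩ {ω | σ ω ≤ t}
      = {ω | σ ω ≤ t} \ ({ω | τ ω ≤ σ ω} ∩ {ω | σ ω ≤ t}) := by
    ext ω
    simp only [mem_inter_iff, mem_ofPred_eq, Set.mem_sdiff, not_and, not_le]
    constructor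
    · rintro ⟨h1, h2⟩; exact ⟨h2, fun h3 => absurd h3 (not_le.2 h1)⟩
    · rintro ⟨h1, h2⟩
      refine ⟨?_, h1⟩
      by_contra h3
      exact absurd (h2 (not_lt.1 h3)) (not_lt.2 h1)
  rw [h]
  refine (hσ t).diff ?_
  -- `{τ ≤ σ} ∩ {σ ≤ t} = {min τ t ≤ min σ t} ∩ {τ ≤ t} ∩ {σ ≤ t}`
  have h2 : {ω | τ ω ≤ σ ω} ∩ {ω | σ ω ≤ t}
      = ({ω | min (τ ω) t ≤ min (σ ω) t} ∩ {ω | τ ω ≤ t}) ∩ {ω | σ ω ≤ t} := by
    ext ω
    simp only [mem_inter_iff, mem_ofPred_eq]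
    constructor
    · rintro ⟨h1, h2⟩
      exact ⟨⟨min_le_min h1 le_rfl, h1.trans h2⟩, h2⟩
    · rintro ⟨⟨h1, h2⟩, h3⟩
      rw [min_eq_left h2, min_eq_left h3] at h1
      exact ⟨h1, h3⟩
  rw [h2]
  have hmin : ∀ {ρ : Ω → ℝ≥0}, IsST F ρ → Measurable[F t] (fun ω => min (ρ ω) t) := by
    intro ρ hρ
    refine meas_of_Iic (F t) fun x => ?_
    by_cases hx : t ≤ x
    · have : (fun ω => min (ρ ω) t) ⁻¹' Iic x = univ := by
        ext ω; simp only [mem_preimage, mem_Iic, mem_univ, iff_true]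
        exact (min_le_right _ _).trans hx
      rw [this]; exact MeasurableSet.univ
    · have : (fun ω => min (ρ ω) t) ⁻¹' Iic x = {ω | ρ ω ≤ x} := by
        ext ω; simp only [mem_preimage, mem_Iic, mem_ofPred_eq, min_le_iff]
        constructor
        · rintro (h | h)
          · exact h
          · exact absurd h hx
        · intro h; exact Or.inl h
      rw [this]
      exact F.mono (not_le.1 hx).le _ (hρ x)
  exact ((mset_le' (F t) (hmin hτ) (hmin hσ)).inter (hτ t)).inter (hσ t)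

end Crest.Agent.R162.LB3b
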