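import Mathlib

/-!
Row 162 (S0243), node U5a: deterministic tube estimates in the trigger.  Pure calculus: for a continuous
path `Z` in the half-plane whose coordinate `x = log tan (Θ/2)` stays within `1` of the piecewise linear
path `psi` in K-time, the estimates H1..H5 used by U5b.
-/

set_option autoImplicit false

open Set MeasureTheory intervalIntegral

namespace Crest.Agent.R162.U5a

/-- the clock `∫ |Z|^-2` (K-time) -/
noncomputable def clk (Z : ℝ → ℂ) (t : ℝ) : ℝ := ∫ s in (0:ℝ)..t, (‖Z s‖ ^ 2)⁻¹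

/-- the coordinate `x = log tan (Θ/2)` -/
noncomputable def xc (z : ℂ) : ℝ := -Real.arsinh (z.re / z.im)

/-- the target path, `M = (log N)/2` -/
noncomputable def psi (ξ N a : ℝ) : ℝ :=
  max (ξ - a) (max (-(Real.log N / 2)) (a - ξ - Real.log N - N))

/-- the trigger event for the path `Z` on `[0,T]` -/
structure Trig (ξ N T : ℝ) (Z : ℝ → ℂ) : Prop where
  fin : clk Z T = ξ + Real.log N + N - 2
  tube : ∀ t ∈ Icc 0 T, |xc (Z t) - psi ξ N (clk Z t)| ≤ 1

/-! ### elementary facts on `cosh`, `sinh` -/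

lemma inv_cosh_le (x : ℝ) : 1 / Real.cosh x ≤ 2 * Real.exp (-|x|) := by
  have h : Real.exp |x| / 2 ≤ Real.cosh x := by
    rw [← Real.cosh_abs, Real.cosh_eq]
    have := Real.exp_pos (-|x|)
    linarith
  have hpos : 0 < Real.exp |x| / 2 := by positivity
  calc 1 / Real.cosh x ≤ 1 / (Real.exp |x| / 2) := one_div_le_one_div_of_le hpos h
    _ = 2 * Real.exp (-|x|) := by rw [Real.exp_neg]; field_simp

lemma cosh_le_exp_abs (x : ℝ) : Real.cosh x ≤ Real.exp |x| := by
  rw [← Real.cosh_abs, Real.cosh_eq]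
  have : Real.exp (-|x|) ≤ Real.exp |x| := Real.exp_le_exp.mpr (by linarith [abs_nonneg x])
  linarith

lemma abs_sinh_le_cosh (x : ℝ) : |Real.sinh x| ≤ Real.cosh x := by
  have h := Real.cosh_sq x
  have hc := Real.cosh_pos x
  rw [abs_le]
  constructor <;> nlinarith [sq_nonneg (Real.cosh x), sq_nonneg (Real.sinh x)]

/-- `x = log tan(Θ/2)`: `cosh x = |z| / im z` -/
lemma cosh_xc {z : ℂ} (hz : 0 < z.im) : Real.cosh (xc z) = ‖z‖ / z.im := by
  rw [xc, Real.cosh_neg, Real.cosh_arsinh, Complex.norm_eq_sqrt_sq_add_sq]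
  rw [show z.im = Real.sqrt (z.im ^ 2) from (Real.sqrt_sq hz.le).symm, ← Real.sqrt_div (by positivity)]
  congr 1
  rw [Real.sqrt_sq hz.le]
  field_simp
  ring

lemma sinh_xc (z : ℂ) : Real.sinh (xc z) = -(z.re / z.im) := by
  rw [xc, Real.sinh_neg, Real.sinh_arsinh]

lemma norm_pos_of_im {z : ℂ} (hz : 0 < z.im) : 0 < ‖z‖ := by
  rw [norm_pos_iff]; rintro rfl; simp at hz

lemma im_sq_div {z : ℂ} (hz : 0 < z.im) :
    4 * z.im ^ 2 / ‖z‖ ^ 4 = 4 / Real.cosh (xc z) ^ 2 * (‖z‖ ^ 2)⁻¹ := by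
  have hn := norm_pos_of_im hz
  rw [cosh_xc hz]
  field_simp

lemma im_two_div_sq {z : ℂ} (hz : 0 < z.im) :
    (2 / z ^ 2).im = 4 * Real.sinh (xc z) / Real.cosh (xc z) ^ 2 * (‖z‖ ^ 2)⁻¹ := by
  have hn := norm_pos_of_im hz
  rw [cosh_xc hz, sinh_xc]
  have h2 : Complex.normSq (z ^ 2) = ‖z‖ ^ 4 := by
    rw [map_pow, Complex.normSq_eq_norm_sq]; ring
  rw [Complex.div_im]
  simp only [Complex.re_ofNat, Complex.im_ofNat, zero_mul, zero_div, zero_sub]
  rw [h2]
  have h3 : (z ^ 2).im = 2 * z.re * z.im := by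
    rw [pow_two, Complex.mul_im]; ring
  rw [h3]
  field_simp
  ring

/-! ### the substitution rule for the clock -/

section subst

variable {Z : ℝ → ℂ} {T : ℝ}

lemma cont_rate (hZ : ContinuousOn Z (Icc 0 T)) (him : ∀ t ∈ Icc 0 T, 0 < (Z t).im) :
    ContinuousOn (fun s => (‖Z s‖ ^ 2)⁻¹) (Icc 0 T) := by
  apply ContinuousOn.inv₀ (hZ.norm.pow 2)
  intro t ht
  have := norm_pos_of_im (him t ht)
  exact pow_ne_zero 2 this.ne'

lemma clk_nonneg (t : ℝ) (ht : 0 ≤ t) : 0 ≤ clk Z t :=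
  intervalIntegral.integral_nonneg ht fun s _ => by positivity

lemma clk_zero : clk Z 0 = 0 := by simp [clk]

lemma clk_mono (hZ : ContinuousOn Z (Icc 0 T)) (him : ∀ t ∈ Icc 0 T, 0 < (Z t).im)
    {s t : ℝ} (hs : 0 ≤ s) (hst : s ≤ t) (ht : t ≤ T) : clk Z s ≤ clk Z t := by
  unfold clk
  have hc := cont_rate hZ him
  have hi : ∀ u v : ℝ, u ∈ Icc 0 T → v ∈ Icc 0 T →
      IntervalIntegrable (fun s => (‖Z s‖ ^ 2)⁻¹) volume u v := fun u v hu hv =>
    (hc.mono (uIcc_subset_Icc hu hv)).intervalIntegrable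
  rw [← intervalIntegral.integral_add_adjacent_intervals (hi 0 s ⟨le_rfl, by linarith⟩ ⟨hs, by linarith⟩)
    (hi s t ⟨hs, by linarith⟩ ⟨by linarith, ht⟩)]
  have : 0 ≤ ∫ s in s..t, (‖Z s‖ ^ 2)⁻¹ :=
    intervalIntegral.integral_nonneg hst fun s _ => by positivity
  linarith

lemma clk_contOn (hZ : ContinuousOn Z (Icc 0 T)) (him : ∀ t ∈ Icc 0 T, 0 < (Z t).im) (hT : 0 ≤ T) :
    ContinuousOn (clk Z) (Icc 0 T) := by
  have hc := cont_rate hZ him
  have := intervalIntegral.continuousOn_primitive_interval (a := (0:ℝ)) (b := T)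
    (f := fun s => (‖Z s‖ ^ 2)⁻¹) (μ := volume)
    (by rw [uIcc_of_le hT]; exact hc.integrableOn_Icc)
  rw [uIcc_of_le hT] at this
  exact this

lemma clk_deriv (hZ : ContinuousOn Z (Icc 0 T)) (him : ∀ t ∈ Icc 0 T, 0 < (Z t).im)
    {t : ℝ} (ht : t ∈ Ioo 0 T) : HasDerivAt (clk Z) ((‖Z t‖ ^ 2)⁻¹) t := by
  have hc := cont_rate hZ him
  have hT : 0 ≤ T := ht.1.le.trans ht.2.le
  apply intervalIntegral.integral_hasDerivAt_right
  · exact (hc.mono (by rw [uIcc_of_le ht.1.le]; exact Icc_subset_Icc_right ht.2.le)).intervalIntegrable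
  · exact (hc.mono Ioo_subset_Icc_self).stronglyMeasurableAtFilter isOpen_Ioo t ht
  · exact hc.continuousAt (Icc_mem_nhds ht.1 ht.2)

/-- substitution: `∫ G(A_t) A'_t dt = ∫ G(a) da` -/
lemma subst (hZ : ContinuousOn Z (Icc 0 T)) (him : ∀ t ∈ Icc 0 T, 0 < (Z t).im) (hT : 0 ≤ T)
    {G : ℝ → ℝ} (hG : Continuous G) :
    (∫ t in (0:ℝ)..T, G (clk Z t) * (‖Z t‖ ^ 2)⁻¹) = ∫ a in (0:ℝ)..(clk Z T), G a := by
  have h := intervalIntegral.integral_comp_mul_deriv'' (a := (0:ℝ)) (b := T) (f := clk Z)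
    (f' := fun t => (‖Z t‖ ^ 2)⁻¹) (g := G)
    (by rw [uIcc_of_le hT]; exact clk_contOn hZ him hT)
    (fun x hx => by
      rw [min_eq_left hT, max_eq_right hT] at hx
      exact (clk_deriv hZ him hx).hasDerivWithinAt)
    (by rw [uIcc_of_le hT]; exact cont_rate hZ him)
    hG.continuousOn
  simpa [Function.comp, clk_zero] using h

end subst

/-! ### the exponential integral -/

lemma integral_exp_abs_le (c u v : ℝ) (huv : u ≤ v) :
    (∫ a in u..v, Real.exp (-|c - a|)) ≤ 2 := by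
  have hcont : Continuous fun a : ℝ => Real.exp (-|c - a|) := by fun_prop
  have hii : ∀ p q : ℝ, IntervalIntegrable (fun a : ℝ => Real.exp (-|c - a|)) volume p q :=
    fun p q => hcont.intervalIntegrable p q
  -- right part
  have hR : ∀ p q : ℝ, c ≤ p → p ≤ q → (∫ a in p..q, Real.exp (-|c - a|)) ≤ 1 := by
    intro p q hcp hpq
    have h1 : (∫ a in p..q, Real.exp (-|c - a|)) = ∫ a in p..q, Real.exp (c - a) := by
      apply intervalIntegral.integral_congr
      intro a ha
      rw [uIcc_of_le hpq] at ha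
      have : c - a ≤ 0 := by linarith [ha.1]
      simp only [abs_of_nonpos this, neg_neg]
    have h2 : (∫ a in p..q, Real.exp (c - a)) = Real.exp (c - p) - Real.exp (c - q) := by
      rw [intervalIntegral.integral_comp_sub_left (fun x => Real.exp x) c, integral_exp]
    rw [h1, h2]
    have h3 : Real.exp (c - p) ≤ 1 := Real.exp_le_one_iff.mpr (by linarith)
    have h4 := Real.exp_pos (c - q)
    linarith
  have hL : ∀ p q : ℝ, q ≤ c → p ≤ q → (∫ a in p..q, Real.exp (-|c - a|)) ≤ 1 := by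
    intro p q hcq hpq
    have h1 : (∫ a in p..q, Real.exp (-|c - a|)) = ∫ a in p..q, Real.exp (a - c) := by
      apply intervalIntegral.integral_congr
      intro a ha
      rw [uIcc_of_le hpq] at ha
      have : 0 ≤ c - a := by linarith [ha.2]
      simp only [abs_of_nonneg this, neg_sub]
    have h2 : (∫ a in p..q, Real.exp (a - c)) = Real.exp (q - c) - Real.exp (p - c) := by
      rw [intervalIntegral.integral_comp_sub_right (fun x => Real.exp x) c, integral_exp]
    rw [h1, h2]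
    have h3 : Real.exp (q - c) ≤ 1 := Real.exp_le_one_iff.mpr (by linarith)
    have h4 := Real.exp_pos (p - c)
    linarith
  rcases le_total c u with h | h
  · linarith [hR u v h huv]
  · rcases le_total v c with h' | h'
    · linarith [hL u v h' huv]
    · rw [← intervalIntegral.integral_add_adjacent_intervals (hii u c) (hii c v)]
      linarith [hL u c le_rfl h, hR c v le_rfl h']

/-! ### pointwise estimates in the tube -/

lemma exp_neg_abs_le {x p : ℝ} (h : |x - p| ≤ 1) :
    Real.exp (-|x|) ≤ Real.exp 1 * Real.exp (-|p|) := by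
  rw [← Real.exp_add]
  apply Real.exp_le_exp.mpr
  have := abs_sub_abs_le_abs_sub p x
  rw [abs_sub_comm] at this
  linarith

lemma psi_cases (ξ N a : ℝ) :
    psi ξ N a = ξ - a ∨ psi ξ N a = -(Real.log N / 2) ∨ psi ξ N a = a - ξ - Real.log N - N := by
  unfold psi
  rcases max_choice (ξ - a) (max (-(Real.log N / 2)) (a - ξ - Real.log N - N)) with h | h
  · left; exact h
  · rw [h]
    rcases max_choice (-(Real.log N / 2)) (a - ξ - Real.log N - N) with h | h
    · right; left; exact h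
    · right; right; exact h

lemma psi_abs_le {ξ N a : ℝ} (ha : 0 ≤ a) (hξM : ξ ≤ Real.log N / 2) (hξM' : -ξ ≤ Real.log N / 2)
    (hend : a ≤ ξ + Real.log N + N) : |psi ξ N a| ≤ Real.log N / 2 := by
  rw [abs_le]
  constructor
  · unfold psi
    exact (le_max_left _ _).trans (le_max_right _ _)
  · unfold psi
    apply max_le
    · linarith
    · apply max_le
      · linarith
      · linarith

/-- H2 pointwise -/
lemma pt2 {ξ N a x : ℝ} (hx : |x - psi ξ N a| ≤ 1) :
    4 / Real.cosh x ^ 2 ≤ 16 * Real.exp 2 *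
      (Real.exp (-|ξ - a|) + Real.exp (-|(ξ + Real.log N + N) - a|) + Real.exp (-Real.log N)) := by
  have h1 := inv_cosh_le x
  have h0 : 0 < 1 / Real.cosh x := by have := Real.cosh_pos x; positivity
  have h2 := exp_neg_abs_le hx
  have h3 : 1 / Real.cosh x ≤ 2 * (Real.exp 1 * Real.exp (-|psi ξ N a|)) := by linarith
  have h4 : 4 / Real.cosh x ^ 2 = 4 * (1 / Real.cosh x) ^ 2 := by
    rw [div_pow]; ring
  have h5 : (1 / Real.cosh x) ^ 2 ≤ (2 * (Real.exp 1 * Real.exp (-|psi ξ N a|))) ^ 2 :=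
    pow_le_pow_left₀ h0.le h3 2
  have h6 : (2 * (Real.exp 1 * Real.exp (-|psi ξ N a|))) ^ 2
      = 4 * Real.exp 2 * Real.exp (-(2 * |psi ξ N a|)) := by
    have e1 : Real.exp 2 = Real.exp 1 * Real.exp 1 := by rw [← Real.exp_add]; norm_num
    have e2 : Real.exp (-(2 * |psi ξ N a|)) = Real.exp (-|psi ξ N a|) * Real.exp (-|psi ξ N a|) := by
      rw [← Real.exp_add]; congr 1; ring
    rw [e1, e2]; ring
  have h7 : Real.exp (-(2 * |psi ξ N a|)) ≤
      Real.exp (-|ξ - a|) + Real.exp (-|(ξ + Real.log N + N) - a|) + Real.exp (-Real.log N) := by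
    have p1 := Real.exp_pos (-|ξ - a|)
    have p2 := Real.exp_pos (-|(ξ + Real.log N + N) - a|)
    have p3 := Real.exp_pos (-Real.log N)
    rcases psi_cases ξ N a with h | h | h
    · rw [h]
      have : Real.exp (-(2 * |ξ - a|)) ≤ Real.exp (-|ξ - a|) :=
        Real.exp_le_exp.mpr (by linarith [abs_nonneg (ξ - a)])
      linarith
    · rw [h]
      have : Real.exp (-(2 * |-(Real.log N / 2)|)) ≤ Real.exp (-Real.log N) := by
        apply Real.exp_le_exp.mpr
        have := neg_le_abs (-(Real.log N / 2))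
        linarith
      linarith
    · rw [h]
      have e : |a - ξ - Real.log N - N| = |(ξ + Real.log N + N) - a| := by
        rw [← abs_neg]; congr 1; ring
      have : Real.exp (-(2 * |a - ξ - Real.log N - N|)) ≤ Real.exp (-|(ξ + Real.log N + N) - a|) := by
        rw [e]; exact Real.exp_le_exp.mpr (by linarith [abs_nonneg ((ξ + Real.log N + N) - a)])
      linarith
  have e2 := Real.exp_pos 2
  calc 4 / Real.cosh x ^ 2 = 4 * (1 / Real.cosh x) ^ 2 := h4
    _ ≤ 4 * (4 * Real.exp 2 * Real.exp (-(2 * |psi ξ N a|))) := by rw [← h6]; linarith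
    _ = 16 * Real.exp 2 * Real.exp (-(2 * |psi ξ N a|)) := by ring
    _ ≤ _ := by apply mul_le_mul_of_nonneg_left h7; positivity

/-- H3 pointwise -/
lemma pt3 {ξ N a x : ℝ} (ha : 0 ≤ a) (hξM : ξ ≤ Real.log N / 2) (hξM' : -ξ ≤ Real.log N / 2)
    (hM : 2 ≤ Real.log N / 2) (hend : a ≤ ξ + Real.log N + N) (hx : |x - psi ξ N a| ≤ 1) :
    4 * Real.sinh x / Real.cosh x ^ 2 ≤ -(2 / Real.exp 1) * Real.exp (-(Real.log N / 2)) +
      (8 * Real.exp 1 + 1) * (Real.exp (-|ξ - a|) + Real.exp (-|(ξ + Real.log N + N) - a|)) := by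
  have hc := Real.cosh_pos x
  have p1 := Real.exp_pos (-|ξ - a|)
  have p2 := Real.exp_pos (-|(ξ + Real.log N + N) - a|)
  have pe := Real.exp_pos 1
  have hpsi := psi_abs_le ha hξM hξM' hend
  -- the crude bound
  have hcrude : 4 * Real.sinh x / Real.cosh x ^ 2 ≤ 8 * Real.exp 1 * Real.exp (-|psi ξ N a|) := by
    have h1 : 4 * Real.sinh x / Real.cosh x ^ 2 ≤ 4 * (1 / Real.cosh x) := by
      rw [div_le_iff₀ (by positivity)]
      have : Real.sinh x ≤ Real.cosh x := (le_abs_self _).trans (abs_sinh_le_cosh x)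
      have e : 4 * (1 / Real.cosh x) * Real.cosh x ^ 2 = 4 * Real.cosh x := by field_simp
      rw [e]; linarith
    have h2 := inv_cosh_le x
    have h3 := exp_neg_abs_le hx
    nlinarith
  have hrest : Real.exp (-(Real.log N / 2)) ≤ Real.exp (-|psi ξ N a|) :=
    Real.exp_le_exp.mpr (by linarith)
  have h2e : 2 / Real.exp 1 ≤ 1 := by
    rw [div_le_one pe]
    have := Real.add_one_le_exp (1:ℝ)
    linarith
  have h2e0 : 0 < 2 / Real.exp 1 := by positivity
  have q1 : 2 / Real.exp 1 * Real.exp (-(Real.log N / 2)) ≤ Real.exp (-|psi ξ N a|) := by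
    have := Real.exp_pos (-(Real.log N / 2))
    nlinarith
  rcases psi_cases ξ N a with h | h | h
  · rw [h] at hcrude q1
    nlinarith
  · -- phase 2
    have hxle : x ≤ -1 := by
      rw [h] at hx
      have := (abs_le.mp hx).2
      linarith
    have hs : Real.sinh x ≤ -(1/2) * Real.cosh x := by
      rw [Real.sinh_eq, Real.cosh_eq]
      have e1 : Real.exp x * 3 ≤ Real.exp (-x) := by
        have : Real.exp (-x) = Real.exp x * Real.exp (-2 * x) := by
          rw [← Real.exp_add]; congr 1; ring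
        rw [this]
        apply mul_le_mul_of_nonneg_left _ (Real.exp_pos x).le
        have h3 := Real.add_one_le_exp (-2 * x)
        linarith
      linarith
    have h1 : 4 * Real.sinh x / Real.cosh x ^ 2 ≤ -2 * (1 / Real.cosh x) := by
      rw [div_le_iff₀ (by positivity)]
      have e : -2 * (1 / Real.cosh x) * Real.cosh x ^ 2 = -2 * Real.cosh x := by field_simp
      rw [e]; linarith
    have h2 : Real.exp (-|x|) ≤ 1 / Real.cosh x := by
      rw [Real.exp_neg, ← one_div]
      exact one_div_le_one_div_of_le hc (cosh_le_exp_abs x)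
    have h3 : 1 / Real.exp 1 * Real.exp (-(Real.log N / 2)) ≤ Real.exp (-|x|) := by
      have e : 1 / Real.exp 1 = Real.exp (-1) := by rw [Real.exp_neg, one_div]
      rw [e, ← Real.exp_add]
      apply Real.exp_le_exp.mpr
      have h4 := abs_sub_abs_le_abs_sub x (psi ξ N a)
      linarith
    have e5 : -(2 / Real.exp 1) * Real.exp (-(Real.log N / 2))
        = -2 * (1 / Real.exp 1 * Real.exp (-(Real.log N / 2))) := by ring
    rw [e5]
    have : 0 ≤ (8 * Real.exp 1 + 1) * (Real.exp (-|ξ - a|) + Real.exp (-|(ξ + Real.log N + N) - a|)) := by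
      positivity
    linarith
  · have e : |psi ξ N a| = |(ξ + Real.log N + N) - a| := by
      rw [h, ← abs_neg]; congr 1; ring
    rw [e] at hcrude q1
    nlinarith

/-! ### the five facts -/

section main

variable {Z : ℝ → ℂ} {T ξ N Xb : ℝ}

theorem H1 (hZ : ContinuousOn Z (Icc 0 T)) (him : ∀ t ∈ Icc 0 T, 0 < (Z t).im)
    (hξ : |ξ| ≤ Xb) (hN : 1 ≤ N) (htr : Trig ξ N T Z) (t : ℝ) (ht : t ∈ Icc 0 T) :
    |xc (Z t)| ≤ Xb + 1 + clk Z t := by
  have hA0 : 0 ≤ clk Z t := clk_nonneg t ht.1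
  have hAT : clk Z t ≤ clk Z T := clk_mono hZ him ht.1 ht.2 le_rfl
  rw [htr.fin] at hAT
  have h := htr.tube t ht
  have hlog : 0 ≤ Real.log N := Real.log_nonneg hN
  have hξ' := abs_le.mp hξ
  have h1 : |psi ξ N (clk Z t)| ≤ Xb + clk Z t := by
    rw [abs_le]
    constructor
    · unfold psi
      have := le_max_left (ξ - clk Z t) (max (-(Real.log N / 2)) (clk Z t - ξ - Real.log N - N))
      linarith
    · unfold psi
      apply max_le
      · linarith
      · apply max_le <;> linarith [abs_nonneg ξ]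
  have := abs_sub_abs_le_abs_sub (xc (Z t)) (psi ξ N (clk Z t))
  linarith

theorem H2 (hZ : ContinuousOn Z (Icc 0 T)) (him : ∀ t ∈ Icc 0 T, 0 < (Z t).im) (hT : 0 ≤ T)
    (hξ : |ξ| ≤ Xb) (hN : 1 ≤ N) (htr : Trig ξ N T Z) :
    (∫ s in (0:ℝ)..T, 4 * (Z s).im ^ 2 / ‖Z s‖ ^ 4) ≤ 16 * Real.exp 2 * (Xb + 6) := by
  set G : ℝ → ℝ := fun a => 16 * Real.exp 2 *
      (Real.exp (-|ξ - a|) + Real.exp (-|(ξ + Real.log N + N) - a|) + Real.exp (-Real.log N)) with hG
  have hGc : Continuous G := by rw [hG]; fun_prop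
  have hXb : 0 ≤ Xb := (abs_nonneg ξ).trans hξ
  have hξ' := abs_le.mp hξ
  have hlog : 0 ≤ Real.log N := Real.log_nonneg hN
  have hA : 0 ≤ clk Z T := clk_nonneg T hT
  have hrate := cont_rate hZ him
  have hclk := clk_contOn hZ him hT
  have hle : (∫ s in (0:ℝ)..T, 4 * (Z s).im ^ 2 / ‖Z s‖ ^ 4)
      ≤ ∫ s in (0:ℝ)..T, G (clk Z s) * (‖Z s‖ ^ 2)⁻¹ := by
    apply intervalIntegral.integral_mono_on hT
    · apply ContinuousOn.intervalIntegrable
      rw [uIcc_of_le hT]
      apply ContinuousOn.div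
      · exact continuousOn_const.mul ((Complex.continuous_im.comp_continuousOn hZ).pow 2)
      · exact hZ.norm.pow 4
      · intro t ht
        have := norm_pos_of_im (him t ht)
        positivity
    · apply ContinuousOn.intervalIntegrable
      rw [uIcc_of_le hT]
      exact (hGc.comp_continuousOn hclk).mul hrate
    · intro t ht
      rw [im_sq_div (him t ht)]
      apply mul_le_mul_of_nonneg_right _ (by positivity)
      exact pt2 (htr.tube t ht)
  rw [subst hZ him hT hGc] at hle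
  refine hle.trans ?_
  have hi1 : ∀ c : ℝ, IntervalIntegrable (fun a : ℝ => Real.exp (-|c - a|)) volume 0 (clk Z T) :=
    fun c => (by fun_prop : Continuous fun a : ℝ => Real.exp (-|c - a|)).intervalIntegrable _ _
  have hval : (∫ a in (0:ℝ)..(clk Z T), G a) = 16 * Real.exp 2 *
      ((∫ a in (0:ℝ)..(clk Z T), Real.exp (-|ξ - a|)) +
        (∫ a in (0:ℝ)..(clk Z T), Real.exp (-|(ξ + Real.log N + N) - a|)) +
        clk Z T * Real.exp (-Real.log N)) := by
    rw [hG]
    rw [intervalIntegral.integral_const_mul, intervalIntegral.integral_add, intervalIntegral.integral_add,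
      intervalIntegral.integral_const]
    · simp
    · exact hi1 _
    · exact hi1 _
    · exact (hi1 _).add (hi1 _)
    · exact intervalIntegrable_const
  rw [hval]
  apply mul_le_mul_of_nonneg_left _ (by positivity)
  have e1 := integral_exp_abs_le ξ 0 (clk Z T) hA
  have e2 := integral_exp_abs_le (ξ + Real.log N + N) 0 (clk Z T) hA
  have e3 : clk Z T * Real.exp (-Real.log N) ≤ Xb + 2 := by
    rw [Real.exp_neg, Real.exp_log (by linarith), ← div_eq_mul_inv, div_le_iff₀ (by linarith), htr.fin]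
    have hl : Real.log N ≤ N := (Real.log_le_sub_one_of_pos (by linarith)).trans (by linarith)
    nlinarith
  linarith

theorem H3 (hZ : ContinuousOn Z (Icc 0 T)) (him : ∀ t ∈ Icc 0 T, 0 < (Z t).im) (hT : 0 ≤ T)
    (hξ : |ξ| ≤ Xb) (hN : 1 ≤ N) (hNX : Xb + 2 ≤ Real.log N / 2) (htr : Trig ξ N T Z) :
    (∫ s in (0:ℝ)..T, 2 / (Z s) ^ 2).im
      ≤ -(2 / Real.exp 1) * Real.sqrt N + 4 * (8 * Real.exp 1 + 1) := by
  have hXb : 0 ≤ Xb := (abs_nonneg ξ).trans hξ
  have hξ' := abs_le.mp hξ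
  have hlog : 0 ≤ Real.log N := Real.log_nonneg hN
  have hA : 0 ≤ clk Z T := clk_nonneg T hT
  have hrate := cont_rate hZ him
  have hclk := clk_contOn hZ him hT
  have hne : ∀ t ∈ Icc 0 T, Z t ≠ 0 := fun t ht => norm_pos_iff.mp (norm_pos_of_im (him t ht))
  have hcont : ContinuousOn (fun s => 2 / (Z s) ^ 2) (Icc 0 T) :=
    continuousOn_const.div (hZ.pow 2) fun t ht => pow_ne_zero 2 (hne t ht)
  set K : ℝ := 8 * Real.exp 1 + 1 with hK
  have hKpos : 0 ≤ K := by positivity
  set G : ℝ → ℝ := fun a => -(2 / Real.exp 1) * Real.exp (-(Real.log N / 2)) +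
      K * (Real.exp (-|ξ - a|) + Real.exp (-|(ξ + Real.log N + N) - a|)) with hG
  have hGc : Continuous G := by rw [hG]; fun_prop
  have him' : (∫ s in (0:ℝ)..T, 2 / (Z s) ^ 2).im = ∫ s in (0:ℝ)..T, (2 / (Z s) ^ 2).im := by
    have hint : IntervalIntegrable (fun s => 2 / (Z s) ^ 2) volume 0 T := by
      apply ContinuousOn.intervalIntegrable; rw [uIcc_of_le hT]; exact hcont
    have := Complex.imCLM.intervalIntegral_comp_comm hint
    simpa using this.symm
  rw [him']
  have hle : (∫ s in (0:ℝ)..T, (2 / (Z s) ^ 2).im)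
      ≤ ∫ s in (0:ℝ)..T, G (clk Z s) * (‖Z s‖ ^ 2)⁻¹ := by
    apply intervalIntegral.integral_mono_on hT
    · apply ContinuousOn.intervalIntegrable
      rw [uIcc_of_le hT]
      exact Complex.continuous_im.comp_continuousOn hcont
    · apply ContinuousOn.intervalIntegrable
      rw [uIcc_of_le hT]
      exact (hGc.comp_continuousOn hclk).mul hrate
    · intro t ht
      rw [im_two_div_sq (him t ht)]
      apply mul_le_mul_of_nonneg_right _ (by positivity)
      have hAt : clk Z t ≤ clk Z T := clk_mono hZ him ht.1 ht.2 le_rfl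
      rw [htr.fin] at hAt
      exact pt3 (clk_nonneg t ht.1) (by linarith) (by linarith) (by linarith) (by linarith)
        (htr.tube t ht)
  rw [subst hZ him hT hGc] at hle
  refine hle.trans ?_
  have hi1 : ∀ c : ℝ, IntervalIntegrable (fun a : ℝ => Real.exp (-|c - a|)) volume 0 (clk Z T) :=
    fun c => (by fun_prop : Continuous fun a : ℝ => Real.exp (-|c - a|)).intervalIntegrable _ _
  have hval : (∫ a in (0:ℝ)..(clk Z T), G a) =
      clk Z T * (-(2 / Real.exp 1) * Real.exp (-(Real.log N / 2))) + K *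
      ((∫ a in (0:ℝ)..(clk Z T), Real.exp (-|ξ - a|)) +
        (∫ a in (0:ℝ)..(clk Z T), Real.exp (-|(ξ + Real.log N + N) - a|))) := by
    rw [hG]
    rw [intervalIntegral.integral_add, intervalIntegral.integral_const,
      intervalIntegral.integral_const_mul, intervalIntegral.integral_add]
    · simp
    · exact hi1 _
    · exact hi1 _
    · exact intervalIntegrable_const
    · exact ((hi1 _).add (hi1 _)).const_mul _
  rw [hval]
  have e1 := integral_exp_abs_le ξ 0 (clk Z T) hA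
  have e2 := integral_exp_abs_le (ξ + Real.log N + N) 0 (clk Z T) hA
  have hNpos : 0 < N := by linarith
  have e3 : Real.exp (-(Real.log N / 2)) * N = Real.sqrt N := by
    have h1 : Real.exp (Real.log N / 2) = Real.sqrt N := by
      rw [Real.sqrt_eq_rpow, Real.rpow_def_of_pos hNpos]; congr 1; ring
    rw [Real.exp_neg, h1]
    have hs : 0 < Real.sqrt N := Real.sqrt_pos.mpr hNpos
    field_simp
    rw [Real.sq_sqrt hNpos.le]
  have e4 : N ≤ clk Z T := by rw [htr.fin]; linarith
  have e5 : Real.sqrt N ≤ clk Z T * Real.exp (-(Real.log N / 2)) := by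
    rw [← e3, mul_comm]
    exact mul_le_mul_of_nonneg_right e4 (Real.exp_pos _).le
  have h2e0 : 0 < 2 / Real.exp 1 := by positivity
  have e6 : clk Z T * (-(2 / Real.exp 1) * Real.exp (-(Real.log N / 2)))
      ≤ -(2 / Real.exp 1) * Real.sqrt N := by nlinarith
  have e7 : K * ((∫ a in (0:ℝ)..(clk Z T), Real.exp (-|ξ - a|)) +
        (∫ a in (0:ℝ)..(clk Z T), Real.exp (-|(ξ + Real.log N + N) - a|))) ≤ 4 * K := by
    nlinarith
  linarith

theorem H4 (hT : 0 ≤ T) (hξ : |ξ| ≤ Xb) (hN : 1 ≤ N) (hNX : Xb + 2 ≤ Real.log N / 2)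
    (htr : Trig ξ N T Z) : -3 ≤ xc (Z T) ∧ xc (Z T) ≤ -1 := by
  have h := htr.tube T ⟨hT, le_rfl⟩
  have hXb : 0 ≤ Xb := (abs_nonneg ξ).trans hξ
  have hξ' := abs_le.mp hξ
  have hp : psi ξ N (clk Z T) = -2 := by
    rw [htr.fin]
    unfold psi
    rw [max_eq_right, max_eq_right]
    · ring
    · linarith
    · have : ξ + Real.log N + N - 2 - ξ - Real.log N - N = -2 := by ring
      rw [this]
      refine le_trans ?_ (le_max_right _ _)
      linarith
  rw [hp] at h
  have := abs_le.mp h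
  constructor <;> linarith [this.1, this.2]

theorem H5 (hξ : |ξ| ≤ Xb) (htr : Trig ξ N T Z) : clk Z T ≤ N + Real.log N + Xb := by
  rw [htr.fin]
  have hξ' := abs_le.mp hξ
  linarith

end main

end Crest.Agent.R162.U5a
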