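import Crest.Agent.R162.UBDefs
import Crest.Agent.R162.FL1b
import Crest.Agent.R162.U5a

/-!
Row 162 (S0243), node U5br: from the trigger `TrigAt W w r N δ σ T` to the normalised flow
(`W~ = scl y0 (shift W σ)`, `z0 = Z_σ(w)/y0`, `im z0 = 1`) and the tube hypothesis `U5a.Trig`;
transfer of `ups`, `sfl`, `gr` under shift and scaling.
-/

set_option autoImplicit false

open Set MeasureTheory intervalIntegral

namespace Crest.Agent.R162.U5br

open Crest.Agent.R162.FL Crest.Agent.R162.OP Crest.Agent.R162.UB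

variable {W : ℝ → ℝ} {w z : ℂ} {r N δ σ T s t u : ℝ}

/-! ### integrability along an alive flow -/

lemma cont_inv_sq (hW : ContinuousOn W (Ici 0)) (h : Alive W z t) :
    ContinuousOn (fun s => ((Zfl W s z) ^ 2)⁻¹) (Icc 0 t) :=
  ((continuousOn_Zfl hW h).pow 2).inv₀ fun s hs =>
    pow_ne_zero 2 (Zfl_ne_zero (h.mono hs.1 hs.2))

lemma cont_norm_inv (hW : ContinuousOn W (Ici 0)) (h : Alive W z t) :
    ContinuousOn (fun s => 1 / ‖Zfl W s z‖ ^ 2) (Icc 0 t) :=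
  continuousOn_const.div ((continuousOn_Zfl hW h).norm.pow 2) fun s hs =>
    pow_ne_zero 2 (norm_ne_zero_iff.mpr (Zfl_ne_zero (h.mono hs.1 hs.2)))

lemma ii_of_cont {f : ℝ → ℝ} (hf : ContinuousOn f (Icc 0 t)) {a b : ℝ} (ha : a ∈ Icc 0 t)
    (hb : b ∈ Icc 0 t) : IntervalIntegrable f volume a b :=
  (hf.mono (uIcc_subset_Icc ha hb)).intervalIntegrable

/-- `ath` increment as an integral -/
lemma ath_sub (hW : ContinuousOn W (Ici 0)) (h : Alive W z t) (ha : s ∈ Icc 0 t) (hb : u ∈ Icc 0 t) :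
    ath W u z - ath W s z = ∫ v in s..u, 1 / ‖Zfl W v z‖ ^ 2 := by
  have hc := cont_norm_inv hW h
  have h0 : (0:ℝ) ∈ Icc 0 t := ⟨le_rfl, h.1⟩
  unfold ath
  rw [intervalIntegral.integral_interval_sub_left (ii_of_cont hc h0 hb) (ii_of_cont hc h0 ha)]

/-! ### shift and scaling of `ups`, `sfl`, `gr` -/

lemma sfl_shift (h : Alive W z (s + u)) (hs : 0 ≤ s) (hu : 0 ≤ u) :
    sfl W (s + u) z = sfl (shift W s) u (Zfl W s z) := by
  unfold sfl
  rw [Zfl_add h hs hu]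

/-- `Υ_{s+u}(z) = Υ^{shift}_u(Z_s(z)) · Υ_s(z) / Im Z_s(z)` -/
lemma ups_shift (hW : ContinuousOn W (Ici 0)) (h : Alive W z (s + u)) (hs : 0 ≤ s) (hu : 0 ≤ u) :
    ups W (s + u) z = ups (shift W s) u (Zfl W s z) * (ups W s z / (Zfl W s z).im) := by
  have hsA : Alive W z s := h.mono hs (by linarith)
  have hc : ContinuousOn (fun v => 2 * (((Zfl W v z) ^ 2)⁻¹).re) (Icc 0 (s + u)) :=
    continuousOn_const.mul (Complex.continuous_re.comp_continuousOn (cont_inv_sq hW h))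
  have hi1 : IntervalIntegrable (fun v => 2 * (((Zfl W v z) ^ 2)⁻¹).re) volume 0 s :=
    ii_of_cont hc ⟨le_rfl, by linarith⟩ ⟨hs, by linarith⟩
  have hi2 : IntervalIntegrable (fun v => 2 * (((Zfl W v z) ^ 2)⁻¹).re) volume s (s + u) :=
    ii_of_cont hc ⟨hs, by linarith⟩ ⟨by linarith, le_rfl⟩
  have hsh : (∫ v in s..(s + u), 2 * (((Zfl W v z) ^ 2)⁻¹).re)
      = ∫ v in (0:ℝ)..u, 2 * (((Zfl (shift W s) v (Zfl W s z)) ^ 2)⁻¹).re := by
    have e := intervalIntegral.integral_comp_add_left (a := (0:ℝ)) (b := u)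
      (fun v => 2 * (((Zfl W v z) ^ 2)⁻¹).re) s
    simp only [add_zero] at e
    rw [← e]
    apply intervalIntegral.integral_congr
    intro v hv
    rw [uIcc_of_le hu] at hv
    show 2 * (((Zfl W (s + v) z) ^ 2)⁻¹).re = _
    rw [Zfl_add (h.mono (by linarith [hv.1]) (by linarith [hv.2])) hs hv.1]
  have hy : 0 < (Zfl W s z).im := Zfl_im_pos hsA
  have him : (gfl W (s + u) z).im = (gfl (shift W s) u (Zfl W s z)).im := by
    rw [← Zfl_im W (s+u) z, Zfl_add h hs hu, Zfl_im]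
  have hgs : (gfl W s z).im = (Zfl W s z).im := (Zfl_im W s z).symm
  unfold ups
  rw [← intervalIntegral.integral_add_adjacent_intervals hi1 hi2, Real.exp_add, hsh, him, hgs]
  field_simp

lemma ath_shift (hW : ContinuousOn W (Ici 0)) (h : Alive W z (s + u)) (hs : 0 ≤ s) (hu : 0 ≤ u) :
    ath W (s + u) z = ath W s z + ath (shift W s) u (Zfl W s z) := by
  have e0 := ath_sub hW h (s := s) (u := s + u) ⟨hs, by linarith⟩ ⟨by linarith, le_rfl⟩
  have hsh : (∫ v in s..(s + u), 1 / ‖Zfl W v z‖ ^ 2) = ath (shift W s) u (Zfl W s z) := by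
    unfold ath
    have e := intervalIntegral.integral_comp_add_left (a := (0:ℝ)) (b := u)
      (fun v => 1 / ‖Zfl W v z‖ ^ 2) s
    simp only [add_zero] at e
    rw [← e]
    apply intervalIntegral.integral_congr
    intro v hv
    rw [uIcc_of_le hu] at hv
    show 1 / ‖Zfl W (s + v) z‖ ^ 2 = _
    rw [Zfl_add (h.mono (by linarith [hv.1]) (by linarith [hv.2])) hs hv.1]
  rw [hsh] at e0
  linarith

lemma xfl_shift (h : Alive W z (s + u)) (hs : 0 ≤ s) (hu : 0 ≤ u) :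
    xfl W (s + u) z = xfl (shift W s) u (Zfl W s z) := by
  unfold xfl
  rw [Zfl_add h hs hu]

section scaling
variable {l : ℝ}

lemma sfl_scl (hl : 0 < l) (h : Alive W (l * z) (l ^ 2 * t)) :
    sfl (scl l W) t z = sfl W (l ^ 2 * t) (l * z) := by
  unfold sfl
  rw [Zfl_scl hl h, ← Complex.ofReal_inv, Complex.im_ofReal_mul, norm_mul, Complex.norm_real,
    Real.norm_of_nonneg (inv_pos.2 hl).le]
  have hn : ‖Zfl W (l ^ 2 * t) (l * z)‖ ≠ 0 := norm_ne_zero_iff.mpr (Zfl_ne_zero h)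
  field_simp

lemma xfl_scl (hl : 0 < l) (h : Alive W (l * z) (l ^ 2 * t)) :
    xfl (scl l W) t z = xfl W (l ^ 2 * t) (l * z) := by
  unfold xfl
  rw [Zfl_scl hl h, ← Complex.ofReal_inv, Complex.im_ofReal_mul, Complex.re_ofReal_mul]
  congr 1
  have hn : (Zfl W (l ^ 2 * t) (l * z)).im ≠ 0 := (Zfl_im_pos h).ne'
  field_simp

/-- the time change of an integral over the flow under scaling -/
lemma integral_scl (hl : 0 < l) (F : ℝ → ℝ) :
    (∫ v in (0:ℝ)..t, l ^ 2 * F (l ^ 2 * v)) = ∫ v in (0:ℝ)..(l ^ 2 * t), F v := by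
  have hl2 : l ^ 2 ≠ 0 := by positivity
  rw [intervalIntegral.integral_const_mul]
  have := intervalIntegral.mul_integral_comp_mul_left (a := (0:ℝ)) (b := t) (f := F) (c := l ^ 2)
  simpa using this

lemma ath_scl (hl : 0 < l) (h : Alive W (l * z) (l ^ 2 * t)) :
    ath (scl l W) t z = ath W (l ^ 2 * t) (l * z) := by
  have ht : 0 ≤ t := ((alive_scl hl).2 h).1
  unfold ath
  rw [← integral_scl (l := l) hl (fun v => 1 / ‖Zfl W v (l * z)‖ ^ 2)]
  apply intervalIntegral.integral_congr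
  intro v hv
  rw [uIcc_of_le ht] at hv
  have hav : Alive W (l * z) (l ^ 2 * v) :=
    h.mono (mul_nonneg (sq_nonneg l) hv.1) (mul_le_mul_of_nonneg_left hv.2 (sq_nonneg l))
  show 1 / ‖Zfl (scl l W) v z‖ ^ 2 = l ^ 2 * (1 / ‖Zfl W (l ^ 2 * v) (l * z)‖ ^ 2)
  rw [Zfl_scl hl hav, norm_mul, norm_inv, Complex.norm_real, Real.norm_of_nonneg hl.le]
  have hn : ‖Zfl W (l ^ 2 * v) (l * z)‖ ≠ 0 := norm_ne_zero_iff.mpr (Zfl_ne_zero hav)
  field_simp

lemma ups_scl (hl : 0 < l) (h : Alive W (l * z) (l ^ 2 * t)) :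
    ups (scl l W) t z = l⁻¹ * ups W (l ^ 2 * t) (l * z) := by
  have ht : 0 ≤ t := ((alive_scl hl).2 h).1
  have h1 : (gfl (scl l W) t z).im = l⁻¹ * (gfl W (l ^ 2 * t) (l * z)).im := by
    rw [gfl_scl hl h, ← Complex.ofReal_inv, Complex.im_ofReal_mul]
  have h2 : (∫ v in (0:ℝ)..t, 2 * (((Zfl (scl l W) v z) ^ 2)⁻¹).re)
      = ∫ v in (0:ℝ)..(l ^ 2 * t), 2 * (((Zfl W v (l * z)) ^ 2)⁻¹).re := by
    rw [← integral_scl (l := l) hl (fun v => 2 * (((Zfl W v (l * z)) ^ 2)⁻¹).re)]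
    apply intervalIntegral.integral_congr
    intro v hv
    rw [uIcc_of_le ht] at hv
    have hav : Alive W (l * z) (l ^ 2 * v) :=
      h.mono (mul_nonneg (sq_nonneg l) hv.1) (mul_le_mul_of_nonneg_left hv.2 (sq_nonneg l))
    show 2 * (((Zfl (scl l W) v z) ^ 2)⁻¹).re
      = l ^ 2 * (2 * (((Zfl W (l ^ 2 * v) (l * z)) ^ 2)⁻¹).re)
    rw [Zfl_scl hl hav]
    have hl0 : (l : ℂ) ≠ 0 := Complex.ofReal_ne_zero.2 hl.ne'
    have e : (((l:ℂ)⁻¹ * Zfl W (l ^ 2 * v) (l * z)) ^ 2)⁻¹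
        = ((l ^ 2 : ℝ) : ℂ) * ((Zfl W (l ^ 2 * v) (l * z)) ^ 2)⁻¹ := by
      push_cast
      rw [mul_pow, mul_inv, inv_pow, inv_inv]
    rw [e, Complex.re_ofReal_mul]
    ring
  unfold ups
  rw [h1, h2, mul_assoc]

end scaling

/-! ### the normalised flow at a trigger -/

/-- the height of the centred image of `w` at time `σ` -/
noncomputable def y0 (W : ℝ → ℝ) (w : ℂ) (σ : ℝ) : ℝ := (Zfl W σ w).im

/-- normalised driving function -/
noncomputable def Wn (W : ℝ → ℝ) (w : ℂ) (σ : ℝ) : ℝ → ℝ := scl (y0 W w σ) (shift W σ)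

/-- normalised image of `w` -/
noncomputable def z0 (W : ℝ → ℝ) (w : ℂ) (σ : ℝ) : ℂ := ((y0 W w σ : ℝ) : ℂ)⁻¹ * Zfl W σ w

/-- normalised duration -/
noncomputable def Tn (W : ℝ → ℝ) (w : ℂ) (σ T : ℝ) : ℝ := (T - σ) / y0 W w σ ^ 2

lemma y0_pos (h : TrigAt W w r N δ σ T) : 0 < y0 W w σ :=
  Zfl_im_pos (h.alive.mono h.nonneg h.le)

lemma Wn_cont (hW : ContinuousOn W (Ici 0)) (h : TrigAt W w r N δ σ T) :
    ContinuousOn (Wn W w σ) (Ici 0) :=
  continuousOn_scl (continuousOn_shift hW h.nonneg)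

lemma Wn_zero : Wn W w σ 0 = 0 := by simp [Wn, scl]

lemma z0_im (h : TrigAt W w r N δ σ T) : (z0 W w σ).im = 1 := by
  have hy := y0_pos h
  unfold z0
  rw [← Complex.ofReal_inv, Complex.im_ofReal_mul]
  exact inv_mul_cancel₀ hy.ne'

lemma mul_z0 (h : TrigAt W w r N δ σ T) : ((y0 W w σ : ℝ) : ℂ) * z0 W w σ = Zfl W σ w := by
  have hy : ((y0 W w σ : ℝ) : ℂ) ≠ 0 := Complex.ofReal_ne_zero.2 (y0_pos h).ne'
  unfold z0
  rw [← mul_assoc, mul_inv_cancel₀ hy, one_mul]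

lemma Tn_nonneg (h : TrigAt W w r N δ σ T) : 0 ≤ Tn W w σ T :=
  div_nonneg (by linarith [h.le]) (sq_nonneg _)

lemma sq_mul_Tn (h : TrigAt W w r N δ σ T) : y0 W w σ ^ 2 * Tn W w σ T = T - σ := by
  have hy := y0_pos h
  unfold Tn
  field_simp

/-- physical time of a normalised time lies in `[σ, T]` -/
lemma time_mem (h : TrigAt W w r N δ σ T) (hu : u ∈ Icc 0 (Tn W w σ T)) :
    σ + y0 W w σ ^ 2 * u ∈ Icc σ T := by
  have hy := y0_pos h
  have h1 : y0 W w σ ^ 2 * u ≤ y0 W w σ ^ 2 * Tn W w σ T :=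
    mul_le_mul_of_nonneg_left hu.2 (sq_nonneg _)
  rw [sq_mul_Tn h] at h1
  exact ⟨by have := mul_nonneg (sq_nonneg (y0 W w σ)) hu.1; linarith, by linarith⟩

lemma alive_shift_u (h : TrigAt W w r N δ σ T) (hu : u ∈ Icc 0 (Tn W w σ T)) :
    Alive (shift W σ) (((y0 W w σ : ℝ) : ℂ) * z0 W w σ) (y0 W w σ ^ 2 * u) := by
  rw [mul_z0 h]
  have hm := time_mem h hu
  exact alive_shift_right (h.alive.mono (h.nonneg.trans hm.1) hm.2) h.nonneg
    (mul_nonneg (sq_nonneg _) hu.1)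

lemma alive_n (h : TrigAt W w r N δ σ T) (hu : u ∈ Icc 0 (Tn W w σ T)) :
    Alive (Wn W w σ) (z0 W w σ) u :=
  (alive_scl (y0_pos h)).2 (alive_shift_u h hu)

/-- the flow of the normalised point is the physical one, rescaled -/
lemma Zfl_n (h : TrigAt W w r N δ σ T) (hu : u ∈ Icc 0 (Tn W w σ T)) :
    Zfl (Wn W w σ) u (z0 W w σ) = ((y0 W w σ : ℝ) : ℂ)⁻¹ * Zfl W (σ + y0 W w σ ^ 2 * u) w := by
  have hm := time_mem h hu
  unfold Wn
  rw [Zfl_scl (y0_pos h) (alive_shift_u h hu), mul_z0 h,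
    Zfl_add (h.alive.mono (h.nonneg.trans hm.1) hm.2) h.nonneg (mul_nonneg (sq_nonneg _) hu.1)]

lemma xfl_n (h : TrigAt W w r N δ σ T) (hu : u ∈ Icc 0 (Tn W w σ T)) :
    xfl (Wn W w σ) u (z0 W w σ) = xfl W (σ + y0 W w σ ^ 2 * u) w := by
  have hm := time_mem h hu
  unfold Wn
  rw [xfl_scl (y0_pos h) (alive_shift_u h hu), mul_z0 h,
    ← xfl_shift (h.alive.mono (h.nonneg.trans hm.1) hm.2) h.nonneg (mul_nonneg (sq_nonneg _) hu.1)]

lemma ath_n (hW : ContinuousOn W (Ici 0)) (h : TrigAt W w r N δ σ T)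
    (hu : u ∈ Icc 0 (Tn W w σ T)) :
    ath (Wn W w σ) u (z0 W w σ) = ath W (σ + y0 W w σ ^ 2 * u) w - ath W σ w := by
  have hm := time_mem h hu
  have h1 : ath (Wn W w σ) u (z0 W w σ)
      = ath (shift W σ) (y0 W w σ ^ 2 * u) (((y0 W w σ : ℝ) : ℂ) * z0 W w σ) :=
    ath_scl (y0_pos h) (alive_shift_u h hu)
  rw [h1, mul_z0 h,
    ath_shift hW (h.alive.mono (h.nonneg.trans hm.1) hm.2) h.nonneg (mul_nonneg (sq_nonneg _) hu.1)]
  ring

lemma xc_eq (W : ℝ → ℝ) (t : ℝ) (z : ℂ) : U5a.xc (Zfl W t z) = xfl W t z := by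
  unfold U5a.xc xfl
  rw [← Real.arsinh_neg, neg_div]

lemma clk_eq (W : ℝ → ℝ) (t : ℝ) (z : ℂ) : U5a.clk (fun s => Zfl W s z) t = ath W t z := by
  unfold U5a.clk ath
  simp only [one_div]

lemma psi_eq (ξ N a : ℝ) : U5a.psi ξ N a = UB.psi N ξ a := by
  unfold U5a.psi UB.psi
  congr 2
  ring

/-- **the bridge**: the tube hypothesis of U5a for the normalised flow -/
theorem trig (hW : ContinuousOn W (Ici 0)) (h : TrigAt W w r N δ σ T) :
    U5a.Trig (xfl W σ w) N (Tn W w σ T) (fun u => Zfl (Wn W w σ) u (z0 W w σ)) where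
  fin := by
    rw [clk_eq, ath_n hW h ⟨Tn_nonneg h, le_rfl⟩, sq_mul_Tn h]
    have h1 := h.dur_eq
    have e : σ + (T - σ) = T := by ring
    rw [e, h1]
    unfold dur
    ring
  tube := fun t ht => by
    rw [clk_eq, xc_eq, xfl_n h ht, ath_n hW h ht, psi_eq]
    exact h.tube _ (time_mem h ht)

lemma contOn_n (hW : ContinuousOn W (Ici 0)) (h : TrigAt W w r N δ σ T) :
    ContinuousOn (fun u => Zfl (Wn W w σ) u (z0 W w σ)) (Icc 0 (Tn W w σ T)) :=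
  continuousOn_Zfl (Wn_cont hW h) (alive_n h ⟨Tn_nonneg h, le_rfl⟩)

lemma im_n (h : TrigAt W w r N δ σ T) : ∀ u ∈ Icc 0 (Tn W w σ T),
    0 < (Zfl (Wn W w σ) u (z0 W w σ)).im := fun _ hu => Zfl_im_pos (alive_n h hu)

/-- the starting coordinate is bounded in terms of `δ` -/
theorem abs_xfl_le (hδ : 0 < δ) (h : TrigAt W w r N δ σ T) : |xfl W σ w| ≤ Real.log (2 / δ) := by
  have ha : Alive W w σ := h.alive.mono h.nonneg h.le
  have hz : 0 < (Zfl W σ w).im := Zfl_im_pos ha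
  have hc : Real.cosh (U5a.xc (Zfl W σ w)) = ‖Zfl W σ w‖ / (Zfl W σ w).im := U5a.cosh_xc hz
  rw [xc_eq] at hc
  have hn : 0 < ‖Zfl W σ w‖ := U5a.norm_pos_of_im hz
  have hs : δ ≤ (Zfl W σ w).im / ‖Zfl W σ w‖ := h.sfl_ge
  have hle : Real.cosh (xfl W σ w) ≤ 1 / δ := by
    rw [hc]
    rw [le_div_iff₀ hn] at hs
    rw [div_le_div_iff₀ hz hδ]
    linarith
  have h1 : Real.exp |xfl W σ w| / 2 ≤ Real.cosh (xfl W σ w) := by
    rw [← Real.cosh_abs, Real.cosh_eq]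
    have := Real.exp_pos (-|xfl W σ w|)
    linarith
  rw [Real.le_log_iff_exp_le (by positivity)]
  have e : 2 / δ = 2 * (1 / δ) := by ring
  rw [e]
  linarith

/-! ### H1..H5 for the normalised flow (Xb = log (2/δ)) -/

section H
variable (hW : ContinuousOn W (Ici 0)) (hδ : 0 < δ) (h : TrigAt W w r N δ σ T) (hN : 1 ≤ N)
include hW hδ h hN

theorem H1 (ht : t ∈ Icc 0 (Tn W w σ T)) :
    |xfl (Wn W w σ) t (z0 W w σ)| ≤ Real.log (2 / δ) + 1 + ath (Wn W w σ) t (z0 W w σ) := by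
  have := U5a.H1 (contOn_n hW h) (im_n h) (abs_xfl_le hδ h) hN (trig hW h) t ht
  rwa [xc_eq, clk_eq] at this

theorem H2 : (∫ s in (0:ℝ)..(Tn W w σ T), 4 * (Zfl (Wn W w σ) s (z0 W w σ)).im ^ 2 /
      ‖Zfl (Wn W w σ) s (z0 W w σ)‖ ^ 4) ≤ 16 * Real.exp 2 * (Real.log (2 / δ) + 6) :=
  U5a.H2 (contOn_n hW h) (im_n h) (Tn_nonneg h) (abs_xfl_le hδ h) hN (trig hW h)

theorem H3 (hNX : Real.log (2 / δ) + 2 ≤ Real.log N / 2) :
    (∫ s in (0:ℝ)..(Tn W w σ T), 2 / (Zfl (Wn W w σ) s (z0 W w σ)) ^ 2).im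
      ≤ -(2 / Real.exp 1) * Real.sqrt N + 4 * (8 * Real.exp 1 + 1) :=
  U5a.H3 (contOn_n hW h) (im_n h) (Tn_nonneg h) (abs_xfl_le hδ h) hN hNX (trig hW h)

theorem H4 (hNX : Real.log (2 / δ) + 2 ≤ Real.log N / 2) :
    -3 ≤ xfl (Wn W w σ) (Tn W w σ T) (z0 W w σ) ∧ xfl (Wn W w σ) (Tn W w σ T) (z0 W w σ) ≤ -1 := by
  have := U5a.H4 (Tn_nonneg h) (abs_xfl_le hδ h) hN hNX (trig hW h)
  rwa [xc_eq] at this

omit hN in
theorem H5 : ath (Wn W w σ) (Tn W w σ T) (z0 W w σ) ≤ N + Real.log N + Real.log (2 / δ) := by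
  have := U5a.H5 (abs_xfl_le hδ h) (trig hW h)
  rwa [clk_eq] at this

end H

end Crest.Agent.R162.U5br
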