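import Mathlib
import Crest.Agent.R162.Base
import Crest.Agent.R162.FLB
import Crest.Agent.R162.FLD
import Crest.Agent.R162.U5br

/-!
Row 162 (S0243), node LB-CONTENT (a) (helper8): deterministic facts and measurability of the
content functional
`C_t(z) = ∫_0^t χ(lam Υ_s/ε) (lam Υ_s)^{κ/8-1} S_s^{8/κ-1} 1{S_s ≥ c₁} 4 S_s² / |Z_s|² ds`.
`lam = 1` is the content of the point itself; `lam = |f'(z)|` is the content of the point `f z`
for the restarted flow (`f` univalent).
-/

set_option autoImplicit false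

open MeasureTheory Set Filter Topology
open scoped NNReal ENNReal

namespace Crest.Agent.R162.LBCont

open Crest.Agent.R162 Crest.Agent.R162.FL Crest.Agent.R162.OP

/-- rate of the content of the point `z` at time `s` -/
noncomputable def rate (κ : ℝ) (χ : ℝ → ℝ) (ε c₁ lam : ℝ) (W : ℝ → ℝ) (s : ℝ) (z : ℂ) : ℝ :=
  if c₁ ≤ sfl W s z then
    χ (lam * ups W s z / ε) * ((lam * ups W s z) ^ (κ / 8 - 1) * sfl W s z ^ (8 / κ - 1)) *
      (4 * sfl W s z ^ 2 / ‖Zfl W s z‖ ^ 2)
  else 0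

/-- content collected up to time `t` -/
noncomputable def cont (κ : ℝ) (χ : ℝ → ℝ) (ε c₁ lam : ℝ) (W : ℝ → ℝ) (t : ℝ) (z : ℂ) : ℝ≥0∞ :=
  ∫⁻ s in Ioc 0 t, ENNReal.ofReal (rate κ χ ε c₁ lam W s z)

/-- the bump -/
structure Bump (χ : ℝ → ℝ) : Prop where
  meas : Measurable χ
  nonneg : ∀ x, 0 ≤ χ x
  bdd : ∃ M, ∀ x, χ x ≤ M
  cont : ∀ x, x ≠ 1 → x ≠ 2 → ContinuousAt χ x
  supp : ∀ x, χ x ≠ 0 → 1 ≤ x ∧ x ≤ 2
  mass : ∫ x in (1 : ℝ)..2, χ x / x = 1

/-! ### measurability -/

section meas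

variable {Ω : Type*} [MeasurableSpace Ω] {W : Ω → ℝ → ℝ}

/-- primitives of jointly measurable functions are jointly measurable -/
theorem measurable_primitive {α : Type*} [MeasurableSpace α] {F : α × ℝ → ℝ} (hF : Measurable F) :
    Measurable (fun y : α × ℝ => ∫ r in Ioc (0 : ℝ) y.2, F (y.1, r)) := by
  have hset : MeasurableSet {q : (α × ℝ) × ℝ | 0 < q.2 ∧ q.2 ≤ q.1.2} :=
    (measurableSet_lt measurable_const measurable_snd).inter
      (measurableSet_le measurable_snd (measurable_snd.comp measurable_fst))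
  have h1 : Measurable (fun q : (α × ℝ) × ℝ =>
      ({q : (α × ℝ) × ℝ | 0 < q.2 ∧ q.2 ≤ q.1.2}).indicator
        (fun q => F (q.1.1, q.2)) q) :=
    (hF.comp ((measurable_fst.comp measurable_fst).prodMk measurable_snd)).indicator hset
  have h2 := (h1.stronglyMeasurable.integral_prod_right' (ν := volume)).measurable
  convert h2 using 1
  funext y
  rw [← integral_indicator measurableSet_Ioc]
  rfl

theorem measurable_primitive_l {α : Type*} [MeasurableSpace α] {F : α × ℝ → ℝ≥0∞}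
    (hF : Measurable F) :
    Measurable (fun y : α × ℝ => ∫⁻ r in Ioc (0 : ℝ) y.2, F (y.1, r)) := by
  have hset : MeasurableSet {q : (α × ℝ) × ℝ | 0 < q.2 ∧ q.2 ≤ q.1.2} :=
    (measurableSet_lt measurable_const measurable_snd).inter
      (measurableSet_le measurable_snd (measurable_snd.comp measurable_fst))
  have h1 : Measurable (fun q : (α × ℝ) × ℝ =>
      ({q : (α × ℝ) × ℝ | 0 < q.2 ∧ q.2 ≤ q.1.2}).indicator
        (fun q => F (q.1.1, q.2)) q) :=
    (hF.comp ((measurable_fst.comp measurable_fst).prodMk measurable_snd)).indicator hset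
  have h2 := h1.lintegral_prod_right' (ν := volume)
  convert h2 using 1
  funext y
  rw [← lintegral_indicator measurableSet_Ioc]
  rfl

variable {T : ℝ}

/-- `(ω, z, s) ↦ Z_s(z)` is jointly measurable on `[0,T]` -/
theorem measurable_Zfl_joint (hc : ∀ ω, ContinuousOn (W ω) (Icc 0 T))
    (hm : ∀ s ∈ Icc 0 T, Measurable (fun ω => W ω s)) :
    Measurable (fun x : (Ω × ℂ) × ℝ =>
      (Icc 0 T).indicator (fun s => Zfl (W x.1.1) s x.1.2) x.2) := by
  have h1 := FLD.measurable_gfl_joint (W := W) hc hm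
  have h2 := FLD.measurable_drive_joint (W := W) hc hm
  have h3 : Measurable (fun x : (Ω × ℂ) × ℝ =>
      (Icc 0 T).indicator (fun s => W x.1.1 s) x.2) :=
    h2.comp ((measurable_fst.comp measurable_fst).prodMk measurable_snd)
  have h4 : Measurable (fun x : (Ω × ℂ) × ℝ =>
      (Iic T).indicator (fun s => gfl (W x.1.1) s x.1.2) x.2 -
        (((Icc 0 T).indicator (fun s => W x.1.1 s) x.2 : ℝ) : ℂ)) :=
    h1.sub (Complex.measurable_ofReal.comp h3)
  have h5 := h4.indicator (measurable_snd (measurableSet_Icc (a := (0:ℝ)) (b := T)))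
  convert h5 using 1
  funext x
  by_cases hx : x.2 ∈ Icc 0 T
  · rw [indicator_of_mem hx, indicator_of_mem (by simpa using hx),
      indicator_of_mem (mem_Iic.2 hx.2), indicator_of_mem hx]
    rfl
  · rw [indicator_of_notMem hx, indicator_of_notMem (by simpa using hx)]

/-- `(ω, z, s) ↦ Υ_s(z)` is jointly measurable on `[0,T]` -/
theorem measurable_ups_joint (hc : ∀ ω, ContinuousOn (W ω) (Icc 0 T))
    (hm : ∀ s ∈ Icc 0 T, Measurable (fun ω => W ω s)) :
    Measurable (fun x : (Ω × ℂ) × ℝ =>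
      (Icc 0 T).indicator (fun s => ups (W x.1.1) s x.1.2) x.2) := by
  have hZ := measurable_Zfl_joint (W := W) hc hm
  have h1 := FLD.measurable_gfl_joint (W := W) hc hm
  have hF : Measurable (fun x : (Ω × ℂ) × ℝ =>
      2 * ((((Icc 0 T).indicator (fun s => Zfl (W x.1.1) s x.1.2) x.2) ^ 2)⁻¹).re) := by
    fun_prop
  have hP := measurable_primitive hF
  have h4 : Measurable (fun x : (Ω × ℂ) × ℝ =>
      ((Iic T).indicator (fun s => gfl (W x.1.1) s x.1.2) x.2).im *
        Real.exp (∫ r in Ioc (0:ℝ) x.2,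
          2 * ((((Icc 0 T).indicator (fun s => Zfl (W x.1.1) s x.1.2) r) ^ 2)⁻¹).re)) :=
    (Complex.measurable_im.comp h1).mul (Real.measurable_exp.comp hP)
  have h5 := h4.indicator (measurable_snd (measurableSet_Icc (a := (0:ℝ)) (b := T)))
  convert h5 using 1
  funext x
  by_cases hx : x.2 ∈ Icc 0 T
  · rw [indicator_of_mem hx, indicator_of_mem (by simpa using hx),
      indicator_of_mem (mem_Iic.2 hx.2)]
    unfold ups
    rw [intervalIntegral.integral_of_le hx.1]
    congr 2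
    refine setIntegral_congr_fun measurableSet_Ioc fun r hr => ?_
    rw [indicator_of_mem (show r ∈ Icc 0 T from ⟨hr.1.le, hr.2.trans hx.2⟩)]
  · rw [indicator_of_notMem hx, indicator_of_notMem (by simpa using hx)]

/-- `(ω, z, s) ↦ S_s(z)` is jointly measurable on `[0,T]` -/
theorem measurable_sfl_joint (hc : ∀ ω, ContinuousOn (W ω) (Icc 0 T))
    (hm : ∀ s ∈ Icc 0 T, Measurable (fun ω => W ω s)) :
    Measurable (fun x : (Ω × ℂ) × ℝ =>
      (Icc 0 T).indicator (fun s => sfl (W x.1.1) s x.1.2) x.2) := by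
  have hZ := measurable_Zfl_joint (W := W) hc hm
  have h5 : Measurable (fun x : (Ω × ℂ) × ℝ =>
      ((Icc 0 T).indicator (fun s => Zfl (W x.1.1) s x.1.2) x.2).im /
        ‖(Icc 0 T).indicator (fun s => Zfl (W x.1.1) s x.1.2) x.2‖) :=
    (Complex.measurable_im.comp hZ).div hZ.norm
  convert h5 using 1
  funext x
  by_cases hx : x.2 ∈ Icc 0 T
  · rw [indicator_of_mem hx, indicator_of_mem hx]; rfl
  · rw [indicator_of_notMem hx, indicator_of_notMem hx]; simp

/-- the rate is jointly measurable in `(ω, z, s)`, `s ∈ [0,T]`; `lam` may depend on `(ω, z)` -/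
theorem measurable_rate_joint {κ ε c₁ : ℝ} {χ : ℝ → ℝ} (hχ : Measurable χ)
    {lam : Ω × ℂ → ℝ} (hl : Measurable lam)
    (hc : ∀ ω, ContinuousOn (W ω) (Icc 0 T))
    (hm : ∀ s ∈ Icc 0 T, Measurable (fun ω => W ω s)) :
    Measurable (fun x : (Ω × ℂ) × ℝ =>
      (Icc 0 T).indicator (fun s => rate κ χ ε c₁ (lam x.1) (W x.1.1) s x.1.2) x.2) := by
  have hZ := measurable_Zfl_joint (W := W) hc hm
  have hU := measurable_ups_joint (W := W) hc hm
  have hS := measurable_sfl_joint (W := W) hc hm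
  have hlam : Measurable (fun x : (Ω × ℂ) × ℝ => lam x.1) := hl.comp measurable_fst
  set U : (Ω × ℂ) × ℝ → ℝ := fun x => (Icc 0 T).indicator (fun s => ups (W x.1.1) s x.1.2) x.2
    with hUdef
  set S : (Ω × ℂ) × ℝ → ℝ := fun x => (Icc 0 T).indicator (fun s => sfl (W x.1.1) s x.1.2) x.2
    with hSdef
  set Z : (Ω × ℂ) × ℝ → ℂ := fun x => (Icc 0 T).indicator (fun s => Zfl (W x.1.1) s x.1.2) x.2
    with hZdef
  have hm1 : Measurable (fun x => χ (lam x.1 * U x / ε)) :=
    hχ.comp ((hlam.mul hU).div_const ε)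
  have hm2 : Measurable (fun x : (Ω × ℂ) × ℝ => (lam x.1 * U x) ^ (κ / 8 - 1)) :=
    (hlam.mul hU).pow_const _
  have hm3 : Measurable (fun x : (Ω × ℂ) × ℝ => S x ^ (8 / κ - 1)) := hS.pow_const _
  have hm4 : Measurable (fun x : (Ω × ℂ) × ℝ => 4 * S x ^ 2 / ‖Z x‖ ^ 2) :=
    ((hS.pow_const 2).const_mul 4).div (hZ.norm.pow_const 2)
  have hset : MeasurableSet {x : (Ω × ℂ) × ℝ | c₁ ≤ S x} := measurableSet_le measurable_const hS
  have h1 : Measurable (fun x : (Ω × ℂ) × ℝ => if c₁ ≤ S x then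
      χ (lam x.1 * U x / ε) * ((lam x.1 * U x) ^ (κ / 8 - 1) * S x ^ (8 / κ - 1)) *
        (4 * S x ^ 2 / ‖Z x‖ ^ 2) else 0) :=
    Measurable.ite hset ((hm1.mul (hm2.mul hm3)).mul hm4) measurable_const
  have h5 := h1.indicator (measurable_snd (measurableSet_Icc (a := (0:ℝ)) (b := T)))
  convert h5 using 1
  funext x
  by_cases hx : x.2 ∈ Icc 0 T
  · rw [indicator_of_mem hx, indicator_of_mem (by simpa using hx)]
    simp only [hUdef, hSdef, hZdef, indicator_of_mem hx]
    rfl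
  · rw [indicator_of_notMem hx, indicator_of_notMem (by simpa using hx)]

/-- the content is jointly measurable in `(ω, z)` (use with the σ-algebra `F t`) -/
theorem measurable_cont {κ ε c₁ t : ℝ} {χ : ℝ → ℝ} (hχ : Measurable χ)
    {lam : Ω × ℂ → ℝ} (hl : Measurable lam)
    (hc : ∀ ω, ContinuousOn (W ω) (Icc 0 t))
    (hm : ∀ s ∈ Icc 0 t, Measurable (fun ω => W ω s)) :
    Measurable (fun p : Ω × ℂ => cont κ χ ε c₁ (lam p) (W p.1) t p.2) := by
  have h1 := (measurable_rate_joint (κ := κ) (ε := ε) (c₁ := c₁) hχ hl hc hm).ennreal_ofReal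
  have h2 := h1.lintegral_prod_right' (ν := volume.restrict (Ioc 0 t))
  convert h2 using 1
  funext p
  unfold cont
  refine setLIntegral_congr_fun measurableSet_Ioc fun s hs => ?_
  simp only
  rw [indicator_of_mem (show s ∈ Icc 0 t from ⟨hs.1.le, hs.2⟩)]

/-- the content is jointly measurable in `(ω, z, t)`, `t ∈ [0,T]` -/
theorem measurable_cont_joint {κ ε c₁ : ℝ} {χ : ℝ → ℝ} (hχ : Measurable χ)
    {lam : Ω × ℂ → ℝ} (hl : Measurable lam)
    (hc : ∀ ω, ContinuousOn (W ω) (Icc 0 T))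
    (hm : ∀ s ∈ Icc 0 T, Measurable (fun ω => W ω s)) :
    Measurable (fun x : (Ω × ℂ) × ℝ =>
      (Iic T).indicator (fun t => cont κ χ ε c₁ (lam x.1) (W x.1.1) t x.1.2) x.2) := by
  have h1 := (measurable_rate_joint (κ := κ) (ε := ε) (c₁ := c₁) hχ hl hc hm).ennreal_ofReal
  have h2 := (measurable_primitive_l h1).indicator
    (measurable_snd (measurableSet_Iic (a := T)))
  convert h2 using 1
  funext x
  by_cases hx : x.2 ∈ Iic T
  · rw [indicator_of_mem hx, indicator_of_mem (by simpa using hx)]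
    unfold cont
    refine setLIntegral_congr_fun measurableSet_Ioc fun s hs => ?_
    simp only
    rw [indicator_of_mem (show s ∈ Icc 0 T from ⟨hs.1.le, hs.2.trans hx⟩)]
  · rw [indicator_of_notMem hx, indicator_of_notMem (by simpa using hx)]

end meas

/-! ### deterministic facts -/

section det

variable {W : ℝ → ℝ} {z : ℂ} {κ ε c₁ lam : ℝ} {χ : ℝ → ℝ} {s t u : ℝ}

theorem sfl_of_not_alive (h : ¬ Alive W z s) : sfl W s z = 0 := by
  unfold sfl
  rw [Zfl, gfl_of_not_alive h]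
  simp

theorem sfl_nonneg (W : ℝ → ℝ) (s : ℝ) (z : ℂ) : 0 ≤ sfl W s z := by
  by_cases h : Alive W z s
  · exact div_nonneg (Zfl_im_pos h).le (norm_nonneg _)
  · rw [sfl_of_not_alive h]

theorem sfl_le_one (W : ℝ → ℝ) (s : ℝ) (z : ℂ) : sfl W s z ≤ 1 := by
  unfold sfl
  exact div_le_one_of_le₀ ((le_abs_self _).trans (Complex.abs_im_le_norm _)) (norm_nonneg _)

theorem rate_nonneg (hχ : ∀ x, 0 ≤ χ x) (hl : 0 ≤ lam) : 0 ≤ rate κ χ ε c₁ lam W s z := by
  unfold rate
  split_ifs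
  · have h1 := ups_nonneg W s z
    have h2 := sfl_nonneg W s z
    have h3 := hχ (lam * ups W s z / ε)
    positivity
  · exact le_rfl

theorem rate_of_not_alive (h : ¬ Alive W z s) : rate κ χ ε c₁ lam W s z = 0 := by
  unfold rate
  rw [sfl_of_not_alive h]
  split_ifs
  · simp
  · rfl

/-- where the rate does not vanish -/
theorem of_rate_ne_zero (hχ : Bump χ) (hε : 0 < ε) (h : rate κ χ ε c₁ lam W s z ≠ 0) :
    Alive W z s ∧ c₁ ≤ sfl W s z ∧ ε ≤ lam * ups W s z ∧ lam * ups W s z ≤ 2 * ε := by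
  have h1 : c₁ ≤ sfl W s z := by
    by_contra h1
    exact h (by rw [rate, if_neg h1])
  rw [rate, if_pos h1] at h
  have h2 : χ (lam * ups W s z / ε) ≠ 0 := by
    intro h2; apply h; rw [h2]; ring
  have h3 := hχ.supp _ h2
  rw [le_div_iff₀ hε, div_le_iff₀ hε, one_mul] at h3
  refine ⟨?_, h1, h3.1, h3.2⟩
  by_contra ha
  have : sfl W s z = 0 := sfl_of_not_alive ha
  apply h; rw [this]; simp

/-- `4 S² / |Z|² = 4 Y² / |Z|⁴` -/
theorem four_sq_div (W : ℝ → ℝ) (s : ℝ) (z : ℂ) :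
    4 * sfl W s z ^ 2 / ‖Zfl W s z‖ ^ 2 = 4 * (Zfl W s z).im ^ 2 / ‖Zfl W s z‖ ^ 4 := by
  unfold sfl
  rw [div_pow, mul_div_assoc', div_div, ← pow_add]

theorem rate_le (hκ8 : κ ≤ 8) (hκ : 0 < κ) (hχ : Bump χ) (hε : 0 < ε) :
    rate κ χ ε c₁ lam W s z ≤ ε ^ (κ / 8 - 1) *
      (χ (lam * ups W s z / ε) * (4 * (Zfl W s z).im ^ 2 / ‖Zfl W s z‖ ^ 4)) := by
  have hpos : 0 ≤ ε ^ (κ / 8 - 1) *
      (χ (lam * ups W s z / ε) * (4 * (Zfl W s z).im ^ 2 / ‖Zfl W s z‖ ^ 4)) := by
    have := hχ.nonneg (lam * ups W s z / ε)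
    positivity
  unfold rate
  split_ifs with h1
  · rw [four_sq_div]
    by_cases h2 : χ (lam * ups W s z / ε) = 0
    · rw [h2]; simp
    have h3 := hχ.supp _ h2
    rw [le_div_iff₀ hε, div_le_iff₀ hε, one_mul] at h3
    have hS0 := sfl_nonneg W s z
    have hS1 := sfl_le_one W s z
    have e1 : (lam * ups W s z) ^ (κ / 8 - 1) ≤ ε ^ (κ / 8 - 1) :=
      Real.rpow_le_rpow_of_nonpos hε h3.1 (by linarith)
    have e2 : sfl W s z ^ (8 / κ - 1) ≤ 1 := by
      apply Real.rpow_le_one hS0 hS1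
      rw [sub_nonneg, le_div_iff₀ hκ]; linarith
    have e3 : (lam * ups W s z) ^ (κ / 8 - 1) * sfl W s z ^ (8 / κ - 1) ≤ ε ^ (κ / 8 - 1) * 1 :=
      mul_le_mul e1 e2 (Real.rpow_nonneg hS0 _) (Real.rpow_nonneg hε.le _)
    have e4 := hχ.nonneg (lam * ups W s z / ε)
    have e5 : 0 ≤ 4 * (Zfl W s z).im ^ 2 / ‖Zfl W s z‖ ^ 4 := by positivity
    calc χ (lam * ups W s z / ε) * ((lam * ups W s z) ^ (κ / 8 - 1) * sfl W s z ^ (8 / κ - 1)) *
          (4 * (Zfl W s z).im ^ 2 / ‖Zfl W s z‖ ^ 4)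
        ≤ χ (lam * ups W s z / ε) * (ε ^ (κ / 8 - 1) * 1) *
          (4 * (Zfl W s z).im ^ 2 / ‖Zfl W s z‖ ^ 4) := by gcongr
      _ = _ := by ring
  · exact hpos

/-! #### primitive of the bump -/

/-- `Ψ(v) = ∫_1^v χ(r)/r dr`, normalised at the level `1` -/
noncomputable def prim (χ : ℝ → ℝ) (v : ℝ) : ℝ := ∫ r in (1 : ℝ)..v, χ r / r

theorem measurable_div (hχ : Bump χ) : Measurable (fun r => χ r / r) := hχ.meas.div measurable_id

theorem intervalIntegrable_div (hχ : Bump χ) {a b : ℝ} (ha : 0 < a) (hb : 0 < b) :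
    IntervalIntegrable (fun r => χ r / r) volume a b := by
  obtain ⟨M, hM⟩ := hχ.bdd
  have hM0 : 0 ≤ M := (hχ.nonneg 0).trans (hM 0)
  rw [intervalIntegrable_iff]
  refine IntegrableOn.of_bound (C := M / min a b) ?_
    (measurable_div hχ).aestronglyMeasurable ?_
  · rw [uIoc, Real.volume_Ioc]; exact ENNReal.ofReal_lt_top
  · refine (ae_restrict_iff' measurableSet_uIoc).2 (Eventually.of_forall fun x hx => ?_)
    have h1 : 0 < min a b := lt_min ha hb
    have hx1 : min a b < x := hx.1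
    have hx0 : 0 < x := h1.trans hx1
    rw [Real.norm_of_nonneg (div_nonneg (hχ.nonneg x) hx0.le)]
    exact div_le_div₀ hM0 (hM x) h1 hx1.le

theorem hasDerivAt_prim (hχ : Bump χ) {v : ℝ} (hv : 0 < v) (h1 : v ≠ 1) (h2 : v ≠ 2) :
    HasDerivAt (prim χ) (χ v / v) v := by
  have hc : ContinuousAt (fun r => χ r / r) v :=
    (hχ.cont v h1 h2).div continuousAt_id hv.ne'
  exact intervalIntegral.integral_hasDerivAt_right (intervalIntegrable_div hχ one_pos hv)
    ((measurable_div hχ).stronglyMeasurable.stronglyMeasurableAtFilter) hc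

theorem continuousOn_prim (hχ : Bump χ) : ContinuousOn (prim χ) (Ioi 0) := by
  intro v hv
  have hv0 : (0:ℝ) < v := hv
  have ha : 0 < min (v / 2) (1 / 2) := by positivity
  have hb : 0 < max (2 * v) 2 := by positivity
  have hab : min (v / 2) (1 / 2) ≤ max (2 * v) 2 :=
    (min_le_right _ _).trans ((by norm_num : (1:ℝ)/2 ≤ 2).trans (le_max_right _ _))
  have h1 : (1:ℝ) ∈ uIcc (min (v / 2) (1 / 2)) (max (2 * v) 2) := by
    rw [uIcc_of_le hab]
    exact ⟨(min_le_right _ _).trans (by norm_num), (by norm_num : (1:ℝ) ≤ 2).trans (le_max_right _ _)⟩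
  have h := intervalIntegral.continuousOn_primitive_interval' (intervalIntegrable_div hχ ha hb) h1
  rw [uIcc_of_le hab] at h
  have hmem : Icc (min (v / 2) (1 / 2)) (max (2 * v) 2) ∈ 𝓝 v := by
    apply Icc_mem_nhds
    · exact (min_le_left _ _).trans_lt (by linarith)
    · exact lt_of_lt_of_le (by linarith) (le_max_left _ _)
  exact (h.continuousAt hmem).continuousWithinAt

theorem prim_le_one (hχ : Bump χ) {v : ℝ} (hv : 0 < v) : prim χ v ≤ 1 := by
  have key : ∀ a b : ℝ, 0 < a → a ≤ b → 0 ≤ ∫ r in a..b, χ r / r := fun a b ha hab =>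
    intervalIntegral.integral_nonneg hab fun r hr =>
      div_nonneg (hχ.nonneg r) (ha.le.trans hr.1)
  have hz : ∀ a b : ℝ, 2 ≤ a → a ≤ b → ∫ r in a..b, χ r / r = 0 := by
    intro a b ha hab
    rcases eq_or_lt_of_le hab with rfl | hab
    · simp
    rw [intervalIntegral.integral_congr_ae (g := fun _ => (0:ℝ))]
    · simp
    · refine Filter.Eventually.of_forall fun r hr => ?_
      rw [uIoc_of_le hab.le] at hr
      have : χ r = 0 := by
        by_contra h
        have := (hχ.supp r h).2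
        linarith [hr.1]
      rw [this, zero_div]
  have hneg : ∀ a : ℝ, 0 < a → a ≤ 1 → ∫ r in (1:ℝ)..a, χ r / r ≤ 0 := by
    intro a ha ha1
    rw [intervalIntegral.integral_symm]
    linarith [key a 1 ha ha1]
  unfold prim
  rcases le_total v 1 with h1 | h1
  · linarith [hneg v hv h1]
  rcases le_total v 2 with h2 | h2
  · have := intervalIntegral.integral_add_adjacent_intervals
      (intervalIntegrable_div hχ one_pos hv) (intervalIntegrable_div hχ hv two_pos)
    have h3 := key v 2 hv h2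
    rw [hχ.mass] at this
    linarith
  · have := intervalIntegral.integral_add_adjacent_intervals
      (intervalIntegrable_div hχ one_pos two_pos) (intervalIntegrable_div hχ two_pos hv)
    rw [hχ.mass, hz 2 v le_rfl h2] at this
    linarith

theorem prim_nonneg (hχ : Bump χ) {v : ℝ} (_hv : 0 < v) : 0 ≤ prim χ v := by
  unfold prim
  rcases le_total 1 v with h1 | h1
  · exact intervalIntegral.integral_nonneg h1 fun r hr =>
      div_nonneg (hχ.nonneg r) (zero_le_one.trans hr.1)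
  · rw [intervalIntegral.integral_symm]
    have : ∫ r in v..1, χ r / r = 0 := by
      rw [intervalIntegral.integral_congr_ae (g := fun _ => (0:ℝ))]
      · simp
      · have hne : ∀ᵐ r : ℝ ∂volume, r ≠ 1 := by
          simp [ae_iff]
        filter_upwards [hne] with r hr1 hr
        rw [uIoc_of_le h1] at hr
        have : χ r = 0 := by
          by_contra h
          have := (hχ.supp r h).1
          exact hr1 (le_antisymm hr.2 this)
        rw [this, zero_div]
    rw [this]; simp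

theorem prim_eq_one (hχ : Bump χ) {v : ℝ} (hv : 2 ≤ v) : prim χ v = 1 := by
  have hv0 : 0 < v := by linarith
  have := intervalIntegral.integral_add_adjacent_intervals
      (intervalIntegrable_div hχ one_pos two_pos) (intervalIntegrable_div hχ two_pos hv0)
  have hz : ∫ r in (2:ℝ)..v, χ r / r = 0 := by
    rcases eq_or_lt_of_le hv with rfl | hab
    · simp
    rw [intervalIntegral.integral_congr_ae (g := fun _ => (0:ℝ))]
    · simp
    · refine Filter.Eventually.of_forall fun r hr => ?_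
      rw [uIoc_of_le hab.le] at hr
      have : χ r = 0 := by
        by_contra h
        have := (hχ.supp r h).2
        linarith [hr.1]
      rw [this, zero_div]
  unfold prim
  rw [← this, hχ.mass, hz, add_zero]

theorem prim_eq_zero (hχ : Bump χ) {v : ℝ} (_hv : 0 < v) (hv1 : v ≤ 1) : prim χ v = 0 := by
  unfold prim
  rw [intervalIntegral.integral_symm]
  have : ∫ r in v..1, χ r / r = 0 := by
    rw [intervalIntegral.integral_congr_ae (g := fun _ => (0:ℝ))]
    · simp
    · have hne : ∀ᵐ r : ℝ ∂volume, r ≠ 1 := by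
        simp [ae_iff]
      filter_upwards [hne] with r hr1 hr
      rw [uIoc_of_le hv1] at hr
      have : χ r = 0 := by
        by_contra h
        have := (hχ.supp r h).1
        exact hr1 (le_antisymm hr.2 this)
      rw [this, zero_div]
  rw [this]; simp

/-- `d/ds Ψ(lam Υ_s/ε) = - χ(lam Υ_s/ε) 4 Y²/|Z|⁴` off the levels `ε`, `2ε` -/
theorem hasDeriv_prim_ups (hχ : Bump χ) (hε : 0 < ε) (hl : 0 < lam) (hW : ContinuousOn W (Ici 0))
    (hz : Alive W z t) (hs : s ∈ Icc 0 t) (h1 : lam * ups W s z / ε ≠ 1)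
    (h2 : lam * ups W s z / ε ≠ 2) :
    HasDerivWithinAt (fun r => prim χ (lam * ups W r z / ε))
      (-(χ (lam * ups W s z / ε) * (4 * (Zfl W s z).im ^ 2 / ‖Zfl W s z‖ ^ 4))) (Icc 0 t) s := by
  have hp : 0 < ups W s z := ups_pos (hz.mono hs.1 hs.2)
  have hv : 0 < lam * ups W s z / ε := by positivity
  have h3 := ((hasDeriv_ups hW hz hs).const_mul lam).div_const ε
  have h4 := (hasDerivAt_prim hχ hv h1 h2).comp_hasDerivWithinAt s h3
  refine h4.congr_deriv ?_
  field_simp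

theorem continuousOn_rateD (hW : ContinuousOn W (Ici 0)) (hz : Alive W z u) :
    ContinuousOn (fun r => 4 * (Zfl W r z).im ^ 2 / ‖Zfl W r z‖ ^ 4) (Icc 0 u) := by
  refine ContinuousOn.div ?_ ((continuousOn_Zfl hW hz).norm.pow 4) ?_
  · exact continuousOn_const.mul
      ((Complex.continuous_im.comp_continuousOn (continuousOn_Zfl hW hz)).pow 2)
  · intro r hr
    exact pow_ne_zero _ (norm_Zfl_pos_of_mem hz hr).ne'

theorem integrableOn_chi (hχ : Bump χ) (hW : ContinuousOn W (Ici 0)) (hz : Alive W z u)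
    (ε lam : ℝ) :
    IntegrableOn (fun r => χ (lam * ups W r z / ε) *
      (4 * (Zfl W r z).im ^ 2 / ‖Zfl W r z‖ ^ 4)) (Icc 0 u) := by
  obtain ⟨M, hM⟩ := hχ.bdd
  have hc := continuousOn_rateD hW hz
  have hu : ContinuousOn (fun r => lam * ups W r z / ε) (Icc 0 u) :=
    (continuousOn_const.mul (continuousOn_ups hW hz)).div_const ε
  have hm : AEStronglyMeasurable (fun r => χ (lam * ups W r z / ε))
      (volume.restrict (Icc 0 u)) := by
    have h1 : AEMeasurable (fun r => lam * ups W r z / ε) (volume.restrict (Icc 0 u)) :=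
      hu.aemeasurable measurableSet_Icc
    exact (hχ.meas.comp_aemeasurable h1).aestronglyMeasurable
  exact (hc.integrableOn_Icc).bdd_mul (c := M) hm (Eventually.of_forall fun r => by
    rw [Real.norm_of_nonneg (hχ.nonneg _)]; exact hM _)

/-- exact dissipation identity -/
theorem integral_chi (hχ : Bump χ) (hε : 0 < ε) (hl : 0 < lam) (hW : ContinuousOn W (Ici 0))
    (hz : Alive W z u) (hs : 0 ≤ s) (hsu : s ≤ u) :
    ∫ r in s..u, χ (lam * ups W r z / ε) * (4 * (Zfl W r z).im ^ 2 / ‖Zfl W r z‖ ^ 4)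
      = prim χ (lam * ups W s z / ε) - prim χ (lam * ups W u z / ε) := by
  have hsub : Icc s u ⊆ Icc 0 u := Icc_subset_Icc_left hs
  have hinj : InjOn (fun r => lam * ups W r z / ε) (Icc 0 u) := by
    intro a ha b hb hab
    have h1 : ups W a z = ups W b z := by
      have : lam * ups W a z / ε = lam * ups W b z / ε := hab
      field_simp at this
      exact this
    exact (ups_strictAntiOn hW hz).injOn ha hb h1
  set S : Set ℝ := {r | r ∈ Icc 0 u ∧ (lam * ups W r z / ε = 1 ∨ lam * ups W r z / ε = 2)} with hS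
  have hScount : S.Countable := by
    have hfin : (S : Set ℝ).Finite := by
      refine Set.Finite.of_finite_image (f := fun r => lam * ups W r z / ε) ?_
        (hinj.mono fun r hr => hr.1)
      refine (Set.Finite.subset (Set.toFinite {1, 2}) ?_)
      rintro _ ⟨r, hr, rfl⟩
      rcases hr.2 with h | h
      · simp only [h]; simp
      · simp only [h]; simp
    exact hfin.countable
  have h := MeasureTheory.integral_eq_of_hasDerivAt_off_countable_of_le
    (fun r => prim χ (lam * ups W r z / ε))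
    (fun r => -(χ (lam * ups W r z / ε) * (4 * (Zfl W r z).im ^ 2 / ‖Zfl W r z‖ ^ 4)))
    hsu hScount ?_ ?_ ?_
  · rw [intervalIntegral.integral_neg] at h
    linarith
  · have hu : ContinuousOn (fun r => lam * ups W r z / ε) (Icc s u) :=
      ((continuousOn_const.mul (continuousOn_ups hW hz)).div_const ε).mono hsub
    refine (continuousOn_prim hχ).comp hu ?_
    intro r hr
    have := ups_pos (hz.mono (hs.trans hr.1) hr.2)
    exact mem_Ioi.2 (by positivity)
  · intro r hr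
    have hr' : r ∈ Icc 0 u := hsub ⟨hr.1.1.le, hr.1.2.le⟩
    have hne : lam * ups W r z / ε ≠ 1 ∧ lam * ups W r z / ε ≠ 2 := by
      constructor
      · intro h0; exact hr.2 ⟨hr', Or.inl h0⟩
      · intro h0; exact hr.2 ⟨hr', Or.inr h0⟩
    have := hasDeriv_prim_ups hχ hε hl hW hz hr' hne.1 hne.2
    exact this.hasDerivAt (Icc_mem_nhds (hs.trans_lt hr.1.1) hr.1.2)
  · apply IntervalIntegrable.neg
    rw [intervalIntegrable_iff_integrableOn_Ioc_of_le hsu]
    exact (integrableOn_chi hχ hW hz ε lam).mono_set (Ioc_subset_Icc_self.trans hsub)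

/-! #### monotonicity, bounds, continuity -/

theorem cont_mono (h : s ≤ t) : cont κ χ ε c₁ lam W s z ≤ cont κ χ ε c₁ lam W t z :=
  lintegral_mono_set (Ioc_subset_Ioc_right h)

theorem cont_nonpos (h : t ≤ 0) : cont κ χ ε c₁ lam W t z = 0 := by
  unfold cont
  rw [Ioc_eq_empty (not_lt.2 h)]; simp

theorem cont_eq_add (hs : 0 ≤ s) (hst : s ≤ t) :
    cont κ χ ε c₁ lam W t z = cont κ χ ε c₁ lam W s z +
      ∫⁻ r in Ioc s t, ENNReal.ofReal (rate κ χ ε c₁ lam W r z) := by
  unfold cont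
  rw [← lintegral_union measurableSet_Ioc (Ioc_disjoint_Ioc_of_le le_rfl),
    Ioc_union_Ioc_eq_Ioc hs hst]

/-- a function vanishing at dead times is integrated over its alive times -/
theorem lint_le_of_alive {F : ℝ → ℝ≥0∞} {C : ℝ≥0∞} (hs : 0 ≤ s)
    (hF : ∀ r, ¬ Alive W z r → F r = 0)
    (h : ∀ u, s ≤ u → u ≤ t → Alive W z u → ∫⁻ r in Ioc s u, F r ≤ C) :
    ∫⁻ r in Ioc s t, F r ≤ C := by
  let D : Set ℝ := {r | r ∈ Ioc s t ∧ Alive W z r}
  let b := sSup D
  let ι := {q : ℚ // s ≤ (q:ℝ) ∧ (q:ℝ) ≤ t ∧ Alive W z q}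
  let U : Set ℝ := ⋃ i : ι, Ioc s (i.1 : ℝ)
  have hU : ∫⁻ r in U, F r ≤ C := by
    have hdir : Directed (· ⊆ ·) fun i : ι => Ioc s (i.1 : ℝ) := by
      intro i j
      rcases le_total (i.1 : ℝ) (j.1 : ℝ) with hij | hij
      · exact ⟨j, Ioc_subset_Ioc_right hij, le_rfl⟩
      · exact ⟨i, le_rfl, Ioc_subset_Ioc_right hij⟩
    rw [show U = ⋃ i : ι, Ioc s (i.1 : ℝ) from rfl, setLIntegral_iUnion_of_directed _ hdir]
    exact iSup_le fun i => h _ i.2.1 i.2.2.1 i.2.2.2
  have hcov : ∀ r ∈ Ioc s t, F r ≤ (U ∪ {b}).indicator F r := by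
    intro r hr
    by_cases ha : Alive W z r
    · have hrD : r ∈ D := ⟨hr, ha⟩
      have hbdd : BddAbove D := ⟨t, fun x hx => hx.1.2⟩
      have hrb : r ≤ b := le_csSup hbdd hrD
      have hmem : r ∈ U ∪ {b} := by
        rcases eq_or_lt_of_le hrb with h1 | h1
        · exact Or.inr h1
        · left
          obtain ⟨r', hr'D, hr'⟩ := exists_lt_of_lt_csSup ⟨r, hrD⟩ h1
          obtain ⟨q, hq1, hq2⟩ := exists_rat_btwn hr'
          have hq0 : (0:ℝ) ≤ q := hs.trans (hr.1.le.trans hq1.le)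
          refine mem_iUnion.2 ⟨⟨q, (hr.1.trans hq1).le, hq2.le.trans hr'D.1.2,
            hr'D.2.mono hq0 hq2.le⟩, hr.1, hq1.le⟩
      rw [indicator_of_mem hmem]
    · rw [hF r ha]; exact zero_le
  calc ∫⁻ r in Ioc s t, F r ≤ ∫⁻ r in Ioc s t, (U ∪ {b}).indicator F r :=
        setLIntegral_mono' measurableSet_Ioc hcov
    _ ≤ ∫⁻ r, (U ∪ {b}).indicator F r := setLIntegral_le_lintegral _ _
    _ ≤ ∫⁻ r in U ∪ {b}, F r := lintegral_indicator_le _ _
    _ ≤ (∫⁻ r in U, F r) + ∫⁻ r in {b}, F r := lintegral_union_le _ _ _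
    _ ≤ C := by
        have : ∫⁻ r in {b}, F r = 0 := by
          rw [Measure.restrict_eq_zero.2 (by simp)]; simp
        rw [this, add_zero]; exact hU

theorem lint_rate_le (hκ : 0 < κ) (hκ8 : κ ≤ 8) (hχ : Bump χ) (hε : 0 < ε) (hl : 0 < lam)
    (hW : ContinuousOn W (Ici 0)) (hz : Alive W z u) (hs : 0 ≤ s) (hsu : s ≤ u) :
    ∫⁻ r in Ioc s u, ENNReal.ofReal (rate κ χ ε c₁ lam W r z) ≤
      ENNReal.ofReal (ε ^ (κ / 8 - 1) *
        (prim χ (lam * ups W s z / ε) - prim χ (lam * ups W u z / ε))) := by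
  have hint : IntegrableOn (fun r => χ (lam * ups W r z / ε) *
      (4 * (Zfl W r z).im ^ 2 / ‖Zfl W r z‖ ^ 4)) (Ioc s u) :=
    (integrableOn_chi hχ hW hz ε lam).mono_set
      (Ioc_subset_Icc_self.trans (Icc_subset_Icc_left hs))
  have hnn : ∀ r, 0 ≤ χ (lam * ups W r z / ε) *
      (4 * (Zfl W r z).im ^ 2 / ‖Zfl W r z‖ ^ 4) := fun r => by
    have := hχ.nonneg (lam * ups W r z / ε)
    positivity
  calc ∫⁻ r in Ioc s u, ENNReal.ofReal (rate κ χ ε c₁ lam W r z)
      ≤ ∫⁻ r in Ioc s u, ENNReal.ofReal (ε ^ (κ / 8 - 1) * (χ (lam * ups W r z / ε) *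
          (4 * (Zfl W r z).im ^ 2 / ‖Zfl W r z‖ ^ 4))) :=
        lintegral_mono fun r => ENNReal.ofReal_le_ofReal (rate_le hκ8 hκ hχ hε)
    _ = ENNReal.ofReal (∫ r in Ioc s u, ε ^ (κ / 8 - 1) * (χ (lam * ups W r z / ε) *
          (4 * (Zfl W r z).im ^ 2 / ‖Zfl W r z‖ ^ 4))) := by
        rw [ofReal_integral_eq_lintegral_ofReal (hint.const_mul _)]
        exact Eventually.of_forall fun r => mul_nonneg (Real.rpow_nonneg hε.le _) (hnn r)
    _ = _ := by
        rw [integral_const_mul, ← intervalIntegral.integral_of_le hsu,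
          integral_chi hχ hε hl hW hz hs hsu]

/-- increments of the content after time `s` -/
theorem lint_rate_le' (hκ : 0 < κ) (hκ8 : κ ≤ 8) (hχ : Bump χ) (hε : 0 < ε) (hl : 0 < lam)
    (hW : ContinuousOn W (Ici 0)) (hs : 0 ≤ s) (t : ℝ) :
    ∫⁻ r in Ioc s t, ENNReal.ofReal (rate κ χ ε c₁ lam W r z) ≤
      ENNReal.ofReal (ε ^ (κ / 8 - 1) * prim χ (lam * ups W s z / ε)) := by
  refine lint_le_of_alive hs (fun r hr => by rw [rate_of_not_alive hr]; simp) ?_
  intro u hsu _ hu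
  refine (lint_rate_le hκ hκ8 hχ hε hl hW hu hs hsu).trans (ENNReal.ofReal_le_ofReal ?_)
  have h1 : 0 ≤ prim χ (lam * ups W u z / ε) := prim_nonneg hχ (by
    have := ups_pos hu; positivity)
  have h2 : 0 ≤ ε ^ (κ / 8 - 1) := Real.rpow_nonneg hε.le _
  nlinarith [mul_nonneg h2 h1]

theorem lint_rate_le_const (hκ : 0 < κ) (hκ8 : κ ≤ 8) (hχ : Bump χ) (hε : 0 < ε) (hl : 0 < lam)
    (hW : ContinuousOn W (Ici 0)) (hs : 0 ≤ s) (t : ℝ) :
    ∫⁻ r in Ioc s t, ENNReal.ofReal (rate κ χ ε c₁ lam W r z) ≤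
      ENNReal.ofReal (ε ^ (κ / 8 - 1)) := by
  refine lint_le_of_alive hs (fun r hr => by rw [rate_of_not_alive hr]; simp) ?_
  intro u hsu _ hu
  refine (lint_rate_le hκ hκ8 hχ hε hl hW hu hs hsu).trans (ENNReal.ofReal_le_ofReal ?_)
  have hu' : 0 < lam * ups W u z / ε := by have := ups_pos hu; positivity
  have hs' : 0 < lam * ups W s z / ε := by
    have := ups_pos (hu.mono hs hsu); positivity
  have h1 : 0 ≤ prim χ (lam * ups W u z / ε) := prim_nonneg hχ hu'
  have h3 : prim χ (lam * ups W s z / ε) ≤ 1 := prim_le_one hχ hs'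
  have h2 : 0 ≤ ε ^ (κ / 8 - 1) := Real.rpow_nonneg hε.le _
  nlinarith [mul_nonneg h2 h1, mul_nonneg h2 (sub_nonneg.2 h3)]

/-- `C_t ≤ ε^{d-2}` -/
theorem cont_le (hκ : 0 < κ) (hκ8 : κ ≤ 8) (hχ : Bump χ) (hε : 0 < ε) (hl : 0 < lam)
    (hW : ContinuousOn W (Ici 0)) (t : ℝ) :
    cont κ χ ε c₁ lam W t z ≤ ENNReal.ofReal (ε ^ (κ / 8 - 1)) :=
  lint_rate_le_const hκ hκ8 hχ hε hl hW le_rfl t

theorem cont_ne_top (hκ : 0 < κ) (hκ8 : κ ≤ 8) (hχ : Bump χ) (hε : 0 < ε) (hl : 0 < lam)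
    (hW : ContinuousOn W (Ici 0)) (t : ℝ) : cont κ χ ε c₁ lam W t z ≠ ⊤ :=
  ((cont_le hκ hκ8 hχ hε hl hW t).trans_lt ENNReal.ofReal_lt_top).ne

/-- no content before `lam Υ` reaches the level `2ε` -/
theorem lint_rate_eq_zero (hχ : Bump χ) (hε : 0 < ε) (hl : 0 < lam)
    (hW : ContinuousOn W (Ici 0)) (hs : 0 ≤ s) (hz : Alive W z t)
    (h : 2 * ε < lam * ups W t z) :
    ∫⁻ r in Ioc s t, ENNReal.ofReal (rate κ χ ε c₁ lam W r z) = 0 := by
  rw [setLIntegral_congr_fun measurableSet_Ioc (g := fun _ => 0)]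
  · simp
  · intro r hr
    have h0 : rate κ χ ε c₁ lam W r z = 0 := by
      by_contra hne
      have h1 := (of_rate_ne_zero hχ hε hne).2.2.2
      have h2 := ups_anti hW hz (hs.trans hr.1.le) hr.2
      nlinarith
    simp only [h0, ENNReal.ofReal_zero]

/-- no content after `lam Υ` is below the level `ε` -/
theorem lint_rate_eq_zero' (hχ : Bump χ) (hε : 0 < ε) (hl : 0 < lam)
    (hW : ContinuousOn W (Ici 0)) (hs : 0 ≤ s) (t : ℝ)
    (h : lam * ups W s z < ε) :
    ∫⁻ r in Ioc s t, ENNReal.ofReal (rate κ χ ε c₁ lam W r z) = 0 := by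
  rw [setLIntegral_congr_fun measurableSet_Ioc (g := fun _ => 0)]
  · simp
  · intro r hr
    have h0 : rate κ χ ε c₁ lam W r z = 0 := by
      by_contra hne
      have h1 := of_rate_ne_zero hχ hε hne
      have h2 := ups_anti hW h1.1 hs hr.1.le
      nlinarith [h1.2.2.1]
    simp only [h0, ENNReal.ofReal_zero]

/-- pointwise bound by the distance: `rate ≤ ε^{d-2} M 4/|Z|²` -/
theorem rate_le_div (hκ8 : κ ≤ 8) (hκ : 0 < κ) (hχ : Bump χ) (hε : 0 < ε) {M : ℝ}
    (hM : ∀ x, χ x ≤ M) :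
    rate κ χ ε c₁ lam W s z ≤ ε ^ (κ / 8 - 1) * (M * (4 / ‖Zfl W s z‖ ^ 2)) := by
  refine (rate_le hκ8 hκ hχ hε).trans ?_
  have h1 : 4 * (Zfl W s z).im ^ 2 / ‖Zfl W s z‖ ^ 4 ≤ 4 / ‖Zfl W s z‖ ^ 2 := by
    rw [← four_sq_div]
    have := sfl_le_one W s z
    have h0 := sfl_nonneg W s z
    gcongr
    nlinarith
  have h2 : 0 ≤ 4 * (Zfl W s z).im ^ 2 / ‖Zfl W s z‖ ^ 4 := by positivity
  have h3 : 0 ≤ M := (hχ.nonneg 0).trans (hM 0)
  have h4 : 0 ≤ ε ^ (κ / 8 - 1) := Real.rpow_nonneg hε.le _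
  exact mul_le_mul_of_nonneg_left (mul_le_mul (hM _) h1 h2 h3) h4

/-- the content collected while `|Z| ≥ m` (deterministic, used for far points) -/
theorem lint_rate_le_time (hκ8 : κ ≤ 8) (hκ : 0 < κ) (hχ : Bump χ) (hε : 0 < ε) {M m : ℝ}
    (hM : ∀ x, χ x ≤ M) (hm : 0 < m) (_hst : s ≤ t)
    (hZ : ∀ r ∈ Ioc s t, Alive W z r → m ≤ ‖Zfl W r z‖) :
    ∫⁻ r in Ioc s t, ENNReal.ofReal (rate κ χ ε c₁ lam W r z) ≤
      ENNReal.ofReal (ε ^ (κ / 8 - 1) * (M * (4 * (t - s) / m ^ 2))) := by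
  have h3 : 0 ≤ M := (hχ.nonneg 0).trans (hM 0)
  have h4 : 0 ≤ ε ^ (κ / 8 - 1) := Real.rpow_nonneg hε.le _
  calc ∫⁻ r in Ioc s t, ENNReal.ofReal (rate κ χ ε c₁ lam W r z)
      ≤ ∫⁻ r in Ioc s t, ENNReal.ofReal (ε ^ (κ / 8 - 1) * (M * (4 / m ^ 2))) := by
        refine setLIntegral_mono' measurableSet_Ioc fun r hr => ENNReal.ofReal_le_ofReal ?_
        by_cases ha : Alive W z r
        · refine (rate_le_div hκ8 hκ hχ hε hM).trans ?_
          have := hZ r hr ha
          gcongr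
        · rw [rate_of_not_alive ha]; positivity
    _ = ENNReal.ofReal (ε ^ (κ / 8 - 1) * (M * (4 / m ^ 2))) * ENNReal.ofReal (t - s) := by
        rw [setLIntegral_const, Real.volume_Ioc]
    _ = _ := by
        rw [← ENNReal.ofReal_mul (by positivity)]
        congr 1; ring

/-! #### restart (cocycle) -/

theorem rate_shift (hW : ContinuousOn W (Ici 0)) (hs : 0 ≤ s) (hu : 0 ≤ u) (hz : Alive W z s) :
    rate κ χ ε c₁ lam W (s + u) z =
      rate κ χ ε c₁ (lam * (ups W s z / (Zfl W s z).im)) (shift W s) u (Zfl W s z) := by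
  by_cases h : Alive W z (s + u)
  · unfold rate
    rw [U5br.sfl_shift h hs hu, U5br.ups_shift hW h hs hu, Zfl_add h hs hu]
    have e : lam * (ups (shift W s) u (Zfl W s z) * (ups W s z / (Zfl W s z).im)) =
      lam * (ups W s z / (Zfl W s z).im) * ups (shift W s) u (Zfl W s z) := by ring
    rw [e]
  · have h' : ¬ Alive (shift W s) (Zfl W s z) u := fun h2 => h (alive_of_shift hW hz h2)
    rw [rate_of_not_alive h, rate_of_not_alive h']

theorem lint_shift (f : ℝ → ℝ≥0∞) (s t : ℝ) :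
    ∫⁻ r in Ioc s (s + t), f r = ∫⁻ r in Ioc 0 t, f (s + r) := by
  rw [← lintegral_indicator measurableSet_Ioc, ← lintegral_indicator measurableSet_Ioc,
    ← lintegral_add_left_eq_self _ s]
  congr 1
  funext r
  by_cases h : r ∈ Ioc 0 t
  · rw [indicator_of_mem h, indicator_of_mem (by rw [mem_Ioc] at h ⊢; constructor <;> linarith [h.1, h.2])]
  · rw [indicator_of_notMem h, indicator_of_notMem (by
      intro h2; apply h; rw [mem_Ioc] at h2 ⊢; constructor <;> linarith [h2.1, h2.2])]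

/-- the increment after time `s` is the content of the restarted flow -/
theorem cont_shift (hW : ContinuousOn W (Ici 0)) (hs : 0 ≤ s) (hz : Alive W z s) (t : ℝ) :
    ∫⁻ r in Ioc s (s + t), ENNReal.ofReal (rate κ χ ε c₁ lam W r z) =
      cont κ χ ε c₁ (lam * (ups W s z / (Zfl W s z).im)) (shift W s) t (Zfl W s z) := by
  rw [lint_shift]
  unfold cont
  refine setLIntegral_congr_fun measurableSet_Ioc fun r hr => ?_
  rw [rate_shift hW hs hr.1.le hz]

theorem lint_rate_of_not_alive (hz : ¬ Alive W z s) (hs : 0 ≤ s) (t : ℝ) :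
    ∫⁻ r in Ioc s t, ENNReal.ofReal (rate κ χ ε c₁ lam W r z) = 0 := by
  rw [setLIntegral_congr_fun measurableSet_Ioc (g := fun _ => 0)]
  · simp
  · intro r hr
    simp only
    rw [rate_of_not_alive fun h => hz (h.mono hs hr.1.le), ENNReal.ofReal_zero]

/-- the content only depends on the driving function up to time `t` -/
theorem cont_congr {W' : ℝ → ℝ} (h : ∀ r ∈ Icc 0 t, W r = W' r) :
    cont κ χ ε c₁ lam W t z = cont κ χ ε c₁ lam W' t z := by
  unfold cont
  refine setLIntegral_congr_fun measurableSet_Ioc fun r hr => ?_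
  have hr' : ∀ v ∈ Icc 0 r, W v = W' v := fun v hv => h v ⟨hv.1, hv.2.trans hr.2⟩
  have hg : ∀ v ∈ Icc 0 r, gfl W v z = gfl W' v z := fun v hv =>
    FLD.gfl_congr fun x hx => hr' x ⟨hx.1, hx.2.trans hv.2⟩
  have hZ : ∀ v ∈ Icc 0 r, Zfl W v z = Zfl W' v z := fun v hv => by
    unfold Zfl; rw [hg v hv, hr' v hv]
  have hrm : r ∈ Icc 0 r := ⟨hr.1.le, le_rfl⟩
  have hS : sfl W r z = sfl W' r z := by unfold sfl; rw [hZ r hrm]
  have hU : ups W r z = ups W' r z := by
    unfold ups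
    rw [hg r hrm]
    congr 2
    refine intervalIntegral.integral_congr fun v hv => ?_
    rw [uIcc_of_le hr.1.le] at hv
    rw [hZ v hv]
  simp only [rate, hS, hU, hZ r hrm]

/-! #### continuity in time -/

theorem continuousOn_lint {F : ℝ → ℝ≥0∞} {T : ℝ}
    (hF : AEMeasurable F (volume.restrict (Ioc 0 T))) (h : ∫⁻ r in Ioc 0 T, F r ≠ ⊤) :
    ContinuousOn (fun t => ∫⁻ r in Ioc 0 t, F r) (Icc 0 T) := by
  have hint : IntegrableOn (fun r => (F r).toReal) (Ioc 0 T) :=
    integrable_toReal_of_lintegral_ne_top hF h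
  have hae : ∀ᵐ r ∂(volume.restrict (Ioc 0 T)), F r ≠ ⊤ := by
    filter_upwards [ae_lt_top' hF h] with r hr using hr.ne
  have key : ∀ t ∈ Icc 0 T, ∫⁻ r in Ioc 0 t, F r =
      ENNReal.ofReal (∫ r in (0:ℝ)..t, (F r).toReal) := by
    intro t ht
    have hsub : Ioc 0 t ⊆ Ioc 0 T := Ioc_subset_Ioc_right ht.2
    rw [intervalIntegral.integral_of_le ht.1,
      ofReal_integral_eq_lintegral_ofReal (hint.mono_set hsub)
        (Eventually.of_forall fun _ => ENNReal.toReal_nonneg)]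
    apply lintegral_congr_ae
    filter_upwards [ae_restrict_of_ae_restrict_of_subset hsub hae] with r hr
    rw [ENNReal.ofReal_toReal hr]
  have hc : ContinuousOn (fun t => ∫ r in (0:ℝ)..t, (F r).toReal) (Icc 0 T) := by
    rcases le_or_gt 0 T with hT | hT
    · have := intervalIntegral.continuousOn_primitive_interval (f := fun r => (F r).toReal)
        (μ := volume) (a := 0) (b := T) (by
          rw [uIcc_of_le hT, integrableOn_Icc_iff_integrableOn_Ioc]; exact hint)
      rwa [uIcc_of_le hT] at this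
    · rw [Icc_eq_empty (not_le.2 hT)]; exact continuousOn_empty _
  exact (ENNReal.continuous_ofReal.comp_continuousOn hc).congr key

end det

end Crest.Agent.R162.LBCont
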