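import Mathlib
import Crest.Agent.R162.LBDefs
import Crest.Agent.R162.LBCont
import Crest.Agent.R162.FLC3
import Crest.Agent.R162.LB3a

/-!
Row 162 (S0243), node LB-CONTENT (a), part 2 (helper8): the facts of `LBCont` for the frozen
definitions `LB.cd`, `LB.cz`, `LB.content`, `LB.Ct`, `LB.mu` of `LBDefs`.
-/

set_option autoImplicit false

open MeasureTheory Set Filter Topology
open scoped NNReal ENNReal

namespace Crest.Agent.R162.LBCont

open Crest.Agent.R162 Crest.Agent.R162.FL Crest.Agent.R162.OP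

theorem bump_chi : Bump LB.chi where
  meas := LB.measurable_chi
  nonneg := LB.chi_nonneg
  bdd := ⟨_, LB.chi_le⟩
  cont := by
    intro x h1 h2
    by_cases hx : x ∈ Icc (1:ℝ) 2
    · have hx' : x ∈ Ioo (1:ℝ) 2 := ⟨lt_of_le_of_ne hx.1 (Ne.symm h1), lt_of_le_of_ne hx.2 h2⟩
      have : LB.chi =ᶠ[𝓝 x] fun _ => (Real.log 2)⁻¹ := by
        filter_upwards [isOpen_Ioo.mem_nhds hx'] with y hy
        exact LB.chi_of_mem ⟨hy.1.le, hy.2.le⟩
      exact (continuousAt_const.congr this.symm)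
    · have : LB.chi =ᶠ[𝓝 x] fun _ => (0:ℝ) := by
        filter_upwards [isClosed_Icc.isOpen_compl.mem_nhds hx] with y hy
        exact LB.chi_of_not_mem hy
      exact (continuousAt_const.congr this.symm)
  supp := fun x h => LB.mem_of_chi_ne_zero h
  mass := LB.integral_chi

variable {W : ℝ → ℝ} {z : ℂ} {κ ε c1 lam : ℝ} {s t u : ℝ} {f : ℂ → ℂ} {B : Set ℂ} {E : Set ℝ}

theorem cd_eq (κ ε c1 lam : ℝ) (W : ℝ → ℝ) (s : ℝ) (z : ℂ) :
    LB.cd κ ε c1 lam W s z = rate κ LB.chi ε c1 lam W s z := by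
  unfold LB.cd rate
  split_ifs <;> ring

theorem cz_Ioc (κ ε c1 lam : ℝ) (W : ℝ → ℝ) (t : ℝ) (z : ℂ) :
    LB.cz κ ε c1 lam W (Ioc 0 t) z = cont κ LB.chi ε c1 lam W t z := by
  unfold LB.cz cont
  simp only [cd_eq]

theorem cz_eq (κ ε c1 lam : ℝ) (W : ℝ → ℝ) (E : Set ℝ) (z : ℂ) :
    LB.cz κ ε c1 lam W E z = ∫⁻ s in E, ENNReal.ofReal (rate κ LB.chi ε c1 lam W s z) := by
  unfold LB.cz
  simp only [cd_eq]

theorem Ct_eq (κ ε c1 : ℝ) (W : ℝ → ℝ) (t : ℝ) (z : ℂ) :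
    LB.Ct κ ε c1 W t z = cont κ LB.chi ε c1 1 W t z := cz_Ioc κ ε c1 1 W t z

theorem cd_nonneg' (hl : 0 ≤ lam) : 0 ≤ LB.cd κ ε c1 lam W s z := by
  rw [cd_eq]; exact rate_nonneg bump_chi.nonneg hl

/-- bound of the density by the distance to the tip -/
theorem cd_le_div (hκ : 0 < κ) (hκ8 : κ ≤ 8) (hε : 0 < ε) :
    LB.cd κ ε c1 lam W s z ≤ ε ^ (κ / 8 - 1) * ((Real.log 2)⁻¹ * (4 / ‖Zfl W s z‖ ^ 2)) := by
  rw [cd_eq]; exact rate_le_div hκ8 hκ bump_chi hε LB.chi_le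

theorem cd_le (hκ : 0 < κ) (hκ8 : κ ≤ 8) (hε : 0 < ε) :
    LB.cd κ ε c1 lam W s z ≤ ε ^ (κ / 8 - 1) *
      (LB.chi (lam * ups W s z / ε) * (4 * (Zfl W s z).im ^ 2 / ‖Zfl W s z‖ ^ 4)) := by
  rw [cd_eq]; exact rate_le hκ8 hκ bump_chi hε

theorem cz_of_lam_zero : LB.cz κ ε c1 0 W E z = 0 := by
  rw [cz_eq]
  have h : ∀ s, rate κ LB.chi ε c1 0 W s z = 0 := by
    intro s
    unfold rate
    rw [zero_mul, zero_div, LB.chi_of_not_mem (by simp)]
    split_ifs <;> simp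
  simp only [h]
  simp

/-- `cz` over any set of positive times is at most `ε^{d-2}` -/
theorem cz_le (hκ : 0 < κ) (hκ8 : κ ≤ 8) (hε : 0 < ε) (hl : 0 ≤ lam)
    (hW : ContinuousOn W (Ici 0)) (hE : E ⊆ Ioi 0) :
    LB.cz κ ε c1 lam W E z ≤ ENNReal.ofReal (ε ^ (κ / 8 - 1)) := by
  rcases eq_or_lt_of_le hl with rfl | hl
  · rw [cz_of_lam_zero]; exact zero_le
  refine (LB.cz_mono hE z).trans ?_
  rw [cz_eq]
  have hU : (Ioi (0:ℝ)) = ⋃ n : ℕ, Ioc (0:ℝ) n := by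
    ext x
    simp only [mem_Ioi, mem_iUnion, mem_Ioc]
    constructor
    · intro hx
      obtain ⟨n, hn⟩ := exists_nat_ge x
      exact ⟨n, hx, hn⟩
    · rintro ⟨n, hx, _⟩; exact hx
  have hdir : Directed (· ⊆ ·) fun n : ℕ => Ioc (0:ℝ) n := by
    apply Monotone.directed_le
    intro i j hij
    exact Ioc_subset_Ioc_right (by exact_mod_cast hij)
  rw [hU, setLIntegral_iUnion_of_directed _ hdir]
  exact iSup_le fun n => lint_rate_le_const hκ hκ8 bump_chi hε hl hW le_rfl _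

theorem cz_ne_top (hκ : 0 < κ) (hκ8 : κ ≤ 8) (hε : 0 < ε) (hl : 0 ≤ lam)
    (hW : ContinuousOn W (Ici 0)) (hE : E ⊆ Ioi 0) :
    LB.cz κ ε c1 lam W E z ≠ ⊤ :=
  ((cz_le hκ hκ8 hε hl hW hE).trans_lt ENNReal.ofReal_lt_top).ne

/-! ### measurability of the pull-back sets -/

theorem isOpen_H : IsOpen {z : ℂ | 0 < z.im} := isOpen_lt continuous_const Complex.continuous_im

theorem measurableSet_pre (hf : ContinuousOn f {z | 0 < z.im}) (hB : MeasurableSet B) :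
    MeasurableSet {z : ℂ | 0 < z.im ∧ f z ∈ B} := by
  classical
  have h1 : Measurable (({z : ℂ | 0 < z.im}).piecewise f (fun _ => (0:ℂ))) :=
    hf.measurable_piecewise continuousOn_const isOpen_H.measurableSet
  have h2 := isOpen_H.measurableSet.inter (h1 hB)
  convert h2 using 1
  ext z
  simp only [mem_inter_iff, mem_preimage]
  constructor
  · rintro ⟨hz, hb⟩
    refine ⟨hz, ?_⟩
    rw [piecewise_eq_of_mem _ _ _ (show z ∈ {z : ℂ | 0 < z.im} from hz)]; exact hb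
  · rintro ⟨hz, hb⟩
    refine ⟨hz, ?_⟩
    rw [piecewise_eq_of_mem _ _ _ hz] at hb; exact hb

/-! ### joint measurability -/

section meas

variable {Ω : Type*} [MeasurableSpace Ω] {W : Ω → ℝ → ℝ} {T : ℝ}

theorem measurable_cd_joint {lam : Ω × ℂ → ℝ} (hl : Measurable lam)
    (hc : ∀ ω, ContinuousOn (W ω) (Icc 0 T))
    (hm : ∀ s ∈ Icc 0 T, Measurable (fun ω => W ω s)) :
    Measurable (fun x : (Ω × ℂ) × ℝ =>
      (Icc 0 T).indicator (fun s => LB.cd κ ε c1 (lam x.1) (W x.1.1) s x.1.2) x.2) := by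
  simp only [cd_eq]
  exact measurable_rate_joint LB.measurable_chi hl hc hm

/-- `(ω, z) ↦ cz … (E ω) z`, random time set `E ω ⊆ [0,T]` -/
theorem measurable_cz {lam : Ω × ℂ → ℝ} (hl : Measurable lam)
    (hc : ∀ ω, ContinuousOn (W ω) (Icc 0 T))
    (hm : ∀ s ∈ Icc 0 T, Measurable (fun ω => W ω s)) {E : Ω → Set ℝ}
    (hE : MeasurableSet {x : Ω × ℝ | x.2 ∈ E x.1}) (hE' : ∀ ω, E ω ⊆ Icc 0 T) :
    Measurable (fun p : Ω × ℂ => LB.cz κ ε c1 (lam p) (W p.1) (E p.1) p.2) := by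
  have h1 := (measurable_cd_joint (κ := κ) (ε := ε) (c1 := c1) hl hc hm).ennreal_ofReal
  have hset : MeasurableSet {x : (Ω × ℂ) × ℝ | x.2 ∈ E x.1.1} :=
    (((measurable_fst.comp measurable_fst).prodMk measurable_snd) :
      Measurable (fun x : (Ω × ℂ) × ℝ => (x.1.1, x.2))) hE
  have h2 := (h1.indicator hset).lintegral_prod_right' (ν := volume)
  convert h2 using 1
  funext p
  unfold LB.cz
  have hEm : MeasurableSet (E p.1) := by
    have : Measurable (fun s : ℝ => ((p.1, s) : Ω × ℝ)) := measurable_const.prodMk measurable_id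
    exact this hE
  rw [← lintegral_indicator hEm]
  congr 1
  funext s
  by_cases hs : s ∈ E p.1
  · rw [indicator_of_mem hs, indicator_of_mem (show (p, s) ∈ {x : (Ω × ℂ) × ℝ | x.2 ∈ E x.1.1} from hs),
      indicator_of_mem (hE' _ hs)]
  · rw [indicator_of_notMem hs,
      indicator_of_notMem (show (p, s) ∉ {x : (Ω × ℂ) × ℝ | x.2 ∈ E x.1.1} from hs)]

/-- `ω ↦ content κ ε c1 f (W ω) (E ω) B` is measurable -/
theorem measurable_content (f : ℂ → ℂ) (B : Set ℂ)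
    (hc : ∀ ω, ContinuousOn (W ω) (Icc 0 T))
    (hm : ∀ s ∈ Icc 0 T, Measurable (fun ω => W ω s)) {E : Ω → Set ℝ}
    (hE : MeasurableSet {x : Ω × ℝ | x.2 ∈ E x.1}) (hE' : ∀ ω, E ω ⊆ Icc 0 T) :
    Measurable (fun ω => LB.content κ ε c1 f (W ω) (E ω) B) := by
  have hd : Measurable (fun z : ℂ => ‖deriv f z‖) := (measurable_deriv f).norm
  have h1 := measurable_cz (κ := κ) (ε := ε) (c1 := c1)
    (hd.comp (measurable_snd (α := Ω) (β := ℂ))) hc hm hE hE'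
  have h2 : Measurable (fun p : Ω × ℂ => ENNReal.ofReal (‖deriv f p.2‖ ^ 2) *
      LB.cz κ ε c1 ‖deriv f p.2‖ (W p.1) (E p.1) p.2) :=
    ((hd.comp measurable_snd).pow_const 2).ennreal_ofReal.mul h1
  exact h2.lintegral_prod_right' (ν := volume.restrict {z : ℂ | 0 < z.im ∧ f z ∈ B})

theorem measurable_content_Ioc (f : ℂ → ℂ) (B : Set ℂ)
    (hc : ∀ ω, ContinuousOn (W ω) (Icc 0 T))
    (hm : ∀ s ∈ Icc 0 T, Measurable (fun ω => W ω s)) {a b : ℝ} (ha : 0 ≤ a) (hb : b ≤ T) :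
    Measurable (fun ω => LB.content κ ε c1 f (W ω) (Ioc a b) B) :=
  measurable_content f B hc hm (E := fun _ => Ioc a b)
    (measurable_snd measurableSet_Ioc) fun _ _ hs => ⟨ha.trans hs.1.le, hs.2.trans hb⟩

/-- `(ω, z) ↦ C_t(z)` is measurable -/
theorem measurable_Ct {t : ℝ}
    (hc : ∀ ω, ContinuousOn (W ω) (Icc 0 t))
    (hm : ∀ s ∈ Icc 0 t, Measurable (fun ω => W ω s)) :
    Measurable (fun p : Ω × ℂ => LB.Ct κ ε c1 (W p.1) t p.2) := by
  simp only [Ct_eq]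
  exact measurable_cont LB.measurable_chi (lam := fun _ => (1:ℝ)) measurable_const hc hm

end meas

end Crest.Agent.R162.LBCont
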