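import Mathlib
import Crest.Agent.R162.LB3b1
import Crest.Agent.R162.LB3b2
import Crest.Agent.R162.LB3b3
import Crest.Agent.R162.LB3bAx
import Crest.Agent.R162.LB3bTk
import Crest.Agent.R162.LBCont2
import Crest.Agent.R162.LB2h

/-!
Row 162 (S0243), node LB3b, fifth part (helper268): the near content of one scale window in
expectation.
-/

set_option autoImplicit false

open MeasureTheory Set
open scoped ENNReal NNReal
open Crest.ProbabilityR.Loewner

namespace Crest.Agent.R162.LB3b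

open Crest.Agent.R162.FL Crest.Agent.R162.OS Crest.Agent.R162.FLD

universe u

/-! ### one path -/

section path

variable {f : ℂ → ℂ} {W : ℝ → ℝ} {x : ℂ} {L ρ t : ℝ}

/-- the axis of the state map at time `t` stays near `x` (not `Bad2`). -/
theorem axis_near (hρ : 0 < ρ)
    (hP1 : ∀ y, 0 < y → y ≤ 10 * ρ → ‖f (y * Complex.I) - x‖ ≤ L / 32)
    (hnb : ¬ ∃ y : ℝ, 0 < y ∧ y ≤ 10 * ρ ∧
      L / 16 < ‖f (ffl W t (y * Complex.I)) - f ((10 * ρ : ℝ) * Complex.I)‖) :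
    ∀ y, 0 < y → y ≤ 10 * ρ → ‖(f ∘ ffl W t) (y * Complex.I) - x‖ ≤ 3 * L / 32 := by
  intro y hy hy10
  push Not at hnb
  have h1 := hnb y hy hy10
  have h2 := hP1 (10 * ρ) (by positivity) le_rfl
  have h3 : (f ∘ ffl W t) (y * Complex.I) - x
      = (f (ffl W t (y * Complex.I)) - f ((10 * ρ : ℝ) * Complex.I))
        + (f ((10 * ρ : ℝ) * Complex.I) - x) := by
    simp only [Function.comp_apply]
    ring
  rw [h3]
  refine (norm_add_le _ _).trans ?_
  linarith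

/-- the Green mass near `x` at time `t`, pathwise -/
theorem path_mass {κ : ℝ} (hκ : 0 < κ) (hκ8 : κ < 8) :
    ∃ C c : ℝ, 0 < C ∧ 0 < c ∧ c ≤ 1 / 2 ∧ ∀ (f : ℂ → ℂ), DifferentiableOn ℂ f KB1.Hs →
      InjOn f KB1.Hs → ∀ (W : ℝ → ℝ), ContinuousOn W (Ici 0) → ∀ (t ρ : ℝ), 0 ≤ t → 0 < ρ →
      t ≤ ρ ^ 2 → |W t| ≤ ρ → ∀ (x : ℂ) (L : ℝ), 0 < L →
      (∀ y, 0 < y → y ≤ 10 * ρ → ‖(f ∘ ffl W t) (y * Complex.I) - x‖ ≤ 3 * L / 32) →
      ∀ v : ℝ, 0 ≤ v → KB1.ups f ((ρ : ℂ) * Complex.I) ≤ 2 * v * L →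
      (∀ k : ℕ, KB1.ups (f ∘ ffl W t) ((yk ρ k : ℂ) * Complex.I) / L
        ≤ 12800 * v * Real.exp (2 * k)) ∧
      ∫⁻ ζ in {ζ : ℂ | 0 < ζ.im ∧ ‖(f ∘ ffl W t) ζ - x‖ ≤ L / 4},
        ENNReal.ofReal (gd (dimParam κ) (8 / κ - 1) (f ∘ ffl W t) ζ * min 1 ((ρ / ‖ζ‖) ^ 2))
      ≤ ENNReal.ofReal (C * L ^ dimParam κ) * (ENNReal.ofReal ((12800 * v) ^ c)
        + ∑' k : ℕ, ENNReal.ofReal ((min 1
          (KB1.ups (f ∘ ffl W t) ((yk ρ k : ℂ) * Complex.I) / L)) ^ c)) := by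
  obtain ⟨C, c, hC, hc, hc2, hmb⟩ := mass_bound hκ hκ8
  refine ⟨C, c, hC, hc, hc2, ?_⟩
  intro f hf hfi W hW t ρ ht hρ htρ hWt x L hL hax v hv hups
  have hstep : LB2a.Step (ffl W t) ρ := LB2a.step_of_ffl hW ht hρ htρ hWt
  have hg := LB2a.comp_diff hf hstep
  have hgi := LB2a.comp_inj hfi hstep
  have hle : ∀ y, 0 < y → y ≤ 20 * ρ → KB1.ups (f ∘ ffl W t) ((y : ℂ) * Complex.I)
      ≤ 1600 * (20 * ρ / y) ^ 2 * (2 * v * L) := by
    intro y hy hy20
    have h1 := LB2a.ups_comp_le hf hfi hstep hρ (by linarith : ρ ≤ 2 * ρ) hy hy20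
    exact h1.trans (mul_le_mul_of_nonneg_left hups (by positivity))
  refine ⟨?_, ?_⟩
  · intro k
    have hyk := yk_pos hρ k
    have hyk20 : yk ρ k ≤ 20 * ρ := by
      unfold yk
      have : Real.exp (-(k : ℝ)) ≤ 1 := by
        rw [Real.exp_le_one_iff]
        have : (0 : ℝ) ≤ k := Nat.cast_nonneg k
        linarith
      nlinarith
    rw [div_le_iff₀ hL]
    refine (hle _ hyk hyk20).trans (le_of_eq ?_)
    have h1 : 20 * ρ / yk ρ k = 2 * Real.exp k := by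
      unfold yk
      rw [Real.exp_neg]
      have := Real.exp_pos (k : ℝ)
      field_simp
      norm_num
    rw [h1, mul_pow, ← Real.exp_nat_mul]
    push_cast
    ring
  · refine hmb (f ∘ ffl W t) hg hgi x (L / 4) L ρ (12800 * v) hρ hL (by linarith) ?_
      (by positivity) ?_
    · intro z hz hzx
      have h1 := LB3bAx.ups_le_of_axis hg hgi (x := x) (r1 := 3 * L / 32) (y0 := 10 * ρ)
        (by positivity) (fun y hy => hax y hy.1 hy.2) (z := z) hz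
      refine h1.trans ?_
      linarith
    · refine (hle (10 * ρ) (by positivity) (by linarith)).trans (le_of_eq ?_)
      have h1 : 20 * ρ / (10 * ρ) = 2 := by
        field_simp
        norm_num
      rw [h1]
      ring

end path

end Crest.Agent.R162.LB3b
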