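import Mathlib
import Crest.Agent.R162.LB3b
import Crest.Agent.R162.LB3b1
import Crest.Agent.R162.FLC3

/-!
Row 162 (S0243), node LB3b: pathwise change of variables `z = ffl W t ζ` of the Green mass at one
time (helper204 for helper268).
-/

set_option autoImplicit false

open MeasureTheory Set
open scoped ENNReal NNReal
open Crest.ProbabilityR.Loewner

namespace Crest.Agent.R162.LB3b

open Crest.Agent.R162.FL Crest.Agent.R162.FLC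

/-- the set of alive points near `x` is the image of its half-plane version -/
theorem image_near {f : ℂ → ℂ} {W : ℝ → ℝ} (hW : ContinuousOn W (Ici 0)) {t : ℝ} (ht : 0 ≤ t)
    (x : ℂ) (r0 : ℝ) :
    ffl W t '' {ζ : ℂ | 0 < ζ.im ∧ ‖(f ∘ ffl W t) ζ - x‖ ≤ r0} =
      {z : ℂ | 0 < z.im ∧ FL.Alive W z t ∧ ‖f z - x‖ ≤ r0} := by
  ext z
  constructor
  · rintro ⟨ζ, ⟨hζ, hζx⟩, rfl⟩
    exact ⟨ffl_im_pos hW ht hζ, ffl_alive hW ht hζ, hζx⟩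
  · rintro ⟨hz, ha, hx⟩
    refine ⟨Zfl W t z, ⟨Crest.Agent.R162.FLC.Zfl_im_pos hW ha, ?_⟩, ffl_Zfl hW ha⟩
    rw [Function.comp_apply, ffl_Zfl hW ha]
    exact hx

/-- **pathwise change of variables** of the Green mass -/
theorem mass_eq {κ : ℝ} {f : ℂ → ℂ} (hf : DifferentiableOn ℂ f KB1.Hs) (hfi : InjOn f KB1.Hs)
    {W : ℝ → ℝ} (hW : ContinuousOn W (Ici 0)) {t : ℝ} (ht : 0 ≤ t) (x : ℂ) (r0 ρ : ℝ)
    (_hρ : 0 < ρ) :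
    ∫⁻ z in {z : ℂ | 0 < z.im ∧ FL.Alive W z t ∧ ‖f z - x‖ ≤ r0},
      ENNReal.ofReal (‖deriv f z‖ ^ 2) * ENNReal.ofReal ((‖deriv f z‖ * OP.ups W t z) ^ (κ / 8 - 1) *
        OP.sfl W t z ^ (8 / κ - 1) * min 1 ((ρ / ‖FL.Zfl W t z‖) ^ 2))
    = ∫⁻ ζ in {ζ : ℂ | 0 < ζ.im ∧ ‖(f ∘ ffl W t) ζ - x‖ ≤ r0},
      ENNReal.ofReal (gd (dimParam κ) (8 / κ - 1) (f ∘ ffl W t) ζ * min 1 ((ρ / ‖ζ‖) ^ 2)) := by
  have hgd : DifferentiableOn ℂ (ffl W t) {z | 0 < z.im} := differentiableOn_ffl hW ht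
  have hgi : InjOn (ffl W t) {z | 0 < z.im} := injOn_ffl hW ht
  have hmaps : MapsTo (ffl W t) {z | 0 < z.im} {z | 0 < z.im} := fun z hz => ffl_im_pos hW ht hz
  have hfg : DifferentiableOn ℂ (f ∘ ffl W t) {z | 0 < z.im} := hf.comp hgd hmaps
  have hm : MeasurableSet {ζ : ℂ | 0 < ζ.im ∧ ‖(f ∘ ffl W t) ζ - x‖ ≤ r0} :=
    measurableSet_near hfg x r0
  rw [← image_near hW ht x r0, lintegral_image_H hgd hgi hm (fun ζ hζ => hζ.1)]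
  refine setLIntegral_congr_fun hm ?_
  rintro ζ ⟨hζ, -⟩
  have hζH : (0 : ℝ) < ζ.im := hζ
  have hz : 0 < (ffl W t ζ).im := ffl_im_pos hW ht hζ
  have e1 : OP.ups W t (ffl W t ζ) = ζ.im * ‖deriv (ffl W t) ζ‖ := ups_ffl hW ht hζ
  have e2 : FL.Zfl W t (ffl W t ζ) = ζ := Zfl_ffl hW ht hζ
  have e3 : OP.sfl W t (ffl W t ζ) = Sf ζ := by
    unfold OP.sfl Sf; rw [e2]
  have hfz : HasDerivAt f (deriv f (ffl W t ζ)) (ffl W t ζ) :=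
    (hf.differentiableAt (isOpen_H.mem_nhds hz)).hasDerivAt
  have hgz : HasDerivAt (ffl W t) (deriv (ffl W t) ζ) ζ :=
    (hgd.differentiableAt (isOpen_H.mem_nhds hζ)).hasDerivAt
  have e4 : deriv (f ∘ ffl W t) ζ = deriv f (ffl W t ζ) * deriv (ffl W t) ζ :=
    (hfz.comp ζ hgz).deriv
  have hf' : deriv f (ffl W t ζ) ≠ 0 :=
    Crest.Agent.Lib.deriv_ne_zero_of_injOn isOpen_H hf hfi hz
  have hg' : deriv (ffl W t) ζ ≠ 0 := deriv_ffl_ne hW ht hζ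
  have hA : 0 < ‖deriv f (ffl W t ζ)‖ := norm_pos_iff.2 hf'
  have hB : 0 < ‖deriv (ffl W t) ζ‖ := norm_pos_iff.2 hg'
  set A := ‖deriv f (ffl W t ζ)‖ with hAdef
  set Bn := ‖deriv (ffl W t) ζ‖ with hBdef
  have hS : 0 ≤ Sf ζ := Sf_nonneg hζH
  show ENNReal.ofReal (Bn ^ 2) * (ENNReal.ofReal (A ^ 2) * ENNReal.ofReal
    ((A * OP.ups W t (ffl W t ζ)) ^ (κ / 8 - 1) * OP.sfl W t (ffl W t ζ) ^ (8 / κ - 1) *
      min 1 ((ρ / ‖FL.Zfl W t (ffl W t ζ)‖) ^ 2))) = _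
  rw [e1, e2, e3, ← ENNReal.ofReal_mul (by positivity), ← ENNReal.ofReal_mul (by positivity)]
  congr 1
  unfold gd uf
  rw [e4, norm_mul, ← hAdef, ← hBdef]
  set u : ℝ := ζ.im * (A * Bn) with hu
  have hu0 : 0 < u := by positivity
  have e5 : A * (ζ.im * Bn) = u := by rw [hu]; ring
  rw [e5, ← dim_sub_two, Real.rpow_sub hu0, Real.rpow_two]
  have e6 : Bn ^ 2 * A ^ 2 = u ^ 2 / ζ.im ^ 2 := by
    rw [hu]; field_simp
  have e7 : Bn ^ 2 * (A ^ 2 * (u ^ dimParam κ / u ^ 2 * Sf ζ ^ (8 / κ - 1) *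
      min 1 ((ρ / ‖ζ‖) ^ 2))) =
      (Bn ^ 2 * A ^ 2) * (u ^ dimParam κ / u ^ 2 * Sf ζ ^ (8 / κ - 1) *
      min 1 ((ρ / ‖ζ‖) ^ 2)) := by ring
  rw [e7, e6]
  field_simp

end Crest.Agent.R162.LB3b
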