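import Crest.Agent.R162.LBDefs
import Crest.Agent.R162.LB3bTk

/-!
Row 162 (S0243), node LB3b: the scale windows of `LBDefs` and the stopping times `tk` (helper127).
-/

set_option autoImplicit false

open MeasureTheory ProbabilityTheory Set Filter Topology
open scoped NNReal ENNReal
open Crest.ProbabilityR.Loewner

namespace Crest.Agent.R162.LB3b

open Crest.Agent.R162.OS

/-! ### null sets of times do not count -/

theorem cz_congr_ae {κ ε c1 lam : ℝ} {W : ℝ → ℝ} {E E' : Set ℝ} (h : E =ᵐ[volume] E') (z : ℂ) :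
    LB.cz κ ε c1 lam W E z = LB.cz κ ε c1 lam W E' z := setLIntegral_congr h

theorem content_congr_ae {κ ε c1 : ℝ} {f : ℂ → ℂ} {W : ℝ → ℝ} {E E' : Set ℝ}
    (h : E =ᵐ[volume] E') (B : Set ℂ) :
    LB.content κ ε c1 f W E B = LB.content κ ε c1 f W E' B := by
  unfold LB.content
  simp only [cz_congr_ae h]

theorem content_of_null {κ ε c1 : ℝ} {f : ℂ → ℂ} {W : ℝ → ℝ} {E : Set ℝ}
    (h : volume E = 0) (B : Set ℂ) : LB.content κ ε c1 f W E B = 0 := by
  rw [content_congr_ae (E' := ∅) (ae_eq_empty.2 h)]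
  simp [LB.content, LB.cz]

theorem content_Icc {κ ε c1 : ℝ} {f : ℂ → ℂ} {W : ℝ → ℝ} {a b : ℝ} (B : Set ℂ) :
    LB.content κ ε c1 f W (Icc a b) B = LB.content κ ε c1 f W (Ioc a b) B :=
  content_congr_ae Ioc_ae_eq_Icc.symm B

variable {Ω : Type*} {mΩ : MeasurableSpace Ω} {F : Filtration ℝ≥0 mΩ} {B : ℝ≥0 → Ω → ℝ}
  {P : Measure Ω}

/-- the near content of a window is collected after `t_k` and only if `t_k < T₂` -/
theorem nearC_win_le (hB : IsBM F B P) (p : LB.Par) (f : ℂ → ℂ) (k : ℤ) (T2 : Ω → ℝ≥0) (ω : Ω) :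
    p.nearC f (driving p.κ B ω) (LB.win (driving p.κ B ω) (T2 ω : ℝ) k)
      ≤ {ω | tk p.κ B k ω < T2 ω}.indicator
        (fun ω => LB.content p.κ p.ε p.c1 f (driving p.κ B ω)
          (Ioc (tk p.κ B k ω : ℝ) (tk p.κ B (k + 1) ω)) (p.near f)) ω := by
  by_cases h : tk p.κ B k ω < T2 ω
  · rw [indicator_of_mem (show ω ∈ {ω | tk p.κ B k ω < T2 ω} from h)]
    rw [← content_Icc]
    apply LB.content_mono _ (subset_refl _)
    rw [win_eq hB]
    rintro s ⟨h1, h2, h3⟩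
    exact ⟨h1, h2.le⟩
  · rw [indicator_of_notMem (show ω ∉ {ω | tk p.κ B k ω < T2 ω} from h)]
    have h0 : p.nearC f (driving p.κ B ω) (LB.win (driving p.κ B ω) (T2 ω : ℝ) k) = 0 := by
      apply content_of_null
      apply measure_mono_null (t := {(tk p.κ B k ω : ℝ)}) _ (measure_singleton _)
      rw [win_eq hB]
      rintro s ⟨h1, h2, h3⟩
      have h4 : (T2 ω : ℝ) ≤ tk p.κ B k ω := NNReal.coe_le_coe.2 (not_lt.1 h)
      exact le_antisymm (h3.trans h4) h1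
    rw [h0]

/-- the same for a number `T2` -/
theorem nearC_win_le' (hB : IsBM F B P) (p : LB.Par) (f : ℂ → ℂ) (k : ℤ) (T2 : ℝ≥0) (ω : Ω) :
    p.nearC f (driving p.κ B ω) (LB.win (driving p.κ B ω) (T2 : ℝ) k)
      ≤ {ω | tk p.κ B k ω < T2}.indicator
        (fun ω => LB.content p.κ p.ε p.c1 f (driving p.κ B ω)
          (Ioc (tk p.κ B k ω : ℝ) (tk p.κ B (k + 1) ω)) (p.near f)) ω :=
  nearC_win_le hB p f k (fun _ => T2) ω

theorem measurable_tk (hB : IsBM F B P) (κ : ℝ) (k : ℤ) : Measurable (tk κ B k) :=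
  (isST_tk hB κ k).measurable

theorem measurableSet_window (hB : IsBM F B P) (κ : ℝ) (k : ℤ) :
    MeasurableSet {x : Ω × ℝ | x.2 ∈ Ioc (tk κ B k x.1 : ℝ) (tk κ B (k + 1) x.1)} := by
  have h1 : Measurable fun x : Ω × ℝ => (tk κ B k x.1 : ℝ) :=
    (measurable_tk hB κ k).coe_nnreal_real.comp measurable_fst
  have h2 : Measurable fun x : Ω × ℝ => (tk κ B (k + 1) x.1 : ℝ) :=
    (measurable_tk hB κ (k + 1)).coe_nnreal_real.comp measurable_fst
  exact (measurableSet_lt h1 measurable_snd).inter (measurableSet_le measurable_snd h2)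

/-- `near` is empty away from `B` -/
theorem near_eq_empty {p : LB.Par} (hA : p.Adm) {f : ℂ → ℂ} (h : 1 < p.u0 (p.x f)) :
    p.near f = ∅ := by
  rw [LB.Par.near, eq_empty_iff_forall_notMem]
  rintro w ⟨hwB, hw⟩
  have h1 := hA.le_dist w hwB (p.x f)
  rw [Metric.mem_ball, dist_comm] at hw
  rcases le_total (dist (p.x f) w) 1 with h2 | h2
  · rw [max_eq_left h2] at h1; linarith
  · rw [max_eq_right h2] at h1; linarith

theorem nearC_eq_zero {p : LB.Par} (hA : p.Adm) {f : ℂ → ℂ} (h : 1 < p.u0 (p.x f)) (W : ℝ → ℝ)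
    (E : Set ℝ) : p.nearC f W E = 0 := by
  rw [LB.Par.nearC, near_eq_empty hA h]
  simp [LB.content]

/-- a window is contained in `[0, (2^{k+1})²]` -/
theorem win_min {W : ℝ → ℝ} {t N : ℝ} {k : ℤ} (hN : ((2:ℝ) ^ (k + 1)) ^ 2 ≤ N) :
    LB.win W t k = LB.win W (min t N) k := by
  ext s
  simp only [LB.win, mem_ofPred_eq]
  constructor
  · rintro ⟨h0, h1, h2, h3⟩
    refine ⟨h0, le_min h1 ?_, h2, h3⟩
    have h4 : Real.sqrt s ≤ (2:ℝ) ^ (k + 1) := ((LB.sqrt_le_rad W s).trans_lt h3).le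
    calc s = Real.sqrt s ^ 2 := (Real.sq_sqrt h0.le).symm
      _ ≤ ((2:ℝ) ^ (k + 1)) ^ 2 := pow_le_pow_left₀ (Real.sqrt_nonneg s) h4 2
      _ ≤ N := hN
  · rintro ⟨h0, h1, h2, h3⟩
    exact ⟨h0, h1.trans (min_le_left _ _), h2, h3⟩

end Crest.Agent.R162.LB3b
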