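import Mathlib
import Crest.Agent.R162.LB3b4
import Crest.Agent.R162.LB3bMass
import Crest.Agent.R162.LB3bWin

/-!
Row 162 (S0243), node LB3b, last part (helper268): the mean near content of one scale window before
`T₂` is `≤ C v(2^k)^e`.
-/

set_option autoImplicit false

open MeasureTheory Set
open scoped ENNReal NNReal
open Crest.ProbabilityR.Loewner

namespace Crest.Agent.R162.LB3b

open Crest.Agent.R162.FL Crest.Agent.R162.OS Crest.Agent.R162.FLD Crest.Agent.R162.OP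

universe u

section meas

variable {Ω : Type u} {m : MeasurableSpace Ω} {P : Measure Ω} {F : Filtration ℝ≥0 m}
  {B : ℝ≥0 → Ω → ℝ}

/-- joint measurability of the Green weight at a random time -/
theorem measurable_Gw (hB : IsBM F B P) (κ : ℝ) (f : ℂ → ℂ) {σ : Ω → ℝ≥0} (hσ : Measurable σ)
    (ρ : ℝ) :
    Measurable (fun q : Ω × ℂ => ENNReal.ofReal (‖deriv f q.2‖ ^ 2) *
      ({q : Ω × ℂ | Alive (driving κ B q.1) q.2 (σ q.1)}.indicator
        (fun q : Ω × ℂ => ENNReal.ofReal (Gw κ ‖deriv f q.2‖ (driving κ B q.1) (σ q.1) q.2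
          * min 1 ((ρ / ‖Zfl (driving κ B q.1) (σ q.1) q.2‖) ^ 2))) q)) := by
  have hd : Measurable (fun q : Ω × ℂ => ‖deriv f q.2‖) :=
    (measurable_deriv f).norm.comp measurable_snd
  refine ((hd.pow_const 2).ennreal_ofReal).mul (Measurable.indicator ?_
    (measurableSet_alive_at hB κ hσ))
  refine Measurable.ennreal_ofReal ?_
  refine Measurable.mul ?_ ?_
  · unfold Gw
    exact ((hd.mul (measurable_ups_at hB κ hσ)).pow_const _).mul
      ((measurable_sfl_at hB κ hσ).pow_const _)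
  · exact measurable_const.min ((measurable_const.div (measurable_Zfl_at hB κ hσ).norm).pow_const 2)

/-- joint measurability of the window content -/
theorem measurable_wcz (hB : IsBM F B P) (κ ε c1 : ℝ) (f : ℂ → ℂ) (k : ℤ) :
    Measurable (fun q : Ω × ℂ => ENNReal.ofReal (‖deriv f q.2‖ ^ 2) *
      LB.cz κ ε c1 ‖deriv f q.2‖ (driving κ B q.1)
        (Ioc (tk κ B k q.1 : ℝ) (tk κ B (k + 1) q.1)) q.2) := by
  have hd : Measurable (fun q : Ω × ℂ => ‖deriv f q.2‖) :=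
    (measurable_deriv f).norm.comp measurable_snd
  refine ((hd.pow_const 2).ennreal_ofReal).mul ?_
  exact LBCont.measurable_cz (T := ((2 : ℝ) ^ (k + 1)) ^ 2)
    (E := fun ω => Ioc (tk κ B k ω : ℝ) (tk κ B (k + 1) ω)) hd
    (fun ω => (driving_cont hB κ ω).continuousOn) (fun s _ => driving_meas' hB κ s)
    (measurableSet_window hB κ k)
    (fun ω s hs => ⟨(tk κ B k ω).2.trans hs.1.le, hs.2.trans (tk_le_sq κ B (k + 1) ω)⟩)

end meas

/-- **LB3b**: the mean near content of a scale window before `T₂`. -/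
theorem window_mean {κ Cb : ℝ} (hκ : 0 < κ) (hκ8 : κ < 8) (hCb : 0 ≤ Cb)
    (hLBC : ContB.{u} κ Cb) (hOP3 : LB2h.OP3K.{u} κ) :
    ∃ C e : ℝ, 0 < C ∧ 0 < e ∧ ∀ p : LB.Par, p.κ = κ → p.Adm → 0 < p.ε → ∀ f : ℂ → ℂ,
      DifferentiableOn ℂ f KB1.Hs → InjOn f KB1.Hs → ∀ k : ℤ,
      (∀ y : ℝ, 0 < y → y ≤ 10 * (2 : ℝ) ^ k →
        ‖f (y * Complex.I) - p.x f‖ ≤ p.u0 (p.x f) / 32) →
      LB.vv p.u0 f (2 ^ k) ≤ 1 →
      ∀ (Ω : Type u) [MeasurableSpace Ω] (P : Measure Ω) [IsProbabilityMeasure P]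
        (F : Filtration ℝ≥0 (inferInstance : MeasurableSpace Ω)) (B : ℝ≥0 → Ω → ℝ)
        (_ : IsBM F B P) (T2 : Ω → ℝ≥0) (_ : IsST F T2)
        (_ : ∀ ω s, 0 < s → s < (T2 ω : ℝ) → ¬ p.Bad2 f (driving κ B ω) s),
        ∫⁻ ω, p.nearC f (driving κ B ω) (LB.win (driving κ B ω) (T2 ω) k) ∂P
          ≤ ENNReal.ofReal (C * LB.vv p.u0 f (2 ^ k) ^ e) := by
  obtain ⟨Cm, c, hCm, hc, hc2, hpm⟩ := path_mass hκ hκ8
  obtain ⟨C3, c3, hC3, hc3, hop⟩ := hOP3
  obtain ⟨Ce, e, hCe, he, hexp⟩ := exp_sum.{u} (c := c) (c2 := c3 / 4) (c' := c3 / 2)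
    (C2 := 49 * C3 / 1 ^ 2 * 20 ^ c3) (K := 12800) hc (by positivity) (by positivity)
    (by positivity) (by norm_num)
  have hlog : 0 < Real.log 2 := Real.log_pos (by norm_num)
  have hC1 : 0 < C1 κ Cb := by unfold C1; positivity
  refine ⟨C1 κ Cb * Cm * Ce, e, by positivity, he, ?_⟩
  intro p hpκ hA hε f hf hfi k hP1 hv1 Ω _ P _ F B hB T2 hT2 hnb
  subst hpκ
  rcases (hA.one_le (p.x f)).lt_or_eq with h1 | hL1
  · simp only [nearC_eq_zero hA h1, lintegral_zero]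
    exact zero_le
  set x : ℂ := p.x f with hx
  set L : ℝ := p.u0 x with hL
  have hLpos : 0 < L := by rw [← hL1]; exact one_pos
  set ρ : ℝ := (2 : ℝ) ^ k with hρdef
  have hρ : 0 < ρ := by positivity
  set σ : Ω → ℝ≥0 := tk p.κ B k with hσdef
  set τ : Ω → ℝ≥0 := tk p.κ B (k + 1) with hτdef
  have hσ : IsST F σ := isST_tk hB p.κ k
  have hτ : IsST F τ := isST_tk hB p.κ (k + 1)
  have hστ : ∀ ω, σ ω ≤ τ ω := fun ω => tk_le_succ p.κ B k ω
  have hσm : Measurable σ := hσ.measurable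
  set A : Set Ω := {ω | σ ω < T2 ω} with hAdef
  have hAE : EvST F σ A := evST_lt hσ hT2
  have hAm : MeasurableSet A := hAE.measurableSet
  set D : Set ℂ := {z : ℂ | 0 < z.im ∧ f z ∈ p.near f} with hD
  have hDm : MeasurableSet D :=
    LBCont.measurableSet_pre hf.continuousOn (hA.meas.inter measurableSet_ball)
  have hcont : ∀ ω, ContinuousOn (driving p.κ B ω) (Ici 0) := fun ω =>
    (driving_cont hB p.κ ω).continuousOn
  -- the scale quantity
  set v : ℝ := LB.vv p.u0 f ρ with hvdef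
  have hρH : ((ρ : ℂ) * Complex.I) ∈ KB1.Hs := by
    show 0 < ((ρ : ℂ) * Complex.I).im
    simpa using hρ
  have hu0pos : 0 < p.u0 (f ((ρ : ℂ) * Complex.I)) := lt_of_lt_of_le one_pos (hA.one_le _)
  have hv : 0 < v := div_pos (KB1.ups_pos hf hfi hρH) hu0pos
  have hups : KB1.ups f ((ρ : ℂ) * Complex.I) ≤ 2 * v * L := by
    have h2 : KB1.ups f ((ρ : ℂ) * Complex.I) = v * p.u0 (f ((ρ : ℂ) * Complex.I)) := by
      rw [hvdef]
      unfold LB.vv
      rw [div_mul_cancel₀ _ hu0pos.ne']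
    have h3 : p.u0 (f ((ρ : ℂ) * Complex.I)) ≤ 2 * L := by
      have h4 := hA.lip.dist_le_mul (f ((ρ : ℂ) * Complex.I)) x
      have h5 := hP1 ρ hρ (by linarith)
      rw [Real.dist_eq, dist_eq_norm, NNReal.coe_one, one_mul] at h4
      have h6 := (abs_le.1 h4).2
      linarith
    rw [h2]
    nlinarith
  -- step 1
  have s1 : ∫⁻ ω, p.nearC f (driving p.κ B ω) (LB.win (driving p.κ B ω) (T2 ω) k) ∂P
      ≤ ∫⁻ ω in A, (∫⁻ z in D, ENNReal.ofReal (‖deriv f z‖ ^ 2) *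
        LB.cz p.κ p.ε p.c1 ‖deriv f z‖ (driving p.κ B ω) (Ioc (σ ω : ℝ) (τ ω)) z) ∂P := by
    rw [← lintegral_indicator hAm]
    exact lintegral_mono fun ω => nearC_win_le hB p f k T2 ω
  -- step 2 : Fubini
  have s2 : ∫⁻ ω in A, (∫⁻ z in D, ENNReal.ofReal (‖deriv f z‖ ^ 2) *
        LB.cz p.κ p.ε p.c1 ‖deriv f z‖ (driving p.κ B ω) (Ioc (σ ω : ℝ) (τ ω)) z) ∂P
      = ∫⁻ z in D, ∫⁻ ω in A, ENNReal.ofReal (‖deriv f z‖ ^ 2) *
        LB.cz p.κ p.ε p.c1 ‖deriv f z‖ (driving p.κ B ω) (Ioc (σ ω : ℝ) (τ ω)) z ∂P :=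
    lintegral_lintegral_swap (measurable_wcz hB p.κ p.ε p.c1 f k).aemeasurable
  -- step 3 : one point
  set G : Ω → ℂ → ℝ≥0∞ := fun ω z => ENNReal.ofReal (‖deriv f z‖ ^ 2) *
      ({q : Ω × ℂ | Alive (driving p.κ B q.1) q.2 (σ q.1)}.indicator
        (fun q : Ω × ℂ => ENNReal.ofReal (Gw p.κ ‖deriv f q.2‖ (driving p.κ B q.1) (σ q.1) q.2
          * min 1 ((ρ / ‖Zfl (driving p.κ B q.1) (σ q.1) q.2‖) ^ 2))) (ω, z)) with hG
  have s3 : ∀ z ∈ D, ∫⁻ ω in A, ENNReal.ofReal (‖deriv f z‖ ^ 2) *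
        LB.cz p.κ p.ε p.c1 ‖deriv f z‖ (driving p.κ B ω) (Ioc (σ ω : ℝ) (τ ω)) z ∂P
      ≤ ENNReal.ofReal (C1 p.κ Cb) * ∫⁻ ω in A, G ω z ∂P := by
    intro z hz
    have hlam : 0 < ‖deriv f z‖ :=
      norm_pos_iff.2 (Crest.Agent.Lib.deriv_ne_zero_of_injOn KB1.isOpen_Hs hf hfi hz.1)
    have hop1 := one_point hκ hκ8 hCb hLBC hB (ε := p.ε) (c1 := p.c1) hε hlam hz.1 hρ hσ hτ hστ
      (T := ((2 : ℝ≥0) ^ (k + 1)) ^ 2)
      (fun ω => by
        have := tk_le_sq p.κ B (k + 1) ω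
        rw [← NNReal.coe_le_coe]
        push_cast
        exact this)
      (fun ω => tk_succ_sub_le p.κ B k ω) (fun ω s hs => osc_le hB p.κ k ω hs) hAE
    rw [lintegral_const_mul' _ _ ENNReal.ofReal_ne_top]
    simp only [hG]
    rw [lintegral_const_mul' _ _ ENNReal.ofReal_ne_top, ← mul_assoc,
      mul_comm (ENNReal.ofReal (C1 p.κ Cb)), mul_assoc]
    refine mul_le_mul_right (hop1.trans (le_of_eq ?_)) _
    congr 1
    have hAl : MeasurableSet {ω | Alive (driving p.κ B ω) z (σ ω)} :=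
      (evST_alive hB p.κ z hσ).measurableSet
    rw [inter_comm, ← Measure.restrict_restrict hAl, ← lintegral_indicator hAl]
    rfl
  have s4 : ∫⁻ z in D, ∫⁻ ω in A, ENNReal.ofReal (‖deriv f z‖ ^ 2) *
        LB.cz p.κ p.ε p.c1 ‖deriv f z‖ (driving p.κ B ω) (Ioc (σ ω : ℝ) (τ ω)) z ∂P
      ≤ ENNReal.ofReal (C1 p.κ Cb) * ∫⁻ ω in A, (∫⁻ z in D, G ω z) ∂P := by
    refine (setLIntegral_mono' hDm s3).trans ?_
    rw [lintegral_const_mul' _ _ ENNReal.ofReal_ne_top]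
    refine mul_le_mul_right (le_of_eq ?_) _
    exact (lintegral_lintegral_swap (measurable_Gw hB p.κ f hσm ρ).aemeasurable).symm
  -- step 5 : one path
  have hmemA : ∀ ω ∈ A, ∀ y, 0 < y → y ≤ 10 * ρ →
      ‖(f ∘ ffl (driving p.κ B ω) (σ ω)) (y * Complex.I) - x‖ ≤ 3 * L / 32 := by
    intro ω hω
    have hrad : LB.rad (driving p.κ B ω) (σ ω) = ρ := rad_tk hB p.κ k ω
    have hb := hnb ω (σ ω) (by exact_mod_cast tk_pos hB p.κ k ω) (by exact_mod_cast hω)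
    unfold LB.Par.Bad2 at hb
    rw [hrad] at hb
    exact axis_near hρ hP1 hb
  set mk : Ω → ℕ → ℝ := fun ω j =>
    KB1.ups (f ∘ ffl (driving p.κ B ω) (σ ω)) ((yk ρ j : ℂ) * Complex.I) / L with hmk
  have hpath : ∀ ω ∈ A, (∀ j : ℕ, mk ω j ≤ 12800 * v * Real.exp (2 * j)) ∧
      ∫⁻ z in D, G ω z ≤ ENNReal.ofReal (Cm * L ^ dimParam p.κ) * (ENNReal.ofReal ((12800 * v) ^ c)
        + ∑' j : ℕ, ENNReal.ofReal ((min 1 (mk ω j)) ^ c)) := by
    intro ω hω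
    have hσ0 : (0 : ℝ) ≤ σ ω := (σ ω).2
    have hσρ : (σ ω : ℝ) ≤ ρ ^ 2 := tk_le_sq p.κ B k ω
    have hWσ : |driving p.κ B ω (σ ω)| ≤ ρ := by
      have h2 := LB.abs_le_rad (hcont ω) hσ0 le_rfl
      rwa [show LB.rad (driving p.κ B ω) (σ ω) = ρ from rad_tk hB p.κ k ω] at h2
    obtain ⟨h2, h3⟩ := hpm f hf hfi (driving p.κ B ω) (hcont ω) (σ ω) ρ hσ0 hρ hσρ hWσ x L hLpos
      (hmemA ω hω) v hv.le hups
    refine ⟨h2, le_trans ?_ h3⟩
    rw [← mass_eq hf hfi (hcont ω) hσ0 x (L / 4) ρ hρ]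
    have hAl : MeasurableSet {z : ℂ | Alive (driving p.κ B ω) z (σ ω)} :=
      (isOpen_Dom (hcont ω) (σ ω)).measurableSet
    have h4 : ∀ z, G ω z = {z : ℂ | Alive (driving p.κ B ω) z (σ ω)}.indicator
        (fun z => ENNReal.ofReal (‖deriv f z‖ ^ 2) *
          ENNReal.ofReal ((‖deriv f z‖ * OP.ups (driving p.κ B ω) (σ ω) z) ^ (p.κ / 8 - 1) *
          OP.sfl (driving p.κ B ω) (σ ω) z ^ (8 / p.κ - 1) *
          min 1 ((ρ / ‖FL.Zfl (driving p.κ B ω) (σ ω) z‖) ^ 2))) z := by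
      intro z
      simp only [hG]
      by_cases hz : Alive (driving p.κ B ω) z (σ ω)
      · rw [indicator_of_mem (show (ω, z) ∈ {q : Ω × ℂ | Alive (driving p.κ B q.1) q.2 (σ q.1)}
          from hz), indicator_of_mem (show z ∈ {z : ℂ | Alive (driving p.κ B ω) z (σ ω)} from hz)]
        rfl
      · rw [indicator_of_notMem (show (ω, z) ∉ {q : Ω × ℂ | Alive (driving p.κ B q.1) q.2 (σ q.1)}
          from hz), indicator_of_notMem (show z ∉ {z : ℂ | Alive (driving p.κ B ω) z (σ ω)} from hz),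
          mul_zero]
    simp_rw [h4]
    rw [lintegral_indicator hAl, Measure.restrict_restrict hAl]
    refine lintegral_mono_set ?_
    rintro z ⟨hz1, hz2, hz3⟩
    refine ⟨hz2, hz1, ?_⟩
    have h5 := hz3.2
    rw [Metric.mem_ball, dist_eq_norm] at h5
    exact h5.le
  -- the bad events
  have hbad : ∀ j : ℕ, 1 / 4 * Real.log (1 / v) < j →
      P (A ∩ {ω | Real.exp (-(c3 / 4 * j)) ≤ mk ω j})
        ≤ ENNReal.ofReal (49 * C3 / 1 ^ 2 * 20 ^ c3 * Real.exp (-(c3 / 2 * j))) := by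
    intro j _
    have h2 := LB2f.ev_le (P := P) (W := fun ω => driving p.κ B ω)
      (R := fun ω t => LB.rad (driving p.κ B ω) t) (C := C3) (c' := c3) (f := f) (x := x)
      (U := L) (ρ := ρ) (c := c3 / 4) (b := 1) hcont hC3 (hop Ω P F B hB) hf hfi hLpos hρ
      (by positivity) one_pos le_rfl j
    refine (measure_mono ?_).trans (h2.trans (le_of_eq ?_))
    · rintro ω ⟨hω, hωj⟩
      refine ⟨σ ω, (σ ω).2, (rad_tk hB p.κ k ω).ge, ?_, ?_⟩
      · have hyk20 : yk ρ j ≤ 10 * ρ := by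
          unfold yk
          have : Real.exp (-(j : ℝ)) ≤ 1 := by
            rw [Real.exp_le_one_iff]
            have : (0 : ℝ) ≤ j := Nat.cast_nonneg j
            linarith
          nlinarith
        have h5 := hmemA ω hω (yk ρ j) (yk_pos hρ j) hyk20
        refine le_trans h5 ?_
        linarith
      · have h5 : Real.exp (-(c3 / 4 * j)) ≤ mk ω j := hωj
        simp only [hmk] at h5
        rw [le_div_iff₀ hLpos] at h5
        rw [one_mul]
        exact h5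
    · congr 3
      ring
  have hfin := hexp P A hAm mk (fun ω j => by
      simp only [hmk]
      exact div_nonneg (mul_nonneg (by simp [(yk_pos hρ j).le]) (norm_nonneg _)) hLpos.le)
    v hv hv1 (fun ω hω => (hpath ω hω).1) hbad
  calc ∫⁻ ω, p.nearC f (driving p.κ B ω) (LB.win (driving p.κ B ω) (T2 ω) k) ∂P
      ≤ ENNReal.ofReal (C1 p.κ Cb) * ∫⁻ ω in A, (∫⁻ z in D, G ω z) ∂P :=
        s1.trans (s2.le.trans s4)
    _ ≤ ENNReal.ofReal (C1 p.κ Cb) * ∫⁻ ω in A, ENNReal.ofReal (Cm * L ^ dimParam p.κ) *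
        (ENNReal.ofReal ((12800 * v) ^ c)
        + ∑' j : ℕ, ENNReal.ofReal ((min 1 (mk ω j)) ^ c)) ∂P :=
        mul_le_mul_right (setLIntegral_mono' hAm fun ω hω => (hpath ω hω).2) _
    _ = ENNReal.ofReal (C1 p.κ Cb) * (ENNReal.ofReal (Cm * L ^ dimParam p.κ) *
        ∫⁻ ω in A, (ENNReal.ofReal ((12800 * v) ^ c)
        + ∑' j : ℕ, ENNReal.ofReal ((min 1 (mk ω j)) ^ c)) ∂P) := by
        rw [lintegral_const_mul' _ _ ENNReal.ofReal_ne_top]
    _ ≤ ENNReal.ofReal (C1 p.κ Cb) * (ENNReal.ofReal (Cm * L ^ dimParam p.κ) *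
        ENNReal.ofReal (Ce * v ^ e)) := by
        gcongr
    _ = ENNReal.ofReal (C1 p.κ Cb * Cm * Ce * v ^ e) := by
        rw [← hL1, Real.one_rpow, mul_one, ← ENNReal.ofReal_mul hCm.le,
          ← ENNReal.ofReal_mul hC1.le]
        congr 1
        ring

end Crest.Agent.R162.LB3b
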