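import Mathlib
import Crest.Agent.R162.LB3b3
import Crest.Agent.R162.LBC4
import Crest.Agent.R162.LBExit
import Crest.Agent.R162.OPM

/-!
Row 162 (S0243), node LB3b: scaling in `lam` of the content bound (helper204 for helper268).
-/

set_option autoImplicit false

open MeasureTheory Set
open scoped ENNReal NNReal
open Crest.ProbabilityR.Loewner

namespace Crest.Agent.R162.LB3b

open Crest.Agent.R162.FL Crest.Agent.R162.OP Crest.Agent.R162.OS Crest.Agent.R162.FLD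

universe u

theorem cd_scale (κ ε c1 : ℝ) {lam : ℝ} (hlam : 0 < lam) (W : ℝ → ℝ) (s : ℝ) (z : ℂ) :
    LB.cd κ ε c1 lam W s z = lam ^ (κ / 8 - 1) * LB.cd κ (ε / lam) c1 1 W s z := by
  unfold LB.cd
  have hu := FL.ups_nonneg W s z
  have h1 : lam * OP.ups W s z / ε = 1 * OP.ups W s z / (ε / lam) := by
    rw [one_mul, div_div_eq_mul_div, mul_comm]
  rw [h1, Real.mul_rpow hlam.le hu, one_mul]
  ring

/-- scaling of the content of one point -/
theorem cz_scale (κ ε c1 : ℝ) {lam : ℝ} (hlam : 0 < lam) (W : ℝ → ℝ) (E : Set ℝ) (z : ℂ) :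
    LB.cz κ ε c1 lam W E z =
      ENNReal.ofReal (lam ^ (κ / 8 - 1)) * LB.cz κ (ε / lam) c1 1 W E z := by
  unfold LB.cz
  rw [← lintegral_const_mul' _ _ ENNReal.ofReal_ne_top]
  refine lintegral_congr fun s => ?_
  rw [cd_scale κ ε c1 hlam, ENNReal.ofReal_mul (by positivity)]

theorem Gw_scale (κ : ℝ) {lam : ℝ} (hlam : 0 < lam) (W : ℝ → ℝ) (s : ℝ) (z : ℂ) : Gw κ lam W s z = lam ^ (κ / 8 - 1) * gr κ W s z := by
  unfold Gw gr
  rw [Real.mul_rpow hlam.le (FL.ups_nonneg W s z)]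
  ring

/-- **LB-CONTENT (b) with the factor `lam`** from helper499's bound -/
theorem contB_of {κ : ℝ} (hκ : 0 < κ) (_hκ8 : κ < 8) (hM : OP.OPM.{u})
    (hE : ∀ {Ω : Type u} {m : MeasurableSpace Ω} {P : Measure Ω} [IsProbabilityMeasure P]
      {F : Filtration ℝ≥0 m} {B : ℝ≥0 → Ω → ℝ}, IsBM F B P → ∀ z : ℂ, 0 < z.im →
      LBC.Exit F κ B z) : ContB.{u} κ 7 := by
  intro Ω m P _ F B hB ε c1 lam hε hlam z hz σ τ hσ hτ hστ T hT A hA
  have h := LBC.content_le hM hB hκ hz (hE hB z hz) (ε := ε / lam) (by positivity) c1 hσ hτ hT hA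
    (fun ω _ => hστ ω)
  calc ∫⁻ ω in A, LB.cz κ ε c1 lam (driving κ B ω) (Ioc (σ ω : ℝ) (τ ω)) z ∂P
      = ENNReal.ofReal (lam ^ (κ / 8 - 1)) *
        ∫⁻ ω in A, LB.cz κ (ε / lam) c1 1 (driving κ B ω) (Ioc (σ ω : ℝ) (τ ω)) z ∂P := by
        rw [← lintegral_const_mul' _ _ ENNReal.ofReal_ne_top]
        exact lintegral_congr fun ω => cz_scale κ ε c1 hlam _ _ _
    _ ≤ ENNReal.ofReal (lam ^ (κ / 8 - 1)) * (ENNReal.ofReal 7 *
        ∫⁻ ω in A ∩ {ω | AliveP κ B z (σ ω) ω},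
          ENNReal.ofReal (gr κ (driving κ B ω) (σ ω) z) ∂P) := by gcongr
    _ = ENNReal.ofReal 7 * (ENNReal.ofReal (lam ^ (κ / 8 - 1)) *
        ∫⁻ ω in A ∩ {ω | AliveP κ B z (σ ω) ω},
          ENNReal.ofReal (gr κ (driving κ B ω) (σ ω) z) ∂P) := by ring
    _ = ENNReal.ofReal 7 * ∫⁻ ω in A ∩ {ω | Alive (driving κ B ω) z (σ ω)},
        ENNReal.ofReal (Gw κ lam (driving κ B ω) (σ ω) z) ∂P := by
        congr 1
        rw [← lintegral_const_mul' _ _ ENNReal.ofReal_ne_top]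
        have hm : MeasurableSet (A ∩ {ω | Alive (driving κ B ω) z (σ ω)}) :=
          hA.measurableSet.inter (evST_alive hB κ z hσ).measurableSet
        refine setLIntegral_congr_fun hm fun ω _ => ?_
        rw [Gw_scale κ hlam, ENNReal.ofReal_mul (by positivity)]

/-- **LB-CONTENT (b) with the factor `lam`, unconditional** -/
theorem contB {κ : ℝ} (hκ : 0 < κ) (hκ8 : κ < 8) : ContB.{u} κ 7 :=
  contB_of hκ hκ8 OPM.opm.{u} (fun hB _ _ => LBC.exit_ok hB)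

end Crest.Agent.R162.LB3b
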