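import Mathlib
import Crest.Agent.R162.OSDefs

/-!
Row 162, node LB5 (helper301): the one-step inequality of the lower bound
`E[exp(c0 content + c ΔΛ + ΔA) | F_σ] ≤ (1-δ)^ϖ`, abstract form, and the choice of constants.
-/

set_option autoImplicit false

open MeasureTheory ProbabilityTheory Set
open scoped NNReal ENNReal

namespace Crest.Agent.R162.LBI

/-! ### the sigma-algebra of a stopping time -/

/-- the sigma-algebra of the events prior to `τ` (in the convention `OS.EvST`) -/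
@[reducible] def stSigma {Ω : Type*} {m : MeasurableSpace Ω} (F : Filtration ℝ≥0 m) (τ : Ω → ℝ≥0)
    (hτ : OS.IsST F τ) : MeasurableSpace Ω where
  MeasurableSet' A := OS.EvST F τ A
  measurableSet_empty := by intro t; simp
  measurableSet_compl A hA t := by
    have h : Aᶜ ∩ {ω | τ ω ≤ t} = {ω | τ ω ≤ t} \ (A ∩ {ω | τ ω ≤ t}) := by
      ext ω; simp only [mem_inter_iff, mem_compl_iff, mem_setOf_eq, mem_diff]; tauto
    rw [h]
    exact MeasurableSet.diff (hτ t) (hA t)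
  measurableSet_iUnion f hf t := by
    rw [Set.iUnion_inter]
    exact MeasurableSet.iUnion fun i => hf i t

theorem measurableSet_stSigma {Ω : Type*} {m : MeasurableSpace Ω} {F : Filtration ℝ≥0 m}
    {τ : Ω → ℝ≥0} (hτ : OS.IsST F τ) {A : Set Ω} :
    MeasurableSet[stSigma F τ hτ] A ↔ OS.EvST F τ A := Iff.rfl

theorem stSigma_le {Ω : Type*} {m : MeasurableSpace Ω} {F : Filtration ℝ≥0 m}
    {τ : Ω → ℝ≥0} (hτ : OS.IsST F τ) : stSigma F τ hτ ≤ m := by
  intro A hA
  have h : A = ⋃ n : ℕ, A ∩ {ω | τ ω ≤ (n : ℝ≥0)} := by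
    ext ω
    simp only [mem_iUnion, mem_inter_iff, mem_setOf_eq]
    constructor
    · intro h
      obtain ⟨n, hn⟩ := exists_nat_ge (τ ω)
      exact ⟨n, h, hn⟩
    · rintro ⟨n, h, -⟩; exact h
  rw [h]
  exact MeasurableSet.iUnion fun n => F.le _ _ (hA n)

theorem stSigma_mono {Ω : Type*} {m : MeasurableSpace Ω} {F : Filtration ℝ≥0 m}
    {σ τ : Ω → ℝ≥0} (hσ : OS.IsST F σ) (hτ : OS.IsST F τ) (h : ∀ ω, σ ω ≤ τ ω) :
    stSigma F σ hσ ≤ stSigma F τ hτ := by
  intro A hA t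
  have e : A ∩ {ω | τ ω ≤ t} = (A ∩ {ω | σ ω ≤ t}) ∩ {ω | τ ω ≤ t} := by
    ext ω
    simp only [mem_inter_iff, mem_setOf_eq]
    constructor
    · rintro ⟨a, b⟩; exact ⟨⟨a, (h ω).trans b⟩, b⟩
    · rintro ⟨⟨a, -⟩, b⟩; exact ⟨a, b⟩
  rw [e]
  exact MeasurableSet.inter (hA t) (hτ t)

/-! ### the constants -/

/-- the numeric inequalities of the step -/
structure Good (p CV CZ cJ K3 cth K5 c c0 δ : ℝ) : Prop where
  hc : 0 < c
  hc0 : 0 < c0
  hδ0 : 0 < δ
  hδ1 : δ < 1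
  A : Real.exp (c0 * K5 + c * CV) * (Real.sqrt (1 + CZ * (2 * c)) *
      Real.sqrt (1 - (p / 2) * (1 - Real.exp (-(2 * cth))))) ≤ 1 - δ
  B : Real.exp (c0 * K5 + c * CV) * (Real.sqrt (1 + CZ * (2 * c)) *
      Real.sqrt (1 - (7 / 8) * (1 - Real.exp (-(2 * (c * cJ * K3)))))) ≤ 1 - δ

theorem sqrt_one_add_le {x : ℝ} (hx : 0 ≤ x) : Real.sqrt (1 + 2 * x) ≤ Real.exp x := by
  apply Real.sqrt_le_iff.2
  refine ⟨(Real.exp_pos _).le, ?_⟩
  have h := Real.add_one_le_exp x
  nlinarith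

theorem sqrt_one_sub_le {x : ℝ} : Real.sqrt (1 - x) ≤ Real.exp (-(x / 2)) := by
  apply Real.sqrt_le_iff.2
  refine ⟨(Real.exp_pos _).le, ?_⟩
  rw [← Real.exp_nat_mul]
  have h := Real.add_one_le_exp (-x)
  have e : ((2 : ℕ) : ℝ) * (-(x / 2)) = -x := by push_cast; ring
  rw [e]; linarith

theorem half_le_one_sub_exp {y : ℝ} (h0 : 0 ≤ y) (h1 : y ≤ 1) :
    y / 2 ≤ 1 - Real.exp (-y) := by
  have h := Real.exp_bound' (x := y) h0 h1 (n := 1) (by norm_num)
  have hb : 1 + y ≤ Real.exp y := by linarith [Real.add_one_le_exp y]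
  have hpos : 0 < Real.exp y := Real.exp_pos _
  rw [Real.exp_neg]
  have : (Real.exp y)⁻¹ ≤ (1 + y)⁻¹ := inv_anti₀ (by linarith) hb
  have h2 : (1 + y)⁻¹ ≤ 1 - y / 2 := by
    rw [inv_le_iff_one_le_mul₀ (by linarith)]
    nlinarith
  linarith

theorem consts {p CV CZ cJ cmax : ℝ} (hp : 0 < p) (hp1 : p ≤ 1) (hCV : 0 ≤ CV) (hCZ : 0 ≤ CZ)
    (hcJ : 0 < cJ) (hcmax : 0 < cmax) :
    ∃ K30 : ℝ, 0 < K30 ∧ ∀ K3, K30 ≤ K3 → ∀ cth, 0 < cth → ∀ K5, 0 ≤ K5 →
      ∃ c c0 δ : ℝ, 2 * c ≤ cmax ∧ Good p CV CZ cJ K3 cth K5 c c0 δ := by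
  refine ⟨4 * (CV + CZ + 1) / cJ, by positivity, ?_⟩
  intro K3 hK3 cth hcth K5 hK5
  have hK3' : 4 * (CV + CZ + 1) ≤ cJ * K3 := by
    rw [div_le_iff₀ hcJ] at hK3; linarith
  have hJK : 0 < cJ * K3 := by linarith
  set η : ℝ := (p / 2) * (1 - Real.exp (-(2 * cth))) with hη
  have he : Real.exp (-(2 * cth)) < 1 := by
    rw [Real.exp_lt_one_iff]; linarith
  have hη0 : 0 < η := mul_pos (by linarith) (by linarith)
  set c : ℝ := min (cmax / 2) (min (1 / (2 * (cJ * K3))) (η / (4 * (CV + CZ + 1)))) with hcdef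
  have hc : 0 < c := by
    refine lt_min (by linarith) (lt_min (by positivity) (by positivity))
  have hc1 : c ≤ cmax / 2 := min_le_left _ _
  have hc2 : c ≤ 1 / (2 * (cJ * K3)) := (min_le_right _ _).trans (min_le_left _ _)
  have hc3 : c ≤ η / (4 * (CV + CZ + 1)) := (min_le_right _ _).trans (min_le_right _ _)
  set c0 : ℝ := c / (2 * (K5 + 1)) with hc0def
  have hc0 : 0 < c0 := by positivity
  have hc0K : c0 * K5 ≤ c / 2 := by
    rw [hc0def, div_mul_eq_mul_div, div_le_div_iff₀ (by positivity) (by norm_num)]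
    nlinarith
  have hs1 : Real.sqrt (1 + CZ * (2 * c)) ≤ Real.exp (CZ * c) := by
    have := sqrt_one_add_le (x := CZ * c) (by positivity)
    have e : 1 + CZ * (2 * c) = 1 + 2 * (CZ * c) := by ring
    rw [e]; exact this
  have hc3' : c * (CV + CZ + 1) ≤ η / 4 := by
    rw [le_div_iff₀ (by positivity)] at hc3; linarith
  have hc2' : 2 * (c * cJ * K3) ≤ 1 := by
    rw [le_div_iff₀ (by positivity)] at hc2; linarith
  set δ : ℝ := 1 - Real.exp (-(min (c / 2) (η / 4))) with hδ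
  have hmin : 0 < min (c / 2) (η / 4) := lt_min (by linarith) (by linarith)
  refine ⟨c, c0, δ, by linarith, hc, hc0, ?_, ?_, ?_, ?_⟩
  · rw [hδ]
    have : Real.exp (-(min (c / 2) (η / 4))) < 1 := by
      rw [Real.exp_lt_one_iff]; linarith
    linarith
  · rw [hδ]
    have := Real.exp_pos (-(min (c / 2) (η / 4)))
    linarith
  · have h2 : Real.sqrt (1 - (p / 2) * (1 - Real.exp (-(2 * cth)))) ≤ Real.exp (-(η / 2)) :=
      sqrt_one_sub_le
    calc Real.exp (c0 * K5 + c * CV) * (Real.sqrt (1 + CZ * (2 * c)) *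
          Real.sqrt (1 - (p / 2) * (1 - Real.exp (-(2 * cth)))))
        ≤ Real.exp (c0 * K5 + c * CV) * (Real.exp (CZ * c) * Real.exp (-(η / 2))) := by
          gcongr
      _ = Real.exp (c0 * K5 + c * CV + (CZ * c + -(η / 2))) := by
          rw [← Real.exp_add, ← Real.exp_add]
      _ ≤ Real.exp (-(min (c / 2) (η / 4))) := by
          apply Real.exp_le_exp.2
          have h3 : min (c / 2) (η / 4) ≤ η / 4 := min_le_right _ _
          nlinarith
      _ = 1 - δ := by rw [hδ]; ring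
  · have h2 : Real.sqrt (1 - (7 / 8) * (1 - Real.exp (-(2 * (c * cJ * K3))))) ≤
        Real.exp (-((7 / 8) * (1 - Real.exp (-(2 * (c * cJ * K3)))) / 2)) :=
      sqrt_one_sub_le
    have h4 : (2 * (c * cJ * K3)) / 2 ≤ 1 - Real.exp (-(2 * (c * cJ * K3))) :=
      half_le_one_sub_exp (by have := mul_pos hc hJK; nlinarith) hc2'
    calc Real.exp (c0 * K5 + c * CV) * (Real.sqrt (1 + CZ * (2 * c)) *
          Real.sqrt (1 - (7 / 8) * (1 - Real.exp (-(2 * (c * cJ * K3))))))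
        ≤ Real.exp (c0 * K5 + c * CV) * (Real.exp (CZ * c) *
          Real.exp (-((7 / 8) * (1 - Real.exp (-(2 * (c * cJ * K3)))) / 2))) := by
          gcongr
      _ = Real.exp (c0 * K5 + c * CV + (CZ * c +
          -((7 / 8) * (1 - Real.exp (-(2 * (c * cJ * K3)))) / 2))) := by
          rw [← Real.exp_add, ← Real.exp_add]
      _ ≤ Real.exp (-(min (c / 2) (η / 4))) := by
          apply Real.exp_le_exp.2
          have h3 : min (c / 2) (η / 4) ≤ c / 2 := min_le_left _ _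
          have h5 : c * (4 * (CV + CZ + 1)) ≤ c * (cJ * K3) :=
            mul_le_mul_of_nonneg_left hK3' hc.le
          nlinarith
      _ = 1 - δ := by rw [hδ]; ring

/-! ### Set integrals and conditioning -/

/-- inequalities between set integrals over a sub-sigma-algebra can be multiplied by nonnegative
functions measurable for it -/
theorem lintegral_mul_mono {Ω : Type*} {G m : MeasurableSpace Ω} (hG : G ≤ m) {P : Measure Ω}
    {F H : Ω → ℝ≥0∞} (hF : Measurable F) (hH : Measurable H)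
    (h : ∀ A, MeasurableSet[G] A → ∫⁻ ω in A, F ω ∂P ≤ ∫⁻ ω in A, H ω ∂P)
    {k : Ω → ℝ≥0∞} (hk : Measurable[G] k) {A : Set Ω} (hA : MeasurableSet[G] A) :
    ∫⁻ ω in A, k ω * F ω ∂P ≤ ∫⁻ ω in A, k ω * H ω ∂P := by
  have hA' : MeasurableSet A := hG _ hA
  have hk' : Measurable[G] (A.indicator k) := hk.indicator hA
  have key : ∀ {F : Ω → ℝ≥0∞}, Measurable F → ∫⁻ ω in A, k ω * F ω ∂P =
      ∫⁻ ω, A.indicator k ω ∂((P.withDensity F).trim hG) := by
    intro F hF
    rw [lintegral_trim hG hk', lintegral_withDensity_eq_lintegral_mul _ hF (hk'.mono hG le_rfl),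
      ← lintegral_indicator hA']
    congr 1
    ext ω
    by_cases hω : ω ∈ A <;> simp [hω, mul_comm]
  rw [key hF, key hH]
  apply lintegral_mono' _ le_rfl
  rw [Measure.le_iff]
  intro s hs
  rw [trim_measurableSet_eq hG hs, trim_measurableSet_eq hG hs, withDensity_apply _ (hG _ hs),
    withDensity_apply _ (hG _ hs)]
  exact h s hs

/-- Cauchy-Schwarz bound used in both cases of the step -/
theorem csbound {Ω : Type*} {m : MeasurableSpace Ω} {P : Measure Ω} [IsProbabilityMeasure P]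
    {A E : Set Ω} (hA : MeasurableSet A) (hE : MeasurableSet E) {s l c CZ : ℝ} (hs0 : 0 ≤ s)
    (hs1 : s ≤ 1) (hl : 0 ≤ l) (hs : ENNReal.ofReal s * P A ≤ P (A ∩ E)) {Z U : Ω → ℝ}
    (hZm : Measurable Z) (hUm : Measurable U) (hU0 : ∀ ω, U ω ≤ 0) (hUE : ∀ ω ∈ E, U ω ≤ -l)
    (hZ : ∫⁻ ω in A, ENNReal.ofReal (Real.exp ((2 * c) * Z ω)) ∂P ≤
      ENNReal.ofReal (1 + CZ * (2 * c)) * P A) (hC : 0 ≤ 1 + CZ * (2 * c)) :
    ∫⁻ ω in A, ENNReal.ofReal (Real.exp (c * Z ω + U ω)) ∂P ≤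
      ENNReal.ofReal (Real.sqrt (1 + CZ * (2 * c)) *
        Real.sqrt (1 - s * (1 - Real.exp (-(2 * l))))) * P A := by
  have hfin : P A ≠ ⊤ := measure_ne_top _ _
  have hel : Real.exp (-(2 * l)) ≤ 1 := by rw [Real.exp_le_one_iff]; linarith
  have hel0 : 0 < Real.exp (-(2 * l)) := Real.exp_pos _
  -- second factor
  have h2 : ∫⁻ ω in A, ENNReal.ofReal (Real.exp (2 * U ω)) ∂P ≤
      ENNReal.ofReal (1 - s * (1 - Real.exp (-(2 * l)))) * P A := by
    have hle : ∀ ω, ENNReal.ofReal (Real.exp (2 * U ω)) ≤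
        (Eᶜ).indicator (fun _ => (1 : ℝ≥0∞)) ω +
          E.indicator (fun _ => ENNReal.ofReal (Real.exp (-(2 * l)))) ω := by
      intro ω
      by_cases hω : ω ∈ E
      · simp only [indicator_of_notMem (show ω ∉ Eᶜ by simpa using hω), zero_add,
          indicator_of_mem hω]
        apply ENNReal.ofReal_le_ofReal
        apply Real.exp_le_exp.2
        linarith [hUE ω hω]
      · simp only [indicator_of_mem (show ω ∈ Eᶜ from hω), indicator_of_notMem hω, add_zero]
        rw [ENNReal.ofReal_le_one, Real.exp_le_one_iff]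
        linarith [hU0 ω]
    calc ∫⁻ ω in A, ENNReal.ofReal (Real.exp (2 * U ω)) ∂P
        ≤ ∫⁻ ω in A, ((Eᶜ).indicator (fun _ => (1 : ℝ≥0∞)) ω +
          E.indicator (fun _ => ENNReal.ofReal (Real.exp (-(2 * l)))) ω) ∂P :=
          lintegral_mono hle
      _ = P (Eᶜ ∩ A) + ENNReal.ofReal (Real.exp (-(2 * l))) * P (E ∩ A) := by
          rw [lintegral_add_left (measurable_const.indicator hE.compl),
            lintegral_indicator hE.compl, lintegral_indicator hE, lintegral_const,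
            lintegral_const, one_mul, Measure.restrict_restrict hE.compl,
            Measure.restrict_restrict hE]
          simp
      _ ≤ ENNReal.ofReal (1 - s * (1 - Real.exp (-(2 * l)))) * P A := by
          have hsum : P (E ∩ A) + P (Eᶜ ∩ A) = P A := by
            rw [inter_comm E A, inter_comm Eᶜ A, ← diff_eq]
            exact measure_inter_add_diff A hE
          have hx : P (Eᶜ ∩ A) ≠ ⊤ := measure_ne_top _ _
          have hy : P (E ∩ A) ≠ ⊤ := measure_ne_top _ _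
          have e1 : P (Eᶜ ∩ A) = ENNReal.ofReal (P (Eᶜ ∩ A)).toReal :=
            (ENNReal.ofReal_toReal hx).symm
          have e2 : P (E ∩ A) = ENNReal.ofReal (P (E ∩ A)).toReal :=
            (ENNReal.ofReal_toReal hy).symm
          have e3 : P A = ENNReal.ofReal (P A).toReal := (ENNReal.ofReal_toReal hfin).symm
          have hsr : (P (E ∩ A)).toReal + (P (Eᶜ ∩ A)).toReal = (P A).toReal := by
            rw [← ENNReal.toReal_add hy hx, hsum]
          have hss : s * (P A).toReal ≤ (P (E ∩ A)).toReal := by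
            have := ENNReal.toReal_mono (measure_ne_top P (A ∩ E)) hs
            rw [ENNReal.toReal_mul, ENNReal.toReal_ofReal hs0, inter_comm] at this
            exact this
          rw [e1, e2, e3, ← ENNReal.ofReal_mul hel0.le,
            ← ENNReal.ofReal_add ENNReal.toReal_nonneg (by positivity),
            ← ENNReal.ofReal_mul (by nlinarith)]
          apply ENNReal.ofReal_le_ofReal
          nlinarith
  have hfm : AEMeasurable (fun ω => ENNReal.ofReal (Real.exp (c * Z ω))) (P.restrict A) :=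
    (ENNReal.measurable_ofReal.comp (Real.measurable_exp.comp (hZm.const_mul c))).aemeasurable
  have hgm : AEMeasurable (fun ω => ENNReal.ofReal (Real.exp (U ω))) (P.restrict A) :=
    (ENNReal.measurable_ofReal.comp (Real.measurable_exp.comp hUm)).aemeasurable
  have hh := ENNReal.lintegral_mul_le_Lp_mul_Lq (P.restrict A)
    (Real.HolderConjugate.two_two) hfm hgm
  have e0 : ∀ ω, ENNReal.ofReal (Real.exp (c * Z ω + U ω)) =
      ((fun ω => ENNReal.ofReal (Real.exp (c * Z ω))) *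
        fun ω => ENNReal.ofReal (Real.exp (U ω))) ω := by
    intro ω
    simp only [Pi.mul_apply]
    rw [Real.exp_add, ENNReal.ofReal_mul (Real.exp_pos _).le]
  have esq : ∀ x : ℝ, (ENNReal.ofReal (Real.exp x)) ^ (2 : ℝ) =
      ENNReal.ofReal (Real.exp (2 * x)) := by
    intro x
    rw [ENNReal.ofReal_rpow_of_pos (Real.exp_pos _), ← Real.exp_mul, mul_comm]
  have hs' : 0 ≤ 1 - s * (1 - Real.exp (-(2 * l))) := by nlinarith
  calc ∫⁻ ω in A, ENNReal.ofReal (Real.exp (c * Z ω + U ω)) ∂P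
      = ∫⁻ ω in A, ((fun ω => ENNReal.ofReal (Real.exp (c * Z ω))) *
        fun ω => ENNReal.ofReal (Real.exp (U ω))) ω ∂P := lintegral_congr e0
    _ ≤ (∫⁻ ω in A, (ENNReal.ofReal (Real.exp (c * Z ω))) ^ (2 : ℝ) ∂P) ^ (1 / (2 : ℝ)) *
        (∫⁻ ω in A, (ENNReal.ofReal (Real.exp (U ω))) ^ (2 : ℝ) ∂P) ^ (1 / (2 : ℝ)) := hh
    _ ≤ (ENNReal.ofReal (1 + CZ * (2 * c)) * P A) ^ (1 / (2 : ℝ)) *
        (ENNReal.ofReal (1 - s * (1 - Real.exp (-(2 * l)))) * P A) ^ (1 / (2 : ℝ)) := by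
        gcongr
        · refine le_trans (le_of_eq ?_) hZ
          refine lintegral_congr fun ω => ?_
          rw [esq]; congr 2; ring
        · refine le_trans (le_of_eq ?_) h2
          exact lintegral_congr fun ω => esq _
    _ = ENNReal.ofReal (Real.sqrt (1 + CZ * (2 * c)) *
        Real.sqrt (1 - s * (1 - Real.exp (-(2 * l))))) * P A := by
        rw [ENNReal.mul_rpow_of_nonneg _ _ (by norm_num), ENNReal.mul_rpow_of_nonneg _ _
          (by norm_num), ENNReal.ofReal_rpow_of_nonneg hC (by norm_num),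
          ENNReal.ofReal_rpow_of_nonneg hs' (by norm_num), ← Real.sqrt_eq_rpow,
          ← Real.sqrt_eq_rpow, ENNReal.ofReal_mul (Real.sqrt_nonneg _)]
        have hpp : (P A) ^ (1 / (2 : ℝ)) * (P A) ^ (1 / (2 : ℝ)) = P A := by
          rw [← ENNReal.rpow_add_of_nonneg _ _ (by norm_num) (by norm_num)]
          norm_num
        calc _ = ENNReal.ofReal (Real.sqrt (1 + CZ * (2 * c))) *
            ENNReal.ofReal (Real.sqrt (1 - s * (1 - Real.exp (-(2 * l))))) *
            ((P A) ^ (1 / (2 : ℝ)) * (P A) ^ (1 / (2 : ℝ))) := by ring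
          _ = _ := by rw [hpp]

/-- Jensen with a random exponent `w ∈ (0,1]` measurable for `G`, in set-integral form. -/
theorem jensen_rpow {Ω : Type*} {G m : MeasurableSpace Ω} (hG : G ≤ m) {P : Measure Ω}
    {a : ℝ} (ha : 0 < a) {Y w : Ω → ℝ} (hY : Measurable Y) (hw : Measurable[G] w)
    (hw0 : ∀ ω, 0 < w ω) (hw1 : ∀ ω, w ω ≤ 1)
    (h : ∀ A, MeasurableSet[G] A →
      ∫⁻ ω in A, ENNReal.ofReal (Real.exp (Y ω)) ∂P ≤ ENNReal.ofReal a * P A)
    {A : Set Ω} (hA : MeasurableSet[G] A) :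
    ∫⁻ ω in A, ENNReal.ofReal (Real.exp (w ω * Y ω)) ∂P ≤
      ∫⁻ ω in A, ENNReal.ofReal (a ^ w ω) ∂P := by
  have hwm : Measurable w := hw.mono hG le_rfl
  have hpt : ∀ ω, ENNReal.ofReal (Real.exp (w ω * Y ω)) ≤
      ENNReal.ofReal ((1 - w ω) * a ^ w ω) +
        ENNReal.ofReal (w ω * a ^ (w ω - 1)) * ENNReal.ofReal (Real.exp (Y ω)) := by
    intro ω
    have h1 := Real.geom_mean_le_arith_mean2_weighted (hw0 ω).le (sub_nonneg.2 (hw1 ω))
      (Real.exp_pos (Y ω)).le ha.le (by ring)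
    have hap : 0 < a ^ (w ω - 1) := Real.rpow_pos_of_pos ha _
    have h2 : Real.exp (w ω * Y ω) ≤ (1 - w ω) * a ^ w ω +
        w ω * a ^ (w ω - 1) * Real.exp (Y ω) := by
      have e1 : Real.exp (w ω * Y ω) = Real.exp (Y ω) ^ w ω * a ^ (1 - w ω) * a ^ (w ω - 1) := by
        rw [mul_assoc, ← Real.rpow_add ha, ← Real.exp_mul]
        have : (1 - w ω) + (w ω - 1) = 0 := by ring
        rw [this, Real.rpow_zero, mul_one, mul_comm]
      have e2 : a * a ^ (w ω - 1) = a ^ w ω := by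
        nth_rewrite 1 [← Real.rpow_one a]
        rw [← Real.rpow_add ha]; congr 1; ring
      rw [e1]
      calc _ ≤ (w ω * Real.exp (Y ω) + (1 - w ω) * a) * a ^ (w ω - 1) :=
            mul_le_mul_of_nonneg_right h1 hap.le
        _ = (1 - w ω) * (a * a ^ (w ω - 1)) + w ω * a ^ (w ω - 1) * Real.exp (Y ω) := by ring
        _ = _ := by rw [e2]
    calc ENNReal.ofReal (Real.exp (w ω * Y ω))
        ≤ ENNReal.ofReal ((1 - w ω) * a ^ w ω + w ω * a ^ (w ω - 1) * Real.exp (Y ω)) :=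
          ENNReal.ofReal_le_ofReal h2
      _ = _ := by
          rw [ENNReal.ofReal_add (mul_nonneg (sub_nonneg.2 (hw1 ω)) (Real.rpow_pos_of_pos ha _).le)
            (mul_nonneg (mul_nonneg (hw0 ω).le hap.le) (Real.exp_pos _).le),
            ENNReal.ofReal_mul (mul_nonneg (hw0 ω).le hap.le)]
  have hm1 : Measurable[G] fun ω => ENNReal.ofReal (w ω * a ^ (w ω - 1)) :=
    ENNReal.measurable_ofReal.comp (hw.mul (measurable_const.pow (hw.sub measurable_const)))
  have hm2 : Measurable fun ω => ENNReal.ofReal ((1 - w ω) * a ^ w ω) :=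
    ENNReal.measurable_ofReal.comp ((measurable_const.sub hwm).mul (measurable_const.pow hwm))
  have hm3 : Measurable fun ω => ENNReal.ofReal (Real.exp (Y ω)) :=
    ENNReal.measurable_ofReal.comp (Real.measurable_exp.comp hY)
  have hkey := lintegral_mul_mono (P := P) hG hm3 (measurable_const (a := ENNReal.ofReal a))
    (fun A hA => by rw [setLIntegral_const]; exact h A hA) hm1 hA
  calc ∫⁻ ω in A, ENNReal.ofReal (Real.exp (w ω * Y ω)) ∂P
      ≤ ∫⁻ ω in A, (ENNReal.ofReal ((1 - w ω) * a ^ w ω) +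
        ENNReal.ofReal (w ω * a ^ (w ω - 1)) * ENNReal.ofReal (Real.exp (Y ω))) ∂P :=
        lintegral_mono hpt
    _ = ∫⁻ ω in A, ENNReal.ofReal ((1 - w ω) * a ^ w ω) ∂P +
        ∫⁻ ω in A, ENNReal.ofReal (w ω * a ^ (w ω - 1)) * ENNReal.ofReal (Real.exp (Y ω)) ∂P :=
        lintegral_add_left hm2 _
    _ ≤ ∫⁻ ω in A, ENNReal.ofReal ((1 - w ω) * a ^ w ω) ∂P +
        ∫⁻ ω in A, ENNReal.ofReal (w ω * a ^ (w ω - 1)) * ENNReal.ofReal a ∂P := by
        gcongr
    _ = ∫⁻ ω in A, (ENNReal.ofReal ((1 - w ω) * a ^ w ω) +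
        ENNReal.ofReal (w ω * a ^ (w ω - 1)) * ENNReal.ofReal a) ∂P :=
        (lintegral_add_left hm2 _).symm
    _ = ∫⁻ ω in A, ENNReal.ofReal (a ^ w ω) ∂P := by
        refine lintegral_congr fun ω => ?_
        have hap : 0 < a ^ (w ω - 1) := Real.rpow_pos_of_pos ha _
        have e2 : a ^ (w ω - 1) * a = a ^ w ω := by
          nth_rewrite 2 [← Real.rpow_one a]
          rw [← Real.rpow_add ha]; congr 1; ring
        rw [← ENNReal.ofReal_mul (mul_nonneg (hw0 ω).le hap.le), ← ENNReal.ofReal_add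
          (mul_nonneg (sub_nonneg.2 (hw1 ω)) (Real.rpow_pos_of_pos ha _).le)
          (mul_nonneg (mul_nonneg (hw0 ω).le hap.le) ha.le), mul_assoc, e2]
        congr 1; ring

/-- **Node LB5 (one step).** -/
theorem step {Ω : Type*} {G m : MeasurableSpace Ω} (hG : G ≤ m) {P : Measure Ω}
    [IsProbabilityMeasure P] {p CV CZ cJ K3 cth K5 c c0 δ cmax : ℝ}
    (hgood : Good p CV CZ cJ K3 cth K5 c c0 δ) (hcmax : 2 * c ≤ cmax)
    (hp : 0 < p) (hp1 : p ≤ 1) (hCZ : 0 ≤ CZ) (hcJ : 0 < cJ) (hK3 : 0 ≤ K3) (hcth : 0 < cth)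
    {w cont Z J dA dL : Ω → ℝ} (hwG : Measurable[G] w)
    (hZm : Measurable Z) (hJm : Measurable J) (hdAm : Measurable dA)
    (hw0 : ∀ ω, 0 < w ω) (hw1 : ∀ ω, w ω ≤ 1)
    (hcont : ∀ ω, cont ω ≤ K5 * w ω)
    (hdL : ∀ ω, dL ω ≤ w ω * (CV + Z ω - cJ * J ω))
    (hJ0 : ∀ ω, 0 ≤ J ω) (hdA0 : ∀ ω, dA ω ≤ 0)
    (hZ : ∀ c', 0 < c' → c' ≤ cmax → ∀ A, MeasurableSet[G] A →
      ∫⁻ ω in A, ENNReal.ofReal (Real.exp (c' * Z ω)) ∂P ≤ ENNReal.ofReal (1 + CZ * c') * P A)
    {caseA : Set Ω} (hcA : MeasurableSet[G] caseA)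
    (hA : ∀ A, MeasurableSet[G] A → A ⊆ caseA →
      ENNReal.ofReal (p / 2) * P A ≤ P (A ∩ {ω | dA ω ≤ -(cth * w ω)}))
    (hB : ∀ A, MeasurableSet[G] A → A ⊆ caseAᶜ →
      ENNReal.ofReal (7 / 8) * P A ≤ P (A ∩ {ω | K3 ≤ J ω}))
    {A : Set Ω} (hAm : MeasurableSet[G] A) :
    ∫⁻ ω in A, ENNReal.ofReal (Real.exp (c0 * cont ω + c * dL ω + dA ω)) ∂P ≤
      ∫⁻ ω in A, ENNReal.ofReal ((1 - δ) ^ w ω) ∂P := by
  have hc := hgood.hc
  have hc0 := hgood.hc0
  have hwm : Measurable w := hwG.mono hG le_rfl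
  have hC : 0 ≤ 1 + CZ * (2 * c) := by positivity
  have ha : 0 < 1 - δ := by linarith [hgood.hδ1]
  set Y : Ω → ℝ := fun ω => c0 * K5 + c * CV + (c * Z ω + (-(c * cJ * J ω) + dA ω / w ω)) with hY
  have hYm : Measurable Y := by
    refine measurable_const.add ((hZm.const_mul c).add (((hJm.const_mul (c * cJ)).neg).add
      (hdAm.div hwm)))
  have hdw : ∀ ω, dA ω / w ω ≤ 0 := fun ω => div_nonpos_of_nonpos_of_nonneg (hdA0 ω) (hw0 ω).le
  have hJc : ∀ ω, -(c * cJ * J ω) ≤ 0 := fun ω => by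
    have := mul_nonneg (mul_pos hc hcJ).le (hJ0 ω); linarith
  -- pointwise bound
  have hpt : ∀ ω, c0 * cont ω + c * dL ω + dA ω ≤ w ω * Y ω := by
    intro ω
    have h1 : c0 * cont ω ≤ c0 * (K5 * w ω) := mul_le_mul_of_nonneg_left (hcont ω) hc0.le
    have h2 : c * dL ω ≤ c * (w ω * (CV + Z ω - cJ * J ω)) :=
      mul_le_mul_of_nonneg_left (hdL ω) hc.le
    have h3 : dA ω = w ω * (dA ω / w ω) := by field_simp [(hw0 ω).ne']
    rw [hY]; simp only
    calc c0 * cont ω + c * dL ω + dA ω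
        ≤ c0 * (K5 * w ω) + c * (w ω * (CV + Z ω - cJ * J ω)) + w ω * (dA ω / w ω) := by
          rw [← h3]; linarith
      _ = _ := by ring
  -- the bound with exponent one
  have hone : ∀ A, MeasurableSet[G] A →
      ∫⁻ ω in A, ENNReal.ofReal (Real.exp (Y ω)) ∂P ≤ ENNReal.ofReal (1 - δ) * P A := by
    have hpull : ∀ (A : Set Ω) (U : Ω → ℝ), (∀ ω, -(c * cJ * J ω) + dA ω / w ω ≤ U ω) →
        ∫⁻ ω in A, ENNReal.ofReal (Real.exp (Y ω)) ∂P ≤
        ENNReal.ofReal (Real.exp (c0 * K5 + c * CV)) *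
          ∫⁻ ω in A, ENNReal.ofReal (Real.exp (c * Z ω + U ω)) ∂P := by
      intro A U hU
      rw [← lintegral_const_mul' _ _ ENNReal.ofReal_ne_top]
      apply lintegral_mono
      intro ω
      simp only
      rw [← ENNReal.ofReal_mul (Real.exp_pos _).le, ← Real.exp_add]
      apply ENNReal.ofReal_le_ofReal
      apply Real.exp_le_exp.2
      rw [hY]; simp only
      linarith [hU ω]
    intro A hAG
    have hA1 : MeasurableSet[G] (A ∩ caseA) := MeasurableSet.inter hAG hcA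
    have hA2 : MeasurableSet[G] (A ∩ caseAᶜ) := MeasurableSet.inter hAG hcA.compl
    have hbA : ∫⁻ ω in A ∩ caseA, ENNReal.ofReal (Real.exp (Y ω)) ∂P ≤
        ENNReal.ofReal (1 - δ) * P (A ∩ caseA) := by
      have hEm : MeasurableSet {ω | dA ω ≤ -(cth * w ω)} :=
        measurableSet_le hdAm (hwm.const_mul cth).neg
      have h1 := csbound (P := P) (hG _ hA1) hEm (s := p / 2) (l := cth) (c := c) (CZ := CZ)
        (by linarith) (by linarith) hcth.le (hA _ hA1 inter_subset_right) hZm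
        (hdAm.div hwm) hdw (by
          intro ω hω
          simp only [mem_setOf_eq] at hω
          rw [Pi.div_apply, div_le_iff₀ (hw0 ω)]; linarith) (hZ (2 * c) (by linarith) hcmax _ hA1)
        hC
      calc _ ≤ ENNReal.ofReal (Real.exp (c0 * K5 + c * CV)) *
            ∫⁻ ω in A ∩ caseA, ENNReal.ofReal (Real.exp (c * Z ω + (dA / w) ω)) ∂P :=
            hpull _ _ (fun ω => by rw [Pi.div_apply]; linarith [hJc ω])
        _ ≤ ENNReal.ofReal (Real.exp (c0 * K5 + c * CV)) *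
            (ENNReal.ofReal (Real.sqrt (1 + CZ * (2 * c)) *
              Real.sqrt (1 - p / 2 * (1 - Real.exp (-(2 * cth))))) * P (A ∩ caseA)) := by
            gcongr
        _ = ENNReal.ofReal (Real.exp (c0 * K5 + c * CV) * (Real.sqrt (1 + CZ * (2 * c)) *
              Real.sqrt (1 - p / 2 * (1 - Real.exp (-(2 * cth)))))) * P (A ∩ caseA) := by
            rw [← mul_assoc, ← ENNReal.ofReal_mul (Real.exp_pos _).le]
        _ ≤ _ := by
            gcongr
            exact hgood.A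
    have hbB : ∫⁻ ω in A ∩ caseAᶜ, ENNReal.ofReal (Real.exp (Y ω)) ∂P ≤
        ENNReal.ofReal (1 - δ) * P (A ∩ caseAᶜ) := by
      have hEm : MeasurableSet {ω | K3 ≤ J ω} := measurableSet_le measurable_const hJm
      have h1 := csbound (P := P) (hG _ hA2) hEm (s := 7 / 8) (l := c * cJ * K3) (c := c)
        (CZ := CZ) (by norm_num) (by norm_num) (by positivity) (hB _ hA2 inter_subset_right)
        hZm ((hJm.const_mul (c * cJ)).neg) hJc (by
          intro ω hω
          simp only [mem_setOf_eq] at hω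
          have := mul_le_mul_of_nonneg_left hω (mul_pos hc hcJ).le
          simp only [Pi.neg_apply]
          linarith) (hZ (2 * c) (by linarith) hcmax _ hA2) hC
      calc _ ≤ ENNReal.ofReal (Real.exp (c0 * K5 + c * CV)) *
            ∫⁻ ω in A ∩ caseAᶜ, ENNReal.ofReal (Real.exp (c * Z ω + -(c * cJ * J ω))) ∂P :=
            hpull _ _ (fun ω => by linarith [hdw ω])
        _ ≤ ENNReal.ofReal (Real.exp (c0 * K5 + c * CV)) *
            (ENNReal.ofReal (Real.sqrt (1 + CZ * (2 * c)) *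
              Real.sqrt (1 - 7 / 8 * (1 - Real.exp (-(2 * (c * cJ * K3)))))) *
                P (A ∩ caseAᶜ)) := by
            gcongr
            exact h1
        _ = ENNReal.ofReal (Real.exp (c0 * K5 + c * CV) * (Real.sqrt (1 + CZ * (2 * c)) *
              Real.sqrt (1 - 7 / 8 * (1 - Real.exp (-(2 * (c * cJ * K3))))))) *
                P (A ∩ caseAᶜ) := by
            rw [← mul_assoc, ← ENNReal.ofReal_mul (Real.exp_pos _).le]
        _ ≤ _ := by
            gcongr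
            exact hgood.B
    have hsplit : ∀ f : Ω → ℝ≥0∞, ∫⁻ ω in A, f ω ∂P =
        ∫⁻ ω in A ∩ caseA, f ω ∂P + ∫⁻ ω in A ∩ caseAᶜ, f ω ∂P := by
      intro f
      rw [← diff_eq]
      exact (lintegral_inter_add_diff f A (hG _ hcA)).symm
    rw [hsplit]
    calc _ ≤ ENNReal.ofReal (1 - δ) * P (A ∩ caseA) + ENNReal.ofReal (1 - δ) * P (A ∩ caseAᶜ) :=
          add_le_add hbA hbB
      _ = ENNReal.ofReal (1 - δ) * P A := by
          rw [← mul_add, ← diff_eq, measure_inter_add_diff A (hG _ hcA)]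
  calc ∫⁻ ω in A, ENNReal.ofReal (Real.exp (c0 * cont ω + c * dL ω + dA ω)) ∂P
      ≤ ∫⁻ ω in A, ENNReal.ofReal (Real.exp (w ω * Y ω)) ∂P :=
        lintegral_mono fun ω => ENNReal.ofReal_le_ofReal (Real.exp_le_exp.2 (hpt ω))
    _ ≤ _ := jensen_rpow hG ha hYm hwG hw0 hw1 hone hAm

end Crest.Agent.R162.LBI
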