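import Mathlib
import Crest.Prelude.Def_Loewner
import Crest.Agent.R162.FLDef

/-!
Row 162 (S0243), node LB-BC: Brownian restart and scaling, independence of blocks, and
"almost surely there is a good block in every time interval".
-/

set_option autoImplicit false

open MeasureTheory ProbabilityTheory Filter Set
open scoped NNReal ENNReal Topology

namespace Crest.Agent.R162.LBbc

set_option warn.classDefReducibility false
set_option linter.unusedSectionVars false

variable {Ω : Type*} [mΩ : MeasurableSpace Ω] {P : Measure Ω}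

/-- continuous paths -/
abbrev PathSp := {f : ℝ≥0 → ℝ // Continuous f}

/-- the σ-algebra of the coordinates `≤ T` on the path space -/
def sig (T : ℝ≥0) : MeasurableSpace PathSp :=
  MeasurableSpace.comap (fun (f : PathSp) (v : Set.Iic T) => f.1 v) inferInstance

/-- the natural (raw) filtration -/
def past (B : ℝ≥0 → Ω → ℝ) (t : ℝ≥0) : MeasurableSpace Ω :=
  MeasurableSpace.comap (fun ω (v : Set.Iic t) => B v ω) inferInstance

/-- the future increments -/
def fut (B : ℝ≥0 → Ω → ℝ) (t : ℝ≥0) : MeasurableSpace Ω :=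
  MeasurableSpace.comap (fun ω (v : ℝ≥0) => B (t + v) ω - B t ω) inferInstance

/-- the path as an element of the path space -/
def toPath (B : ℝ≥0 → Ω → ℝ) (hc : ∀ ω, Continuous (fun t => B t ω)) (ω : Ω) : PathSp :=
  ⟨fun t => B t ω, hc ω⟩

/-- the restarted and rescaled process -/
noncomputable def rs (B : ℝ≥0 → Ω → ℝ) (u l : ℝ≥0) (v : ℝ≥0) (ω : Ω) : ℝ :=
  (l : ℝ)⁻¹ * (B (u + l ^ 2 * v) ω - B u ω)

theorem rs_continuous {B : ℝ≥0 → Ω → ℝ} (hc : ∀ ω, Continuous (fun t => B t ω)) (u l : ℝ≥0)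
    (ω : Ω) : Continuous (fun v => rs B u l v ω) := by
  have := hc ω
  unfold rs
  fun_prop

theorem rs_measurable {B : ℝ≥0 → Ω → ℝ} (hm : ∀ t, Measurable (B t)) (u l v : ℝ≥0) :
    Measurable (rs B u l v) := by
  unfold rs
  have h1 := hm (u + l ^ 2 * v)
  have h2 := hm u
  exact (h1.sub h2).const_mul _

theorem past_mono (B : ℝ≥0 → Ω → ℝ) {s t : ℝ≥0} (h : s ≤ t) : past B s ≤ past B t := by
  unfold past
  have : (fun ω (v : Set.Iic s) => B v ω)
      = (fun (x : Set.Iic t → ℝ) (v : Set.Iic s) => x ⟨v.1, le_trans v.2 h⟩)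
        ∘ (fun ω (v : Set.Iic t) => B v ω) := rfl
  rw [this, ← MeasurableSpace.comap_comp]
  apply MeasurableSpace.comap_mono
  have hm : Measurable (fun (x : Set.Iic t → ℝ) (v : Set.Iic s) => x ⟨v.1, le_trans v.2 h⟩) :=
    measurable_pi_lambda _ (fun v => measurable_pi_apply _)
  exact hm.comap_le

theorem past_le {B : ℝ≥0 → Ω → ℝ} (hm : ∀ t, Measurable (B t)) (t : ℝ≥0) : past B t ≤ mΩ := by
  unfold past
  exact (measurable_pi_lambda _ (fun (v : Set.Iic t) => hm v.1)).comap_le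

theorem fut_le {B : ℝ≥0 → Ω → ℝ} (hm : ∀ t, Measurable (B t)) (t : ℝ≥0) : fut B t ≤ mΩ := by
  unfold fut
  exact (measurable_pi_lambda _ (fun v => (hm (t + v)).sub (hm t))).comap_le

theorem measurable_past (B : ℝ≥0 → Ω → ℝ) {s t : ℝ≥0} (h : s ≤ t) : Measurable[past B t] (B s) := by
  have : B s = (fun x : Set.Iic t → ℝ => x ⟨s, h⟩) ∘ (fun ω (v : Set.Iic t) => B v ω) := rfl
  rw [this]
  exact (measurable_pi_apply _).comp (comap_measurable _)

/-- the natural filtration -/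
def pastF (B : ℝ≥0 → Ω → ℝ) (hm : ∀ t, Measurable (B t)) : Filtration ℝ≥0 mΩ where
  seq := past B
  mono' := fun _ _ h => past_mono B h
  le' := past_le hm

theorem rs_measurable_past (B : ℝ≥0 → Ω → ℝ) (u l v T : ℝ≥0) (hv : v ≤ T) :
    Measurable[past B (u + l ^ 2 * T)] (rs B u l v) := by
  unfold rs
  have h1 : Measurable[past B (u + l ^ 2 * T)] (B (u + l ^ 2 * v)) :=
    measurable_past B (by gcongr)
  have h2 : Measurable[past B (u + l ^ 2 * T)] (B u) := measurable_past B (by simp)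
  exact (h1.sub h2).const_mul _

theorem rs_measurable_fut (B : ℝ≥0 → Ω → ℝ) (u l v : ℝ≥0) :
    Measurable[fut B u] (rs B u l v) := by
  have : rs B u l v = (fun x : ℝ≥0 → ℝ => (l : ℝ)⁻¹ * x (l ^ 2 * v)) ∘
      (fun ω (v : ℝ≥0) => B (u + v) ω - B u ω) := rfl
  rw [this]
  exact ((measurable_pi_apply _).const_mul _).comp (comap_measurable _)

/-- Restart and scaling. -/
theorem rs_isBrownian {B : ℝ≥0 → Ω → ℝ} (hB : IsBrownianReal B P) (u : ℝ≥0) {l : ℝ≥0}
    (hl : l ≠ 0) : IsBrownianReal (rs B u l) P := by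
  have h := (hB.shift u).smul (c := l ^ 2) (pow_ne_zero 2 hl)
  convert h using 4 with v ω
  unfold rs
  congr 2
  simp

theorem indep_past_fut {B : ℝ≥0 → Ω → ℝ} (hB : IsPreBrownianReal B P) (u : ℝ≥0) :
    Indep (fut B u) (past B u) P := hB.indepFun_shift u

/-- The law of a Brownian motion on the product space. -/
theorem law_pi_eq {Ω' : Type*} [MeasurableSpace Ω'] {P' : Measure Ω'}
    {B : ℝ≥0 → Ω → ℝ} {B' : ℝ≥0 → Ω' → ℝ} (hB : IsPreBrownianReal B P)
    (hB' : IsPreBrownianReal B' P') (hm : ∀ t, Measurable (B t)) (hm' : ∀ t, Measurable (B' t)) :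
    P.map (fun ω t => B t ω) = P'.map (fun ω t => B' t ω) := by
  have h1 : IsProjectiveLimit (P.map (fun ω t => B t ω))
      (fun I ↦ P.map (fun ω ↦ I.restrict (B · ω))) :=
    isProjectiveLimit_map (measurable_pi_lambda _ hm).aemeasurable
  have h2 : IsProjectiveLimit (P'.map (fun ω t => B' t ω))
      (fun I ↦ P'.map (fun ω ↦ I.restrict (B' · ω))) :=
    isProjectiveLimit_map (measurable_pi_lambda _ hm').aemeasurable
  have e : (fun I : Finset ℝ≥0 ↦ P.map (fun ω ↦ I.restrict (B · ω)))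
      = (fun I ↦ P'.map (fun ω ↦ I.restrict (B' · ω))) := by
    funext I
    rw [(hB.hasLaw I).map_eq, (hB'.hasLaw I).map_eq]
  rw [e] at h1
  have : ∀ I : Finset ℝ≥0, IsFiniteMeasure (P'.map (fun ω ↦ I.restrict (B' · ω))) := by
    intro I
    rw [(hB'.hasLaw I).map_eq]
    infer_instance
  exact h1.unique h2

/-- Two Brownian motions with continuous paths have the same law on the path space. -/
theorem law_eq {Ω' : Type*} [MeasurableSpace Ω'] {P' : Measure Ω'}
    {B : ℝ≥0 → Ω → ℝ} {B' : ℝ≥0 → Ω' → ℝ} (hB : IsPreBrownianReal B P)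
    (hB' : IsPreBrownianReal B' P') (hm : ∀ t, Measurable (B t)) (hm' : ∀ t, Measurable (B' t))
    (hc : ∀ ω, Continuous (fun t => B t ω)) (hc' : ∀ ω, Continuous (fun t => B' t ω))
    {E : Set PathSp} (hE : MeasurableSet E) :
    P (toPath B hc ⁻¹' E) = P' (toPath B' hc' ⁻¹' E) := by
  obtain ⟨F, hF, rfl⟩ := hE
  have h1 : P (toPath B hc ⁻¹' (Subtype.val ⁻¹' F)) = (P.map (fun ω t => B t ω)) F := by
    rw [Measure.map_apply (measurable_pi_lambda _ hm) hF]
    rfl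
  have h2 : P' (toPath B' hc' ⁻¹' (Subtype.val ⁻¹' F)) = (P'.map (fun ω t => B' t ω)) F := by
    rw [Measure.map_apply (measurable_pi_lambda _ hm') hF]
    rfl
  rw [h1, h2, law_pi_eq hB hB' hm hm']

theorem sig_le (T : ℝ≥0) : sig T ≤ (inferInstance : MeasurableSpace PathSp) := by
  unfold sig
  have : Measurable (fun (f : PathSp) (v : Set.Iic T) => f.1 v) :=
    measurable_pi_lambda _ (fun v => (measurable_pi_apply v.1).comp measurable_subtype_coe)
  exact this.comap_le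

theorem measurable_sig {T v : ℝ≥0} (h : v ≤ T) : Measurable[sig T] (fun f : PathSp => f.1 v) := by
  have : (fun f : PathSp => f.1 v) = (fun x : Set.Iic T → ℝ => x ⟨v, h⟩) ∘
      (fun (f : PathSp) (v : Set.Iic T) => f.1 v) := rfl
  rw [this]
  exact (measurable_pi_apply _).comp (comap_measurable _)

/-- A continuous version of a Brownian motion. -/
theorem exists_version {B : ℝ≥0 → Ω → ℝ} (hB : IsBrownianReal B P) :
    ∃ Bc : ℝ≥0 → Ω → ℝ, (∀ ω, Continuous (fun t => Bc t ω)) ∧ (∀ t, Measurable (Bc t)) ∧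
      (∀ ω, Bc 0 ω = 0) ∧ (∀ᵐ ω ∂P, ∀ t, B t ω = Bc t ω) ∧ IsBrownianReal Bc P := by
  obtain ⟨D, hDc, hDd⟩ := TopologicalSpace.exists_countable_dense ℝ≥0
  have hDc' : D.Countable := hDc
  -- good set
  have hae : ∀ᵐ ω ∂P, Continuous (fun t => B t ω) ∧ B 0 ω = 0 ∧
      ∀ q ∈ D, B q ω = (hB.aemeasurable q).mk (B q) ω := by
    have h3 : ∀ᵐ ω ∂P, ∀ q ∈ D, B q ω = (hB.aemeasurable q).mk (B q) ω := by
      rw [ae_ball_iff hDc']
      intro q _
      exact (hB.aemeasurable q).ae_eq_mk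
    filter_upwards [hB.cont, hB.eval_zero_ae_eq_zero, h3] with ω h1 h2 h3
    exact ⟨h1, h2, h3⟩
  set N : Set Ω := toMeasurable P {ω | ¬ (Continuous (fun t => B t ω) ∧ B 0 ω = 0 ∧
      ∀ q ∈ D, B q ω = (hB.aemeasurable q).mk (B q) ω)} with hN
  have hNm : MeasurableSet N := measurableSet_toMeasurable _ _
  have hN0 : P N = 0 := by
    rw [hN, measure_toMeasurable]
    exact hae
  have hgood : ∀ ω, ω ∉ N → (Continuous (fun t => B t ω) ∧ B 0 ω = 0 ∧
      ∀ q ∈ D, B q ω = (hB.aemeasurable q).mk (B q) ω) := by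
    intro ω hω
    by_contra hcon
    exact hω (subset_toMeasurable _ _ hcon)
  classical
  let Bc : ℝ≥0 → Ω → ℝ := fun t => Nᶜ.indicator (B t)
  have hBc1 : ∀ ω, ω ∉ N → ∀ t, Bc t ω = B t ω := fun ω hω t =>
    Set.indicator_of_mem (s := Nᶜ) hω _
  have hBc0 : ∀ ω, ω ∈ N → ∀ t, Bc t ω = 0 := fun ω hω t =>
    Set.indicator_of_notMem (s := Nᶜ) (by simpa using hω) _
  have hcont : ∀ ω, Continuous (fun t => Bc t ω) := by
    intro ω
    by_cases hω : ω ∈ N
    · have : (fun t => Bc t ω) = fun _ => 0 := by funext t; exact hBc0 ω hω t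
      rw [this]; exact continuous_const
    · have : (fun t => Bc t ω) = fun t => B t ω := by funext t; exact hBc1 ω hω t
      rw [this]; exact (hgood ω hω).1
  have hmD : ∀ q ∈ D, Measurable (Bc q) := by
    intro q hq
    have : Bc q = Nᶜ.indicator ((hB.aemeasurable q).mk (B q)) := by
      funext ω
      by_cases hω : ω ∈ N
      · rw [hBc0 ω hω, Set.indicator_of_notMem (s := Nᶜ) (by simpa using hω)]
      · rw [hBc1 ω hω, Set.indicator_of_mem (s := Nᶜ) hω]
        exact (hgood ω hω).2.2 q hq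
    rw [this]
    exact (hB.aemeasurable q).measurable_mk.indicator hNm.compl
  have hmeas : ∀ t, Measurable (Bc t) := by
    intro t
    obtain ⟨x, hxD, hxt⟩ := mem_closure_iff_seq_limit.1 (hDd t)
    refine measurable_of_tendsto_metrizable (f := fun n => Bc (x n)) (g := Bc t)
      (fun n => hmD _ (hxD n)) ?_
    rw [tendsto_pi_nhds]
    intro ω
    exact ((hcont ω).tendsto t).comp hxt
  have hae' : ∀ᵐ ω ∂P, ∀ t, B t ω = Bc t ω := by
    have : ∀ᵐ ω ∂P, ω ∉ N := by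
      rw [ae_iff]
      simpa using hN0
    filter_upwards [this] with ω hω t
    exact (hBc1 ω hω t).symm
  refine ⟨Bc, hcont, hmeas, ?_, hae', ?_⟩
  · intro ω
    by_cases hω : ω ∈ N
    · exact hBc0 ω hω 0
    · rw [hBc1 ω hω]; exact (hgood ω hω).2.1
  · refine ⟨hB.toIsPreBrownianReal.congr ?_, Eventually.of_forall hcont⟩
    intro t
    filter_upwards [hae'] with ω hω
    exact hω t

/-- The product bound. -/
theorem measure_iInter_le {B : ℝ≥0 → Ω → ℝ} (hB : IsPreBrownianReal B P)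
    (hm : ∀ t, Measurable (B t))
    {p : ℝ≥0∞} (u : ℕ → ℝ≥0) (hu : Monotone u) (A : ℕ → Set Ω)
    (hA1 : ∀ k, MeasurableSet[past B (u (k + 1))] (A k))
    (hA2 : ∀ k, MeasurableSet[fut B (u k)] (A k)) (hp : ∀ k, p ≤ P (A k)) (n : ℕ) :
    P (⋂ k ∈ Finset.range n, (A k)ᶜ) ≤ (1 - p) ^ n := by
  have : IsProbabilityMeasure P := hB.isGaussianProcess.isProbabilityMeasure
  have hmeas : ∀ n, MeasurableSet[past B (u n)] (⋂ k ∈ Finset.range n, (A k)ᶜ) := by
    intro n
    refine @Finset.measurableSet_biInter _ _ (past B (u n)) _ _ ?_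
    intro k hk
    exact (past_mono B (hu (Nat.succ_le_of_lt (Finset.mem_range.1 hk))) _ (hA1 k)).compl
  induction n with
  | zero => simp
  | succ n ih =>
    have e : (⋂ k ∈ Finset.range (n + 1), (A k)ᶜ)
        = (A n)ᶜ ∩ ⋂ k ∈ Finset.range n, (A k)ᶜ := by
      rw [Finset.range_add_one, Finset.set_biInter_insert]
    rw [e]
    have hind := (Indep_iff _ _ _).1 (indep_past_fut hB (u n)) _ _ (hA2 n).compl (hmeas n)
    rw [hind]
    have h1 : P (A n)ᶜ ≤ 1 - p := by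
      rw [prob_compl_eq_one_sub (fut_le hm _ _ (hA2 n))]
      exact tsub_le_tsub_left (hp n) 1
    calc P (A n)ᶜ * P (⋂ k ∈ Finset.range n, (A k)ᶜ) ≤ (1 - p) * (1 - p) ^ n := by gcongr
      _ = (1 - p) ^ (n + 1) := by rw [pow_succ']

/-- one interval -/
theorem exists_good_interval {B : ℝ≥0 → Ω → ℝ} (hB : IsPreBrownianReal B P)
    (hm : ∀ t, Measurable (B t)) (T : ℝ≥0) {p : ℝ≥0∞} (hp : 0 < p)
    (A : ℝ≥0 → ℝ≥0 → Set Ω)
    (hA1 : ∀ u l, 0 < l → MeasurableSet[past B (u + l ^ 2 * T)] (A u l))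
    (hA2 : ∀ u l, 0 < l → MeasurableSet[fut B u] (A u l))
    (hAp : ∀ u l, 0 < l → p ≤ P (A u l))
    (C : ℝ≥0 → ℝ≥0 → Ω → Prop) (hC : ∀ u l, 0 < l → ∀ᵐ ω ∂P, ω ∈ A u l → C u l ω)
    {a b : ℝ≥0} (hab : a < b) {ε : ℝ≥0} (hε : 0 < ε) :
    ∀ᵐ ω ∂P, ∃ u l, 0 < l ∧ l < ε ∧ a ≤ u ∧ u + l ^ 2 * T ≤ b ∧ C u l ω := by
  have hbound : ∀ n : ℕ, P {ω | ¬ ∃ u l, 0 < l ∧ l < ε ∧ a ≤ u ∧ u + l ^ 2 * T ≤ b ∧ C u l ω}
      ≤ (1 - p) ^ n := by
    intro n
    set l : ℝ≥0 := min (ε / 2) (NNReal.sqrt ((b - a) / ((n + 1) * (T + 1)))) with hl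
    have hba : 0 < b - a := tsub_pos_of_lt hab
    have hl0 : 0 < l := by
      rw [hl, lt_min_iff]
      refine ⟨half_pos hε, ?_⟩
      rw [NNReal.sqrt_pos]
      positivity
    have hlε : l < ε := lt_of_le_of_lt (min_le_left _ _) (half_lt_self hε)
    have hl2 : (n : ℝ≥0) * (l ^ 2 * T) ≤ b - a := by
      have h1 : l ^ 2 ≤ (b - a) / ((n + 1) * (T + 1)) := by
        calc l ^ 2 ≤ (NNReal.sqrt ((b - a) / ((n + 1) * (T + 1)))) ^ 2 := by
              gcongr
              exact min_le_right _ _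
          _ = _ := NNReal.sq_sqrt _
      calc (n : ℝ≥0) * (l ^ 2 * T) ≤ (n + 1) * (((b - a) / ((n + 1) * (T + 1))) * (T + 1)) := by
            gcongr
            · exact le_self_add
            · exact le_self_add
        _ = b - a := by
            field_simp
    set u : ℕ → ℝ≥0 := fun k => a + k * (l ^ 2 * T) with hu
    have hus : ∀ k, u (k + 1) = u k + l ^ 2 * T := by
      intro k
      simp only [hu]
      push_cast
      ring
    have humono : Monotone u := by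
      refine monotone_nat_of_le_succ (fun k => ?_)
      rw [hus k]
      exact le_self_add
    have h := measure_iInter_le (P := P) hB hm u humono (fun k => A (u k) l)
      (fun k => by rw [hus k]; exact hA1 _ _ hl0) (fun k => hA2 _ _ hl0) (fun k => hAp _ _ hl0) n
    refine le_trans (measure_mono_ae ?_) h
    have hall : ∀ᵐ ω ∂P, ∀ k : ℕ, ω ∈ A (u k) l → C (u k) l ω := by
      rw [ae_all_iff]
      exact fun k => hC _ _ hl0
    filter_upwards [hall] with ω hω hbad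
    change ω ∈ ⋂ k ∈ Finset.range n, (A (u k) l)ᶜ
    simp only [Set.mem_iInter]
    intro k hk hmem
    refine hbad ⟨u k, l, hl0, hlε, le_self_add, ?_, hω k hmem⟩
    rw [← hus k]
    calc u (k + 1) ≤ u n := humono (Nat.succ_le_of_lt (Finset.mem_range.1 hk))
      _ = a + n * (l ^ 2 * T) := rfl
      _ ≤ a + (b - a) := by gcongr
      _ = b := by rw [add_tsub_cancel_of_le hab.le]
  have h1p : (1 - p) < 1 := ENNReal.sub_lt_self ENNReal.one_ne_top one_ne_zero hp.ne'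
  have hlim : Tendsto (fun n : ℕ => (1 - p) ^ n) atTop (𝓝 0) :=
    ENNReal.tendsto_pow_atTop_nhds_zero_of_lt_one h1p
  rw [ae_iff]
  exact le_antisymm (ge_of_tendsto' hlim hbound) zero_le

/-- Abstract form: in every time interval there is a good block. -/
theorem exists_good_abstract {B : ℝ≥0 → Ω → ℝ} (hB : IsPreBrownianReal B P)
    (hm : ∀ t, Measurable (B t)) (T : ℝ≥0) {p : ℝ≥0∞} (hp : 0 < p)
    (A : ℝ≥0 → ℝ≥0 → Set Ω)
    (hA1 : ∀ u l, 0 < l → MeasurableSet[past B (u + l ^ 2 * T)] (A u l))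
    (hA2 : ∀ u l, 0 < l → MeasurableSet[fut B u] (A u l))
    (hAp : ∀ u l, 0 < l → p ≤ P (A u l))
    (C : ℝ≥0 → ℝ≥0 → Ω → Prop) (hC : ∀ u l, 0 < l → ∀ᵐ ω ∂P, ω ∈ A u l → C u l ω) :
    ∀ᵐ ω ∂P, ∀ s t : ℝ≥0, s < t → ∀ ε : ℝ≥0, 0 < ε →
      ∃ u l, 0 < l ∧ l < ε ∧ s ≤ u ∧ u + l ^ 2 * T ≤ t ∧ C u l ω := by
  have h : ∀ᵐ ω ∂P, ∀ q r : ℚ, ∀ m : ℕ, Real.toNNReal q < Real.toNNReal r →
      ∃ u l, 0 < l ∧ l < 1 / ((m : ℝ≥0) + 1) ∧ Real.toNNReal q ≤ u ∧
        u + l ^ 2 * T ≤ Real.toNNReal r ∧ C u l ω := by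
    rw [ae_all_iff]; intro q
    rw [ae_all_iff]; intro r
    rw [ae_all_iff]; intro m
    by_cases hqr : Real.toNNReal q < Real.toNNReal r
    · filter_upwards [exists_good_interval hB hm T hp A hA1 hA2 hAp C hC hqr
        (ε := 1 / ((m : ℝ≥0) + 1)) (by positivity)] with ω hω _
      exact hω
    · exact Eventually.of_forall (fun ω hcon => absurd hcon hqr)
  filter_upwards [h] with ω hω s t hst ε hε
  obtain ⟨r, _, hsr, hrt⟩ := (NNReal.lt_iff_exists_rat_btwn s t).1 hst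
  obtain ⟨q, _, hsq, hqr⟩ := (NNReal.lt_iff_exists_rat_btwn s _).1 hsr
  obtain ⟨m, hm'⟩ := exists_nat_one_div_lt (K := ℝ≥0) hε
  obtain ⟨u, l, h1, h2, h3, h4, h5⟩ := hω q r m hqr
  exact ⟨u, l, h1, h2.trans hm', hsq.le.trans h3, h4.trans hrt.le, h5⟩

/-- Path-space form: an event of the path up to time `T` that has positive probability for one
Brownian motion occurs, almost surely, for some restarted and rescaled piece of the path in every
time interval. -/
theorem exists_good_of {Ω' : Type*} [MeasurableSpace Ω'] {P' : Measure Ω'} {B' : ℝ≥0 → Ω' → ℝ}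
    (hB' : IsPreBrownianReal B' P') (hm' : ∀ t, Measurable (B' t))
    (hc' : ∀ ω, Continuous (fun t => B' t ω))
    {B : ℝ≥0 → Ω → ℝ} (hB : IsBrownianReal B P)
    (hm : ∀ t, Measurable (B t)) (hc : ∀ ω, Continuous (fun t => B t ω)) (T : ℝ≥0)
    {E : Set PathSp} (hE : MeasurableSet[sig T] E) (hpos : P' (toPath B' hc' ⁻¹' E) ≠ 0)
    (C : ℝ≥0 → ℝ≥0 → Ω → Prop)
    (hC : ∀ u l, 0 < l → ∀ᵐ ω ∂P, toPath (rs B u l) (rs_continuous hc u l) ω ∈ E → C u l ω) :
    ∀ᵐ ω ∂P, ∀ s t : ℝ≥0, s < t → ∀ ε : ℝ≥0, 0 < ε →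
      ∃ u l, 0 < l ∧ l < ε ∧ s ≤ u ∧ u + l ^ 2 * T ≤ t ∧ C u l ω := by
  have hE' : MeasurableSet E := sig_le T _ hE
  obtain ⟨F, hF, hFE⟩ := hE
  have hpre : ∀ u l, toPath (rs B u l) (rs_continuous hc u l) ⁻¹' E
      = (fun ω (v : Set.Iic T) => rs B u l v ω) ⁻¹' F := by
    intro u l
    rw [← hFE]
    rfl
  refine exists_good_abstract hB.toIsPreBrownianReal hm T (p := P' (toPath B' hc' ⁻¹' E))
    (pos_iff_ne_zero.2 hpos) (fun u l => toPath (rs B u l) (rs_continuous hc u l) ⁻¹' E)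
    ?_ ?_ ?_ C hC
  · intro u l _
    rw [hpre]
    have : Measurable[past B (u + l ^ 2 * T)] (fun ω (v : Set.Iic T) => rs B u l v ω) :=
      @measurable_pi_lambda _ _ _ (past B (u + l ^ 2 * T)) _ _
        (fun v => rs_measurable_past B u l v T v.2)
    exact this hF
  · intro u l _
    rw [hpre]
    have : Measurable[fut B u] (fun ω (v : Set.Iic T) => rs B u l v ω) :=
      @measurable_pi_lambda _ _ _ (fut B u) _ _ (fun v => rs_measurable_fut B u l v)
    exact this hF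
  · intro u l hl
    exact (law_eq hB' (rs_isBrownian hB u hl.ne').toIsPreBrownianReal hm'
      (rs_measurable hm u l) hc' (rs_continuous hc u l) hE').le

/-- The same with the positive probability for `B` itself. -/
theorem exists_good {B : ℝ≥0 → Ω → ℝ} (hB : IsBrownianReal B P)
    (hm : ∀ t, Measurable (B t)) (hc : ∀ ω, Continuous (fun t => B t ω)) (T : ℝ≥0)
    {E : Set PathSp} (hE : MeasurableSet[sig T] E) (hpos : P (toPath B hc ⁻¹' E) ≠ 0)
    (C : ℝ≥0 → ℝ≥0 → Ω → Prop)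
    (hC : ∀ u l, 0 < l → ∀ᵐ ω ∂P, toPath (rs B u l) (rs_continuous hc u l) ω ∈ E → C u l ω) :
    ∀ᵐ ω ∂P, ∀ s t : ℝ≥0, s < t → ∀ ε : ℝ≥0, 0 < ε →
      ∃ u l, 0 < l ∧ l < ε ∧ s ≤ u ∧ u + l ^ 2 * T ≤ t ∧ C u l ω :=
  exists_good_of hB.toIsPreBrownianReal hm hc hB hm hc T hE hpos C hC

open Crest.ProbabilityR.Loewner in
/-- the driving function of the restarted and rescaled process -/
theorem scl_shift_driving (κ : ℝ) (B : ℝ≥0 → Ω → ℝ) (u l : ℝ≥0) (ω : Ω) {v : ℝ} (hv : 0 ≤ v) :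
    FL.scl l (FL.shift (driving κ B ω) u) v = driving κ (rs B u l) ω v := by
  unfold FL.scl FL.shift driving rs
  have h1 : Real.toNNReal ((u : ℝ) + (l : ℝ) ^ 2 * v) = u + l ^ 2 * Real.toNNReal v := by
    apply NNReal.coe_injective
    rw [Real.coe_toNNReal _ (by positivity)]
    push_cast
    rw [Real.coe_toNNReal _ hv]
  rw [h1, Real.toNNReal_coe]
  ring

end Crest.Agent.R162.LBbc
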