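import Mathlib
import Crest.Agent.R162.LBST1
import Crest.Agent.R162.LB5
import Crest.Agent.R162.LBbc

set_option autoImplicit false

/-!
Row 162, node LB-ST, part 2 (helper332): filtration morphisms.
`Mor F σ F' H`: `H : Ω → Ω'` pulls back `F' q` into `F_{σ+q}`. Then for a stopping time `τ'` of
`F'.rightCont`, `σ + τ' ∘ H` is a stopping time of (right-continuous) `F`, and events of
`F'_{τ'}` are pulled back to events of `F_{σ+τ'∘H}`; morphisms compose. The basic example is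
`H ω = (e ω, (B_{σ+u} - B_σ)_u)` into `E × PathSp`, `e` being `F_σ`-measurable.
-/

open MeasureTheory ProbabilityTheory Filter Topology
open scoped NNReal ENNReal

namespace Crest.Agent.R162.LBST

open Crest.Agent.R162.OS Crest.Agent.R162.LBbc

variable {Ω : Type*} {m : MeasurableSpace Ω} {F : Filtration ℝ≥0 m} {P : Measure Ω}
variable {Ω' : Type*} {m' : MeasurableSpace Ω'} {F' : Filtration ℝ≥0 m'}
variable {Ω'' : Type*} {m'' : MeasurableSpace Ω''} {F'' : Filtration ℝ≥0 m''}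

lemma exists_rat_nnreal {a b : ℝ≥0} (h : a < b) : ∃ q : ℚ≥0, a < (q : ℝ≥0) ∧ (q : ℝ≥0) < b := by
  obtain ⟨q, hq1, hq2⟩ := exists_rat_btwn (NNReal.coe_lt_coe.2 h)
  have hq0 : (0 : ℝ) ≤ (q : ℝ) := (NNReal.coe_nonneg a).trans hq1.le
  have hq0' : (0 : ℚ) ≤ q := by exact_mod_cast hq0
  refine ⟨⟨q, hq0'⟩, ?_, ?_⟩
  · rw [← NNReal.coe_lt_coe]; exact hq1
  · rw [← NNReal.coe_lt_coe]; exact hq2

/-- events of `F_{τ+}` : `A ∩ {τ < q} ∈ F q` for the raw filtration. -/
lemma inter_lt_of_rc {τ : Ω → ℝ≥0} {A : Set Ω} (h : EvST F.rightCont τ A) (q : ℝ≥0) :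
    MeasurableSet[F q] (A ∩ {ω | τ ω < q}) := by
  have e : A ∩ {ω | τ ω < q} = ⋃ r : {r : ℚ≥0 // (r : ℝ≥0) < q}, (A ∩ {ω | τ ω ≤ (r.1 : ℝ≥0)}) := by
    ext ω
    simp only [Set.mem_inter_iff, Set.mem_ofPred_eq, Set.mem_iUnion, Subtype.exists, exists_prop]
    constructor
    · rintro ⟨h1, h2⟩
      obtain ⟨r, hr1, hr2⟩ := exists_rat_nnreal h2
      exact ⟨r, hr2, h1, hr1.le⟩
    · rintro ⟨r, hr, h1, h2⟩
      exact ⟨h1, h2.trans_lt hr⟩
  rw [e]
  exact MeasurableSet.iUnion fun r => rc_le r.2 _ (h _)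

lemma lt_of_rc {τ : Ω → ℝ≥0} (h : IsST F.rightCont τ) (q : ℝ≥0) :
    MeasurableSet[F q] {ω | τ ω < q} := by
  have := inter_lt_of_rc (EvST.univ h) q
  rwa [Set.univ_inter] at this

/-- conversely, `A ∩ {τ < q} ∈ F q` for all `q` gives `A ∈ F_{τ+}`. -/
lemma evST_rc_of_lt {τ : Ω → ℝ≥0} {A : Set Ω}
    (h : ∀ q, MeasurableSet[F q] (A ∩ {ω | τ ω < q})) : EvST F.rightCont τ A :=
  evST_of_lt fun t => le_rc F t _ (h t)

lemma isST_rc_of_lt {τ : Ω → ℝ≥0} (h : ∀ q, MeasurableSet[F q] {ω | τ ω < q}) :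
    IsST F.rightCont τ :=
  isST_of_lt fun t => le_rc F t _ (h t)

/-- `H` pulls back `F' q` into `F_{σ+q}`. -/
def Mor (F : Filtration ℝ≥0 m) (σ : Ω → ℝ≥0) (F' : Filtration ℝ≥0 m') (H : Ω → Ω') : Prop :=
  ∀ q A, MeasurableSet[F' q] A → EvST F (fun ω => σ ω + q) (H ⁻¹' A)

section rc
variable [F.IsRightContinuous]

/-- key lemma: if `A ∩ {τ' < q} ∈ F' q` for all `q` then `H⁻¹ A ∈ F_{σ+τ'∘H}`. -/
theorem Mor.evST_of_lt {σ : Ω → ℝ≥0} {H : Ω → Ω'} (h : Mor F σ F' H) {τ' : Ω' → ℝ≥0}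
    {A : Set Ω'} (hA : ∀ q, MeasurableSet[F' q] (A ∩ {x | τ' x < q})) :
    EvST F (fun ω => σ ω + τ' (H ω)) (H ⁻¹' A) := by
  refine LBST.evST_of_lt fun t => ?_
  have e : H ⁻¹' A ∩ {ω | σ ω + τ' (H ω) < t} = ⋃ q : ℚ≥0,
      (H ⁻¹' (A ∩ {x | τ' x < (q : ℝ≥0)}) ∩ {ω | σ ω + (q : ℝ≥0) ≤ t}) := by
    ext ω
    simp only [Set.mem_inter_iff, Set.mem_preimage, Set.mem_ofPred_eq, Set.mem_iUnion]
    constructor
    · rintro ⟨h1, h2⟩
      have h3 : τ' (H ω) < t - σ ω := by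
        rw [lt_tsub_iff_left]; exact h2
      obtain ⟨q, hq1, hq2⟩ := exists_rat_nnreal h3
      refine ⟨q, ⟨h1, hq1⟩, ?_⟩
      have := (lt_tsub_iff_left.1 hq2).le
      exact this
    · rintro ⟨q, ⟨h1, h2⟩, h3⟩
      exact ⟨h1, (add_lt_add_of_le_of_lt le_rfl h2).trans_le h3⟩
  rw [e]
  refine MeasurableSet.iUnion fun q => ?_
  exact h _ _ (hA _) t

theorem Mor.isST {σ : Ω → ℝ≥0} {H : Ω → Ω'} (h : Mor F σ F' H) {τ' : Ω' → ℝ≥0}
    (hτ : IsST F'.rightCont τ') : IsST F (fun ω => σ ω + τ' (H ω)) := by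
  have h1 := h.evST_of_lt (τ' := τ') (A := Set.univ) (fun q => by
    rw [Set.univ_inter]
    exact lt_of_rc hτ q)
  intro t
  have := h1 t
  rwa [Set.preimage_univ, Set.univ_inter] at this

theorem Mor.evST {σ : Ω → ℝ≥0} {H : Ω → Ω'} (h : Mor F σ F' H) {τ' : Ω' → ℝ≥0}
    {A : Set Ω'} (hA : EvST F'.rightCont τ' A) :
    EvST F (fun ω => σ ω + τ' (H ω)) (H ⁻¹' A) :=
  h.evST_of_lt (inter_lt_of_rc hA)

/-- composition -/
theorem Mor.comp {σ : Ω → ℝ≥0} {H : Ω → Ω'} (h : Mor F σ F' H) {τ' : Ω' → ℝ≥0}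
    {K : Ω' → Ω''} (hK : Mor F'.rightCont τ' F'' K) :
    Mor F (fun ω => σ ω + τ' (H ω)) F'' (K ∘ H) := by
  intro q A hA
  have h1 : EvST F'.rightCont (fun x => τ' x + q) (K ⁻¹' A) := hK q A hA
  have h2 := h.evST h1
  simpa only [← add_assoc, Set.preimage_comp] using h2

/-- `F_{σ+τ'∘H}`-measurability of functions `g ∘ H` with `g` measurable for `F'_{τ'+}`. -/
theorem Mor.measurable {E : Type*} [MeasurableSpace E] {σ : Ω → ℝ≥0} {H : Ω → Ω'}
    (h : Mor F σ F' H) {τ' : Ω' → ℝ≥0}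
    (hτ : IsST F'.rightCont τ') {g : Ω' → E}
    (hg : Measurable[LBI.stSigma F'.rightCont τ' hτ] g) :
    Measurable[LBI.stSigma F (fun ω => σ ω + τ' (H ω)) (h.isST hτ)] (fun ω => g (H ω)) := by
  intro D hD
  exact h.evST (hg hD)

end rc

/-- `F_σ`-measurability in the form `∀ D, EvST F σ (e⁻¹ D)`. -/
lemma measurable_stSigma_iff {E : Type*} [MeasurableSpace E] {σ : Ω → ℝ≥0} (hσ : IsST F σ)
    {e : Ω → E} : Measurable[LBI.stSigma F σ hσ] e ↔ ∀ D, MeasurableSet D → EvST F σ (e ⁻¹' D) :=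
  Iff.rfl

/-! ### the space `E × PathSp` -/

section EP

variable (E : Type*) [mE : MeasurableSpace E]

/-- the filtration of `E × PathSp`: `E` is known at time `0`, the path up to time `t` at `t`. -/
def EF : Filtration ℝ≥0 (inferInstance : MeasurableSpace (E × PathSp)) where
  seq t := MeasurableSpace.comap Prod.fst mE ⊔ MeasurableSpace.comap Prod.snd (sig t)
  mono' := by
    intro s t hst
    refine sup_le_sup_left (MeasurableSpace.comap_mono ?_) _
    unfold sig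
    refine Measurable.comap_le ?_
    refine @measurable_pi_lambda _ _ _ (sig t) _ _ fun v => ?_
    exact measurable_sig (v.2.trans hst)
  le' := by
    intro t
    exact sup_le_sup_left (MeasurableSpace.comap_mono (sig_le t)) _

/-- the coordinate process -/
def cop (t : ℝ≥0) (x : E × PathSp) : ℝ := x.2.1 t

variable {E}

lemma measurable_fst_EF (t : ℝ≥0) : Measurable[EF E t] (Prod.fst : E × PathSp → E) := by
  refine Measurable.mono (comap_measurable _) le_sup_left le_rfl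

lemma measurable_cop {s t : ℝ≥0} (h : s ≤ t) : Measurable[EF E t] (cop E s) := by
  have h1 : Measurable[MeasurableSpace.comap Prod.snd (sig t)] (cop E s) := by
    have h2 : cop E s = (fun w : PathSp => w.1 s) ∘ Prod.snd := rfl
    rw [h2]
    exact (measurable_sig h).comp (@comap_measurable _ _ (sig t) _)
  exact h1.mono le_sup_right le_rfl

omit mE in
lemma continuous_cop (x : E × PathSp) : Continuous fun t => cop E t x := x.2.2

lemma stronglyAdapted_cop : StronglyAdapted (EF E) (cop E) := fun _ =>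
  (measurable_cop le_rfl).stronglyMeasurable

/-- criterion: measurability into `(E × PathSp, EF q)`. -/
lemma measurable_EF_of {mΩ : MeasurableSpace Ω} {H : Ω → E × PathSp} {q : ℝ≥0}
    (h1 : Measurable[mΩ] fun ω => (H ω).1) (h2 : ∀ s, s ≤ q → Measurable[mΩ] fun ω => (H ω).2.1 s) :
    Measurable[mΩ, EF E q] H := by
  have e : (EF E q : MeasurableSpace (E × PathSp)) =
      MeasurableSpace.comap Prod.fst mE ⊔ MeasurableSpace.comap Prod.snd (sig q) := rfl
  rw [e]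
  rw [measurable_iff_comap_le, MeasurableSpace.comap_sup]
  refine sup_le ?_ ?_
  · rw [MeasurableSpace.comap_comp]
    exact h1.comap_le
  · rw [MeasurableSpace.comap_comp]
    unfold sig
    rw [MeasurableSpace.comap_comp]
    refine Measurable.comap_le ?_
    exact @measurable_pi_lambda _ _ _ mΩ _ _ fun v => h2 v.1 v.2

end EP

/-! ### the basic morphism -/

/-- the path after `σ` -/
def shiftPath (B : ℝ≥0 → Ω → ℝ) (hc : ∀ ω, Continuous fun t => B t ω) (σ : Ω → ℝ≥0) (ω : Ω) :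
    PathSp :=
  ⟨fun u => B (σ ω + u) ω - B (σ ω) ω, by
    have := hc ω
    exact (this.comp (continuous_const.add continuous_id)).sub continuous_const⟩

theorem mor_shift {E : Type*} [MeasurableSpace E] {B : ℝ≥0 → Ω → ℝ}
    (hB : ∀ t, Measurable[F t] (B t)) (hc : ∀ ω, Continuous fun t => B t ω)
    {σ : Ω → ℝ≥0} (hσ : IsST F σ) {e : Ω → E}
    (he : ∀ D, MeasurableSet D → EvST F σ (e ⁻¹' D)) :
    Mor F σ (EF E) (fun ω => (e ω, shiftPath B hc σ ω)) := by
  intro q A hA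
  have hσq : IsST F (fun ω => σ ω + q) := hσ.add_const q
  have hsa : StronglyAdapted F B := fun t => (hB t).stronglyMeasurable
  have key : Measurable[LBI.stSigma F (fun ω => σ ω + q) hσq, EF E q]
      (fun ω => (e ω, shiftPath B hc σ ω)) := by
    refine measurable_EF_of ?_ ?_
    · intro D hD
      exact EvST.mono hσq (fun ω => le_self_add) (he D hD)
    · intro s hs
      have hst : ∀ r, r ≤ q → Measurable[LBI.stSigma F (fun ω => σ ω + q) hσq]
          (fun ω => B (σ ω + r) ω) := by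
        intro r hr D hD
        have h1 : EvST F (fun ω => σ ω + r) {ω | B (σ ω + r) ω ∈ D} :=
          EvST.preimage hsa hc (hσ.add_const r) hD
        exact EvST.mono hσq (fun ω => add_le_add_right hr _) h1
      have h0 := hst 0 zero_le
      simp only [add_zero] at h0
      exact (hst s hs).sub h0
  exact key hA

/-! ### iteration of a step `(τ', S)` on `E × PathSp` -/

section iter

variable {E : Type*} [MeasurableSpace E]

/-- the path of `x : E × PathSp` after the time `τ' x` -/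
def shiftC (τ' : E × PathSp → ℝ≥0) (x : E × PathSp) : PathSp :=
  shiftPath (cop E) continuous_cop τ' x

omit [MeasurableSpace E] in
lemma shiftC_apply (τ' : E × PathSp → ℝ≥0) (x : E × PathSp) (u : ℝ≥0) :
    (shiftC τ' x).1 u = x.2.1 (τ' x + u) - x.2.1 (τ' x) := rfl

/-- one step: new state, remaining path -/
def stepMap (τ' : E × PathSp → ℝ≥0) (S : E × PathSp → E) (x : E × PathSp) : E × PathSp :=
  (S x, shiftC τ' x)

theorem mor_stepMap {τ' : E × PathSp → ℝ≥0} (hτ : IsST (EF E).rightCont τ')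
    {S : E × PathSp → E} (hS : ∀ D, MeasurableSet D → EvST (EF E).rightCont τ' (S ⁻¹' D)) :
    Mor (EF E).rightCont τ' (EF E) (stepMap τ' S) :=
  mor_shift (F := (EF E).rightCont) (B := cop E)
    (fun t => (measurable_cop le_rfl).mono (le_rc (EF E) t) le_rfl) continuous_cop hτ hS

/-- the state after `n` steps -/
def itSt (τ' : E × PathSp → ℝ≥0) (S : E × PathSp → E) (H₀ : Ω → E × PathSp) (n : ℕ) (ω : Ω) :
    E × PathSp :=
  (stepMap τ' S)^[n] (H₀ ω)

/-- the time after `n` steps -/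
def itT (τ' : E × PathSp → ℝ≥0) (S : E × PathSp → E) (σ : Ω → ℝ≥0) (H₀ : Ω → E × PathSp) :
    ℕ → Ω → ℝ≥0
  | 0 => σ
  | n + 1 => fun ω => itT τ' S σ H₀ n ω + τ' (itSt τ' S H₀ n ω)

variable {τ' : E × PathSp → ℝ≥0} {S : E × PathSp → E} {σ : Ω → ℝ≥0} {H₀ : Ω → E × PathSp}

omit [MeasurableSpace E] in
@[simp] lemma itSt_zero : itSt τ' S H₀ 0 = H₀ := rfl

omit [MeasurableSpace E] in
lemma itSt_succ (n : ℕ) (ω : Ω) :
    itSt τ' S H₀ (n + 1) ω = stepMap τ' S (itSt τ' S H₀ n ω) := by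
  simp only [itSt, Function.iterate_succ_apply']

omit [MeasurableSpace E] in
@[simp] lemma itT_zero : itT τ' S σ H₀ 0 = σ := rfl

omit [MeasurableSpace E] in
lemma itT_succ (n : ℕ) (ω : Ω) :
    itT τ' S σ H₀ (n + 1) ω = itT τ' S σ H₀ n ω + τ' (itSt τ' S H₀ n ω) := rfl

omit [MeasurableSpace E] in
lemma itT_mono (ω : Ω) : Monotone fun n => itT τ' S σ H₀ n ω :=
  monotone_nat_of_le_succ fun n => by rw [itT_succ]; exact le_self_add

/-- **the iterates**: `T_n` are stopping times and the state at `T_n` is `F_{T_n}`-measurable. -/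
theorem iter_mor [F.IsRightContinuous] (h₀ : Mor F σ (EF E) H₀) (hσ : IsST F σ)
    (hτ : IsST (EF E).rightCont τ')
    (hS : ∀ D, MeasurableSet D → EvST (EF E).rightCont τ' (S ⁻¹' D)) (n : ℕ) :
    IsST F (itT τ' S σ H₀ n) ∧ Mor F (itT τ' S σ H₀ n) (EF E) (itSt τ' S H₀ n) := by
  induction n with
  | zero => exact ⟨hσ, h₀⟩
  | succ n ih =>
    refine ⟨ih.2.isST hτ, ?_⟩
    have h1 := ih.2.comp (mor_stepMap hτ hS)
    have h2 : itSt τ' S H₀ (n + 1) = stepMap τ' S ∘ itSt τ' S H₀ n := by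
      funext ω
      exact itSt_succ n ω
    rw [h2]
    exact h1

omit [MeasurableSpace E] in
/-- the path component of the state is the path after `T_n`. -/
theorem itSt_path {B : ℝ≥0 → Ω → ℝ} {hc : ∀ ω, Continuous fun t => B t ω}
    (h₀ : ∀ ω, (H₀ ω).2 = shiftPath B hc σ ω) (n : ℕ) (ω : Ω) :
    (itSt τ' S H₀ n ω).2 = shiftPath B hc (itT τ' S σ H₀ n) ω := by
  induction n with
  | zero => exact h₀ ω
  | succ n ih =>
    rw [itSt_succ]
    apply Subtype.ext
    funext u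
    have h1 : ∀ v, (itSt τ' S H₀ n ω).2.1 v =
        B (itT τ' S σ H₀ n ω + v) ω - B (itT τ' S σ H₀ n ω) ω := by
      intro v
      rw [ih]; rfl
    show (itSt τ' S H₀ n ω).2.1 (τ' (itSt τ' S H₀ n ω) + u) -
      (itSt τ' S H₀ n ω).2.1 (τ' (itSt τ' S H₀ n ω)) = _
    rw [h1, h1]
    show _ = B (itT τ' S σ H₀ n ω + τ' (itSt τ' S H₀ n ω) + u) ω -
      B (itT τ' S σ H₀ n ω + τ' (itSt τ' S H₀ n ω)) ω
    rw [add_assoc]
    ring

/-- pulling back `F'_0`: the state component is `F_σ`-measurable. -/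
theorem Mor.evST_fst {H : Ω → E × PathSp} (h : Mor F σ (EF E) H) {D : Set E}
    (hD : MeasurableSet D) : EvST F σ ((fun ω => (H ω).1) ⁻¹' D) := by
  have h1 := h 0 (Prod.fst ⁻¹' D) (measurable_fst_EF 0 hD)
  simp only [add_zero] at h1
  exact h1

end iter

end Crest.Agent.R162.LBST
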