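import Mathlib
import Crest.Agent.R162.LBST1

/-!
Row 162, node LB-ST, lower semicontinuous conditions (helper882, on helper332's LBST1).

* `not_deb_of_isOpen` : an OPEN condition which fails at `σ` fails at the debut.
* `deb_lsc_le`, `deb_lsc_le'`: value `≤ c` at the debut of `{c < φ}` for `φ` lower semicontinuous.
* `exists_Ioc_iff` : `∃ y ∈ (0, R], c < g y` iff it happens for a rational `q ∈ (0, R)`.
* `measurableSet_exists_Ioc`, `isOpen_exists_Ioc`, `isST_deb_exists_Ioc`, `forall_Ioc_le_deb`.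
* `iSup_Ioc_eq`, `measurable_iSup_Ioc`, `lowerSemicontinuous_iSup_Ioc`.
-/

set_option autoImplicit false

open MeasureTheory ProbabilityTheory Filter Topology
open scoped NNReal ENNReal

namespace Crest.Agent.R162.LBST

open Crest.Agent.R162.OS

variable {Ω : Type*} {m : MeasurableSpace Ω} {F : Filtration ℝ≥0 m} {P : Measure Ω}

/-! ### (a) values at the debut -/

section deb
variable {O : ℝ≥0 → Ω → Prop} {σ : Ω → ℝ≥0} {T : ℝ≥0} {ω : Ω}

/-- A condition which is open at the debut and fails at `σ` fails at the debut. -/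
lemma not_deb_of_eventually
    (ho : O (deb O σ T ω) ω → ∀ᶠ t in 𝓝 (deb O σ T ω), O t ω) (h0 : ¬ O (σ ω) ω) :
    ¬ O (deb O σ T ω) ω := by
  intro h
  rcases eq_or_lt_of_le (le_deb (O := O) (σ := σ) (T := T) (ω := ω)) with he | hlt
  · rw [← he] at h
    exact h0 h
  · obtain ⟨u, _, hu, hlim⟩ := exists_seq_strictMono_tendsto' hlt
    obtain ⟨n, hn⟩ := (hlim.eventually (ho h)).exists
    exact not_of_lt_deb (hu n).1.le (hu n).2 hn

lemma not_deb_of_isOpen (ho : IsOpen {t | O t ω}) (h0 : ¬ O (σ ω) ω) :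
    ¬ O (deb O σ T ω) ω :=
  not_deb_of_eventually (fun h => ho.mem_nhds h) h0

/-- same with `σ < debut` instead of the failure at `σ`. -/
lemma not_deb_of_isOpen' (ho : IsOpen {t | O t ω}) (h0 : σ ω < deb O σ T ω) :
    ¬ O (deb O σ T ω) ω := by
  intro h
  have hev : ∀ᶠ t in 𝓝 (deb O σ T ω), O t ω := ho.mem_nhds h
  obtain ⟨u, _, hu, hlim⟩ := exists_seq_strictMono_tendsto' h0
  obtain ⟨n, hn⟩ := (hlim.eventually hev).exists
  exact not_of_lt_deb (hu n).1.le (hu n).2 hn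

variable {E : Type*} [LinearOrder E] {φ : ℝ≥0 → Ω → E} {c : E}

/-- `φ` lower semicontinuous at the debut of any condition implied by `c < φ`. -/
lemma deb_lsc_le' (hsub : ∀ t, c < φ t ω → O t ω)
    (hlsc : LowerSemicontinuousAt (fun t => φ t ω) (deb O σ T ω)) (h0 : φ (σ ω) ω ≤ c) :
    φ (deb O σ T ω) ω ≤ c := by
  by_contra hcon
  rw [not_le] at hcon
  have hev : ∀ᶠ t in 𝓝 (deb O σ T ω), c < φ t ω := hlsc c hcon
  rcases eq_or_lt_of_le (le_deb (O := O) (σ := σ) (T := T) (ω := ω)) with he | hlt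
  · rw [← he] at hcon
    exact absurd hcon (not_lt.2 h0)
  · obtain ⟨u, _, hu, hlim⟩ := exists_seq_strictMono_tendsto' hlt
    obtain ⟨n, hn⟩ := (hlim.eventually hev).exists
    exact not_of_lt_deb (hu n).1.le (hu n).2 (hsub _ hn)

/-- (a) value at the debut of `{c < φ}`. -/
lemma deb_lsc_le (hlsc : LowerSemicontinuous (fun t => φ t ω)) (h0 : φ (σ ω) ω ≤ c) :
    φ (deb (fun t ω => c < φ t ω) σ T ω) ω ≤ c :=
  deb_lsc_le' (fun _ h => h) (hlsc _) h0

/-- values before the debut. -/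
lemma le_of_lt_deb' (hsub : ∀ t, c < φ t ω → O t ω) {t : ℝ≥0} (h1 : σ ω ≤ t)
    (h2 : t < deb O σ T ω) : φ t ω ≤ c :=
  not_lt.1 fun h => not_of_lt_deb h1 h2 (hsub t h)

end deb

/-- The debut of `{c < φ}`, `φ` lower semicontinuous and adapted, is a stopping time (right
continuous filtration). -/
theorem isST_deb_lsc [F.IsRightContinuous] {E : Type*} [LinearOrder E] [TopologicalSpace E]
    [OrderTopology E] [MeasurableSpace E] [OpensMeasurableSpace E]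
    {σ : Ω → ℝ≥0} (hσ : IsST F σ) {φ : ℝ≥0 → Ω → E} {c : E}
    (hφ : ∀ t, Measurable[F t] (φ t)) (hlsc : ∀ ω, LowerSemicontinuous fun t => φ t ω)
    (T : ℝ≥0) : IsST F (deb (fun t ω => c < φ t ω) σ T) := by
  refine isST_deb hσ (fun t => ?_) (fun ω t _ h => ?_) T
  · exact (hσ t).inter (hφ t measurableSet_Ioi)
  · exact ((hlsc ω t) c h).filter_mono nhdsWithin_le_nhds

/-! ### (b), (c) suprema over `y ∈ (0, R]` -/

section sup

variable {E : Type*} [LinearOrder E] {g : ℝ → E} {c : E} {R : ℝ}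

/-- Only lower semicontinuity in `y` on `(0, ∞)` is needed. -/
lemma exists_Ioc_iff' (hg : ∀ y, 0 < y → LowerSemicontinuousWithinAt g (Set.Ioi 0) y) :
    (∃ y ∈ Set.Ioc 0 R, c < g y) ↔ ∃ q : ℚ, (0 : ℝ) < q ∧ (q : ℝ) < R ∧ c < g q := by
  constructor
  · rintro ⟨y, ⟨hy0, hyR⟩, hy⟩
    have hev : ∀ᶠ z in 𝓝[Set.Ioi 0] y, c < g z := hg y hy0 c hy
    have hev' : ∀ᶠ z in 𝓝 y, c < g z := by
      rwa [IsOpen.nhdsWithin_eq isOpen_Ioi hy0] at hev
    obtain ⟨ε, hε, hball⟩ := Metric.eventually_nhds_iff.1 hev'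
    obtain ⟨q, hq1, hq2⟩ := exists_rat_btwn (show max (y - ε) 0 < y from max_lt (by linarith) hy0)
    refine ⟨q, (le_max_right _ _).trans_lt hq1, hq2.trans_le hyR, hball ?_⟩
    have h1 : y - ε < q := (le_max_left _ _).trans_lt hq1
    rw [Real.dist_eq, abs_lt]
    constructor <;> linarith
  · rintro ⟨q, h0, h1, h2⟩
    exact ⟨q, ⟨h0, h1.le⟩, h2⟩

lemma exists_Ioc_iff [TopologicalSpace E] [OrderTopology E] (hg : ContinuousOn g (Set.Ioi 0)) :
    (∃ y ∈ Set.Ioc 0 R, c < g y) ↔ ∃ q : ℚ, (0 : ℝ) < q ∧ (q : ℝ) < R ∧ c < g q :=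
  exists_Ioc_iff' fun y hy => (hg y hy).lowerSemicontinuousWithinAt

end sup

section measurable

variable {E : Type*} [LinearOrder E] [TopologicalSpace E] [OrderTopology E] [MeasurableSpace E]
  [OpensMeasurableSpace E]

/-- (c) measurability of `{∃ y ∈ (0, R ω], c < G y ω}` w.r.t. any sigma-algebra `m'`. -/
theorem measurableSet_exists_Ioc {m' : MeasurableSpace Ω} {G : ℝ → Ω → E} {R : Ω → ℝ} {c : E}
    (hG : ∀ y, 0 < y → Measurable[m'] (G y)) (hR : Measurable[m'] R)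
    (hc : ∀ ω, ContinuousOn (fun y => G y ω) (Set.Ioi 0)) :
    MeasurableSet[m'] {ω | ∃ y ∈ Set.Ioc 0 (R ω), c < G y ω} := by
  have : {ω | ∃ y ∈ Set.Ioc 0 (R ω), c < G y ω} =
      ⋃ q : {q : ℚ // (0 : ℝ) < q}, ({ω | ((q : ℚ) : ℝ) < R ω} ∩ {ω | c < G ((q : ℚ) : ℝ) ω}) := by
    ext ω
    simp only [Set.mem_ofPred_eq, Set.mem_iUnion, Set.mem_inter_iff]
    rw [exists_Ioc_iff (hc ω)]
    constructor
    · rintro ⟨q, h0, h1, h2⟩
      exact ⟨⟨q, h0⟩, h1, h2⟩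
    · rintro ⟨⟨q, h0⟩, h1, h2⟩
      exact ⟨q, h0, h1, h2⟩
  rw [this]
  refine MeasurableSet.iUnion fun q => ?_
  exact (hR measurableSet_Ioi).inter (hG _ q.2 measurableSet_Ioi)

end measurable

section isOpen

variable {X : Type*} [TopologicalSpace X] {E : Type*} [LinearOrder E] [TopologicalSpace E]
  [OrderTopology E]

/-- openness in the time (or any) parameter. -/
theorem isOpen_exists_Ioc {G : X → ℝ → E} {R : X → ℝ} {c : E} (hR : Continuous R)
    (hG : ∀ y, 0 < y → Continuous fun t => G t y)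
    (hc : ∀ t, ContinuousOn (G t) (Set.Ioi 0)) :
    IsOpen {t | ∃ y ∈ Set.Ioc 0 (R t), c < G t y} := by
  have : {t | ∃ y ∈ Set.Ioc 0 (R t), c < G t y} =
      ⋃ q : {q : ℚ // (0 : ℝ) < q}, ({t | ((q : ℚ) : ℝ) < R t} ∩ {t | c < G t ((q : ℚ) : ℝ)}) := by
    ext t
    simp only [Set.mem_ofPred_eq, Set.mem_iUnion, Set.mem_inter_iff]
    rw [exists_Ioc_iff (hc t)]
    constructor
    · rintro ⟨q, h0, h1, h2⟩
      exact ⟨⟨q, h0⟩, h1, h2⟩
    · rintro ⟨⟨q, h0⟩, h1, h2⟩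
      exact ⟨q, h0, h1, h2⟩
  rw [this]
  refine isOpen_iUnion fun q => ?_
  exact (isOpen_lt continuous_const hR).inter (isOpen_lt continuous_const (hG _ q.2))

/-- the same when `R`, `G` are only continuous on an open/any set `S` (relative openness). -/
theorem eventually_exists_Ioc {G : X → ℝ → E} {R : X → ℝ} {c : E} {S : Set X} {t : X}
    (ht : t ∈ S) (hR : ContinuousOn R S) (hG : ∀ y, 0 < y → ContinuousOn (fun t => G t y) S)
    (hc : ContinuousOn (G t) (Set.Ioi 0)) (h : ∃ y ∈ Set.Ioc 0 (R t), c < G t y) :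
    ∀ᶠ s in 𝓝[S] t, ∃ y ∈ Set.Ioc 0 (R s), c < G s y := by
  rw [exists_Ioc_iff hc] at h
  obtain ⟨q, h0, h1, h2⟩ := h
  have e1 : ∀ᶠ s in 𝓝[S] t, (q : ℝ) < R s := (hR t ht).eventually (lt_mem_nhds h1)
  have e2 : ∀ᶠ s in 𝓝[S] t, c < G s q := (hG _ h0 t ht).eventually (lt_mem_nhds h2)
  filter_upwards [e1, e2] with s h3 h4
  exact ⟨q, ⟨h0, h3.le⟩, h4⟩

end isOpen

/-- The debut of `{∃ y ∈ (0, R_t], c < G_t(y)}` is a stopping time. -/
theorem isST_deb_exists_Ioc [F.IsRightContinuous] {E : Type*} [LinearOrder E]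
    [TopologicalSpace E] [OrderTopology E] [MeasurableSpace E] [OpensMeasurableSpace E]
    {σ : Ω → ℝ≥0} (hσ : IsST F σ) {G : ℝ≥0 → ℝ → Ω → E} {R : ℝ≥0 → Ω → ℝ} {c : E}
    (hGm : ∀ t y, 0 < y → Measurable[F t] (G t y)) (hRm : ∀ t, Measurable[F t] (R t))
    (hR : ∀ ω, Continuous fun t => R t ω)
    (hG : ∀ ω y, 0 < y → Continuous fun t => G t y ω)
    (hc : ∀ ω t, ContinuousOn (fun y => G t y ω) (Set.Ioi 0)) (T : ℝ≥0) :
    IsST F (deb (fun t ω => ∃ y ∈ Set.Ioc 0 (R t ω), c < G t y ω) σ T) := by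
  refine isST_deb hσ (fun t => ?_) (fun ω t _ h => ?_) T
  · exact (hσ t).inter (measurableSet_exists_Ioc (fun y hy => hGm t y hy) (hRm t)
      (fun ω => hc ω t))
  · have := isOpen_exists_Ioc (G := fun t y => G t y ω) (R := fun t => R t ω) (c := c) (hR ω)
      (fun y hy => hG ω y hy) (fun t => hc ω t)
    have hev : ∀ᶠ s in 𝓝 t, ∃ y ∈ Set.Ioc 0 (R s ω), c < G s y ω := this.mem_nhds h
    exact hev.filter_mono nhdsWithin_le_nhds

/-- values at the debut (for any condition `O` implied by the supremum condition): if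
`G_σ(y) ≤ c` on `(0, R_σ]` then `G_d(y) ≤ c` on `(0, R_d]`. -/
theorem forall_Ioc_le_deb {E : Type*} [LinearOrder E] [TopologicalSpace E] [OrderTopology E]
    {O : ℝ≥0 → Ω → Prop} {σ : Ω → ℝ≥0} {T : ℝ≥0} {ω : Ω} {G : ℝ≥0 → ℝ → Ω → E}
    {R : ℝ≥0 → Ω → ℝ} {c : E} (hsub : ∀ t, (∃ y ∈ Set.Ioc 0 (R t ω), c < G t y ω) → O t ω)
    (hR : Continuous fun t => R t ω) (hG : ∀ y, 0 < y → Continuous fun t => G t y ω)
    (hc : ∀ t, ContinuousOn (fun y => G t y ω) (Set.Ioi 0))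
    (h0 : ∀ y ∈ Set.Ioc 0 (R (σ ω) ω), G (σ ω) y ω ≤ c) :
    ∀ y ∈ Set.Ioc 0 (R (deb O σ T ω) ω), G (deb O σ T ω) y ω ≤ c := by
  by_contra hcon
  push Not at hcon
  have hop := isOpen_exists_Ioc (G := fun t y => G t y ω) (R := fun t => R t ω) (c := c) hR
      (fun y hy => hG y hy) (fun t => hc t)
  have hev : ∀ᶠ s in 𝓝 (deb O σ T ω), ∃ y ∈ Set.Ioc 0 (R s ω), c < G s y ω :=
    hop.mem_nhds hcon
  rcases eq_or_lt_of_le (le_deb (O := O) (σ := σ) (T := T) (ω := ω)) with he | hlt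
  · rw [← he] at hcon
    obtain ⟨y, hy, hy'⟩ := hcon
    exact absurd hy' (not_lt.2 (h0 y hy))
  · obtain ⟨u, _, hu, hlim⟩ := exists_seq_strictMono_tendsto' hlt
    obtain ⟨n, hn⟩ := (hlim.eventually hev).exists
    exact not_of_lt_deb (hu n).1.le (hu n).2 (hsub _ hn)

/-! ### suprema in a complete linear order -/

section iSup

variable {E : Type*} [CompleteLinearOrder E] [TopologicalSpace E] [OrderTopology E]

/-- (b) the supremum over `(0, R]` is the supremum over the rationals of `(0, R)`. -/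
theorem iSup_Ioc_eq {g : ℝ → E} {R : ℝ} (hg : ContinuousOn g (Set.Ioi 0)) :
    (⨆ y ∈ Set.Ioc 0 R, g y) = ⨆ q : {q : ℚ // (0 : ℝ) < q}, ⨆ (_ : ((q : ℚ) : ℝ) < R),
      g ((q : ℚ) : ℝ) := by
  refine eq_of_forall_lt_iff fun c => ?_
  simp only [lt_iSup_iff]
  constructor
  · rintro ⟨y, hy, h⟩
    obtain ⟨q, h0, h1, h2⟩ := (exists_Ioc_iff hg).1 ⟨y, hy, h⟩
    exact ⟨⟨q, h0⟩, h1, h2⟩
  · rintro ⟨⟨q, h0⟩, h1, h2⟩
    exact ⟨q, ⟨h0, h1.le⟩, h2⟩

theorem measurable_iSup_Ioc [SecondCountableTopology E] [MeasurableSpace E] [BorelSpace E]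
    {m' : MeasurableSpace Ω} {G : ℝ → Ω → E} {R : Ω → ℝ}
    (hG : ∀ y, 0 < y → Measurable[m'] (G y)) (hR : Measurable[m'] R)
    (hc : ∀ ω, ContinuousOn (fun y => G y ω) (Set.Ioi 0)) :
    Measurable[m'] (fun ω => ⨆ y ∈ Set.Ioc 0 (R ω), G y ω) := by
  refine measurable_of_Ioi fun c => ?_
  have : (fun ω => ⨆ y ∈ Set.Ioc 0 (R ω), G y ω) ⁻¹' Set.Ioi c =
      {ω | ∃ y ∈ Set.Ioc 0 (R ω), c < G y ω} := by
    ext ω
    simp only [Set.mem_preimage, Set.mem_Ioi, lt_iSup_iff, Set.mem_ofPred_eq, exists_prop]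
  rw [this]
  exact measurableSet_exists_Ioc hG hR hc

theorem lowerSemicontinuous_iSup_Ioc {X : Type*} [TopologicalSpace X] {G : X → ℝ → E}
    {R : X → ℝ} (hR : Continuous R) (hG : ∀ y, 0 < y → Continuous fun t => G t y)
    (hc : ∀ t, ContinuousOn (G t) (Set.Ioi 0)) :
    LowerSemicontinuous fun t => ⨆ y ∈ Set.Ioc 0 (R t), G t y := by
  rw [lowerSemicontinuous_iff_isOpen_preimage]
  intro c
  have : (fun t => ⨆ y ∈ Set.Ioc 0 (R t), G t y) ⁻¹' Set.Ioi c =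
      {t | ∃ y ∈ Set.Ioc 0 (R t), c < G t y} := by
    ext t
    simp only [Set.mem_preimage, Set.mem_Ioi, lt_iSup_iff, Set.mem_ofPred_eq, exists_prop]
  rw [this]
  exact isOpen_exists_Ioc hR hG hc

end iSup

end Crest.Agent.R162.LBST
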