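import Mathlib
import Crest.Agent.R162.LBDefs
import Crest.Agent.R162.FLE2
import Crest.Agent.R162.LBCont2
import Crest.Agent.R162.LBST3

/-!
Row 162 (S0243), measurability for node LB3b (helper459, for helper268): joint measurability of
`(ω, s) ↦ rad (driving κ B ω) s`, of the random time windows `win`, and of `(ω, z) ↦ cz … z` over
the window `win (driving κ B ω) (τ ω) k`.
-/

set_option autoImplicit false

open MeasureTheory Set Filter Topology
open scoped NNReal ENNReal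
open Crest.ProbabilityR.Loewner

namespace Crest.Agent.R162.LB3bMeas

open Crest.Agent.R162 Crest.Agent.R162.FL Crest.Agent.R162.OP Crest.Agent.R162.OS

section generic

variable {Ω : Type*} {m : MeasurableSpace Ω} {W : Ω → ℝ → ℝ}

theorem rad_of_neg {W : ℝ → ℝ} {t : ℝ} (ht : t < 0) : LB.rad W t = 0 := by
  unfold LB.rad
  rw [Set.Icc_eq_empty (not_le.2 ht), Set.image_empty, Real.sSup_empty,
    Real.sqrt_eq_zero_of_nonpos ht.le, max_self]

/-- joint measurability of `rad` -/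
theorem measurable_rad_of (hc : ∀ ω, ContinuousOn (W ω) (Ici 0))
    (hm : ∀ s, 0 ≤ s → Measurable (fun ω => W ω s)) :
    Measurable (fun x : Ω × ℝ => LB.rad (W x.1) x.2) := by
  have h1 : Measurable (Function.uncurry fun (t : ℝ) (ω : Ω) => LB.rad (W ω) (max 0 t)) := by
    refine measurable_uncurry_of_continuous_of_measurable (fun ω => ?_) (fun t => ?_)
    · exact (LBST.continuousOn_rad (hc ω)).comp_continuous (continuous_const.max continuous_id)
        fun t => (le_max_left 0 t : (0 : ℝ) ≤ max 0 t)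
    · exact LBST.measurable_rad (le_max_left 0 t) (fun ω => (hc ω).mono fun s hs => hs.1)
        fun s hs => hm s hs.1
  have h2 : Measurable (fun x : Ω × ℝ => LB.rad (W x.1) (max 0 x.2)) :=
    h1.comp measurable_swap
  have h3 : (fun x : Ω × ℝ => LB.rad (W x.1) x.2)
      = {x : Ω × ℝ | 0 ≤ x.2}.indicator (fun x : Ω × ℝ => LB.rad (W x.1) (max 0 x.2)) := by
    funext x
    by_cases hx : 0 ≤ x.2
    · rw [indicator_of_mem (show x ∈ {x : Ω × ℝ | 0 ≤ x.2} from hx), max_eq_right hx]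
    · rw [indicator_of_notMem (show x ∉ {x : Ω × ℝ | 0 ≤ x.2} from hx),
        rad_of_neg (not_le.1 hx)]
  rw [h3]
  exact h2.indicator (measurableSet_le measurable_const measurable_snd)

theorem win_subset (W : ℝ → ℝ) (t : ℝ) (k : ℤ) :
    LB.win W t k ⊆ Icc 0 (((2 : ℝ) ^ (k + 1)) ^ 2) := by
  intro s hs
  refine ⟨hs.1.le, ?_⟩
  refine (LB.le_rad_sq (W := W) hs.1.le).trans ?_
  exact pow_le_pow_left₀ (LB.rad_nonneg W s) hs.2.2.2.le 2

/-- the random window is jointly measurable -/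
theorem measurableSet_win_of (hc : ∀ ω, ContinuousOn (W ω) (Ici 0))
    (hm : ∀ s, 0 ≤ s → Measurable (fun ω => W ω s)) {τ : Ω → ℝ} (hτ : Measurable τ) (k : ℤ) :
    MeasurableSet {x : Ω × ℝ | x.2 ∈ LB.win (W x.1) (τ x.1) k} := by
  have hr := measurable_rad_of hc hm
  have h1 : MeasurableSet {x : Ω × ℝ | 0 < x.2} := measurableSet_lt measurable_const measurable_snd
  have h2 : MeasurableSet {x : Ω × ℝ | x.2 ≤ τ x.1} :=
    measurableSet_le measurable_snd (hτ.comp measurable_fst)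
  have h3 : MeasurableSet {x : Ω × ℝ | (2 : ℝ) ^ k ≤ LB.rad (W x.1) x.2} :=
    measurableSet_le measurable_const hr
  have h4 : MeasurableSet {x : Ω × ℝ | LB.rad (W x.1) x.2 < (2 : ℝ) ^ (k + 1)} :=
    measurableSet_lt hr measurable_const
  exact h1.inter (h2.inter (h3.inter h4))

/-- `(ω, z) ↦ cz` over the window, generic path and factor `lam` -/
theorem measurable_cz_win_of {κ ε c1 : ℝ} {lam : Ω × ℂ → ℝ} (hl : Measurable lam)
    (hc : ∀ ω, ContinuousOn (W ω) (Ici 0))
    (hm : ∀ s, 0 ≤ s → Measurable (fun ω => W ω s)) {τ : Ω → ℝ} (hτ : Measurable τ) (k : ℤ) :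
    Measurable (fun p : Ω × ℂ => LB.cz κ ε c1 (lam p) (W p.1) (LB.win (W p.1) (τ p.1) k) p.2) :=
  LBCont.measurable_cz (T := ((2 : ℝ) ^ (k + 1)) ^ 2) hl
    (fun ω => (hc ω).mono fun _ hs => hs.1) (fun s hs => hm s hs.1)
    (E := fun ω => LB.win (W ω) (τ ω) k) (measurableSet_win_of hc hm hτ k)
    (fun ω => win_subset (W ω) (τ ω) k)

/-- `ω ↦ content` over the window -/
theorem measurable_content_win_of {κ ε c1 : ℝ} (f : ℂ → ℂ) (V : Set ℂ)
    (hc : ∀ ω, ContinuousOn (W ω) (Ici 0))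
    (hm : ∀ s, 0 ≤ s → Measurable (fun ω => W ω s)) {τ : Ω → ℝ} (hτ : Measurable τ) (k : ℤ) :
    Measurable (fun ω => LB.content κ ε c1 f (W ω) (LB.win (W ω) (τ ω) k) V) :=
  LBCont.measurable_content (T := ((2 : ℝ) ^ (k + 1)) ^ 2) f V
    (fun ω => (hc ω).mono fun _ hs => hs.1) (fun s hs => hm s hs.1)
    (E := fun ω => LB.win (W ω) (τ ω) k) (measurableSet_win_of hc hm hτ k)
    (fun ω => win_subset (W ω) (τ ω) k)

end generic

section brownian

variable {Ω : Type*} {m : MeasurableSpace Ω} {F : Filtration ℝ≥0 m} {P : Measure Ω}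
  {B : ℝ≥0 → Ω → ℝ}

theorem measurable_rad (hB : IsBM F B P) (κ : ℝ) :
    Measurable (fun x : Ω × ℝ => LB.rad (driving κ B x.1) x.2) :=
  measurable_rad_of (fun ω => (FLD.driving_cont hB κ ω).continuousOn)
    fun s _ => FLD.driving_meas' hB κ s

theorem measurableSet_win (hB : IsBM F B P) (κ : ℝ) {τ : Ω → ℝ≥0} (hτ : Measurable τ) (k : ℤ) :
    MeasurableSet {x : Ω × ℝ | x.2 ∈ LB.win (driving κ B x.1) (τ x.1) k} :=
  measurableSet_win_of (fun ω => (FLD.driving_cont hB κ ω).continuousOn)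
    (fun s _ => FLD.driving_meas' hB κ s) (τ := fun ω => (τ ω : ℝ)) hτ.coe_nnreal_real k

/-- joint measurability in `(ω, z)` (no hypothesis on `f`: `deriv f` is always measurable) -/
theorem measurable_cz (hB : IsBM F B P) {κ ε c1 : ℝ} (f : ℂ → ℂ) (k : ℤ) {τ : Ω → ℝ≥0}
    (hτ : Measurable τ) :
    Measurable (fun p : Ω × ℂ => LB.cz κ ε c1 ‖deriv f p.2‖ (driving κ B p.1)
      (LB.win (driving κ B p.1) (τ p.1) k) p.2) :=
  measurable_cz_win_of (lam := fun p : Ω × ℂ => ‖deriv f p.2‖)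
    ((measurable_deriv f).norm.comp measurable_snd)
    (fun ω => (FLD.driving_cont hB κ ω).continuousOn)
    (fun s _ => FLD.driving_meas' hB κ s) (τ := fun ω => (τ ω : ℝ)) hτ.coe_nnreal_real k

theorem aemeasurable_cz (hB : IsBM F B P) {κ ε c1 : ℝ} {f : ℂ → ℂ}
    (_hf : DifferentiableOn ℂ f KB1.Hs) (k : ℤ) {τ : Ω → ℝ≥0} (hτ : Measurable τ) (D : Set ℂ)
    (_hD : MeasurableSet D) (_hDH : D ⊆ {z | 0 < z.im}) :
    AEMeasurable (fun p : Ω × ℂ => LB.cz κ ε c1 ‖deriv f p.2‖ (driving κ B p.1)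
      (LB.win (driving κ B p.1) (τ p.1) k) p.2) (P.prod (volume.restrict D)) :=
  (measurable_cz hB f k hτ).aemeasurable

/-- fixed `z` -/
theorem measurable_cz_fixed (hB : IsBM F B P) {κ ε c1 : ℝ} (lam : ℝ) (k : ℤ) {τ : Ω → ℝ≥0}
    (hτ : Measurable τ) (z : ℂ) :
    Measurable (fun ω => LB.cz κ ε c1 lam (driving κ B ω)
      (LB.win (driving κ B ω) (τ ω) k) z) := by
  have h := measurable_cz_win_of (κ := κ) (ε := ε) (c1 := c1) (lam := fun _ : Ω × ℂ => lam)
    measurable_const (fun ω => (FLD.driving_cont hB κ ω).continuousOn)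
    (fun s _ => FLD.driving_meas' hB κ s) (τ := fun ω => (τ ω : ℝ)) hτ.coe_nnreal_real k
  have h2 : Measurable (fun ω : Ω => ((ω, z) : Ω × ℂ)) := measurable_id.prodMk measurable_const
  exact h.comp h2

/-- the content of a window is a random variable -/
theorem measurable_content_win (hB : IsBM F B P) {κ ε c1 : ℝ} (f : ℂ → ℂ) (V : Set ℂ) (k : ℤ)
    {τ : Ω → ℝ≥0} (hτ : Measurable τ) :
    Measurable (fun ω => LB.content κ ε c1 f (driving κ B ω)
      (LB.win (driving κ B ω) (τ ω) k) V) :=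
  measurable_content_win_of f V (fun ω => (FLD.driving_cont hB κ ω).continuousOn)
    (fun s _ => FLD.driving_meas' hB κ s) (τ := fun ω => (τ ω : ℝ)) hτ.coe_nnreal_real k

end brownian

end Crest.Agent.R162.LB3bMeas
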