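import Mathlib
import Crest.Agent.R162.LBDefs
import Crest.Agent.R162.FLE2
import Crest.Agent.R162.LBST3
import Crest.Agent.R162.LB3bTk

/-!
Row 162 (S0243), node LB3b: the stopping time `T2` = first time of `Bad2` (capped at `N`), for a
fixed map `f` (helper459, for helper268).
-/

set_option autoImplicit false

open MeasureTheory Set Filter Topology
open scoped NNReal ENNReal
open Crest.ProbabilityR.Loewner

namespace Crest.Agent.R162.LB3b

open Crest.Agent.R162 Crest.Agent.R162.FL Crest.Agent.R162.OP Crest.Agent.R162.OS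

section generic

variable {Ω : Type*} {m' : MeasurableSpace Ω} {f : ℂ → ℂ} {W : Ω → ℝ → ℝ} {t : ℝ} {p : LB.Par}

theorem measurableSet_bad2_fix (ht : 0 < t) (hf : ContinuousOn f {z | 0 < z.im})
    (hc : ∀ ω, ContinuousOn (W ω) (Set.Icc 0 t))
    (hm : ∀ s ∈ Set.Icc 0 t, Measurable[m'] (fun ω => W ω s)) :
    MeasurableSet[m'] {ω | p.Bad2 f (W ω) t} := by
  have hrad := LBST.measurable_rad ht.le hc hm
  have him : ∀ y : ℝ, ((y : ℂ) * Complex.I).im = y := by intro y; simp
  have hf' : LBST.CFam m' (fun _ : Ω => f) := ⟨fun z _ => measurable_const, fun _ => hf⟩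
  have hc2 := hf'.comp_ffl ht.le hc hm
  have e : {ω | p.Bad2 f (W ω) t} = {ω | ∃ y ∈ Set.Ioc 0 (10 * LB.rad (W ω) t),
      (0 : ℝ) < ‖f (ffl (W ω) t (y * Complex.I)) -
        f ((10 * LB.rad (W ω) t : ℝ) * Complex.I)‖ - p.u0 (p.x f) / 16} := by
    ext ω
    simp only [LB.Par.Bad2, Set.mem_ofPred_eq, Set.mem_Ioc, sub_pos, and_assoc]
  rw [e]
  refine LBST.measurableSet_exists_Ioc (G := fun (y : ℝ) ω => ‖f (ffl (W ω) t (y * Complex.I)) -
        f ((10 * LB.rad (W ω) t : ℝ) * Complex.I)‖ - p.u0 (p.x f) / 16)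
    (R := fun ω => 10 * LB.rad (W ω) t) ?_ (measurable_const.mul hrad) ?_
  · intro y hy
    have h1 : Measurable[m'] fun ω => f (ffl (W ω) t (y * Complex.I)) :=
      hc2.meas _ (by rw [him]; exact hy)
    have h2 : Measurable[m'] fun ω => f ((10 * LB.rad (W ω) t : ℝ) * Complex.I) := by
      refine hf'.eval ?_ fun ω => ?_
      · exact (Complex.measurable_ofReal.comp (measurable_const.mul hrad)).mul measurable_const
      · rw [him]
        exact mul_pos (by norm_num) (LBST.rad_pos ht)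
    exact ((h1.sub h2).norm).sub measurable_const
  · intro ω
    refine ContinuousOn.sub (ContinuousOn.norm (ContinuousOn.sub ?_ continuousOn_const))
      continuousOn_const
    refine (hc2.cont ω).comp (Continuous.continuousOn (by fun_prop)) ?_
    intro y hy
    show 0 < ((y : ℂ) * Complex.I).im
    rw [him]
    exact hy

theorem not_bad2_zero {W : ℝ → ℝ} (h0 : W 0 = 0) : ¬ p.Bad2 f W 0 := by
  rintro ⟨y, hy, hy1, _⟩
  rw [rad_zero h0, mul_zero] at hy1
  exact absurd hy (not_lt.2 hy1)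

end generic

section brownian

variable {Ω : Type*} {m : MeasurableSpace Ω} {F : Filtration ℝ≥0 m} {P : Measure Ω}
  {B : ℝ≥0 → Ω → ℝ} {p : LB.Par} {f : ℂ → ℂ} {N : ℝ≥0} {ω : Ω}

/-- first time of `Bad2`, capped at `N` -/
noncomputable def T2 (p : LB.Par) (f : ℂ → ℂ) (B : ℝ≥0 → Ω → ℝ) (N : ℝ≥0) (ω : Ω) : ℝ≥0 :=
  LBST.deb (fun t ω => p.Bad2 f (driving p.κ B ω) t) (fun _ => 0) N ω

theorem T2_le : T2 p f B N ω ≤ N := LBST.deb_le (zero_le)

theorem not_bad2_of_lt {s : ℝ} (h0 : 0 ≤ s) (h : s < T2 p f B N ω) :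
    ¬ p.Bad2 f (driving p.κ B ω) s := by
  have h1 : s.toNNReal < T2 p f B N ω := by
    rw [← NNReal.coe_lt_coe, Real.coe_toNNReal _ h0]; exact h
  have h2 := LBST.not_of_lt_deb (O := fun t ω => p.Bad2 f (driving p.κ B ω) t) (σ := fun _ => 0)
    (T := N) (t := s.toNNReal) (zero_le) h1
  rwa [Real.coe_toNNReal _ h0] at h2

theorem bad2_driving_pos (hB : IsBM F B P) {t : ℝ≥0} (h : p.Bad2 f (driving p.κ B ω) t) :
    0 < t := by
  rcases eq_or_lt_of_le (zero_le (a := t)) with h0 | h0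
  · rw [← h0] at h
    exact absurd h (not_bad2_zero (drv_zero hB p.κ ω))
  · exact h0

theorem le_T2 (hB : IsBM F B P) {t : ℝ} (ht : 0 < t) (htN : t ≤ N)
    (h : ∀ s, 0 < s → s < t → ¬ p.Bad2 f (driving p.κ B ω) s) : t ≤ T2 p f B N ω := by
  by_contra hcon
  rw [not_le] at hcon
  have h1 : T2 p f B N ω < t.toNNReal := by
    rw [← NNReal.coe_lt_coe, Real.coe_toNNReal _ ht.le]; exact hcon
  rcases LBST.deb_lt_iff.1 h1 with ⟨s, _, h2, h3⟩ | h2
  · have hs := bad2_driving_pos hB h3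
    rw [← NNReal.coe_lt_coe, Real.coe_toNNReal _ ht.le] at h2
    exact h s (by exact_mod_cast hs) h2 h3
  · have h3 : N < t.toNNReal := (le_max_left _ _).trans_lt h2
    rw [← NNReal.coe_lt_coe, Real.coe_toNNReal _ ht.le] at h3
    exact absurd htN (not_le.2 h3)

theorem isST_T2_of_cont (hB : IsBM F B P) [F.IsRightContinuous]
    (hf : ContinuousOn f {z | 0 < z.im}) : IsST F (T2 p f B N) := by
  refine LBST.isST_deb (σ := fun _ => 0) (fun t => ?_)
    (O := fun t ω => p.Bad2 f (driving p.κ B ω) t) (fun t => ?_) (fun ω t _ h => ?_) N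
  · simp
  · rcases eq_or_lt_of_le (zero_le (a := t)) with h0 | h0
    · have : {ω | (0 : ℝ≥0) ≤ t ∧ p.Bad2 f (driving p.κ B ω) t} = ∅ := by
        ext ω
        simp only [Set.mem_ofPred_eq, Set.mem_empty_iff_false, iff_false, not_and]
        intro _ h
        exact absurd (bad2_driving_pos hB h) (by rw [← h0]; exact lt_irrefl _)
      rw [this]
      exact @MeasurableSet.empty _ (F t)
    · have : {ω | (0 : ℝ≥0) ≤ t ∧ p.Bad2 f (driving p.κ B ω) t}
          = {ω | p.Bad2 f (driving p.κ B ω) t} := by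
        ext ω
        simp
      rw [this]
      exact measurableSet_bad2_fix (m' := F t) (by exact_mod_cast h0) hf
        (fun ω => (FLD.driving_cont hB p.κ ω).continuousOn)
        (fun s hs => FLD.driving_meas hB p.κ hs)
  · have h0 := bad2_driving_pos hB h
    have h1 := LBST.bad2_right hf (FLD.driving_cont hB p.κ ω).continuousOn
      (by exact_mod_cast h0) h
    have h2 : ∀ᶠ s : ℝ≥0 in 𝓝 t, p.Bad2 f (driving p.κ B ω) s :=
      (NNReal.continuous_coe.tendsto t).eventually h1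
    exact h2.filter_mono nhdsWithin_le_nhds

theorem isST_T2 (hB : IsBM F B P) [F.IsRightContinuous]
    (hf : DifferentiableOn ℂ f KB1.Hs) : IsST F (T2 p f B N) :=
  isST_T2_of_cont hB hf.continuousOn

end brownian

end Crest.Agent.R162.LB3b
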