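import Mathlib
import Crest.Agent.R162.LB2h
import Crest.Agent.R162.LB3bWin
import Crest.Agent.R162.LB3bT2
import Crest.Agent.R162.LB3bMeas
import Crest.Agent.R162.LBST1

/-!
Row 162, node LB3b (helper636, for helper268): final wiring `WinMean κ → In3 κ c1`.
-/

set_option autoImplicit false

open MeasureTheory ProbabilityTheory Set Filter Topology
open scoped NNReal ENNReal
open Crest.ProbabilityR.Loewner

namespace Crest.Agent.R162.LB3b

open Crest.Agent.R162.FL Crest.Agent.R162.OS Crest.Agent.R162.LBStep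

universe u

/-- the mean bound of one window (helper268) -/
def WinMean (κ : ℝ) : Prop :=
  ∃ C e : ℝ, 0 < C ∧ 0 < e ∧ ∀ p : LB.Par, p.κ = κ → p.Adm → 0 < p.ε →
    ∀ f : ℂ → ℂ, DifferentiableOn ℂ f KB1.Hs → InjOn f KB1.Hs → ∀ k : ℤ,
    (∀ y : ℝ, 0 < y → y ≤ 10 * (2:ℝ)^k →
      ‖f (y * Complex.I) - p.x f‖ ≤ p.u0 (p.x f) / 32) → LB.vv p.u0 f (2^k) ≤ 1 →
    ∀ (Ω : Type u) [MeasurableSpace Ω] (P : Measure Ω) [IsProbabilityMeasure P]
      (F : Filtration ℝ≥0 (inferInstance : MeasurableSpace Ω)) (B : ℝ≥0 → Ω → ℝ)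
      (_ : IsBM F B P) (T2 : Ω → ℝ≥0) (_ : IsST F T2)
      (_ : ∀ ω s, 0 < s → s < (T2 ω : ℝ) → ¬ p.Bad2 f (driving κ B ω) s),
      ∫⁻ ω, p.nearC f (driving κ B ω) (LB.win (driving κ B ω) (T2 ω) k) ∂P
        ≤ ENNReal.ofReal (C * LB.vv p.u0 f (2^k) ^ e)

lemma win_mono {W : ℝ → ℝ} {s t : ℝ} (h : s ≤ t) (k : ℤ) : LB.win W s k ⊆ LB.win W t k := by
  rintro u ⟨h0, h1, h2, h3⟩
  exact ⟨h0, h1.trans h, h2, h3⟩

/-- **LB3b**: `In3 κ c1` from the mean bound. -/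
theorem in3_of {κ c1 : ℝ} (h : WinMean.{u} κ) : LBStep.In3.{u} κ c1 := by
  obtain ⟨C, e, hC, he, h⟩ := h
  refine ⟨e, C, he, hC.le, ?_⟩
  intro cs q η K3 K4 hcs hcse hq hq8 hη hη8 hK3 hK4
  obtain ⟨θ0, hθ0, hθall⟩ := LB2h.exists_th0 hq (by linarith : q < 1) hK3 hK4 one_pos
  refine ⟨θ0, hθ0, ?_⟩
  intro θ hθ hθθ0
  refine ⟨1, one_pos, ?_⟩
  intro p hκ hpc1 hpcs hpq hpη hpK3 hpK4 hpθ hε0 hε hA f hS Ω _ P _ F B hB k hk
  obtain ⟨s1, s2, s3, s4⟩ := hθall θ hθ hθθ0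
  have hsmall : LB0.Small p :=
    { q_pos := by rw [hpq]; exact hq
      q_lt := by rw [hpq]; linarith
      η_nonneg := by rw [hpη]; exact hη.le
      θ_pos := by rw [hpθ]; exact hθ
      K3_pos := by rw [hpK3]; exact hK3
      K4_ge := by rw [hpK4]; exact hK4
      sm1 := by rw [hpK3, hpq, hpθ]; exact s1
      sm2 := by rw [hpK4, hpθ]; linarith }
  have hG := LB2h.geo_state hA hsmall hS (by rw [hpθ]; exact s3)
  subst hκ
  have hρ : (0 : ℝ) < (2 : ℝ) ^ k := by positivity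
  have hρ10 : (2 : ℝ) ^ k ≤ 10 * p.rho1 f := by have := hG.rho_pos; linarith
  have hnear : ∀ y : ℝ, 0 < y → y ≤ 10 * (2:ℝ)^k →
      ‖f (y * Complex.I) - p.x f‖ ≤ p.u0 (p.x f) / 32 := by
    intro y hy0 hy
    have h1 := hG.near y hy0 (by linarith)
    have h2 : 0 < p.u0 (p.x f) := lt_of_lt_of_le one_pos (hA.one_le _)
    linarith
  have hvv1 : LB.vv p.u0 f (2 ^ k) ≤ 1 := hG.vv_le_one _ hρ hρ10
  have hups0 : 0 < KB1.ups f (((2 : ℝ) ^ k : ℝ) * Complex.I) :=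
    KB1.ups_pos hS.diff hS.inj (by rw [LB2a.mulI_im]; exact hρ)
  have hvv0 : 0 < LB.vv p.u0 f (2 ^ k) := by
    refine div_pos hups0 ?_
    exact lt_of_lt_of_le one_pos (hA.one_le _)
  -- the stopping time
  set N : ℝ≥0 := (((2 : ℝ) ^ (k + 1)) ^ 2).toNNReal with hN
  have hNle : ((2 : ℝ) ^ (k + 1)) ^ 2 ≤ (N : ℝ) := Real.le_coe_toNNReal _
  have hN0 : (0 : ℝ) < (N : ℝ) := lt_of_lt_of_le (by positivity) hNle
  have hB' : IsBM F.rightCont B P := LBST.isBM_rightCont hB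
  set τ : Ω → ℝ≥0 := T2 p f B N with hτ
  have hST : IsST F.rightCont τ := isST_T2 hB' hS.diff
  have hτm : Measurable τ := hST.measurable
  have hno : ∀ ω s, 0 < s → s < (τ ω : ℝ) → ¬ p.Bad2 f (driving p.κ B ω) s :=
    fun ω s hs h2 => not_bad2_of_lt hs.le h2
  have hmean := h p rfl hA hε0 f hS.diff hS.inj k hnear hvv1 Ω P F.rightCont B hB' τ hST hno
  set X : Ω → ℝ≥0∞ := fun ω => p.nearC f (driving p.κ B ω) (LB.win (driving p.κ B ω) (τ ω) k)
    with hX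
  have hXm : Measurable X := LB3bMeas.measurable_content_win hB f (p.near f) k hτm
  set a : ℝ≥0∞ := ENNReal.ofReal (LB.vv p.u0 f (2 ^ k) ^ (cs / 2)) with ha
  have hapos : 0 < LB.vv p.u0 f (2 ^ k) ^ (cs / 2) := Real.rpow_pos_of_pos hvv0 _
  have ha0 : a ≠ 0 := by
    rw [ha]
    exact (ENNReal.ofReal_pos.2 hapos).ne'
  have hat : a ≠ ⊤ := ENNReal.ofReal_ne_top
  have hsub : {ω | E3 p f (driving p.κ B ω) k} ⊆ {ω | a ≤ X ω} := by
    rintro ω ⟨t, ht, hnb, hbad⟩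
    have hbad' : a < p.nearC f (driving p.κ B ω) (LB.win (driving p.κ B ω) t k) := by
      have h1 : ENNReal.ofReal (LB.vv p.u0 f (2 ^ k) ^ (p.cs / 2))
        < p.nearC f (driving p.κ B ω) (LB.win (driving p.κ B ω) t k) := hbad
      rw [hpcs] at h1
      exact h1
    have hm : min t (N : ℝ) ≤ (τ ω : ℝ) := by
      refine le_T2 hB (lt_min ht hN0) (min_le_right _ _) ?_
      intro s hs0 hs
      exact hnb s hs0 (hs.trans_le (min_le_left _ _))
    refine hbad'.le.trans ?_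
    rw [win_min hNle]
    exact LB.content_mono (win_mono hm k) (subset_refl _)
  refine (measure_mono hsub).trans ((meas_ge_le_lintegral_div hXm.aemeasurable ha0 hat).trans ?_)
  refine (ENNReal.div_le_div_right hmean a).trans ?_
  rw [ha, ← ENNReal.ofReal_div_of_pos hapos]
  refine ENNReal.ofReal_le_ofReal ?_
  rw [mul_div_assoc, ← Real.rpow_sub hvv0]
  refine mul_le_mul_of_nonneg_left ?_ hC.le
  exact Real.rpow_le_rpow_of_exponent_ge hvv0 hvv1 (by linarith)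

end Crest.Agent.R162.LB3b
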