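import Crest.Agent.R162.OPe
import Crest.Agent.R162.OPM
import Crest.Agent.R162.LB2br
import Crest.Agent.R162.LB2h
import Crest.Agent.R162.LB7bI
import Crest.Agent.R162.LBStepIn

/-! Row 162, node OP (helper149): OP1-OP4 in the exact forms used by the lower bound. -/

set_option autoImplicit false

open MeasureTheory ProbabilityTheory Set Filter Topology
open scoped NNReal ENNReal

namespace Crest.Agent.R162.OPf

open Crest.Agent.R162.OS Crest.Agent.R162.FL Crest.Agent.R162.OP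
open Crest.ProbabilityR.Loewner

universe u

variable {κ : ℝ}

theorem op1Stmt (hκ : 0 < κ) (hκ8 : κ < 8) : LB7.OP1Stmt.{u} κ := by
  intro c0 hc0
  refine ⟨C1 κ c0, lam1 κ, C1_pos hc0, lam1_pos hκ hκ8, ?_⟩
  intro Ω m P _ Fl B hB w hw σ hσ A hA a
  exact OP1 OPM.opm hB hκ hκ8 hw hσ hA hc0 a

theorem op1S (hκ : 0 < κ) (hκ8 : κ < 8) : LB2br.OP1S.{u} κ := by
  intro c0 hc0
  refine ⟨C1 κ c0, lam1 κ, C1_pos hc0, lam1_pos hκ hκ8, ?_⟩
  intro Ω m P _ Fl B hB w hw σ hσ A hA a _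
  exact OP1 OPM.opm hB hκ hκ8 hw hσ hA hc0 a

theorem op2S (hκ : 0 < κ) : LB2br.OP2S.{u} κ := by
  refine ⟨Real.exp 1, κ + 6, Real.exp_pos 1, by linarith, ?_⟩
  intro Ω m P _ Fl B hB w hw σ hσ A hA a b _ _
  exact ⟨OP2_up OPM.opm hB hκ hw hσ hA a b, OP2_down OPM.opm hB hκ hw hσ hA a b⟩

theorem hop3 (hκ : 0 < κ) (hκ8 : κ < 8) : LB2br.HOP3.{u} κ :=
  LB2br.hOP3_of (op1S hκ hκ8) (op2S hκ)

theorem op3K (hκ : 0 < κ) (hκ8 : κ < 8) : LB2h.OP3K.{u} κ := by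
  obtain ⟨C, c', hC, hc', h⟩ := hop3.{u} hκ hκ8
  refine ⟨C, c', hC.le, hc', ?_⟩
  intro Ω m P _ F B hB z hz lam hlam
  exact h hB z hz lam hlam

theorem in2 (hκ : 0 < κ) (hκ8 : κ < 8) : LBStep.In2.{u} κ := LB2h.in2 (op3K hκ hκ8)

theorem inZ (hκ : 0 < κ) (hκ8 : κ < 8) : LBStep.InZ.{u} κ := LB2h.inZ (op3K hκ hκ8)

theorem in4 (hκ : 0 < κ) : LBStep.In4.{u} κ := by
  have hL : 0 ≤ OPGen.LamT κ := by unfold OPGen.LamT; positivity
  refine ⟨9 / 16 * Real.exp (-(OPGen.LamT κ * (4 + 1))), by positivity, ?_, ?_⟩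
  · have : Real.exp (-(OPGen.LamT κ * (4 + 1))) ≤ 1 := Real.exp_le_one_iff.2 (by linarith)
    calc 9 / 16 * Real.exp (-(OPGen.LamT κ * (4 + 1))) ≤ 9 / 16 * 1 :=
          mul_le_mul_of_nonneg_left this (by norm_num)
      _ ≤ 1 := by norm_num
  intro Ω m P _ F B hB y hy
  have him : 0 < ((y : ℂ) * Complex.I).im := by simpa using hy
  have h := OP4_zero (w := (y : ℂ) * Complex.I) OPM.opm hB hκ him (by simp) (a := 4) (by norm_num)
  have h2 := ENNReal.ofReal_le_ofReal h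
  rw [ofReal_measureReal] at h2
  refine h2.trans (measure_mono ?_)
  rintro ω ⟨t, hal, ha, hx⟩
  refine ⟨t, t.2, hal, ha, fun s hs => ?_⟩
  exact hx ⟨s, hs.1⟩ (by exact_mod_cast hs.2)

end Crest.Agent.R162.OPf
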