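import Crest.Agent.R162.LB3b5
import Crest.Agent.R162.LB3bCB
import Crest.Agent.R162.LB3bIn3
import Crest.Agent.R162.OPf

/-!
Row 162 (S0243), node LB3b: `WinMean κ`, unconditional (helper268; inputs 204, 499, 443, 620, 636).
-/

set_option autoImplicit false

namespace Crest.Agent.R162.LB3b

universe u

/-- the mean near content of a scale window before `T₂`, unconditional -/
theorem winMean {κ : ℝ} (hκ : 0 < κ) (hκ8 : κ < 8) : WinMean.{u} κ :=
  window_mean hκ hκ8 (by norm_num : (0 : ℝ) ≤ 7) (contB hκ hκ8) (OPf.op3K hκ hκ8)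

end Crest.Agent.R162.LB3b
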