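import Crest.Agent.R162.LB3b6

/-!
Row 162 (S0243), node LB3b: `In3 κ c1`, unconditional (helper268; wiring by helper636).
-/

set_option autoImplicit false

namespace Crest.Agent.R162.LB3b

universe u

/-- `P(T₃ at scale 2^k) ≤ C v(2^k)^{c*/2}`, unconditional -/
theorem in3 {κ : ℝ} (c1 : ℝ) (hκ : 0 < κ) (hκ8 : κ < 8) : LBStep.In3.{u} κ c1 :=
  in3_of (winMean hκ hκ8)

end Crest.Agent.R162.LB3b
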