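import Mathlib
import Crest.Agent.R162.FLB
import Crest.Agent.R162.KB1H

/-!
Row 162, node LB3c (helper868): the FAR content lemma.  Points `z` with `‖Z_s(z)‖ ≥ 10 ρ_T`
(far from the tip in the half-plane chart) collect little content during the step.
-/

set_option autoImplicit false

open Set MeasureTheory Filter
open scoped ENNReal

namespace Crest.Agent.R162.LB3c

open Crest.Agent.R162.FL Crest.Agent.R162

variable {W : ℝ → ℝ} {z : ℂ} {s ρ : ℝ}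

theorem continuousOn_norm_Zfl (hW : ContinuousOn W (Ici 0)) (h : Alive W z s) :
    ContinuousOn (fun r => ‖Zfl W r z‖) (Icc 0 s) :=
  (continuousOn_Zfl hW h).norm

/-- increments of the flow while `‖Z‖ ≥ m`. -/
theorem norm_gfl_sub_le_of (h : Alive W z s) {a b m : ℝ} (ha : 0 ≤ a) (hab : a ≤ b)
    (hb : b ≤ s) (hm : 0 < m) (hZ : ∀ r ∈ Icc a b, m ≤ ‖Zfl W r z‖) :
    ‖gfl W b z - gfl W a z‖ ≤ 2 / m * (b - a) := by
  have hsub : Icc a b ⊆ Icc 0 s := Icc_subset_Icc ha hb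
  have key := Convex.norm_image_sub_le_of_norm_hasDerivWithin_le (𝕜 := ℝ)
    (f := fun r => gfl W r z) (f' := fun r => 2 / (Zfl W r z)) (s := Icc a b) (x := a) (y := b)
    (C := 2 / m)
    (fun r hr => (hasDerivWithinAt_gfl h (hsub hr)).mono hsub)
    (fun r hr => ?_) (convex_Icc a b) ⟨le_rfl, hab⟩ ⟨hab, le_rfl⟩
  · rwa [Real.norm_eq_abs, abs_of_nonneg (sub_nonneg.2 hab)] at key
  · rw [norm_div, Complex.norm_ofNat]
    exact div_le_div_of_nonneg_left (by norm_num) hm (hZ r hr)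

theorem far_seven (hW : ContinuousOn W (Ici 0)) (h : Alive W z s) (hρ : 0 < ρ)
    (hsρ : s ≤ ρ ^ 2) (hWρ : ∀ r ∈ Icc 0 s, |W r| ≤ ρ) (hfar : 10 * ρ ≤ ‖Zfl W s z‖) :
    ∀ r ∈ Icc 0 s, 7 * ρ ≤ ‖Zfl W r z‖ := by
  by_contra hcon
  push Not at hcon
  obtain ⟨r₁, hr₁, hlt⟩ := hcon
  have hcont := continuousOn_norm_Zfl hW h
  set A : Set ℝ := {r | r ∈ Icc 0 s ∧ ‖Zfl W r z‖ ≤ 7 * ρ} with hA
  have hAcl : IsClosed A := by
    have := hcont.preimage_isClosed_of_isClosed isClosed_Icc (isClosed_Iic (a := 7 * ρ))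
    exact this
  have hAc : IsCompact A := (isCompact_Icc (a := (0:ℝ)) (b := s)).of_isClosed_subset hAcl
    (fun r hr => hr.1)
  obtain ⟨r₀, hr₀⟩ := hAc.exists_isGreatest ⟨r₁, show r₁ ∈ A from ⟨hr₁, hlt.le⟩⟩
  have hr₀A : r₀ ∈ Icc 0 s ∧ ‖Zfl W r₀ z‖ ≤ 7 * ρ := hr₀.1
  have hge : ∀ r ∈ Icc r₀ s, 7 * ρ ≤ ‖Zfl W r z‖ := by
    intro r hr
    rcases eq_or_lt_of_le hr.1 with he | hl
    · -- at r₀: by continuity from the right
      subst he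
      by_contra hc
      push Not at hc
      have hr0s : r₀ < s := by
        rcases eq_or_lt_of_le hr₀A.1.2 with he | hl
        · rw [he] at hc; linarith
        · exact hl
      have hcw : ContinuousWithinAt (fun r => ‖Zfl W r z‖) (Icc 0 s) r₀ := hcont r₀ hr₀A.1
      have hev : ∀ᶠ r in nhdsWithin r₀ (Icc 0 s), ‖Zfl W r z‖ < 7 * ρ :=
        hcw.eventually (gt_mem_nhds hc)
      have hev2 : ∀ᶠ r in nhdsWithin r₀ (Ioc r₀ s), ‖Zfl W r z‖ < 7 * ρ :=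
        hev.filter_mono (nhdsWithin_mono _
          (show Ioc r₀ s ⊆ Icc 0 s from fun r hr => ⟨hr₀A.1.1.trans hr.1.le, hr.2⟩))
      have hne : (nhdsWithin r₀ (Ioc r₀ s)).NeBot := by
        rw [nhdsWithin_Ioc_eq_nhdsGT hr0s]; infer_instance
      obtain ⟨r, hr1, hr2⟩ := (hev2.and self_mem_nhdsWithin).exists
      have : r ≤ r₀ := hr₀.2 (show r ∈ A from ⟨⟨hr₀A.1.1.trans hr2.1.le, hr2.2⟩, hr1.le⟩)
      exact absurd hr2.1 (not_lt.2 this)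
    · by_contra hc
      push Not at hc
      have : r ≤ r₀ := hr₀.2 (show r ∈ A from ⟨⟨hr₀A.1.1.trans hr.1, hr.2⟩, hc.le⟩)
      exact absurd hl (not_lt.2 this)
  have hinc := norm_gfl_sub_le_of h hr₀A.1.1 hr₀A.1.2 le_rfl (by positivity : 0 < 7 * ρ) hge
  have h1 : 2 / (7 * ρ) * (s - r₀) ≤ 2 / 7 * ρ := by
    have : s - r₀ ≤ ρ ^ 2 := by linarith [hr₀A.1.1]
    calc 2 / (7 * ρ) * (s - r₀) ≤ 2 / (7 * ρ) * ρ ^ 2 := by gcongr
      _ = 2 / 7 * ρ := by field_simp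
  have h2 : ‖Zfl W s z‖ ≤ ‖Zfl W r₀ z‖ + ‖gfl W s z - gfl W r₀ z‖ + |W s| + |W r₀| := by
    have e : Zfl W s z = Zfl W r₀ z + (gfl W s z - gfl W r₀ z) - (W s : ℂ) + (W r₀ : ℂ) := by
      simp only [Zfl]; ring
    calc ‖Zfl W s z‖ = ‖Zfl W r₀ z + (gfl W s z - gfl W r₀ z) - (W s : ℂ) + (W r₀ : ℂ)‖ := by
          rw [← e]
      _ ≤ ‖Zfl W r₀ z + (gfl W s z - gfl W r₀ z) - (W s : ℂ)‖ + ‖(W r₀ : ℂ)‖ := norm_add_le _ _
      _ ≤ ‖Zfl W r₀ z + (gfl W s z - gfl W r₀ z)‖ + ‖(W s : ℂ)‖ + ‖(W r₀ : ℂ)‖ := by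
          gcongr; exact norm_sub_le _ _
      _ ≤ ‖Zfl W r₀ z‖ + ‖gfl W s z - gfl W r₀ z‖ + ‖(W s : ℂ)‖ + ‖(W r₀ : ℂ)‖ := by
          gcongr; exact norm_add_le _ _
      _ = _ := by simp [Complex.norm_real]
  have h3 := hWρ s ⟨h.nonneg, le_rfl⟩
  have h4 := hWρ r₀ hr₀A.1
  have h5 := hr₀A.2
  linarith

theorem far_close (hW : ContinuousOn W (Ici 0)) (h : Alive W z s) (hρ : 0 < ρ)
    (hsρ : s ≤ ρ ^ 2) (hWρ : ∀ r ∈ Icc 0 s, |W r| ≤ ρ) (hfar : 10 * ρ ≤ ‖Zfl W s z‖) :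
    ‖Zfl W s z - z‖ ≤ 13 / 10 * ρ := by
  have h7 := far_seven hW h hρ hsρ hWρ hfar
  have hinc := norm_gfl_sub_le_of h le_rfl h.nonneg le_rfl (by positivity : 0 < 7 * ρ) h7
  have h0 : gfl W 0 z = z := gfl_zero' h
  rw [h0, sub_zero] at hinc
  have h1 : 2 / (7 * ρ) * s ≤ 2 / 7 * ρ := by
    calc 2 / (7 * ρ) * s ≤ 2 / (7 * ρ) * ρ ^ 2 := by gcongr
      _ = 2 / 7 * ρ := by field_simp
  have e : Zfl W s z - z = (gfl W s z - z) - (W s : ℂ) := by simp only [Zfl]; ring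
  have h3 := hWρ s ⟨h.nonneg, le_rfl⟩
  calc ‖Zfl W s z - z‖ = ‖(gfl W s z - z) - (W s : ℂ)‖ := by rw [e]
    _ ≤ ‖gfl W s z - z‖ + ‖(W s : ℂ)‖ := norm_sub_le _ _
    _ = ‖gfl W s z - z‖ + |W s| := by rw [Complex.norm_real, Real.norm_eq_abs]
    _ ≤ 13 / 10 * ρ := by linarith

theorem far_ups (hW : ContinuousOn W (Ici 0)) (h : Alive W z s) (hρ : 0 < ρ)
    (hsρ : s ≤ ρ ^ 2) (hWρ : ∀ r ∈ Icc 0 s, |W r| ≤ ρ) (hfar : 10 * ρ ≤ ‖Zfl W s z‖) :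
    z.im * Real.exp (-(4 / 49)) ≤ OP.ups W s z := by
  have h7 := far_seven hW h hρ hsρ hWρ hfar
  have hz := h.im_pos
  have key := Convex.norm_image_sub_le_of_norm_hasDerivWithin_le (𝕜 := ℝ)
    (f := fun r => Real.log (OP.ups W r z))
    (f' := fun r => -(4 * (Zfl W r z).im ^ 2 / ‖Zfl W r z‖ ^ 4)) (s := Icc 0 s) (x := 0) (y := s)
    (C := 4 / (49 * ρ ^ 2))
    (fun r hr => hasDeriv_log_ups hW h hr)
    (fun r hr => ?_) (convex_Icc 0 s) ⟨le_rfl, h.nonneg⟩ ⟨h.nonneg, le_rfl⟩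
  · simp only [sub_zero] at key
    rw [ups_zero hz, Real.norm_eq_abs, Real.norm_eq_abs, abs_of_nonneg h.nonneg] at key
    have h1 : 4 / (49 * ρ ^ 2) * s ≤ 4 / 49 := by
      calc 4 / (49 * ρ ^ 2) * s ≤ 4 / (49 * ρ ^ 2) * ρ ^ 2 := by gcongr
        _ = 4 / 49 := by field_simp
    have h2 := (abs_le.1 (key.trans h1)).1
    have hu := ups_pos h
    have h3 : Real.log (z.im * Real.exp (-(4 / 49))) ≤ Real.log (OP.ups W s z) := by
      rw [Real.log_mul hz.ne' (Real.exp_pos _).ne', Real.log_exp]; linarith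
    exact (Real.log_le_log_iff (by positivity) hu).1 h3
  · have hpos : 0 < ‖Zfl W r z‖ := norm_Zfl_pos_of_mem h hr
    rw [norm_neg, Real.norm_eq_abs, abs_of_nonneg (by positivity)]
    have him : (Zfl W r z).im ^ 2 ≤ ‖Zfl W r z‖ ^ 2 := by
      have := Complex.abs_im_le_norm (Zfl W r z)
      rw [← sq_abs]; gcongr
    have h49 : 49 * ρ ^ 2 ≤ ‖Zfl W r z‖ ^ 2 := by
      have := h7 r hr
      nlinarith [norm_nonneg (Zfl W r z)]
    calc 4 * (Zfl W r z).im ^ 2 / ‖Zfl W r z‖ ^ 4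
        ≤ 4 * ‖Zfl W r z‖ ^ 2 / ‖Zfl W r z‖ ^ 4 := by gcongr
      _ = 4 / ‖Zfl W r z‖ ^ 2 := by field_simp
      _ ≤ 4 / (49 * ρ ^ 2) := by gcongr

end Crest.Agent.R162.LB3c
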