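import Mathlib
import Crest.Agent.R162.KB1H

/-!
Row 162 (S0243), node LB3c (far content), part B (helper786):
* `mm`, `Psi`: `m = max (Ups_f) (u0 ∘ f)`, `Psi = Ups_f^q m^(-q-η)`;
* `log m` and `log Psi` are Lipschitz in the hyperbolic metric;
* the radial integral `∫_{|z| ≥ 7ρ} |z|^(-7/2) ≤ C ρ^(-3/2)`.
-/

set_option autoImplicit false

open Complex Set Metric MeasureTheory
open scoped ComplexConjugate ENNReal

namespace Crest.Agent.R162.LB3c

open Crest.Agent.R162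

/-- `m = max (Ups_f) (u0 ∘ f)` -/
noncomputable def mm (u0 : ℂ → ℝ) (f : ℂ → ℂ) (z : ℂ) : ℝ := max (KB1.ups f z) (u0 (f z))

/-- `Psi = Ups_f^q m^(-q-η)` -/
noncomputable def Psi (q η : ℝ) (u0 : ℂ → ℝ) (f : ℂ → ℂ) (z : ℂ) : ℝ :=
  KB1.ups f z ^ q * mm u0 f z ^ (-q - η)

variable {f : ℂ → ℂ} {u0 : ℂ → ℝ} {q η : ℝ}

theorem ups_le_mm (z : ℂ) : KB1.ups f z ≤ mm u0 f z := le_max_left _ _

theorem u0_le_mm (z : ℂ) : u0 (f z) ≤ mm u0 f z := le_max_right _ _

theorem one_le_mm (hu1 : ∀ x, 1 ≤ u0 x) (z : ℂ) : 1 ≤ mm u0 f z :=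
  (hu1 _).trans (u0_le_mm z)

theorem mm_pos (hu1 : ∀ x, 1 ≤ u0 x) (z : ℂ) : 0 < mm u0 f z :=
  zero_lt_one.trans_le (one_le_mm hu1 z)

/-- `log m` is 2-Lipschitz in the hyperbolic metric. -/
theorem mm_lip (hf : DifferentiableOn ℂ f KB1.Hs) (hfi : InjOn f KB1.Hs)
    (hu : ∀ x y, |u0 x - u0 y| ≤ ‖x - y‖) {z w : ℂ} (hz : 0 < z.im) (hw : 0 < w.im) :
    mm u0 f w ≤ mm u0 f z * Real.exp (2 * KB1.hd z w) := by
  have h1 := KB1.ups_le_exp hf hfi hz hw
  have h2 := KB1.norm_sub_le_exp hf hfi hz hw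
  have h3 := (abs_le.1 (hu (f w) (f z))).2
  have hE : 1 ≤ Real.exp (2 * KB1.hd z w) := Real.one_le_exp (by have := KB1.hd_nonneg z w; linarith)
  have hup := KB1.ups_pos hf hfi hz
  have ha : KB1.ups f z ≤ mm u0 f z := ups_le_mm z
  have hb : u0 (f z) ≤ mm u0 f z := u0_le_mm z
  refine max_le ?_ ?_
  · refine h1.trans ?_
    gcongr
  · have h4 : KB1.ups f z * ((Real.exp (2 * KB1.hd z w) - 1) / 2) ≤
        mm u0 f z * ((Real.exp (2 * KB1.hd z w) - 1) / 2) := by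
      apply mul_le_mul_of_nonneg_right ha; linarith
    have h5 : 0 ≤ mm u0 f z := hup.le.trans ha
    nlinarith

/-- `log Psi` is `(4q+2η)`-Lipschitz in the hyperbolic metric. -/
theorem Psi_lip (hf : DifferentiableOn ℂ f KB1.Hs) (hfi : InjOn f KB1.Hs)
    (hu1 : ∀ x, 1 ≤ u0 x) (hu : ∀ x y, |u0 x - u0 y| ≤ ‖x - y‖) (hq : 0 ≤ q) (hη : 0 ≤ η)
    {z w : ℂ} (hz : 0 < z.im) (hw : 0 < w.im) :
    Psi q η u0 f w ≤ Psi q η u0 f z * Real.exp ((4 * q + 2 * η) * KB1.hd z w) := by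
  have h1 := KB1.ups_le_exp hf hfi hz hw
  have h2 := mm_lip hf hfi hu hw hz
  rw [KB1.hd_comm w z] at h2
  have hupz := KB1.ups_pos hf hfi hz
  have hupw := KB1.ups_pos hf hfi hw
  have hmz : 0 < mm u0 f z := mm_pos hu1 z
  have hmw : 0 < mm u0 f w := mm_pos hu1 w
  set d := KB1.hd z w with hd
  have hA : KB1.ups f w ^ q ≤ KB1.ups f z ^ q * Real.exp (2 * d * q) := by
    calc KB1.ups f w ^ q ≤ (KB1.ups f z * Real.exp (2 * d)) ^ q :=
          Real.rpow_le_rpow hupw.le h1 hq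
      _ = KB1.ups f z ^ q * Real.exp (2 * d * q) := by
          rw [Real.mul_rpow hupz.le (Real.exp_pos _).le, ← Real.exp_mul]
  have hB : mm u0 f w ^ (-q - η) ≤ mm u0 f z ^ (-q - η) * Real.exp (2 * d * (q + η)) := by
    have h3 : mm u0 f z * Real.exp (-(2 * d)) ≤ mm u0 f w := by
      calc mm u0 f z * Real.exp (-(2 * d)) ≤ (mm u0 f w * Real.exp (2 * d)) *
          Real.exp (-(2 * d)) := by gcongr
        _ = mm u0 f w := by rw [mul_assoc, ← Real.exp_add]; simp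
    calc mm u0 f w ^ (-q - η) ≤ (mm u0 f z * Real.exp (-(2 * d))) ^ (-q - η) :=
          Real.rpow_le_rpow_of_nonpos (by positivity) h3 (by linarith)
      _ = mm u0 f z ^ (-q - η) * Real.exp (2 * d * (q + η)) := by
          rw [Real.mul_rpow hmz.le (Real.exp_pos _).le, ← Real.exp_mul]
          congr 2
          ring
  unfold Psi
  calc KB1.ups f w ^ q * mm u0 f w ^ (-q - η)
      ≤ (KB1.ups f z ^ q * Real.exp (2 * d * q)) *
        (mm u0 f z ^ (-q - η) * Real.exp (2 * d * (q + η))) := by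
        gcongr
    _ = KB1.ups f z ^ q * mm u0 f z ^ (-q - η) *
        (Real.exp (2 * d * q) * Real.exp (2 * d * (q + η))) := by ring
    _ = KB1.ups f z ^ q * mm u0 f z ^ (-q - η) * Real.exp ((4 * q + 2 * η) * d) := by
        rw [← Real.exp_add]
        congr 2
        ring

theorem Psi_pos (hf : DifferentiableOn ℂ f KB1.Hs) (hfi : InjOn f KB1.Hs)
    (hu1 : ∀ x, 1 ≤ u0 x) {z : ℂ} (hz : 0 < z.im) : 0 < Psi q η u0 f z := by
  have hupz := KB1.ups_pos hf hfi hz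
  have hmz : 0 < mm u0 f z := mm_pos hu1 z
  unfold Psi
  positivity

theorem Psi_le_one (hf : DifferentiableOn ℂ f KB1.Hs) (hfi : InjOn f KB1.Hs)
    (hu1 : ∀ x, 1 ≤ u0 x) (hq : 0 ≤ q) (hη : 0 ≤ η) {z : ℂ} (hz : 0 < z.im) :
    Psi q η u0 f z ≤ 1 := by
  have hupz := KB1.ups_pos hf hfi hz
  have hmz : 0 < mm u0 f z := mm_pos hu1 z
  have h1 : 1 ≤ mm u0 f z := one_le_mm hu1 z
  unfold Psi
  calc KB1.ups f z ^ q * mm u0 f z ^ (-q - η) ≤ mm u0 f z ^ q * mm u0 f z ^ (-q - η) := by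
        gcongr
        exact ups_le_mm z
    _ = mm u0 f z ^ (-η) := by rw [← Real.rpow_add hmz]; congr 1; ring
    _ ≤ 1 := Real.rpow_le_one_of_one_le_of_nonpos h1 (by linarith)

/-- vertical comparison, general real part. -/
theorem Psi_vert_gen (hf : DifferentiableOn ℂ f KB1.Hs) (hfi : InjOn f KB1.Hs)
    (hu1 : ∀ x, 1 ≤ u0 x) (hu : ∀ x y, |u0 x - u0 y| ≤ ‖x - y‖) (hq : 0 ≤ q) (hη : 0 ≤ η)
    {z w : ℂ} (hz : 0 < z.im) (hzw : z.im ≤ w.im) (h : z.re = w.re) :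
    Psi q η u0 f w ≤ Psi q η u0 f z * (w.im / z.im) ^ (4 * q + 2 * η) ∧
    Psi q η u0 f z ≤ Psi q η u0 f w * (w.im / z.im) ^ (4 * q + 2 * η) := by
  have hw : 0 < w.im := hz.trans_le hzw
  have h0 : KB1.hd z w = Real.log (w.im / z.im) := by
    rw [KB1.hd_vert hz hw h, abs_sub_comm, ← Real.log_div hw.ne' hz.ne',
      abs_of_nonneg (Real.log_nonneg (by rw [le_div_iff₀ hz]; linarith))]
  have h1 := Psi_lip hf hfi hu1 hu hq hη hz hw
  have h2 := Psi_lip hf hfi hu1 hu hq hη hw hz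
  rw [KB1.hd_comm w z] at h2
  have h3 : Real.exp ((4 * q + 2 * η) * KB1.hd z w) = (w.im / z.im) ^ (4 * q + 2 * η) := by
    rw [h0, mul_comm, ← Real.rpow_def_of_pos (by positivity)]
  rw [h3] at h1 h2
  exact ⟨h1, h2⟩

/-- vertical comparison on the imaginary axis, upward. -/
theorem Psi_vert (hf : DifferentiableOn ℂ f KB1.Hs) (hfi : InjOn f KB1.Hs)
    (hu1 : ∀ x, 1 ≤ u0 x) (hu : ∀ x y, |u0 x - u0 y| ≤ ‖x - y‖) (hq : 0 ≤ q) (hη : 0 ≤ η)
    {a b : ℝ} (ha : 0 < a) (hab : a ≤ b) :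
    Psi q η u0 f (b * I) ≤ Psi q η u0 f (a * I) * (b / a) ^ (4 * q + 2 * η) := by
  have h := (Psi_vert_gen (z := a * I) (w := b * I) hf hfi hu1 hu hq hη (by simpa using ha)
    (by simpa using hab) (by simp)).1
  simpa using h

/-- vertical comparison on the imaginary axis, downward. -/
theorem Psi_vert' (hf : DifferentiableOn ℂ f KB1.Hs) (hfi : InjOn f KB1.Hs)
    (hu1 : ∀ x, 1 ≤ u0 x) (hu : ∀ x y, |u0 x - u0 y| ≤ ‖x - y‖) (hq : 0 ≤ q) (hη : 0 ≤ η)
    {a b : ℝ} (ha : 0 < a) (hab : a ≤ b) :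
    Psi q η u0 f (a * I) ≤ Psi q η u0 f (b * I) * (b / a) ^ (4 * q + 2 * η) := by
  have h := (Psi_vert_gen (z := a * I) (w := b * I) hf hfi hu1 hu hq hη (by simpa using ha)
    (by simpa using hab) (by simp)).2
  simpa using h

/-- `∫_{|z| ≥ a} |z|^(-s) = 2π a^(2-s)/(s-2)`, upper bound, for `s > 2`. -/
theorem lintegral_far_rpow {s : ℝ} (hs : 2 < s) {a : ℝ} (ha : 0 < a) :
    ∫⁻ z in {z : ℂ | a ≤ ‖z‖}, ENNReal.ofReal (‖z‖ ^ (-s)) ≤
      ENNReal.ofReal (2 * Real.pi * (a ^ (2 - s) / (s - 2))) := by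
  have hmeas : MeasurableSet {z : ℂ | a ≤ ‖z‖} := measurableSet_le measurable_const measurable_norm
  rw [← lintegral_indicator hmeas, ← Complex.lintegral_comp_polarCoord_symm]
  have h1 : ∀ p ∈ polarCoord.target, ENNReal.ofReal p.1 •
      ({z : ℂ | a ≤ ‖z‖}.indicator (fun z : ℂ => ENNReal.ofReal (‖z‖ ^ (-s)))
        (Complex.polarCoord.symm p)) =
      (Ici a).indicator (fun r : ℝ => ENNReal.ofReal (r ^ (1 - s))) p.1 := by
    intro p hp
    have hp1 : 0 < p.1 := hp.1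
    have hn : ‖Complex.polarCoord.symm p‖ = p.1 := by
      rw [Complex.norm_polarCoord_symm, abs_of_pos hp1]
    by_cases h : a ≤ p.1
    · rw [indicator_of_mem (show Complex.polarCoord.symm p ∈ {z : ℂ | a ≤ ‖z‖} by
        rw [mem_setOf_eq, hn]; exact h), indicator_of_mem (show p.1 ∈ Ici a from h), hn, smul_eq_mul,
        ← ENNReal.ofReal_mul hp1.le]
      congr 1
      rw [show (1 - s) = 1 + (-s) by ring, Real.rpow_add hp1, Real.rpow_one]
    · rw [indicator_of_notMem (show Complex.polarCoord.symm p ∉ {z : ℂ | a ≤ ‖z‖} by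
        rw [mem_setOf_eq, hn]; exact h), indicator_of_notMem (show p.1 ∉ Ici a from h)]
      simp
  rw [setLIntegral_congr_fun polarCoord.open_target.measurableSet h1]
  have hg : Measurable (fun r : ℝ => (Ici a).indicator
      (fun r : ℝ => ENNReal.ofReal (r ^ (1 - s))) r) := by
    apply Measurable.indicator _ measurableSet_Ici
    fun_prop
  have htar : polarCoord.target = Ioi (0:ℝ) ×ˢ Ioo (-Real.pi) Real.pi := rfl
  rw [htar, Measure.volume_eq_prod, ← Measure.prod_restrict]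
  rw [lintegral_prod (fun x : ℝ × ℝ => (Ici a).indicator
    (fun r : ℝ => ENNReal.ofReal (r ^ (1 - s))) x.1) (hg.comp measurable_fst).aemeasurable]
  simp only [lintegral_const, Measure.restrict_apply MeasurableSet.univ, univ_inter,
    Real.volume_Ioo]
  rw [lintegral_mul_const _ hg]
  have h2 : ∫⁻ r in Ioi (0:ℝ), (Ici a).indicator (fun r : ℝ => ENNReal.ofReal (r ^ (1 - s))) r =
      ENNReal.ofReal (a ^ (2 - s) / (s - 2)) := by
    rw [lintegral_indicator measurableSet_Ici, Measure.restrict_restrict measurableSet_Ici]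
    have hset : Ici a ∩ Ioi 0 = Ici a := by
      ext x; simp only [mem_inter_iff, mem_Ici, mem_Ioi, and_iff_left_iff_imp]
      intro h; linarith
    rw [hset, setLIntegral_congr Ioi_ae_eq_Ici.symm,
      ← ofReal_integral_eq_lintegral_ofReal]
    · congr 1
      rw [integral_Ioi_rpow_of_lt (by linarith) ha]
      rw [show 1 - s + 1 = -(s - 2) by ring, show -(s-2) = 2 - s by ring]
      rw [show (2 - s) = -(s - 2) by ring, neg_div_neg_eq]
    · exact integrableOn_Ioi_rpow_of_lt (by linarith) ha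
    · filter_upwards [ae_restrict_mem measurableSet_Ioi] with x hx
      have : 0 < x := ha.trans hx
      positivity
  rw [h2, ← ENNReal.ofReal_mul (by
    have : 0 < s - 2 := by linarith
    positivity)]
  apply ENNReal.ofReal_le_ofReal
  apply le_of_eq
  ring

/-- the radial integral of LB3c: constant `C = 4π/3`. -/
theorem lintegral_far {ρ : ℝ} (hρ : 0 < ρ) :
    ∫⁻ z in {z : ℂ | 7 * ρ ≤ ‖z‖}, ENNReal.ofReal (‖z‖ ^ (-(7 / 2) : ℝ)) ≤
      ENNReal.ofReal (4 * Real.pi / 3 * ρ ^ (-(3 / 2) : ℝ)) := by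
  refine (lintegral_far_rpow (by norm_num) (by positivity)).trans ?_
  apply ENNReal.ofReal_le_ofReal
  have h1 : (7 * ρ) ^ (2 - 7 / 2 : ℝ) ≤ ρ ^ (-(3 / 2) : ℝ) := by
    rw [show (2 - 7 / 2 : ℝ) = -(3/2) by norm_num]
    exact Real.rpow_le_rpow_of_nonpos hρ (by linarith) (by norm_num)
  have h2 : (2 * Real.pi * ((7 * ρ) ^ (2 - 7 / 2 : ℝ) / (7 / 2 - 2))) =
      4 * Real.pi / 3 * (7 * ρ) ^ (2 - 7 / 2 : ℝ) := by ring
  rw [h2]
  have := Real.pi_pos
  gcongr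

end Crest.Agent.R162.LB3c
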