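import Crest.Agent.R162.FLC3
import Crest.Agent.R162.FLB
import Crest.Agent.R162.KB1H

/-!
Row 162 (S0243), node LB3c, part C: near dichotomy. A point `z` alive at time `s` with
`S_s(z) ≥ c₁` and `Υ ≤ 2 ε` is within `Kc c₁ * ε` (physical distance) of the point
`f (ffl W s (i |Z_s(z)|))` of the geodesic.
-/

set_option autoImplicit false

open Set

namespace Crest.Agent.R162.LB3cC

open Crest.Agent.R162.FL Crest.Agent.R162

/-- constant of `near_point` -/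
noncomputable def Kc (c1 : ℝ) : ℝ := Real.exp (4 / Real.sqrt c1) - 1

theorem Kc_nonneg (c1 : ℝ) : 0 ≤ Kc c1 := by
  unfold Kc
  have : 1 ≤ Real.exp (4 / Real.sqrt c1) := Real.one_le_exp (by positivity)
  linarith

section comp

variable {f : ℂ → ℂ} {W : ℝ → ℝ} {s : ℝ}

theorem mapsTo_ffl (hW : ContinuousOn W (Ici 0)) (hs : 0 ≤ s) : MapsTo (ffl W s) KB1.Hs KB1.Hs :=
  fun _ hz => FLC.ffl_im_pos hW hs hz

/-- the state map at time `s` is holomorphic -/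
theorem differentiableOn_comp_ffl (hf : DifferentiableOn ℂ f KB1.Hs) (hW : ContinuousOn W (Ici 0))
    (hs : 0 ≤ s) : DifferentiableOn ℂ (f ∘ ffl W s) KB1.Hs :=
  hf.comp (FLC.differentiableOn_ffl hW hs) (mapsTo_ffl hW hs)

/-- the state map at time `s` is injective -/
theorem injOn_comp_ffl (hfi : InjOn f KB1.Hs) (hW : ContinuousOn W (Ici 0))
    (hs : 0 ≤ s) : InjOn (f ∘ ffl W s) KB1.Hs :=
  hfi.comp (FLC.injOn_ffl hW hs) (mapsTo_ffl hW hs)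

/-- chain rule for `Υ`: `Υ_{f ∘ F_s}(Z) = |f'(F_s Z)| Υ_{F_s}(Z)` -/
theorem ups_comp_ffl (hf : DifferentiableOn ℂ f KB1.Hs) (hW : ContinuousOn W (Ici 0))
    (hs : 0 ≤ s) {Z : ℂ} (hZ : 0 < Z.im) :
    KB1.ups (f ∘ ffl W s) Z = ‖deriv f (ffl W s Z)‖ * OP.ups W s (ffl W s Z) := by
  have h1 : DifferentiableAt ℂ f (ffl W s Z) :=
    hf.differentiableAt (KB1.isOpen_Hs.mem_nhds (FLC.ffl_im_pos hW hs hZ))
  have h2 : DifferentiableAt ℂ (ffl W s) Z :=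
    (FLC.differentiableOn_ffl hW hs).differentiableAt (KB1.isOpen_Hs.mem_nhds hZ)
  rw [KB1.ups, deriv_comp Z h1 h2, norm_mul, FLC.ups_ffl hW hs hZ]
  ring

/-- the same at an alive point `z = F_s (Z_s z)` -/
theorem ups_comp_Zfl (hf : DifferentiableOn ℂ f KB1.Hs) (hW : ContinuousOn W (Ici 0))
    {z : ℂ} (h : Alive W z s) :
    KB1.ups (f ∘ ffl W s) (Zfl W s z) = ‖deriv f z‖ * OP.ups W s z := by
  rw [ups_comp_ffl hf hW h.nonneg (Zfl_im_pos h), FLC.ffl_Zfl hW h]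

end comp

/-- `hd (Z, i|Z|) ≤ 2 / √c` if `Im Z ≥ c |Z|` -/
theorem hd_axis_le {Z : ℂ} (hZ : 0 < Z.im) {c : ℝ} (hc : 0 < c) (hS : c ≤ Z.im / ‖Z‖) :
    KB1.hd Z ((‖Z‖ : ℝ) * Complex.I) ≤ 2 / Real.sqrt c := by
  have hn : 0 < ‖Z‖ := norm_pos_iff.2 (by rintro rfl; simp at hZ)
  have him : (((‖Z‖ : ℝ) : ℂ) * Complex.I).im = ‖Z‖ := by simp
  have hpos : 0 < (((‖Z‖ : ℝ) : ℂ) * Complex.I).im := by rw [him]; exact hn
  refine (KB1.hd_le_div hZ hpos).trans ?_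
  rw [him]
  have h1 : ‖Z - ((‖Z‖ : ℝ) : ℂ) * Complex.I‖ ≤ 2 * ‖Z‖ := by
    refine (norm_sub_le _ _).trans ?_
    rw [norm_mul, Complex.norm_I, mul_one, Complex.norm_real, Real.norm_of_nonneg hn.le]
    linarith
  have h2 : Real.sqrt c * ‖Z‖ ≤ Real.sqrt (Z.im * ‖Z‖) := by
    apply Real.le_sqrt_of_sq_le
    rw [mul_pow, Real.sq_sqrt hc.le]
    have := (le_div_iff₀ hn).1 hS
    nlinarith
  have hsc : 0 < Real.sqrt c := Real.sqrt_pos.2 hc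
  rw [div_le_div_iff₀ (Real.sqrt_pos.2 (by positivity)) hsc]
  nlinarith [mul_le_mul_of_nonneg_right h1 hsc.le]

/-- **near point**: what carries content is near the geodesic -/
theorem near_point {f : ℂ → ℂ} {W : ℝ → ℝ} {z : ℂ} {s : ℝ} (hf : DifferentiableOn ℂ f KB1.Hs)
    (hfi : InjOn f KB1.Hs) (hW : ContinuousOn W (Ici 0)) (h : Alive W z s) {c1 ε : ℝ} (hc1 : 0 < c1)
    (hS : c1 ≤ OP.sfl W s z) (hU : ‖deriv f z‖ * OP.ups W s z ≤ 2 * ε) :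
    ‖f z - f (ffl W s ((‖Zfl W s z‖ : ℝ) * Complex.I))‖ ≤ Kc c1 * ε := by
  set Z := Zfl W s z with hZdef
  have hZ : 0 < Z.im := Zfl_im_pos h
  have hn : 0 < ‖Z‖ := norm_pos_iff.2 (by intro h0; rw [h0] at hZ; simp at hZ)
  have him : (((‖Z‖ : ℝ) : ℂ) * Complex.I).im = ‖Z‖ := by simp
  have hpos : 0 < (((‖Z‖ : ℝ) : ℂ) * Complex.I).im := by rw [him]; exact hn
  have hF := differentiableOn_comp_ffl hf hW h.nonneg
  have hFi := injOn_comp_ffl hfi hW h.nonneg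
  have h1 := KB1.norm_sub_le_exp hF hFi hZ hpos
  have h2 : KB1.ups (f ∘ ffl W s) Z ≤ 2 * ε := by rw [ups_comp_Zfl hf hW h]; exact hU
  have h3 : KB1.hd Z ((‖Z‖ : ℝ) * Complex.I) ≤ 2 / Real.sqrt c1 := hd_axis_le hZ hc1 hS
  have h4 : f z = (f ∘ ffl W s) Z := by
    simp only [Function.comp, hZdef, FLC.ffl_Zfl hW h]
  rw [h4, norm_sub_rev]
  have h5 : Real.exp (2 * KB1.hd Z ((‖Z‖ : ℝ) * Complex.I)) ≤ Real.exp (4 / Real.sqrt c1) := by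
    apply Real.exp_le_exp.2
    have : 4 / Real.sqrt c1 = 2 * (2 / Real.sqrt c1) := by ring
    rw [this]; linarith
  have h6 : 0 ≤ KB1.ups (f ∘ ffl W s) Z := (KB1.ups_pos hF hFi hZ).le
  have h7 : 1 ≤ Real.exp (2 * KB1.hd Z ((‖Z‖ : ℝ) * Complex.I)) :=
    Real.one_le_exp (by have := KB1.hd_nonneg Z ((‖Z‖ : ℝ) * Complex.I); linarith)
  calc _ ≤ KB1.ups (f ∘ ffl W s) Z * ((Real.exp (2 * KB1.hd Z ((‖Z‖ : ℝ) * Complex.I)) - 1) / 2) := h1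
    _ ≤ (2 * ε) * ((Real.exp (4 / Real.sqrt c1) - 1) / 2) := by
        apply mul_le_mul h2 (by linarith) (by linarith) (h6.trans h2)
    _ = Kc c1 * ε := by unfold Kc; ring

/-- what carries content with `|Z| ≤ Y` is in the ball `ball x (u/4)` if the geodesic piece `(0, iY]`
is in `closedBall x (u/8)` -/
theorem near_mem {f : ℂ → ℂ} {W : ℝ → ℝ} {z : ℂ} {s : ℝ} (hf : DifferentiableOn ℂ f KB1.Hs)
    (hfi : InjOn f KB1.Hs) (hW : ContinuousOn W (Ici 0)) (h : Alive W z s) {c1 ε : ℝ} (hc1 : 0 < c1)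
    (hS : c1 ≤ OP.sfl W s z) (hU : ‖deriv f z‖ * OP.ups W s z ≤ 2 * ε) {x : ℂ} {u Y : ℝ}
    (hgeo : ∀ y : ℝ, 0 < y → y ≤ Y → ‖f (ffl W s (y * Complex.I)) - x‖ ≤ u / 8)
    (hZY : ‖Zfl W s z‖ ≤ Y) (hK : Kc c1 * ε < u / 8) :
    f z ∈ Metric.ball x (u / 4) := by
  have hZ : 0 < (Zfl W s z).im := Zfl_im_pos h
  have hn : 0 < ‖Zfl W s z‖ := norm_pos_iff.2 (by intro h0; rw [h0] at hZ; simp at hZ)
  have h1 := near_point hf hfi hW h hc1 hS hU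
  have h2 := hgeo _ hn hZY
  rw [Metric.mem_ball, dist_eq_norm]
  calc ‖f z - x‖ = ‖(f z - f (ffl W s ((‖Zfl W s z‖ : ℝ) * Complex.I)))
        + (f (ffl W s ((‖Zfl W s z‖ : ℝ) * Complex.I)) - x)‖ := by congr 1; ring
    _ ≤ ‖f z - f (ffl W s ((‖Zfl W s z‖ : ℝ) * Complex.I))‖
        + ‖f (ffl W s ((‖Zfl W s z‖ : ℝ) * Complex.I)) - x‖ := norm_add_le _ _
    _ < u / 4 := by linarith

/-- contrapositive form: content outside `ball x (u/4)` is carried by `|Z| > Y` -/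
theorem far_of_not_near {f : ℂ → ℂ} {W : ℝ → ℝ} {z : ℂ} {s : ℝ} (hf : DifferentiableOn ℂ f KB1.Hs)
    (hfi : InjOn f KB1.Hs) (hW : ContinuousOn W (Ici 0)) (h : Alive W z s) {c1 ε : ℝ} (hc1 : 0 < c1)
    (hS : c1 ≤ OP.sfl W s z) (hU : ‖deriv f z‖ * OP.ups W s z ≤ 2 * ε) {x : ℂ} {u Y : ℝ}
    (hgeo : ∀ y : ℝ, 0 < y → y ≤ Y → ‖f (ffl W s (y * Complex.I)) - x‖ ≤ u / 8)
    (hK : Kc c1 * ε < u / 8) (hfz : f z ∉ Metric.ball x (u / 4)) : Y < ‖Zfl W s z‖ := by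
  by_contra hcon
  exact hfz (near_mem hf hfi hW h hc1 hS hU hgeo (not_lt.1 hcon) hK)

end Crest.Agent.R162.LB3cC
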