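import Mathlib
import Crest.Agent.R162.FLB
import Crest.Agent.R162.KB1H

/-!
Row 162 (S0243), node LB3c, part D (helper790): polar-free comparison with the axis.
-/

set_option autoImplicit false

open Set MeasureTheory Filter
open scoped ENNReal

namespace Crest.Agent.R162.LB3c

open Crest.Agent.R162.FL Crest.Agent.R162

variable {W : ℝ → ℝ} {z : ℂ} {s ρ c : ℝ}

/-- hyperbolic distance of `z` to the point `i|z|` of the imaginary axis. -/
theorem hd_I_far (hz : 0 < z.im) (hc : 0 < c) (h : c ≤ z.im / ‖z‖) :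
    KB1.hd z ((‖z‖ : ℝ) * Complex.I) ≤ 2 / √c := by
  have hn : 0 < ‖z‖ := norm_pos_iff.2 (fun h0 => by rw [h0] at hz; simp at hz)
  have him : (((‖z‖ : ℝ) : ℂ) * Complex.I).im = ‖z‖ := by simp
  have hw : 0 < (((‖z‖ : ℝ) : ℂ) * Complex.I).im := by rw [him]; exact hn
  refine (KB1.hd_le_div hz hw).trans ?_
  rw [him]
  have h1 : c * ‖z‖ ≤ z.im := (le_div_iff₀ hn).1 h
  have h2 : √c * ‖z‖ ≤ √(z.im * ‖z‖) := by
    have : √c * ‖z‖ = √(c * ‖z‖ * ‖z‖) := by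
      rw [mul_assoc, Real.sqrt_mul hc.le, Real.sqrt_mul_self hn.le]
    rw [this]
    exact Real.sqrt_le_sqrt (by gcongr)
  have h3 : ‖z - ((‖z‖ : ℝ) : ℂ) * Complex.I‖ ≤ 2 * ‖z‖ := by
    refine (norm_sub_le _ _).trans ?_
    simp [two_mul]
  have hsc : 0 < √c := Real.sqrt_pos.2 hc
  calc ‖z - ((‖z‖ : ℝ) : ℂ) * Complex.I‖ / √(z.im * ‖z‖) ≤ 2 * ‖z‖ / (√c * ‖z‖) := by
        gcongr
    _ = 2 / √c := by field_simp

/-- the same with the points exchanged. -/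
theorem hd_I_far' (hz : 0 < z.im) (hc : 0 < c) (h : c ≤ z.im / ‖z‖) :
    KB1.hd ((‖z‖ : ℝ) * Complex.I) z ≤ 2 / √c := by
  rw [KB1.hd_comm]; exact hd_I_far hz hc h

/-- far points: the initial sine is at least half of the sine at time `s`. -/
theorem sfl_far (hρ : 0 < ρ) (h : Alive W z s) (hfar : 10 * ρ ≤ ‖Zfl W s z‖)
    (hclose : ‖Zfl W s z - z‖ ≤ 13 / 10 * ρ) {c1 : ℝ} (hc : c1 ≤ OP.sfl W s z) :
    c1 / 2 ≤ z.im / ‖z‖ := by
  have hz := h.im_pos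
  have hn : 0 < ‖z‖ := norm_pos_iff.2 (fun h0 => by rw [h0] at hz; simp at hz)
  have hN : 0 < ‖Zfl W s z‖ := by linarith
  have him : (Zfl W s z).im ≤ z.im := by
    rw [Zfl_im]; exact im_anti' h
  rw [le_div_iff₀ hn]
  have h1 : c1 * ‖Zfl W s z‖ ≤ (Zfl W s z).im := by
    exact (le_div_iff₀ hN).1 hc
  have h2 : ‖z‖ ≤ ‖Zfl W s z‖ + 13 / 10 * ρ := by
    have : z = Zfl W s z - (Zfl W s z - z) := by ring
    calc ‖z‖ = ‖Zfl W s z - (Zfl W s z - z)‖ := by rw [← this]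
      _ ≤ ‖Zfl W s z‖ + ‖Zfl W s z - z‖ := norm_sub_le _ _
      _ ≤ _ := by linarith
  rcases le_or_gt c1 0 with hc0 | hc0
  · nlinarith
  · nlinarith

end Crest.Agent.R162.LB3c
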