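import Mathlib
import Crest.Agent.R162.LB3c
import Crest.Agent.R162.LB3cB

/-!
Row 162, node LB3c (helper868): the FAR content lemma, pointwise bound and integral form.
-/

set_option autoImplicit false

open Set MeasureTheory Filter
open scoped ENNReal

namespace Crest.Agent.R162.LB3c

open Crest.Agent.R162.FL Crest.Agent.R162

/-- abstract pointwise bound: all geometric inputs are real numbers. -/
theorem far_real {κ ε q c V Y d n N Ψ P : ℝ} (hκ : 0 < κ) (hκ8 : κ < 8) (hε : 0 < ε) (hε1 : ε ≤ 1)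
    (hq1 : q ≤ 1) (hc : 0 < c) (hn : 0 < n) (hY : c * n ≤ Y)
    (hd : 0 ≤ d) (hU : Y * d ≤ 3 * ε) (hV : ε ≤ V) (hN : 4 / 5 * n ≤ N)
    (hΨ : ε ^ q ≤ P * Ψ) :
    d ^ 2 * (V ^ (κ / 8 - 1) * (4 / N ^ 2)) ≤
      225 / 4 / c ^ 2 * (P * Ψ) / n ^ 4 := by
  have hYpos : 0 < Y := lt_of_lt_of_le (by positivity) hY
  have hVpos : 0 < V := lt_of_lt_of_le hε hV
  have hNpos : 0 < N := lt_of_lt_of_le (by positivity) hN
  have h1 : V ^ (κ / 8 - 1) ≤ ε ^ (κ / 8 - 1) :=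
    Real.rpow_le_rpow_of_nonpos hε hV (by linarith)
  have h2 : d ≤ 3 * ε / (c * n) := by
    rw [le_div_iff₀ (by positivity)]
    calc d * (c * n) ≤ d * Y := by gcongr
      _ = Y * d := by ring
      _ ≤ 3 * ε := hU
  have h3 : 4 / N ^ 2 ≤ 4 / (4 / 5 * n) ^ 2 := by gcongr
  have h4 : d ^ 2 * (V ^ (κ / 8 - 1) * (4 / N ^ 2)) ≤
      (3 * ε / (c * n)) ^ 2 * (ε ^ (κ / 8 - 1) * (4 / (4 / 5 * n) ^ 2)) := by
    gcongr
  have h5 : (3 * ε / (c * n)) ^ 2 * (ε ^ (κ / 8 - 1) * (4 / (4 / 5 * n) ^ 2)) =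
      225 / 4 / c ^ 2 * (ε ^ 2 * ε ^ (κ / 8 - 1)) / n ^ 4 := by
    field_simp
    ring
  have h6 : ε ^ 2 * ε ^ (κ / 8 - 1) ≤ ε ^ q := by
    rw [← Real.rpow_natCast ε 2, ← Real.rpow_add hε]
    apply Real.rpow_le_rpow_of_exponent_ge hε hε1
    push_cast; linarith
  calc d ^ 2 * (V ^ (κ / 8 - 1) * (4 / N ^ 2))
      ≤ 225 / 4 / c ^ 2 * (ε ^ 2 * ε ^ (κ / 8 - 1)) / n ^ 4 := h4.trans h5.le
    _ ≤ 225 / 4 / c ^ 2 * (P * Ψ) / n ^ 4 := by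
        have := h6.trans hΨ
        gcongr

/-- geometry of a far point `z` at a time `s` where it collects content. -/
theorem far_geom {W : ℝ → ℝ} {z : ℂ} {s ρ c₁ : ℝ} (hW : ContinuousOn W (Ici 0))
    (h : Alive W z s) (hρ : 0 < ρ) (hsρ : s ≤ ρ ^ 2) (hWρ : ∀ r ∈ Icc 0 s, |W r| ≤ ρ)
    (hfar : 10 * ρ ≤ ‖Zfl W s z‖) (hc₁ : 0 < c₁) (hS : c₁ ≤ OP.sfl W s z) :
    7 * ρ ≤ ‖z‖ ∧ 4 / 5 * ‖z‖ ≤ ‖Zfl W s z‖ ∧ c₁ / 2 * ‖z‖ ≤ z.im ∧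
      OP.ups W s z ≤ z.im ∧ z.im ≤ 6 / 5 * OP.ups W s z := by
  have hz := h.im_pos
  have h7 := far_seven hW h hρ hsρ hWρ hfar 0 ⟨le_rfl, h.nonneg⟩
  have hcl := far_close hW h hρ hsρ hWρ hfar
  have hcl' : ‖z - Zfl W s z‖ ≤ 13 / 10 * ρ := by rwa [norm_sub_rev]
  have hup := far_ups hW h hρ hsρ hWρ hfar
  have hule := ups_le_im hW h
  have hZz : ‖Zfl W s z‖ ≤ ‖z‖ + 13 / 10 * ρ := by
    have := norm_le_norm_add_norm_sub' (Zfl W s z) z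
    linarith
  have hzZ : ‖z‖ ≤ ‖Zfl W s z‖ + 13 / 10 * ρ := by
    have := norm_le_norm_add_norm_sub' z (Zfl W s z)
    linarith
  have hn7 : 7 * ρ ≤ ‖z‖ := by linarith
  have h45 : 4 / 5 * ‖z‖ ≤ ‖Zfl W s z‖ := by linarith
  have hZpos : 0 < ‖Zfl W s z‖ := by linarith
  have him : (Zfl W s z).im ≤ z.im := by rw [Zfl_im]; exact im_anti' h
  have hS' : c₁ * ‖Zfl W s z‖ ≤ (Zfl W s z).im := by
    have := hS
    rw [OP.sfl, le_div_iff₀ hZpos] at this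
    exact this
  refine ⟨hn7, h45, ?_, hule, ?_⟩
  · have : c₁ * (4 / 5 * ‖z‖) ≤ c₁ * ‖Zfl W s z‖ := by gcongr
    nlinarith [norm_nonneg z]
  · have he : (5 / 6 : ℝ) ≤ Real.exp (-(4 / 49)) := by
      have := Real.add_one_le_exp (-(4 / 49) : ℝ)
      linarith
    have : z.im * (5 / 6) ≤ OP.ups W s z := le_trans (by gcongr) hup
    linarith


theorem hd_I {z : ℂ} (hz : 0 < z.im) {c : ℝ} (hc : 0 < c) (hS : c * ‖z‖ ≤ z.im) :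
    KB1.hd (((‖z‖ : ℝ) : ℂ) * Complex.I) z ≤ 2 / Real.sqrt c := by
  have hn : 0 < ‖z‖ := norm_pos_iff.2 (by rintro rfl; simp at hz)
  have him : ((((‖z‖ : ℝ) : ℂ) * Complex.I)).im = ‖z‖ := by simp
  have hpos : 0 < ((((‖z‖ : ℝ) : ℂ) * Complex.I)).im := by rw [him]; exact hn
  have h := KB1.hd_le_div hpos hz
  rw [him] at h
  have h2 : ‖((‖z‖ : ℝ) : ℂ) * Complex.I - z‖ ≤ 2 * ‖z‖ := by
    calc _ ≤ ‖((‖z‖ : ℝ) : ℂ) * Complex.I‖ + ‖z‖ := norm_sub_le _ _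
      _ = 2 * ‖z‖ := by rw [norm_mul, Complex.norm_I, Complex.norm_real, norm_norm]; ring
  have h3 : Real.sqrt c * ‖z‖ ≤ Real.sqrt (‖z‖ * z.im) := by
    apply Real.le_sqrt_of_sq_le
    rw [mul_pow, Real.sq_sqrt hc.le]
    nlinarith
  have hsc : 0 < Real.sqrt c := Real.sqrt_pos.2 hc
  calc KB1.hd _ z ≤ ‖((‖z‖ : ℝ) : ℂ) * Complex.I - z‖ / Real.sqrt (‖z‖ * z.im) := h
    _ ≤ 2 * ‖z‖ / (Real.sqrt c * ‖z‖) := by gcongr
    _ = 2 / Real.sqrt c := by field_simp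

/-- a far point in a channel of width `ε` inside `B` forces `Psi (10 ρ i)` to be `≳ ε^q`. -/
theorem far_psi {f : ℂ → ℂ} {u0 : ℂ → ℝ} {q η : ℝ} (hf : DifferentiableOn ℂ f KB1.Hs)
    (hfi : InjOn f KB1.Hs) (hu1 : ∀ x, 1 ≤ u0 x) (hu : ∀ x y, |u0 x - u0 y| ≤ ‖x - y‖)
    (hq : 0 ≤ q) (hη : 0 ≤ η) (hqη : 4 * q + 2 * η ≤ 1 / 2) {ρ : ℝ} (hρ : 0 < ρ) {z : ℂ}
    (hz : 0 < z.im) {c : ℝ} (hc : 0 < c) (hS : c * ‖z‖ ≤ z.im) (h7 : 7 * ρ ≤ ‖z‖) {ε : ℝ}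
    (hε : 0 < ε) (hε1 : ε ≤ 1) (h1 : ε ≤ KB1.ups f z) (h2 : KB1.ups f z ≤ 3 * ε)
    (h0 : u0 (f z) ≤ 1) :
    ε ^ q ≤ 3 ^ (q + η) * Real.exp (1 / Real.sqrt c) * (‖z‖ / ρ) ^ (1 / 2 : ℝ) *
      Psi q η u0 f (((10 * ρ : ℝ) : ℂ) * Complex.I) := by
  have hn : 0 < ‖z‖ := norm_pos_iff.2 (by rintro rfl; simp at hz)
  have hup : 0 < KB1.ups f z := hε.trans_le h1
  have hmm : mm u0 f z ≤ 3 := by
    apply max_le
    · linarith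
    · linarith
  have hmpos := mm_pos (f := f) hu1 z
  -- lower bound of Psi z
  have hA : ε ^ q * 3 ^ (-q - η) ≤ Psi q η u0 f z := by
    unfold Psi
    have e1 : ε ^ q ≤ KB1.ups f z ^ q := Real.rpow_le_rpow hε.le h1 hq
    have e2 : (3:ℝ) ^ (-q - η) ≤ mm u0 f z ^ (-q - η) :=
      Real.rpow_le_rpow_of_nonpos hmpos hmm (by linarith)
    gcongr
  -- to the axis
  have hpos : 0 < ((((‖z‖ : ℝ) : ℂ) * Complex.I)).im := by simpa using hn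
  have hB := Psi_lip (q := q) (η := η) hf hfi hu1 hu hq hη hpos hz
  have hhd := hd_I hz hc hS
  have hhd0 := KB1.hd_nonneg (((‖z‖ : ℝ) : ℂ) * Complex.I) z
  have hsc : 0 < Real.sqrt c := Real.sqrt_pos.2 hc
  have hexp : Real.exp ((4 * q + 2 * η) * KB1.hd (((‖z‖ : ℝ) : ℂ) * Complex.I) z) ≤
      Real.exp (1 / Real.sqrt c) := by
    apply Real.exp_le_exp.2
    calc (4 * q + 2 * η) * KB1.hd (((‖z‖ : ℝ) : ℂ) * Complex.I) z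
        ≤ 1 / 2 * (2 / Real.sqrt c) := by gcongr
      _ = 1 / Real.sqrt c := by ring
  have hP0 := Psi_pos (q := q) (η := η) hf hfi hu1 hpos
  -- along the axis
  have hC : Psi q η u0 f (((‖z‖ : ℝ) : ℂ) * Complex.I) ≤
      Psi q η u0 f (((10 * ρ : ℝ) : ℂ) * Complex.I) * (‖z‖ / ρ) ^ (1 / 2 : ℝ) := by
    have h10 : 0 < 10 * ρ := by positivity
    have hpos10 : 0 < ((((10 * ρ : ℝ) : ℂ) * Complex.I)).im := by simpa using h10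
    have hP10 := Psi_pos (q := q) (η := η) hf hfi hu1 hpos10
    have hr1 : 1 ≤ ‖z‖ / ρ := by rw [le_div_iff₀ hρ]; linarith
    have key : ∀ x : ℝ, 0 < x → 1 ≤ x → x ≤ ‖z‖ / ρ → x ^ (4 * q + 2 * η) ≤
        (‖z‖ / ρ) ^ (1 / 2 : ℝ) := by
      intro x hx0 hx1 hx
      calc x ^ (4 * q + 2 * η) ≤ x ^ (1 / 2 : ℝ) := Real.rpow_le_rpow_of_exponent_le hx1 hqη
        _ ≤ (‖z‖ / ρ) ^ (1 / 2 : ℝ) := Real.rpow_le_rpow hx0.le hx (by norm_num)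
    rcases le_total (10 * ρ) ‖z‖ with hle | hle
    · have h := Psi_vert (q := q) (η := η) hf hfi hu1 hu hq hη h10 hle
      refine h.trans ?_
      have hx : ‖z‖ / (10 * ρ) ≤ ‖z‖ / ρ := by
        apply div_le_div_of_nonneg_left hn.le hρ; linarith
      have := key (‖z‖ / (10 * ρ)) (by positivity) (by rw [le_div_iff₀ h10]; linarith) hx
      gcongr
    · have h := Psi_vert' (q := q) (η := η) hf hfi hu1 hu hq hη hn hle
      refine h.trans ?_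
      have hx : 10 * ρ / ‖z‖ ≤ ‖z‖ / ρ := by
        rw [div_le_div_iff₀ hn hρ]; nlinarith
      have := key (10 * ρ / ‖z‖) (by positivity) (by rw [le_div_iff₀ hn]; linarith) hx
      gcongr
  have h3 : (3:ℝ) ^ (q + η) * 3 ^ (-q - η) = 1 := by
    rw [← Real.rpow_add (by norm_num)]; norm_num
  calc ε ^ q = (3:ℝ) ^ (q + η) * (ε ^ q * 3 ^ (-q - η)) := by
        rw [show (3:ℝ) ^ (q + η) * (ε ^ q * 3 ^ (-q - η)) =
          ε ^ q * ((3:ℝ) ^ (q + η) * 3 ^ (-q - η)) by ring, h3, mul_one]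
    _ ≤ (3:ℝ) ^ (q + η) * (Psi q η u0 f (((‖z‖ : ℝ) : ℂ) * Complex.I) *
          Real.exp (1 / Real.sqrt c)) := by
        exact mul_le_mul_of_nonneg_left
          (hA.trans (hB.trans (mul_le_mul_of_nonneg_left hexp hP0.le))) (by positivity)
    _ ≤ (3:ℝ) ^ (q + η) * ((Psi q η u0 f (((10 * ρ : ℝ) : ℂ) * Complex.I) *
          (‖z‖ / ρ) ^ (1 / 2 : ℝ)) * Real.exp (1 / Real.sqrt c)) := by gcongr
    _ = _ := by ring


/-- the constant of the far content lemma. -/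
noncomputable def Kfar (Kχ c₁ q η : ℝ) : ℝ :=
  Kχ * (225 / 4 / (c₁ / 2) ^ 2) * (3 ^ (q + η) * Real.exp (1 / Real.sqrt (c₁ / 2))) *
    (4 * Real.pi / 3)

theorem Kfar_nonneg {Kχ c₁ q η : ℝ} (hK : 0 ≤ Kχ) (hc₁ : 0 < c₁) : 0 ≤ Kfar Kχ c₁ q η := by
  unfold Kfar; positivity

/-- **FAR content lemma**, abstract in the rate. -/
theorem far_content {κ : ℝ} (hκ : 0 < κ) (hκ8 : κ < 8) {c₁ : ℝ} (hc₁ : 0 < c₁) {q η : ℝ}
    (hq : 0 ≤ q) (hη : 0 ≤ η) (hqη : 4 * q + 2 * η ≤ 1 / 2) {Kχ : ℝ} (hK : 0 ≤ Kχ)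
    {f : ℂ → ℂ} {u0 : ℂ → ℝ} (hf : DifferentiableOn ℂ f KB1.Hs) (hfi : InjOn f KB1.Hs)
    (hu1 : ∀ x, 1 ≤ u0 x) (hu : ∀ x y, |u0 x - u0 y| ≤ ‖x - y‖) {W : ℝ → ℝ}
    (hW : ContinuousOn W (Ici 0)) {ρ T : ℝ} (hρ : 0 < ρ) (hT : T ≤ ρ ^ 2)
    (hWρ : ∀ r ∈ Icc 0 T, |W r| ≤ ρ) {ε : ℝ} (hε : 0 < ε) (hε1 : ε ≤ 1)
    {rate : ℝ → ℂ → ℝ}
    (hrate : ∀ s ∈ Icc 0 T, ∀ z, rate s z ≤
      Kχ * ((‖deriv f z‖ * OP.ups W s z) ^ (κ / 8 - 1) * (4 / ‖Zfl W s z‖ ^ 2)))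
    (hsupp : ∀ s ∈ Icc 0 T, ∀ z, 0 < rate s z → Alive W z s ∧ c₁ ≤ OP.sfl W s z ∧
      ε ≤ ‖deriv f z‖ * OP.ups W s z ∧ ‖deriv f z‖ * OP.ups W s z ≤ 2 * ε)
    {E : Set ℂ} (hE : ∀ z ∈ E, u0 (f z) ≤ 1)
    (hfar : ∀ z ∈ E, ∀ s ∈ Icc 0 T, 0 < rate s z → 10 * ρ ≤ ‖Zfl W s z‖) :
    ∫⁻ z in E, (∫⁻ s in Icc 0 T, ENNReal.ofReal (rate s z)) * ENNReal.ofReal (‖deriv f z‖ ^ 2) ≤
      ENNReal.ofReal (Kfar Kχ c₁ q η * Psi q η u0 f (((10 * ρ : ℝ) : ℂ) * Complex.I)) := by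
  set Ψ := Psi q η u0 f (((10 * ρ : ℝ) : ℂ) * Complex.I) with hΨdef
  have hΨ0 : 0 < Ψ := by
    apply Psi_pos hf hfi hu1
    simpa using hρ
  set c := c₁ / 2 with hcdef
  have hc : 0 < c := by positivity
  set A := Kχ * (225 / 4 / c ^ 2) * (3 ^ (q + η) * Real.exp (1 / Real.sqrt c)) with hA
  have hA0 : 0 ≤ A := by positivity
  -- pointwise bound
  have hpt : ∀ z ∈ E, ∀ s ∈ Icc 0 T, 0 < rate s z → 7 * ρ ≤ ‖z‖ ∧
      rate s z * ‖deriv f z‖ ^ 2 ≤ A * Ψ * ρ ^ (-(1 / 2) : ℝ) * ‖z‖ ^ (-(7 / 2) : ℝ) := by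
    intro z hz s hs hpos
    obtain ⟨hal, hS, hV1, hV2⟩ := hsupp s hs z hpos
    have hWs : ∀ r ∈ Icc 0 s, |W r| ≤ ρ := fun r hr => hWρ r ⟨hr.1, hr.2.trans hs.2⟩
    obtain ⟨h7, h45, him, hule, hlu⟩ :=
      far_geom hW hal hρ (hs.2.trans hT) hWs (hfar z hz s hs hpos) hc₁ hS
    have hzim := hal.im_pos
    have hn : 0 < ‖z‖ := by linarith
    have hd0 : 0 ≤ ‖deriv f z‖ := norm_nonneg _
    have hu1' : ε ≤ KB1.ups f z := by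
      refine hV1.trans ?_
      rw [KB1.ups, mul_comm]; gcongr
    have hu2' : KB1.ups f z ≤ 3 * ε := by
      rw [KB1.ups]
      calc z.im * ‖deriv f z‖ ≤ 6 / 5 * OP.ups W s z * ‖deriv f z‖ := by gcongr
        _ = 6 / 5 * (‖deriv f z‖ * OP.ups W s z) := by ring
        _ ≤ 6 / 5 * (2 * ε) := by gcongr
        _ ≤ 3 * ε := by linarith
    have hpsi := far_psi hf hfi hu1 hu hq hη hqη hρ hzim hc him h7 hε hε1 hu1' hu2' (hE z hz)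
    rw [← hΨdef] at hpsi
    have hreal := far_real (q := q) hκ hκ8 hε hε1 (by linarith) hc hn him hd0 hu2' hV1 h45 hpsi
    refine ⟨h7, ?_⟩
    have hrt := hrate s hs z
    calc rate s z * ‖deriv f z‖ ^ 2
        ≤ Kχ * ((‖deriv f z‖ * OP.ups W s z) ^ (κ / 8 - 1) * (4 / ‖Zfl W s z‖ ^ 2)) *
            ‖deriv f z‖ ^ 2 := by gcongr
      _ = Kχ * (‖deriv f z‖ ^ 2 *
            ((‖deriv f z‖ * OP.ups W s z) ^ (κ / 8 - 1) * (4 / ‖Zfl W s z‖ ^ 2))) := by ring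
      _ ≤ Kχ * (225 / 4 / c ^ 2 * (3 ^ (q + η) * Real.exp (1 / Real.sqrt c) *
            (‖z‖ / ρ) ^ (1 / 2 : ℝ) * Ψ) / ‖z‖ ^ 4) := by gcongr
      _ = A * Ψ * ((‖z‖ / ρ) ^ (1 / 2 : ℝ) / ‖z‖ ^ 4) := by rw [hA]; ring
      _ = A * Ψ * ρ ^ (-(1 / 2) : ℝ) * ‖z‖ ^ (-(7 / 2) : ℝ) := by
          have e1 : (‖z‖ / ρ) ^ (1 / 2 : ℝ) / ‖z‖ ^ 4 =
              ρ ^ (-(1 / 2) : ℝ) * ‖z‖ ^ (-(7 / 2) : ℝ) := by
            rw [Real.div_rpow hn.le hρ.le, Real.rpow_neg hρ.le]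
            have e2 : ‖z‖ ^ (-(7 / 2) : ℝ) = ‖z‖ ^ (1 / 2 : ℝ) / ‖z‖ ^ 4 := by
              rw [← Real.rpow_natCast ‖z‖ 4, ← Real.rpow_sub hn]; norm_num
            rw [e2]; field_simp
          rw [e1]; ring
  -- integrate in time
  set K' := A * Ψ * ρ ^ (-(1 / 2) : ℝ) with hK'
  have hK'0 : 0 ≤ K' := by positivity
  set g : ℂ → ℝ≥0∞ := ({z : ℂ | 7 * ρ ≤ ‖z‖}).indicator
    (fun z => ENNReal.ofReal (ρ ^ 2 * K') * ENNReal.ofReal (‖z‖ ^ (-(7 / 2) : ℝ))) with hg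
  have hms : MeasurableSet {z : ℂ | 7 * ρ ≤ ‖z‖} := measurableSet_le measurable_const measurable_norm
  have hgm : Measurable g := by
    apply Measurable.indicator _ hms
    exact (measurable_norm.pow_const _).ennreal_ofReal.const_mul _
  have hle : ∀ z ∈ E, (∫⁻ s in Icc 0 T, ENNReal.ofReal (rate s z)) *
      ENNReal.ofReal (‖deriv f z‖ ^ 2) ≤ g z := by
    intro z hz
    by_cases h7 : 7 * ρ ≤ ‖z‖
    · have hgz : g z = ENNReal.ofReal (ρ ^ 2 * K') * ENNReal.ofReal (‖z‖ ^ (-(7 / 2) : ℝ)) :=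
        indicator_of_mem (show z ∈ {z : ℂ | 7 * ρ ≤ ‖z‖} from h7) _
      rw [hgz, ← lintegral_mul_const' _ _ ENNReal.ofReal_ne_top]
      have hb : ∀ s ∈ Icc 0 T, ENNReal.ofReal (rate s z) * ENNReal.ofReal (‖deriv f z‖ ^ 2) ≤
          ENNReal.ofReal (K' * ‖z‖ ^ (-(7 / 2) : ℝ)) := by
        intro s hs
        rw [← ENNReal.ofReal_mul' (by positivity)]
        apply ENNReal.ofReal_le_ofReal
        rcases le_or_gt (rate s z) 0 with hr | hr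
        · have : rate s z * ‖deriv f z‖ ^ 2 ≤ 0 := mul_nonpos_of_nonpos_of_nonneg hr (by positivity)
          exact this.trans (by positivity)
        · exact (hpt z hz s hs hr).2
      calc ∫⁻ s in Icc 0 T, ENNReal.ofReal (rate s z) * ENNReal.ofReal (‖deriv f z‖ ^ 2)
          ≤ ∫⁻ _ in Icc 0 T, ENNReal.ofReal (K' * ‖z‖ ^ (-(7 / 2) : ℝ)) :=
            setLIntegral_mono measurable_const hb
        _ = ENNReal.ofReal (K' * ‖z‖ ^ (-(7 / 2) : ℝ)) * ENNReal.ofReal (T - 0) := by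
            rw [setLIntegral_const, Real.volume_Icc]
        _ ≤ ENNReal.ofReal (K' * ‖z‖ ^ (-(7 / 2) : ℝ)) * ENNReal.ofReal (ρ ^ 2) := by
            gcongr; linarith
        _ = _ := by
            rw [← ENNReal.ofReal_mul (by positivity), ← ENNReal.ofReal_mul (by positivity)]
            congr 1; ring
    · have hgz : g z = 0 := indicator_of_notMem (show z ∉ {z : ℂ | 7 * ρ ≤ ‖z‖} from h7) _
      have hb : ∀ s ∈ Icc 0 T, ENNReal.ofReal (rate s z) ≤ 0 := by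
        intro s hs
        rcases le_or_gt (rate s z) 0 with hr | hr
        · rw [ENNReal.ofReal_of_nonpos hr]
        · exact absurd (hpt z hz s hs hr).1 h7
      have h0 : ∫⁻ s in Icc 0 T, ENNReal.ofReal (rate s z) ≤ 0 := by
        calc _ ≤ ∫⁻ _ in Icc 0 T, (0 : ℝ≥0∞) := setLIntegral_mono measurable_const hb
          _ = 0 := by simp
      rw [hgz, nonpos_iff_eq_zero.1 h0, zero_mul]
  calc ∫⁻ z in E, (∫⁻ s in Icc 0 T, ENNReal.ofReal (rate s z)) *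
        ENNReal.ofReal (‖deriv f z‖ ^ 2) ≤ ∫⁻ z in E, g z := setLIntegral_mono hgm hle
    _ ≤ ∫⁻ z, g z := setLIntegral_le_lintegral _ _
    _ = ENNReal.ofReal (ρ ^ 2 * K') *
          ∫⁻ z in {z : ℂ | 7 * ρ ≤ ‖z‖}, ENNReal.ofReal (‖z‖ ^ (-(7 / 2) : ℝ)) := by
        rw [hg, lintegral_indicator hms, lintegral_const_mul' _ _ ENNReal.ofReal_ne_top]
    _ ≤ ENNReal.ofReal (ρ ^ 2 * K') * ENNReal.ofReal (4 * Real.pi / 3 * ρ ^ (-(3 / 2) : ℝ)) := by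
        gcongr
        exact lintegral_far hρ
    _ = ENNReal.ofReal (Kfar Kχ c₁ q η * Ψ) := by
        rw [← ENNReal.ofReal_mul (by positivity)]
        congr 1
        have e : ρ ^ 2 * ρ ^ (-(1 / 2) : ℝ) * ρ ^ (-(3 / 2) : ℝ) = 1 := by
          rw [← Real.rpow_natCast ρ 2, ← Real.rpow_add hρ, ← Real.rpow_add hρ]
          norm_num
        rw [hK', hA, Kfar]
        calc _ = Kχ * (225 / 4 / c ^ 2) * (3 ^ (q + η) * Real.exp (1 / Real.sqrt c)) * Ψ *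
              (4 * Real.pi / 3) * (ρ ^ 2 * ρ ^ (-(1 / 2) : ℝ) * ρ ^ (-(3 / 2) : ℝ)) := by ring
          _ = _ := by rw [e]; ring

end Crest.Agent.R162.LB3c
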