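import Mathlib
import Crest.Agent.R162.KB1H
import Crest.Agent.R162.FLC2

/-!
Row 162 (S0243), node LB3c (far content), part G (helper786):
during the step the image of the geodesic `i(0, 10ρ₁]` stays in `closedBall x (u0 x / 8)`.
-/

set_option autoImplicit false

open Complex Set Metric MeasureTheory
open scoped ComplexConjugate ENNReal

namespace Crest.Agent.R162.LB3c

open Crest.Agent.R162 Crest.Agent.R162.FL Crest.Agent.R162.FLC

variable {f : ℂ → ℂ} {W : ℝ → ℝ} {x : ℂ} {u s r y : ℝ}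

/-- hyperbolic displacement of `iy` under `ffl W s`: at most `0.3` when `y ≥ 10 r`. -/
theorem hd_ffl_le (hW : ContinuousOn W (Ici 0)) (hs : 0 ≤ s) (hsr : s ≤ r ^ 2) (hWr : |W s| ≤ r)
    (hy : 0 < y) (hry : 10 * r ≤ y) :
    KB1.hd (y * I) (ffl W s (y * I)) ≤ 3 / 10 := by
  have hz : 0 < ((y : ℂ) * I).im := by simpa using hy
  have e1 : ((y : ℂ) * I).im = y := by simp
  have h1 := norm_ffl_I_sub_le hW hs hsr hWr hy hry
  have h2 := im_le_ffl hW hs hz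
  have h3 := ffl_im_pos hW hs hz
  have h4 := KB1.hd_le_div hz h3
  rw [e1] at h2 h4
  refine h4.trans ?_
  have h5 : y ≤ √(y * (ffl W s (y * I)).im) := by
    apply Real.le_sqrt_of_sq_le
    nlinarith
  rw [div_le_iff₀ (hy.trans_le h5), norm_sub_rev]
  linarith

/-- the image of the geodesic stays near `x` for `y ≥ 10 ρ_s`. -/
theorem geo_near' (hf : DifferentiableOn ℂ f KB1.Hs) (hfi : InjOn f KB1.Hs)
    (hW : ContinuousOn W (Ici 0)) (hs : 0 ≤ s) (hsr : s ≤ r ^ 2) (hWr : |W s| ≤ r)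
    (hy : 0 < y) (hry : 10 * r ≤ y) (h1 : ‖f (y * I) - x‖ ≤ u / 32)
    (h2 : KB1.ups f (y * I) ≤ u / 32) :
    ‖f (ffl W s (y * I)) - x‖ ≤ u / 16 := by
  have hz : 0 < ((y : ℂ) * I).im := by simpa using hy
  have h3 := ffl_im_pos hW hs hz
  have h4 := KB1.norm_sub_le_exp hf hfi hz h3
  have h5 := hd_ffl_le hW hs hsr hWr hy hry
  have h6 : Real.exp (2 * KB1.hd (y * I) (ffl W s (y * I))) ≤ 3 := by
    calc Real.exp (2 * KB1.hd (y * I) (ffl W s (y * I))) ≤ Real.exp 1 :=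
          Real.exp_le_exp.2 (by linarith)
      _ ≤ 3 := by have := Real.exp_one_lt_d9; linarith
  have h7 := KB1.ups_pos hf hfi hz
  have h8 : KB1.ups f (y * I) * ((Real.exp (2 * KB1.hd (y * I) (ffl W s (y * I))) - 1) / 2) ≤
      KB1.ups f (y * I) * 1 := by
    apply mul_le_mul_of_nonneg_left _ h7.le
    linarith
  calc ‖f (ffl W s (y * I)) - x‖ ≤ ‖f (ffl W s (y * I)) - f (y * I)‖ + ‖f (y * I) - x‖ := by
        have := norm_add_le (f (ffl W s (y * I)) - f (y * I)) (f (y * I) - x)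
        simpa using this
    _ ≤ u / 16 := by linarith

/-- the image of the geodesic stays near `x` for `y ≥ 10 ρ_s`, weaker constant. -/
theorem geo_near (hf : DifferentiableOn ℂ f KB1.Hs) (hfi : InjOn f KB1.Hs)
    (hW : ContinuousOn W (Ici 0)) (hs : 0 ≤ s) (hsr : s ≤ r ^ 2) (hWr : |W s| ≤ r)
    (hy : 0 < y) (hry : 10 * r ≤ y) (h1 : ‖f (y * I) - x‖ ≤ u / 32)
    (h2 : KB1.ups f (y * I) ≤ u / 32) :
    ‖f (ffl W s (y * I)) - x‖ ≤ u / 8 := by
  have h := geo_near' hf hfi hW hs hsr hWr hy hry h1 h2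
  have h0 : 0 ≤ u := by have := (norm_nonneg _).trans h1; linarith
  linarith

/-- conclusion `hgeo`: `rho s` a nonneg. function with `s ≤ rho s ^ 2`, `|W s| ≤ rho s`; old geodesic
near `x` up to `Y`, and the new geodesic (T2) near `x` for `y ≤ 10 rho s`. -/
theorem hgeo (hf : DifferentiableOn ℂ f KB1.Hs) (hfi : InjOn f KB1.Hs)
    (hW : ContinuousOn W (Ici 0)) {rho : ℝ → ℝ} {T Y : ℝ}
    (hsr : ∀ s ∈ Icc 0 T, s ≤ rho s ^ 2) (hWr : ∀ s ∈ Icc 0 T, |W s| ≤ rho s)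
    (P1 : ∀ y, 0 < y → y ≤ Y → ‖f (y * I) - x‖ ≤ u / 32)
    (P2 : ∀ y, 0 < y → y ≤ Y → KB1.ups f (y * I) ≤ u / 32)
    (T2 : ∀ s ∈ Icc 0 T, ∀ y, 0 < y → y ≤ 10 * rho s → ‖f (ffl W s (y * I)) - x‖ ≤ u / 8) :
    ∀ s ∈ Icc 0 T, ∀ y, 0 < y → y ≤ Y → ‖f (ffl W s (y * I)) - x‖ ≤ u / 8 := by
  intro s hs y hy hyY
  rcases le_total y (10 * rho s) with h | h
  · exact T2 s hs y hy h
  · exact geo_near hf hfi hW hs.1 (hsr s hs) (hWr s hs) hy h (P1 y hy hyY) (P2 y hy hyY)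

end Crest.Agent.R162.LB3c
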