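import Mathlib
import Crest.Agent.R162.LB3cE
import Crest.Agent.R162.LB3cG
import Crest.Agent.R162.LBDefs
import Crest.Agent.R162.FLC2

/-!
Row 162, node LB3c (helper868): near dichotomy and the FAR content lemma on the frozen
definitions `LBDefs`: `farC ≤ C₆ ϖ`.
-/

set_option autoImplicit false

open Set MeasureTheory Filter Complex
open scoped ENNReal

namespace Crest.Agent.R162.LB3cF

open Crest.Agent.R162.FL Crest.Agent.R162.FLC Crest.Agent.R162 Crest.Agent.R162.LB3c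

/-- constant of the near dichotomy. -/
noncomputable def Kc (c₁ : ℝ) : ℝ := Real.exp (4 / Real.sqrt c₁) - 1

/-- a point collecting content at time `s` is within `Kc ε` of the image `f_s (i ‖Z‖)`. -/
theorem near_point {f : ℂ → ℂ} {W : ℝ → ℝ} {z : ℂ} {s ε c₁ : ℝ}
    (hf : DifferentiableOn ℂ f KB1.Hs) (hfi : InjOn f KB1.Hs) (hW : ContinuousOn W (Ici 0))
    (h : Alive W z s) (hc₁ : 0 < c₁) (hS : c₁ ≤ OP.sfl W s z)
    (hU : ‖deriv f z‖ * OP.ups W s z ≤ 2 * ε) :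
    ‖f z - f (ffl W s (((‖Zfl W s z‖ : ℝ) : ℂ) * I))‖ ≤ Kc c₁ * ε := by
  have hs := h.nonneg
  set Z := Zfl W s z with hZ
  have hZim : 0 < Z.im := FL.Zfl_im_pos h
  have hZn : 0 < ‖Z‖ := norm_pos_iff.2 (by rintro h0; rw [h0] at hZim; simp at hZim)
  have hzf : ffl W s Z = z := ffl_Zfl hW h
  set F : ℂ → ℂ := f ∘ ffl W s with hF
  have hmaps : MapsTo (ffl W s) KB1.Hs KB1.Hs := fun ζ hζ => ffl_im_pos hW hs hζ
  have hFd : DifferentiableOn ℂ F KB1.Hs := hf.comp (differentiableOn_ffl hW hs) hmaps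
  have hFi : InjOn F KB1.Hs := hfi.comp (injOn_ffl hW hs) hmaps
  have hpos : 0 < ((((‖Z‖ : ℝ) : ℂ) * I)).im := by simpa using hZn
  have hkey := KB1.norm_sub_le_exp hFd hFi hZim hpos
  have hSZ : c₁ * ‖Z‖ ≤ Z.im := by
    have := hS
    rw [OP.sfl, le_div_iff₀ (by rw [← hZ]; exact hZn)] at this
    exact this
  have hhd : KB1.hd Z (((‖Z‖ : ℝ) : ℂ) * I) ≤ 2 / Real.sqrt c₁ := by
    rw [KB1.hd_comm]; exact hd_I hZim hc₁ hSZ
  -- the conformal radius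
  have hups : KB1.ups F Z = ‖deriv f z‖ * OP.ups W s z := by
    have hdf : HasDerivAt f (deriv f z) (ffl W s Z) := by
      rw [hzf]
      exact (hf.differentiableAt (KB1.isOpen_Hs.mem_nhds h.im_pos)).hasDerivAt
    have hdF : HasDerivAt F (deriv f z * deriv (ffl W s) Z) Z := by
      have h2 : HasDerivAt (ffl W s) (deriv (ffl W s) Z) Z :=
        ((differentiableOn_ffl hW hs).differentiableAt (KB1.isOpen_Hs.mem_nhds hZim)).hasDerivAt
      exact hdf.comp Z h2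
    have hinv : deriv (gfl W s) z * deriv (ffl W s) Z = 1 := by
      have h2 : HasDerivAt (ffl W s) (deriv (ffl W s) Z) Z :=
        ((differentiableOn_ffl hW hs).differentiableAt (KB1.isOpen_Hs.mem_nhds hZim)).hasDerivAt
      have h3 : HasDerivAt (gfl W s) (deriv (gfl W s) z) (ffl W s Z) := by
        rw [hzf]
        exact ((FL.hasDerivAt_gfl_space hW h).differentiableAt).hasDerivAt
      have h4 := h3.comp Z h2
      have h5 : HasDerivAt (gfl W s ∘ ffl W s) 1 Z := by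
        have h6 : HasDerivAt (fun ζ : ℂ => ζ + (W s : ℂ)) 1 Z := (hasDerivAt_id Z).add_const _
        apply h6.congr_of_eventuallyEq
        filter_upwards [KB1.isOpen_Hs.mem_nhds hZim] with ζ hζ
        exact gfl_ffl hW hs hζ
      exact h4.unique h5
    have hn : ‖deriv (gfl W s) z‖ * ‖deriv (ffl W s) Z‖ = 1 := by
      rw [← norm_mul, hinv, norm_one]
    have hgpos : 0 < ‖deriv (gfl W s) z‖ := by
      by_contra hc
      have : ‖deriv (gfl W s) z‖ = 0 := le_antisymm (not_lt.1 hc) (norm_nonneg _)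
      rw [this, zero_mul] at hn; exact zero_ne_one hn
    rw [KB1.ups, hdF.deriv, norm_mul, ups_eq_deriv hW h, hZ, Zfl_im]
    have : ‖deriv (ffl W s) Z‖ = 1 / ‖deriv (gfl W s) z‖ := by
      field_simp; linarith
    rw [← hZ, this]
    ring
  have hexp : Real.exp (2 * KB1.hd Z (((‖Z‖ : ℝ) : ℂ) * I)) ≤ Real.exp (4 / Real.sqrt c₁) := by
    apply Real.exp_le_exp.2
    calc _ ≤ 2 * (2 / Real.sqrt c₁) := by gcongr
      _ = _ := by ring
  have h1le : 1 ≤ Real.exp (2 * KB1.hd Z (((‖Z‖ : ℝ) : ℂ) * I)) :=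
    Real.one_le_exp (by have := KB1.hd_nonneg Z (((‖Z‖ : ℝ) : ℂ) * I); linarith)
  have e : ‖f z - f (ffl W s (((‖Z‖ : ℝ) : ℂ) * I))‖ = ‖F (((‖Z‖ : ℝ) : ℂ) * I) - F Z‖ := by
    rw [norm_sub_rev]
    simp only [hF, Function.comp_apply, hzf]
  rw [e]
  calc _ ≤ KB1.ups F Z * ((Real.exp (2 * KB1.hd Z (((‖Z‖ : ℝ) : ℂ) * I)) - 1) / 2) := hkey
    _ ≤ (2 * ε) * ((Real.exp (4 / Real.sqrt c₁) - 1) / 2) := by
        rw [hups]
        have h0 : 0 ≤ ‖deriv f z‖ * OP.ups W s z :=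
          mul_nonneg (norm_nonneg _) (FL.ups_nonneg _ _ _)
        apply mul_le_mul hU _ (by linarith) (h0.trans hU)
        linarith
    _ = Kc c₁ * ε := by rw [Kc]; ring


theorem psi_eq (u0 : ℂ → ℝ) (q η : ℝ) (f : ℂ → ℂ) (z : ℂ) :
    LB.Psi u0 q η f z = Psi q η u0 f z := rfl

/-- the constant `C₆`. -/
noncomputable def C6 (c₁ q η : ℝ) : ℝ := Kfar ((Real.log 2)⁻¹) c₁ q η * 2 ^ η

theorem C6_nonneg {c₁ q η : ℝ} (hc₁ : 0 < c₁) : 0 ≤ C6 c₁ q η := by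
  have := Kfar_nonneg (Kχ := (Real.log 2)⁻¹) (q := q) (η := η)
    (inv_nonneg.2 (Real.log_nonneg (by norm_num))) hc₁
  unfold C6; positivity

/-- what collects content at a time `s < t` and is not near has `‖Z_s‖ ≥ 10 ρ_t`. -/
theorem far_of_not_near {p : LB.Par} {f : ℂ → ℂ} {W : ℝ → ℝ} {z : ℂ} {s t : ℝ}
    (hf : DifferentiableOn ℂ f KB1.Hs) (hfi : InjOn f KB1.Hs) (hu1 : 1 ≤ p.u0 (p.x f))
    (hW : ContinuousOn W (Ici 0)) (hc₁ : 0 < p.c1)
    (hε1 : Kc p.c1 * p.ε < 1 / 8)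
    (h1 : LB.rad W t ≤ p.rho1 f) (hst : s < t) (hs0 : 0 < s) (h2 : ¬ p.Bad2 f W s)
    (P1 : ∀ y : ℝ, 0 < y → y ≤ 10 * p.rho1 f → ‖f (y * I) - p.x f‖ ≤ p.u0 (p.x f) / 32)
    (P2 : ∀ y : ℝ, 0 < y → y ≤ 10 * p.rho1 f → KB1.ups f (y * I) ≤ p.u0 (p.x f) / 32)
    (h : Alive W z s) (hS : p.c1 ≤ OP.sfl W s z)
    (hU : ‖deriv f z‖ * OP.ups W s z ≤ 2 * p.ε)
    (hz : f z ∉ Metric.ball (p.x f) (p.u0 (p.x f) / 4)) :
    10 * LB.rad W t ≤ ‖Zfl W s z‖ := by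
  by_contra hcon
  push Not at hcon
  set u := p.u0 (p.x f) with hu
  have hZn : 0 < ‖Zfl W s z‖ := norm_pos_iff.2 (Zfl_ne_zero h)
  set y := ‖Zfl W s z‖ with hy
  have hr0 : 0 < LB.rad W s := lt_of_lt_of_le (Real.sqrt_pos.2 hs0) (LB.sqrt_le_rad W s)
  have hrst : LB.rad W s ≤ LB.rad W t := LB.rad_mono hW hs0.le hst.le
  have hgeo : ‖f (ffl W s (y * I)) - p.x f‖ ≤ u / 8 := by
    rcases le_total y (10 * LB.rad W s) with hle | hle
    · have h3 : ‖f (ffl W s (y * I)) - f ((10 * LB.rad W s : ℝ) * I)‖ ≤ u / 16 := by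
        by_contra hc
        push Not at hc
        exact h2 ⟨y, hZn, hle, hc⟩
      have h4 := P1 (10 * LB.rad W s) (by positivity) (by linarith)
      calc ‖f (ffl W s (y * I)) - p.x f‖
          ≤ ‖f (ffl W s (y * I)) - f ((10 * LB.rad W s : ℝ) * I)‖ +
            ‖f ((10 * LB.rad W s : ℝ) * I) - p.x f‖ := norm_sub_le_norm_sub_add_norm_sub _ _ _
        _ ≤ u / 8 := by linarith
    · exact geo_near hf hfi hW hs0.le (LB.le_rad_sq hs0.le) (LB.abs_le_rad hW hs0.le le_rfl) hZn hle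
        (P1 y hZn (by linarith)) (P2 y hZn (by linarith))
  have hnp := near_point hf hfi hW h hc₁ hS hU
  rw [← hy] at hnp
  apply hz
  rw [Metric.mem_ball, dist_eq_norm]
  calc ‖f z - p.x f‖ ≤ ‖f z - f (ffl W s (y * I))‖ + ‖f (ffl W s (y * I)) - p.x f‖ :=
        norm_sub_le_norm_sub_add_norm_sub _ _ _
    _ < u / 4 := by linarith

/-- **LB3c.** Far content of a step is at most `C₆ ϖ`. -/
theorem farC_le {p : LB.Par} (hA : p.Adm) (hκ : 0 < p.κ) (hκ8 : p.κ < 8) (hc₁ : 0 < p.c1)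
    (hq : 0 ≤ p.q) (hη : 0 ≤ p.η) (hqη : 4 * p.q + 2 * p.η ≤ 1 / 2) (hε : 0 < p.ε)
    (hε1 : p.ε ≤ 1) (hεK : Kc p.c1 * p.ε < 1 / 8) {f : ℂ → ℂ} {W : ℝ → ℝ}
    (hf : DifferentiableOn ℂ f KB1.Hs) (hfi : InjOn f KB1.Hs) (hW : ContinuousOn W (Ici 0))
    {t : ℝ} (h1 : LB.rad W t ≤ p.rho1 f) (h2 : ∀ s, 0 < s → s < t → ¬ p.Bad2 f W s)
    (P1 : ∀ y : ℝ, 0 < y → y ≤ 10 * p.rho1 f → ‖f (y * I) - p.x f‖ ≤ p.u0 (p.x f) / 32)
    (P2 : ∀ y : ℝ, 0 < y → y ≤ 10 * p.rho1 f → KB1.ups f (y * I) ≤ p.u0 (p.x f) / 32) :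
    p.farC f W (Ioc 0 t) ≤ ENNReal.ofReal (C6 p.c1 p.q p.η * p.varpi f) := by
  rcases le_or_gt t 0 with ht | ht
  · have he : Ioc 0 t = ∅ := Ioc_eq_empty (by linarith)
    unfold LB.Par.farC LB.content LB.cz
    rw [he]
    simp
  have hρ : 0 < LB.rad W t := lt_of_lt_of_le (Real.sqrt_pos.2 ht) (LB.sqrt_le_rad W t)
  have hlip : ∀ x y, |p.u0 x - p.u0 y| ≤ ‖x - y‖ := by
    intro x y
    have := hA.lip.dist_le_mul x y
    rw [Real.dist_eq, dist_eq_norm] at this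
    simpa using this
  have hu01 : ∀ w ∈ p.B, p.u0 w ≤ 1 := by
    intro w hw
    have := hA.le_dist w hw w
    simpa using this
  set rate : ℝ → ℂ → ℝ := fun s z =>
    if s < t ∧ 0 < s then LB.cd p.κ p.ε p.c1 ‖deriv f z‖ W s z else 0 with hratedef
  set E : Set ℂ := {z : ℂ | 0 < z.im ∧ f z ∈ p.B \ p.near f} with hEdef
  have hlog : 0 ≤ (Real.log 2)⁻¹ := inv_nonneg.2 (Real.log_nonneg (by norm_num))
  have hb : 0 ≤ 8 / p.κ - 1 := by
    have : 1 ≤ 8 / p.κ := by rw [le_div_iff₀ hκ]; linarith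
    linarith
  have hsfl : ∀ s z, 0 ≤ OP.sfl W s z → OP.sfl W s z ≤ 1 := by
    intro s z _
    unfold OP.sfl
    apply div_le_one_of_le₀ ((le_abs_self _).trans (Complex.abs_im_le_norm _)) (norm_nonneg _)
  have hcdle : ∀ s z, LB.cd p.κ p.ε p.c1 ‖deriv f z‖ W s z ≤ (Real.log 2)⁻¹ *
      ((‖deriv f z‖ * OP.ups W s z) ^ (p.κ / 8 - 1) * (4 / ‖Zfl W s z‖ ^ 2)) := by
    intro s z
    have hu0 := FL.ups_nonneg W s z
    have hx : 0 ≤ ‖deriv f z‖ * OP.ups W s z := mul_nonneg (norm_nonneg _) hu0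
    have hx2 : 0 ≤ (‖deriv f z‖ * OP.ups W s z) ^ (p.κ / 8 - 1) := Real.rpow_nonneg hx _
    by_cases hne : LB.cd p.κ p.ε p.c1 ‖deriv f z‖ W s z = 0
    · rw [hne]; positivity
    obtain ⟨hal, -, -, hS⟩ := LB.of_cd_ne_zero hε hne
    have hs0 : 0 ≤ OP.sfl W s z := hc₁.le.trans hS
    have hs1 := hsfl s z hs0
    unfold LB.cd
    rw [if_pos hS, mul_one]
    have hchi := LB.chi_le (‖deriv f z‖ * OP.ups W s z / p.ε)
    have hchi0 := LB.chi_nonneg (‖deriv f z‖ * OP.ups W s z / p.ε)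
    have hsb : OP.sfl W s z ^ (8 / p.κ - 1) ≤ 1 := Real.rpow_le_one hs0 hs1 hb
    have hsb0 : 0 ≤ OP.sfl W s z ^ (8 / p.κ - 1) := Real.rpow_nonneg hs0 _
    have hs2 : 4 * OP.sfl W s z ^ 2 / ‖Zfl W s z‖ ^ 2 ≤ 4 / ‖Zfl W s z‖ ^ 2 := by
      apply div_le_div_of_nonneg_right _ (by positivity)
      nlinarith
    calc LB.chi (‖deriv f z‖ * OP.ups W s z / p.ε) *
          (‖deriv f z‖ * OP.ups W s z) ^ (p.κ / 8 - 1) *
          OP.sfl W s z ^ (8 / p.κ - 1) * (4 * OP.sfl W s z ^ 2 / ‖Zfl W s z‖ ^ 2)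
        ≤ (Real.log 2)⁻¹ * (‖deriv f z‖ * OP.ups W s z) ^ (p.κ / 8 - 1) * 1 *
          (4 / ‖Zfl W s z‖ ^ 2) := by gcongr
      _ = _ := by ring
  have hfc := far_content (T := t) (ε := p.ε) (rate := rate) (E := E) hκ hκ8 hc₁ hq hη hqη hlog
    hf hfi hA.one_le hlip hW hρ (LB.le_rad_sq ht.le) (fun r hr => LB.abs_le_rad hW hr.1 hr.2) hε hε1
    (fun s _ z => by
      by_cases hst : s < t ∧ 0 < s
      · simp only [hratedef, if_pos hst]; exact hcdle s z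
      · simp only [hratedef, if_neg hst]
        have hu0 := FL.ups_nonneg W s z
        positivity)
    (fun s _ z hpos => by
      by_cases hst : s < t ∧ 0 < s
      · simp only [hratedef, if_pos hst] at hpos
        obtain ⟨hal, ha, hb', hS⟩ := LB.of_cd_ne_zero hε hpos.ne'
        exact ⟨hal, hS, ha, hb'⟩
      · simp only [hratedef, if_neg hst] at hpos
        exact absurd hpos (lt_irrefl _))
    (fun z hz => hu01 _ hz.2.1)
    (fun z hz s _ hpos => by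
      by_cases hst : s < t ∧ 0 < s
      · simp only [hratedef, if_pos hst] at hpos
        obtain ⟨hal, ha, hb', hS⟩ := LB.of_cd_ne_zero hε hpos.ne'
        exact far_of_not_near hf hfi (hA.one_le _) hW hc₁ hεK h1 hst.1 hst.2
          (h2 s hst.2 hst.1) P1 P2 hal hS hb' (fun hball => hz.2.2 ⟨hz.2.1, hball⟩)
      · simp only [hratedef, if_neg hst] at hpos
        exact absurd hpos (lt_irrefl _))
  -- rewrite the left side
  have hlhs : p.farC f W (Ioc 0 t) =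
      ∫⁻ z in E, (∫⁻ s in Icc 0 t, ENNReal.ofReal (rate s z)) *
        ENNReal.ofReal (‖deriv f z‖ ^ 2) := by
    unfold LB.Par.farC LB.content
    apply lintegral_congr
    intro z
    rw [mul_comm]
    congr 1
    unfold LB.cz
    have e1 : ∫⁻ s in Ioc 0 t, ENNReal.ofReal (LB.cd p.κ p.ε p.c1 ‖deriv f z‖ W s z) =
        ∫⁻ s in Ioo 0 t, ENNReal.ofReal (LB.cd p.κ p.ε p.c1 ‖deriv f z‖ W s z) :=
      setLIntegral_congr Ioo_ae_eq_Ioc.symm
    have e2 : ∫⁻ s in Icc 0 t, ENNReal.ofReal (rate s z) =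
        ∫⁻ s in Ioo 0 t, ENNReal.ofReal (rate s z) := setLIntegral_congr Ioo_ae_eq_Icc.symm
    rw [e1, e2]
    apply setLIntegral_congr_fun measurableSet_Ioo
    intro s hs
    simp only [hratedef]
    rw [if_pos ⟨hs.2, hs.1⟩]
  rw [hlhs]
  refine hfc.trans (ENNReal.ofReal_le_ofReal ?_)
  -- Psi (10 ρ i) ≤ 2^η ϖ
  have h10 : 0 < 10 * LB.rad W t := by positivity
  have hpos10 : 0 < ((((10 * LB.rad W t : ℝ) : ℂ) * I)).im := by simpa using h10
  set ζ : ℂ := ((10 * LB.rad W t : ℝ) : ℂ) * I with hζ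
  have hux : 0 < p.u0 (p.x f) := lt_of_lt_of_le one_pos (hA.one_le _)
  have hclose : p.u0 (p.x f) / 2 ≤ p.u0 (f ζ) := by
    have h3 := P1 (10 * LB.rad W t) h10 (by linarith)
    have h4 := hlip (f ζ) (p.x f)
    have h5 := (abs_le.1 (h4.trans h3)).1
    linarith
  have hup := KB1.ups_pos hf hfi hpos10
  have hmp := mm_pos (f := f) hA.one_le ζ
  have hPsi : Psi p.q p.η p.u0 f ζ ≤ 2 ^ p.η * p.varpi f := by
    have e1 : Psi p.q p.η p.u0 f ζ ≤ mm p.u0 f ζ ^ (-p.η) := by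
      unfold Psi
      have e2 : KB1.ups f ζ ^ p.q ≤ mm p.u0 f ζ ^ p.q :=
        Real.rpow_le_rpow hup.le (ups_le_mm ζ) hq
      calc KB1.ups f ζ ^ p.q * mm p.u0 f ζ ^ (-p.q - p.η)
          ≤ mm p.u0 f ζ ^ p.q * mm p.u0 f ζ ^ (-p.q - p.η) := by gcongr
        _ = mm p.u0 f ζ ^ (-p.η) := by
            rw [← Real.rpow_add hmp]; congr 1; ring
    have e3 : mm p.u0 f ζ ^ (-p.η) ≤ (p.u0 (p.x f) / 2) ^ (-p.η) :=
      Real.rpow_le_rpow_of_nonpos (by positivity) (hclose.trans (u0_le_mm ζ)) (by linarith)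
    have e4 : (p.u0 (p.x f) / 2) ^ (-p.η) = 2 ^ p.η * p.varpi f := by
      unfold LB.Par.varpi
      rw [Real.div_rpow hux.le (by norm_num), Real.rpow_neg (by norm_num : (0:ℝ) ≤ 2)]
      field_simp
    linarith [e1.trans e3]
  have hK0 := Kfar_nonneg (q := p.q) (η := p.η) hlog hc₁
  calc Kfar (Real.log 2)⁻¹ p.c1 p.q p.η * Psi p.q p.η p.u0 f ζ
      ≤ Kfar (Real.log 2)⁻¹ p.c1 p.q p.η * (2 ^ p.η * p.varpi f) := by gcongr
    _ = C6 p.c1 p.q p.η * p.varpi f := by rw [C6]; ring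

end Crest.Agent.R162.LB3cF
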