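import Crest.Agent.R162.KB2
import Crest.Agent.R162.FL1b
import Crest.Agent.R162.FLC2
import Crest.Agent.R162.UBDefs

/-!
Row 162 (S0243), node UD: conformal radii of two alive points (from KB2, KB3).
-/

set_option autoImplicit false

open Set Metric Topology MeasureTheory

namespace Crest.Agent.R162.UD

open Crest.Agent.R162.FL Crest.Agent.R162.OP Crest.Agent.R162.KB

variable {W : ℝ → ℝ} {z w : ℂ} {T : ℝ}

lemma continuousOn_two_div_sq (hW : ContinuousOn W (Ici 0)) (h : Alive W z T) :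
    ContinuousOn (fun s => 2 / (Zfl W s z) ^ 2) (Icc 0 T) :=
  continuousOn_const.div ((continuousOn_Zfl hW h).pow 2)
    (fun r hr => pow_ne_zero 2 (Zfl_ne_zero (h.mono hr.1 hr.2)))

/-- `ups` is the conformal radius function of the inverse flow -/
theorem ups_eq_ffl (hW : ContinuousOn W (Ici 0)) (h : Alive W z T) :
    ups W T z = (Zfl W T z).im * ‖deriv (ffl W T) (Zfl W T z)‖ := by
  have hT := h.1
  have him : 0 < (Zfl W T z).im := Zfl_im_pos h
  rw [FLC.deriv_ffl hW hT him, FLC.ffl_Zfl hW h, ups, Zfl_im, Complex.norm_exp]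
  congr 2
  have hint : IntervalIntegrable (fun s => 2 / (Zfl W s z) ^ 2) volume 0 T := by
    apply ContinuousOn.intervalIntegrable
    rw [uIcc_of_le hT]
    exact continuousOn_two_div_sq hW h
  have h1 := Complex.reCLM.intervalIntegral_comp_comm hint
  have h2 : (∫ s in (0:ℝ)..T, Complex.reCLM (2 / (Zfl W s z) ^ 2)) =
      (∫ s in (0:ℝ)..T, 2 / (Zfl W s z) ^ 2).re := h1
  rw [← h2]
  refine intervalIntegral.integral_congr fun s _ => ?_
  show 2 * (((Zfl W s z) ^ 2)⁻¹).re = (2 / (Zfl W s z) ^ 2).re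
  rw [div_eq_mul_inv, Complex.mul_re]
  simp

lemma ups_pos (hW : ContinuousOn W (Ici 0)) (h : Alive W z T) : 0 < ups W T z :=
  mul_pos (gfl_im_pos h) (Real.exp_pos _)

/-- Koebe: `ball z (Υ/2)` stays alive -/
theorem ball_subset_Dom (hW : ContinuousOn W (Ici 0)) (h : Alive W z T) :
    ball z (ups W T z / 2) ⊆ Dom W T := by
  have h1 := kb2 (FLC.differentiableOn_ffl hW h.1) (FLC.injOn_ffl hW h.1) (Zfl_im_pos h)
  rw [FLC.ffl_Zfl hW h, ← ups_eq_ffl hW h, FLC.ffl_image hW h.1] at h1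
  exact h1

/-- Schwarz: the largest alive ball around `z` has radius `≤ 2 Υ` -/
theorem le_two_ups (hW : ContinuousOn W (Ici 0)) (h : Alive W z T) {r : ℝ}
    (hr : ball z r ⊆ Dom W T) : r ≤ 2 * ups W T z := by
  have h1 := kb3' (FLC.differentiableOn_ffl hW h.1) (FLC.injOn_ffl hW h.1) (Zfl_im_pos h)
    (r := r) (by rw [FLC.ffl_Zfl hW h, FLC.ffl_image hW h.1]; exact hr)
  rwa [← ups_eq_ffl hW h] at h1

/-- NODE UD -/
theorem udStmt : UB.UDStmt := by
  intro W z w T hW hz hw
  have h1 := ball_subset_Dom hW hz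
  have h2 : ball w (ups W T z / 2 - ‖z - w‖) ⊆ Dom W T := by
    refine Subset.trans ?_ h1
    intro v hv
    rw [mem_ball, dist_eq_norm] at hv ⊢
    have : ‖v - z‖ ≤ ‖v - w‖ + ‖z - w‖ := by
      have e : v - z = (v - w) - (z - w) := by ring
      rw [e]; exact norm_sub_le _ _
    linarith
  have h3 := le_two_ups hW hw h2
  linarith

end Crest.Agent.R162.UD
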