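import Mathlib
import Crest.Agent.R162.KB1H
import Crest.Agent.R162.FLC2
import Crest.Agent.R162.UD
import Crest.Agent.R162.LB3cG

/-!
Row 162 (S0243), node LB3c (far content), part H (helper786):
a point `z` with `S ≥ c₁`, `Υ ≤ 2ε` whose image is not in `ball x (u/4)` satisfies `|Z_s(z)| > Y`
when the image of the geodesic `i(0, Y]` stays in `closedBall x (u/8)`.
-/

set_option autoImplicit false

open Complex Set Metric MeasureTheory
open scoped ComplexConjugate ENNReal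

namespace Crest.Agent.R162.LB3cH

open Crest.Agent.R162 Crest.Agent.R162.FL Crest.Agent.R162.FLC

variable {f : ℂ → ℂ} {W : ℝ → ℝ} {x z : ℂ} {u s r y c1 : ℝ}

/-- the constant of `near_geo`: `Kc c₁ = exp (4/√c₁)` -/
noncomputable def Kc (c1 : ℝ) : ℝ := Real.exp (4 / √c1)

theorem Kc_pos (c1 : ℝ) : 0 < Kc c1 := Real.exp_pos _

theorem comp_diff (hf : DifferentiableOn ℂ f KB1.Hs) (hW : ContinuousOn W (Ici 0)) (hs : 0 ≤ s) :
    DifferentiableOn ℂ (f ∘ ffl W s) KB1.Hs :=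
  hf.comp (differentiableOn_ffl hW hs) (fun _ hz => ffl_im_pos hW hs hz)

theorem comp_inj (hfi : InjOn f KB1.Hs) (hW : ContinuousOn W (Ici 0)) (hs : 0 ≤ s) :
    InjOn (f ∘ ffl W s) KB1.Hs :=
  hfi.comp (injOn_ffl hW hs) (fun _ hz => ffl_im_pos hW hs hz)

/-- `Υ` of the composed map at `Z_s(z)` -/
theorem ups_comp_Z (hf : DifferentiableOn ℂ f KB1.Hs) (hW : ContinuousOn W (Ici 0))
    (h : Alive W z s) :
    KB1.ups (f ∘ ffl W s) (Zfl W s z) = ‖deriv f z‖ * OP.ups W s z := by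
  have hs := h.1
  have him : 0 < (Zfl W s z).im := FLC.Zfl_im_pos hW h
  have h1 : DifferentiableAt ℂ (ffl W s) (Zfl W s z) :=
    (hasDerivAt_ffl hW hs him).differentiableAt
  have h2 : DifferentiableAt ℂ f (ffl W s (Zfl W s z)) :=
    (hf _ (ffl_im_pos hW hs him)).differentiableAt (KB1.isOpen_Hs.mem_nhds (ffl_im_pos hW hs him))
  rw [KB1.ups, deriv_comp _ h2 h1, UD.ups_eq_ffl hW h, norm_mul, ffl_Zfl hW h]
  ring

/-- hyperbolic distance from `Z` to `|Z| i` -/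
theorem hd_norm_le {Z : ℂ} (hZ : 0 < Z.im) (hc : 0 < c1) (h : c1 ≤ Z.im / ‖Z‖) :
    KB1.hd Z (‖Z‖ * I) ≤ 2 / √c1 := by
  have hn : 0 < ‖Z‖ := norm_pos_iff.2 (fun h0 => by simp [h0] at hZ)
  have hw : 0 < ((‖Z‖ : ℂ) * I).im := by simpa using hn
  have h4 := KB1.hd_le_div hZ hw
  have e1 : ((‖Z‖ : ℂ) * I).im = ‖Z‖ := by simp
  rw [e1] at h4
  have h5 : √c1 * ‖Z‖ ≤ √(Z.im * ‖Z‖) := by
    apply Real.le_sqrt_of_sq_le
    rw [mul_pow, Real.sq_sqrt hc.le]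
    rw [le_div_iff₀ hn] at h
    nlinarith
  have h6 : ‖Z - ‖Z‖ * I‖ ≤ 2 * ‖Z‖ := by
    refine (norm_sub_le _ _).trans ?_
    rw [norm_mul, Complex.norm_I, Complex.norm_real, norm_norm]
    linarith
  refine h4.trans ?_
  have h7 : 0 < √c1 := Real.sqrt_pos.2 hc
  calc ‖Z - ‖Z‖ * I‖ / √(Z.im * ‖Z‖) ≤ (2 * ‖Z‖) / (√c1 * ‖Z‖) := by
        gcongr
    _ = 2 / √c1 := by field_simp

/-- a point with `S ≥ c₁` is within `Kc c₁ · Υ / 2` of the point `f_s(i |Z|)` -/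
theorem near_geo (hf : DifferentiableOn ℂ f KB1.Hs) (hfi : InjOn f KB1.Hs)
    (hW : ContinuousOn W (Ici 0)) (h : Alive W z s) (hc : 0 < c1) (hS : c1 ≤ OP.sfl W s z) :
    ‖f z - f (ffl W s (‖Zfl W s z‖ * I))‖ ≤ ‖deriv f z‖ * OP.ups W s z * (Kc c1 / 2) := by
  have hs := h.1
  have him : 0 < (Zfl W s z).im := FLC.Zfl_im_pos hW h
  have hn : 0 < ‖Zfl W s z‖ := norm_pos_iff.2 (fun h0 => by simp [h0] at him)
  have hw : 0 < ((‖Zfl W s z‖ : ℂ) * I).im := by simpa using hn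
  have h1 := KB1.norm_sub_le_exp (comp_diff hf hW hs) (comp_inj hfi hW hs) him hw
  have h2 := KB1.ups_pos (comp_diff hf hW hs) (comp_inj hfi hW hs) him
  have h3 := hd_norm_le him hc hS
  rw [ups_comp_Z hf hW h] at h1 h2
  simp only [Function.comp_apply] at h1
  rw [ffl_Zfl hW h, norm_sub_rev] at h1
  refine h1.trans ?_
  apply mul_le_mul_of_nonneg_left _ h2.le
  have h4 : Real.exp (2 * KB1.hd (Zfl W s z) (‖Zfl W s z‖ * I)) ≤ Kc c1 := by
    unfold Kc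
    apply Real.exp_le_exp.2
    calc 2 * KB1.hd (Zfl W s z) (‖Zfl W s z‖ * I) ≤ 2 * (2 / √c1) := by linarith
      _ = 4 / √c1 := by ring
  linarith

/-- **far_of_not_near.** -/
theorem far_of_not_near (hf : DifferentiableOn ℂ f KB1.Hs) (hfi : InjOn f KB1.Hs)
    (hW : ContinuousOn W (Ici 0)) (h : Alive W z s) (hc : 0 < c1) (hS : c1 ≤ OP.sfl W s z)
    {ε Y : ℝ} (hU : ‖deriv f z‖ * OP.ups W s z ≤ 2 * ε) (hε : Kc c1 * ε < u / 8)
    (hnot : f z ∉ ball x (u / 4))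
    (hgeo : ∀ y, 0 < y → y ≤ Y → ‖f (ffl W s (y * I)) - x‖ ≤ u / 8) :
    Y < ‖Zfl W s z‖ := by
  by_contra hcon
  push Not at hcon
  have him : 0 < (Zfl W s z).im := FLC.Zfl_im_pos hW h
  have hn : 0 < ‖Zfl W s z‖ := norm_pos_iff.2 (fun h0 => by simp [h0] at him)
  have h1 := near_geo hf hfi hW h hc hS
  have h2 := hgeo _ hn hcon
  apply hnot
  rw [mem_ball, dist_eq_norm]
  have h3 : ‖deriv f z‖ * OP.ups W s z * (Kc c1 / 2) ≤ 2 * ε * (Kc c1 / 2) := by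
    apply mul_le_mul_of_nonneg_right hU
    have := Kc_pos c1
    positivity
  calc ‖f z - x‖ ≤ ‖f z - f (ffl W s (‖Zfl W s z‖ * I))‖ +
        ‖f (ffl W s (‖Zfl W s z‖ * I)) - x‖ := by
        have := norm_add_le (f z - f (ffl W s (‖Zfl W s z‖ * I)))
          (f (ffl W s (‖Zfl W s z‖ * I)) - x)
        simpa using this
    _ < u / 4 := by nlinarith

end Crest.Agent.R162.LB3cH
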