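import Mathlib
import Crest.Agent.R162.LB3cF
import Crest.Agent.R162.LB0D

/-!
Row 162, node LB3c (helper868), end: the far content of a step, `(P1)`, `(P2)` from helper411's
`Geo`, and the inequality `ρ_T ≤ ρ₁`.
-/

set_option autoImplicit false

open Set MeasureTheory Filter Complex Topology
open scoped ENNReal

namespace Crest.Agent.R162.LB3cF

open Crest.Agent.R162.FL Crest.Agent.R162

/-- `411`'s `Geo` from finiteness of `J` (without the boundedness of the ray). -/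
theorem geoJ {p : LB.Par} (hA : p.Adm) (hc : LB0.Small p) {f : ℂ → ℂ}
    (hf : DifferentiableOn ℂ f KB1.Hs) (hfi : InjOn f KB1.Hs)
    (hJ : ∀ y, LB.Jv p.u0 p.q f y ≠ ⊤)
    (hv : ∃ y : ℝ, 0 < y ∧ p.θ ≤ LB.vv p.u0 f y) : LB0.Geo p f := by
  obtain ⟨y0, hy0, hvy0⟩ := hv
  have hK42 : 1 ≤ p.K4 ^ 2 := one_le_pow₀ hc.K4_ge
  have hθ1 : p.θ ≤ 1 := by have := hc.sm2; have := hc.θ_pos; nlinarith
  have hJ : ∀ y, LB0.Jv p.u0 p.q f y < ⊤ := fun y => lt_top_iff_ne_top.2 (hJ y)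
  have hne : (LB0.bad p.u0 p.q f p.θ p.K3).Nonempty := ⟨y0, hy0, Or.inl hvy0⟩
  obtain ⟨g1, g2, g3, g4, g5, g6⟩ := LB0.geo (K4 := p.K4) hf hfi hA.lip hA.one_le hc.q_pos hc.q_lt
    hc.θ_pos hc.K3_pos hc.K4_ge hc.sm1 hc.sm2 ⟨1, one_pos, hJ 1⟩ hne
  have hrho : p.rho1 f = LB0.rho1 p.u0 p.q f p.θ p.K3 p.K4 := by
    unfold LB.Par.rho1 LB0.rho1
    rfl
  rw [← hrho] at g2 g3 g4 g5 g6
  have hyx : p.y f = LB0.yx p.u0 p.q f p.θ p.K3 := rfl
  have hx : p.x f = f ((LB0.yx p.u0 p.q f p.θ p.K3 : ℂ) * Complex.I) := rfl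
  have hvy : LB.vv p.u0 f (p.y f) ≤ p.θ := LB0.vv_yx_le hf hA.lip hA.one_le g1
  have hJy : LB.Jv p.u0 p.q f (p.y f) ≤ ENNReal.ofReal p.K3 :=
    LB0.Jv_yx_le hf hfi hA.one_le hc.q_pos g1
  have hnear : ∀ y : ℝ, 0 < y → y ≤ 10 * p.rho1 f →
      ‖f (y * Complex.I) - p.x f‖ ≤ p.u0 (p.x f) / 64 := fun y hy hy2 => g4 y hy hy2
  refine
    { y_pos := g1
      rho_pos := g2
      y_le := g3
      near := hnear
      vv_le := fun y hy hy2 => g5 y hy hy2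
      vv_le_one := fun y hy hy2 => (g5 y hy hy2).trans (by have := hc.sm2; nlinarith)
      Jv_le := g6
      Jv_lt_top := hJ
      lt_y := fun y hy hy2 => LB0.good_of_lt hy hy2
      vv_y_le := hvy
      Jv_y_le := hJy
      caseA := fun h => ⟨le_antisymm hvy h, by unfold LB.Par.rho1; rw [if_pos h]⟩
      caseB := fun h => ?_
      u0_near := fun y hy hy2 => LB0.u0_comparable hA.lip (hnear y hy hy2)
      norm_sub := fun y y' hy hy2 hy' hy2' => ?_ }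
  · refine ⟨by unfold LB.Par.rho1; rw [if_neg h]; ring, le_antisymm hJy ?_⟩
    exact LB0.le_Jv_yx hf hfi hA.lip hA.one_le hc.q_pos hne g1 (not_le.1 h)
  · have h3 := hnear y hy hy2
    have h4 := hnear y' hy' hy2'
    calc ‖f (y * Complex.I) - f (y' * Complex.I)‖
        = ‖(f (y * Complex.I) - p.x f) - (f (y' * Complex.I) - p.x f)‖ := by ring_nf
      _ ≤ ‖f (y * Complex.I) - p.x f‖ + ‖f (y' * Complex.I) - p.x f‖ := norm_sub_le _ _
      _ ≤ _ := by linarith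

/-- `ρ_T ≤ ρ₁`. -/
theorem rad_T_le {p : LB.Par} {f : ℂ → ℂ} {W : ℝ → ℝ} (hW : ContinuousOn W (Ici 0))
    (hT : 0 < p.T f W) : LB.rad W (p.T f W) ≤ p.rho1 f := by
  set T := p.T f W with hTdef
  have hb : ∀ t, 0 < t → t < T → LB.rad W t ≤ p.rho1 f := by
    intro t ht0 ht
    have := LB.not_bad_of_lt p ht0 ht
    unfold LB.Par.Bad at this
    push Not at this
    exact not_lt.1 this.1
  have hs : Real.sqrt T ≤ p.rho1 f := by
    have h1 : Tendsto Real.sqrt (𝓝[<] T) (𝓝 (Real.sqrt T)) :=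
      (Real.continuous_sqrt.tendsto T).mono_left nhdsWithin_le_nhds
    refine le_of_tendsto h1 ?_
    have : Ioo 0 T ∈ 𝓝[<] T := Ioo_mem_nhdsLT hT
    filter_upwards [this] with t ht
    exact (LB.sqrt_le_rad W t).trans (hb t ht.1 ht.2)
  have hWs : ∀ s, 0 ≤ s → s < T → |W s| ≤ p.rho1 f := by
    intro s hs0 hs1
    have h1 : 0 < (s + T) / 2 := by linarith
    have h2 : (s + T) / 2 < T := by linarith
    exact (LB.abs_le_rad hW hs0 (by linarith)).trans (hb _ h1 h2)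
  have hWT : |W T| ≤ p.rho1 f := by
    have h1 : Tendsto (fun s => |W s|) (𝓝[Ioo 0 T] T) (𝓝 |W T|) := by
      have := ((hW.abs T hT.le).mono (fun s (hs : s ∈ Ioo 0 T) => (hs.1.le : s ∈ Ici (0:ℝ))))
      exact this
    have : (𝓝[Ioo 0 T] T).NeBot := by
      rw [nhdsWithin_Ioo_eq_nhdsLT hT]
      infer_instance
    refine le_of_tendsto h1 ?_
    filter_upwards [self_mem_nhdsWithin] with s hs
    exact hWs s hs.1.le hs.2
  unfold LB.rad
  refine max_le hs ?_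
  refine csSup_le ⟨|W 0|, 0, ⟨le_rfl, hT.le⟩, rfl⟩ ?_
  rintro _ ⟨s, hs, rfl⟩
  rcases hs.2.lt_or_eq with h | h
  · exact hWs s hs.1 h
  · simpa [h] using hWT

/-- **Far content of a step** with `411`'s geometry. -/
theorem farC_T_le {p : LB.Par} (hA : p.Adm) (hκ : 0 < p.κ) (hκ8 : p.κ < 8) (hc₁ : 0 < p.c1)
    (hη : 0 ≤ p.η) (hqη : 4 * p.q + 2 * p.η ≤ 1 / 2) (hc : LB0.Small p)
    (hθ2 : 6400 * p.K4 ^ 2 * p.θ ≤ 1) (hε : 0 < p.ε)
    (hε1 : p.ε ≤ 1) (hεK : Kc p.c1 * p.ε < 1 / 8) {f : ℂ → ℂ} {W : ℝ → ℝ}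
    (hf : DifferentiableOn ℂ f KB1.Hs) (hfi : InjOn f KB1.Hs)
    (hG : LB0.Geo p f) (hW : ContinuousOn W (Ici 0)) :
    p.farC f W (Ioc 0 (p.T f W)) ≤ ENNReal.ofReal (C6 p.c1 p.q p.η * p.varpi f) := by
  rcases (LB.T_nonneg p f W).eq_or_lt with hT | hT
  · have he : Ioc 0 (p.T f W) = ∅ := by rw [← hT]; simp
    unfold LB.Par.farC LB.content LB.cz
    rw [he]
    simp
  · have hu : 0 < p.u0 (p.x f) := lt_of_lt_of_le one_pos (hA.one_le _)
    refine farC_le hA hκ hκ8 hc₁ hc.q_pos.le hη hqη hε hε1 hεK hf hfi hW (rad_T_le hW hT)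
      (fun s hs0 hsT hb => LB.not_bad_of_lt p hs0 hsT (Or.inr (Or.inl hb)))
      (fun y hy0 hy => (hG.near y hy0 hy).trans (by linarith)) (fun y hy0 hy => ?_)
    have h1 := hG.vv_le y hy0 hy
    have h2 := (hG.u0_near y hy0 hy).2
    have h0 : 0 < p.u0 (f (y * Complex.I)) := lt_of_lt_of_le one_pos (hA.one_le _)
    unfold LB.vv at h1
    rw [div_le_iff₀ h0] at h1
    have h3 : 102 * p.K4 ^ 2 * p.θ ≤ 102 / 6400 := by linarith
    calc KB1.ups f (y * Complex.I) ≤ 102 * p.K4 ^ 2 * p.θ * p.u0 (f (y * Complex.I)) := h1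
      _ ≤ 102 / 6400 * (65 / 64 * p.u0 (p.x f)) := by gcongr
      _ ≤ p.u0 (p.x f) / 32 := by linarith

end Crest.Agent.R162.LB3cF
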