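import Mathlib
import Crest.Agent.R162.LB3cI
import Crest.Agent.R162.LBStepIn
import Crest.Agent.R162.LBSkel

/-!
Row 162, node LB3c (helper868): the far content of a step in the form of helper561's `InFar`
(with the extra hypothesis `4q + 2η ≤ 1/2`) and in helper310's format (`LBSkel`).
-/

set_option autoImplicit false

open Set MeasureTheory Filter Complex Topology
open scoped ENNReal

namespace Crest.Agent.R162.LB3cF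

open Crest.Agent.R162.FL Crest.Agent.R162

theorem exists_vv_ge {p : LB.Par} {f : ℂ → ℂ} (h : Tendsto (LB.vv p.u0 f) atTop (𝓝 1))
    (hθ : p.θ ≤ 1 / 2) : ∃ y : ℝ, 0 < y ∧ p.θ ≤ LB.vv p.u0 f y := by
  have h1 : ∀ᶠ y in atTop, (1 / 2 : ℝ) < LB.vv p.u0 f y := h.eventually_const_lt (by norm_num)
  obtain ⟨y, hy, hy0⟩ := (h1.and (eventually_gt_atTop (0 : ℝ))).exists
  exact ⟨y, hy0, hθ.trans hy.le⟩

/-- smallness of `θ` -/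
theorem exists_theta {q K3 K4 : ℝ} (hq : 0 < q) (hq1 : q < 1) (hK3 : 0 < K3) (hK4 : 1 ≤ K4) :
    ∃ θ0 : ℝ, 0 < θ0 ∧ θ0 ≤ 1 / 2 ∧ ∀ θ : ℝ, 0 < θ → θ ≤ θ0 →
      K3 * θ ^ (1 - q) ≤ 1 / 130 ∧ 3200 * K4 ^ 2 * θ ≤ 1 ∧ 6400 * K4 ^ 2 * θ ≤ 1 := by
  obtain ⟨θ0, h0, h1⟩ := LB0.exists_theta hq hq1 hK3 hK4
  refine ⟨min (θ0 / 2) (1 / 2), by positivity, min_le_right _ _, fun θ hθ hle => ?_⟩
  have h2 : θ ≤ θ0 / 2 := hle.trans (min_le_left _ _)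
  have h3 := h1 θ hθ (by linarith)
  have h4 := (h1 θ0 h0 le_rfl).2
  have h5 : 0 ≤ K4 ^ 2 := by positivity
  exact ⟨h3.1, h3.2, by nlinarith⟩

/-- smallness of `ε` -/
noncomputable def eps0 (c1 : ℝ) : ℝ := min 1 (1 / (16 * (Kc c1 + 1)))

theorem Kc_nonneg (c1 : ℝ) : 0 ≤ Kc c1 := by
  unfold Kc
  have : 1 ≤ Real.exp (4 / Real.sqrt c1) := Real.one_le_exp (by positivity)
  linarith

theorem eps0_pos (c1 : ℝ) : 0 < eps0 c1 := by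
  have := Kc_nonneg c1
  unfold eps0; positivity

theorem eps0_spec {c1 ε : ℝ} (hε : 0 < ε) (h : ε ≤ eps0 c1) : ε ≤ 1 ∧ Kc c1 * ε < 1 / 8 := by
  have hK := Kc_nonneg c1
  have h2 : ε ≤ 1 / (16 * (Kc c1 + 1)) := h.trans (min_le_right _ _)
  rw [le_div_iff₀ (by positivity)] at h2
  exact ⟨h.trans (min_le_left _ _), by nlinarith⟩

/-- **InFar** of helper561, with `4q + 2η ≤ 1/2`. -/
theorem inFar {κ c1 : ℝ} (hκ : 0 < κ) (hκ8 : κ < 8) (hc1 : 0 < c1) :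
    ∀ cs q η K3 K4 : ℝ, 0 < cs → 0 < q → 0 < η → 4 * q + 2 * η ≤ 1 / 2 → 0 < K3 → 1 ≤ K4 →
    ∃ θ0 : ℝ, 0 < θ0 ∧ ∀ θ : ℝ, 0 < θ → θ ≤ θ0 → ∃ ε0 C6 : ℝ, 0 < ε0 ∧ 0 ≤ C6 ∧
    ∀ p : LB.Par, p.κ = κ → p.c1 = c1 → p.cs = cs → p.q = q → p.η = η → p.K3 = K3 →
      p.K4 = K4 → p.θ = θ → 0 < p.ε → p.ε ≤ ε0 → p.Adm → ∀ f, LBStep.State p f →
    ∀ W : ℝ → ℝ, ContinuousOn W (Ici 0) → W 0 = 0 → 0 < p.T f W →
      p.farC f W (Ioc 0 (p.T f W)) ≤ ENNReal.ofReal (C6 * p.varpi f) := by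
  intro cs q η K3 K4 _ hq hη hqη hK3 hK4
  have hq1 : q < 1 := by linarith
  obtain ⟨θ0, hθ0, hθ01, hθs⟩ := exists_theta hq hq1 hK3 hK4
  refine ⟨θ0, hθ0, fun θ hθ hθle => ⟨eps0 c1, C6 c1 q η, eps0_pos c1, C6_nonneg hc1, ?_⟩⟩
  intro p hpκ hpc1 _ hpq hpη hpK3 hpK4 hpθ hε hεle hA f hS W hW _ _
  obtain ⟨s1, s2, s3⟩ := hθs θ hθ hθle
  subst hpκ hpc1 hpq hpη hpK3 hpK4 hpθ
  obtain ⟨e1, e2⟩ := eps0_spec hε hεle
  have hc : LB0.Small p :=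
    { q_pos := hq, q_lt := hq1, η_nonneg := hη.le, θ_pos := hθ, K3_pos := hK3, K4_ge := hK4,
      sm1 := s1, sm2 := s2 }
  have hG := geoJ hA hc hS.diff hS.inj hS.J (exists_vv_ge hS.v_tendsto (hθle.trans hθ01))
  exact farC_T_le hA hκ hκ8 hc1 hη.le hqη hc s3 hε e1 e2 hS.diff hS.inj hG hW

/-- far content of a step in helper310's format -/
theorem farC_skel {p : LB.Par} (hok : LBS.Ok p) (hθ : 6400 * p.K4 ^ 2 * p.θ ≤ 1)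
    (hθ2 : p.K3 * p.θ ^ (1 - p.q) ≤ 1 / 130) (hε : p.ε ≤ eps0 p.c1) {f : ℂ → ℂ}
    (hS : LBS.Start p f) {W : ℝ → ℝ} (hW : LBS.Drive W) :
    p.farC f W (Ioc 0 (p.T f W)) ≤ ENNReal.ofReal (C6 p.c1 p.q p.η * p.varpi f) := by
  have hη := hok.η0
  have hqη := hok.qη
  have hθ0 := hok.θ0
  have hK4 := hok.K4
  have hK42 : (1 : ℝ) ≤ p.K4 ^ 2 := one_le_pow₀ hK4
  have hc : LB0.Small p :=
    { q_pos := hok.q0, q_lt := by linarith, η_nonneg := hη.le, θ_pos := hθ0,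
      K3_pos := by linarith [hok.K3], K4_ge := hK4, sm1 := hθ2, sm2 := by nlinarith }
  obtain ⟨e1, e2⟩ := eps0_spec hok.ε0 hε
  have hG := geoJ hok.adm hc hS.univ.diff hS.univ.inj hS.J_ne_top
    (exists_vv_ge hS.v_tendsto hok.θ1.le)
  exact farC_T_le hok.adm hok.κ0 hok.κ8 hok.c10 hη.le hqη hc hθ hok.ε0 e1 e2 hS.univ.diff
    hS.univ.inj hG hW.cont

end Crest.Agent.R162.LB3cF
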