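import Mathlib
import Crest.Agent.R162.Base
import Crest.Agent.R162.FL1b
import Crest.Agent.R162.FLC2
import Crest.Agent.R162.KB1

/-!
Row 162 (S0243), node LB4 (consumption), deterministic part.
-/

set_option autoImplicit false

open Set MeasureTheory Metric

namespace Crest.Agent.R162.LB4

open Crest.Agent.R162 Crest.Agent.R162.FL

variable {W : ℝ → ℝ} {w x : ℂ} {σ T t : ℝ}

/-! ### the conformal radius through the inverse map, Koebe, Schwarz -/

theorem ups_eq (hW : ContinuousOn W (Ici 0)) (h : Alive W w t) :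
    OP.ups W t w = KB1.ups (ffl W t) (Zfl W t w) := by
  have hz : 0 < (Zfl W t w).im := FL.Zfl_im_pos h
  have hd := FLC.deriv_ffl hW h.1 hz
  rw [FLC.ffl_Zfl hW h] at hd
  rw [KB1.ups, hd, Complex.norm_exp, OP.ups, Zfl_im]
  congr 2
  have hc : ContinuousOn (fun r => 2 / (Zfl W r w) ^ 2) (Icc 0 t) := by
    refine ContinuousOn.div continuousOn_const ((continuousOn_Zfl hW h).pow 2) ?_
    intro r hr
    exact pow_ne_zero 2 (Zfl_ne_zero (h.mono hr.1 hr.2))
  have hi : IntervalIntegrable (fun r => 2 / (Zfl W r w) ^ 2) volume 0 t := by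
    apply ContinuousOn.intervalIntegrable
    rwa [uIcc_of_le h.1]
  have := (Complex.reCLM).intervalIntegral_comp_comm hi
  simp only [Complex.reCLM_apply] at this
  rw [← this]
  congr 1
  funext r
  rw [div_eq_mul_inv]
  simp [Complex.mul_re]

theorem ball_subset_Dom (hW : ContinuousOn W (Ici 0)) (h : Alive W w t) :
    ball w (OP.ups W t w / 2) ⊆ Dom W t := by
  have hz : 0 < (Zfl W t w).im := FL.Zfl_im_pos h
  have h1 := KB1.ball_subset_image (FLC.differentiableOn_ffl hW h.1) (FLC.injOn_ffl hW h.1) hz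
  rw [FLC.ffl_Zfl hW h, ← ups_eq hW h] at h1
  have h2 := FLC.ffl_image hW h.1
  intro y hy
  have := h1 hy
  rw [← h2]
  exact this

theorem le_two_ups (hW : ContinuousOn W (Ici 0)) (h : Alive W w t) {r : ℝ} (hr : 0 < r)
    (hsub : ball w r ⊆ Dom W t) : r ≤ 2 * OP.ups W t w := by
  have hz : 0 < (Zfl W t w).im := FL.Zfl_im_pos h
  rw [ups_eq hW h]
  apply KB1.le_two_ups_of_ball_subset (FLC.differentiableOn_ffl hW h.1)
    (FLC.injOn_ffl hW h.1) hz hr
  rw [FLC.ffl_Zfl hW h]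
  have h2 := FLC.ffl_image hW h.1
  rw [show KB1.Hs = {z : ℂ | 0 < z.im} from rfl, h2]
  exact hsub

theorem ups_pos (h : Alive W w t) : 0 < OP.ups W t w := by
  rw [OP.ups, ← Zfl_im]
  exact mul_pos (FL.Zfl_im_pos h) (Real.exp_pos _)

/-- **Area drop.**  `u0` is any `1`-Lipschitz function `≥ 1`.  `x` has conformal radius
`≥ θ u0 x / 1.01` at time `σ`; `w` is close to `x` and is dead or has a tiny conformal radius at
time `T`.  Then every point near `x` leaves the set `{ups ≥ (θ/10) u0}` between `σ` and `T`. -/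
theorem region (hW : ContinuousOn W (Ici 0)) {u0 : ℂ → ℝ} (hu1 : ∀ z, 1 ≤ u0 z)
    (hul : ∀ a b, |u0 a - u0 b| ≤ ‖a - b‖) {θ : ℝ} (hθ : 0 < θ) (hθ1 : θ ≤ 1)
    (hx : Alive W x σ) (hxu : 0.99 * (θ * u0 x) ≤ OP.ups W σ x)
    (hwx : ‖w - x‖ ≤ 0.005 * (θ * u0 x))
    (hwT : Alive W w T → OP.ups W T w ≤ 0.01 * (θ * u0 x)) {p : ℂ}
    (hp : ‖p - x‖ ≤ 0.01 * (θ * u0 x)) :
    (Alive W p σ ∧ θ / 10 * u0 p ≤ OP.ups W σ p) ∧
      ¬ (Alive W p T ∧ θ / 10 * u0 p ≤ OP.ups W T p) := by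
  have hux := hu1 x
  set R : ℝ := θ * u0 x with hR
  have hRpos : 0 < R := by positivity
  have hpx := abs_le.1 (hul p x)
  have hRu : R ≤ u0 x := by rw [hR]; nlinarith
  have hup : u0 p ≤ 1.01 * u0 x := by nlinarith [hpx.2]
  have hup' : 0.99 * u0 x ≤ u0 p := by nlinarith [hpx.1]
  have h1 : θ / 10 * u0 p ≤ 0.101 * R := by
    rw [hR]; nlinarith
  have h2 : 0.099 * R ≤ θ / 10 * u0 p := by
    rw [hR]; nlinarith
  have hb := ball_subset_Dom hW hx
  constructor
  · have hsub : ball p (0.48 * R) ⊆ Dom W σ := by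
      refine subset_trans ?_ hb
      intro y hy
      rw [mem_ball, dist_eq_norm] at hy ⊢
      have : ‖y - x‖ ≤ ‖y - p‖ + ‖p - x‖ := by
        have := norm_add_le (y - p) (p - x)
        simpa using this
      linarith
    have hal : Alive W p σ := hsub (mem_ball_self (by positivity))
    refine ⟨hal, ?_⟩
    have := le_two_ups hW hal (by positivity) hsub
    linarith
  · rintro ⟨hal, hup2⟩
    have hb2 := ball_subset_Dom hW hal
    have hsub : ball w (0.03 * R) ⊆ Dom W T := by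
      refine subset_trans ?_ hb2
      intro y hy
      rw [mem_ball, dist_eq_norm] at hy ⊢
      have h3 : ‖y - p‖ ≤ ‖y - w‖ + ‖w - x‖ + ‖x - p‖ := by
        have e : y - p = (y - w) + (w - x) + (x - p) := by ring
        rw [e]
        exact norm_add₃_le
      have h4 : ‖x - p‖ = ‖p - x‖ := norm_sub_rev _ _
      linarith
    have hw : Alive W w T := hsub (mem_ball_self (by positivity))
    have h5 := le_two_ups hW hw (by positivity) hsub
    have h6 := hwT hw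
    linarith


/-! ### one-point calculus on a time interval -/

theorem normsq_Zfl (z : ℂ) : ‖z‖ ^ 2 = z.re ^ 2 + z.im ^ 2 := by
  rw [← Complex.normSq_eq_norm_sq, Complex.normSq_apply]; ring

/-- `|x| ≤ 1` gives `|Z| ≤ cosh 1 * Im Z`. -/
theorem norm_le_of_xfl (h : Alive W w t) (hx : |OP.xfl W t w| ≤ 1) :
    ‖Zfl W t w‖ ≤ Real.cosh 1 * (Zfl W t w).im := by
  have hY := FL.Zfl_im_pos h
  have h1 : Real.cosh (OP.xfl W t w) ≤ Real.cosh 1 := by
    rw [Real.cosh_le_cosh]; simpa using hx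
  have h2 : Real.cosh (OP.xfl W t w) ^ 2 = 1 + (-(Zfl W t w).re / (Zfl W t w).im) ^ 2 := by
    rw [OP.xfl, Real.cosh_arsinh, Real.sq_sqrt (by positivity)]
  have h3 : ‖Zfl W t w‖ ^ 2 = (Real.cosh (OP.xfl W t w) * (Zfl W t w).im) ^ 2 := by
    rw [mul_pow, h2, normsq_Zfl]
    field_simp
    ring
  have hc := Real.cosh_pos (OP.xfl W t w)
  have h4 : ‖Zfl W t w‖ = Real.cosh (OP.xfl W t w) * (Zfl W t w).im := by
    rw [← abs_of_nonneg (norm_nonneg (Zfl W t w)),
      ← abs_of_nonneg (show 0 ≤ Real.cosh (OP.xfl W t w) * (Zfl W t w).im by positivity)]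
    exact (sq_eq_sq_iff_abs_eq_abs _ _).1 h3
  rw [h4]
  exact mul_le_mul_of_nonneg_right h1 hY.le

theorem continuousOn_inv_normsq (hW : ContinuousOn W (Ici 0)) (h : Alive W w t) :
    ContinuousOn (fun s => 1 / ‖Zfl W s w‖ ^ 2) (Icc 0 t) := by
  refine ContinuousOn.div continuousOn_const ((continuousOn_Zfl hW h).norm.pow 2) ?_
  intro s hs
  exact pow_ne_zero 2 (norm_ne_zero_iff.2 (Zfl_ne_zero (h.mono hs.1 hs.2)))

theorem hasDeriv_ath (hW : ContinuousOn W (Ici 0)) (h : Alive W w t) {s : ℝ}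
    (hs : s ∈ Icc 0 t) :
    HasDerivWithinAt (fun r => OP.ath W r w) (1 / ‖Zfl W s w‖ ^ 2) (Icc 0 t) s := by
  have hc := continuousOn_inv_normsq hW h
  have hcc : ContinuousOn (fun s => ((1 / ‖Zfl W s w‖ ^ 2 : ℝ) : ℂ)) (Icc 0 t) :=
    Complex.continuous_ofReal.comp_continuousOn hc
  have h1 := hasDerivWithinAt_primitive hcc hs
  have h2 := FL.hasDerivWithinAt_re h1
  simp only [Complex.ofReal_re] at h2
  refine h2.congr_of_mem ?_ hs
  intro r _
  simp only [OP.ath]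
  rw [intervalIntegral.integral_ofReal, Complex.ofReal_re]

theorem hasDeriv_log_ups (hW : ContinuousOn W (Ici 0)) (h : Alive W w t) {s : ℝ}
    (hs : s ∈ Icc 0 t) :
    HasDerivWithinAt (fun r => Real.log (OP.ups W r w))
      (-(4 * (Zfl W s w).im ^ 2) / (‖Zfl W s w‖ ^ 2) ^ 2) (Icc 0 t) s := by
  have hal : ∀ r ∈ Icc 0 t, Alive W w r := fun r hr => h.mono hr.1 hr.2
  have hZ : Zfl W s w ≠ 0 := Zfl_ne_zero (hal s hs)
  have hY := FL.Zfl_im_pos (hal s hs)
  -- imaginary part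
  have h1 := FL.hasDerivWithinAt_im (hasDerivWithinAt_gfl' h hs)
  have hY' : (gfl W s w).im ≠ 0 := by rw [← Zfl_im]; exact hY.ne'
  have h2 := h1.log hY'
  -- the exponent
  have hc : ContinuousOn (fun r => 2 / (Zfl W r w) ^ 2) (Icc 0 t) := by
    refine ContinuousOn.div continuousOn_const ((continuousOn_Zfl hW h).pow 2) ?_
    intro r hr
    exact pow_ne_zero 2 (Zfl_ne_zero (hal r hr))
  have h3 := FL.hasDerivWithinAt_re (hasDerivWithinAt_primitive hc hs)
  have h4 := h2.add h3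
  have hval : (2 / Zfl W s w).im / (gfl W s w).im + (2 / (Zfl W s w) ^ 2).re =
      -(4 * (Zfl W s w).im ^ 2) / (‖Zfl W s w‖ ^ 2) ^ 2 := by
    rw [← Zfl_im]
    have hn : Complex.normSq (Zfl W s w) ≠ 0 := by simpa [Complex.normSq_eq_zero] using hZ
    rw [← Complex.normSq_eq_norm_sq]
    have e1 : (2 / Zfl W s w).im = -(2 * (Zfl W s w).im) / Complex.normSq (Zfl W s w) := by
      rw [Complex.div_im]; simp; ring
    have e2 : (2 / (Zfl W s w) ^ 2).re =
        2 * ((Zfl W s w).re ^ 2 - (Zfl W s w).im ^ 2) / Complex.normSq (Zfl W s w) ^ 2 := by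
      rw [Complex.div_re]
      simp [pow_two]
    rw [e1, e2]
    have hne : (Zfl W s w).im ≠ 0 := hY.ne'
    have hq : Complex.normSq (Zfl W s w) = (Zfl W s w).re ^ 2 + (Zfl W s w).im ^ 2 := by
      rw [Complex.normSq_apply]; ring
    field_simp
    rw [hq]; ring
  rw [hval] at h4
  refine h4.congr_of_mem ?_ hs
  intro r hr
  have hYr := FL.Zfl_im_pos (hal r hr)
  simp only [Pi.add_apply, OP.ups]
  rw [Real.log_mul (by rw [← Zfl_im]; exact hYr.ne') (Real.exp_ne_zero _), Real.log_exp]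
  congr 1
  have hi : IntervalIntegrable (fun r => 2 / (Zfl W r w) ^ 2) volume 0 r := by
    apply ContinuousOn.intervalIntegrable
    rw [uIcc_of_le hr.1]
    exact hc.mono (Icc_subset_Icc_right hr.2)
  have := (Complex.reCLM).intervalIntegral_comp_comm hi
  simp only [Complex.reCLM_apply] at this
  rw [← this]
  congr 1
  funext r
  rw [div_eq_mul_inv]
  simp [Complex.mul_re]

theorem ath_mono (hW : ContinuousOn W (Ici 0)) (h : Alive W w t) :
    MonotoneOn (fun s => OP.ath W s w) (Icc 0 t) := by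
  refine monotoneOn_of_hasDerivWithinAt_nonneg (convex_Icc 0 t)
    (fun s hs => (hasDeriv_ath hW h hs).continuousWithinAt)
    (f' := fun s => 1 / ‖Zfl W s w‖ ^ 2) ?_ ?_
  · intro s hs
    exact (hasDeriv_ath hW h (interior_subset hs)).mono interior_subset
  · intro s _; positivity

theorem ups_anti (hW : ContinuousOn W (Ici 0)) (h : Alive W w t) {s : ℝ} (hs0 : 0 ≤ s)
    (hst : s ≤ t) : OP.ups W t w ≤ OP.ups W s w := by
  have h1 : AntitoneOn (fun r => Real.log (OP.ups W r w)) (Icc 0 t) := by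
    refine antitoneOn_of_hasDerivWithinAt_nonpos (convex_Icc 0 t)
      (fun s hs => (hasDeriv_log_ups hW h hs).continuousWithinAt)
      (f' := fun s => -(4 * (Zfl W s w).im ^ 2) / (‖Zfl W s w‖ ^ 2) ^ 2) ?_ ?_
    · intro s hs
      exact (hasDeriv_log_ups hW h (interior_subset hs)).mono interior_subset
    · intro s _
      rw [neg_div]
      have : 0 ≤ (4 * (Zfl W s w).im ^ 2) / (‖Zfl W s w‖ ^ 2) ^ 2 := by positivity
      linarith
  have h2 := h1 ⟨hs0, hst⟩ ⟨hs0.trans hst, le_rfl⟩ hst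
  exact (Real.log_le_log_iff (ups_pos h) (ups_pos (h.mono hs0 hst))).1 h2


/-! ### tube: bounds on time, driving function and conformal radius -/

theorem cosh_one_le : Real.cosh 1 ≤ 1.55 := by
  rw [Real.cosh_eq]
  have h1 := Real.exp_one_lt_d9
  have h2 : Real.exp (-1) ≤ 0.37 := by
    rw [Real.exp_neg, inv_le_comm₀ (Real.exp_pos 1) (by norm_num)]
    have := Real.exp_one_gt_d9
    norm_num at this ⊢
    linarith
  linarith

/-- `z` stays in the tube `|x| ≤ 1` from time `0` until its `K`-time is `4`. -/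
structure Tube (W : ℝ → ℝ) (z : ℂ) (t : ℝ) : Prop where
  alive : Alive W z t
  fin : OP.ath W t z = 4
  tube : ∀ s ∈ Icc 0 t, |OP.xfl W s z| ≤ 1

theorem hasDerivWithinAt_Ici_of_Icc' {g : ℝ → ℝ} {g' : ℝ} {T s : ℝ} (hs : s ∈ Ico 0 T)
    (h : HasDerivWithinAt g g' (Icc 0 T) s) : HasDerivWithinAt g g' (Ici s) s := by
  refine (h.mono (Icc_subset_Icc hs.1 le_rfl)).mono_of_mem_nhdsWithin ?_
  exact Icc_mem_nhdsGE hs.2

section tube
variable {z : ℂ}

theorem Tube.norm_le (h : Tube W z t) {s : ℝ} (hs : s ∈ Icc 0 t) :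
    ‖Zfl W s z‖ ≤ 1.55 * z.im := by
  have h1 := norm_le_of_xfl (h.alive.mono hs.1 hs.2) (h.tube s hs)
  have h2 : (Zfl W s z).im ≤ z.im := by
    rw [Zfl_im]; exact im_anti' (h.alive.mono hs.1 hs.2)
  have h3 := FL.Zfl_im_pos (h.alive.mono hs.1 hs.2)
  have h4 := cosh_one_le
  have h5 := Real.cosh_pos 1
  nlinarith

theorem ath_zero (W : ℝ → ℝ) (z : ℂ) : OP.ath W 0 z = 0 := by simp [OP.ath]

theorem Tube.time_le (hW : ContinuousOn W (Ici 0)) (h : Tube W z t) :
    t ≤ (4 * z.im) ^ 2 := by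
  have ht := h.alive.1
  have hz := h.alive.im_pos
  set M : ℝ := 1.55 * z.im with hM
  have hMp : 0 < M := by positivity
  have h1 : MonotoneOn (fun s => M ^ 2 * OP.ath W s z - s) (Icc 0 t) := by
    refine monotoneOn_of_hasDerivWithinAt_nonneg (convex_Icc 0 t)
      (f' := fun s => M ^ 2 * (1 / ‖Zfl W s z‖ ^ 2) - 1) ?_ ?_ ?_
    · intro s hs
      exact ((hasDeriv_ath hW h.alive hs).continuousWithinAt.const_smul (M ^ 2)).sub
        continuousWithinAt_id
    · intro s hs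
      exact (((hasDeriv_ath hW h.alive (interior_subset hs)).const_mul (M ^ 2)).sub
        (hasDerivWithinAt_id s _)).mono interior_subset
    · intro s hs
      have hs' := interior_subset hs
      have h2 := h.norm_le hs'
      have h3 : 0 < ‖Zfl W s z‖ := norm_pos_iff.2 (Zfl_ne_zero (h.alive.mono hs'.1 hs'.2))
      rw [mul_one_div, sub_nonneg, le_div_iff₀ (by positivity), one_mul]
      exact pow_le_pow_left₀ h3.le h2 2
  have h2 := h1 ⟨le_rfl, ht⟩ ⟨ht, le_rfl⟩ ht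
  simp only [ath_zero, h.fin] at h2
  rw [hM] at h2
  nlinarith [sq_nonneg z.im]

theorem Tube.disp_le (hW : ContinuousOn W (Ici 0)) (h : Tube W z t) {s : ℝ} (hs : s ∈ Icc 0 t) :
    ‖gfl W s z - z‖ ≤ 12.4 * z.im := by
  have ht := h.alive.1
  have hz := h.alive.im_pos
  set M : ℝ := 1.55 * z.im with hM
  have hMp : 0 < M := by positivity
  have h0 : gfl W 0 z = z := FLC.gfl_zero_of_im_pos hW (h.alive.mono le_rfl ht)
  have key := image_norm_le_of_norm_deriv_right_le_deriv_boundary'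
    (f := fun r => gfl W r z - z) (f' := fun r => 2 / Zfl W r z) (a := 0) (b := t)
    (B := fun r => 2 * M * OP.ath W r z) (B' := fun r => 2 * M * (1 / ‖Zfl W r z‖ ^ 2))
    ((continuousOn_gfl h.alive).sub continuousOn_const)
    (fun r hr => ((hasDerivWithinAt_Ici_of_Icc hr
      (hasDerivWithinAt_gfl' h.alive ⟨hr.1, hr.2.le⟩)).sub_const z))
    (by simp [h0, ath_zero])
    (fun r hr => ((hasDeriv_ath hW h.alive hr).continuousWithinAt.const_smul (2 * M)))
    (fun r hr => (hasDerivWithinAt_Ici_of_Icc' hr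
      ((hasDeriv_ath hW h.alive ⟨hr.1, hr.2.le⟩).const_mul (2 * M))))
    (fun r hr => by
      have hr' : r ∈ Icc 0 t := ⟨hr.1, hr.2.le⟩
      have h2 := h.norm_le hr'
      have h3 : 0 < ‖Zfl W r z‖ := norm_pos_iff.2 (Zfl_ne_zero (h.alive.mono hr'.1 hr'.2))
      rw [norm_div, Complex.norm_ofNat, mul_one_div, div_le_div_iff₀ h3 (by positivity)]
      nlinarith)
  have h4 := key hs
  have h5 := ath_mono hW h.alive hs ⟨ht, le_rfl⟩ hs.2
  simp only [h.fin] at h5
  have h6 : 2 * M * OP.ath W s z ≤ 2 * M * 4 := by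
    exact mul_le_mul_of_nonneg_left h5 (by positivity)
  calc ‖gfl W s z - z‖ ≤ 2 * M * OP.ath W s z := h4
    _ ≤ 2 * M * 4 := h6
    _ = 12.4 * z.im := by rw [hM]; ring

/-- the driving function stays small during the tube. -/
theorem Tube.driving_le (hW : ContinuousOn W (Ici 0)) (h : Tube W z t) (hre : z.re = 0)
    {s : ℝ} (hs : s ∈ Icc 0 t) : |W s| ≤ 16 * z.im := by
  have hz := h.alive.im_pos
  have h1 := h.disp_le hW hs
  have h2 := h.norm_le hs
  have e : (W s : ℂ) = (gfl W s z - z) - Zfl W s z + z := by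
    rw [Zfl]; ring
  have e2 : W s = ((gfl W s z - z) - Zfl W s z).re := by
    have := congrArg Complex.re e
    rw [Complex.ofReal_re, Complex.add_re, hre, add_zero] at this
    exact this
  rw [e2]
  calc |((gfl W s z - z) - Zfl W s z).re| ≤ ‖(gfl W s z - z) - Zfl W s z‖ :=
        Complex.abs_re_le_norm _
    _ ≤ ‖gfl W s z - z‖ + ‖Zfl W s z‖ := norm_sub_le _ _
    _ ≤ 16 * z.im := by linarith

/-- the conformal radius drops by the factor `1/200` during the tube. -/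
theorem Tube.ups_le (hW : ContinuousOn W (Ici 0)) (h : Tube W z t) :
    OP.ups W t z ≤ 0.005 * z.im := by
  have ht := h.alive.1
  have hz := h.alive.im_pos
  have h1 : AntitoneOn (fun r => Real.log (OP.ups W r z) + 3 / 2 * OP.ath W r z) (Icc 0 t) := by
    refine antitoneOn_of_hasDerivWithinAt_nonpos (convex_Icc 0 t)
      (f' := fun s => -(4 * (Zfl W s z).im ^ 2) / (‖Zfl W s z‖ ^ 2) ^ 2 +
        3 / 2 * (1 / ‖Zfl W s z‖ ^ 2)) ?_ ?_ ?_
    · intro s hs
      exact (hasDeriv_log_ups hW h.alive hs).continuousWithinAt.add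
        ((hasDeriv_ath hW h.alive hs).continuousWithinAt.const_smul (3 / 2 : ℝ))
    · intro s hs
      exact ((hasDeriv_log_ups hW h.alive (interior_subset hs)).add
        ((hasDeriv_ath hW h.alive (interior_subset hs)).const_mul (3 / 2))).mono interior_subset
    · intro s hs
      have hs' := interior_subset hs
      have hal := h.alive.mono hs'.1 hs'.2
      have h2 := norm_le_of_xfl hal (h.tube s hs')
      have h3 : 0 < ‖Zfl W s z‖ := norm_pos_iff.2 (Zfl_ne_zero hal)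
      have h4 := FL.Zfl_im_pos hal
      have h5 : ‖Zfl W s z‖ ≤ 1.55 * (Zfl W s z).im := by
        have := cosh_one_le
        nlinarith
      have h6 : ‖Zfl W s z‖ ^ 2 ≤ 1.55 ^ 2 * (Zfl W s z).im ^ 2 := by
        rw [← mul_pow]; exact pow_le_pow_left₀ h3.le h5 2
      have e : -(4 * (Zfl W s z).im ^ 2) / (‖Zfl W s z‖ ^ 2) ^ 2 +
          3 / 2 * (1 / ‖Zfl W s z‖ ^ 2) =
          (3 / 2 * ‖Zfl W s z‖ ^ 2 - 4 * (Zfl W s z).im ^ 2) / (‖Zfl W s z‖ ^ 2) ^ 2 := by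
        field_simp
        ring
      rw [e]
      apply div_nonpos_of_nonpos_of_nonneg _ (by positivity)
      nlinarith [sq_nonneg (Zfl W s z).im]
  have h2 := h1 ⟨le_rfl, ht⟩ ⟨ht, le_rfl⟩ ht
  simp only [ath_zero, h.fin] at h2
  have h0 : gfl W 0 z = z := FLC.gfl_zero_of_im_pos hW (h.alive.mono le_rfl ht)
  have hu0 : OP.ups W 0 z = z.im := by simp [OP.ups, h0]
  rw [hu0] at h2
  have h3 : Real.log (OP.ups W t z) ≤ Real.log (z.im * Real.exp (-6)) := by
    rw [Real.log_mul hz.ne' (Real.exp_ne_zero _), Real.log_exp]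
    linarith
  have h4 := (Real.log_le_log_iff (ups_pos h.alive) (by positivity)).1 h3
  have h5 : Real.exp (-6) ≤ 0.005 := by
    rw [Real.exp_neg, inv_le_comm₀ (Real.exp_pos _) (by norm_num)]
    have e6 : Real.exp 6 = Real.exp 1 ^ 6 := by rw [← Real.exp_nat_mul]; norm_num
    rw [e6]
    have := Real.exp_one_gt_d9
    calc ((0.005 : ℝ))⁻¹ ≤ 2.7 ^ 6 := by norm_num
      _ ≤ Real.exp 1 ^ 6 := pow_le_pow_left₀ (by norm_num) (by linarith) 6
  nlinarith

end tube


/-! ### the area functional for a univalent map -/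

section area

/-- the set of points of `f(H)` whose conformal radius is `≥ th * u0` -/
def Reg (th : ℝ) (u0 : ℂ → ℝ) (f : ℂ → ℂ) : Set ℂ :=
  {p | ∃ z, 0 < z.im ∧ f z = p ∧ th * u0 p ≤ KB1.ups f z}

/-- the area functional -/
noncomputable def area (th η : ℝ) (u0 : ℂ → ℝ) (f : ℂ → ℂ) : ENNReal :=
  ∫⁻ p in Reg th u0 f, ENNReal.ofReal (u0 p ^ (-2 - η))

variable {f F : ℂ → ℂ} {u0 : ℂ → ℝ} {θ : ℝ}

/-- **Area drop, two univalent maps.** -/
theorem region_map (hf : DifferentiableOn ℂ f KB1.Hs) (hfi : InjOn f KB1.Hs)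
    (hF : DifferentiableOn ℂ F KB1.Hs) (hFi : InjOn F KB1.Hs) (hu1 : ∀ z, 1 ≤ u0 z)
    (hul : ∀ a b, |u0 a - u0 b| ≤ ‖a - b‖) (hθ : 0 < θ) (hθ1 : θ ≤ 1) {z0 : ℂ} (hz0 : 0 < z0.im)
    (hz0u : 0.99 * (θ * u0 (f z0)) ≤ KB1.ups f z0)
    (hzT : ∀ z, 0 < z.im → F z = f z0 → KB1.ups F z ≤ 0.01 * (θ * u0 (f z0))) {p : ℂ}
    (hp : ‖p - f z0‖ ≤ 0.01 * (θ * u0 (f z0))) :
    p ∈ Reg (θ / 10) u0 f ∧ p ∉ Reg (θ / 10) u0 F := by
  have hux := hu1 (f z0)
  set x : ℂ := f z0 with hx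
  set R : ℝ := θ * u0 x with hR
  have hRpos : 0 < R := by positivity
  have hpx := abs_le.1 (hul p x)
  have hRu : R ≤ u0 x := by rw [hR]; nlinarith
  have hup : u0 p ≤ 1.01 * u0 x := by nlinarith [hpx.2]
  have hup' : 0.99 * u0 x ≤ u0 p := by nlinarith [hpx.1]
  have h1 : θ / 10 * u0 p ≤ 0.101 * R := by
    rw [hR]; nlinarith
  have h2 : 0.099 * R ≤ θ / 10 * u0 p := by
    rw [hR]; nlinarith
  constructor
  · have hb := KB1.ball_subset_image hf hfi hz0
    have hsub : ball p (0.48 * R) ⊆ f '' KB1.Hs := by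
      refine subset_trans ?_ hb
      intro y hy
      rw [mem_ball, dist_eq_norm] at hy ⊢
      have : ‖y - x‖ ≤ ‖y - p‖ + ‖p - x‖ := by
        have := norm_add_le (y - p) (p - x)
        simpa using this
      linarith
    obtain ⟨z, hz, hzp⟩ := hsub (mem_ball_self (by positivity))
    refine ⟨z, hz, hzp, ?_⟩
    have := KB1.le_two_ups_of_ball_subset hf hfi hz (r := 0.48 * R) (by positivity)
      (by rw [hzp]; exact hsub)
    linarith
  · rintro ⟨z, hz, hzp, hup2⟩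
    have hb2 := KB1.ball_subset_image hF hFi hz
    rw [hzp] at hb2
    have hsub : ball x (0.03 * R) ⊆ F '' KB1.Hs := by
      refine subset_trans ?_ hb2
      intro y hy
      rw [mem_ball, dist_eq_norm] at hy ⊢
      have h3 : ‖y - p‖ ≤ ‖y - x‖ + ‖x - p‖ := norm_sub_le_norm_sub_add_norm_sub _ _ _
      have h4 : ‖x - p‖ = ‖p - x‖ := norm_sub_rev _ _
      linarith
    obtain ⟨z', hz', hz'x⟩ := hsub (mem_ball_self (by positivity))
    have h5 := KB1.le_two_ups_of_ball_subset hF hFi hz' (r := 0.03 * R) (by positivity)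
      (by rw [hz'x]; exact hsub)
    have h6 := hzT z' hz' hz'x
    linarith

/-- lower bound of the weight of a small ball -/
theorem ball_weight (hu1 : ∀ z, 1 ≤ u0 z) (hul : ∀ a b, |u0 a - u0 b| ≤ ‖a - b‖)
    (hθ : 0 < θ) (hθ1 : θ ≤ 1) {η : ℝ} (hη : 0 ≤ η) (hη1 : η ≤ 1) (x : ℂ) :
    ENNReal.ofReal (3e-4 * θ ^ 2 * u0 x ^ (-η)) ≤
      ∫⁻ p in closedBall x (0.01 * (θ * u0 x)), ENNReal.ofReal (u0 p ^ (-2 - η)) := by
  have hux := hu1 x
  set R : ℝ := θ * u0 x with hR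
  have hRpos : 0 < R := by positivity
  have hRu : R ≤ u0 x := by rw [hR]; nlinarith
  have h1 : ∀ p ∈ closedBall x (0.01 * R),
      ENNReal.ofReal ((1.01 * u0 x) ^ (-2 - η)) ≤ ENNReal.ofReal (u0 p ^ (-2 - η)) := by
    intro p hp
    rw [mem_closedBall, dist_eq_norm] at hp
    have hpx := abs_le.1 (hul p x)
    apply ENNReal.ofReal_le_ofReal
    apply Real.rpow_le_rpow_of_nonpos (by linarith [hu1 p]) _ (by linarith)
    linarith [hpx.2]
  have h2 : ∫⁻ _ in closedBall x (0.01 * R), ENNReal.ofReal ((1.01 * u0 x) ^ (-2 - η)) ≤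
      ∫⁻ p in closedBall x (0.01 * R), ENNReal.ofReal (u0 p ^ (-2 - η)) :=
    setLIntegral_mono' measurableSet_closedBall h1
  refine le_trans ?_ h2
  rw [setLIntegral_const, Complex.volume_closedBall, ← ENNReal.ofReal_pow (by positivity),
    ← ENNReal.ofReal_coe_nnreal, ← ENNReal.ofReal_mul (by positivity),
    ← ENNReal.ofReal_mul (by positivity)]
  apply ENNReal.ofReal_le_ofReal
  have h3 : (1.01 * u0 x) ^ (-2 - η) = (1.01 : ℝ) ^ (-2 - η) * (u0 x ^ (-η) / u0 x ^ 2) := by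
    rw [Real.mul_rpow (by norm_num) (by positivity)]
    congr 1
    rw [show -2 - η = -η - (2 : ℕ) by push_cast; ring, Real.rpow_sub_natCast (by positivity)]
  have h4 : (0.97 : ℝ) ≤ (1.01 : ℝ) ^ (-2 - η) := by
    calc (0.97 : ℝ) ≤ (1.01 : ℝ) ^ (-(3 : ℕ) : ℝ) := by
          rw [Real.rpow_neg (by norm_num), Real.rpow_natCast]; norm_num
      _ ≤ (1.01 : ℝ) ^ (-2 - η) := by
          apply Real.rpow_le_rpow_of_exponent_le (by norm_num)
          push_cast; linarith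
  rw [h3]
  have hpi : (3.1 : ℝ) ≤ Real.pi := by linarith [Real.pi_gt_d2]
  have hq : 0 < u0 x ^ (-η) := Real.rpow_pos_of_pos (by positivity) _
  have h5 : (1.01 : ℝ) ^ (-2 - η) * (u0 x ^ (-η) / u0 x ^ 2) *
      ((0.01 * R) ^ 2 * ((NNReal.pi : NNReal) : ℝ)) =
      (1.01 : ℝ) ^ (-2 - η) * Real.pi * (1e-4 * θ ^ 2 * u0 x ^ (-η)) := by
    rw [hR, NNReal.coe_real_pi]
    field_simp
    ring
  rw [h5]
  have h6 : (3 : ℝ) ≤ (1.01 : ℝ) ^ (-2 - η) * Real.pi := by nlinarith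
  have h7 : 0 ≤ 1e-4 * θ ^ 2 * u0 x ^ (-η) := by positivity
  nlinarith [mul_le_mul_of_nonneg_right h6 h7]

/-- **Area drop.** -/
theorem area_drop (hf : DifferentiableOn ℂ f KB1.Hs) (hfi : InjOn f KB1.Hs)
    (hF : DifferentiableOn ℂ F KB1.Hs) (hFi : InjOn F KB1.Hs) (hu1 : ∀ z, 1 ≤ u0 z)
    (hul : ∀ a b, |u0 a - u0 b| ≤ ‖a - b‖) (hθ : 0 < θ) (hθ1 : θ ≤ 1) {η : ℝ} (hη : 0 ≤ η)
    (hη1 : η ≤ 1) {z0 : ℂ} (hz0 : 0 < z0.im)
    (hmono : Reg (θ / 10) u0 F ⊆ Reg (θ / 10) u0 f)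
    (hz0u : 0.99 * (θ * u0 (f z0)) ≤ KB1.ups f z0)
    (hzT : ∀ z, 0 < z.im → F z = f z0 → KB1.ups F z ≤ 0.01 * (θ * u0 (f z0))) :
    area (θ / 10) η u0 F + ENNReal.ofReal (3e-4 * θ ^ 2 * u0 (f z0) ^ (-η)) ≤
      area (θ / 10) η u0 f := by
  have hdisj : Disjoint (Reg (θ / 10) u0 F) (closedBall (f z0) (0.01 * (θ * u0 (f z0)))) := by
    rw [Set.disjoint_right]
    intro p hp
    rw [mem_closedBall, dist_eq_norm] at hp
    exact (region_map hf hfi hF hFi hu1 hul hθ hθ1 hz0 hz0u hzT hp).2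
  have hsub : Reg (θ / 10) u0 F ∪ closedBall (f z0) (0.01 * (θ * u0 (f z0))) ⊆
      Reg (θ / 10) u0 f := by
    apply union_subset hmono
    intro p hp
    rw [mem_closedBall, dist_eq_norm] at hp
    exact (region_map hf hfi hF hFi hu1 hul hθ hθ1 hz0 hz0u hzT hp).1
  calc area (θ / 10) η u0 F + ENNReal.ofReal (3e-4 * θ ^ 2 * u0 (f z0) ^ (-η))
      ≤ area (θ / 10) η u0 F + ∫⁻ p in closedBall (f z0) (0.01 * (θ * u0 (f z0))),
          ENNReal.ofReal (u0 p ^ (-2 - η)) := by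
        gcongr
        exact ball_weight hu1 hul hθ hθ1 hη hη1 _
    _ = ∫⁻ p in Reg (θ / 10) u0 F ∪ closedBall (f z0) (0.01 * (θ * u0 (f z0))),
          ENNReal.ofReal (u0 p ^ (-2 - η)) := by
        rw [area, lintegral_union measurableSet_closedBall hdisj]
    _ ≤ area (θ / 10) η u0 f := lintegral_mono_set hsub

end area


/-! ### the restarted map `f ∘ ffl W t` -/

section restart

variable {f : ℂ → ℂ} {u0 : ℂ → ℝ} {θ : ℝ}

theorem ffl_maps (hW : ContinuousOn W (Ici 0)) (ht : 0 ≤ t) :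
    MapsTo (ffl W t) KB1.Hs KB1.Hs := by
  intro z hz
  have h1 : ffl W t z ∈ Dom W t := by
    rw [← FLC.ffl_image hW ht]; exact ⟨z, hz, rfl⟩
  exact Alive.im_pos h1

theorem alive_ffl (hW : ContinuousOn W (Ici 0)) (ht : 0 ≤ t) {z : ℂ} (hz : 0 < z.im) :
    Alive W (ffl W t z) t := by
  have h1 : ffl W t z ∈ Dom W t := by
    rw [← FLC.ffl_image hW ht]; exact ⟨z, hz, rfl⟩
  exact h1

theorem differentiableOn_comp_ffl (hW : ContinuousOn W (Ici 0)) (ht : 0 ≤ t)
    (hf : DifferentiableOn ℂ f KB1.Hs) :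
    DifferentiableOn ℂ (fun z => f (ffl W t z)) KB1.Hs :=
  hf.comp (FLC.differentiableOn_ffl hW ht) (ffl_maps hW ht)

theorem injOn_comp_ffl (hW : ContinuousOn W (Ici 0)) (ht : 0 ≤ t) (hfi : InjOn f KB1.Hs) :
    InjOn (fun z => f (ffl W t z)) KB1.Hs :=
  hfi.comp (FLC.injOn_ffl hW ht) (ffl_maps hW ht)

theorem ups_zero (hW : ContinuousOn W (Ici 0)) {z : ℂ} (hz : 0 < z.im) :
    OP.ups W 0 z = z.im := by
  have h0 : gfl W 0 z = z := FLC.gfl_zero_of_im_pos hW (alive_zero hz)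
  simp [OP.ups, h0]

theorem ups_comp_ffl (hW : ContinuousOn W (Ici 0)) (ht : 0 ≤ t)
    (hf : DifferentiableOn ℂ f KB1.Hs) {z : ℂ} (hz : 0 < z.im) :
    KB1.ups (fun z => f (ffl W t z)) z = ‖deriv f (ffl W t z)‖ * OP.ups W t (ffl W t z) := by
  have h1 : HasDerivAt f (deriv f (ffl W t z)) (ffl W t z) :=
    ((hf _ (ffl_maps hW ht hz)).differentiableAt
      (KB1.isOpen_Hs.mem_nhds (ffl_maps hW ht hz))).hasDerivAt
  have h2 := FLC.hasDerivAt_ffl hW ht hz
  have h3 := (h1.comp z h2).deriv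
  have h4 : deriv (fun z => f (ffl W t z)) z = deriv f (ffl W t z) * deriv (ffl W t) z := by
    rw [h2.deriv]; exact h3
  rw [KB1.ups, h4, norm_mul, ups_eq hW (alive_ffl hW ht hz), KB1.ups, FLC.Zfl_ffl hW ht hz]
  ring

theorem Reg_mono (hW : ContinuousOn W (Ici 0)) (ht : 0 ≤ t)
    (hf : DifferentiableOn ℂ f KB1.Hs) {th : ℝ} :
    Reg th u0 (fun z => f (ffl W t z)) ⊆ Reg th u0 f := by
  rintro p ⟨z, hz, hzp, hup⟩
  refine ⟨ffl W t z, ffl_maps hW ht hz, hzp, hup.trans ?_⟩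
  rw [ups_comp_ffl hW ht hf hz, KB1.ups, mul_comm]
  have h1 := ups_anti hW (alive_ffl hW ht hz) le_rfl ht
  rw [ups_zero hW (ffl_maps hW ht hz)] at h1
  exact mul_le_mul_of_nonneg_right h1 (norm_nonneg _)

theorem area_mono (hW : ContinuousOn W (Ici 0)) (ht : 0 ≤ t)
    (hf : DifferentiableOn ℂ f KB1.Hs) {th η : ℝ} :
    area th η u0 (fun z => f (ffl W t z)) ≤ area th η u0 f :=
  lintegral_mono_set (Reg_mono hW ht hf)

/-- **LB4, deterministic half.**  Case A: `U_f(z0) = θ u0(f z0)`.  If the tube at `z0` ends before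
time `t`, the area functional drops by a multiple of `varpi = u0(x)^(-η)`. -/
theorem consume (hW : ContinuousOn W (Ici 0)) (hf : DifferentiableOn ℂ f KB1.Hs)
    (hfi : InjOn f KB1.Hs) (hu1 : ∀ z, 1 ≤ u0 z)
    (hul : ∀ a b, |u0 a - u0 b| ≤ ‖a - b‖) (hθ : 0 < θ) (hθ1 : θ ≤ 1) {η : ℝ} (hη : 0 ≤ η)
    (hη1 : η ≤ 1) {z0 : ℂ} (hz0 : 0 < z0.im) (hA : KB1.ups f z0 = θ * u0 (f z0))
    {t1 : ℝ} (h1 : Tube W z0 t1) (ht : t1 ≤ t) :
    area (θ / 10) η u0 (fun z => f (ffl W t z)) +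
        ENNReal.ofReal (3e-4 * θ ^ 2 * u0 (f z0) ^ (-η)) ≤
      area (θ / 10) η u0 f := by
  have ht0 : 0 ≤ t := h1.alive.1.trans ht
  have hR : 0 < θ * u0 (f z0) := by have := hu1 (f z0); positivity
  refine area_drop hf hfi (differentiableOn_comp_ffl hW ht0 hf) (injOn_comp_ffl hW ht0 hfi)
    hu1 hul hθ hθ1 hη hη1 hz0 (Reg_mono hW ht0 hf) (by rw [hA]; linarith) ?_
  intro z hz hzx
  have hzz : ffl W t z = z0 := hfi (ffl_maps hW ht0 hz) hz0 hzx
  have hal := alive_ffl hW ht0 hz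
  rw [ups_comp_ffl hW ht0 hf hz]
  rw [hzz] at hal ⊢
  have h2 := ups_anti hW hal h1.alive.1 ht
  have h3 := h1.ups_le hW
  have h4 : ‖deriv f z0‖ * OP.ups W t z0 ≤ ‖deriv f z0‖ * (0.005 * z0.im) :=
    mul_le_mul_of_nonneg_left (h2.trans h3) (norm_nonneg _)
  have h5 : z0.im * ‖deriv f z0‖ = θ * u0 (f z0) := hA
  nlinarith

/-- the time and the driving function at the end of the tube (`ρ_{t1} ≤ 16 y`). -/
theorem Tube.rho_le (hW : ContinuousOn W (Ici 0)) {y : ℝ} {t1 : ℝ}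
    (h1 : Tube W (y * Complex.I) t1) :
    Real.sqrt t1 ≤ 16 * y ∧ ∀ s ∈ Icc 0 t1, |W s| ≤ 16 * y := by
  have him : ((y : ℂ) * Complex.I).im = y := by simp
  have hre : ((y : ℂ) * Complex.I).re = 0 := by simp
  have hy : 0 < y := by have := h1.alive.im_pos; rwa [him] at this
  constructor
  · have h2 := h1.time_le hW
    rw [him] at h2
    rw [Real.sqrt_le_left (by positivity)]
    nlinarith
  · intro s hs
    have h3 := h1.driving_le hW hre hs
    rwa [him] at h3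

end restart

end Crest.Agent.R162.LB4
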