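import Mathlib
import Crest.Prelude.Def_Loewner
import Crest.Agent.R162.LB4
import Crest.Agent.R162.OPDefs

/-!
Row 162 (S0243), node LB4 (consumption), probabilistic half.
-/

set_option autoImplicit false

open Set MeasureTheory Metric
open scoped NNReal ENNReal

namespace Crest.Agent.R162.LB4

open Crest.Agent.R162 Crest.Agent.R162.FL Crest.Agent.R162.OP Crest.Agent.R162.OS
open Crest.ProbabilityR.Loewner

variable {Ω : Type*} {m : MeasurableSpace Ω}

/-- the driving function of a Brownian motion with continuous paths is continuous. -/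
theorem continuousOn_driving {Fl : Filtration ℝ≥0 m} {P : Measure Ω} {B : ℝ≥0 → Ω → ℝ}
    (hB : IsBM Fl B P) (κ : ℝ) (ω : Ω) : ContinuousOn (driving κ B ω) (Ici 0) := by
  have h : Continuous fun t : ℝ => B (Real.toNNReal t) ω :=
    (hB.cont ω).comp continuous_real_toNNReal
  exact (continuous_const.mul h).continuousOn

/-- the event of OP4 (`σ = 0`, `a = 4`) is the tube event. -/
theorem tube_of_op4 {W : ℝ → ℝ} {z : ℂ} {t : ℝ≥0} (hal : Alive W z (t : ℝ))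
    (hfin : ath W (t : ℝ) z - ath W 0 z = 4) (htube : ∀ s : ℝ≥0, s ≤ t → |xfl W (s : ℝ) z| ≤ 1) :
    Tube W z (t : ℝ) where
  alive := hal
  fin := by rw [ath_zero, sub_zero] at hfin; exact hfin
  tube := by
    intro s hs
    have := htube (Real.toNNReal s) (by rw [Real.toNNReal_le_iff_le_coe]; exact hs.2)
    rwa [Real.coe_toNNReal s hs.1] at this

/-- **LB4, probabilistic half (abstract in the tube probability).**  `bad` is the event that the
step ends before the first time at which `ρ_t > 16 y`; it has probability `≤ p/2`. -/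
theorem drop_prob {P : Measure Ω} {W : Ω → ℝ → ℝ}
    (hW : ∀ ω, ContinuousOn (W ω) (Ici 0)) {f : ℂ → ℂ} (hf : DifferentiableOn ℂ f KB1.Hs)
    (hfi : InjOn f KB1.Hs) {u0 : ℂ → ℝ} (hu1 : ∀ z, 1 ≤ u0 z)
    (hul : ∀ a b, |u0 a - u0 b| ≤ ‖a - b‖) {θ : ℝ} (hθ : 0 < θ) (hθ1 : θ ≤ 1) {η : ℝ}
    (hη : 0 ≤ η) (hη1 : η ≤ 1) {y : ℝ} (hy : 0 < y)
    (hA : KB1.ups f (y * Complex.I) = θ * u0 (f (y * Complex.I))) {p : ℝ} (hp : 0 ≤ p)
    (hE : ENNReal.ofReal p ≤ P {ω | ∃ t, Tube (W ω) (y * Complex.I) t}) {T : Ω → ℝ}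
    {K4 : ℝ} (hK4 : 16 ≤ K4)
    (hbad : P {ω | ∃ t, 0 ≤ t ∧ Real.sqrt t ≤ K4 * y ∧ (∀ s ∈ Icc 0 t, |W ω s| ≤ K4 * y) ∧
      T ω < t} ≤ ENNReal.ofReal (p / 2)) :
    ENNReal.ofReal (p / 2) ≤ P {ω |
      area (θ / 10) η u0 (fun z => f (ffl (W ω) (T ω) z)) +
        ENNReal.ofReal (3e-4 * θ ^ 2 * u0 (f (y * Complex.I)) ^ (-η)) ≤ area (θ / 10) η u0 f} := by
  set E : Set Ω := {ω | ∃ t, Tube (W ω) (y * Complex.I) t} with hEdef
  set bad : Set Ω := {ω | ∃ t, 0 ≤ t ∧ Real.sqrt t ≤ K4 * y ∧ (∀ s ∈ Icc 0 t, |W ω s| ≤ K4 * y) ∧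
      T ω < t} with hbaddef
  set G : Set Ω := {ω | area (θ / 10) η u0 (fun z => f (ffl (W ω) (T ω) z)) +
        ENNReal.ofReal (3e-4 * θ ^ 2 * u0 (f (y * Complex.I)) ^ (-η)) ≤ area (θ / 10) η u0 f}
    with hGdef
  have him : 0 < ((y : ℂ) * Complex.I).im := by simpa using hy
  have hsub : E ⊆ bad ∪ G := by
    rintro ω ⟨t, ht⟩
    by_cases hb : T ω < t
    · left
      obtain ⟨h1, h2⟩ := ht.rho_le (hW ω)
      refine ⟨t, ht.alive.1, h1.trans (by nlinarith), fun s hs => (h2 s hs).trans (by nlinarith),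
        hb⟩
    · right
      exact consume (hW ω) hf hfi hu1 hul hθ hθ1 hη hη1 him hA ht (not_lt.1 hb)
  have h1 : ENNReal.ofReal p ≤ ENNReal.ofReal (p / 2) + P G :=
    calc ENNReal.ofReal p ≤ P E := hE
      _ ≤ P (bad ∪ G) := measure_mono hsub
      _ ≤ P bad + P G := measure_union_le _ _
      _ ≤ ENNReal.ofReal (p / 2) + P G := by gcongr
  have h2 : ENNReal.ofReal p = ENNReal.ofReal (p / 2) + ENNReal.ofReal (p / 2) := by
    rw [← ENNReal.ofReal_add (by linarith) (by linarith)]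
    congr 1; ring
  rw [h2] at h1
  exact (ENNReal.add_le_add_iff_left ENNReal.ofReal_ne_top).1 h1

/-- real form of the drop -/
theorem toReal_drop {a b : ℝ≥0∞} {c : ℝ} (hc : 0 ≤ c) (hb : b ≠ ⊤)
    (h : a + ENNReal.ofReal c ≤ b) : a.toReal - b.toReal ≤ -c := by
  have ha : a ≠ ⊤ := ne_top_of_le_ne_top hb (le_self_add.trans h)
  have h1 := ENNReal.toReal_mono hb h
  rw [ENNReal.toReal_add ha ENNReal.ofReal_ne_top, ENNReal.toReal_ofReal hc] at h1
  linarith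

end Crest.Agent.R162.LB4
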