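import Mathlib
import Crest.Agent.R162.UBDefs
import Crest.Agent.R162.FL1b

/-!
Row 162 (S0243), node U3: definition of the extended trigger tube and the frozen deterministic
statements (helper641).
-/

set_option autoImplicit false

open Set
open Crest.Agent.R162.FL Crest.Agent.R162.OP Crest.Agent.R162.UB

namespace Crest.Agent.R162.U3

/-- the extended tube path: `UB.psi` up to `K`-time `dur`, then constant `-2` -/
noncomputable def psiE (N ξ a : ℝ) : ℝ :=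
  max (ξ - a) (max (-(Real.log N / 2)) (min (a - ξ - N - Real.log N) (-2)))

/-- deterministic flow facts of one point (D) -/
structure FlowFacts (W : ℝ → ℝ) (w : ℂ) (t : ℝ) : Prop where
  im_eq : ∀ s ∈ Icc 0 t, (Zfl W s w).im = w.im * Real.exp (-2 * ath W s w)
  ath_nonneg : ∀ s ∈ Icc 0 t, 0 ≤ ath W s w
  ath_zero : ath W 0 w = 0
  ath_cont : ContinuousOn (fun s => ath W s w) (Icc 0 t)
  ath_mono : StrictMonoOn (fun s => ath W s w) (Icc 0 t)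
  xfl_cont : ContinuousOn (fun s => xfl W s w) (Icc 0 t)
  ups_pos : ∀ s ∈ Icc 0 t, 0 < ups W s w
  ups_zero : ups W 0 w = w.im
  ups_cont : ContinuousOn (fun s => ups W s w) (Icc 0 t)
  ups_anti : StrictAntiOn (fun s => ups W s w) (Icc 0 t)
  ups_ge : ∀ s ∈ Icc 0 t, ∀ u ∈ Icc s t,
    ups W s w * Real.exp (-4 * (ath W u w - ath W s w)) ≤ ups W u w
  ups_le : ∀ c : ℝ, ∀ s ∈ Icc 0 t, ∀ u ∈ Icc s t, (∀ v ∈ Icc s u, |xfl W v w| ≤ c) →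
    ups W u w ≤ ups W s w * Real.exp (-(4 / Real.cosh c ^ 2) * (ath W u w - ath W s w))
  sfl_eq : ∀ s ∈ Icc 0 t, sfl W s w = (Real.cosh (xfl W s w))⁻¹
  norm_eq : ∀ s ∈ Icc 0 t, ‖Zfl W s w‖ = (Zfl W s w).im * Real.cosh (xfl W s w)
  time_le : ∀ c : ℝ, ∀ s ∈ Icc 0 t, ∀ u ∈ Icc s t, (∀ v ∈ Icc s u, |xfl W v w| ≤ c) →
    u - s ≤ (w.im * Real.cosh c) ^ 2 * (ath W u w - ath W s w)

/-- frozen statement D (helper204): `theorem flowFacts` -/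
def DStmt : Prop := ∀ (W : ℝ → ℝ) (w : ℂ) (t : ℝ), ContinuousOn W (Ici 0) → Alive W w t →
  FlowFacts W w t

/-- frozen statement X1 (helper263): deterministic consequences of the extended tube -/
def X1Stmt : Prop := ∀ δ : ℝ, 0 < δ → ∃ l₁ : ℝ, ∀ l₀ : ℝ, l₁ ≤ l₀ → ∃ E : ℝ, 1 ≤ E ∧ ∃ N₀ : ℝ,
  1 ≤ N₀ ∧ ∀ (W : ℝ → ℝ) (w : ℂ) (r N σ T a₀ ξ : ℝ), ContinuousOn W (Ici 0) → N₀ ≤ N → 0 < r →
    0 ≤ σ → σ ≤ T → Alive W w T → ups W σ w = r → δ ≤ sfl W σ w →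
    |xfl W σ w - ξ| ≤ 1 / 8 → a₀ ≤ ath W σ w → ath W σ w ≤ a₀ + 1 / 8 →
    ath W T w - a₀ = ξ + N + Real.log N - 2 + E →
    (∀ t ∈ Icc σ T, |xfl W t w - psiE N ξ (ath W t w - a₀)| ≤ 3 / 4) →
    (∃ T' ≤ T, TrigAt W w r N δ σ T') ∧ ups W T w ≤ r * Real.exp (-l₀) ∧
    (∀ τ ∈ Icc σ T, ups W τ w = r * Real.exp (-l₀) → |xfl W τ w| ≤ 3)

end Crest.Agent.R162.U3
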