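import Mathlib
import Crest.Agent.R162.GEN
import Crest.Agent.R162.OPDefs

/-!
Row 162 (S0243), node U3, part a: the tube function `exp(lam a) (r2 - (x - c - s a)^2)^2` (OP4,
one linear piece): its generator is nonnegative inside the tube.
-/

set_option autoImplicit false

namespace Crest.Agent.R162.U3

open Real
open Crest.Agent.R162.GEN

/-- the tube function, in the coordinates `(th, a, x)` -/
noncomputable def vt (r2 lam c s : ℝ) : ℝ → ℝ → ℝ → ℝ :=
  fun _ a x => exp (lam * a) * (r2 - (x - (c + s * a)) ^ 2) ^ 2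

theorem jet_vt (r2 lam c s : ℝ) : Jet (vt r2 lam c s) (fun _ _ _ => 0)
    (fun _ a x => exp (lam * a) * (lam * (r2 - (x - (c + s * a)) ^ 2) ^ 2
      + s * (4 * (x - (c + s * a)) * (r2 - (x - (c + s * a)) ^ 2))))
    (fun _ a x => exp (lam * a) * (-(4 * (x - (c + s * a)) * (r2 - (x - (c + s * a)) ^ 2))))
    (fun _ a x => exp (lam * a) * (12 * (x - (c + s * a)) ^ 2 - 4 * r2)) where
  smooth := by unfold vt; fun_prop
  ht th a x := by simpa [vt] using hasDerivAt_const th (exp (lam * a) * (r2 - (x - (c + s * a)) ^ 2) ^ 2)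
  ha th a x := by
    have h1 : HasDerivAt (fun a : ℝ => x - (c + s * a)) (-s) a := by
      have := ((hasDerivAt_id a).const_mul s).const_add c |>.const_sub x
      simpa using this
    have h2 : HasDerivAt (fun a : ℝ => r2 - (x - (c + s * a)) ^ 2)
        (2 * s * (x - (c + s * a))) a := by
      have := (h1.pow 2).const_sub r2
      refine this.congr_deriv ?_
      simp; ring
    have h3 := h2.pow 2
    have h4 : HasDerivAt (fun a : ℝ => exp (lam * a)) (exp (lam * a) * lam) a := by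
      have := ((hasDerivAt_id a).const_mul lam).exp
      simpa using this
    have h5 := h4.mul h3
    refine h5.congr_deriv ?_
    simp; ring
  hx th a x := by
    have h1 : HasDerivAt (fun x : ℝ => x - (c + s * a)) 1 x := (hasDerivAt_id x).sub_const _
    have h2 := ((h1.pow 2).const_sub r2).pow 2
    have h3 := h2.const_mul (exp (lam * a))
    refine h3.congr_deriv ?_
    simp; ring
  hxx th a x := by
    have h1 : HasDerivAt (fun x : ℝ => x - (c + s * a)) 1 x := (hasDerivAt_id x).sub_const _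
    have h2 := (h1.pow 2).const_sub r2
    have h3 := ((h1.const_mul 4).mul h2).neg.const_mul (exp (lam * a))
    refine h3.congr_deriv ?_
    simp; ring

/-- the exponential rate of the tube -/
noncomputable def lam (κ r2 : ℝ) : ℝ := (6 * κ + 20) ^ 2 / (16 * κ * r2)

theorem lam_pos {κ r2 : ℝ} (hκ : 0 < κ) (hr : 0 < r2) : 0 < lam κ r2 := by
  unfold lam; positivity

theorem LVal_vt_nonneg {κ r2 c s : ℝ} (hκ : 0 < κ) (hκ8 : κ < 8) (hr : 0 < r2) (hr1 : r2 ≤ 1)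
    (hs : |s| ≤ 1) {a x : ℝ} (hx : (x - (c + s * a)) ^ 2 ≤ r2) :
    0 ≤ LVal κ (tanh x)
      (exp (lam κ r2 * a) * (-(4 * (x - (c + s * a)) * (r2 - (x - (c + s * a)) ^ 2))))
      (exp (lam κ r2 * a) * (12 * (x - (c + s * a)) ^ 2 - 4 * r2)) 0
      (exp (lam κ r2 * a) * (lam κ r2 * (r2 - (x - (c + s * a)) ^ 2) ^ 2
        + s * (4 * (x - (c + s * a)) * (r2 - (x - (c + s * a)) ^ 2)))) := by
  set u := x - (c + s * a) with hu
  set D := r2 - u ^ 2 with hD
  have hD0 : 0 ≤ D := by linarith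
  have hu1 : |u| ≤ 1 := by
    rw [← sq_le_one_iff_abs_le_one]; linarith
  have ht : |tanh x| ≤ 1 := by
    rw [← sq_le_one_iff_abs_le_one]; exact (Crest.Agent.R162.GEN.tanh_sq_lt_one x).le
  have he := exp_pos (lam κ r2 * a)
  have h1 : |((4 - κ / 2) * tanh x - s)| ≤ 5 := by
    have h2 : |(4 - κ / 2) * tanh x| ≤ 4 := by
      rw [abs_mul, abs_of_pos (by linarith)]
      nlinarith [abs_nonneg (tanh x)]
    calc |((4 - κ / 2) * tanh x - s)| ≤ |(4 - κ / 2) * tanh x| + |s| := abs_sub _ _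
      _ ≤ 5 := by linarith
  have h3 : |((4 - κ / 2) * tanh x - s) * u| ≤ 5 := by
    rw [abs_mul]
    nlinarith [abs_nonneg ((4 - κ / 2) * tanh x - s), abs_nonneg u]
  have h4 : -5 * (4 * D) ≤ -(((4 - κ / 2) * tanh x - s) * u) * (4 * D) := by
    have := (abs_le.1 h3).2
    exact mul_le_mul_of_nonneg_right (by linarith) (by linarith)
  have h5 : lam κ r2 * D ^ 2 - (6 * κ + 20) * D + 4 * κ * r2
      = ((6 * κ + 20) * D - 8 * κ * r2) ^ 2 / (16 * κ * r2) := by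
    unfold lam; field_simp; ring
  have h6 : 0 ≤ ((6 * κ + 20) * D - 8 * κ * r2) ^ 2 / (16 * κ * r2) := by positivity
  have hu2 : u ^ 2 = r2 - D := by rw [hD]; ring
  have key : LVal κ (tanh x) (exp (lam κ r2 * a) * (-(4 * u * D)))
      (exp (lam κ r2 * a) * (12 * u ^ 2 - 4 * r2)) 0
      (exp (lam κ r2 * a) * (lam κ r2 * D ^ 2 + s * (4 * u * D)))
      = exp (lam κ r2 * a) * (κ / 2 * (8 * r2 - 12 * D)
          + -(((4 - κ / 2) * tanh x - s) * u) * (4 * D) + lam κ r2 * D ^ 2) := by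
    unfold LVal; rw [hu2]; ring
  rw [key]
  refine mul_nonneg he.le ?_
  nlinarith

/-- the tube function on the state space of `OPDefs` -/
noncomputable def ft (r2 lam c s : ℝ) (q : ℝ × ℝ × ℝ × ℝ) : ℝ :=
  exp (lam * q.2.2.2) * (r2 - (OP.xq q - (c + s * q.2.2.2)) ^ 2) ^ 2

theorem xq_eq (q : ℝ × ℝ × ℝ × ℝ) : OP.xq q = xc q.1 q.2.1 := by
  unfold OP.xq xc
  rw [neg_div, Real.arsinh_neg]

theorem ft_eq (r2 l c s : ℝ) (q : ℝ × ℝ × ℝ × ℝ) :
    ft r2 l c s q = pb (vt r2 l c s) q.1 q.2.1 q.2.2.1 q.2.2.2 := by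
  unfold ft pb vt; rw [xq_eq]

theorem contDiffOn_ft (r2 l c s : ℝ) :
    ContDiffOn ℝ 3 (ft r2 l c s) {q : ℝ × ℝ × ℝ × ℝ | 0 < q.2.1} := by
  have h := (jet_vt r2 l c s).contDiffOn_pb
  have h2 : ft r2 l c s = fun p : ℝ × ℝ × ℝ × ℝ =>
      pb (vt r2 l c s) p.1 p.2.1 p.2.2.1 p.2.2.2 := funext (ft_eq r2 l c s)
  rw [h2]
  exact h.of_le (WithTop.coe_le_coe.2 (le_top : (3 : ℕ∞) ≤ ⊤))

theorem gen_ft_nonneg {κ r2 c s : ℝ} (hκ : 0 < κ) (hκ8 : κ < 8) (hr : 0 < r2) (hr1 : r2 ≤ 1)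
    (hs : |s| ≤ 1) {q : ℝ × ℝ × ℝ × ℝ} (hq : 0 < q.2.1)
    (hx : (OP.xq q - (c + s * q.2.2.2)) ^ 2 ≤ r2) :
    0 ≤ OP.gen κ (ft r2 (lam κ r2) c s) q := by
  have h := (jet_vt r2 (lam κ r2) c s).gen_pb κ (X := q.1) (Y := q.2.1) hq q.2.2.1 q.2.2.2
  have h2 : OP.gen κ (ft r2 (lam κ r2) c s) q
      = gen κ (pb (vt r2 (lam κ r2) c s)) q.1 q.2.1 q.2.2.1 q.2.2.2 := by
    unfold OP.gen gen genVal
    simp only [ft_eq]
    have h3 : deriv (fun l : ℝ => pb (vt r2 (lam κ r2) c s) q.1 q.2.1 l q.2.2.2) q.2.2.1 = 0 := by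
      simp [pb, vt]
    rw [h3]
    ring
  rw [h2, h]
  refine mul_nonneg (by have := R_pos (X := q.1) hq; positivity) ?_
  rw [xq_eq] at hx
  exact LVal_vt_nonneg hκ hκ8 hr hr1 hs hx

end Crest.Agent.R162.U3
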