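import Mathlib
import Crest.Agent.R162.U3a
import Crest.Agent.R162.U3Defs

/-!
Row 162 (S0243), node U3, part b: one linear piece of the trigger tube (OP4), from the master
one-point theorem OPM.
-/

set_option autoImplicit false

open MeasureTheory ProbabilityTheory Set
open scoped NNReal ENNReal Topology
open Crest.ProbabilityR.Loewner
open Crest.Agent.R162.FL Crest.Agent.R162.OP Crest.Agent.R162.OS Crest.Agent.R162.UB

namespace Crest.Agent.R162.U3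

universe u

variable {Ω : Type u} {m : MeasurableSpace Ω} {P : Measure Ω} {Fl : Filtration ℝ≥0 m}
  {B : ℝ≥0 → Ω → ℝ} {κ : ℝ} {w : ℂ}

/-- exit times of open sets (helper9's (E1)) -/
def E1 (Fl : Filtration ℝ≥0 m) (B : ℝ≥0 → Ω → ℝ) (κ : ℝ) (w : ℂ) : Prop :=
  ∀ (O : Set (ℝ × ℝ × ℝ × ℝ)) (δ : ℝ) (σ : Ω → ℝ≥0) (T : ℝ≥0), IsOpen O → 0 < δ →
    (∀ q ∈ O, δ ≤ q.2.1) → IsST Fl σ → ∃ τ : Ω → ℝ≥0, IsST Fl τ ∧ (∀ ω, σ ω ≤ τ ω) ∧
      (∀ ω, τ ω ≤ max T (σ ω)) ∧ ∀ ω, AliveP κ B w (σ ω) ω → stP κ B w (σ ω) ω ∈ O →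
        (∀ t, σ ω ≤ t → t < τ ω → AliveP κ B w t ω ∧ stP κ B w t ω ∈ O) ∧
        AliveP κ B w (τ ω) ω ∧ stP κ B w (τ ω) ω ∈ closure O ∧
        (stP κ B w (τ ω) ω ∈ O → τ ω = max T (σ ω))

/-- preimages at a stopping time (helper9's (E3)) -/
def E3 (Fl : Filtration ℝ≥0 m) (B : ℝ≥0 → Ω → ℝ) (κ : ℝ) (w : ℂ) : Prop :=
  ∀ (σ : Ω → ℝ≥0) (S : Set (ℝ × ℝ × ℝ × ℝ)), IsST Fl σ → MeasurableSet S →
    EvST Fl σ {ω | AliveP κ B w (σ ω) ω ∧ stP κ B w (σ ω) ω ∈ S}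

/-- output of one linear piece -/
structure PieceOut (P : Measure Ω) (Fl : Filtration ℝ≥0 m) (B : ℝ≥0 → Ω → ℝ) (κ : ℝ) (w : ℂ)
    (r2 c s b' : ℝ) (σ : Ω → ℝ≥0) (A : Set Ω) (τ : Ω → ℝ≥0) (A' : Set Ω) (T1 : ℝ≥0) : Prop where
  st : IsST Fl τ
  le : ∀ ω, σ ω ≤ τ ω
  leT : ∀ ω, τ ω ≤ T1
  sub : A' ⊆ A
  ev : EvST Fl τ A'
  path : ∀ ω ∈ A', ∀ t, σ ω ≤ t → t ≤ τ ω → AliveP κ B w t ω ∧
    (xq (stP κ B w t ω) - (c + s * (stP κ B w t ω).2.2.2)) ^ 2 ≤ r2 ∧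
    (stP κ B w t ω).2.2.2 ≤ b'
  fin : ∀ ω ∈ A', (stP κ B w (τ ω) ω).2.2.2 = b' ∧
    (xq (stP κ B w (τ ω) ω) - (c + s * b')) ^ 2 < r2
  ineq : ∫ ω in A, ft r2 (lam κ r2) c s (stP κ B w (σ ω) ω) ∂P ≤
    ∫ ω in A', ft r2 (lam κ r2) c s (stP κ B w (τ ω) ω) ∂P

theorem continuousOn_xq : ContinuousOn xq {q : ℝ × ℝ × ℝ × ℝ | 0 < q.2.1} := by
  unfold xq
  refine Real.continuous_arsinh.comp_continuousOn ?_
  refine ContinuousOn.div (by fun_prop) (by fun_prop) ?_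
  intro q hq
  exact (ne_of_gt hq)

theorem measurable_xq : Measurable xq := by
  unfold xq
  exact Real.continuous_arsinh.measurable.comp
    ((measurable_fst.neg).div (measurable_fst.comp measurable_snd))

/-- the open tube -/
def tubeO (δ r2 c s b' : ℝ) : Set (ℝ × ℝ × ℝ × ℝ) :=
  {q | δ < q.2.1} ∩ {q | (xq q - (c + s * q.2.2.2)) ^ 2 < r2 ∧ q.2.2.2 < b'}

theorem isOpen_tubeO {δ : ℝ} (hδ : 0 < δ) (r2 c s b' : ℝ) : IsOpen (tubeO δ r2 c s b') := by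
  have hU : IsOpen {q : ℝ × ℝ × ℝ × ℝ | δ < q.2.1} :=
    isOpen_lt continuous_const (by fun_prop)
  have h1 : ContinuousOn (fun q : ℝ × ℝ × ℝ × ℝ =>
      ((xq q - (c + s * q.2.2.2)) ^ 2, q.2.2.2)) {q | δ < q.2.1} := by
    have hx : ContinuousOn xq {q : ℝ × ℝ × ℝ × ℝ | δ < q.2.1} :=
      continuousOn_xq.mono fun q hq => lt_trans hδ hq
    exact ((hx.sub (by fun_prop)).pow 2).prodMk (by fun_prop)
  have h2 : IsOpen {p : ℝ × ℝ | p.1 < r2 ∧ p.2 < b'} :=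
    (isOpen_lt continuous_fst continuous_const).inter (isOpen_lt continuous_snd continuous_const)
  exact h1.isOpen_inter_preimage hU h2

theorem closure_tubeO {δ : ℝ} (hδ : 0 < δ) {r2 c s b' : ℝ} {q : ℝ × ℝ × ℝ × ℝ}
    (hq : q ∈ closure (tubeO δ r2 c s b')) :
    δ ≤ q.2.1 ∧ (xq q - (c + s * q.2.2.2)) ^ 2 ≤ r2 ∧ q.2.2.2 ≤ b' := by
  have hC : IsClosed {q : ℝ × ℝ × ℝ × ℝ | δ ≤ q.2.1} :=
    isClosed_le continuous_const (by fun_prop)
  have h1 : ContinuousOn (fun q : ℝ × ℝ × ℝ × ℝ =>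
      ((xq q - (c + s * q.2.2.2)) ^ 2, q.2.2.2)) {q | δ ≤ q.2.1} := by
    have hx : ContinuousOn xq {q : ℝ × ℝ × ℝ × ℝ | δ ≤ q.2.1} :=
      continuousOn_xq.mono fun q hq => lt_of_lt_of_le hδ hq
    exact ((hx.sub (by fun_prop)).pow 2).prodMk (by fun_prop)
  have h2 : IsClosed {p : ℝ × ℝ | p.1 ≤ r2 ∧ p.2 ≤ b'} :=
    (isClosed_le continuous_fst continuous_const).inter
      (isClosed_le continuous_snd continuous_const)
  have h3 := h1.preimage_isClosed_of_isClosed hC h2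
  have hsub : tubeO δ r2 c s b' ⊆ {q : ℝ × ℝ × ℝ × ℝ | δ ≤ q.2.1} ∩
      (fun q : ℝ × ℝ × ℝ × ℝ => ((xq q - (c + s * q.2.2.2)) ^ 2, q.2.2.2)) ⁻¹'
        {p : ℝ × ℝ | p.1 ≤ r2 ∧ p.2 ≤ b'} := by
    intro q hq
    have e1 : δ < q.2.1 := hq.1
    have e2 : (xq q - (c + s * q.2.2.2)) ^ 2 < r2 := hq.2.1
    have e3 : q.2.2.2 < b' := hq.2.2
    exact ⟨show δ ≤ q.2.1 from e1.le, show (xq q - (c + s * q.2.2.2)) ^ 2 ≤ r2 ∧ q.2.2.2 ≤ b'
      from ⟨e2.le, e3.le⟩⟩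
  have h4 := closure_minimal hsub h3 hq
  exact ⟨h4.1, h4.2.1, h4.2.2⟩

theorem evST_mono {σ τ : Ω → ℝ≥0} (hτ : IsST Fl τ) (hle : ∀ ω, σ ω ≤ τ ω) {A : Set Ω}
    (hA : EvST Fl σ A) : EvST Fl τ A := by
  intro t
  have : A ∩ {ω | τ ω ≤ t} = (A ∩ {ω | σ ω ≤ t}) ∩ {ω | τ ω ≤ t} := by
    ext ω
    simp only [mem_inter_iff, mem_ofPred_eq]
    constructor
    · rintro ⟨h1, h2⟩; exact ⟨⟨h1, (hle ω).trans h2⟩, h2⟩
    · rintro ⟨⟨h1, _⟩, h2⟩; exact ⟨h1, h2⟩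
  rw [this]
  exact (hA t).inter (hτ t)

theorem evST_inter {σ : Ω → ℝ≥0} {A A' : Set Ω} (hA : EvST Fl σ A) (hA' : EvST Fl σ A') :
    EvST Fl σ (A ∩ A') := by
  intro t
  have : (A ∩ A') ∩ {ω | σ ω ≤ t} = (A ∩ {ω | σ ω ≤ t}) ∩ (A' ∩ {ω | σ ω ≤ t}) := by
    ext ω; simp only [mem_inter_iff, mem_ofPred_eq]; tauto
  rw [this]
  exact (hA t).inter (hA' t)

theorem measurableSet_of_evST {σ : Ω → ℝ≥0} {T : ℝ≥0} (hT : ∀ ω, σ ω ≤ T) {A : Set Ω}
    (hA : EvST Fl σ A) : MeasurableSet A := by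
  have h := hA T
  have h2 : A ∩ {ω | σ ω ≤ T} = A := by
    ext ω; simp [hT ω]
  rw [h2] at h
  exact Fl.le T _ h

theorem continuousOn_driving (hB : IsBM Fl B P) (ω : Ω) :
    ContinuousOn (driving κ B ω) (Ici 0) := by
  unfold driving
  exact (continuous_const.mul ((hB.cont ω).comp continuous_real_toNNReal)).continuousOn

theorem ft_nonneg (r2 l c s : ℝ) (q : ℝ × ℝ × ℝ × ℝ) : 0 ≤ ft r2 l c s q := by
  unfold ft; positivity

/-- **one linear piece of the tube** -/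
theorem piece (hM : OPM.{u}) (hD : DStmt) [IsProbabilityMeasure P] (hB : IsBM Fl B P)
    (hκ : 0 < κ) (hκ8 : κ < 8) (hw : 0 < w.im) (h1 : E1 Fl B κ w) (h3 : E3 Fl B κ w)
    {r2 c s b' : ℝ} (hr : 0 < r2) (hr1 : r2 ≤ 1) (hs : |s| ≤ 1) (hb' : 0 ≤ b')
    {σ : Ω → ℝ≥0} (hσ : IsST Fl σ) {T0 : ℝ≥0} (hT0 : ∀ ω, σ ω ≤ T0) {A : Set Ω}
    (hA : EvST Fl σ A)
    (hA1 : ∀ ω ∈ A, AliveP κ B w (σ ω) ω ∧
      (xq (stP κ B w (σ ω) ω) - (c + s * (stP κ B w (σ ω) ω).2.2.2)) ^ 2 < r2 ∧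
      (stP κ B w (σ ω) ω).2.2.2 < b') :
    ∃ τ A' T1, PieceOut P Fl B κ w r2 c s b' σ A τ A' T1 := by
  set δ' : ℝ := w.im * Real.exp (-2 * b') / 2 with hδ'
  have hδ0 : 0 < δ' := by positivity
  set cc : ℝ := |c| + b' + 1 with hcc
  have hcc0 : 0 ≤ cc := by positivity
  set TT : ℝ≥0 := T0 + (Real.toNNReal ((w.im * Real.cosh cc) ^ 2 * b') + 1) with hTT
  obtain ⟨τ, hτ, hle, hmax, hex⟩ := h1 (tubeO δ' r2 c s b') δ' σ TT (isOpen_tubeO hδ0 _ _ _ _) hδ0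
    (fun q hq => le_of_lt hq.1) hσ
  have hT : ∀ ω, τ ω ≤ TT := fun ω => (hmax ω).trans (max_le le_rfl
    ((hT0 ω).trans (by rw [hTT]; exact le_self_add)))
  -- facts on A
  have hO : ∀ ω ∈ A, stP κ B w (σ ω) ω ∈ tubeO δ' r2 c s b' := by
    intro ω hω
    obtain ⟨ha, hx, hb⟩ := hA1 ω hω
    refine ⟨?_, hx, hb⟩
    have hf := hD _ w _ (continuousOn_driving (κ := κ) hB ω) ha
    have hs0 : ((σ ω : ℝ≥0) : ℝ) ∈ Icc (0:ℝ) (σ ω) := ⟨NNReal.coe_nonneg _, le_rfl⟩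
    have h5 := hf.im_eq _ hs0
    show δ' < (Zfl (driving κ B ω) (σ ω) w).im
    rw [h5, hδ']
    have h6 : Real.exp (-2 * b') ≤ Real.exp (-2 * ath (driving κ B ω) (σ ω) w) := by
      apply Real.exp_le_exp.2
      have : ath (driving κ B ω) (σ ω) w < b' := hb
      linarith
    have h7 : 0 < w.im * Real.exp (-2 * b') := by positivity
    nlinarith
  -- path facts
  have hpath : ∀ ω ∈ A, ∀ t, σ ω ≤ t → t ≤ τ ω → AliveP κ B w t ω ∧
      (xq (stP κ B w t ω) - (c + s * (stP κ B w t ω).2.2.2)) ^ 2 ≤ r2 ∧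
      (stP κ B w t ω).2.2.2 ≤ b' := by
    intro ω hω t hst htt
    obtain ⟨hin, hal, hcl, _⟩ := hex ω (hA1 ω hω).1 (hO ω hω)
    rcases lt_or_eq_of_le htt with h | h
    · obtain ⟨h4, h5⟩ := hin t hst h
      exact ⟨h4, h5.2.1.le, h5.2.2.le⟩
    · rw [h]
      obtain ⟨_, h5, h6⟩ := closure_tubeO hδ0 hcl
      exact ⟨hal, h5, h6⟩
  have hff : ∀ ω ∈ A, FlowFacts (driving κ B ω) w (τ ω) := by
    intro ω hω
    exact hD _ w _ (continuousOn_driving (κ := κ) hB ω) (hpath ω hω (τ ω) (hle ω) le_rfl).1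
  have hxx : ∀ ω ∈ A, ∀ t : ℝ≥0, σ ω ≤ t → t ≤ τ ω → |xfl (driving κ B ω) t w| ≤ cc := by
    intro ω hω t hst htt
    obtain ⟨_, h5, h6⟩ := hpath ω hω t hst htt
    have h7 : |xq (stP κ B w t ω) - (c + s * (stP κ B w t ω).2.2.2)| ≤ 1 := by
      rw [← sq_le_one_iff_abs_le_one]; linarith
    have ha0 : 0 ≤ (stP κ B w t ω).2.2.2 := (hff ω hω).ath_nonneg t ⟨NNReal.coe_nonneg _, by exact_mod_cast htt⟩
    have h8 : |c + s * (stP κ B w t ω).2.2.2| ≤ |c| + b' := by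
      calc |c + s * (stP κ B w t ω).2.2.2| ≤ |c| + |s * (stP κ B w t ω).2.2.2| := abs_add_le _ _
        _ ≤ |c| + 1 * b' := by
          rw [abs_mul, abs_of_nonneg ha0]
          gcongr
        _ = |c| + b' := by ring
    show |xq (stP κ B w t ω)| ≤ cc
    calc |xq (stP κ B w t ω)|
        = |(xq (stP κ B w t ω) - (c + s * (stP κ B w t ω).2.2.2)) +
            (c + s * (stP κ B w t ω).2.2.2)| := by ring_nf
      _ ≤ _ := abs_add_le _ _
      _ ≤ cc := by rw [hcc]; linarith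
  -- the cap is not reached
  have hnotO : ∀ ω ∈ A, stP κ B w (τ ω) ω ∉ tubeO δ' r2 c s b' := by
    intro ω hω hmem
    obtain ⟨_, _, _, hlast⟩ := hex ω (hA1 ω hω).1 (hO ω hω)
    have h5 := hlast hmem
    have h6 : TT ≤ τ ω := by rw [h5]; exact le_max_left _ _
    have h7 := (hff ω hω).time_le cc (σ ω) ⟨NNReal.coe_nonneg _, by exact_mod_cast hle ω⟩ (τ ω)
      ⟨by exact_mod_cast hle ω, le_rfl⟩ (by
        intro v hv
        have hv0 : 0 ≤ v := (NNReal.coe_nonneg _).trans hv.1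
        have := hxx ω hω ⟨v, hv0⟩ (by exact_mod_cast hv.1) (by exact_mod_cast hv.2)
        exact this)
    have h8 : ath (driving κ B ω) (τ ω) w ≤ b' := (hpath ω hω (τ ω) (hle ω) le_rfl).2.2
    have h9 : 0 ≤ ath (driving κ B ω) (σ ω) w :=
      (hff ω hω).ath_nonneg _ ⟨NNReal.coe_nonneg _, by exact_mod_cast hle ω⟩
    have h10 : (w.im * Real.cosh cc) ^ 2 *
        (ath (driving κ B ω) (τ ω) w - ath (driving κ B ω) (σ ω) w) ≤
        (w.im * Real.cosh cc) ^ 2 * b' := by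
      apply mul_le_mul_of_nonneg_left _ (by positivity)
      linarith
    have h11 : (TT : ℝ) = T0 + ((w.im * Real.cosh cc) ^ 2 * b' + 1) := by
      rw [hTT]; push_cast
      rw [Real.coe_toNNReal _ (by positivity)]
    have h12 : (TT : ℝ) ≤ τ ω := by exact_mod_cast h6
    have h13 : ((σ ω : ℝ≥0) : ℝ) ≤ T0 := by exact_mod_cast hT0 ω
    linarith
  -- Dynkin
  set f := ft r2 (lam κ r2) c s with hf
  set K : Set (ℝ × ℝ × ℝ × ℝ) := Icc
    (-(w.im * Real.cosh cc), w.im * Real.exp (-2 * b'), Real.log w.im - 4 * b', (0:ℝ))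
    (w.im * Real.cosh cc, w.im, Real.log w.im, b') with hK
  have hKc : IsCompact K := isCompact_Icc
  have hKD : K ⊆ {q : ℝ × ℝ × ℝ × ℝ | 0 < q.2.1} := by
    intro q hq
    have h5 : w.im * Real.exp (-2 * b') ≤ q.2.1 := hq.1.2.1
    have : 0 < w.im * Real.exp (-2 * b') := by positivity
    exact lt_of_lt_of_le this h5
  have hKst : ∀ ω ∈ A, ∀ t : ℝ≥0, σ ω ≤ t → t ≤ τ ω → AliveP κ B w t ω ∧ stP κ B w t ω ∈ K := by
    intro ω hω t hst htt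
    obtain ⟨h4, h5, h6⟩ := hpath ω hω t hst htt
    have hF := hff ω hω
    have htI : (t : ℝ) ∈ Icc (0:ℝ) (τ ω) := ⟨NNReal.coe_nonneg _, by exact_mod_cast htt⟩
    have h0I : (0 : ℝ) ∈ Icc (0:ℝ) (τ ω) := ⟨le_rfl, NNReal.coe_nonneg _⟩
    have ha0 : 0 ≤ ath (driving κ B ω) t w := hF.ath_nonneg t htI
    have hab : ath (driving κ B ω) t w ≤ b' := h6
    have him := hF.im_eq t htI
    have hY1 : (Zfl (driving κ B ω) t w).im ≤ w.im := by
      rw [him]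
      have : Real.exp (-2 * ath (driving κ B ω) t w) ≤ 1 := Real.exp_le_one_iff.2 (by linarith)
      nlinarith
    have hY2 : w.im * Real.exp (-2 * b') ≤ (Zfl (driving κ B ω) t w).im := by
      rw [him]
      apply mul_le_mul_of_nonneg_left _ hw.le
      exact Real.exp_le_exp.2 (by linarith)
    have hn := hF.norm_eq t htI
    have hX : |(Zfl (driving κ B ω) t w).re| ≤ w.im * Real.cosh cc := by
      refine (Complex.abs_re_le_norm _).trans ?_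
      rw [hn]
      have h7 : Real.cosh (xfl (driving κ B ω) t w) ≤ Real.cosh cc := by
        rw [Real.cosh_le_cosh, abs_of_nonneg hcc0]
        exact hxx ω hω t hst htt
      have h8 := Real.one_le_cosh (xfl (driving κ B ω) t w)
      have h9 : 0 ≤ (Zfl (driving κ B ω) t w).im := (Zfl_im_pos h4).le
      calc (Zfl (driving κ B ω) t w).im * Real.cosh (xfl (driving κ B ω) t w)
          ≤ w.im * Real.cosh (xfl (driving κ B ω) t w) := by gcongr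
        _ ≤ w.im * Real.cosh cc := by gcongr
    have hup := hF.ups_pos t htI
    have hu0 := hF.ups_zero
    have hua := hF.ath_zero
    have hge := hF.ups_ge 0 h0I t htI
    rw [hu0, hua, sub_zero] at hge
    have hle' : ups (driving κ B ω) t w ≤ w.im := by
      rw [← hu0]
      exact hF.ups_anti.antitoneOn h0I htI htI.1
    have hL1 : Real.log (ups (driving κ B ω) t w) ≤ Real.log w.im := Real.log_le_log hup hle'
    have hL2 : Real.log w.im - 4 * b' ≤ Real.log (ups (driving κ B ω) t w) := by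
      have h7 := Real.log_le_log (by positivity) hge
      rw [Real.log_mul hw.ne' (Real.exp_pos _).ne', Real.log_exp] at h7
      linarith
    refine ⟨h4, ?_, ?_⟩
    · exact ⟨(abs_le.1 hX).1, hY2, hL2, ha0⟩
    · exact ⟨(abs_le.1 hX).2, hY1, hL1, hab⟩
  have hdyn := hM hB hκ hw (D := {q : ℝ × ℝ × ℝ × ℝ | 0 < q.2.1})
    (isOpen_lt continuous_const (by fun_prop)) (fun q hq => hq) (contDiffOn_ft r2 (lam κ r2) c s)
    hKc hKD hσ hτ hT hA (fun ω _ => hle ω) hKst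
  have hAm : MeasurableSet A := measurableSet_of_evST hT0 hA
  have hnn : 0 ≤ ∫ ω in A, (∫ s' in (σ ω : ℝ)..(τ ω : ℝ),
      gen κ (ft r2 (lam κ r2) c s) (stW (driving κ B ω) s' w)) ∂P := by
    refine setIntegral_nonneg hAm fun ω hω => ?_
    refine intervalIntegral.integral_nonneg (by exact_mod_cast hle ω) fun v hv => ?_
    have hv0 : 0 ≤ v := (NNReal.coe_nonneg _).trans hv.1
    have h5 := hpath ω hω ⟨v, hv0⟩ (by exact_mod_cast hv.1) (by exact_mod_cast hv.2)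
    have h6 := hKst ω hω ⟨v, hv0⟩ (by exact_mod_cast hv.1) (by exact_mod_cast hv.2)
    exact gen_ft_nonneg hκ hκ8 hr hr1 hs (hKD h6.2) h5.2.1
  set S : Set (ℝ × ℝ × ℝ × ℝ) := {q | (xq q - (c + s * b')) ^ 2 < r2 ∧ q.2.2.2 = b'} with hS
  have hSm : MeasurableSet S := by
    refine MeasurableSet.inter ?_ ?_
    · exact measurableSet_lt ((measurable_xq.sub_const _).pow_const 2) measurable_const
    · exact measurableSet_eq_fun (by fun_prop) measurable_const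
  set A' : Set Ω := A ∩ {ω | AliveP κ B w (τ ω) ω ∧ stP κ B w (τ ω) ω ∈ S} with hA'
  refine ⟨τ, A', TT, hτ, hle, hT, inter_subset_left, evST_inter (evST_mono hτ hle hA)
    (h3 τ S hτ hSm), fun ω hω => hpath ω hω.1, fun ω hω => ⟨hω.2.2.2, hω.2.2.1⟩, ?_⟩
  have hz : ∀ ω ∈ A \ A', f (stP κ B w (τ ω) ω) = 0 := by
    intro ω hω
    obtain ⟨h4, h5, h6⟩ := hpath ω hω.1 (τ ω) (hle ω) le_rfl
    have h7 := hnotO ω hω.1
    have h8 : δ' < (stP κ B w (τ ω) ω).2.1 := by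
      have h9 := (hKst ω hω.1 (τ ω) (hle ω) le_rfl).2.1.2.1
      have h10 : w.im * Real.exp (-2 * b') ≤ (stP κ B w (τ ω) ω).2.1 := h9
      have h11 : 0 < w.im * Real.exp (-2 * b') := by positivity
      rw [hδ']; linarith
    have h9 : (xq (stP κ B w (τ ω) ω) - (c + s * (stP κ B w (τ ω) ω).2.2.2)) ^ 2 = r2 := by
      rcases lt_or_eq_of_le h5 with h | h
      · exfalso
        rcases lt_or_eq_of_le h6 with h' | h'
        · exact h7 ⟨h8, h, h'⟩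
        · exact hω.2 ⟨hω.1, h4, by rw [h'] at h; exact h, h'⟩
      · exact h
    rw [hf]; unfold ft
    rw [h9]; ring
  have h20 : ∫ ω in A, f (stP κ B w (τ ω) ω) ∂P = ∫ ω in A', f (stP κ B w (τ ω) ω) ∂P :=
    setIntegral_eq_of_subset_of_forall_sdiff_eq_zero hAm inter_subset_left hz
  rw [← h20, hf, hdyn]
  linarith

end Crest.Agent.R162.U3
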