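import Mathlib
import Crest.Agent.R162.U3b
import Crest.Agent.R162.LB4P

/-!
Row 162 (S0243), node LB4: probability of the tube event (OP4 with `σ = 0`, `a = 4`, `ψ = 0`),
from helper641's linear piece `U3.piece`.
-/

set_option autoImplicit false

open MeasureTheory ProbabilityTheory Set
open scoped NNReal ENNReal Topology
open Crest.ProbabilityR.Loewner
open Crest.Agent.R162.FL Crest.Agent.R162.OP Crest.Agent.R162.OS

namespace Crest.Agent.R162.LB4

universe u

/-- the tube probability -/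
noncomputable def pT (κ : ℝ) : ℝ := Real.exp (-(4 * U3.lam κ 1))

theorem pT_pos (κ : ℝ) : 0 < pT κ := Real.exp_pos _

theorem pT_le_one {κ : ℝ} (hκ : 0 < κ) : pT κ ≤ 1 := by
  unfold pT
  apply Real.exp_le_one_iff.2
  have := U3.lam_pos hκ (one_pos)
  linarith

variable {Ω : Type u} {m : MeasurableSpace Ω} {P : Measure Ω} {Fl : Filtration ℝ≥0 m}
  {B : ℝ≥0 → Ω → ℝ} {κ : ℝ}

/-- **OP4 with `σ = 0`, `a = 4`**: the tube of a point on the imaginary axis has probability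
at least `pT κ`. -/
theorem tube_set (hM : OPM.{u}) (hD : U3.DStmt) [IsProbabilityMeasure P] (hB : IsBM Fl B P)
    (hκ : 0 < κ) (hκ8 : κ < 8) {y : ℝ} (hy : 0 < y)
    (h1 : U3.E1 Fl B κ (y * Complex.I)) (h3 : U3.E3 Fl B κ (y * Complex.I)) :
    ∃ A : Set Ω, MeasurableSet A ∧ A ⊆ {ω | ∃ t, Tube (driving κ B ω) (y * Complex.I) t} ∧
      ENNReal.ofReal (pT κ) ≤ P A := by
  have him : 0 < ((y : ℂ) * Complex.I).im := by simpa using hy
  have hst0 : ∀ ω, stP κ B (y * Complex.I) 0 ω = (0, y, Real.log y, 0) := by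
    intro ω
    have hW := U3.continuousOn_driving (κ := κ) hB ω
    have h0 : gfl (driving κ B ω) 0 (y * Complex.I) = y * Complex.I :=
      FLC.gfl_zero_of_im_pos hW (alive_zero him)
    have hd0 : driving κ B ω 0 = 0 := by
      unfold driving
      rw [Real.toNNReal_zero, hB.zero ω, mul_zero]
    have hu : OP.ups (driving κ B ω) 0 (y * Complex.I) = y := by
      rw [ups_zero hW him]; simp
    unfold stP stW Zfl
    rw [NNReal.coe_zero, h0, hd0, hu, ath_zero]
    simp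
  have hxq : OP.xq ((0 : ℝ), y, Real.log y, (0 : ℝ)) = 0 := by
    unfold OP.xq; simp
  have hσ : IsST Fl (fun _ : Ω => (0 : ℝ≥0)) := by
    intro t
    have : {ω : Ω | (0 : ℝ≥0) ≤ t} = Set.univ := by ext; simp
    rw [this]; exact MeasurableSet.univ
  have hA : EvST Fl (fun _ : Ω => (0 : ℝ≥0)) Set.univ := by
    intro t
    have : Set.univ ∩ {ω : Ω | (0 : ℝ≥0) ≤ t} = Set.univ := by ext; simp
    rw [this]; exact MeasurableSet.univ
  obtain ⟨τ, A', T1, hP⟩ := U3.piece (w := y * Complex.I) (r2 := 1) (c := 0) (s := 0) (b' := 4)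
    hM hD hB hκ hκ8 him h1 h3 one_pos le_rfl (by simp) (by norm_num) hσ (T0 := 0)
    (fun _ => le_rfl) hA (by
      intro ω _
      refine ⟨?_, ?_, ?_⟩
      · exact alive_zero him
      · rw [hst0 ω, hxq]; norm_num
      · rw [hst0 ω]; norm_num)
  have hsub : A' ⊆ {ω | ∃ t, Tube (driving κ B ω) (y * Complex.I) t} := by
    intro ω hω
    refine ⟨(τ ω : ℝ), ?_, ?_, ?_⟩
    · exact (hP.path ω hω (τ ω) (hP.le ω) le_rfl).1
    · exact (hP.fin ω hω).1
    · intro s hs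
      have h4 := (hP.path ω hω ⟨s, hs.1⟩ (by exact_mod_cast hs.1) (by exact_mod_cast hs.2)).2.1
      have h5 : (OP.xq (stP κ B (y * Complex.I) ⟨s, hs.1⟩ ω)) ^ 2 ≤ 1 := by
        simpa using h4
      have h6 := (sq_le_one_iff_abs_le_one _).1 h5
      exact h6
  have hAm : MeasurableSet A' := U3.measurableSet_of_evST (fun ω => hP.leT ω) hP.ev
  have hl := U3.lam_pos hκ (one_pos)
  have hleft : ∫ ω in (Set.univ : Set Ω), U3.ft 1 (U3.lam κ 1) 0 0
      (stP κ B (y * Complex.I) 0 ω) ∂P = 1 := by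
    have : ∀ ω, U3.ft 1 (U3.lam κ 1) 0 0 (stP κ B (y * Complex.I) 0 ω) = 1 := by
      intro ω
      rw [hst0 ω]
      unfold U3.ft
      rw [hxq]; norm_num
    simp [this]
  have hright : ∫ ω in A', U3.ft 1 (U3.lam κ 1) 0 0 (stP κ B (y * Complex.I) (τ ω) ω) ∂P ≤
      Real.exp (4 * U3.lam κ 1) * P.real A' := by
    have hb : ∀ ω ∈ A', U3.ft 1 (U3.lam κ 1) 0 0 (stP κ B (y * Complex.I) (τ ω) ω) ≤
        Real.exp (4 * U3.lam κ 1) := by
      intro ω hω
      obtain ⟨h4, h5⟩ := hP.fin ω hω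
      unfold U3.ft
      rw [h4]
      have h6 : (1 - (OP.xq (stP κ B (y * Complex.I) (τ ω) ω) - (0 + 0 * 4)) ^ 2) ^ 2 ≤ 1 := by
        have h7 : 0 ≤ (OP.xq (stP κ B (y * Complex.I) (τ ω) ω) - (0 + 0 * 4)) ^ 2 := sq_nonneg _
        nlinarith
      calc Real.exp (U3.lam κ 1 * 4) *
            (1 - (OP.xq (stP κ B (y * Complex.I) (τ ω) ω) - (0 + 0 * 4)) ^ 2) ^ 2
          ≤ Real.exp (U3.lam κ 1 * 4) * 1 := by gcongr
        _ = Real.exp (4 * U3.lam κ 1) := by rw [mul_one, mul_comm]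
    have h8 : ∫ ω in A', U3.ft 1 (U3.lam κ 1) 0 0 (stP κ B (y * Complex.I) (τ ω) ω) ∂P ≤
        ∫ ω in A', Real.exp (4 * U3.lam κ 1) ∂P := by
      by_cases hi : IntegrableOn (fun ω => U3.ft 1 (U3.lam κ 1) 0 0
          (stP κ B (y * Complex.I) (τ ω) ω)) A' P
      · exact setIntegral_mono_on hi (integrableOn_const (by finiteness)) hAm hb
      · rw [integral_undef hi]
        exact integral_nonneg fun ω => (Real.exp_pos _).le
    rw [setIntegral_const, smul_eq_mul, mul_comm (P.real A')] at h8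
    exact h8
  have hineq := hP.ineq
  rw [hleft] at hineq
  have hreal : pT κ ≤ P.real A' := by
    have h9 : 1 ≤ Real.exp (4 * U3.lam κ 1) * P.real A' := hineq.trans hright
    unfold pT
    rw [Real.exp_neg]
    rw [inv_le_iff_one_le_mul₀ (Real.exp_pos _)]
    linarith [mul_comm (Real.exp (4 * U3.lam κ 1)) (P.real A')]
  refine ⟨A', hAm, hsub, ?_⟩
  calc ENNReal.ofReal (pT κ) ≤ ENNReal.ofReal (P.real A') := ENNReal.ofReal_le_ofReal hreal
    _ = P A' := by rw [Measure.real, ENNReal.ofReal_toReal (measure_ne_top P A')]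

theorem tube_prob (hM : OPM.{u}) (hD : U3.DStmt) [IsProbabilityMeasure P] (hB : IsBM Fl B P)
    (hκ : 0 < κ) (hκ8 : κ < 8) {y : ℝ} (hy : 0 < y)
    (h1 : U3.E1 Fl B κ (y * Complex.I)) (h3 : U3.E3 Fl B κ (y * Complex.I)) :
    ENNReal.ofReal (pT κ) ≤ P {ω | ∃ t, Tube (driving κ B ω) (y * Complex.I) t} := by
  obtain ⟨A, _, h, h'⟩ := tube_set hM hD hB hκ hκ8 hy h1 h3
  exact h'.trans (measure_mono h)

end Crest.Agent.R162.LB4
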