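import Crest.Agent.R162.U3D
import Crest.Agent.R162.U3Defs

/-!
Row 162 (S0243), node U3, frozen statement D (helper204).
-/

set_option autoImplicit false

open MeasureTheory Set intervalIntegral

namespace Crest.Agent.R162.U3

open Crest.Agent.R162.FL Crest.Agent.R162.OP Crest.Agent.R162.UB

variable {W : ℝ → ℝ} {w : ℂ} {t : ℝ}

theorem norm_eq_cosh (ha : Alive W w t) :
    ‖Zfl W t w‖ = (Zfl W t w).im * Real.cosh (xfl W t w) := by
  have hz : 0 < (Zfl W t w).im := Zfl_im_pos ha
  have hc : Real.cosh (U5a.xc (Zfl W t w)) = ‖Zfl W t w‖ / (Zfl W t w).im := U5a.cosh_xc hz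
  rw [U5br.xc_eq] at hc
  rw [hc]
  field_simp

theorem cosh_le_of_abs_le {x c : ℝ} (h : |x| ≤ c) : Real.cosh x ≤ Real.cosh c := by
  rw [← Real.cosh_abs]
  exact Real.cosh_le_cosh.2 (by rw [abs_abs, abs_of_nonneg ((abs_nonneg x).trans h)]; exact h)

theorem xfl_cont (hW : ContinuousOn W (Ici 0)) (ha : Alive W w t) :
    ContinuousOn (fun s => xfl W s w) (Icc 0 t) := by
  unfold xfl
  refine Real.continuous_arsinh.comp_continuousOn ?_
  refine ContinuousOn.div ?_ ?_ ?_
  · exact (Complex.continuous_re.comp_continuousOn (continuousOn_Zfl hW ha)).neg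
  · exact Complex.continuous_im.comp_continuousOn (continuousOn_Zfl hW ha)
  · exact fun s hs => (Zfl_im_pos_of_mem ha hs).ne'

theorem cont_rate4 (hW : ContinuousOn W (Ici 0)) (ha : Alive W w t) :
    ContinuousOn (fun r => 4 * (Zfl W r w).im ^ 2 / ‖Zfl W r w‖ ^ 4) (Icc 0 t) := by
  refine ContinuousOn.div ?_ ((continuousOn_Zfl hW ha).norm.pow 4) ?_
  · exact continuousOn_const.mul
      ((Complex.continuous_im.comp_continuousOn (continuousOn_Zfl hW ha)).pow 2)
  · exact fun r hr => pow_ne_zero _ (norm_Zfl_pos_of_mem ha hr).ne'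

theorem flowFacts : DStmt := by
  intro W w t hW ha
  have hr1 := U5br.cont_norm_inv hW ha
  have hr4 := cont_rate4 hW ha
  have hal : ∀ s ∈ Icc 0 t, Alive W w s := fun s hs => ha.mono hs.1 hs.2
  have hath : ∀ s ∈ Icc 0 t, ∀ u ∈ Icc s t,
      ath W u w - ath W s w = ∫ v in s..u, 1 / ‖Zfl W v w‖ ^ 2 := fun s hs u hu =>
    U5br.ath_sub hW ha hs ⟨hs.1.trans hu.1, hu.2⟩
  have hmem : ∀ s ∈ Icc 0 t, ∀ u ∈ Icc s t, u ∈ Icc 0 t := fun s hs u hu =>
    ⟨hs.1.trans hu.1, hu.2⟩
  refine ⟨?_, ?_, ath_zero W w, continuousOn_ath hW ha, ?_, xfl_cont hW ha, ?_, ?_, ?_, ?_, ?_, ?_,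
    ?_, ?_, ?_⟩
  · intro s hs
    rw [Zfl_im]
    exact im_eq_exp_ath hW (hal s hs)
  · intro s hs
    unfold ath
    exact intervalIntegral.integral_nonneg hs.1 fun v _ => by positivity
  · apply strictMonoOn_of_hasDerivWithinAt_pos (convex_Icc 0 t)
      (f' := fun s => 1 / ‖Zfl W s w‖ ^ 2)
    · exact continuousOn_ath hW ha
    · intro s hs
      have hs' : s ∈ Icc 0 t := interior_subset hs
      exact (hasDeriv_ath hW ha hs').mono interior_subset
    · intro s hs
      have hs' : s ∈ Icc 0 t := interior_subset hs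
      have := norm_Zfl_pos_of_mem ha hs'
      positivity
  · intro s hs
    exact FL.ups_pos (hal s hs)
  · exact FL.ups_zero ha.im_pos
  · exact FL.continuousOn_ups hW ha
  · exact FL.ups_strictAntiOn hW ha
  · intro s hs u hu
    have h1 := FL.log_ups_sub hW ha hs.1 hu.1 hu.2
    have h2 : (∫ r in s..u, 4 * (Zfl W r w).im ^ 2 / ‖Zfl W r w‖ ^ 4)
        ≤ 4 * (ath W u w - ath W s w) := by
      rw [hath s hs u hu, ← intervalIntegral.integral_const_mul]
      apply intervalIntegral.integral_mono_on hu.1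
      · exact U5br.ii_of_cont hr4 hs (hmem s hs u hu)
      · exact (U5br.ii_of_cont hr1 hs (hmem s hs u hu)).const_mul _
      · intro v hv
        have hv' : v ∈ Icc 0 t := ⟨hs.1.trans hv.1, hv.2.trans hu.2⟩
        have hz : 0 < (Zfl W v w).im := Zfl_im_pos (hal v hv')
        rw [U5a.im_sq_div hz, one_div]
        have hn := U5a.norm_pos_of_im hz
        have hc : 1 ≤ Real.cosh (U5a.xc (Zfl W v w)) := Real.one_le_cosh _
        have : 4 / Real.cosh (U5a.xc (Zfl W v w)) ^ 2 ≤ 4 := by
          rw [div_le_iff₀ (by positivity)]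
          nlinarith
        gcongr
    have hps := FL.ups_pos (hal s hs)
    have hpu := FL.ups_pos (hal u (hmem s hs u hu))
    rw [← Real.log_le_log_iff (by positivity) hpu, Real.log_mul hps.ne' (Real.exp_pos _).ne',
      Real.log_exp]
    linarith
  · intro c s hs u hu hx
    have h1 := FL.log_ups_sub hW ha hs.1 hu.1 hu.2
    have h2 : 4 / Real.cosh c ^ 2 * (ath W u w - ath W s w)
        ≤ (∫ r in s..u, 4 * (Zfl W r w).im ^ 2 / ‖Zfl W r w‖ ^ 4) := by
      rw [hath s hs u hu, ← intervalIntegral.integral_const_mul]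
      apply intervalIntegral.integral_mono_on hu.1
      · exact (U5br.ii_of_cont hr1 hs (hmem s hs u hu)).const_mul _
      · exact U5br.ii_of_cont hr4 hs (hmem s hs u hu)
      · intro v hv
        have hv' : v ∈ Icc 0 t := ⟨hs.1.trans hv.1, hv.2.trans hu.2⟩
        have hz : 0 < (Zfl W v w).im := Zfl_im_pos (hal v hv')
        rw [U5a.im_sq_div hz, one_div, U5br.xc_eq]
        have hp : 0 < Real.cosh (xfl W v w) := Real.cosh_pos _
        have hcc := cosh_le_of_abs_le (hx v hv)
        gcongr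
    have hps := FL.ups_pos (hal s hs)
    have hpu := FL.ups_pos (hal u (hmem s hs u hu))
    rw [← Real.log_le_log_iff hpu (by positivity), Real.log_mul hps.ne' (Real.exp_pos _).ne',
      Real.log_exp]
    linarith
  · intro s hs
    rw [U3D.sfl_eq_inv_cosh (hal s hs), one_div]
  · intro s hs
    exact norm_eq_cosh (hal s hs)
  · intro c s hs u hu hx
    rw [hath s hs u hu, ← intervalIntegral.integral_const_mul]
    have h3 : u - s = ∫ _ in s..u, (1:ℝ) := by simp
    rw [h3]
    apply intervalIntegral.integral_mono_on hu.1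
    · exact intervalIntegrable_const
    · exact (U5br.ii_of_cont hr1 hs (hmem s hs u hu)).const_mul _
    · intro v hv
      have hv' : v ∈ Icc 0 t := ⟨hs.1.trans hv.1, hv.2.trans hu.2⟩
      have hz : 0 < (Zfl W v w).im := Zfl_im_pos (hal v hv')
      have hn := U5a.norm_pos_of_im hz
      rw [mul_one_div, le_div_iff₀ (by positivity), one_mul]
      have h4 : (Zfl W v w).im ≤ w.im := by
        rw [Zfl_im, im_eq_exp_ath hW (hal v hv')]
        have h5 : 0 ≤ ath W v w := by
          unfold ath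
          exact intervalIntegral.integral_nonneg hv'.1 fun _ _ => by positivity
        have h6 : Real.exp (-2 * ath W v w) ≤ 1 := Real.exp_le_one_iff.2 (by linarith)
        have := ha.im_pos
        nlinarith
      have h7 := cosh_le_of_abs_le (hx v hv)
      have h8 : ‖Zfl W v w‖ ≤ w.im * Real.cosh c := by
        rw [norm_eq_cosh (hal v hv')]
        exact mul_le_mul h4 h7 (Real.cosh_pos _).le ha.im_pos.le
      gcongr

end Crest.Agent.R162.U3
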