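import Crest.Agent.R162.U3D
import Crest.Agent.R162.U3Defs

/-!
Row 162 (S0243), node U3, sub-lemma X1 (helper263): the deterministic consequences of the cell tube.
The tube given relative to the cell centre `(ξ, a₀)` at distance `3/4` is the extended tube
`U3D.ExtAt` relative to `(x_σ, a_σ)` at distance `1`; the rest is `U3D.ext_level`.
-/

set_option autoImplicit false

open Set
open Crest.Agent.R162.FL Crest.Agent.R162.OP Crest.Agent.R162.UB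

namespace Crest.Agent.R162.U3

variable {W : ℝ → ℝ} {w : ℂ} {r N δ E σ T a₀ ξ : ℝ}

lemma abs_max_sub_max_le' {a b c d ε : ℝ} (h1 : |a - c| ≤ ε) (h2 : |b - d| ≤ ε) :
    |max a b - max c d| ≤ ε :=
  (abs_max_sub_max_le_max a b c d).trans (max_le h1 h2)

lemma abs_min_sub_min_le' {a b c d ε : ℝ} (h1 : |a - c| ≤ ε) (h2 : |b - d| ≤ ε) :
    |min a b - min c d| ≤ ε :=
  (abs_min_sub_min_le_max a b c d).trans (max_le h1 h2)

/-- `psiE` moves by at most `ε + ε'` when `ξ` moves by `ε` and the clock moves by `ε'`. -/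
lemma psiE_sub_le {N ξ ξ' a a' ε ε' : ℝ} (h1 : |ξ - ξ'| ≤ ε) (h2 : |a - a'| ≤ ε') :
    |psiE N ξ a - psiE N ξ' a'| ≤ ε + ε' := by
  have hε : 0 ≤ ε := (abs_nonneg _).trans h1
  have hε' : 0 ≤ ε' := (abs_nonneg _).trans h2
  have h1' := abs_le.1 h1
  have h2' := abs_le.1 h2
  unfold psiE
  refine abs_max_sub_max_le' ?_ (abs_max_sub_max_le' ?_ (abs_min_sub_min_le' ?_ ?_))
  · exact abs_le.2 ⟨by linarith [h1'.1, h2'.2], by linarith [h1'.2, h2'.1]⟩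
  · rw [sub_self, abs_zero]
    linarith
  · exact abs_le.2 ⟨by linarith [h1'.2, h2'.1], by linarith [h1'.1, h2'.2]⟩
  · rw [sub_self, abs_zero]
    linarith

/-- **the cell tube contains the extended tube** -/
theorem extAt_of_cell (hW : ContinuousOn W (Ici 0)) (hδ : 0 < δ) (hN1 : Real.log (2 / δ) ≤ N - 1)
    (hN2 : 4 ≤ Real.log N) (hE : 1 / 4 ≤ E) (h0 : 0 ≤ σ) (hσT : σ ≤ T) (hal : Alive W w T)
    (hr : ups W σ w = r) (hs : δ ≤ sfl W σ w) (hξ : |xfl W σ w - ξ| ≤ 1 / 8)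
    (ha1 : a₀ ≤ ath W σ w) (ha2 : ath W σ w ≤ a₀ + 1 / 8)
    (hT : ath W T w - a₀ = ξ + N + Real.log N - 2 + E)
    (htube : ∀ t ∈ Icc σ T, |xfl W t w - psiE N ξ (ath W t w - a₀)| ≤ 3 / 4) :
    ∃ T2 ∈ Icc σ T, U3D.ExtAt W w r N δ (E - 1 / 4) σ T2 := by
  have hσ : Alive W w σ := hal.mono h0 hσT
  have hx0 := abs_le.1 (U3D.abs_xfl_le' hδ hσ hs)
  have hξ' := abs_le.1 hξ
  have hcont : ContinuousOn (fun u => ath W u w) (Icc σ T) :=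
    (FL.continuousOn_ath hW hal).mono (Icc_subset_Icc h0 le_rfl)
  have hmem : ath W σ w + dur N (xfl W σ w) + (E - 1 / 4) ∈ Icc (ath W σ w) (ath W T w) := by
    unfold dur
    exact ⟨by linarith [hx0.1], by linarith [hξ'.2]⟩
  obtain ⟨T2, hT2, hT2e⟩ := intermediate_value_Icc hσT hcont hmem
  simp only at hT2e
  refine ⟨T2, hT2, h0, hT2.1, hal.mono (h0.trans hT2.1) hT2.2, hr, hs, by linarith, ?_⟩
  intro t ht
  have h1 := htube t ⟨ht.1, ht.2.trans hT2.2⟩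
  have h2 : |psiE N ξ (ath W t w - a₀) - U3D.psiE N (xfl W σ w) (ath W t w - ath W σ w)|
      ≤ 1 / 8 + 1 / 8 := by
    refine psiE_sub_le (by rwa [abs_sub_comm]) ?_
    exact abs_le.2 ⟨by linarith, by linarith⟩
  have h3 := abs_sub_le (xfl W t w) (psiE N ξ (ath W t w - a₀))
    (U3D.psiE N (xfl W σ w) (ath W t w - ath W σ w))
  linarith

/-- **the cell tube: trigger and first level time** -/
theorem cell_level (hW : ContinuousOn W (Ici 0)) (hδ : 0 < δ) (hN : 1 ≤ N)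
    (hN1 : Real.log (2 / δ) ≤ N - 1)
    (hN2 : 4 ≤ Real.log N) (hE : 1 / 4 ≤ E) (h0 : 0 ≤ σ) (hσT : σ ≤ T) (hal : Alive W w T)
    (hr : ups W σ w = r) (hs : δ ≤ sfl W σ w) (hξ : |xfl W σ w - ξ| ≤ 1 / 8)
    (ha1 : a₀ ≤ ath W σ w) (ha2 : ath W σ w ≤ a₀ + 1 / 8)
    (hT : ath W T w - a₀ = ξ + N + Real.log N - 2 + E)
    (htube : ∀ t ∈ Icc σ T, |xfl W t w - psiE N ξ (ath W t w - a₀)| ≤ 3 / 4) {l : ℝ}
    (hl1 : 16 * Real.exp 2 * (Real.log (2 / δ) + 6) ≤ l)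
    (hl2 : l ≤ 4 / Real.cosh 3 ^ 2 * (E - 1 / 4)) :
    ∃ T' ∈ Icc σ T, TrigAt W w r N δ σ T' ∧ ∃ t0 ∈ Icc T' T,
      ups W t0 w = r * Real.exp (-l) ∧ (∀ t, 0 ≤ t → t < t0 → r * Real.exp (-l) < ups W t w) ∧
      |xfl W t0 w| ≤ 3 ∧ 1 / Real.cosh 3 ≤ sfl W t0 w ∧ ups W T w ≤ r * Real.exp (-l) ∧
      ∀ τ ∈ Icc 0 T, ups W τ w = r * Real.exp (-l) → τ = t0 := by
  obtain ⟨T2, hT2, hext⟩ := extAt_of_cell hW hδ hN1 hN2 hE h0 hσT hal hr hs hξ ha1 ha2 hT htube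
  obtain ⟨T', hT', htr, t0, ht0, hu, hlt, hx, hsf⟩ :=
    U3D.ext_level hW hδ (by linarith) hN hN1 hN2 hl1 hl2 hext
  rw [mul_comm] at hu hlt
  have h0t0 : 0 ≤ t0 := (h0.trans hT'.1).trans ht0.1
  have ht0T : t0 ≤ T := ht0.2.trans hT2.2
  refine ⟨T', ⟨hT'.1, hT'.2.trans hT2.2⟩, htr, t0, ⟨ht0.1, ht0T⟩, hu, hlt, hx, hsf, ?_, ?_⟩
  · rw [← hu]
    exact ups_anti hW hal h0t0 ht0T
  · intro τ hτ hτe
    rcases lt_trichotomy τ t0 with h | h | h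
    · exact absurd hτe (hlt τ hτ.1 h).ne'
    · exact h
    · have := ups_strictAntiOn hW hal ⟨h0t0, ht0T⟩ hτ h
      simp only at this
      rw [hu, hτe] at this
      exact absurd this (lt_irrefl _)

/-- the statement X1 with the first level time in explicit form -/
def X1Stmt' : Prop := ∀ δ : ℝ, 0 < δ → ∃ l₁ : ℝ, 0 ≤ l₁ ∧ ∀ l₀ : ℝ, l₁ ≤ l₀ → ∃ E : ℝ, 1 ≤ E ∧
  ∃ N₀ : ℝ, 1 ≤ N₀ ∧ ∀ (W : ℝ → ℝ) (w : ℂ) (r N σ T a₀ ξ : ℝ), ContinuousOn W (Ici 0) → N₀ ≤ N →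
    0 ≤ σ → σ ≤ T → Alive W w T → ups W σ w = r → δ ≤ sfl W σ w →
    |xfl W σ w - ξ| ≤ 1 / 8 → a₀ ≤ ath W σ w → ath W σ w ≤ a₀ + 1 / 8 →
    ath W T w - a₀ = ξ + N + Real.log N - 2 + E →
    (∀ t ∈ Icc σ T, |xfl W t w - psiE N ξ (ath W t w - a₀)| ≤ 3 / 4) →
    ∃ T' ∈ Icc σ T, TrigAt W w r N δ σ T' ∧ ∃ t0 ∈ Icc T' T,
      ups W t0 w = r * Real.exp (-l₀) ∧
      (∀ t, 0 ≤ t → t < t0 → r * Real.exp (-l₀) < ups W t w) ∧
      |xfl W t0 w| ≤ 3 ∧ 1 / Real.cosh 3 ≤ sfl W t0 w ∧ ups W T w ≤ r * Real.exp (-l₀) ∧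
      ∀ τ ∈ Icc 0 T, ups W τ w = r * Real.exp (-l₀) → τ = t0

theorem x1' : X1Stmt' := by
  intro δ hδ
  refine ⟨max 0 (16 * Real.exp 2 * (Real.log (2 / δ) + 6)), le_max_left _ _, fun l₀ hl => ?_⟩
  have hl0 : 0 ≤ l₀ := (le_max_left _ _).trans hl
  have hl1 : 16 * Real.exp 2 * (Real.log (2 / δ) + 6) ≤ l₀ := (le_max_right _ _).trans hl
  have hc : 0 < Real.cosh 3 ^ 2 := by positivity
  have hE0 : 0 ≤ l₀ * Real.cosh 3 ^ 2 / 4 := by positivity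
  refine ⟨l₀ * Real.cosh 3 ^ 2 / 4 + 1, by linarith,
    max (Real.exp 4) (|Real.log (2 / δ)| + 1), ?_, ?_⟩
  · exact le_max_of_le_right (by linarith [abs_nonneg (Real.log (2 / δ))])
  intro W w r N σ T a₀ ξ hW hN h0 hσT hal hr hs hξ ha1 ha2 hT htube
  have hNe : Real.exp 4 ≤ N := (le_max_left _ _).trans hN
  have hNd : |Real.log (2 / δ)| + 1 ≤ N := (le_max_right _ _).trans hN
  have hN0 : 0 < N := (Real.exp_pos 4).trans_le hNe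
  have hlN : 4 ≤ Real.log N := (Real.le_log_iff_exp_le hN0).2 hNe
  have hl2 : l₀ ≤ 4 / Real.cosh 3 ^ 2 * (l₀ * Real.cosh 3 ^ 2 / 4 + 1 - 1 / 4) := by
    have e : 4 / Real.cosh 3 ^ 2 * (l₀ * Real.cosh 3 ^ 2 / 4 + 1 - 1 / 4)
        = l₀ + 3 / Real.cosh 3 ^ 2 := by
      field_simp
      ring
    rw [e]
    have : 0 ≤ 3 / Real.cosh 3 ^ 2 := by positivity
    linarith
  exact cell_level hW hδ (by linarith [abs_nonneg (Real.log (2 / δ))])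
    (by linarith [le_abs_self (Real.log (2 / δ))]) hlN (by linarith) h0 hσT hal hr hs hξ ha1 ha2 hT htube hl1 hl2

/-- **X1** -/
theorem x1 : X1Stmt := by
  intro δ hδ
  obtain ⟨l₁, -, h⟩ := x1' δ hδ
  refine ⟨l₁, fun l₀ hl => ?_⟩
  obtain ⟨E, hE, N₀, hN₀, h⟩ := h l₀ hl
  refine ⟨E, hE, N₀, hN₀, ?_⟩
  intro W w r N σ T a₀ ξ hW hN _ h0 hσT hal hr hs hξ ha1 ha2 hT htube
  obtain ⟨T', hT', htr, t0, ht0, -, -, hx, -, hle, huniq⟩ :=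
    h W w r N σ T a₀ ξ hW hN h0 hσT hal hr hs hξ ha1 ha2 hT htube
  refine ⟨⟨T', hT'.2, htr⟩, hle, fun τ hτ hτe => ?_⟩
  rw [huniq τ ⟨h0.trans hτ.1, hτ.2⟩ hτe]
  exact hx

end Crest.Agent.R162.U3
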