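import Mathlib
import Crest.Agent.R162.U3b

/-!
Row 162 (S0243), node U3, part c: the four linear pieces of the extended trigger tube.
-/

set_option autoImplicit false

open MeasureTheory ProbabilityTheory Set
open scoped NNReal ENNReal Topology
open Crest.ProbabilityR.Loewner
open Crest.Agent.R162.FL Crest.Agent.R162.OP Crest.Agent.R162.OS Crest.Agent.R162.UB

namespace Crest.Agent.R162.U3

universe u

variable {Ω : Type u} {m : MeasurableSpace Ω} {P : Measure Ω} {Fl : Filtration ℝ≥0 m}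
  {B : ℝ≥0 → Ω → ℝ} {κ : ℝ} {w : ℂ}

section psi

variable {N ξ a : ℝ}

theorem psiE_1 (hN : 0 ≤ N) (hM : 0 ≤ Real.log N / 2) (h : a ≤ ξ + Real.log N / 2) :
    psiE N ξ a = ξ - a := by
  unfold psiE
  apply max_eq_left
  apply max_le (by linarith)
  refine (min_le_left _ _).trans (by linarith)

theorem psiE_2 (h : ξ + Real.log N / 2 ≤ a) (h' : a ≤ ξ + Real.log N / 2 + N) :
    psiE N ξ a = -(Real.log N / 2) := by
  unfold psiE
  rw [max_eq_right ((by linarith : ξ - a ≤ -(Real.log N / 2)).trans (le_max_left _ _))]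
  apply max_eq_left
  refine (min_le_left _ _).trans (by linarith)

theorem psiE_3 (hN : 0 ≤ N) (hM : 2 ≤ Real.log N / 2) (h : ξ + Real.log N / 2 + N ≤ a)
    (h' : a ≤ ξ + N + Real.log N - 2) :
    psiE N ξ a = a - ξ - N - Real.log N := by
  unfold psiE
  rw [min_eq_left (by linarith : a - ξ - N - Real.log N ≤ -2)]
  rw [max_eq_right (by linarith : -(Real.log N / 2) ≤ a - ξ - N - Real.log N)]
  apply max_eq_right
  linarith

theorem psiE_4 (hN : 0 ≤ N) (hM : 2 ≤ Real.log N / 2) (h : ξ + N + Real.log N - 2 ≤ a) :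
    psiE N ξ a = -2 := by
  unfold psiE
  rw [min_eq_right (by linarith : -2 ≤ a - ξ - N - Real.log N)]
  rw [max_eq_right (by linarith : -(Real.log N / 2) ≤ -2)]
  apply max_eq_right
  linarith

end psi

theorem ft_congr {r2 l c s c' s' b : ℝ} (h : c + s * b = c' + s' * b) {q : ℝ × ℝ × ℝ × ℝ}
    (hq : q.2.2.2 = b) : ft r2 l c s q = ft r2 l c' s' q := by
  unfold ft; rw [hq, h]

theorem aesm_of_E3 (h3 : E3 Fl B κ w) {σ : Ω → ℝ≥0} (hσ : IsST Fl σ) {T0 : ℝ≥0}
    (hT0 : ∀ ω, σ ω ≤ T0) {A : Set Ω} (hA : EvST Fl σ A)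
    (hal : ∀ ω ∈ A, AliveP κ B w (σ ω) ω) {f : ℝ × ℝ × ℝ × ℝ → ℝ} (hf : Measurable f) :
    AEStronglyMeasurable (fun ω => f (stP κ B w (σ ω) ω)) (P.restrict A) := by
  have hAm := measurableSet_of_evST hT0 hA
  classical
  set g : Ω → ℝ × ℝ × ℝ × ℝ := fun ω => if ω ∈ A then stP κ B w (σ ω) ω else 0 with hg
  have hgm : Measurable g := by
    intro S hS
    have h4 : MeasurableSet (A ∩ {ω | AliveP κ B w (σ ω) ω ∧ stP κ B w (σ ω) ω ∈ S}) :=
      hAm.inter (measurableSet_of_evST hT0 (h3 σ S hσ hS))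
    have h5 : g ⁻¹' S = (A ∩ {ω | AliveP κ B w (σ ω) ω ∧ stP κ B w (σ ω) ω ∈ S}) ∪
        (Aᶜ ∩ {_ω | (0 : ℝ × ℝ × ℝ × ℝ) ∈ S}) := by
      ext ω
      by_cases hω : ω ∈ A
      · simp [hg, hω, hal ω hω]
      · simp [hg, hω]
    rw [h5]
    exact h4.union (hAm.compl.inter (MeasurableSet.const _))
  refine ((hf.comp hgm).aestronglyMeasurable).congr ?_
  filter_upwards [ae_restrict_mem hAm] with ω hω
  simp [hg, hω]

theorem measurable_ft (r2 l c s : ℝ) : Measurable (ft r2 l c s) := by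
  unfold ft
  have := measurable_xq
  fun_prop

/-- the four linear pieces of the extended trigger tube, on one cell -/
theorem chain (hM : OPM.{u}) (hD : DStmt) [IsProbabilityMeasure P] (hB : IsBM Fl B P)
    (hκ : 0 < κ) (hκ8 : κ < 8) (hw : 0 < w.im) (h1 : E1 Fl B κ w) (h3 : E3 Fl B κ w)
    {N ξ a0 E : ℝ} (hN : 1 ≤ N) (hM2 : 2 < Real.log N / 2) (hξ : 1 / 8 < ξ + Real.log N / 2)
    (ha0 : 0 ≤ a0) (hE : 0 < E)
    {σ : Ω → ℝ≥0} (hσ : IsST Fl σ) {T0 : ℝ≥0} (hT0 : ∀ ω, σ ω ≤ T0) {A : Set Ω}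
    (hA : EvST Fl σ A)
    (hA1 : ∀ ω ∈ A, AliveP κ B w (σ ω) ω ∧ |xq (stP κ B w (σ ω) ω) - ξ| ≤ 1 / 8 ∧
      a0 ≤ (stP κ B w (σ ω) ω).2.2.2 ∧ (stP κ B w (σ ω) ω).2.2.2 ≤ a0 + 1 / 8) :
    ∃ A' : Set Ω, A' ⊆ A ∧ MeasurableSet A' ∧
      1 / 2 * Real.exp (-(lam κ (9 / 16) * (ξ + N + Real.log N - 2 + E))) * P.real A
        ≤ P.real A' ∧
      ∀ ω ∈ A', ∃ T : ℝ≥0, σ ω ≤ T ∧ AliveP κ B w T ω ∧
        ath (driving κ B ω) T w - a0 = ξ + N + Real.log N - 2 + E ∧
        ∀ t ∈ Icc (σ ω : ℝ) T,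
          |xfl (driving κ B ω) t w - psiE N ξ (ath (driving κ B ω) t w - a0)| ≤ 3 / 4 := by
  set M := Real.log N / 2 with hMdef
  have hlog : Real.log N = 2 * M := by rw [hMdef]; ring
  have hr0 : (0:ℝ) < 9 / 16 := by norm_num
  have hr1 : (9:ℝ) / 16 ≤ 1 := by norm_num
  set b1 := a0 + ξ + M with hb1
  set b2 := a0 + ξ + M + N with hb2
  set b3 := a0 + ξ + N + 2 * M - 2 with hb3
  set b4 := a0 + ξ + N + 2 * M - 2 + E with hb4
  -- piece 1
  obtain ⟨τ1, A1, T1, p1⟩ := piece hM hD hB hκ hκ8 hw h1 h3 (r2 := 9 / 16) (c := ξ + a0) (s := -1)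
    (b' := b1) hr0 hr1 (by norm_num) (by rw [hb1]; linarith) hσ hT0 hA (by
      intro ω hω
      obtain ⟨h4, h5, h6, h7⟩ := hA1 ω hω
      refine ⟨h4, ?_, by rw [hb1]; linarith⟩
      have h8 : |xq (stP κ B w (σ ω) ω) - (ξ + a0 + -1 * (stP κ B w (σ ω) ω).2.2.2)| ≤ 1 / 4 := by
        rw [abs_le] at h5 ⊢
        constructor <;> linarith [h5.1, h5.2]
      have := sq_le_sq' (neg_le_of_abs_le h8) (le_of_abs_le h8)
      norm_num at this ⊢
      linarith)
  -- piece 2
  obtain ⟨τ2, A2, T2, p2⟩ := piece hM hD hB hκ hκ8 hw h1 h3 (r2 := 9 / 16) (c := -M) (s := 0)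
    (b' := b2) hr0 hr1 (by norm_num) (by rw [hb2]; linarith) p1.st p1.leT p1.ev (by
      intro ω hω
      obtain ⟨h4, h5⟩ := p1.fin ω hω
      refine ⟨(p1.path ω hω (τ1 ω) (p1.le ω) le_rfl).1, ?_, ?_⟩
      · rw [zero_mul, add_zero]
        rw [hb1] at h5
        convert h5 using 3
        ring
      · rw [h4, hb1, hb2]; linarith)
  -- piece 3
  obtain ⟨τ3, A3, T3, p3⟩ := piece hM hD hB hκ hκ8 hw h1 h3 (r2 := 9 / 16)
    (c := -a0 - ξ - N - 2 * M) (s := 1)
    (b' := b3) hr0 hr1 (by norm_num) (by rw [hb3]; linarith) p2.st p2.leT p2.ev (by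
      intro ω hω
      obtain ⟨h4, h5⟩ := p2.fin ω hω
      refine ⟨(p2.path ω hω (τ2 ω) (p2.le ω) le_rfl).1, ?_, ?_⟩
      · rw [h4, hb2]
        rw [zero_mul, add_zero] at h5
        convert h5 using 3
        ring
      · rw [h4, hb2, hb3]; linarith)
  -- piece 4
  obtain ⟨τ4, A4, T4, p4⟩ := piece hM hD hB hκ hκ8 hw h1 h3 (r2 := 9 / 16) (c := -2) (s := 0)
    (b' := b4) hr0 hr1 (by norm_num) (by rw [hb4]; linarith) p3.st p3.leT p3.ev (by
      intro ω hω
      obtain ⟨h4, h5⟩ := p3.fin ω hω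
      refine ⟨(p3.path ω hω (τ3 ω) (p3.le ω) le_rfl).1, ?_, ?_⟩
      · rw [zero_mul, add_zero]
        rw [hb3] at h5
        convert h5 using 3
        ring
      · rw [h4, hb3, hb4]; linarith)
  have hA1m := measurableSet_of_evST p1.leT p1.ev
  have hA2m := measurableSet_of_evST p2.leT p2.ev
  have hA3m := measurableSet_of_evST p3.leT p3.ev
  have hA4m := measurableSet_of_evST p4.leT p4.ev
  have hAm := measurableSet_of_evST hT0 hA
  set L := lam κ (9 / 16) with hL
  have hL0 : 0 < L := lam_pos hκ hr0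
  refine ⟨A4, ((p4.sub.trans p3.sub).trans p2.sub).trans p1.sub, hA4m, ?_, ?_⟩
  · -- the probability
    have e1 : ∫ ω in A1, ft (9 / 16) L (ξ + a0) (-1) (stP κ B w (τ1 ω) ω) ∂P
        = ∫ ω in A1, ft (9 / 16) L (-M) 0 (stP κ B w (τ1 ω) ω) ∂P :=
      setIntegral_congr_fun hA1m fun ω hω =>
        ft_congr (b := b1) (by rw [hb1]; ring) (p1.fin ω hω).1
    have e2 : ∫ ω in A2, ft (9 / 16) L (-M) 0 (stP κ B w (τ2 ω) ω) ∂P
        = ∫ ω in A2, ft (9 / 16) L (-a0 - ξ - N - 2 * M) 1 (stP κ B w (τ2 ω) ω) ∂P :=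
      setIntegral_congr_fun hA2m fun ω hω =>
        ft_congr (b := b2) (by rw [hb2]; ring) (p2.fin ω hω).1
    have e3 : ∫ ω in A3, ft (9 / 16) L (-a0 - ξ - N - 2 * M) 1 (stP κ B w (τ3 ω) ω) ∂P
        = ∫ ω in A3, ft (9 / 16) L (-2) 0 (stP κ B w (τ3 ω) ω) ∂P :=
      setIntegral_congr_fun hA3m fun ω hω =>
        ft_congr (b := b3) (by rw [hb3]; ring) (p3.fin ω hω).1
    have i1 := p1.ineq
    have i2 := p2.ineq
    have i3 := p3.ineq
    have i4 := p4.ineq
    rw [← hL] at i1 i2 i3 i4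
    have hlow : Real.exp (L * a0) * (1 / 4) * P.real A ≤
        ∫ ω in A, ft (9 / 16) L (ξ + a0) (-1) (stP κ B w (σ ω) ω) ∂P := by
      have hmeas : AEStronglyMeasurable
          (fun ω => ft (9 / 16) L (ξ + a0) (-1) (stP κ B w (σ ω) ω)) (P.restrict A) :=
        aesm_of_E3 h3 hσ hT0 hA (fun ω hω => (hA1 ω hω).1) (measurable_ft _ _ _ _)
      have hbd : ∀ ω ∈ A, Real.exp (L * a0) * (1 / 4) ≤
          ft (9 / 16) L (ξ + a0) (-1) (stP κ B w (σ ω) ω) ∧
          ft (9 / 16) L (ξ + a0) (-1) (stP κ B w (σ ω) ω) ≤ Real.exp (L * (a0 + 1 / 8)) := by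
        intro ω hω
        obtain ⟨h4, h5, h6, h7⟩ := hA1 ω hω
        unfold ft
        set a := (stP κ B w (σ ω) ω).2.2.2
        set x := xq (stP κ B w (σ ω) ω)
        have h8 : |x - (ξ + a0 + -1 * a)| ≤ 1 / 4 := by
          rw [abs_le] at h5 ⊢
          constructor <;> linarith [h5.1, h5.2]
        have h9 : (x - (ξ + a0 + -1 * a)) ^ 2 ≤ 1 / 16 := by
          have := sq_le_sq' (neg_le_of_abs_le h8) (le_of_abs_le h8)
          norm_num at this ⊢
          linarith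
        have h10 : 0 ≤ (x - (ξ + a0 + -1 * a)) ^ 2 := sq_nonneg _
        have h11 : 1 / 4 ≤ (9 / 16 - (x - (ξ + a0 + -1 * a)) ^ 2) ^ 2 := by nlinarith
        have h12 : (9 / 16 - (x - (ξ + a0 + -1 * a)) ^ 2) ^ 2 ≤ 1 := by nlinarith
        have h13 : Real.exp (L * a0) ≤ Real.exp (L * a) := Real.exp_le_exp.2 (by gcongr)
        have h14 : Real.exp (L * a) ≤ Real.exp (L * (a0 + 1 / 8)) :=
          Real.exp_le_exp.2 (by gcongr)
        constructor
        · exact mul_le_mul h13 h11 (by norm_num) (Real.exp_pos _).le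
        · calc _ ≤ Real.exp (L * (a0 + 1 / 8)) * 1 :=
                mul_le_mul h14 h12 (sq_nonneg _) (Real.exp_pos _).le
            _ = _ := mul_one _
      have hint : IntegrableOn
          (fun ω => ft (9 / 16) L (ξ + a0) (-1) (stP κ B w (σ ω) ω)) A P := by
        refine Integrable.mono' (integrable_const (Real.exp (L * (a0 + 1 / 8)))) hmeas ?_
        filter_upwards [ae_restrict_mem hAm] with ω hω
        rw [Real.norm_eq_abs, abs_of_nonneg (ft_nonneg _ _ _ _ _)]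
        exact (hbd ω hω).2
      exact setIntegral_ge_of_const_le_real hAm (measure_ne_top _ _) (fun ω hω => (hbd ω hω).1)
        hint
    have hup : ∫ ω in A4, ft (9 / 16) L (-2) 0 (stP κ B w (τ4 ω) ω) ∂P ≤
        Real.exp (L * b4) * (81 / 256) * P.real A4 := by
      refine (le_abs_self _).trans ?_
      rw [← Real.norm_eq_abs]
      refine norm_setIntegral_le_of_norm_le_const (measure_lt_top _ _) fun ω hω => ?_
      obtain ⟨h4, h5⟩ := p4.fin ω hω
      rw [Real.norm_eq_abs, abs_of_nonneg (ft_nonneg _ _ _ _ _)]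
      unfold ft
      rw [h4]
      have h6 : 0 ≤ (xq (stP κ B w (τ4 ω) ω) - (-2 + 0 * b4)) ^ 2 := sq_nonneg _
      have h7 : (9 / 16 - (xq (stP κ B w (τ4 ω) ω) - (-2 + 0 * b4)) ^ 2) ^ 2 ≤ 81 / 256 := by
        nlinarith
      gcongr
    have hch : Real.exp (L * a0) * (1 / 4) * P.real A ≤
        Real.exp (L * b4) * (81 / 256) * P.real A4 := by
      linarith
    have hexp : Real.exp (L * b4) = Real.exp (L * a0) *
        Real.exp (L * (ξ + N + Real.log N - 2 + E)) := by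
      rw [← Real.exp_add, hb4, hlog]; ring_nf
    rw [hexp] at hch
    set X := Real.exp (L * (ξ + N + Real.log N - 2 + E)) with hX
    have hX0 : 0 < X := Real.exp_pos _
    rw [Real.exp_neg, ← hX]
    have ha : 0 < Real.exp (L * a0) := Real.exp_pos _
    have h8 : 1 / 4 * P.real A ≤ X * (81 / 256) * P.real A4 := by
      have : Real.exp (L * a0) * (1 / 4 * P.real A) ≤
          Real.exp (L * a0) * (X * (81 / 256) * P.real A4) := by
        calc _ = Real.exp (L * a0) * (1 / 4) * P.real A := by ring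
          _ ≤ _ := hch
          _ = _ := by ring
      exact le_of_mul_le_mul_left this ha
    have hPA : 0 ≤ P.real A4 := measureReal_nonneg
    have h9 : P.real A ≤ 2 * X * P.real A4 := by
      have : 0 ≤ X * P.real A4 := by positivity
      nlinarith
    calc 1 / 2 * X⁻¹ * P.real A ≤ 1 / 2 * X⁻¹ * (2 * X * P.real A4) := by gcongr
      _ = P.real A4 := by field_simp
  · -- the path
    intro ω hω4
    have hω3 := p4.sub hω4
    have hω2 := p3.sub hω3
    have hω1 := p2.sub hω2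
    have hω := p1.sub hω1
    have hle : σ ω ≤ τ4 ω := (((p1.le ω).trans (p2.le ω)).trans (p3.le ω)).trans (p4.le ω)
    have hal : AliveP κ B w (τ4 ω) ω := (p4.path ω hω4 (τ4 ω) (p4.le ω) le_rfl).1
    have hF := hD _ w _ (continuousOn_driving (κ := κ) hB ω) hal
    refine ⟨τ4 ω, hle, hal, ?_, ?_⟩
    · have h4 : ath (driving κ B ω) (τ4 ω) w = b4 := (p4.fin ω hω4).1
      rw [h4, hb4, hlog]; ring
    · intro t ht
      have ht0 : 0 ≤ t := (NNReal.coe_nonneg _).trans ht.1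
      lift t to ℝ≥0 using ht0
      have hst : σ ω ≤ t := by exact_mod_cast ht.1
      have htt : t ≤ τ4 ω := by exact_mod_cast ht.2
      have hmono : ∀ s : ℝ≥0, s ≤ t → ath (driving κ B ω) s w ≤ ath (driving κ B ω) t w := by
        intro s hs
        exact hF.ath_mono.monotoneOn ⟨NNReal.coe_nonneg _, by exact_mod_cast hs.trans htt⟩
          ⟨NNReal.coe_nonneg _, by exact_mod_cast htt⟩ (by exact_mod_cast hs)
      have hsq : ∀ y : ℝ, y ^ 2 ≤ 9 / 16 → |y| ≤ 3 / 4 := by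
        intro y hy
        exact abs_le_of_sq_le_sq (by norm_num; exact hy) (by norm_num)
      rcases le_total t (τ1 ω) with h | h
      · obtain ⟨_, h5, h6⟩ := p1.path ω hω1 t hst h
        have h7 : a0 ≤ ath (driving κ B ω) t w := (hA1 ω hω).2.2.1.trans (hmono _ hst)
        have h6' : ath (driving κ B ω) t w ≤ b1 := h6
        rw [psiE_1 (by linarith) (by linarith) (by rw [hb1] at h6'; linarith)]
        have h8 : (xfl (driving κ B ω) t w - (ξ + a0 + -1 * ath (driving κ B ω) t w)) ^ 2 ≤ 9 / 16 :=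
          h5
        apply hsq
        convert h8 using 2
        ring
      rcases le_total t (τ2 ω) with h' | h'
      · obtain ⟨_, h5, h6⟩ := p2.path ω hω2 t h h'
        have h7 : b1 ≤ ath (driving κ B ω) t w := by
          rw [← (p1.fin ω hω1).1]; exact hmono _ h
        have h6' : ath (driving κ B ω) t w ≤ b2 := h6
        rw [psiE_2 (by rw [hb1] at h7; linarith) (by rw [hb2] at h6'; linarith)]
        have h8 : (xfl (driving κ B ω) t w - (-M + 0 * ath (driving κ B ω) t w)) ^ 2 ≤ 9 / 16 :=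
          h5
        apply hsq
        convert h8 using 2
        ring
      rcases le_total t (τ3 ω) with h'' | h''
      · obtain ⟨_, h5, h6⟩ := p3.path ω hω3 t h' h''
        have h7 : b2 ≤ ath (driving κ B ω) t w := by
          rw [← (p2.fin ω hω2).1]; exact hmono _ h'
        have h6' : ath (driving κ B ω) t w ≤ b3 := h6
        rw [psiE_3 (by linarith) (by linarith) (by rw [hb2] at h7; linarith)
          (by rw [hb3] at h6'; linarith)]
        have h8 : (xfl (driving κ B ω) t w -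
          (-a0 - ξ - N - 2 * M + 1 * ath (driving κ B ω) t w)) ^ 2 ≤ 9 / 16 := h5
        apply hsq
        convert h8 using 2
        rw [hlog]; ring
      · obtain ⟨_, h5, h6⟩ := p4.path ω hω4 t h'' htt
        have h7 : b3 ≤ ath (driving κ B ω) t w := by
          rw [← (p3.fin ω hω3).1]; exact hmono _ h''
        rw [psiE_4 (by linarith) (by linarith) (by rw [hb3] at h7; linarith)]
        have h8 : (xfl (driving κ B ω) t w - (-2 + 0 * ath (driving κ B ω) t w)) ^ 2 ≤ 9 / 16 :=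
          h5
        apply hsq
        convert h8 using 2
        ring

end Crest.Agent.R162.U3
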