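import Mathlib
import Crest.Agent.R162.U3c
import Crest.Agent.R162.U3X
import Crest.Agent.R162.U3FF
import Crest.Agent.R162.OPTr2
import Crest.Agent.R162.Rad

/-!
Row 162 (S0243), node U3, part d: exit-time facts, cells, and the trigger probability at a
radial level.
-/

set_option autoImplicit false

open MeasureTheory ProbabilityTheory Set
open scoped NNReal ENNReal Topology
open Crest.ProbabilityR.Loewner
open Crest.Agent.R162.FL Crest.Agent.R162.OP Crest.Agent.R162.OS Crest.Agent.R162.UB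

namespace Crest.Agent.R162.U3

universe u

variable {Ω : Type u} {m : MeasurableSpace Ω} {P : Measure Ω} {Fl : Filtration ℝ≥0 m}
  {B : ℝ≥0 → Ω → ℝ} {κ : ℝ} {w : ℂ}

theorem e1 (hB : IsBM Fl B P) : E1 Fl B κ w := by
  intro O δ σ T hO hδ hOδ hσ
  refine ⟨hit (stP κ B w) Oᶜ σ T, OPTr.hit_open_isST hB hδ hO hOδ hσ T, fun ω => le_hit,
    fun ω => hit_le_max, fun ω _ hin => ?_⟩
  obtain ⟨h1, h2, h3⟩ := OPTr.hit_open_spec (κ := κ) (w := w) hB hδ hO hOδ σ T hin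
  refine ⟨fun t ht1 ht2 => ⟨(h1 t ht1 ht2.le).1, h2 t ht1 ht2⟩,
    (h1 _ le_hit le_rfl).1, (h1 _ le_hit le_rfl).2, fun h4 => ?_⟩
  rcases h3 with h | h
  · exact h
  · exact absurd h4 h

theorem e3 (hB : IsBM Fl B P) : E3 Fl B κ w := fun _ _ hσ hS => OPTr.evST_alive_mem hB hS hσ

/-- countable disjoint cells -/
theorem cells {ι : Type*} [Countable ι] {A A' : ι → Set Ω} {q : ℝ≥0∞}
    (hAm : ∀ i, MeasurableSet (A i)) (hA'm : ∀ i, MeasurableSet (A' i))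
    (hsub : ∀ i, A' i ⊆ A i) (hdisj : Pairwise (Function.onFun Disjoint A))
    (h : ∀ i, q * P (A i) ≤ P (A' i)) : q * P (⋃ i, A i) ≤ P (⋃ i, A' i) := by
  have hd' : Pairwise (Function.onFun Disjoint A') := fun i j hij =>
    (hdisj hij).mono (hsub i) (hsub j)
  rw [measure_iUnion hdisj hAm, measure_iUnion hd' hA'm, ← ENNReal.tsum_mul_left]
  exact ENNReal.tsum_le_tsum h

section sig

open Rad

variable {gen' : (St → ℝ) → St → ℝ} {s₀ : ℝ} (D : OneP Fl P gen' s₀)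

open Classical in
/-- `tau s` capped at `n` -/
noncomputable def sig (s : ℝ) (n : ℕ) (ω : Ω) : ℝ≥0 :=
  if ω ∈ D.alive s then min (D.tau s ω) n else n

theorem sig_le (s : ℝ) (n : ℕ) (ω : Ω) : sig D s n ω ≤ n := by
  unfold sig; split_ifs
  · exact min_le_right _ _
  · exact le_rfl

theorem sig_eq {s : ℝ} {n : ℕ} {ω : Ω} (h : ω ∈ D.alive s) (hn : D.tau s ω ≤ n) :
    sig D s n ω = D.tau s ω := by
  unfold sig; rw [if_pos h, min_eq_left hn]

theorem sig_ST (s : ℝ) (n : ℕ) : IsST Fl (sig D s n) := by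
  intro t
  have : {ω | sig D s n ω ≤ t} = (D.alive s ∩ {ω | D.tau s ω ≤ t}) ∪ {_ω | (n : ℝ≥0) ≤ t} := by
    ext ω
    simp only [mem_ofPred_eq, mem_union, mem_inter_iff, sig]
    split_ifs with h
    · simp [h]
    · simp [h]
  rw [this]
  exact (D.tau_meas s t).union (MeasurableSet.const _)

theorem sig_EvST {s : ℝ} {A : Set Ω} (hA : D.Past s A) (n : ℕ) :
    EvST Fl (sig D s n) (A ∩ {ω | D.tau s ω ≤ n}) := by
  intro t
  have : A ∩ {ω | D.tau s ω ≤ n} ∩ {ω | sig D s n ω ≤ t} = A ∩ {ω | D.tau s ω ≤ min t n} := by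
    ext ω
    simp only [mem_inter_iff, mem_ofPred_eq, le_min_iff]
    constructor
    · rintro ⟨⟨h1, h2⟩, h3⟩
      rw [sig_eq D (hA.1 h1) h2] at h3
      exact ⟨h1, h3, h2⟩
    · rintro ⟨h1, h3, h2⟩
      refine ⟨⟨h1, h2⟩, ?_⟩
      rw [sig_eq D (hA.1 h1) h2]; exact h3
  rw [this]
  exact Fl.mono (min_le_left _ _) _ (hA.2 _)

end sig

/-- the cell `i/8 ≤ x < (i+1)/8`, `k/8 ≤ a < (k+1)/8` -/
def cell (i : ℤ) (k : ℕ) : Set (ℝ × ℝ × ℝ × ℝ) :=
  {q | ⌊8 * xq q⌋ = i ∧ ⌊8 * q.2.2.2⌋₊ = k}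

theorem measurableSet_cell (i : ℤ) (k : ℕ) : MeasurableSet (cell i k) := by
  have h1 : Measurable fun q : ℝ × ℝ × ℝ × ℝ => ⌊8 * xq q⌋ :=
    Int.measurable_floor.comp (measurable_xq.const_mul 8)
  have h2 : Measurable fun q : ℝ × ℝ × ℝ × ℝ => ⌊8 * q.2.2.2⌋₊ :=
    Nat.measurable_floor.comp (by fun_prop)
  exact (h1 (measurableSet_singleton i)).inter (h2 (measurableSet_singleton k))

theorem cell_spec {i : ℤ} {k : ℕ} {q : ℝ × ℝ × ℝ × ℝ} (hq : q ∈ cell i k) (ha : 0 ≤ q.2.2.2) :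
    |xq q - (i : ℝ) / 8| ≤ 1 / 8 ∧ (k : ℝ) / 8 ≤ q.2.2.2 ∧ q.2.2.2 ≤ (k : ℝ) / 8 + 1 / 8 := by
  obtain ⟨h1, h2⟩ := hq
  have h3 := Int.floor_le (8 * xq q)
  have h4 := Int.lt_floor_add_one (8 * xq q)
  have h5 := Nat.floor_le (show 0 ≤ 8 * q.2.2.2 by linarith)
  have h6 := Nat.lt_floor_add_one (8 * q.2.2.2)
  rw [h1] at h3 h4
  rw [h2] at h5 h6
  refine ⟨?_, by linarith, by linarith⟩
  rw [abs_le]
  constructor <;> linarith

/-- **Trigger probability at a stopping time.** -/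
theorem ext_st (hM : OPM.{u}) [IsProbabilityMeasure P] (hB : IsBM Fl B P)
    (hκ : 0 < κ) (hκ8 : κ < 8) (hw : 0 < w.im) {X N E : ℝ} (hX : 0 ≤ X) (hE : 0 < E)
    (hN : 1 ≤ N) (hNX : X + 3 ≤ Real.log N / 2)
    {σ : Ω → ℝ≥0} (hσ : IsST Fl σ) {T0 : ℝ≥0} (hT0 : ∀ ω, σ ω ≤ T0) {A : Set Ω}
    (hA : EvST Fl σ A)
    (hA1 : ∀ ω ∈ A, AliveP κ B w (σ ω) ω ∧ |xfl (driving κ B ω) (σ ω) w| ≤ X) :
    ∃ A' : Set Ω, A' ⊆ A ∧ MeasurableSet A' ∧
      ENNReal.ofReal (1 / 2 * Real.exp (-(lam κ (9 / 16) * (X + 1 + N + Real.log N - 2 + E)))) *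
        P A ≤ P A' ∧
      ∀ ω ∈ A', ∃ T : ℝ≥0, ∃ a0 ξ : ℝ, σ ω ≤ T ∧ AliveP κ B w T ω ∧
        |xfl (driving κ B ω) (σ ω) w - ξ| ≤ 1 / 8 ∧ a0 ≤ ath (driving κ B ω) (σ ω) w ∧
        ath (driving κ B ω) (σ ω) w ≤ a0 + 1 / 8 ∧
        ath (driving κ B ω) T w - a0 = ξ + N + Real.log N - 2 + E ∧
        ∀ t ∈ Icc (σ ω : ℝ) T,
          |xfl (driving κ B ω) t w - psiE N ξ (ath (driving κ B ω) t w - a0)| ≤ 3 / 4 := by
  set q : ℝ := 1 / 2 * Real.exp (-(lam κ (9 / 16) * (X + 1 + N + Real.log N - 2 + E))) with hq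
  have hL0 : 0 < lam κ (9 / 16) := lam_pos hκ (by norm_num)
  have hq0 : 0 ≤ q := by rw [hq]; positivity
  have hAm := measurableSet_of_evST hT0 hA
  -- the cells
  set C : ℤ × ℕ → Set Ω := fun p =>
    A ∩ {ω | AliveP κ B w (σ ω) ω ∧ stP κ B w (σ ω) ω ∈ cell p.1 p.2} with hC
  have hCev : ∀ p, EvST Fl σ (C p) := fun p =>
    evST_inter hA (e3 hB σ _ hσ (measurableSet_cell _ _))
  have hCm : ∀ p, MeasurableSet (C p) := fun p => measurableSet_of_evST hT0 (hCev p)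
  have hath : ∀ ω ∈ A, 0 ≤ (stP κ B w (σ ω) ω).2.2.2 := by
    intro ω hω
    have hF := flowFacts _ w _ (continuousOn_driving (κ := κ) hB ω) (hA1 ω hω).1
    exact hF.ath_nonneg _ ⟨NNReal.coe_nonneg _, le_rfl⟩
  have hU : A = ⋃ p, C p := by
    ext ω
    simp only [mem_iUnion]
    constructor
    · intro hω
      exact ⟨(⌊8 * xq (stP κ B w (σ ω) ω)⌋, ⌊8 * (stP κ B w (σ ω) ω).2.2.2⌋₊), hω,
        (hA1 ω hω).1, rfl, rfl⟩
    · rintro ⟨p, hp⟩; exact hp.1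
  have hdisj : Pairwise (Function.onFun Disjoint C) := by
    intro p p' hpp
    rw [Function.onFun, Set.disjoint_left]
    intro ω h h'
    apply hpp
    have e1 := h.2.2
    have e2 := h'.2.2
    exact Prod.ext (e1.1.symm.trans e2.1) (e1.2.symm.trans e2.2)
  have hex : ∀ p : ℤ × ℕ, ∃ A' : Set Ω, A' ⊆ C p ∧ MeasurableSet A' ∧
      ENNReal.ofReal q * P (C p) ≤ P A' ∧
      ∀ ω ∈ A', ∃ T : ℝ≥0, σ ω ≤ T ∧ AliveP κ B w T ω ∧
        ath (driving κ B ω) T w - (p.2 : ℝ) / 8 = (p.1 : ℝ) / 8 + N + Real.log N - 2 + E ∧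
        ∀ t ∈ Icc (σ ω : ℝ) T, |xfl (driving κ B ω) t w -
          psiE N ((p.1 : ℝ) / 8) (ath (driving κ B ω) t w - (p.2 : ℝ) / 8)| ≤ 3 / 4 := by
    intro p
    by_cases hne : (C p).Nonempty
    · obtain ⟨ω₀, hω₀⟩ := hne
      have h4 := cell_spec hω₀.2.2 (hath ω₀ hω₀.1)
      have h5 : |xq (stP κ B w (σ ω₀) ω₀)| ≤ X := (hA1 ω₀ hω₀.1).2
      have h6 : |(p.1 : ℝ) / 8| ≤ X + 1 / 8 := by
        have := h4.1
        rw [abs_le] at this h5 ⊢
        constructor <;> linarith [this.1, this.2, h5.1, h5.2]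
      obtain ⟨A', hA'1, hA'2, hA'3, hA'4⟩ := chain hM flowFacts hB hκ hκ8 hw (e1 hB) (e3 hB)
        (N := N) (ξ := (p.1 : ℝ) / 8) (a0 := (p.2 : ℝ) / 8) (E := E) hN (by linarith)
        (by have := (abs_le.1 h6).1; linarith) (by positivity) hE hσ hT0 (hCev p) (by
          intro ω hω
          exact ⟨hω.2.1, cell_spec hω.2.2 (hath ω hω.1)⟩)
      refine ⟨A', hA'1, hA'2, ?_, hA'4⟩
      have h7 : q ≤ 1 / 2 * Real.exp (-(lam κ (9 / 16) *
          ((p.1 : ℝ) / 8 + N + Real.log N - 2 + E))) := by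
        rw [hq]
        apply mul_le_mul_of_nonneg_left _ (by norm_num)
        apply Real.exp_le_exp.2
        have := (abs_le.1 h6).2
        apply neg_le_neg
        apply mul_le_mul_of_nonneg_left _ hL0.le
        linarith
      have h8 : q * P.real (C p) ≤ P.real A' :=
        (mul_le_mul_of_nonneg_right h7 measureReal_nonneg).trans hA'3
      calc ENNReal.ofReal q * P (C p)
          = ENNReal.ofReal (q * P.real (C p)) := by
            rw [measureReal_def, ENNReal.ofReal_mul (p := q) hq0,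
              ENNReal.ofReal_toReal (measure_ne_top _ _)]
        _ ≤ ENNReal.ofReal (P.real A') := ENNReal.ofReal_le_ofReal h8
        _ = P A' := by rw [measureReal_def, ENNReal.ofReal_toReal (measure_ne_top _ _)]
    · rw [not_nonempty_iff_eq_empty] at hne
      refine ⟨∅, empty_subset _, MeasurableSet.empty, ?_, fun ω hω => absurd hω (notMem_empty _)⟩
      rw [hne]; simp
  choose A' hA'1 hA'2 hA'3 hA'4 using hex
  refine ⟨⋃ p, A' p, ?_, MeasurableSet.iUnion hA'2, ?_, ?_⟩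
  · exact iUnion_subset fun p => (hA'1 p).trans inter_subset_left
  · conv_lhs => rw [hU]
    exact cells hCm hA'2 hA'1 hdisj hA'3
  · intro ω hω
    obtain ⟨p, hp⟩ := mem_iUnion.1 hω
    obtain ⟨T, hT1, hT2, hT3, hT4⟩ := hA'4 p ω hp
    have hω' := hA'1 p hp
    have h4 := cell_spec hω'.2.2 (hath ω hω'.1)
    exact ⟨T, (p.2 : ℝ) / 8, (p.1 : ℝ) / 8, hT1, hT2, h4.1, h4.2.1, h4.2.2, hT3, hT4⟩

end Crest.Agent.R162.U3
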