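import Mathlib
import Crest.Agent.R162.LB4T
import Crest.Agent.R162.U3d
import Crest.Agent.R162.U3FF
import Crest.Agent.R162.OPM

/-!
Row 162 (S0243), node LB4: the tube probability, unconditional form.
-/

set_option autoImplicit false

open MeasureTheory ProbabilityTheory Set
open scoped NNReal ENNReal Topology
open Crest.ProbabilityR.Loewner
open Crest.Agent.R162.FL Crest.Agent.R162.OP Crest.Agent.R162.OS

namespace Crest.Agent.R162.LB4

universe u

variable {Ω : Type u} {m : MeasurableSpace Ω} {P : Measure Ω} {Fl : Filtration ℝ≥0 m}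
  {B : ℝ≥0 → Ω → ℝ} {κ : ℝ}

/-- the tube of a point on the imaginary axis contains a measurable event of probability
at least `pT κ`. -/
theorem tubeU [IsProbabilityMeasure P] (hB : IsBM Fl B P) (hκ : 0 < κ) (hκ8 : κ < 8) {y : ℝ}
    (hy : 0 < y) :
    ∃ A : Set Ω, MeasurableSet A ∧ A ⊆ {ω | ∃ t, Tube (driving κ B ω) (y * Complex.I) t} ∧
      ENNReal.ofReal (pT κ) ≤ P A :=
  tube_set OPM.opm U3.flowFacts hB hκ hκ8 hy (U3.e1 hB) (U3.e3 hB)

theorem tubeU' [IsProbabilityMeasure P] (hB : IsBM Fl B P) (hκ : 0 < κ) (hκ8 : κ < 8) {y : ℝ}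
    (hy : 0 < y) :
    ENNReal.ofReal (pT κ) ≤ P {ω | ∃ t, Tube (driving κ B ω) (y * Complex.I) t} := by
  obtain ⟨A, _, h, h'⟩ := tubeU hB hκ hκ8 hy
  exact h'.trans (measure_mono h)

end Crest.Agent.R162.LB4
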