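import Mathlib
import Crest.Agent.R162.LB4P
import Crest.Agent.R162.LBDefs

/-!
Row 162 (S0243), node LB4 (consumption), in the frozen vocabulary `LBDefs` (helper888).
-/

set_option autoImplicit false

open Set MeasureTheory Metric
open scoped NNReal ENNReal

namespace Crest.Agent.R162.LB4

open Crest.Agent.R162 Crest.Agent.R162.FL Crest.Agent.R162.OP Crest.Agent.R162.OS
open Crest.ProbabilityR.Loewner

variable {Ω : Type*} {m : MeasurableSpace Ω}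

theorem A_eq (p : LB.Par) (f : ℂ → ℂ) : p.A f = area (p.θ / 10) p.η p.u0 f := rfl

theorem rad_le_of {W : ℝ → ℝ} {t b : ℝ} (ht : 0 ≤ t) (h1 : Real.sqrt t ≤ b)
    (h2 : ∀ s ∈ Icc 0 t, |W s| ≤ b) : LB.rad W t ≤ b := by
  refine max_le h1 (csSup_le ⟨_, 0, ⟨le_rfl, ht⟩, rfl⟩ ?_)
  rintro _ ⟨s, hs, rfl⟩
  exact h2 s hs

theorem Tube.pos {W : ℝ → ℝ} {z : ℂ} {t : ℝ} (h : Tube W z t) : 0 < t := by
  rcases h.alive.1.lt_or_eq with h1 | h1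
  · exact h1
  · have h2 := h.fin
    rw [← h1, ath_zero] at h2
    norm_num at h2

/-- `ρ_{t1} ≤ 16 y` at the end of the tube. -/
theorem Tube.rad_le {W : ℝ → ℝ} (hW : ContinuousOn W (Ici 0)) {y t1 : ℝ}
    (h : Tube W (y * Complex.I) t1) : LB.rad W t1 ≤ 16 * y := by
  obtain ⟨h1, h2⟩ := h.rho_le hW
  exact rad_le_of h.alive.1 h1 h2

/-- the step ends before time `t` although `ρ_t ≤ ρ₁`: then `Bad2` or `Bad3` happened. -/
theorem bad_of_T_lt (p : LB.Par) {f : ℂ → ℂ} {W : ℝ → ℝ} (hW : ContinuousOn W (Ici 0))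
    {t : ℝ} (hr : LB.rad W t ≤ p.rho1 f) (h : p.T f W < t) :
    ∃ s, 0 < s ∧ LB.rad W s ≤ p.rho1 f ∧ (p.Bad2 f W s ∨ ∃ k, p.Bad3 f W s k) := by
  have hne : {t : ℝ | 0 < t ∧ p.Bad f W t}.Nonempty := by
    refine ⟨(|p.rho1 f| + 1) ^ 2, by positivity, Or.inl ?_⟩
    refine lt_of_lt_of_le ?_ (le_max_left _ _)
    rw [Real.sqrt_sq (by positivity)]
    linarith [le_abs_self (p.rho1 f)]
  obtain ⟨s, ⟨hs0, hs⟩, hst⟩ := (csInf_lt_iff (LB.T_bdd p f W) hne).1 h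
  have hrs : LB.rad W s ≤ p.rho1 f := (LB.rad_mono hW hs0.le hst.le).trans hr
  refine ⟨s, hs0, hrs, ?_⟩
  rcases hs with h1 | h1
  · exact absurd h1 (not_lt.2 hrs)
  · exact h1

theorem abs_u0_sub_le (p : LB.Par) (hp : p.Adm) (a b : ℂ) : |p.u0 a - p.u0 b| ≤ ‖a - b‖ := by
  have h := hp.lip.dist_le_mul a b
  rw [Real.dist_eq, dist_eq_norm] at h
  simpa using h

/-- **LB4, deterministic**: tube at `i y_x` finished before `T` ⟹ the area drops by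
`3·10⁻⁴ θ² ϖ`. -/
theorem consume_par (p : LB.Par) (hp : p.Adm) {f : ℂ → ℂ} (hf : DifferentiableOn ℂ f KB1.Hs)
    (hfi : InjOn f KB1.Hs) (hθ : 0 < p.θ) (hθ1 : p.θ ≤ 1) (hη : 0 ≤ p.η) (hη1 : p.η ≤ 1)
    (hy : 0 < p.y f) (hv : LB.vv p.u0 f (p.y f) = p.θ) {W : ℝ → ℝ}
    (hW : ContinuousOn W (Ici 0)) {t1 t : ℝ} (h1 : Tube W (p.y f * Complex.I) t1)
    (ht : t1 ≤ t) :
    p.A (LB.Par.st f W t) + ENNReal.ofReal (3e-4 * p.θ ^ 2 * p.varpi f) ≤ p.A f := by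
  have hu := hp.one_le (f (p.y f * Complex.I))
  have heq : KB1.ups f (p.y f * Complex.I) = p.θ * p.u0 (f (p.y f * Complex.I)) := by
    have h1 : KB1.ups f (p.y f * Complex.I) / p.u0 (f (p.y f * Complex.I)) = p.θ := hv
    have h2 : 0 < p.u0 (f (p.y f * Complex.I)) := by linarith
    rwa [div_eq_iff h2.ne'] at h1
  have him : 0 < ((p.y f : ℂ) * Complex.I).im := by simpa using hy
  exact consume hW hf hfi hp.one_le (abs_u0_sub_le p hp) hθ hθ1 hη hη1 him heq h1 ht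

/-- area never increases. -/
theorem A_le (p : LB.Par) {f : ℂ → ℂ} (hf : DifferentiableOn ℂ f KB1.Hs) {W : ℝ → ℝ}
    (hW : ContinuousOn W (Ici 0)) {t : ℝ} (ht : 0 ≤ t) : p.A (LB.Par.st f W t) ≤ p.A f :=
  area_mono hW ht hf

/-- **LB4** in the frozen vocabulary.  `hE`: probability of the tube (OP4, `σ = 0`, `a = 4`);
`hbad`: `P(T₂ or T₃ before T₁) ≤ pr/2`. -/
theorem lb4 {P : Measure Ω} {W : Ω → ℝ → ℝ} (hW : ∀ ω, ContinuousOn (W ω) (Ici 0))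
    (p : LB.Par) (hp : p.Adm) {f : ℂ → ℂ} (hf : DifferentiableOn ℂ f KB1.Hs)
    (hfi : InjOn f KB1.Hs) (hθ : 0 < p.θ) (hθ1 : p.θ ≤ 1) (hη : 0 ≤ p.η) (hη1 : p.η ≤ 1)
    (hK4 : 16 ≤ p.K4) (hy : 0 < p.y f) (hA : p.CaseA f) (hv : LB.vv p.u0 f (p.y f) = p.θ)
    {pr : ℝ} (hpr : 0 ≤ pr)
    (hE : ENNReal.ofReal pr ≤ P {ω | ∃ t, Tube (W ω) (p.y f * Complex.I) t})
    (hbad : P {ω | ∃ s, 0 < s ∧ LB.rad (W ω) s ≤ p.rho1 f ∧
      (p.Bad2 f (W ω) s ∨ ∃ k, p.Bad3 f (W ω) s k)} ≤ ENNReal.ofReal (pr / 2)) :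
    ENNReal.ofReal (pr / 2) ≤ P {ω |
      p.A (LB.Par.st f (W ω) (p.T f (W ω))) + ENNReal.ofReal (3e-4 * p.θ ^ 2 * p.varpi f) ≤
        p.A f} := by
  set E : Set Ω := {ω | ∃ t, Tube (W ω) (p.y f * Complex.I) t} with hEdef
  set bad : Set Ω := {ω | ∃ s, 0 < s ∧ LB.rad (W ω) s ≤ p.rho1 f ∧
      (p.Bad2 f (W ω) s ∨ ∃ k, p.Bad3 f (W ω) s k)} with hbaddef
  set G : Set Ω := {ω | p.A (LB.Par.st f (W ω) (p.T f (W ω))) +
      ENNReal.ofReal (3e-4 * p.θ ^ 2 * p.varpi f) ≤ p.A f} with hGdef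
  have hsub : E ⊆ bad ∪ G := by
    rintro ω ⟨t, ht⟩
    by_cases hb : p.T f (W ω) < t
    · left
      have hr : LB.rad (W ω) t ≤ p.rho1 f := by
        rw [LB.Par.rho1, if_pos hA]
        have := ht.rad_le (hW ω)
        nlinarith
      exact bad_of_T_lt p (hW ω) hr hb
    · right
      exact consume_par p hp hf hfi hθ hθ1 hη hη1 hy hv (hW ω) ht (not_lt.1 hb)
  have h1 : ENNReal.ofReal pr ≤ ENNReal.ofReal (pr / 2) + P G :=
    calc ENNReal.ofReal pr ≤ P E := hE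
      _ ≤ P (bad ∪ G) := measure_mono hsub
      _ ≤ P bad + P G := measure_union_le _ _
      _ ≤ ENNReal.ofReal (pr / 2) + P G := by gcongr
  have h2 : ENNReal.ofReal pr = ENNReal.ofReal (pr / 2) + ENNReal.ofReal (pr / 2) := by
    rw [← ENNReal.ofReal_add (by linarith) (by linarith)]
    congr 1; ring
  rw [h2] at h1
  exact (ENNReal.add_le_add_iff_left ENNReal.ofReal_ne_top).1 h1

/-- real form: `A_T - A_0 ≤ -(3·10⁻⁴ θ² ϖ)` with probability `≥ pr/2`. -/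
theorem lb4_real {P : Measure Ω} {W : Ω → ℝ → ℝ} (hW : ∀ ω, ContinuousOn (W ω) (Ici 0))
    (p : LB.Par) (hp : p.Adm) {f : ℂ → ℂ} (hf : DifferentiableOn ℂ f KB1.Hs)
    (hfi : InjOn f KB1.Hs) (hθ : 0 < p.θ) (hθ1 : p.θ ≤ 1) (hη : 0 ≤ p.η) (hη1 : p.η ≤ 1)
    (hK4 : 16 ≤ p.K4) (hy : 0 < p.y f) (hA : p.CaseA f) (hv : LB.vv p.u0 f (p.y f) = p.θ)
    (hfin : p.A f ≠ ⊤) {pr : ℝ} (hpr : 0 ≤ pr)
    (hE : ENNReal.ofReal pr ≤ P {ω | ∃ t, Tube (W ω) (p.y f * Complex.I) t})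
    (hbad : P {ω | ∃ s, 0 < s ∧ LB.rad (W ω) s ≤ p.rho1 f ∧
      (p.Bad2 f (W ω) s ∨ ∃ k, p.Bad3 f (W ω) s k)} ≤ ENNReal.ofReal (pr / 2)) :
    ENNReal.ofReal (pr / 2) ≤ P {ω |
      (p.A (LB.Par.st f (W ω) (p.T f (W ω)))).toReal - (p.A f).toReal ≤
        -(3e-4 * p.θ ^ 2 * p.varpi f)} := by
  refine (lb4 hW p hp hf hfi hθ hθ1 hη hη1 hK4 hy hA hv hpr hE hbad).trans (measure_mono ?_)
  intro ω hω
  have hu := hp.one_le (p.x f)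
  have : 0 ≤ p.varpi f := Real.rpow_nonneg (by linarith) _
  exact toReal_drop (by positivity) hfin hω

end Crest.Agent.R162.LB4
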