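import Mathlib
import Crest.Agent.R162.LB4S
import Crest.Agent.R162.LB0D
import Crest.Agent.R162.LBSkel

/-!
Row 162 (S0243), node LB4 (consumption): the final form `LBS.LB4S` of helper310's skeleton.
-/

set_option autoImplicit false

open Set MeasureTheory Metric Filter Topology
open scoped NNReal ENNReal

namespace Crest.Agent.R162.LB4

open Crest.Agent.R162 Crest.Agent.R162.FL Crest.Agent.R162.OP Crest.Agent.R162.OS
open Crest.ProbabilityR.Loewner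

universe u

variable {p : LB.Par} {f : ℂ → ℂ}

/-- `v → 1 > θ` gives a level with `v ≥ θ`. -/
theorem exists_vv (hv : Tendsto (LB.vv p.u0 f) atTop (𝓝 1)) (hθ : p.θ < 1) :
    ∃ y : ℝ, 0 < y ∧ p.θ ≤ LB.vv p.u0 f y := by
  obtain ⟨y, h1, h2⟩ :=
    ((hv.eventually (lt_mem_nhds hθ)).and (eventually_gt_atTop (0 : ℝ))).exists
  exact ⟨y, h2, h1.le⟩

/-- `y_x > 0`. -/
theorem y_pos (hp : p.Adm) (hf : DifferentiableOn ℂ f KB1.Hs) (hfi : InjOn f KB1.Hs)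
    (hv : Tendsto (LB.vv p.u0 f) atTop (𝓝 1)) (hJ : ∀ y, LB.Jv p.u0 p.q f y ≠ ⊤)
    (hq : 0 < p.q) (hθ : 0 < p.θ) (hθ1 : p.θ < 1) (hK3 : 0 < p.K3) : 0 < p.y f := by
  obtain ⟨y, hy, hvy⟩ := exists_vv hv hθ1
  exact LB0.yx_pos hf hfi hp.lip hp.one_le hq hθ hθ1.le hK3 ⟨1, one_pos, (hJ 1).lt_top⟩
    ⟨y, hy, Or.inl hvy⟩

/-- `v(y_x) = θ` in case A. -/
theorem vv_y_eq (hp : p.Adm) (hf : DifferentiableOn ℂ f KB1.Hs) (hy : 0 < p.y f)
    (hA : p.CaseA f) : LB.vv p.u0 f (p.y f) = p.θ :=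
  le_antisymm (LB0.vv_yx_le hf hp.lip hp.one_le hy) hA

/-- **deterministic LB4 at the end of the step**: tube at `i y_x` and the step ends by `T₁`. -/
theorem drop_at_T (hp : p.Adm) (hf : DifferentiableOn ℂ f KB1.Hs) (hfi : InjOn f KB1.Hs)
    (hy : 0 < p.y f) (hA : p.CaseA f) (hθ : 0 < p.θ) (hθ1 : p.θ ≤ 1) (hη : 0 ≤ p.η)
    (hη1 : p.η ≤ 1) (hK4 : 16 < p.K4) {W : ℝ → ℝ} (hW : ContinuousOn W (Ici 0)) {t : ℝ}
    (h : Tube W (p.y f * Complex.I) t) (hT : LB.rad W (p.T f W) = p.rho1 f) :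
    p.A (LB.Par.st f W (p.T f W)) + ENNReal.ofReal (3e-4 * p.θ ^ 2 * p.varpi f) ≤ p.A f := by
  have ht : t ≤ p.T f W := by
    by_contra hcon
    push Not at hcon
    have h1 := LB.rad_mono hW (LB.T_nonneg p f W) hcon.le
    have h2 := h.rad_le hW
    rw [hT, LB.Par.rho1, if_pos hA] at h1
    nlinarith
  exact consume_par p hp hf hfi hθ hθ1 hη hη1 hy (vv_y_eq hp hf hy hA) hW h ht

/-- **LB4, final form of the skeleton**, from the probability of the tube event. -/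
theorem lb4S_of {pr : ℝ} (ok : LBS.Ok p) (hK4 : 16 < p.K4)
    (hE : ∀ (Ω : Type u) [MeasurableSpace Ω] (P : Measure Ω) [IsProbabilityMeasure P]
      (F : Filtration ℝ≥0 (inferInstance : MeasurableSpace Ω)) (B : ℝ≥0 → Ω → ℝ)
      (_ : IsBM F B P) (y : ℝ), 0 < y →
      ENNReal.ofReal pr ≤ P {ω | ∃ t : ℝ, Tube (driving p.κ B ω) (y * Complex.I) t}) :
    LBS.LB4S.{u} pr (3e-4 * p.θ ^ 2) p := by
  intro Ω _ P _ F B hB f hs hA
  have hq1 := ok.qη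
  have hq0 := ok.q0
  have hη0 := ok.η0
  have hθ1 := ok.θ1
  have hf : DifferentiableOn ℂ f KB1.Hs := hs.univ.diff
  have hfi : InjOn f KB1.Hs := hs.univ.inj
  have hy : 0 < p.y f := y_pos ok.adm hf hfi hs.v_tendsto hs.J_ne_top ok.q0 ok.θ0 (by linarith)
    (by linarith [ok.K3])
  refine (hE Ω P F B hB (p.y f) hy).trans (measure_mono ?_)
  rintro ω ⟨t, ht⟩ hT
  exact drop_at_T ok.adm hf hfi hy hA ok.θ0 (by linarith) ok.η0.le (by linarith) hK4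
    (continuousOn_driving hB p.κ ω) ht hT

/-- the fourth clause of `LBS.StepIn`, in the order of quantifiers of the skeleton. -/
theorem clause4 {κ c1 q η cs K4 K3 pr : ℝ} (hK4 : 16 < K4)
    (hE : ∀ (Ω : Type u) [MeasurableSpace Ω] (P : Measure Ω) [IsProbabilityMeasure P]
      (F : Filtration ℝ≥0 (inferInstance : MeasurableSpace Ω)) (B : ℝ≥0 → Ω → ℝ)
      (_ : IsBM F B P) (y : ℝ), 0 < y →
      ENNReal.ofReal pr ≤ P {ω | ∃ t : ℝ, Tube (driving κ B ω) (y * Complex.I) t}) :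
    ∃ θ₀ > 0, ∀ θ, 0 < θ → θ ≤ θ₀ → ∃ cθ > 0, ∃ ε₀ > 0, ∀ ε, 0 < ε → ε ≤ ε₀ → ∀ B u0,
        LBS.Ok (LBS.mkP κ c1 q η cs K4 K3 θ ε B u0) →
        LBS.LB4S.{u} pr cθ (LBS.mkP κ c1 q η cs K4 K3 θ ε B u0) :=
  ⟨1, one_pos, fun θ hθ _ => ⟨3e-4 * θ ^ 2, by positivity, 1, one_pos, fun ε _ _ B u0 ok =>
    lb4S_of ok hK4 hE⟩⟩

/-- the measurable tube event (input from the node LB4T). -/
def TubeSet (κ pr : ℝ) : Prop :=
  ∀ (Ω : Type u) [MeasurableSpace Ω] (P : Measure Ω) [IsProbabilityMeasure P]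
    (F : Filtration ℝ≥0 (inferInstance : MeasurableSpace Ω)) (B : ℝ≥0 → Ω → ℝ)
    (_ : IsBM F B P) (y : ℝ), 0 < y → ∃ E : Set Ω, MeasurableSet E ∧
      E ⊆ {ω | ∃ t : ℝ, Tube (driving κ B ω) (y * Complex.I) t} ∧ ENNReal.ofReal pr ≤ P E

/-- `LB4S` with a MEASURABLE event (remark (M2) of helper301). -/
def LB4M (p0 cθ : ℝ) (p : LB.Par) : Prop :=
  LBS.ForBM.{u} p fun f _ _ P B => p.CaseA f → ∃ E, MeasurableSet E ∧ ENNReal.ofReal p0 ≤ P E ∧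
    ∀ ω ∈ E, LB.rad (driving p.κ B ω) (p.T f (driving p.κ B ω)) = p.rho1 f →
      p.A (LB.Par.st f (driving p.κ B ω) (p.T f (driving p.κ B ω))) +
        ENNReal.ofReal (cθ * p.varpi f) ≤ p.A f

/-- **LB4 with a measurable event.** -/
theorem lb4M_of {pr : ℝ} (ok : LBS.Ok p) (hK4 : 16 < p.K4) (hE : TubeSet.{u} p.κ pr) :
    LB4M.{u} pr (3e-4 * p.θ ^ 2) p := by
  intro Ω _ P _ F B hB f hs hA
  have hq1 := ok.qη
  have hq0 := ok.q0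
  have hη0 := ok.η0
  have hθ1 := ok.θ1
  have hf : DifferentiableOn ℂ f KB1.Hs := hs.univ.diff
  have hfi : InjOn f KB1.Hs := hs.univ.inj
  have hy : 0 < p.y f := y_pos ok.adm hf hfi hs.v_tendsto hs.J_ne_top ok.q0 ok.θ0 (by linarith)
    (by linarith [ok.K3])
  obtain ⟨E, hEm, hEs, hEp⟩ := hE Ω P F B hB (p.y f) hy
  refine ⟨E, hEm, hEp, ?_⟩
  intro ω hω hT
  obtain ⟨t, ht⟩ := hEs hω
  exact drop_at_T ok.adm hf hfi hy hA ok.θ0 (by linarith) ok.η0.le (by linarith) hK4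
    (continuousOn_driving hB p.κ ω) ht hT

/-- the measurable form implies the form of the skeleton. -/
theorem LB4M.lb4S {p0 cθ : ℝ} (h : LB4M.{u} p0 cθ p) : LBS.LB4S.{u} p0 cθ p := by
  intro Ω _ P _ F B hB f hs hA
  obtain ⟨E, _, hEp, hE⟩ := h Ω P F B hB f hs hA
  exact hEp.trans (measure_mono fun ω hω hT => hE ω hω hT)

theorem clause4M {κ c1 q η cs K4 K3 pr : ℝ} (hK4 : 16 < K4) (hE : TubeSet.{u} κ pr) :
    ∃ θ₀ > 0, ∀ θ, 0 < θ → θ ≤ θ₀ → ∃ cθ > 0, ∃ ε₀ > 0, ∀ ε, 0 < ε → ε ≤ ε₀ → ∀ B u0,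
        LBS.Ok (LBS.mkP κ c1 q η cs K4 K3 θ ε B u0) →
        LB4M.{u} pr cθ (LBS.mkP κ c1 q η cs K4 K3 θ ε B u0) :=
  ⟨1, one_pos, fun θ hθ _ => ⟨3e-4 * θ ^ 2, by positivity, 1, one_pos, fun ε _ _ B u0 ok =>
    lb4M_of ok hK4 hE⟩⟩

end Crest.Agent.R162.LB4
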