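import Mathlib
import Crest.Agent.R162.LB4U
import Crest.Agent.R162.LB4Z
import Crest.Agent.R162.LBStepIn

/-!
Row 162 (S0243), node LB4: `TubeSet κ (pT κ)` and `In4 κ`, for `0 < κ < 8`.
-/

set_option autoImplicit false

open MeasureTheory ProbabilityTheory Set
open scoped NNReal ENNReal Topology
open Crest.ProbabilityR.Loewner
open Crest.Agent.R162.FL Crest.Agent.R162.OP Crest.Agent.R162.OS

namespace Crest.Agent.R162.LB4

universe u

/-- `TubeSet` (frozen by helper771) with `p = pT κ`. -/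
theorem tubeSet {κ : ℝ} (hκ : 0 < κ) (hκ8 : κ < 8) : TubeSet.{u} κ (pT κ) := by
  intro Ω _ P _ F B hB y hy
  exact tubeU hB hκ hκ8 hy

/-- `In4` (frozen by helper561). -/
theorem in4 {κ : ℝ} (hκ : 0 < κ) (hκ8 : κ < 8) : LBStep.In4.{u} κ := by
  refine ⟨pT κ, pT_pos κ, pT_le_one hκ, ?_⟩
  intro Ω _ P _ F B hB y hy
  refine (tubeU' hB hκ hκ8 hy).trans (measure_mono ?_)
  rintro ω ⟨t, ht⟩
  exact ⟨t, ht.alive.1, ht.alive, ht.fin, ht.tube⟩

end Crest.Agent.R162.LB4
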