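import Mathlib
import Crest.Agent.R162.LB4Z
import Crest.Agent.R162.LB4V

/-!
Row 162 (S0243), node LB4 (consumption): all inputs discharged.
-/

set_option autoImplicit false

open Set MeasureTheory Metric Filter Topology
open scoped NNReal ENNReal

namespace Crest.Agent.R162.LB4

open Crest.Agent.R162 Crest.Agent.R162.FL Crest.Agent.R162.OP Crest.Agent.R162.OS
open Crest.ProbabilityR.Loewner

universe u

/-- **LB4** (unconditional), measurable form. -/
theorem lb4M {p : LB.Par} (ok : LBS.Ok p) (hK4 : 16 < p.K4) :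
    LB4M.{u} (pT p.κ) (3e-4 * p.θ ^ 2) p := lb4M_of ok hK4 (tubeSet ok.κ0 ok.κ8)

/-- **LB4** (unconditional), form of the skeleton. -/
theorem lb4S {p : LB.Par} (ok : LBS.Ok p) (hK4 : 16 < p.K4) :
    LBS.LB4S.{u} (pT p.κ) (3e-4 * p.θ ^ 2) p := (lb4M ok hK4).lb4S

end Crest.Agent.R162.LB4
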