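import Crest.Agent.R162.LBSkel

/-!
Row 162, node STEP (helper561): the inputs of the step theorem on `LBSkel` (helper310), with the
two measurability-free replacements `ZtS` (of `LB2cS`) and `LB4M` (of `LB4S`).
-/

set_option autoImplicit false

open MeasureTheory ProbabilityTheory Filter Topology Set Complex
open scoped NNReal ENNReal
open Crest.ProbabilityR.Loewner

namespace Crest.Agent.R162.LBStep

open Crest.Agent.R162.FL Crest.Agent.R162.OS Crest.Agent.R162.LB Crest.Agent.R162.LBS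

universe u

/-- LB2c (636, 261): exponential tail (outer measure) of `Z' = J_T(10 ρ_T)` -/
def ZtS (D a : ℝ) (p : Par) : Prop :=
  ForBM.{u} p fun f _ _ P B => ∀ n : ℕ,
    P {ω | ENNReal.ofReal n <
        Jv p.u0 p.q (Par.st f (driving p.κ B ω) (p.T f (driving p.κ B ω)))
          (10 * rad (driving p.κ B ω) (p.T f (driving p.κ B ω)))} ≤
      ENNReal.ofReal (D * Real.exp (-(a * n)))

/-- LB4 (771, 290, 263): consumption of area in case A on a measurable event of probability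
`≥ p0` (the end by `T₂, T₃` is excluded) -/
def LB4M (p0 cθ : ℝ) (p : Par) : Prop :=
  ForBM.{u} p fun f _ _ P B => p.CaseA f →
    ∃ A, MeasurableSet A ∧ ENNReal.ofReal p0 ≤ P A ∧ ∀ ω ∈ A,
      rad (driving p.κ B ω) (p.T f (driving p.κ B ω)) = p.rho1 f →
      p.A (Par.st f (driving p.κ B ω) (p.T f (driving p.κ B ω))) + ENNReal.ofReal (cθ * p.varpi f) ≤
        p.A f

/-- the area functional decreases (771) -/
def AmonoS (p : Par) : Prop :=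
  ∀ f, Start p f → ∀ W, Drive W → p.A (Par.st f W (p.T f W)) ≤ p.A f

/-- case B: `K₃ ≤ J(10 ρ₁)` (411, `Geo.caseB`) -/
def JBS (p : Par) : Prop :=
  ∀ f, Start p f → ¬ p.CaseA f → ENNReal.ofReal p.K3 ≤ Jv p.u0 p.q f (10 * p.rho1 f)

/-- the inputs of the step theorem with their quantifiers -/
def StepIn2 (κ c1 : ℝ) : Prop :=
  ∃ p0 K4 cs q η : ℝ, 0 < p0 ∧ p0 ≤ 1 ∧ 1 ≤ K4 ∧ 0 < cs ∧ 0 < q ∧ 0 < η ∧ 4 * q + 2 * η ≤ 1 / 2 ∧
    ∃ CV cJ D a : ℝ, 0 ≤ CV ∧ 0 < cJ ∧ 0 ≤ D ∧ 0 < a ∧ ∀ K3 : ℝ, 1 ≤ K3 →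
      ForSmall κ c1 q η cs K4 K3 (LB1S CV cJ) ∧
      ForSmall κ c1 q η cs K4 K3 (ZtS.{u} D a) ∧
      (∀ e : ℝ, 0 < e → ForSmall κ c1 q η cs K4 K3 (LBrS.{u} e)) ∧
      (∃ θ₀ > 0, ∀ θ, 0 < θ → θ ≤ θ₀ → ∃ cθ > 0, ∃ ε₀ > 0, ∀ ε, 0 < ε → ε ≤ ε₀ → ∀ B u0,
        Ok (mkP κ c1 q η cs K4 K3 θ ε B u0) → LB4M.{u} p0 cθ (mkP κ c1 q η cs K4 K3 θ ε B u0)) ∧
      (∃ θ₀ > 0, ∀ θ, 0 < θ → θ ≤ θ₀ → ∃ K5 ≥ 0, ∃ ε₀ > 0, ∀ ε, 0 < ε → ε ≤ ε₀ → ∀ B u0,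
        Ok (mkP κ c1 q η cs K4 K3 θ ε B u0) → LBcS K5 (mkP κ c1 q η cs K4 K3 θ ε B u0)) ∧
      ForSmall κ c1 q η cs K4 K3 LBsS.{u} ∧
      ForSmall κ c1 q η cs K4 K3 AmonoS ∧
      ForSmall κ c1 q η cs K4 K3 JBS

end Crest.Agent.R162.LBStep
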