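import Crest.Agent.R162.LB4S
import Crest.Agent.R162.LBStepIn
import Crest.Agent.R162.LBStepIn2
import Crest.Agent.R162.LB0D
import Crest.Agent.R162.U3FF
import Crest.Agent.R162.FLE2

/-!
Row 162 (S0243), node LB4W (helper263): wiring of LB4 (consumption, case A) into the frozen
vocabulary `LBDefs` / `LBStepIn`: the tube event is measurable, the event `E` of
`LBI.step_det.hAB` (case A).
-/

set_option autoImplicit false

open Set MeasureTheory Filter Topology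
open scoped NNReal ENNReal

namespace Crest.Agent.R162.LB4W

universe u

open Crest.Agent.R162 Crest.Agent.R162.FL Crest.Agent.R162.OP Crest.Agent.R162.OS
open Crest.ProbabilityR.Loewner

/-! ### measurability of the tube event -/

/-- the tube event in countable form -/
theorem exists_tube_iff {W : ℝ → ℝ} (hW : ContinuousOn W (Ici 0)) {z : ℂ} :
    (∃ t, LB4.Tube W z t) ↔
      (∃ q : ℚ, Alive W z (q : ℝ) ∧ 4 ≤ ath W (q : ℝ) z) ∧
      (∀ q : ℚ, Alive W z (q : ℝ) → ath W (q : ℝ) z < 4 → |xfl W (q : ℝ) z| ≤ 1) := by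
  constructor
  · rintro ⟨t, ht⟩
    have ht0 := ht.alive.1
    refine ⟨?_, ?_⟩
    · obtain ⟨u, hu1, -, hu3⟩ := FLD.exists_alive_gt (T := t + 1)
        (hW.mono fun s hs => hs.1) (by linarith) ht.alive
      obtain ⟨q, hq1, hq2⟩ := exists_rat_btwn hu1
      have hq : Alive W z (q : ℝ) := hu3.mono (ht0.trans hq1.le) hq2.le
      refine ⟨q, hq, ?_⟩
      rw [← ht.fin]
      exact LB4.ath_mono hW hq ⟨ht0, hq1.le⟩ ⟨ht0.trans hq1.le, le_rfl⟩ hq1.le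
    · intro q hq hlt
      refine ht.tube _ ⟨hq.1, ?_⟩
      by_contra hqt
      rw [not_le] at hqt
      have := LB4.ath_mono hW hq ⟨ht0, hqt.le⟩ ⟨hq.1, le_rfl⟩ hqt.le
      simp only at this
      rw [ht.fin] at this
      linarith
  · rintro ⟨⟨q, hq, h4⟩, hall⟩
    have hfq := U3.flowFacts W z q hW hq
    have hmem : (4 : ℝ) ∈ Icc (ath W 0 z) (ath W (q : ℝ) z) :=
      ⟨by rw [LB4.ath_zero]; norm_num, h4⟩
    obtain ⟨t, ht, hte⟩ := intermediate_value_Icc hq.1 hfq.ath_cont hmem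
    simp only at hte
    have hat : Alive W z t := hq.mono ht.1 ht.2
    have hft := U3.flowFacts W z t hW hat
    have ht0 : 0 < t := by
      rcases ht.1.lt_or_eq with h | h
      · exact h
      · rw [← h, LB4.ath_zero] at hte
        norm_num at hte
    refine ⟨t, hat, hte, ?_⟩
    intro s hs
    by_contra hx
    rw [not_le] at hx
    have hc : ContinuousWithinAt (fun u => |xfl W u z|) (Icc 0 t) s := (hft.xfl_cont s hs).abs
    have hev : ∀ᶠ u in 𝓝[Icc 0 t] s, 1 < |xfl W u z| := hc.eventually (lt_mem_nhds hx)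
    rw [eventually_nhdsWithin_iff, Metric.eventually_nhds_iff] at hev
    obtain ⟨d, hd, hdd⟩ := hev
    have hlt : max 0 (s - d) < min t (s + d) := by
      refine max_lt (lt_min ht0 (by linarith [hs.1])) (lt_min (by linarith [hs.2]) (by linarith))
    obtain ⟨r, hr1, hr2⟩ := exists_rat_btwn hlt
    have hr0 : (0 : ℝ) ≤ r := (le_max_left _ _).trans hr1.le
    have hrt : (r : ℝ) < t := hr2.trans_le (min_le_left _ _)
    have hrd : dist (r : ℝ) s < d := by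
      rw [Real.dist_eq, abs_lt]
      have h1 := (le_max_right _ _).trans_lt hr1
      have h2 := hr2.trans_le (min_le_right _ _)
      exact ⟨by linarith, by linarith⟩
    have h1 := hdd hrd ⟨hr0, hrt.le⟩
    have hra : Alive W z (r : ℝ) := hat.mono hr0 hrt.le
    have h2 : ath W (r : ℝ) z < 4 := by
      rw [← hte]
      exact hft.ath_mono ⟨hr0, hrt.le⟩ ⟨ht0.le, le_rfl⟩ hrt
    exact absurd (hall r hra h2) (not_le.2 h1)

/-- **the tube event is measurable** -/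
theorem measurableSet_exists_tube {Ω : Type*} {m : MeasurableSpace Ω} {W : Ω → ℝ → ℝ}
    (hc : ∀ ω, ContinuousOn (W ω) (Ici 0)) (hm : ∀ s, 0 ≤ s → Measurable (fun ω => W ω s))
    (z : ℂ) : MeasurableSet {ω | ∃ t, LB4.Tube (W ω) z t} := by
  have hA : ∀ q : ℚ, MeasurableSet {ω | Alive (W ω) z (q : ℝ)} := fun q =>
    FLD.measurableSet_alive z (fun ω => (hc ω).mono fun s hs => hs.1) fun s hs => hm s hs.1
  have hath : ∀ q : ℚ, 0 ≤ (q : ℝ) → Measurable (fun ω => ath (W ω) (q : ℝ) z) := by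
    intro q hq
    have h := (FLD.jm_ath (W := W) (T := (q : ℝ)) (fun ω => (hc ω).mono fun s hs => hs.1)
      (fun s hs => hm s hs.1)).pt z
    have h2 : Measurable (fun ω : Ω => (ω, (q : ℝ))) := measurable_id.prodMk measurable_const
    have h3 := h.comp h2
    convert h3 using 1
    funext ω
    simp only [Function.comp, Set.indicator, mem_Icc, hq, le_refl, and_self, if_true]
  have hxfl : ∀ q : ℚ, 0 ≤ (q : ℝ) → Measurable (fun ω => xfl (W ω) (q : ℝ) z) := by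
    intro q hq
    have h := (FLD.jm_xfl (W := W) (T := (q : ℝ)) (fun ω => (hc ω).mono fun s hs => hs.1)
      (fun s hs => hm s hs.1)).pt z
    have h2 : Measurable (fun ω : Ω => (ω, (q : ℝ))) := measurable_id.prodMk measurable_const
    have h3 := h.comp h2
    convert h3 using 1
    funext ω
    simp only [Function.comp, Set.indicator, mem_Icc, hq, le_refl, and_self, if_true]
  have hset : {ω | ∃ t, LB4.Tube (W ω) z t} =
      (⋃ q : ℚ, {ω | Alive (W ω) z (q : ℝ) ∧ 4 ≤ ath (W ω) (q : ℝ) z}) ∩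
      (⋂ q : ℚ, {ω | Alive (W ω) z (q : ℝ) → ath (W ω) (q : ℝ) z < 4 →
        |xfl (W ω) (q : ℝ) z| ≤ 1}) := by
    ext ω
    simp only [mem_ofPred_eq, mem_inter_iff, mem_iUnion, mem_iInter]
    exact exists_tube_iff (hc ω)
  rw [hset]
  refine MeasurableSet.inter (MeasurableSet.iUnion fun q => ?_) (MeasurableSet.iInter fun q => ?_)
  · by_cases hq : 0 ≤ (q : ℝ)
    · exact (hA q).inter (measurableSet_le measurable_const (hath q hq))
    · convert MeasurableSet.empty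
      ext ω
      simp only [mem_ofPred_eq, mem_empty_iff_false, iff_false, not_and]
      intro h
      exact absurd h.1 hq
  · by_cases hq : 0 ≤ (q : ℝ)
    · have h1 : {ω | Alive (W ω) z (q : ℝ) → ath (W ω) (q : ℝ) z < 4 →
          |xfl (W ω) (q : ℝ) z| ≤ 1} = {ω | Alive (W ω) z (q : ℝ)}ᶜ ∪
          ({ω | ath (W ω) (q : ℝ) z < 4}ᶜ ∪ {ω | |xfl (W ω) (q : ℝ) z| ≤ 1}) := by
        ext ω
        simp only [mem_ofPred_eq, mem_union, mem_compl_iff]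
        tauto
      rw [h1]
      refine (hA q).compl.union ((measurableSet_lt (hath q hq) measurable_const).compl.union
        (measurableSet_le ?_ measurable_const))
      exact continuous_abs.measurable.comp (hxfl q hq)
    · convert MeasurableSet.univ
      ext ω
      simp only [mem_ofPred_eq, mem_univ, iff_true]
      intro h
      exact absurd h.1 hq

lemma tube_iff {W : ℝ → ℝ} {y : ℝ} :
    (∃ t : ℝ, 0 ≤ t ∧ LBStep.Tube W y t) ↔ ∃ t, LB4.Tube W (y * Complex.I) t := by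
  constructor
  · rintro ⟨t, -, h1, h2, h3⟩
    exact ⟨t, h1, h2, h3⟩
  · rintro ⟨t, h1, h2, h3⟩
    exact ⟨t, h1.1, h1, h2, h3⟩

section brownian

variable {Ω : Type*} {m : MeasurableSpace Ω} {F : Filtration ℝ≥0 m} {P : Measure Ω}
  {B : ℝ≥0 → Ω → ℝ}

theorem measurableSet_tube (hB : IsBM F B P) (κ y : ℝ) :
    MeasurableSet {ω | ∃ t : ℝ, 0 ≤ t ∧ LBStep.Tube (driving κ B ω) y t} := by
  have h := measurableSet_exists_tube (W := fun ω => driving κ B ω)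
    (fun ω => (FLD.driving_cont hB κ ω).continuousOn) (fun s _ => FLD.driving_meas' hB κ s)
    (y * Complex.I)
  convert h using 1
  ext ω
  exact tube_iff

end brownian

/-! ### the event of case A -/

/-- in case A with `v(y_x) ≤ θ` (continuity of `v`): `v(y_x) = θ` -/
lemma vv_eq {p : LB.Par} {f : ℂ → ℂ} (hA : p.CaseA f) (hv : LB.vv p.u0 f (p.y f) ≤ p.θ) :
    LB.vv p.u0 f (p.y f) = p.θ := le_antisymm hv hA

/-- the area drop on the tube event, before the bad times -/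
theorem area_drop_of_tube {p : LB.Par} (hp : p.Adm) {f : ℂ → ℂ} (hf : DifferentiableOn ℂ f KB1.Hs)
    (hfi : InjOn f KB1.Hs) (hθ : 0 < p.θ) (hθ1 : p.θ ≤ 1) (hη : 0 ≤ p.η) (hη1 : p.η ≤ 1)
    (hK4 : 16 ≤ p.K4) (hy : 0 < p.y f) (hA : p.CaseA f) (hv : LB.vv p.u0 f (p.y f) ≤ p.θ)
    {W : ℝ → ℝ} (hW : ContinuousOn W (Ici 0))
    (htube : ∃ t : ℝ, 0 ≤ t ∧ LBStep.Tube W (p.y f) t)
    (hbad : ¬ ∃ s : ℝ, 0 < s ∧ LB.rad W s ≤ p.rho1 f ∧
      (p.Bad2 f W s ∨ ∃ k : ℤ, p.Bad3 f W s k)) :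
    p.A (LB.Par.st f W (p.T f W)) + ENNReal.ofReal (3e-4 * p.θ ^ 2 * p.varpi f) ≤ p.A f := by
  obtain ⟨t, ht⟩ := tube_iff.1 htube
  have hrho1 : p.rho1 f = p.K4 * p.y f := if_pos hA
  have hrad : LB.rad W t ≤ p.rho1 f := by
    rw [hrho1]
    have := ht.rad_le hW
    nlinarith
  have hT : t ≤ p.T f W := by
    by_contra h
    exact hbad (LB4.bad_of_T_lt p hW hrad (not_le.1 h))
  exact LB4.consume_par p hp hf hfi hθ hθ1 hη hη1 hy (vv_eq hA hv) hW ht hT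

/-- the area drop on the tube event, if the step ends by `T₁` (`ρ_T = ρ₁`) -/
theorem area_drop_of_rad {p : LB.Par} (hp : p.Adm) {f : ℂ → ℂ} (hf : DifferentiableOn ℂ f KB1.Hs)
    (hfi : InjOn f KB1.Hs) (hθ : 0 < p.θ) (hθ1 : p.θ ≤ 1) (hη : 0 ≤ p.η) (hη1 : p.η ≤ 1)
    (hK4 : 16 < p.K4) (hy : 0 < p.y f) (hA : p.CaseA f) (hv : LB.vv p.u0 f (p.y f) ≤ p.θ)
    {W : ℝ → ℝ} (hW : ContinuousOn W (Ici 0))
    (htube : ∃ t : ℝ, 0 ≤ t ∧ LBStep.Tube W (p.y f) t) (hT : LB.rad W (p.T f W) = p.rho1 f) :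
    p.A (LB.Par.st f W (p.T f W)) + ENNReal.ofReal (3e-4 * p.θ ^ 2 * p.varpi f) ≤ p.A f := by
  obtain ⟨t, ht⟩ := tube_iff.1 htube
  have hrho1 : p.rho1 f = p.K4 * p.y f := if_pos hA
  have hrad : LB.rad W t < p.rho1 f := by
    rw [hrho1]
    have := ht.rad_le hW
    nlinarith
  have hT : t ≤ p.T f W := by
    by_contra h
    have := LB.rad_mono hW (LB.T_nonneg p f W) (not_le.1 h).le
    rw [hT] at this
    linarith
  exact LB4.consume_par p hp hf hfi hθ hθ1 hη hη1 hy (vv_eq hA hv) hW ht hT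

/-- **case A of `step_det.hAB`** in `[0,∞]`-form -/
theorem caseA {κ : ℝ} {Ω : Type*} {m : MeasurableSpace Ω} {F : Filtration ℝ≥0 m} {P : Measure Ω}
    {B : ℝ≥0 → Ω → ℝ} (hB : IsBM F B P) {p : LB.Par} (hp : p.Adm) {f : ℂ → ℂ}
    (hf : DifferentiableOn ℂ f KB1.Hs)
    (hfi : InjOn f KB1.Hs) (hθ : 0 < p.θ) (hθ1 : p.θ ≤ 1) (hη : 0 ≤ p.η) (hη1 : p.η ≤ 1)
    (hK4 : 16 ≤ p.K4) (hy : 0 < p.y f) (hA : p.CaseA f) (hv : LB.vv p.u0 f (p.y f) ≤ p.θ)
    {pr : ℝ} (hpr : 0 ≤ pr)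
    (hE : ENNReal.ofReal pr ≤ P {ω | ∃ t : ℝ, 0 ≤ t ∧ LBStep.Tube (driving κ B ω) (p.y f) t})
    (hbad : P {ω | ∃ s : ℝ, 0 < s ∧ LB.rad (driving κ B ω) s ≤ p.rho1 f ∧
      (p.Bad2 f (driving κ B ω) s ∨ ∃ k : ℤ, p.Bad3 f (driving κ B ω) s k)} ≤
        ENNReal.ofReal (pr / 2)) :
    ∃ E : Set Ω, MeasurableSet E ∧ ENNReal.ofReal (pr / 2) ≤ P E ∧ ∀ ω ∈ E,
      p.A (LB.Par.st f (driving κ B ω) (p.T f (driving κ B ω))) +
        ENNReal.ofReal (3e-4 * p.θ ^ 2 * p.varpi f) ≤ p.A f := by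
  set E0 : Set Ω := {ω | ∃ t : ℝ, 0 ≤ t ∧ LBStep.Tube (driving κ B ω) (p.y f) t} with hE0
  set bad : Set Ω := {ω | ∃ s : ℝ, 0 < s ∧ LB.rad (driving κ B ω) s ≤ p.rho1 f ∧
      (p.Bad2 f (driving κ B ω) s ∨ ∃ k : ℤ, p.Bad3 f (driving κ B ω) s k)} with hbaddef
  refine ⟨E0 \ toMeasurable P bad,
    (measurableSet_tube hB κ _).diff (measurableSet_toMeasurable _ _), ?_, ?_⟩
  · have h1 : P E0 ≤ P (toMeasurable P bad) + P (E0 \ toMeasurable P bad) := by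
      calc P E0 ≤ P (toMeasurable P bad ∪ (E0 \ toMeasurable P bad)) := by
            refine measure_mono ?_
            rw [union_sdiff_self]
            exact subset_union_right
        _ ≤ _ := measure_union_le _ _
    rw [measure_toMeasurable] at h1
    have h2 : ENNReal.ofReal pr = ENNReal.ofReal (pr / 2) + ENNReal.ofReal (pr / 2) := by
      rw [← ENNReal.ofReal_add (by linarith) (by linarith)]
      congr 1; ring
    have h3 : ENNReal.ofReal (pr / 2) + ENNReal.ofReal (pr / 2) ≤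
        ENNReal.ofReal (pr / 2) + P (E0 \ toMeasurable P bad) := by
      rw [← h2]
      refine hE.trans (h1.trans ?_)
      gcongr
    exact (ENNReal.add_le_add_iff_left ENNReal.ofReal_ne_top).1 h3
  · rintro ω ⟨hω, hnb⟩
    refine area_drop_of_tube hp hf hfi hθ hθ1 hη hη1 hK4 hy hA hv
      (FLD.driving_cont hB κ ω).continuousOn hω ?_
    intro h
    exact hnb (subset_toMeasurable P bad h)

/-- the area functional does not increase -/
theorem area_le {p : LB.Par} {f : ℂ → ℂ} (hf : DifferentiableOn ℂ f KB1.Hs)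
    {W : ℝ → ℝ} (hW : ContinuousOn W (Ici 0)) {t : ℝ} (ht : 0 ≤ t) :
    p.A (LB.Par.st f W t) ≤ p.A f :=
  LB4.area_mono hW ht hf

/-- `hdA0` of `step_det` -/
theorem dA_nonpos {p : LB.Par} {f : ℂ → ℂ} (hf : DifferentiableOn ℂ f KB1.Hs)
    (hfin : p.A f ≠ ⊤) {W : ℝ → ℝ} (hW : ContinuousOn W (Ici 0)) {t : ℝ} (ht : 0 ≤ t) :
    (p.A (LB.Par.st f W t)).toReal - (p.A f).toReal ≤ 0 := by
  have := ENNReal.toReal_mono hfin (area_le (p := p) hf hW ht)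
  linarith

/-- **case A of `step_det.hAB`**, real form -/
theorem caseA_real {κ : ℝ} {Ω : Type*} {m : MeasurableSpace Ω} {F : Filtration ℝ≥0 m}
    {P : Measure Ω}
    {B : ℝ≥0 → Ω → ℝ} (hB : IsBM F B P) {p : LB.Par} (hp : p.Adm) {f : ℂ → ℂ}
    (hf : DifferentiableOn ℂ f KB1.Hs)
    (hfi : InjOn f KB1.Hs) (hθ : 0 < p.θ) (hθ1 : p.θ ≤ 1) (hη : 0 ≤ p.η) (hη1 : p.η ≤ 1)
    (hK4 : 16 ≤ p.K4) (hy : 0 < p.y f) (hA : p.CaseA f) (hv : LB.vv p.u0 f (p.y f) ≤ p.θ)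
    (hfin : p.A f ≠ ⊤) {pr : ℝ} (hpr : 0 ≤ pr)
    (hE : ENNReal.ofReal pr ≤ P {ω | ∃ t : ℝ, 0 ≤ t ∧ LBStep.Tube (driving κ B ω) (p.y f) t})
    (hbad : P {ω | ∃ s : ℝ, 0 < s ∧ LB.rad (driving κ B ω) s ≤ p.rho1 f ∧
      (p.Bad2 f (driving κ B ω) s ∨ ∃ k : ℤ, p.Bad3 f (driving κ B ω) s k)} ≤
        ENNReal.ofReal (pr / 2)) :
    ∃ E : Set Ω, MeasurableSet E ∧ ENNReal.ofReal (pr / 2) ≤ P E ∧ ∀ᵐ ω ∂P, ω ∈ E →
      (p.A (LB.Par.st f (driving κ B ω) (p.T f (driving κ B ω)))).toReal - (p.A f).toReal ≤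
        -(3e-4 * p.θ ^ 2 * p.varpi f) := by
  obtain ⟨E, h1, h2, h3⟩ := caseA hB hp hf hfi hθ hθ1 hη hη1 hK4 hy hA hv hpr hE hbad
  refine ⟨E, h1, h2, ae_of_all _ fun ω hω => ?_⟩
  refine LB4.toReal_drop ?_ hfin (h3 ω hω)
  have : 0 < p.u0 (p.x f) := lt_of_lt_of_le one_pos (hp.one_le _)
  unfold LB.Par.varpi
  positivity

/-! ### the frozen forms of `LBStepIn2` -/

section frozen

open Crest.Agent.R162.LBS

lemma start_J {p : LB.Par} {f : ℂ → ℂ} (hs : Start p f) :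
    ∃ a, 0 < a ∧ LB0.Jv p.u0 p.q f a < ⊤ := ⟨1, one_pos, (hs.J_ne_top 1).lt_top⟩

/-- `v → 1` at infinity and `θ < 1/2` -/
lemma start_bad {p : LB.Par} (ok : Ok p) {f : ℂ → ℂ} (hs : Start p f) :
    (LB0.bad p.u0 p.q f p.θ p.K3).Nonempty := by
  have h1 := ok.θ1
  have hev : ∀ᶠ y in atTop, p.θ < LB.vv p.u0 f y :=
    hs.v_tendsto.eventually (lt_mem_nhds (by linarith))
  obtain ⟨y, hy1, hy2⟩ := (hev.and (eventually_gt_atTop 0)).exists
  exact ⟨y, hy2, Or.inl hy1.le⟩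

/-- `0 < y_x` -/
theorem y_pos {p : LB.Par} (ok : Ok p) {f : ℂ → ℂ} (hs : Start p f) : 0 < p.y f :=
  LB0.yx_pos hs.univ.diff hs.univ.inj ok.adm.lip ok.adm.one_le ok.q0 ok.θ0
    (by have := ok.θ1; linarith) (by have := ok.K3; linarith) (start_J hs) (start_bad ok hs)

/-- `v(y_x) ≤ θ` -/
theorem vv_y_le {p : LB.Par} (ok : Ok p) {f : ℂ → ℂ} (hs : Start p f) :
    LB.vv p.u0 f (p.y f) ≤ p.θ :=
  LB0.vv_yx_le hs.univ.diff ok.adm.lip ok.adm.one_le (y_pos ok hs)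

/-- `AmonoS` of `LBStepIn2` -/
theorem amonoS (p : LB.Par) : LBStep.AmonoS p := fun _ hs _ hW =>
  LB4.A_le p hs.univ.diff hW.cont (LB.T_nonneg p _ _)

/-- `JBS` of `LBStepIn2` -/
theorem jbS {p : LB.Par} (ok : Ok p) : LBStep.JBS p := by
  intro f hs hB
  have h1 : 10 * p.rho1 f = p.y f := by
    unfold LB.Par.rho1
    rw [if_neg hB]
    ring
  rw [h1]
  exact LB0.le_Jv_yx hs.univ.diff hs.univ.inj ok.adm.lip ok.adm.one_le ok.q0
    (start_bad ok hs) (y_pos ok hs) (not_le.1 hB)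

/-- `LB4M` of `LBStepIn2` from the tube probability -/
theorem lb4M {κ p0 : ℝ}
    (h4 : ∀ (Ω : Type u) [MeasurableSpace Ω] (P : Measure Ω) [IsProbabilityMeasure P]
      (F : Filtration ℝ≥0 (inferInstance : MeasurableSpace Ω)) (B : ℝ≥0 → Ω → ℝ)
      (_ : IsBM F B P) (y : ℝ), 0 < y →
      ENNReal.ofReal p0 ≤ P {ω | ∃ t : ℝ, 0 ≤ t ∧ LBStep.Tube (driving κ B ω) y t})
    {p : LB.Par} (ok : Ok p) (hκ : p.κ = κ) (hK4 : 16 < p.K4) :
    LBStep.LB4M.{u} p0 (3e-4 * p.θ ^ 2) p := by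
  intro Ω _ P _ F B hB f hs hA
  subst hκ
  refine ⟨_, measurableSet_tube hB p.κ (p.y f), h4 Ω P F B hB _ (y_pos ok hs), ?_⟩
  intro ω hω hT
  have hη : p.η ≤ 1 := by have := ok.qη; have := ok.q0; linarith
  exact area_drop_of_rad ok.adm hs.univ.diff hs.univ.inj ok.θ0 (by have := ok.θ1; linarith)
    ok.η0.le hη hK4 (y_pos ok hs) hA (vv_y_le ok hs) (FLD.driving_cont hB p.κ ω).continuousOn hω hT

/-- the clause of `StepIn2` for LB4, from `In4` -/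
theorem clause4 {κ : ℝ} (h : LBStep.In4.{u} κ) : ∃ p0 : ℝ, 0 < p0 ∧ p0 ≤ 1 ∧
    ∀ c1 q η cs K4 K3 : ℝ, 16 < K4 →
      ∃ θ₀ > 0, ∀ θ, 0 < θ → θ ≤ θ₀ → ∃ cθ > 0, ∃ ε₀ > 0, ∀ ε, 0 < ε → ε ≤ ε₀ → ∀ B u0,
        Ok (mkP κ c1 q η cs K4 K3 θ ε B u0) →
          LBStep.LB4M.{u} p0 cθ (mkP κ c1 q η cs K4 K3 θ ε B u0) := by
  obtain ⟨p0, h0, h1, h4⟩ := h
  refine ⟨p0, h0, h1, fun c1 q η cs K4 K3 hK4 => ⟨1, one_pos, fun θ hθ _ =>
    ⟨3e-4 * θ ^ 2, by positivity, 1, one_pos, fun ε _ _ B u0 ok => ?_⟩⟩⟩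
  exact lb4M h4 ok rfl hK4

theorem clauseA {κ c1 q η cs K4 K3 : ℝ} : ForSmall κ c1 q η cs K4 K3 LBStep.AmonoS :=
  ⟨1, one_pos, fun _ _ _ => ⟨1, one_pos, fun _ _ _ _ _ _ => amonoS _⟩⟩

theorem clauseJ {κ c1 q η cs K4 K3 : ℝ} : ForSmall κ c1 q η cs K4 K3 LBStep.JBS :=
  ⟨1, one_pos, fun _ _ _ => ⟨1, one_pos, fun _ _ _ _ _ ok => jbS ok⟩⟩

end frozen

end Crest.Agent.R162.LB4W
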