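import Mathlib
import Crest.Agent.R162.LB5

/-!
Row 162, node LB5 (helper301): deterministic-parameter version of the step (fixed univalent `f`,
fresh Brownian path): `w = ϖ(f)` is a number. Hypotheses only almost surely, no measurability of
`cont`, `dL`, `dA` needed, `Z` only a.e.-measurable.
-/

set_option autoImplicit false

open MeasureTheory ProbabilityTheory Set
open scoped NNReal ENNReal

namespace Crest.Agent.R162.LBI

/-- **Node LB5, fixed `f`.**  Case A is the first, case B the second alternative of `hAB`. -/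
theorem step_det {Ω : Type*} {m : MeasurableSpace Ω} {P : Measure Ω}
    [IsProbabilityMeasure P] {p CV CZ cJ K3 cth K5 c c0 δ cmax : ℝ}
    (hgood : Good p CV CZ cJ K3 cth K5 c c0 δ) (hcmax : 2 * c ≤ cmax)
    (hp : 0 < p) (hp1 : p ≤ 1) (hCZ : 0 ≤ CZ) (hcJ : 0 < cJ) (hK3 : 0 ≤ K3) (hcth : 0 < cth)
    {w : ℝ} (hw0 : 0 < w) (hw1 : w ≤ 1) {cont Z dA dL : Ω → ℝ} (hZm : AEMeasurable Z P)
    (hcont : ∀ᵐ ω ∂P, cont ω ≤ K5 * w)
    (hdL : ∀ᵐ ω ∂P, dL ω ≤ w * (CV + Z ω)) (hdA0 : ∀ᵐ ω ∂P, dA ω ≤ 0)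
    (hZ : ∀ c', 0 < c' → c' ≤ cmax →
      ∫⁻ ω, ENNReal.ofReal (Real.exp (c' * Z ω)) ∂P ≤ ENNReal.ofReal (1 + CZ * c'))
    (hAB : (∃ E : Set Ω, MeasurableSet E ∧ ENNReal.ofReal (p / 2) ≤ P E ∧
        ∀ᵐ ω ∂P, ω ∈ E → dA ω ≤ -(cth * w)) ∨
      (∃ E : Set Ω, MeasurableSet E ∧ ENNReal.ofReal (7 / 8) ≤ P E ∧
        ∀ᵐ ω ∂P, ω ∈ E → dL ω ≤ w * (CV + Z ω - cJ * K3))) :
    ∫⁻ ω, ENNReal.ofReal (Real.exp (c0 * cont ω + c * dL ω + dA ω)) ∂P ≤
      ENNReal.ofReal ((1 - δ) ^ w) := by
  have hc := hgood.hc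
  have hc0 := hgood.hc0
  have hC : 0 ≤ 1 + CZ * (2 * c) := by positivity
  have ha : 0 < 1 - δ := by linarith [hgood.hδ1]
  set Z' : Ω → ℝ := hZm.mk Z with hZ'
  have hZ'm : Measurable Z' := hZm.measurable_mk
  have hZZ : ∀ᵐ ω ∂P, Z ω = Z' ω := hZm.ae_eq_mk
  have hZ2 : ∫⁻ ω in univ, ENNReal.ofReal (Real.exp ((2 * c) * Z' ω)) ∂P ≤
      ENNReal.ofReal (1 + CZ * (2 * c)) * P univ := by
    rw [measure_univ, mul_one, Measure.restrict_univ]
    refine le_trans (le_of_eq ?_) (hZ (2 * c) (by linarith) hcmax)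
    refine lintegral_congr_ae ?_
    filter_upwards [hZZ] with ω hω
    rw [hω]
  -- the common end of both cases
  have hend : ∀ (E : Set Ω) (s l : ℝ), MeasurableSet E → 0 ≤ s → s ≤ 1 → 0 ≤ l →
      ENNReal.ofReal s ≤ P E →
      Real.exp (c0 * K5 + c * CV) * (Real.sqrt (1 + CZ * (2 * c)) *
        Real.sqrt (1 - s * (1 - Real.exp (-(2 * l))))) ≤ 1 - δ →
      (∀ᵐ ω ∂P, c0 * cont ω + c * dL ω + dA ω ≤
        w * (c0 * K5 + c * CV + (c * Z' ω + E.indicator (fun _ => -l) ω))) →
      ∫⁻ ω, ENNReal.ofReal (Real.exp (c0 * cont ω + c * dL ω + dA ω)) ∂P ≤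
        ENNReal.ofReal ((1 - δ) ^ w) := by
    intro E s l hE hs0 hs1 hl hsE hnum hpt
    set U : Ω → ℝ := E.indicator (fun _ => -l) with hU
    have hUm : Measurable U := measurable_const.indicator hE
    have hU0 : ∀ ω, U ω ≤ 0 := by
      intro ω
      by_cases h : ω ∈ E
      · simp only [hU, indicator_of_mem h]; linarith
      · simp only [hU, indicator_of_notMem h]; exact le_rfl
    have hUE : ∀ ω ∈ E, U ω ≤ -l := by
      intro ω h
      simp only [hU, indicator_of_mem h]; exact le_rfl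
    have h1 := csbound (P := P) MeasurableSet.univ hE (s := s) (l := l) (c := c) (CZ := CZ)
      hs0 hs1 hl (by rw [measure_univ, mul_one, univ_inter]; exact hsE) hZ'm hUm hU0 hUE hZ2 hC
    rw [measure_univ, mul_one, Measure.restrict_univ] at h1
    set Y : Ω → ℝ := fun ω => c0 * K5 + c * CV + (c * Z' ω + U ω) with hY
    have hYm : Measurable Y := measurable_const.add ((hZ'm.const_mul c).add hUm)
    have h2 : ∫⁻ ω, ENNReal.ofReal (Real.exp (Y ω)) ∂P ≤ ENNReal.ofReal (1 - δ) := by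
      calc ∫⁻ ω, ENNReal.ofReal (Real.exp (Y ω)) ∂P
          = ENNReal.ofReal (Real.exp (c0 * K5 + c * CV)) *
            ∫⁻ ω, ENNReal.ofReal (Real.exp (c * Z' ω + U ω)) ∂P := by
            rw [← lintegral_const_mul' _ _ ENNReal.ofReal_ne_top]
            refine lintegral_congr fun ω => ?_
            rw [← ENNReal.ofReal_mul (Real.exp_pos _).le, ← Real.exp_add]
        _ ≤ ENNReal.ofReal (Real.exp (c0 * K5 + c * CV)) *
            ENNReal.ofReal (Real.sqrt (1 + CZ * (2 * c)) *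
              Real.sqrt (1 - s * (1 - Real.exp (-(2 * l))))) := by
            gcongr
        _ ≤ ENNReal.ofReal (1 - δ) := by
            rw [← ENNReal.ofReal_mul (Real.exp_pos _).le]
            exact ENNReal.ofReal_le_ofReal hnum
    have h3 := jensen_rpow (G := ⊥) (P := P) bot_le ha hYm
      (measurable_const (a := w) : Measurable[⊥] fun _ : Ω => w) (fun _ => hw0) (fun _ => hw1)
      (by
        intro A hA
        rcases MeasurableSpace.measurableSet_bot_iff.1 hA with h | h
        · rw [h]; simp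
        · rw [h, Measure.restrict_univ, measure_univ, mul_one]; exact h2)
      (A := univ) MeasurableSet.univ
    rw [Measure.restrict_univ, lintegral_const, measure_univ, mul_one] at h3
    refine le_trans (lintegral_mono_ae ?_) h3
    filter_upwards [hpt] with ω hω
    exact ENNReal.ofReal_le_ofReal (Real.exp_le_exp.2 hω)
  rcases hAB with ⟨E, hE, hPE, hdAE⟩ | ⟨E, hE, hPE, hdLE⟩
  · refine hend E (p / 2) cth hE (by linarith) (by linarith) hcth.le hPE hgood.A ?_
    filter_upwards [hcont, hdL, hdA0, hdAE, hZZ] with ω h1 h2 h3 h4 h5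
    have h1' : c0 * cont ω ≤ c0 * (K5 * w) := mul_le_mul_of_nonneg_left h1 hc0.le
    have h2' : c * dL ω ≤ c * (w * (CV + Z' ω)) := by
      rw [← h5]; exact mul_le_mul_of_nonneg_left h2 hc.le
    have h3' : dA ω ≤ w * E.indicator (fun _ => -cth) ω := by
      by_cases h : ω ∈ E
      · rw [indicator_of_mem h]; linarith [h4 h]
      · rw [indicator_of_notMem h]; linarith
    calc c0 * cont ω + c * dL ω + dA ω
        ≤ c0 * (K5 * w) + c * (w * (CV + Z' ω)) + w * E.indicator (fun _ => -cth) ω := by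
          linarith
      _ = _ := by ring
  · refine hend E (7 / 8) (c * cJ * K3) hE (by norm_num) (by norm_num) (by positivity) hPE
      hgood.B ?_
    filter_upwards [hcont, hdL, hdA0, hdLE, hZZ] with ω h1 h2 h3 h4 h5
    have h1' : c0 * cont ω ≤ c0 * (K5 * w) := mul_le_mul_of_nonneg_left h1 hc0.le
    have h2' : c * dL ω ≤ w * (c * CV + c * Z' ω + E.indicator (fun _ => -(c * cJ * K3)) ω) := by
      by_cases h : ω ∈ E
      · rw [indicator_of_mem h]
        have := mul_le_mul_of_nonneg_left (h4 h) hc.le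
        rw [h5] at this
        calc _ ≤ _ := this
          _ = _ := by ring
      · rw [indicator_of_notMem h]
        have := mul_le_mul_of_nonneg_left h2 hc.le
        rw [h5] at this
        calc _ ≤ _ := this
          _ = _ := by ring
    calc c0 * cont ω + c * dL ω + dA ω
        ≤ c0 * (K5 * w) + w * (c * CV + c * Z' ω + E.indicator (fun _ => -(c * cJ * K3)) ω) := by
          linarith
      _ = _ := by ring

end Crest.Agent.R162.LBI
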