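import Mathlib
import Crest.Agent.R162.OSDefs

/-!
Row 162 (S0243), node LB6: iteration of the one-step exponential inequality (abstract), summability
of the powers `ϖ_n`, and the deterministic end of the argument (the stopping times tend to `∞`).
-/

set_option autoImplicit false

open MeasureTheory ProbabilityTheory Filter Topology
open scoped NNReal ENNReal

namespace Crest.Agent.R162.LB6

open OS

variable {Ω : Type*} {m0 : MeasurableSpace Ω}

/-- Transfer of an inequality of set integrals over `m`-measurable sets to `m`-measurable weights. -/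
theorem weight_transfer {μ : Measure Ω} {m : MeasurableSpace Ω} (hm : m ≤ m0)
    {f g : Ω → ℝ≥0∞} (hf : Measurable[m0] f) (hg : Measurable[m0] g)
    (h : ∀ B, MeasurableSet[m] B → ∫⁻ ω in B, f ω ∂μ ≤ ∫⁻ ω in B, g ω ∂μ)
    {W : Ω → ℝ≥0∞} (hW : Measurable[m] W) :
    ∫⁻ ω, W ω * f ω ∂μ ≤ ∫⁻ ω, W ω * g ω ∂μ := by
  have hW' : Measurable[m0] W := hW.mono hm le_rfl
  have key : ∀ {φ : Ω → ℝ≥0∞}, Measurable[m0] φ →
      ∫⁻ ω, W ω * φ ω ∂μ = ∫⁻ ω, W ω ∂((μ.withDensity φ).trim hm) := by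
    intro φ hφ
    rw [lintegral_trim hm hW, lintegral_withDensity_eq_lintegral_mul μ hφ hW']
    refine lintegral_congr fun ω => ?_
    simp [mul_comm]
  rw [key hf, key hg]
  refine lintegral_mono' ?_ le_rfl
  refine Measure.le_iff.2 fun s hs => ?_
  rw [trim_measurableSet_eq hm hs, trim_measurableSet_eq hm hs,
    withDensity_apply _ (hm s hs), withDensity_apply _ (hm s hs)]
  exact h s hs

/-- Iteration: the supermartingale property of
`exp (∑_{i<n} (a_i + b_i) + V_n)`, integrated over sets of `F 0`. -/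
theorem iterate {μ : Measure Ω} {F : ℕ → MeasurableSpace Ω} (hF : ∀ n, F n ≤ m0)
    (hmono : Monotone F) {a b V : ℕ → Ω → ℝ}
    (ha : ∀ n, Measurable[F (n + 1)] (a n)) (hb : ∀ n, Measurable[F n] (b n))
    (hV : ∀ n, Measurable[F n] (V n))
    (step : ∀ n B, MeasurableSet[F n] B →
      ∫⁻ ω in B, ENNReal.ofReal (Real.exp (a n ω + V (n + 1) ω - V n ω)) ∂μ
        ≤ ∫⁻ ω in B, ENNReal.ofReal (Real.exp (-b n ω)) ∂μ)
    {B : Set Ω} (hB : MeasurableSet[F 0] B) (n : ℕ) :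
    ∫⁻ ω in B, ENNReal.ofReal
        (Real.exp (∑ i ∈ Finset.range n, (a i ω + b i ω) + V n ω)) ∂μ
      ≤ ∫⁻ ω in B, ENNReal.ofReal (Real.exp (V 0 ω)) ∂μ := by
  induction n with
  | zero => simp
  | succ n ih =>
    refine le_trans ?_ ih
    have hBn : MeasurableSet[F n] B := hmono (Nat.zero_le n) B hB
    have hB0 : MeasurableSet[m0] B := hF 0 B hB
    -- partial sums are `F n`-measurable
    have hS : Measurable[F n] fun ω => ∑ i ∈ Finset.range n, (a i ω + b i ω) := by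
      refine Finset.measurable_sum _ fun i hi => ?_
      have hi' : i < n := Finset.mem_range.1 hi
      exact ((ha i).mono (hmono (by omega)) le_rfl).add ((hb i).mono (hmono hi'.le) le_rfl)
    set Wr : Ω → ℝ := fun ω => ∑ i ∈ Finset.range n, (a i ω + b i ω) + b n ω + V n ω with hWr
    have hWrm : Measurable[F n] Wr := (hS.add (hb n)).add (hV n)
    have hWm : Measurable[F n] fun ω => B.indicator (fun ω => ENNReal.ofReal (Real.exp (Wr ω))) ω :=
      ((Real.measurable_exp.comp hWrm).ennreal_ofReal).indicator hBn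
    have hf : Measurable[m0] fun ω => ENNReal.ofReal (Real.exp (a n ω + V (n + 1) ω - V n ω)) := by
      refine (Real.measurable_exp.comp ?_).ennreal_ofReal
      exact (((ha n).mono (hF _) le_rfl).add ((hV (n + 1)).mono (hF _) le_rfl)).sub
        ((hV n).mono (hF _) le_rfl)
    have hg : Measurable[m0] fun ω => ENNReal.ofReal (Real.exp (-b n ω)) :=
      (Real.measurable_exp.comp ((hb n).mono (hF _) le_rfl).neg).ennreal_ofReal
    have h1 := weight_transfer (hF n) hf hg (step n) hWm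
    have e1 : ∫⁻ ω in B, ENNReal.ofReal
        (Real.exp (∑ i ∈ Finset.range (n + 1), (a i ω + b i ω) + V (n + 1) ω)) ∂μ
        = ∫⁻ ω, B.indicator (fun ω => ENNReal.ofReal (Real.exp (Wr ω))) ω
          * ENNReal.ofReal (Real.exp (a n ω + V (n + 1) ω - V n ω)) ∂μ := by
      rw [← lintegral_indicator hB0]
      refine lintegral_congr fun ω => ?_
      by_cases hω : ω ∈ B
      · simp only [Set.indicator_of_mem hω]
        rw [← ENNReal.ofReal_mul (Real.exp_pos _).le, ← Real.exp_add]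
        congr 2
        simp only [hWr, Finset.sum_range_succ]
        ring
      · simp [Set.indicator_of_notMem hω]
    have e2 : ∫⁻ ω in B, ENNReal.ofReal
        (Real.exp (∑ i ∈ Finset.range n, (a i ω + b i ω) + V n ω)) ∂μ
        = ∫⁻ ω, B.indicator (fun ω => ENNReal.ofReal (Real.exp (Wr ω))) ω
          * ENNReal.ofReal (Real.exp (-b n ω)) ∂μ := by
      rw [← lintegral_indicator hB0]
      refine lintegral_congr fun ω => ?_
      by_cases hω : ω ∈ B
      · simp only [Set.indicator_of_mem hω]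
        rw [← ENNReal.ofReal_mul (Real.exp_pos _).le, ← Real.exp_add]
        congr 2
        simp only [hWr]
        ring
      · simp [Set.indicator_of_notMem hω]
    rw [e1, e2]
    exact h1

/-- Along the iteration the nonnegative increments are a.s. summable. -/
theorem ae_summable {μ : Measure Ω} [IsFiniteMeasure μ] {F : ℕ → MeasurableSpace Ω}
    (hF : ∀ n, F n ≤ m0) (hmono : Monotone F) {a b V : ℕ → Ω → ℝ}
    (ha : ∀ n, Measurable[F (n + 1)] (a n)) (hb : ∀ n, Measurable[F n] (b n))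
    (hV : ∀ n, Measurable[F n] (V n))
    (ha0 : ∀ n ω, 0 ≤ a n ω) (hb0 : ∀ n ω, 0 ≤ b n ω) (hV0 : ∀ n ω, 0 ≤ V n ω)
    (step : ∀ n B, MeasurableSet[F n] B →
      ∫⁻ ω in B, ENNReal.ofReal (Real.exp (a n ω + V (n + 1) ω - V n ω)) ∂μ
        ≤ ∫⁻ ω in B, ENNReal.ofReal (Real.exp (-b n ω)) ∂μ) :
    ∀ᵐ ω ∂μ, Summable fun n => a n ω + b n ω := by
  -- partial sums
  set S : ℕ → Ω → ℝ := fun n ω => ∑ i ∈ Finset.range n, (a i ω + b i ω) with hSdef
  have hSm : ∀ n, Measurable[m0] (S n) := fun n =>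
    Finset.measurable_sum _ fun i _ =>
      ((ha i).mono (hF _) le_rfl).add ((hb i).mono (hF _) le_rfl)
  have hSmono : ∀ ω, Monotone fun n => S n ω := by
    intro ω
    refine monotone_nat_of_le_succ fun n => ?_
    simp only [hSdef, Finset.sum_range_succ]
    have := ha0 n ω
    have := hb0 n ω
    linarith
  have key : ∀ k : ℕ, ∀ᵐ ω ∂μ, V 0 ω ≤ k → Summable fun n => a n ω + b n ω := by
    intro k
    have hBk : MeasurableSet[F 0] {ω | V 0 ω ≤ k} := measurableSet_le (hV 0) measurable_const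
    have hBk' : MeasurableSet[m0] {ω | V 0 ω ≤ k} := hF 0 _ hBk
    set f : ℕ → Ω → ℝ≥0∞ := fun n ω => ENNReal.ofReal (Real.exp (S n ω)) with hfdef
    have hfm : ∀ n, Measurable[m0] (f n) := fun n =>
      (Real.measurable_exp.comp (hSm n)).ennreal_ofReal
    have hfmono : Monotone f := by
      intro i j hij ω
      exact ENNReal.ofReal_le_ofReal (Real.exp_le_exp.2 (hSmono ω hij))
    have hbd : ∀ n, ∫⁻ ω in {ω | V 0 ω ≤ k}, f n ω ∂μ ≤ ENNReal.ofReal (Real.exp k) * μ Set.univ := by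
      intro n
      calc ∫⁻ ω in {ω | V 0 ω ≤ k}, f n ω ∂μ
          ≤ ∫⁻ ω in {ω | V 0 ω ≤ k}, ENNReal.ofReal
              (Real.exp (∑ i ∈ Finset.range n, (a i ω + b i ω) + V n ω)) ∂μ := by
            refine lintegral_mono fun ω => ENNReal.ofReal_le_ofReal (Real.exp_le_exp.2 ?_)
            have := hV0 n ω
            simp only [hSdef]
            linarith
        _ ≤ ∫⁻ ω in {ω | V 0 ω ≤ k}, ENNReal.ofReal (Real.exp (V 0 ω)) ∂μ :=
            iterate hF hmono ha hb hV step hBk n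
        _ ≤ ∫⁻ _ω in {ω | V 0 ω ≤ k}, ENNReal.ofReal (Real.exp k) ∂μ := by
            refine setLIntegral_mono' hBk' fun ω hω => ?_
            exact ENNReal.ofReal_le_ofReal (Real.exp_le_exp.2 hω)
        _ = ENNReal.ofReal (Real.exp k) * μ {ω | V 0 ω ≤ k} := by
            rw [setLIntegral_const]
        _ ≤ ENNReal.ofReal (Real.exp k) * μ Set.univ :=
            mul_le_mul_right (measure_mono (Set.subset_univ _)) _
    have hsup : ∫⁻ ω in {ω | V 0 ω ≤ k}, ⨆ n, f n ω ∂μ < ⊤ := by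
      rw [lintegral_iSup hfm hfmono]
      refine lt_of_le_of_lt (iSup_le hbd) ?_
      exact ENNReal.mul_lt_top ENNReal.ofReal_lt_top (measure_lt_top _ _)
    have hae := ae_lt_top (Measurable.iSup hfm) hsup.ne
    rw [ae_restrict_iff' hBk'] at hae
    filter_upwards [hae] with ω hω hle
    have hlt := hω hle
    obtain ⟨M, hM⟩ : ∃ M : ℝ, ∀ n, Real.exp (S n ω) ≤ M := by
      refine ⟨(⨆ n, f n ω).toReal, fun n => ?_⟩
      have h1 : f n ω ≤ ⨆ n, f n ω := le_iSup (fun n => f n ω) n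
      have h2 := ENNReal.toReal_mono hlt.ne h1
      simpa [hfdef, ENNReal.toReal_ofReal (Real.exp_pos _).le] using h2
    refine summable_of_sum_range_le (c := M) (fun n => add_nonneg (ha0 n ω) (hb0 n ω)) fun n => ?_
    have h3 := Real.add_one_le_exp (S n ω)
    have h4 := hM n
    simp only [hSdef] at h3 h4
    linarith
  have hall := ae_all_iff.2 key
  filter_upwards [hall] with ω hω
  obtain ⟨k, hk⟩ := exists_nat_ge (V 0 ω)
  exact hω k hk

/-- Passage to the limit (Fatou) in the iteration. -/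
theorem limit_bound {μ : Measure Ω} {F : ℕ → MeasurableSpace Ω}
    (hF : ∀ n, F n ≤ m0) (hmono : Monotone F) {a b V : ℕ → Ω → ℝ}
    (ha : ∀ n, Measurable[F (n + 1)] (a n)) (hb : ∀ n, Measurable[F n] (b n))
    (hV : ∀ n, Measurable[F n] (V n))
    (hb0 : ∀ n ω, 0 ≤ b n ω) (hV0 : ∀ n ω, 0 ≤ V n ω)
    (step : ∀ n B, MeasurableSet[F n] B →
      ∫⁻ ω in B, ENNReal.ofReal (Real.exp (a n ω + V (n + 1) ω - V n ω)) ∂μ
        ≤ ∫⁻ ω in B, ENNReal.ofReal (Real.exp (-b n ω)) ∂μ)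
    {X : Ω → ℝ}
    (hX : ∀ᵐ ω ∂μ, Tendsto (fun n => ∑ i ∈ Finset.range n, a i ω) atTop (𝓝 (X ω)))
    {B : Set Ω} (hB : MeasurableSet[F 0] B) :
    ∫⁻ ω in B, ENNReal.ofReal (Real.exp (X ω)) ∂μ
      ≤ ∫⁻ ω in B, ENNReal.ofReal (Real.exp (V 0 ω)) ∂μ := by
  have hm : ∀ n, Measurable[m0] fun ω => ENNReal.ofReal (Real.exp (∑ i ∈ Finset.range n, a i ω)) :=
    fun n => (Real.measurable_exp.comp
      (Finset.measurable_sum _ fun i _ => (ha i).mono (hF _) le_rfl)).ennreal_ofReal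
  have hlim : ∀ᵐ ω ∂(μ.restrict B), ENNReal.ofReal (Real.exp (X ω))
      ≤ liminf (fun n => ENNReal.ofReal (Real.exp (∑ i ∈ Finset.range n, a i ω))) atTop := by
    filter_upwards [ae_restrict_of_ae hX] with ω hω
    have h1 : Tendsto (fun n => ENNReal.ofReal (Real.exp (∑ i ∈ Finset.range n, a i ω))) atTop
        (𝓝 (ENNReal.ofReal (Real.exp (X ω)))) :=
      (ENNReal.continuous_ofReal.tendsto _).comp ((Real.continuous_exp.tendsto _).comp hω)
    rw [h1.liminf_eq]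
  calc ∫⁻ ω in B, ENNReal.ofReal (Real.exp (X ω)) ∂μ
      ≤ ∫⁻ ω in B, liminf (fun n => ENNReal.ofReal
          (Real.exp (∑ i ∈ Finset.range n, a i ω))) atTop ∂μ := lintegral_mono_ae hlim
    _ ≤ liminf (fun n => ∫⁻ ω in B, ENNReal.ofReal
          (Real.exp (∑ i ∈ Finset.range n, a i ω)) ∂μ) atTop := lintegral_liminf_le hm
    _ ≤ ∫⁻ ω in B, ENNReal.ofReal (Real.exp (V 0 ω)) ∂μ := by
        refine liminf_le_of_frequently_le' (Frequently.of_forall fun n => ?_)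
        refine le_trans (lintegral_mono fun ω => ENNReal.ofReal_le_ofReal (Real.exp_le_exp.2 ?_))
          (iterate hF hmono ha hb hV step hB n)
        have h2 : ∑ i ∈ Finset.range n, a i ω ≤ ∑ i ∈ Finset.range n, (a i ω + b i ω) :=
          Finset.sum_le_sum fun i _ => by have := hb0 i ω; linarith
        have := hV0 n ω
        linarith

/-- Deterministic end: if `u0 (x n) → ∞`, `x n` is `u0 (x n) / 8`-close to `γ (T n)`, and `γ` is
bounded on bounded time intervals, then `T n → ∞`. -/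
theorem times_tendsto {γ : ℝ → ℂ} (hγ : ∀ M : ℝ, ∃ C : ℝ, ∀ t ∈ Set.Icc 0 M, ‖γ t‖ ≤ C)
    {T : ℕ → ℝ≥0} (hT : Monotone T) {x : ℕ → ℂ} {u0 : ℂ → ℝ}
    (hLip : ∀ p q, u0 p ≤ u0 q + dist p q)
    (hx : ∀ n, dist (x n) (γ (T n)) ≤ u0 (x n) / 8)
    (hinf : Tendsto (fun n => u0 (x n)) atTop atTop) :
    Tendsto T atTop atTop := by
  rcases tendsto_atTop_of_monotone hT with h | ⟨l, hl⟩
  · exact h
  · exfalso
    obtain ⟨C, hC⟩ := hγ l
    have hle : ∀ n, T n ≤ l := fun n => hT.ge_of_tendsto hl n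
    have hbd : ∀ n, u0 (x n) ≤ 8 / 7 * (u0 0 + C) := by
      intro n
      have h1 := hC (T n) ⟨(T n).2, by exact_mod_cast hle n⟩
      have h2 := hLip (x n) (γ (T n))
      have h3 := hLip (γ (T n)) 0
      have h4 := hx n
      rw [dist_zero_right] at h3
      linarith
    obtain ⟨n, hn⟩ := (hinf.eventually_gt_atTop (8 / 7 * (u0 0 + C))).exists
    exact absurd (hbd n) (not_le.2 hn)

/-- `∑ u_n^{-η} < ∞` with `η > 0`, `u_n ≥ 1` implies `u_n → ∞`. -/
theorem tendsto_of_summable_rpow {u : ℕ → ℝ} {η : ℝ} (hη : 0 < η) (hu : ∀ n, 1 ≤ u n)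
    (hs : Summable fun n => u n ^ (-η)) : Tendsto u atTop atTop := by
  have h0 := hs.tendsto_atTop_zero
  refine tendsto_atTop.2 fun M => ?_
  have hM : (0 : ℝ) < (max M 1) ^ (-η) := Real.rpow_pos_of_pos (by positivity) _
  filter_upwards [h0.eventually_lt_const hM] with n hn
  by_contra hcon
  push Not at hcon
  have hun : 0 < u n := by linarith [hu n]
  have h1 : u n ≤ max M 1 := hcon.le.trans (le_max_left _ _)
  have h2 : (max M 1) ^ (-η) ≤ u n ^ (-η) :=
    Real.rpow_le_rpow_of_nonpos hun h1 (by linarith)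
  linarith

/-- **LB6.** Abstract form of the iteration with stopping times `T n`, content process `Ct`,
potential `Λ`, area `A`, points `x n`, `ϖ_n = u0 (x n)^{-η}`. -/
theorem main {μ : Measure Ω} [IsFiniteMeasure μ] {F : ℕ → MeasurableSpace Ω}
    (hF : ∀ n, F n ≤ m0) (hmono : Monotone F)
    {T : ℕ → Ω → ℝ≥0} (hT : ∀ ω, Monotone fun n => T n ω)
    {Ct : ℝ≥0 → Ω → ℝ} (hC : ∀ ω, Monotone fun t => Ct t ω)
    (hCm : ∀ n, Measurable[F n] fun ω => Ct (T n ω) ω)
    {Λ A : ℕ → Ω → ℝ} (hΛ : ∀ n, Measurable[F n] (Λ n)) (hA : ∀ n, Measurable[F n] (A n))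
    (hΛ0 : ∀ n ω, 0 ≤ Λ n ω) (hA0 : ∀ n ω, 0 ≤ A n ω)
    {x : ℕ → Ω → ℂ} {u0 : ℂ → ℝ} (hu1 : ∀ p, 1 ≤ u0 p) (hLip : ∀ p q, u0 p ≤ u0 q + dist p q)
    (hum : ∀ n, Measurable[F n] fun ω => u0 (x n ω)) {η : ℝ} (hη : 0 < η)
    {c0 c δ : ℝ} (hc0 : 0 < c0) (hc : 0 ≤ c) (hδ0 : 0 < δ) (hδ1 : δ < 1)
    (step : ∀ n B, MeasurableSet[F n] B →
      ∫⁻ ω in B, ENNReal.ofReal (Real.exp (c0 * (Ct (T (n + 1) ω) ω - Ct (T n ω) ω)
          + c * (Λ (n + 1) ω - Λ n ω) + (A (n + 1) ω - A n ω))) ∂μ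
        ≤ ∫⁻ ω in B, ENNReal.ofReal ((1 - δ) ^ (u0 (x n ω) ^ (-η))) ∂μ)
    {γ : Ω → ℝ → ℂ}
    (hγ : ∀ᵐ ω ∂μ, ∀ M : ℝ, ∃ C : ℝ, ∀ t ∈ Set.Icc 0 M, ‖γ ω t‖ ≤ C)
    (hx : ∀ᵐ ω ∂μ, ∀ n, dist (x n ω) (γ ω (T n ω)) ≤ u0 (x n ω) / 8) :
    (∀ᵐ ω ∂μ, Tendsto (fun n => T n ω) atTop atTop) ∧
    (∀ᵐ ω ∂μ, ∃ L, Tendsto (fun t => Ct t ω) atTop (𝓝 L)) ∧
    ∀ X : Ω → ℝ, (∀ᵐ ω ∂μ, Tendsto (fun t => Ct t ω) atTop (𝓝 (X ω))) →
      ∀ B, MeasurableSet[F 0] B →
        ∫⁻ ω in B, ENNReal.ofReal (Real.exp (c0 * (X ω - Ct (T 0 ω) ω))) ∂μ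
          ≤ ∫⁻ ω in B, ENNReal.ofReal (Real.exp (c * Λ 0 ω + A 0 ω)) ∂μ := by
  set a : ℕ → Ω → ℝ := fun n ω => c0 * (Ct (T (n + 1) ω) ω - Ct (T n ω) ω) with hadef
  set b : ℕ → Ω → ℝ := fun n ω => u0 (x n ω) ^ (-η) * (-Real.log (1 - δ)) with hbdef
  set V : ℕ → Ω → ℝ := fun n ω => c * Λ n ω + A n ω with hVdef
  have hlog : 0 < -Real.log (1 - δ) := by
    have := Real.log_neg (by linarith : 0 < 1 - δ) (by linarith)
    linarith
  have hpos : ∀ n ω, 0 < u0 (x n ω) := fun n ω => by linarith [hu1 (x n ω)]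
  have ha : ∀ n, Measurable[F (n + 1)] (a n) := fun n =>
    ((hCm (n + 1)).sub ((hCm n).mono (hmono (Nat.le_succ n)) le_rfl)).const_mul c0
  have hb : ∀ n, Measurable[F n] (b n) := fun n => ((hum n).pow_const (-η)).mul_const _
  have hV : ∀ n, Measurable[F n] (V n) := fun n => ((hΛ n).const_mul c).add (hA n)
  have ha0 : ∀ n ω, 0 ≤ a n ω := fun n ω =>
    mul_nonneg hc0.le (sub_nonneg.2 (hC ω (hT ω (Nat.le_succ n))))
  have hb0 : ∀ n ω, 0 ≤ b n ω := fun n ω =>
    mul_nonneg (Real.rpow_nonneg (hpos n ω).le _) hlog.le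
  have hV0 : ∀ n ω, 0 ≤ V n ω := fun n ω => add_nonneg (mul_nonneg hc (hΛ0 n ω)) (hA0 n ω)
  have step' : ∀ n B, MeasurableSet[F n] B →
      ∫⁻ ω in B, ENNReal.ofReal (Real.exp (a n ω + V (n + 1) ω - V n ω)) ∂μ
        ≤ ∫⁻ ω in B, ENNReal.ofReal (Real.exp (-b n ω)) ∂μ := by
    intro n B hB
    refine le_trans (le_of_eq ?_) ((step n B hB).trans (le_of_eq ?_))
    · refine lintegral_congr fun ω => ?_
      congr 2
      simp only [hadef, hVdef]
      ring
    · refine lintegral_congr fun ω => ?_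
      congr 1
      rw [Real.rpow_def_of_pos (by linarith : 0 < 1 - δ)]
      congr 1
      simp only [hbdef]
      ring
  have hsum := ae_summable hF hmono ha hb hV ha0 hb0 hV0 step'
  -- telescoping
  have htel : ∀ ω n, ∑ i ∈ Finset.range n, a i ω = c0 * (Ct (T n ω) ω - Ct (T 0 ω) ω) := by
    intro ω n
    simp only [hadef]
    rw [← Finset.mul_sum, Finset.sum_range_sub (fun i => Ct (T i ω) ω)]
  have hT' : ∀ᵐ ω ∂μ, Tendsto (fun n => T n ω) atTop atTop := by
    filter_upwards [hsum, hγ, hx] with ω hs hg hxx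
    have hsb : Summable fun n => b n ω :=
      Summable.of_nonneg_of_le (fun n => hb0 n ω) (fun n => by have := ha0 n ω; linarith) hs
    have hsw : Summable fun n => u0 (x n ω) ^ (-η) := by
      have := hsb.mul_right (-Real.log (1 - δ))⁻¹
      refine this.congr fun n => ?_
      simp only [hbdef]
      rw [mul_assoc, mul_inv_cancel₀ hlog.ne', mul_one]
    exact times_tendsto hg (hT ω) hLip hxx
      (tendsto_of_summable_rpow hη (fun n => hu1 _) hsw)
  have hlimC : ∀ᵐ ω ∂μ, ∃ L, Tendsto (fun t => Ct t ω) atTop (𝓝 L) := by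
    filter_upwards [hsum, hT'] with ω hs hTω
    have hsa : Summable fun n => a n ω :=
      Summable.of_nonneg_of_le (fun n => ha0 n ω) (fun n => by have := hb0 n ω; linarith) hs
    -- `Ct` is bounded above
    have hbdd : BddAbove (Set.range fun t => Ct t ω) := by
      refine ⟨Ct (T 0 ω) ω + c0⁻¹ * ∑' n, a n ω, ?_⟩
      rintro _ ⟨t, rfl⟩
      obtain ⟨n, hn⟩ := (hTω.eventually_ge_atTop t).exists
      have h1 : Ct t ω ≤ Ct (T n ω) ω := hC ω hn
      have h2 : ∑ i ∈ Finset.range n, a i ω ≤ ∑' n, a n ω :=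
        hsa.sum_le_tsum _ fun i _ => ha0 i ω
      rw [htel] at h2
      have h3 : Ct (T n ω) ω - Ct (T 0 ω) ω ≤ c0⁻¹ * ∑' n, a n ω := by
        rw [inv_mul_eq_div, le_div_iff₀ hc0]
        linarith
      linarith
    exact ⟨_, tendsto_atTop_ciSup (hC ω) hbdd⟩
  refine ⟨hT', hlimC, fun X hX B hB => ?_⟩
  have hX' : ∀ᵐ ω ∂μ, Tendsto (fun n => ∑ i ∈ Finset.range n, a i ω) atTop
      (𝓝 (c0 * (X ω - Ct (T 0 ω) ω))) := by
    filter_upwards [hX, hT'] with ω hXω hTω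
    simp only [htel]
    exact ((hXω.comp hTω).sub_const _).const_mul c0
  exact limit_bound hF hmono ha hb hV hb0 hV0 step' hX' hB

end Crest.Agent.R162.LB6
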