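import Mathlib
import Crest.Agent.R162.FLC2
import Crest.Agent.R162.LB6

/-!
Row 162 (S0243), node LB6, second part.
* `norm_ffl_sq_le`: barrier bound for the inverse Loewner map, valid up to the real line.
* `tip_bounds`: on a bounded time interval, the point of the old geodesic selected by a threshold
  is bounded.
* `main'`: `LB6.main` without any trace.
-/

set_option autoImplicit false

open Set MeasureTheory Complex Filter Topology
open scoped NNReal ENNReal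

namespace Crest.Agent.R162.LB6

open FL FLC

section barrier

variable {W : ℝ → ℝ} {t : ℝ} {g : ℝ → ℂ}

/-- Barrier: along the backward flow `|g|²` grows at most with slope `9` once it exceeds `4K²`. -/
theorem IsSol.norm_sq_le (h : IsSol W t g) (ht : 0 ≤ t) {K : ℝ}
    (hK : ∀ s ∈ Icc (0 : ℝ) t, |W s| ≤ K) :
    ∀ s ∈ Icc (0 : ℝ) t, ‖g (t - s)‖ ^ 2 ≤ max (‖g t‖ ^ 2) (4 * K ^ 2) + 9 * s := by
  have hG : ∀ s ∈ Icc (0 : ℝ) t, HasDerivWithinAt (fun s => g (t - s))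
      (-(2 / (g (t - s) - W (t - s)))) (Icc 0 t) s := by
    intro s hs
    have hmem : t - s ∈ Icc (0 : ℝ) t := ⟨by linarith [hs.2], by linarith [hs.1]⟩
    have h1 := h.hasDeriv hmem
    have h2 : HasDerivWithinAt (fun s : ℝ => t - s) (-1) (Icc 0 t) s := by
      simpa using (hasDerivWithinAt_id s (Icc 0 t)).const_sub t
    have h3 := h1.scomp s h2 (fun u hu => ⟨by linarith [hu.2], by linarith [hu.1]⟩)
    simpa [Function.comp_def] using h3
  -- coordinates
  have hre : ∀ s ∈ Icc (0 : ℝ) t, HasDerivWithinAt (fun s => (g (t - s)).re)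
      (-(2 / (g (t - s) - W (t - s)))).re (Icc 0 t) s := fun s hs =>
    (Complex.reCLM.hasFDerivAt.comp_hasDerivWithinAt s (hG s hs))
  have him : ∀ s ∈ Icc (0 : ℝ) t, HasDerivWithinAt (fun s => (g (t - s)).im)
      (-(2 / (g (t - s) - W (t - s)))).im (Icc 0 t) s := fun s hs =>
    (Complex.imCLM.hasFDerivAt.comp_hasDerivWithinAt s (hG s hs))
  set f : ℝ → ℝ := fun s => (g (t - s)).re ^ 2 + (g (t - s)).im ^ 2 with hf
  set f' : ℝ → ℝ := fun s => 2 * (g (t - s)).re * (-(2 / (g (t - s) - W (t - s)))).re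
    + 2 * (g (t - s)).im * (-(2 / (g (t - s) - W (t - s)))).im with hf'
  have hder : ∀ s ∈ Icc (0 : ℝ) t, HasDerivWithinAt f (f' s) (Icc 0 t) s := by
    intro s hs
    have := ((hre s hs).pow 2).add ((him s hs).pow 2)
    refine this.congr_deriv ?_
    simp only [hf']
    norm_num
  have hnorm : ∀ s, ‖g (t - s)‖ ^ 2 = f s := by
    intro s
    rw [← Complex.normSq_eq_norm_sq, Complex.normSq_apply]
    simp only [hf]
    ring
  set B0 : ℝ := max (‖g t‖ ^ 2) (4 * K ^ 2) with hB0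
  have key := image_le_of_deriv_right_lt_deriv_boundary (f := f) (f' := f') (a := 0) (b := t)
    (B := fun s => B0 + 9 * s) (B' := fun _ => 9)
    (fun s hs => (hder s hs).continuousWithinAt)
    (fun s hs => (hder s ⟨hs.1, hs.2.le⟩).mono_of_mem_nhdsWithin
      (Icc_mem_nhdsGE_of_mem hs))
    (by
      have : f 0 = ‖g t‖ ^ 2 := by rw [← hnorm 0, sub_zero]
      simp only [this, mul_zero, add_zero]
      exact le_max_left _ _)
    (fun s => by simpa using ((hasDerivAt_id s).const_mul (9 : ℝ)).const_add B0)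
    (by
      intro s hs hfs
      have hmem : t - s ∈ Icc (0 : ℝ) t := ⟨by linarith [hs.2.le], by linarith [hs.1]⟩
      have hY : 0 < (g (t - s)).im := h.im_pos hmem
      have hU := hK _ hmem
      have hK0 : 0 ≤ K := (abs_nonneg _).trans hU
      have hge : 4 * K ^ 2 ≤ f s := by
        rw [hfs]
        have := le_max_right (‖g t‖ ^ 2) (4 * K ^ 2)
        have hs0 := hs.1
        simp only [hB0]
        linarith
      have hU2 := abs_le.1 hU
      simp only [hf] at hge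
      simp only [hf']
      set X : ℝ := (g (t - s)).re - W (t - s) with hX
      set Y : ℝ := (g (t - s)).im with hYd
      set U : ℝ := W (t - s) with hUd
      have hXr : (g (t - s)).re = X + U := by rw [hX]; ring
      have e1 : (-(2 / (g (t - s) - (U : ℂ)))).re = -(2 * X / (X ^ 2 + Y ^ 2)) := by
        rw [Complex.neg_re, Complex.div_re, Complex.normSq_apply]
        simp only [Complex.sub_re, Complex.ofReal_re, Complex.sub_im, Complex.ofReal_im, sub_zero,
          Complex.re_ofNat, Complex.im_ofNat, zero_mul, zero_div, add_zero]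
        rw [← hX, ← hYd]
        ring_nf
      have e2 : (-(2 / (g (t - s) - (U : ℂ)))).im = 2 * Y / (X ^ 2 + Y ^ 2) := by
        rw [Complex.neg_im, Complex.div_im, Complex.normSq_apply]
        simp only [Complex.sub_re, Complex.ofReal_re, Complex.sub_im, Complex.ofReal_im, sub_zero,
          Complex.re_ofNat, Complex.im_ofNat, zero_mul, zero_div, zero_sub]
        rw [← hX, ← hYd]
        ring_nf
      rw [e1, e2, hXr]
      rw [hXr] at hge
      have hYpos : 0 < Y := hY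
      have hD : 0 < X ^ 2 + Y ^ 2 := by positivity
      have hKZ : K ^ 2 ≤ X ^ 2 + Y ^ 2 := by
        by_contra hcon
        push Not at hcon
        have hX2 : X ^ 2 < K ^ 2 := by nlinarith
        have hXK := abs_lt_of_sq_lt_sq hX2 hK0
        have hXK' := abs_lt.1 hXK
        have hUX : U * X ≤ K * K := by
          calc U * X ≤ |U * X| := le_abs_self _
            _ = |U| * |X| := abs_mul _ _
            _ ≤ K * K := mul_le_mul hU hXK.le (abs_nonneg _) hK0
        have hUU : U ^ 2 ≤ K ^ 2 := by nlinarith [abs_nonneg U, sq_abs U]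
        nlinarith
      have hmain : 4 * (Y ^ 2 - X ^ 2 - U * X) < 9 * (X ^ 2 + Y ^ 2) := by
        have h5 : -(U * X) ≤ K * |X| := by
          calc -(U * X) ≤ |U * X| := neg_le_abs _
            _ = |U| * |X| := abs_mul _ _
            _ ≤ K * |X| := mul_le_mul_of_nonneg_right hU (abs_nonneg _)
        have h6 : 2 * (K * |X|) ≤ K ^ 2 + X ^ 2 := by
          have := sq_nonneg (K - |X|)
          have h7 := sq_abs X
          nlinarith
        nlinarith
      have hrw : 2 * (X + U) * -(2 * X / (X ^ 2 + Y ^ 2)) + 2 * Y * (2 * Y / (X ^ 2 + Y ^ 2))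
          = 4 * (Y ^ 2 - X ^ 2 - U * X) / (X ^ 2 + Y ^ 2) := by
        field_simp
        ring
      rw [hrw, div_lt_iff₀ hD]
      exact hmain)
  intro s hs
  rw [hnorm s]
  exact key hs

/-- Growth of the inverse Loewner map, uniform up to the real line. -/
theorem norm_ffl_sq_le (hW : ContinuousOn W (Ici 0)) (ht : 0 ≤ t) {z : ℂ} (hz : 0 < z.im) {K : ℝ}
    (hK : ∀ s ∈ Icc (0 : ℝ) t, |W s| ≤ K) :
    ‖ffl W t z‖ ^ 2 ≤ max (‖z + W t‖ ^ 2) (4 * K ^ 2) + 9 * t := by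
  have h := IsSol.norm_sq_le (isSol_ffl hW ht hz) ht hK t (right_mem_Icc.2 ht)
  simp only [sub_self] at h
  rwa [gfl_zero_ffl hW ht hz, gfl_ffl hW ht hz] at h

/-- On `[0,S]` the geodesic `y ↦ f_t(iy)` is bounded for `y ≤ y1`, and the ratio
`y |f_t'(iy)| / (C + |f_t(iy)|)` is `≥ θ` for `y ≥ y1`. -/
theorem tip_bounds (hW : ContinuousOn W (Ici 0)) {S : ℝ} (hS : 0 ≤ S) {θ C : ℝ} (hθ0 : 0 ≤ θ)
    (hθ : θ < 1) (hC : 0 ≤ C) :
    ∃ y1 : ℝ, 0 < y1 ∧ ∃ M : ℝ, ∀ t ∈ Icc (0 : ℝ) S,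
      (∀ y : ℝ, y1 ≤ y → θ * (C + ‖ffl W t (y * I)‖) ≤ y * ‖deriv (ffl W t) (y * I)‖) ∧
      (∀ y : ℝ, 0 < y → y ≤ y1 → ‖ffl W t (y * I)‖ ≤ M) := by
  obtain ⟨K, hK⟩ : ∃ K : ℝ, ∀ s ∈ Icc (0 : ℝ) S, |W s| ≤ K := by
    obtain ⟨K, hK⟩ := isCompact_Icc.exists_bound_of_continuousOn
      (hW.mono (fun s (hs : s ∈ Icc (0 : ℝ) S) => hs.1))
    exact ⟨K, fun s hs => by simpa using hK s hs⟩
  have hK0 : 0 ≤ K := (abs_nonneg _).trans (hK 0 ⟨le_rfl, hS⟩)
  set r : ℝ := max (Real.sqrt S) K with hr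
  have hr0 : 0 ≤ r := hK0.trans (le_max_right _ _)
  have hSr : S ≤ r ^ 2 := by
    have h1 : Real.sqrt S ≤ r := le_max_left _ _
    calc S = Real.sqrt S ^ 2 := (Real.sq_sqrt hS).symm
      _ ≤ r ^ 2 := pow_le_pow_left₀ (Real.sqrt_nonneg _) h1 2
  have hd : 0 < 1 - θ := by linarith
  set y1 : ℝ := 10 * r + 8 * r / (1 - θ) + 2 * (C + 3 * r) / (1 - θ) + 1 with hy1
  have hq1 : 0 ≤ 8 * r / (1 - θ) := by positivity
  have hq2 : 0 ≤ 2 * (C + 3 * r) / (1 - θ) := by positivity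
  refine ⟨y1, by positivity, Real.sqrt ((y1 + K) ^ 2 + 4 * K ^ 2 + 9 * S), fun t ht => ⟨?_, ?_⟩⟩
  · intro y hy
    have hypos : 0 < y := lt_of_lt_of_le (by positivity) hy
    have h10 : 10 * r ≤ y := by linarith
    have hTr : t ≤ r ^ 2 := ht.2.trans hSr
    have hWr : |W t| ≤ r := (hK t ht).trans (le_max_right _ _)
    have h1 := norm_ffl_I_sub_le hW ht.1 hTr hWr hypos h10
    have h2 := norm_deriv_ffl_I_sub_one_le hW ht.1 hTr hypos
    have hf : ‖ffl W t (y * I)‖ ≤ y + 3 * r := by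
      calc ‖ffl W t (y * I)‖ = ‖(ffl W t (y * I) - y * I) + y * I‖ := by ring_nf
        _ ≤ ‖ffl W t (y * I) - y * I‖ + ‖(y : ℂ) * I‖ := norm_add_le _ _
        _ ≤ 3 * r + y := by
          refine add_le_add h1 (le_of_eq ?_)
          simp [abs_of_pos hypos]
        _ = y + 3 * r := by ring
    -- the exponential
    have hx : 2 * r ^ 2 / y ^ 2 ≤ (1 - θ) / 4 := by
      have h3 : 8 * r / (1 - θ) ≤ y := by linarith
      rw [div_le_iff₀ hd] at h3
      rw [div_le_div_iff₀ (by positivity) (by norm_num)]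
      have h4 : 8 * r * y ≤ y * (1 - θ) * y := mul_le_mul_of_nonneg_right h3 hypos.le
      have h5 : r * (10 * r) ≤ r * y := mul_le_mul_of_nonneg_left h10 hr0
      nlinarith
    have hx0 : 0 ≤ 2 * r ^ 2 / y ^ 2 := by positivity
    have hexp : Real.exp (2 * r ^ 2 / y ^ 2) - 1 ≤ (1 - θ) / 2 := by
      set x : ℝ := 2 * r ^ 2 / y ^ 2 with hxdef
      have hx1 : x ≤ 1 / 4 := by linarith
      have h6 := Real.exp_bound' hx0 (by linarith) (n := 2) (by norm_num)
      simp only [Finset.sum_range_succ, Finset.sum_range_zero] at h6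
      norm_num [Nat.factorial] at h6
      nlinarith
    have hder : 1 - (1 - θ) / 2 ≤ ‖deriv (ffl W t) (y * I)‖ := by
      have h7 : (1 : ℝ) ≤ ‖deriv (ffl W t) (y * I)‖ + ‖deriv (ffl W t) (y * I) - 1‖ := by
        calc (1 : ℝ) = ‖(1 : ℂ)‖ := by simp
          _ = ‖deriv (ffl W t) (y * I) - (deriv (ffl W t) (y * I) - 1)‖ := by ring_nf
          _ ≤ _ := norm_sub_le _ _
      linarith
    have h8 : 2 * (C + 3 * r) / (1 - θ) ≤ y := by linarith
    rw [div_le_iff₀ hd] at h8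
    have h9 : θ * (C + ‖ffl W t (y * I)‖) ≤ θ * (C + (y + 3 * r)) :=
      mul_le_mul_of_nonneg_left (by linarith) hθ0
    have h10' : y * (1 - (1 - θ) / 2) ≤ y * ‖deriv (ffl W t) (y * I)‖ :=
      mul_le_mul_of_nonneg_left hder hypos.le
    have h11 : θ * (C + 3 * r) ≤ C + 3 * r := by
      have : 0 ≤ C + 3 * r := by positivity
      nlinarith
    nlinarith
  · intro y hy0 hyy
    have hz : 0 < ((y : ℂ) * I).im := by simpa using hy0
    have h1 := norm_ffl_sq_le hW ht.1 hz (K := K) (fun s hs => hK s ⟨hs.1, hs.2.trans ht.2⟩)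
    have h2 : ‖(y : ℂ) * I + W t‖ ≤ y1 + K := by
      refine (norm_add_le _ _).trans (add_le_add ?_ ?_)
      · simpa [abs_of_pos hy0] using hyy
      · simpa using hK t ht
    have h3 : ‖(y : ℂ) * I + W t‖ ^ 2 ≤ (y1 + K) ^ 2 := pow_le_pow_left₀ (norm_nonneg _) h2 2
    refine Real.le_sqrt_of_sq_le ?_
    refine h1.trans ?_
    have h4 : max (‖(y : ℂ) * I + W t‖ ^ 2) (4 * K ^ 2) ≤ (y1 + K) ^ 2 + 4 * K ^ 2 :=
      max_le (by nlinarith) (by nlinarith [sq_nonneg (y1 + K)])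
    have h5 := ht.2
    linarith

end barrier

section main'

variable {Ω : Type*} {m0 : MeasurableSpace Ω}

/-- **LB6**, without any trace: the only pathwise input is that `u0 (x n)` is bounded as long as
`T n` is. -/
theorem main' {μ : Measure Ω} [IsFiniteMeasure μ] {F : ℕ → MeasurableSpace Ω}
    (hF : ∀ n, F n ≤ m0) (hmono : Monotone F)
    {T : ℕ → Ω → ℝ≥0} (hT : ∀ ω, Monotone fun n => T n ω)
    {Ct : ℝ≥0 → Ω → ℝ} (hC : ∀ ω, Monotone fun t => Ct t ω)
    (hCm : ∀ n, Measurable[F n] fun ω => Ct (T n ω) ω)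
    {Λ A : ℕ → Ω → ℝ} (hΛ : ∀ n, Measurable[F n] (Λ n)) (hA : ∀ n, Measurable[F n] (A n))
    (hΛ0 : ∀ n ω, 0 ≤ Λ n ω) (hA0 : ∀ n ω, 0 ≤ A n ω)
    {u : ℕ → Ω → ℝ} (hu1 : ∀ n ω, 1 ≤ u n ω)
    (hum : ∀ n, Measurable[F n] (u n)) {η : ℝ} (hη : 0 < η)
    {c0 c δ : ℝ} (hc0 : 0 < c0) (hc : 0 ≤ c) (hδ0 : 0 < δ) (hδ1 : δ < 1)
    (step : ∀ n B, MeasurableSet[F n] B →
      ∫⁻ ω in B, ENNReal.ofReal (Real.exp (c0 * (Ct (T (n + 1) ω) ω - Ct (T n ω) ω)
          + c * (Λ (n + 1) ω - Λ n ω) + (A (n + 1) ω - A n ω))) ∂μ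
        ≤ ∫⁻ ω in B, ENNReal.ofReal ((1 - δ) ^ (u n ω ^ (-η))) ∂μ)
    (hxb : ∀ᵐ ω ∂μ, ∀ S : ℝ≥0, ∃ M : ℝ, ∀ n, T n ω ≤ S → u n ω ≤ M) :
    (∀ᵐ ω ∂μ, Tendsto (fun n => T n ω) atTop atTop) ∧
    (∀ᵐ ω ∂μ, ∃ L, Tendsto (fun t => Ct t ω) atTop (𝓝 L)) ∧
    ∀ X : Ω → ℝ, (∀ᵐ ω ∂μ, Tendsto (fun t => Ct t ω) atTop (𝓝 (X ω))) →
      ∀ B, MeasurableSet[F 0] B →
        ∫⁻ ω in B, ENNReal.ofReal (Real.exp (c0 * (X ω - Ct (T 0 ω) ω))) ∂μ
          ≤ ∫⁻ ω in B, ENNReal.ofReal (Real.exp (c * Λ 0 ω + A 0 ω)) ∂μ := by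
  set a : ℕ → Ω → ℝ := fun n ω => c0 * (Ct (T (n + 1) ω) ω - Ct (T n ω) ω) with hadef
  set b : ℕ → Ω → ℝ := fun n ω => u n ω ^ (-η) * (-Real.log (1 - δ)) with hbdef
  set V : ℕ → Ω → ℝ := fun n ω => c * Λ n ω + A n ω with hVdef
  have hlog : 0 < -Real.log (1 - δ) := by
    have := Real.log_neg (by linarith : 0 < 1 - δ) (by linarith)
    linarith
  have hpos : ∀ n ω, 0 < u n ω := fun n ω => by linarith [hu1 n ω]
  have ha : ∀ n, Measurable[F (n + 1)] (a n) := fun n =>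
    ((hCm (n + 1)).sub ((hCm n).mono (hmono (Nat.le_succ n)) le_rfl)).const_mul c0
  have hb : ∀ n, Measurable[F n] (b n) := fun n => ((hum n).pow_const (-η)).mul_const _
  have hV : ∀ n, Measurable[F n] (V n) := fun n => ((hΛ n).const_mul c).add (hA n)
  have ha0 : ∀ n ω, 0 ≤ a n ω := fun n ω =>
    mul_nonneg hc0.le (sub_nonneg.2 (hC ω (hT ω (Nat.le_succ n))))
  have hb0 : ∀ n ω, 0 ≤ b n ω := fun n ω =>
    mul_nonneg (Real.rpow_nonneg (hpos n ω).le _) hlog.le
  have hV0 : ∀ n ω, 0 ≤ V n ω := fun n ω => add_nonneg (mul_nonneg hc (hΛ0 n ω)) (hA0 n ω)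
  have step' : ∀ n B, MeasurableSet[F n] B →
      ∫⁻ ω in B, ENNReal.ofReal (Real.exp (a n ω + V (n + 1) ω - V n ω)) ∂μ
        ≤ ∫⁻ ω in B, ENNReal.ofReal (Real.exp (-b n ω)) ∂μ := by
    intro n B hB
    refine le_trans (le_of_eq ?_) ((step n B hB).trans (le_of_eq ?_))
    · refine lintegral_congr fun ω => ?_
      congr 2
      simp only [hadef, hVdef]
      ring
    · refine lintegral_congr fun ω => ?_
      congr 1
      rw [Real.rpow_def_of_pos (by linarith : 0 < 1 - δ)]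
      congr 1
      simp only [hbdef]
      ring
  have hsum := ae_summable hF hmono ha hb hV ha0 hb0 hV0 step'
  -- telescoping
  have htel : ∀ ω n, ∑ i ∈ Finset.range n, a i ω = c0 * (Ct (T n ω) ω - Ct (T 0 ω) ω) := by
    intro ω n
    simp only [hadef]
    rw [← Finset.mul_sum, Finset.sum_range_sub (fun i => Ct (T i ω) ω)]
  have hT' : ∀ᵐ ω ∂μ, Tendsto (fun n => T n ω) atTop atTop := by
    filter_upwards [hsum, hxb] with ω hs hxx
    have hsb : Summable fun n => b n ω :=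
      Summable.of_nonneg_of_le (fun n => hb0 n ω) (fun n => by have := ha0 n ω; linarith) hs
    have hsw : Summable fun n => u n ω ^ (-η) := by
      have := hsb.mul_right (-Real.log (1 - δ))⁻¹
      refine this.congr fun n => ?_
      simp only [hbdef]
      rw [mul_assoc, mul_inv_cancel₀ hlog.ne', mul_one]
    have hinf := tendsto_of_summable_rpow hη (fun n => hu1 n ω) hsw
    rcases tendsto_atTop_of_monotone (hT ω) with h | ⟨l, hl⟩
    · exact h
    · exfalso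
      obtain ⟨M, hM⟩ := hxx l
      obtain ⟨n, hn⟩ := (hinf.eventually_gt_atTop M).exists
      exact absurd (hM n ((hT ω).ge_of_tendsto hl n)) (not_le.2 hn)
  have hlimC : ∀ᵐ ω ∂μ, ∃ L, Tendsto (fun t => Ct t ω) atTop (𝓝 L) := by
    filter_upwards [hsum, hT'] with ω hs hTω
    have hsa : Summable fun n => a n ω :=
      Summable.of_nonneg_of_le (fun n => ha0 n ω) (fun n => by have := hb0 n ω; linarith) hs
    have hbdd : BddAbove (Set.range fun t => Ct t ω) := by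
      refine ⟨Ct (T 0 ω) ω + c0⁻¹ * ∑' n, a n ω, ?_⟩
      rintro _ ⟨t, rfl⟩
      obtain ⟨n, hn⟩ := (hTω.eventually_ge_atTop t).exists
      have h1 : Ct t ω ≤ Ct (T n ω) ω := hC ω hn
      have h2 : ∑ i ∈ Finset.range n, a i ω ≤ ∑' n, a n ω :=
        hsa.sum_le_tsum _ fun i _ => ha0 i ω
      rw [htel] at h2
      have h3 : Ct (T n ω) ω - Ct (T 0 ω) ω ≤ c0⁻¹ * ∑' n, a n ω := by
        rw [inv_mul_eq_div, le_div_iff₀ hc0]
        linarith
      linarith
    exact ⟨_, tendsto_atTop_ciSup (hC ω) hbdd⟩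
  refine ⟨hT', hlimC, fun X hX B hB => ?_⟩
  have hX' : ∀ᵐ ω ∂μ, Tendsto (fun n => ∑ i ∈ Finset.range n, a i ω) atTop
      (𝓝 (c0 * (X ω - Ct (T 0 ω) ω))) := by
    filter_upwards [hX, hT'] with ω hXω hTω
    simp only [htel]
    exact ((hXω.comp hTω).sub_const _).const_mul c0
  exact limit_bound hF hmono ha hb hV hb0 hV0 step' hX' hB

end main'

end Crest.Agent.R162.LB6
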