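import Mathlib
import Crest.Agent.R162.LB6c
import Crest.Agent.R162.LBDefs

/-!
Row 162 (S0243), node LB6, fourth part: the pathwise input `hxb` of `main_top` for the frozen
definitions of `LBDefs`: `u0 (x_n)` stays bounded as long as `T_n` does.
-/

set_option autoImplicit false

open Set MeasureTheory Filter Topology
open scoped NNReal ENNReal

namespace Crest.Agent.R162.LB6

open FL FLC LB

variable {p : Par} {W : ℝ → ℝ}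

lemma Par.Adm.u0_le (h : p.Adm) (z : ℂ) : p.u0 z ≤ p.u0 0 + ‖z‖ := by
  have h1 := h.lip.dist_le_mul z 0
  rw [NNReal.coe_one, one_mul, dist_zero_right, Real.dist_eq] at h1
  linarith [le_abs_self (p.u0 z - p.u0 0)]

/-- On a bounded time interval `y_x (f_t) ≤ y1` and `|f_t (i y)| ≤ M` for `0 < y ≤ y1`. -/
theorem yx_le_and_bdd (h : p.Adm) (hθ0 : 0 ≤ p.θ) (hθ : p.θ < 1) (hW : ContinuousOn W (Ici 0))
    {S : ℝ} (hS : 0 ≤ S) :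
    ∃ y1 : ℝ, 0 < y1 ∧ ∃ M : ℝ, ∀ t ∈ Icc (0 : ℝ) S,
      (∀ y : ℝ, y1 ≤ y → p.θ ≤ vv p.u0 (ffl W t) y) ∧ p.y (ffl W t) ≤ y1 ∧
      (∀ y : ℝ, 0 < y → y ≤ y1 → ‖ffl W t (y * Complex.I)‖ ≤ M) := by
  have hC : 0 ≤ p.u0 0 := zero_le_one.trans (h.one_le 0)
  obtain ⟨y1, hy1, M, hM⟩ := tip_bounds hW hS hθ0 hθ hC
  refine ⟨y1, hy1, M, fun t ht => ?_⟩
  have hv : ∀ y : ℝ, y1 ≤ y → p.θ ≤ vv p.u0 (ffl W t) y := by
    intro y hy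
    have hpos : 0 < p.u0 (ffl W t (y * Complex.I)) :=
      lt_of_lt_of_le zero_lt_one (h.one_le _)
    have h1 := (hM t ht).1 y hy
    have h2 := Par.Adm.u0_le h (ffl W t (y * Complex.I))
    unfold vv
    rw [le_div_iff₀ hpos]
    have h3 : KB1.ups (ffl W t) (y * Complex.I) = y * ‖deriv (ffl W t) (y * Complex.I)‖ := by
      simp [KB1.ups]
    rw [h3]
    exact (mul_le_mul_of_nonneg_left h2 hθ0).trans h1
  refine ⟨hv, ?_, (hM t ht).2⟩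
  exact csInf_le ⟨0, fun y hy => hy.1.le⟩ ⟨hy1, Or.inl (hv y1 le_rfl)⟩

/-- On a bounded time interval `u0 (x (f_t))` is bounded (wherever `y_x > 0`). -/
theorem u0_x_bdd (h : p.Adm) (hθ0 : 0 ≤ p.θ) (hθ : p.θ < 1) (hW : ContinuousOn W (Ici 0))
    {S : ℝ} (hS : 0 ≤ S) :
    ∃ M : ℝ, ∀ t ∈ Icc (0 : ℝ) S, 0 < p.y (ffl W t) → p.u0 (p.x (ffl W t)) ≤ M := by
  obtain ⟨y1, -, M, hM⟩ := yx_le_and_bdd h hθ0 hθ hW hS
  refine ⟨p.u0 0 + M, fun t ht hpos => ?_⟩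
  obtain ⟨-, h1, h2⟩ := hM t ht
  refine (Par.Adm.u0_le h _).trans ?_
  have := h2 _ hpos h1
  unfold Par.x
  linarith

/-- The form used for `hxb` of `main_top`. -/
theorem hxb_of (h : p.Adm) (hθ0 : 0 ≤ p.θ) (hθ : p.θ < 1) (hW : ContinuousOn W (Ici 0))
    {T : ℕ → ℝ≥0} (hy : ∀ n, 0 < p.y (ffl W (T n))) (S : ℝ≥0) :
    ∃ M : ℝ, ∀ n, T n ≤ S → p.u0 (p.x (ffl W (T n))) ≤ M := by
  obtain ⟨M, hM⟩ := u0_x_bdd h hθ0 hθ hW S.2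
  exact ⟨M, fun n hn => hM _ ⟨(T n).2, by exact_mod_cast hn⟩ (hy n)⟩

end Crest.Agent.R162.LB6
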