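import Mathlib
import Crest.Agent.R162.Rad
import Crest.Agent.R162.Rad2
import Crest.Agent.R162.U1P
import Crest.Agent.R162.UBDefs

/-!
Row 162 (S0243), node LB7U1 (helper418): the one-point bound U1 at radial levels, in the form needed
by `Frost7`: `P (alive t) ≤ C e^{-(1-κ/8) t} G_0(w)`, and `P (Υ reaches r) ≤ C r^{1-κ/8} G_0(w)`.
-/

set_option autoImplicit false

open MeasureTheory ProbabilityTheory Filter Set
open scoped NNReal ENNReal Topology

namespace Crest.Agent.R162.LB7U1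

open Crest.Agent.R162.OS Crest.Agent.R162.Rad Crest.Agent.R162.OP Crest.Agent.R162.FL
open Crest.ProbabilityR.Loewner

universe u

section abs

variable {Ω : Type u} {m : MeasurableSpace Ω} {P : Measure Ω} {F : Filtration ℝ≥0 m} {κ s₀ : ℝ}

/-- U1 at level `t ≥ s₀ + 1` in terms of Green's function at the start. -/
theorem alive_le (D : OneP F P (OP.gen κ) s₀) [IsFiniteMeasure P] (hκ : 0 < κ) {C : ℝ}
    (hC : 0 ≤ C) (h1 : U1P.R D.radial P 1 (fun _ => 1) (fun x => C * x ^ (8 / κ - 1)))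
    {t : ℝ} (ht : s₀ + 1 ≤ t) :
    P (D.alive t) ≤ ENNReal.ofReal (C * Real.exp (-((1 - κ / 8) * (t - 1)))) *
      ∫⁻ ω, ENNReal.ofReal (Gl D s₀ ω) ∂P := by
  have hp : D.Past (t - 1) (D.alive (t - 1)) := D.alive_past (t - 1)
  have e1 := h1 (t - 1) (by linarith) (D.alive (t - 1)) hp Subset.rfl
  have hmA : MeasurableSet (D.alive (t - 1)) := D.measurableSet_alive _
  have hs : D.alive (t - 1) ∩ D.alive (t - 1 + 1) = D.alive t := by
    rw [sub_add_cancel]
    exact inter_eq_right.2 (D.alive_anti (by linarith))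
  have e2 : P (D.alive t) ≤ ∫⁻ ω in D.alive (t - 1),
      ENNReal.ofReal (C * (D.Sl (t - 1) ω) ^ (8 / κ - 1)) ∂P := by
    have e3 : ∫⁻ ω in D.alive (t - 1) ∩ D.alive (t - 1 + 1), ENNReal.ofReal (1 : ℝ) ∂P =
        P (D.alive t) := by
      rw [hs, ENNReal.ofReal_one, setLIntegral_one]
    rw [← e3]
    exact e1
  have e4 : ∫⁻ ω in D.alive (t - 1), ENNReal.ofReal (C * (D.Sl (t - 1) ω) ^ (8 / κ - 1)) ∂P =
      ENNReal.ofReal (C * Real.exp (-((1 - κ / 8) * (t - 1)))) *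
        ∫⁻ ω in D.alive (t - 1), ENNReal.ofReal (Gl D (t - 1) ω) ∂P := by
    rw [← lintegral_const_mul' _ _ ENNReal.ofReal_ne_top]
    refine setLIntegral_congr_fun hmA fun ω hω => ?_
    rw [← ENNReal.ofReal_mul (by positivity)]
    congr 1
    have h3 : (D.stl (t - 1) ω).2.2.1 = -(t - 1) := D.L_tau (by linarith) hω
    rw [Gl, Gq, h3, mul_assoc, ← mul_assoc (Real.exp _) (Real.exp _), ← Real.exp_add]
    have : -((1 - κ / 8) * (t - 1)) + (κ / 8 - 1) * -(t - 1) = 0 := by ring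
    rw [this, Real.exp_zero, one_mul]
    rfl
  have hs0 : D.Past s₀ univ := by
    have := D.alive_past s₀
    rwa [D.alive_low le_rfl] at this
  have e5 := U0 D hκ (s := s₀) (t := t - 1) (by linarith) hs0
  rw [univ_inter, Measure.restrict_univ] at e5
  exact (e2.trans (le_of_eq e4)).trans (by gcongr)

end abs

section conc

variable {Ω : Type u} {m : MeasurableSpace Ω} {P : Measure Ω} [IsProbabilityMeasure P]
  {Fl : Filtration ℝ≥0 m} {B : ℝ≥0 → Ω → ℝ} {κ : ℝ} {w : ℂ}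

/-- Green's function at the start of the one-point process. -/
theorem Gl_start (hM : OPM.{u}) (hB : IsBM Fl B P) (hκ : 0 < κ) (hw : 0 < w.im) (ω : Ω) :
    Gl (oneP hM hB hκ hw) (-Real.log w.im) ω =
      w.im ^ (κ / 8 - 1) * (w.im / ‖w‖) ^ (8 / κ - 1) := by
  have hst : (oneP hM hB hκ hw).stl (-Real.log w.im) ω = (w.re, w.im, Real.log w.im, 0) := by
    rw [OneP.stl, (oneP hM hB hκ hw).tau_low le_rfl]
    simp only [oneP, stP, NNReal.coe_zero]
    rw [stW_zero hw, driving_zero hB, sub_zero]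
  rw [Gl, hst, Gq, sinq]
  simp only
  congr 1
  · rw [Real.rpow_def_of_pos hw]
    congr 1
    ring
  · rw [Complex.norm_eq_sqrt_sq_add_sq]

/-- **U1 for `Frost7`**: the probability that `Υ(w)` ever reaches `r`. -/
theorem reach_le (hM : OPM.{u}) (hB : IsBM Fl B P) (hκ : 0 < κ) (hw : 0 < w.im) {C : ℝ}
    (hC : 0 ≤ C) (h1 : U1P.R (oneP hM hB hκ hw).radial P 1 (fun _ => 1)
      (fun x => C * x ^ (8 / κ - 1))) {r : ℝ} (hr : 0 < r) (hrw : Real.exp 1 * r ≤ w.im) :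
    P ((oneP hM hB hκ hw).alive (-Real.log r)) ≤
      ENNReal.ofReal (C * Real.exp (1 - κ / 8) * r ^ (1 - κ / 8) *
        (w.im ^ (κ / 8 - 1) * (w.im / ‖w‖) ^ (8 / κ - 1))) := by
  have hlog : Real.log r + 1 ≤ Real.log w.im := by
    have h := Real.log_le_log (by positivity) hrw
    rw [Real.log_mul (Real.exp_pos 1).ne' hr.ne', Real.log_exp] at h
    linarith
  have h := alive_le (oneP hM hB hκ hw) hκ hC h1 (t := -Real.log r) (by linarith)
  have hG : ∫⁻ ω, ENNReal.ofReal (Gl (oneP hM hB hκ hw) (-Real.log w.im) ω) ∂P =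
      ENNReal.ofReal (w.im ^ (κ / 8 - 1) * (w.im / ‖w‖) ^ (8 / κ - 1)) := by
    simp only [Gl_start hM hB hκ hw, lintegral_const, measure_univ, mul_one]
  rw [hG, ← ENNReal.ofReal_mul (by positivity)] at h
  refine h.trans (ENNReal.ofReal_le_ofReal (le_of_eq ?_))
  congr 1
  rw [Real.rpow_def_of_pos hr, mul_assoc, ← Real.exp_add]
  congr 2
  ring

end conc

/-- the uniform unit-step form of U1 (helper104). -/
def U1U {κ : ℝ} (hM : OPM.{u}) (hκ : 0 < κ) : Prop :=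
  ∃ C : ℝ, 0 ≤ C ∧ ∀ (Ω : Type u) (m : MeasurableSpace Ω) (P : Measure Ω) [IsProbabilityMeasure P]
    (Fl : Filtration ℝ≥0 m) (B : ℝ≥0 → Ω → ℝ) (hB : IsBM Fl B P) (w : ℂ) (hw : 0 < w.im),
    U1P.R (oneP hM hB hκ hw).radial P 1 (fun _ => 1) (fun x => C * x ^ (8 / κ - 1))

/-- **(U1F)**: `P (Υ(w) reaches e^{-s}) ≤ C e^{-(1-κ/8) s} G_0(w)` one unit below the start. -/
theorem u1F {κ : ℝ} (hM : OPM.{u}) (hκ : 0 < κ) (h : U1U hM hκ) :
    ∃ C : ℝ, 0 < C ∧ ∀ (Ω : Type u) (m : MeasurableSpace Ω) (P : Measure Ω)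
      [IsProbabilityMeasure P] (Fl : Filtration ℝ≥0 m) (B : ℝ≥0 → Ω → ℝ) (hB : IsBM Fl B P) (w : ℂ)
      (hw : 0 < w.im) (s : ℝ), -Real.log w.im + 1 ≤ s →
      P ((oneP hM hB hκ hw).alive s) ≤
        ENNReal.ofReal (C * Real.exp (-((1 - κ / 8) * s)) * UB.green κ w) := by
  obtain ⟨C, hC, h⟩ := h
  refine ⟨(C + 1) * Real.exp (1 - κ / 8), by positivity, ?_⟩
  intro Ω m P _ Fl B hB w hw s hs
  have h2 := alive_le (oneP hM hB hκ hw) hκ hC (h Ω m P Fl B hB w hw) hs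
  have hG : ∫⁻ ω, ENNReal.ofReal (Gl (oneP hM hB hκ hw) (-Real.log w.im) ω) ∂P =
      ENNReal.ofReal (UB.green κ w) := by
    simp only [Gl_start hM hB hκ hw, lintegral_const, measure_univ, mul_one, UB.green]
  rw [hG, ← ENNReal.ofReal_mul (by positivity)] at h2
  refine h2.trans (ENNReal.ofReal_le_ofReal ?_)
  have hg : 0 ≤ UB.green κ w := by
    unfold UB.green
    positivity
  have e1 : Real.exp (-((1 - κ / 8) * (s - 1))) =
      Real.exp (1 - κ / 8) * Real.exp (-((1 - κ / 8) * s)) := by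
    rw [← Real.exp_add]
    congr 1
    ring
  rw [e1]
  have e2 : 0 ≤ Real.exp (1 - κ / 8) * Real.exp (-((1 - κ / 8) * s)) := by positivity
  have e3 : C ≤ C + 1 := by linarith
  calc C * (Real.exp (1 - κ / 8) * Real.exp (-((1 - κ / 8) * s))) * UB.green κ w
      ≤ (C + 1) * (Real.exp (1 - κ / 8) * Real.exp (-((1 - κ / 8) * s))) * UB.green κ w := by
        gcongr
    _ = _ := by ring

end Crest.Agent.R162.LB7U1
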