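import Mathlib

/-!
Row 162, node LB7b (abstract part): change of weight and the union bound over annuli and grids.
Everything in `lintegral` form; the bad events need not be measurable.
-/

set_option autoImplicit false

open MeasureTheory
open scoped ENNReal

namespace Crest.Agent.R162.LB7

variable {Ω : Type*} {m0 : MeasurableSpace Ω} {P : Measure Ω}

theorem min_le_rpow (a b : ℝ≥0∞) {ε : ℝ} (hε0 : 0 ≤ ε) (hε1 : ε ≤ 1) :
    min a b ≤ a ^ (1 - ε) * b ^ ε := by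
  have h : ∀ x : ℝ≥0∞, x = x ^ (1 - ε) * x ^ ε := by
    intro x
    rw [← ENNReal.rpow_add_of_nonneg _ _ (by linarith) hε0]
    simp
  rcases le_total a b with hab | hab
  · rw [min_eq_left hab]
    calc a = a ^ (1 - ε) * a ^ ε := h a
      _ ≤ a ^ (1 - ε) * b ^ ε := by gcongr
  · rw [min_eq_right hab]
    calc b = b ^ (1 - ε) * b ^ ε := h b
      _ ≤ a ^ (1 - ε) * b ^ ε := by gcongr

/-- **Change of weight.** `gs` is the weight at `σ`, `gj` the weight at `σ_j ≤ σ`. -/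
theorem weight {gs gj : Ω → ℝ≥0∞} {E : Set Ω} {gmax p : ℝ≥0∞} {ε : ℝ}
    (hε0 : 0 < ε) (hε1 : ε < 1) (hgmax : gmax ≠ ⊤) (hp : p ≠ ⊤)
    (hgsm : ∀ ω, gs ω ≤ gmax) (hgjm : Measurable gj)
    (h1 : ∫⁻ ω in {ω | gj ω ≤ gmax * p}, gs ω ∂P ≤ ∫⁻ ω in {ω | gj ω ≤ gmax * p}, gj ω ∂P)
    (h2 : P (E ∩ {ω | gj ω ≤ gmax * p}ᶜ) ≤ p * P {ω | gj ω ≤ gmax * p}ᶜ) :
    ∫⁻ ω in E, gs ω ∂P ≤ (gmax * p) ^ ε * ∫⁻ ω, gj ω ^ (1 - ε) ∂P := by
  set A : Set Ω := {ω | gj ω ≤ gmax * p} with hA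
  have hAm : MeasurableSet A := measurableSet_le hgjm measurable_const
  have hsplit : ∫⁻ ω in E, gs ω ∂P = ∫⁻ ω in E ∩ A, gs ω ∂P + ∫⁻ ω in E \ A, gs ω ∂P :=
    (lintegral_inter_add_sdiff _ _ hAm).symm
  have hI : ∫⁻ ω in E ∩ A, gs ω ∂P ≤ ∫⁻ ω in A, gj ω ∂P :=
    (lintegral_mono_set Set.inter_subset_right).trans h1
  have hII : ∫⁻ ω in E \ A, gs ω ∂P ≤ ∫⁻ ω in Aᶜ, gmax * p ∂P := by
    calc ∫⁻ ω in E \ A, gs ω ∂P ≤ ∫⁻ _ in E \ A, gmax ∂P := lintegral_mono fun ω => hgsm ω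
      _ = gmax * P (E ∩ Aᶜ) := by
        rw [setLIntegral_const, Set.sdiff_eq]
      _ ≤ gmax * (p * P Aᶜ) := by gcongr
      _ = ∫⁻ ω in Aᶜ, gmax * p ∂P := by rw [setLIntegral_const, mul_assoc]
  have hmin : ∫⁻ ω in A, gj ω ∂P + ∫⁻ ω in Aᶜ, gmax * p ∂P = ∫⁻ ω, min (gj ω) (gmax * p) ∂P := by
    rw [← lintegral_add_compl (fun ω => min (gj ω) (gmax * p)) hAm]
    congr 1
    · refine setLIntegral_congr_fun hAm fun ω hω => ?_
      exact (min_eq_left hω).symm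
    · refine setLIntegral_congr_fun hAm.compl fun ω hω => ?_
      have : gmax * p ≤ gj ω := le_of_lt (by simpa [hA] using hω)
      exact (min_eq_right this).symm
  calc ∫⁻ ω in E, gs ω ∂P = ∫⁻ ω in E ∩ A, gs ω ∂P + ∫⁻ ω in E \ A, gs ω ∂P := hsplit
    _ ≤ ∫⁻ ω in A, gj ω ∂P + ∫⁻ ω in Aᶜ, gmax * p ∂P := add_le_add hI hII
    _ = ∫⁻ ω, min (gj ω) (gmax * p) ∂P := hmin
    _ ≤ ∫⁻ ω, gj ω ^ (1 - ε) * (gmax * p) ^ ε ∂P :=
        lintegral_mono fun ω => min_le_rpow _ _ hε0.le hε1.le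
    _ = (∫⁻ ω, gj ω ^ (1 - ε) ∂P) * (gmax * p) ^ ε := by
        rw [lintegral_mul_const' _ _ (ENNReal.rpow_ne_top_of_nonneg hε0.le
          (ENNReal.mul_ne_top hgmax hp))]
    _ = (gmax * p) ^ ε * ∫⁻ ω, gj ω ^ (1 - ε) ∂P := mul_comm _ _

/-- the numerical series -/
theorem series {ε lam CA N K1 : ℝ} (hε0 : 0 < ε) (hε1 : ε < 1) (hlam : 0 < lam)
    (hCA : 3 ≤ ε * lam * CA) (hN : 0 ≤ N) (hK1 : 0 ≤ K1) :
    ∑' jm : ℕ × ℕ, ENNReal.ofReal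
      ((2 : ℝ) ^ jm.1 * (K1 * Real.exp (2 * jm.2) * Real.exp (-(lam * CA * (N + jm.1 + jm.2)))) ^ ε)
      ≤ ENNReal.ofReal (4 * K1 ^ ε * Real.exp (-2 * N)) := by
  have hb : ∀ jm : ℕ × ℕ,
      (2 : ℝ) ^ jm.1 * (K1 * Real.exp (2 * jm.2) * Real.exp (-(lam * CA * (N + jm.1 + jm.2)))) ^ ε
      ≤ K1 ^ ε * Real.exp (-2 * N) * ((1 / 2 : ℝ) ^ jm.1 * (1 / 2 : ℝ) ^ jm.2) := by
    rintro ⟨j, m⟩
    simp only
    have e1 : (K1 * Real.exp (2 * m) * Real.exp (-(lam * CA * (N + j + m)))) ^ ε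
        = K1 ^ ε * Real.exp (ε * (2 * m - lam * CA * (N + j + m))) := by
      rw [mul_assoc, ← Real.exp_add, Real.mul_rpow hK1 (Real.exp_pos _).le, ← Real.exp_mul]
      congr 2; ring
    rw [e1]
    have hj : (0 : ℝ) ≤ j := Nat.cast_nonneg j
    have hm : (0 : ℝ) ≤ m := Nat.cast_nonneg m
    have l2 : Real.log 2 ≤ 1 := by
      have := Real.log_two_lt_d9; linarith
    have l20 : 0 ≤ Real.log 2 := Real.log_nonneg (by norm_num)
    have h2j : (2 : ℝ) ^ j = Real.exp (Real.log 2 * j) := by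
      rw [mul_comm, Real.exp_nat_mul, Real.exp_log (by norm_num)]
    have hhj : (1 / 2 : ℝ) ^ j = Real.exp (-(Real.log 2 * j)) := by
      rw [one_div, inv_pow, h2j, Real.exp_neg]
    have hhm : (1 / 2 : ℝ) ^ m = Real.exp (-(Real.log 2 * m)) := by
      rw [one_div, inv_pow, Real.exp_neg, mul_comm (Real.log 2), Real.exp_nat_mul,
        Real.exp_log (by norm_num)]
    rw [h2j, hhj, hhm, ← Real.exp_add, mul_assoc (K1 ^ ε), ← Real.exp_add,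
      mul_left_comm, ← Real.exp_add]
    refine mul_le_mul_of_nonneg_left (Real.exp_le_exp.mpr ?_) (Real.rpow_nonneg hK1 _)
    have hs : 0 ≤ N + j + m := by positivity
    have h3 : 3 * (N + j + m) ≤ ε * lam * CA * (N + j + m) :=
      mul_le_mul_of_nonneg_right hCA hs
    have h4 : ε * (2 * m) ≤ 2 * m := by nlinarith
    nlinarith [mul_nonneg l20 hj, mul_nonneg l20 hm, mul_le_mul_of_nonneg_right l2 hj,
      mul_le_mul_of_nonneg_right l2 hm]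
  calc _ ≤ ∑' jm : ℕ × ℕ, ENNReal.ofReal
        (K1 ^ ε * Real.exp (-2 * N) * ((1 / 2 : ℝ) ^ jm.1 * (1 / 2 : ℝ) ^ jm.2)) :=
      ENNReal.tsum_le_tsum fun jm => ENNReal.ofReal_le_ofReal (hb jm)
    _ = ∑' jm : ℕ × ℕ, ENNReal.ofReal (K1 ^ ε * Real.exp (-2 * N)) *
          ((ENNReal.ofReal (1 / 2)) ^ jm.1 * (ENNReal.ofReal (1 / 2)) ^ jm.2) := by
        congr 1; ext jm
        rw [ENNReal.ofReal_mul (show (0:ℝ) ≤ K1 ^ ε * Real.exp (-2 * N) by positivity),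
          ENNReal.ofReal_mul (show (0:ℝ) ≤ (1 / 2 : ℝ) ^ jm.1 by positivity),
          ENNReal.ofReal_pow (by norm_num), ENNReal.ofReal_pow (by norm_num)]
    _ = ENNReal.ofReal (K1 ^ ε * Real.exp (-2 * N)) * 4 := by
        rw [ENNReal.tsum_mul_left, ENNReal.tsum_prod
          (f := fun a b => ENNReal.ofReal (1 / 2) ^ a * ENNReal.ofReal (1 / 2) ^ b)]
        congr 1
        have hh : ENNReal.ofReal (1 / 2 : ℝ) = 2⁻¹ := by
          rw [one_div, ENNReal.ofReal_inv_of_pos (by norm_num)]; simp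
        simp_rw [hh, ENNReal.tsum_mul_left, ENNReal.tsum_mul_right, ENNReal.tsum_geometric]
        have : (1 - (2 : ℝ≥0∞)⁻¹)⁻¹ = 2 := by
          rw [ENNReal.one_sub_inv_two, inv_inv]
        rw [this]; norm_num
    _ = ENNReal.ofReal (4 * K1 ^ ε * Real.exp (-2 * N)) := by
        rw [show (4 : ℝ≥0∞) = ENNReal.ofReal 4 by simp, ← ENNReal.ofReal_mul (by positivity)]
        congr 1; ring

end Crest.Agent.R162.LB7
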