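import Mathlib

/-!
Row 162, node LB7c (and the interpolation step of LB7b), abstract measure theoretic form.
-/

set_option autoImplicit false

open MeasureTheory Filter Topology Set
open scoped ENNReal NNReal

namespace Crest.Agent.R162.LB7c

variable {Ω : Type*} [MeasurableSpace Ω] {P : Measure Ω}

/-- `min (x, y) ≤ x ^ (1 - e) y ^ e`. -/
lemma min_le_rpow_mul_rpow (x y : ℝ≥0∞) {e : ℝ} (he0 : 0 ≤ e) (he1 : e ≤ 1) :
    min x y ≤ x ^ (1 - e) * y ^ e := by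
  calc min x y = (min x y) ^ ((1 - e) + e) := by simp
    _ = (min x y) ^ (1 - e) * (min x y) ^ e :=
        ENNReal.rpow_add_of_nonneg _ _ (by linarith) he0
    _ ≤ x ^ (1 - e) * y ^ e := by
        gcongr
        · exact min_le_left _ _
        · exact min_le_right _ _

/-- **Interpolation between the two bounds of a weighted event.**  `X` is the weight at the later
time, `Y` the weight at the earlier time, `E` the bad event; only the two events `{Y ≤ M p}` and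
`{M p < Y}` of the earlier `σ`-algebra are used. -/
theorem interp (X Y : Ω → ℝ≥0∞) (hY : Measurable Y) (E : Set Ω) (M p : ℝ≥0∞)
    (hXM : ∀ ω, X ω ≤ M)
    (h1 : ∫⁻ ω in {ω | Y ω ≤ M * p}, X ω ∂P ≤ ∫⁻ ω in {ω | Y ω ≤ M * p}, Y ω ∂P)
    (h2 : P (E ∩ {ω | M * p < Y ω}) ≤ p * P {ω | M * p < Y ω})
    {e : ℝ} (he0 : 0 ≤ e) (he1 : e ≤ 1) :
    ∫⁻ ω in E, X ω ∂P ≤ (M * p) ^ e * ∫⁻ ω, (Y ω) ^ (1 - e) ∂P := by
  have hA1 : MeasurableSet {ω | Y ω ≤ M * p} := measurableSet_le hY measurable_const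
  have hA2 : MeasurableSet {ω | M * p < Y ω} := measurableSet_lt measurable_const hY
  have hsub : E ⊆ {ω | Y ω ≤ M * p} ∪ (E ∩ {ω | M * p < Y ω}) := by
    intro ω hω
    rcases le_or_gt (Y ω) (M * p) with h | h
    · exact Or.inl h
    · exact Or.inr ⟨hω, h⟩
  have hmin : ∫⁻ ω, min (Y ω) (M * p) ∂P =
      ∫⁻ ω in {ω | Y ω ≤ M * p}, Y ω ∂P + M * p * P {ω | M * p < Y ω} := by
    have hc : {ω | M * p < Y ω} = {ω | Y ω ≤ M * p}ᶜ := by ext ω; simp
    rw [← lintegral_add_compl _ hA1, ← hc]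
    congr 1
    · refine setLIntegral_congr_fun hA1 fun ω hω => ?_
      exact min_eq_left hω
    · rw [← setLIntegral_const]
      refine setLIntegral_congr_fun hA2 fun ω hω => ?_
      exact min_eq_right (le_of_lt hω)
  calc ∫⁻ ω in E, X ω ∂P
      ≤ ∫⁻ ω in {ω | Y ω ≤ M * p} ∪ (E ∩ {ω | M * p < Y ω}), X ω ∂P :=
        lintegral_mono_set hsub
    _ ≤ ∫⁻ ω in {ω | Y ω ≤ M * p}, X ω ∂P + ∫⁻ ω in E ∩ {ω | M * p < Y ω}, X ω ∂P :=
        lintegral_union_le _ _ _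
    _ ≤ ∫⁻ ω in {ω | Y ω ≤ M * p}, Y ω ∂P + M * (p * P {ω | M * p < Y ω}) := by
        gcongr
        calc ∫⁻ ω in E ∩ {ω | M * p < Y ω}, X ω ∂P
            ≤ ∫⁻ _ in E ∩ {ω | M * p < Y ω}, M ∂P := lintegral_mono fun ω => hXM ω
          _ = M * P (E ∩ {ω | M * p < Y ω}) := setLIntegral_const _ _
          _ ≤ M * (p * P {ω | M * p < Y ω}) := by gcongr
    _ = ∫⁻ ω, min (Y ω) (M * p) ∂P := by rw [hmin, mul_assoc]
    _ ≤ ∫⁻ ω, (Y ω) ^ (1 - e) * (M * p) ^ e ∂P :=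
        lintegral_mono fun ω => min_le_rpow_mul_rpow _ _ he0 he1
    _ = (M * p) ^ e * ∫⁻ ω, (Y ω) ^ (1 - e) ∂P := by
        rw [lintegral_mul_const _ (hY.pow_const _), mul_comm]

/-- interpolation, with the value of `∫ Y ^ (1-e)` bounded through a second weight `Z`. -/
theorem interp_le (X Y Z : Ω → ℝ≥0∞) (hY : Measurable Y) (E : Set Ω) (M p L G : ℝ≥0∞)
    (hXM : ∀ ω, X ω ≤ M)
    (h1 : ∫⁻ ω in {ω | Y ω ≤ M * p}, X ω ∂P ≤ ∫⁻ ω in {ω | Y ω ≤ M * p}, Y ω ∂P)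
    (h2 : P (E ∩ {ω | M * p < Y ω}) ≤ p * P {ω | M * p < Y ω})
    {e : ℝ} (he0 : 0 ≤ e) (he1 : e ≤ 1)
    (hYZ : ∀ ω, (Y ω) ^ (1 - e) ≤ L * Z ω) (hL : L ≠ ⊤) (hZ : ∫⁻ ω, Z ω ∂P ≤ G) :
    ∫⁻ ω in E, X ω ∂P ≤ (M * p) ^ e * (L * G) := by
  refine (interp X Y hY E M p hXM h1 h2 he0 he1).trans ?_
  gcongr
  calc ∫⁻ ω, (Y ω) ^ (1 - e) ∂P ≤ ∫⁻ ω, L * Z ω ∂P := lintegral_mono hYZ
    _ = L * ∫⁻ ω, Z ω ∂P := lintegral_const_mul' _ _ hL
    _ ≤ L * G := by gcongr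

/-- pointwise: above the level `t`, `x ≤ (2/c) exp (c x) exp (- c t / 2)`. -/
lemma le_exp_tail {c x t : ℝ} (hc : 0 < c) (hx : t ≤ x) :
    x ≤ 2 / c * Real.exp (-(c * t / 2)) * Real.exp (c * x) := by
  have h1 : c * x / 2 ≤ Real.exp (c * x / 2) := by
    have := Real.add_one_le_exp (c * x / 2)
    linarith
  have h2 : Real.exp (c * x / 2) ≤ Real.exp (-(c * t / 2)) * Real.exp (c * x) := by
    rw [← Real.exp_add]
    refine Real.exp_le_exp.2 ?_
    have : c * t ≤ c * x := by gcongr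
    linarith
  calc x = 2 / c * (c * x / 2) := by field_simp
    _ ≤ 2 / c * (Real.exp (-(c * t / 2)) * Real.exp (c * x)) := by
        have : 0 < 2 / c := by positivity
        gcongr
        exact h1.trans h2
    _ = _ := by ring

/-- **The tail of the mass** (LB7c): exponential moment on the good event `A`, first moment on the
bad event `B`, no mass elsewhere. -/
theorem tail_bound (μ : Ω → ℝ) (hμ : Measurable μ) (A B : Set Ω)
    (h0 : ∀ᵐ ω ∂P, ω ∉ A → ω ∉ B → μ ω = 0)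
    {c N D K Cμ : ℝ} (hc : 0 < c) (hN : 0 ≤ N) (hCμ : 0 ≤ Cμ)
    (hexp : ∫⁻ ω in A, ENNReal.ofReal (Real.exp (c * μ ω)) ∂P ≤
      ENNReal.ofReal (D * Real.exp (K * N)))
    {b : ℝ≥0∞} (hB : ∫⁻ ω in B, ENNReal.ofReal (μ ω) ∂P ≤ b) :
    ∫⁻ ω in {ω | Cμ * N < μ ω}, ENNReal.ofReal (μ ω) ∂P ≤
      ENNReal.ofReal (2 / c * D * Real.exp ((K - c * Cμ / 2) * N)) + b := by
  have hS : MeasurableSet {ω | Cμ * N < μ ω} := measurableSet_lt measurable_const hμ
  have hae : {ω | Cμ * N < μ ω} ≤ᵐ[P] ((A ∩ {ω | Cμ * N < μ ω}) ∪ B : Set Ω) := by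
    filter_upwards [h0] with ω hω hω2
    by_cases hA : ω ∈ A
    · exact Or.inl ⟨hA, hω2⟩
    · by_cases hB : ω ∈ B
      · exact Or.inr hB
      · exfalso
        have h3 := hω hA hB
        have h4 : Cμ * N < μ ω := hω2
        have : 0 ≤ Cμ * N := by positivity
        linarith
  have hcoef : 0 ≤ 2 / c * Real.exp (-(c * (Cμ * N) / 2)) := by positivity
  calc ∫⁻ ω in {ω | Cμ * N < μ ω}, ENNReal.ofReal (μ ω) ∂P
      ≤ ∫⁻ ω in (A ∩ {ω | Cμ * N < μ ω}) ∪ B, ENNReal.ofReal (μ ω) ∂P :=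
        lintegral_mono' (Measure.restrict_mono_ae hae) le_rfl
    _ ≤ ∫⁻ ω in A ∩ {ω | Cμ * N < μ ω}, ENNReal.ofReal (μ ω) ∂P +
        ∫⁻ ω in B, ENNReal.ofReal (μ ω) ∂P := lintegral_union_le _ _ _
    _ ≤ ∫⁻ ω in A, ENNReal.ofReal (2 / c * Real.exp (-(c * (Cμ * N) / 2))) *
          ENNReal.ofReal (Real.exp (c * μ ω)) ∂P + b := by
        refine add_le_add ?_ hB
        have e1 : ∫⁻ ω in A ∩ {ω | Cμ * N < μ ω}, ENNReal.ofReal (μ ω) ∂P =
            ∫⁻ ω in {ω | Cμ * N < μ ω}, ENNReal.ofReal (μ ω) ∂(P.restrict A) := by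
          rw [Measure.restrict_restrict hS, inter_comm]
        rw [e1, ← lintegral_indicator hS]
        refine lintegral_mono fun ω => ?_
        by_cases h : ω ∈ {ω | Cμ * N < μ ω}
        · rw [indicator_of_mem h, ← ENNReal.ofReal_mul hcoef]
          exact ENNReal.ofReal_le_ofReal (le_exp_tail hc (le_of_lt h))
        · rw [indicator_of_notMem h]
          exact bot_le
    _ = ENNReal.ofReal (2 / c * Real.exp (-(c * (Cμ * N) / 2))) *
          ∫⁻ ω in A, ENNReal.ofReal (Real.exp (c * μ ω)) ∂P + b := by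
        rw [lintegral_const_mul' _ _ ENNReal.ofReal_ne_top]
    _ ≤ ENNReal.ofReal (2 / c * Real.exp (-(c * (Cμ * N) / 2))) *
          ENNReal.ofReal (D * Real.exp (K * N)) + b := by gcongr
    _ = ENNReal.ofReal (2 / c * D * Real.exp ((K - c * Cμ / 2) * N)) + b := by
        rw [← ENNReal.ofReal_mul hcoef]
        congr 2
        have : (K - c * Cμ / 2) * N = -(c * (Cμ * N) / 2) + K * N := by ring
        rw [this, Real.exp_add]
        ring

lemma tsum_exp_neg_le : ∑' j : ℕ, ENNReal.ofReal (Real.exp (-(j : ℝ))) ≤ 2 := by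
  have h : ∀ j : ℕ, ENNReal.ofReal (Real.exp (-(j : ℝ))) =
      (ENNReal.ofReal (Real.exp (-1))) ^ j := by
    intro j
    rw [← ENNReal.ofReal_pow (Real.exp_pos _).le, ← Real.exp_nat_mul]
    congr 2
    ring
  rw [tsum_congr h, ENNReal.tsum_geometric]
  have h2 : ENNReal.ofReal (Real.exp (-1)) ≤ 1 / 2 := by
    have h3 : Real.exp (-1) ≤ 1 / 2 := by
      rw [Real.exp_neg, one_div]
      have := Real.add_one_le_exp (1 : ℝ)
      exact inv_anti₀ (by norm_num) (by linarith)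
    calc ENNReal.ofReal (Real.exp (-1)) ≤ ENNReal.ofReal (1 / 2) := ENNReal.ofReal_le_ofReal h3
      _ = 1 / 2 := by
          rw [ENNReal.ofReal_div_of_pos (by norm_num)]; norm_num
  have h4 : (1 / 2 : ℝ≥0∞) ≤ 1 - ENNReal.ofReal (Real.exp (-1)) := by
    refine ENNReal.le_sub_of_add_le_left ENNReal.ofReal_ne_top ?_
    calc ENNReal.ofReal (Real.exp (-1)) + 1 / 2 ≤ 1 / 2 + 1 / 2 := by gcongr
      _ = 1 := ENNReal.add_halves 1
  calc (1 - ENNReal.ofReal (Real.exp (-1)))⁻¹ ≤ (1 / 2 : ℝ≥0∞)⁻¹ := ENNReal.inv_le_inv.2 h4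
    _ = 2 := by simp

/-- **The weighted union bound over annuli `j`, levels `m` and grid points.** -/
theorem union_bound {ι : Type*} (X : Ω → ℝ≥0∞) (E : ℕ → ℕ → ι → Set Ω)
    (grid : ℕ → ℕ → Finset ι) {Cg C1 N a : ℝ} (hCg : 0 ≤ Cg) (hC1 : 0 ≤ C1) (hN : 0 ≤ N)
    (ha : 4 ≤ a) (hcard : ∀ j m, ((grid j m).card : ℝ) ≤ Cg * Real.exp (2 * m)) (G : ℝ≥0∞)
    (hE : ∀ j m, ∀ w ∈ grid j m, ∫⁻ ω in E j m w, X ω ∂P ≤
      ENNReal.ofReal (C1 * Real.exp j * Real.exp (-(a * (N + j + m)))) * G) :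
    ∫⁻ ω in ⋃ j, ⋃ m, ⋃ w ∈ grid j m, E j m w, X ω ∂P ≤
      ENNReal.ofReal (4 * (Cg * C1) * Real.exp (-(2 * N))) * G := by
  classical
  have hnum : ∀ j m : ℕ, Real.exp (2 * m) * (Real.exp j * Real.exp (-(a * (N + j + m)))) ≤
      Real.exp (-(2 * N)) * (Real.exp (-(j : ℝ)) * Real.exp (-(m : ℝ))) := by
    intro j m
    rw [← Real.exp_add, ← Real.exp_add, ← Real.exp_add, ← Real.exp_add]
    refine Real.exp_le_exp.2 ?_
    have hj : (0 : ℝ) ≤ j := Nat.cast_nonneg j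
    have hm : (0 : ℝ) ≤ m := Nat.cast_nonneg m
    nlinarith [mul_nonneg (sub_nonneg.2 ha) (show (0 : ℝ) ≤ N + j + m by linarith)]
  have hjm : ∀ j m : ℕ, ∫⁻ ω in ⋃ w ∈ grid j m, E j m w, X ω ∂P ≤
      ENNReal.ofReal (Cg * C1 * Real.exp (-(2 * N))) * G *
        (ENNReal.ofReal (Real.exp (-(j : ℝ))) * ENNReal.ofReal (Real.exp (-(m : ℝ)))) := by
    intro j m
    calc ∫⁻ ω in ⋃ w ∈ grid j m, E j m w, X ω ∂P
        ≤ ∑ w ∈ grid j m, ∫⁻ ω in E j m w, X ω ∂P := by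
          induction grid j m using Finset.induction_on with
          | empty => simp
          | insert w s hw ih =>
            rw [Finset.sum_insert hw, Finset.set_biUnion_insert]
            exact (lintegral_union_le _ _ _).trans (by gcongr)
      _ ≤ ∑ _w ∈ grid j m,
          ENNReal.ofReal (C1 * Real.exp j * Real.exp (-(a * (N + j + m)))) * G :=
          Finset.sum_le_sum fun w hw => hE j m w hw
      _ = ((grid j m).card : ℝ≥0∞) *
          (ENNReal.ofReal (C1 * Real.exp j * Real.exp (-(a * (N + j + m)))) * G) := by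
          rw [Finset.sum_const, nsmul_eq_mul]
      _ ≤ ENNReal.ofReal (Cg * Real.exp (2 * m)) *
          (ENNReal.ofReal (C1 * Real.exp j * Real.exp (-(a * (N + j + m)))) * G) := by
          gcongr
          rw [← ENNReal.ofReal_natCast]
          exact ENNReal.ofReal_le_ofReal (hcard j m)
      _ = ENNReal.ofReal (Cg * C1 *
            (Real.exp (2 * m) * (Real.exp j * Real.exp (-(a * (N + j + m)))))) * G := by
          rw [← mul_assoc, ← ENNReal.ofReal_mul (by positivity)]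
          congr 2
          ring
      _ ≤ ENNReal.ofReal (Cg * C1 *
            (Real.exp (-(2 * N)) * (Real.exp (-(j : ℝ)) * Real.exp (-(m : ℝ))))) * G := by
          gcongr ENNReal.ofReal ?_ * G
          exact mul_le_mul_of_nonneg_left (hnum j m) (by positivity)
      _ = _ := by
          rw [show Cg * C1 * (Real.exp (-(2 * N)) * (Real.exp (-(j : ℝ)) * Real.exp (-(m : ℝ))))
            = (Cg * C1 * Real.exp (-(2 * N))) * (Real.exp (-(j : ℝ)) * Real.exp (-(m : ℝ))) by ring,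
            ENNReal.ofReal_mul (by positivity), ENNReal.ofReal_mul (Real.exp_pos _).le]
          ring
  calc ∫⁻ ω in ⋃ j, ⋃ m, ⋃ w ∈ grid j m, E j m w, X ω ∂P
      ≤ ∑' j, ∫⁻ ω in ⋃ m, ⋃ w ∈ grid j m, E j m w, X ω ∂P := lintegral_iUnion_le _ _
    _ ≤ ∑' j, ∑' m, ∫⁻ ω in ⋃ w ∈ grid j m, E j m w, X ω ∂P :=
        ENNReal.tsum_le_tsum fun j => lintegral_iUnion_le _ _
    _ ≤ ∑' (j : ℕ), ∑' (m : ℕ), ENNReal.ofReal (Cg * C1 * Real.exp (-(2 * N))) * G *
        (ENNReal.ofReal (Real.exp (-(j : ℝ))) * ENNReal.ofReal (Real.exp (-(m : ℝ)))) :=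
        ENNReal.tsum_le_tsum fun j => ENNReal.tsum_le_tsum fun m => hjm j m
    _ = ENNReal.ofReal (Cg * C1 * Real.exp (-(2 * N))) * G *
        ((∑' j : ℕ, ENNReal.ofReal (Real.exp (-(j : ℝ)))) *
          ∑' m : ℕ, ENNReal.ofReal (Real.exp (-(m : ℝ)))) := by
        rw [← ENNReal.tsum_mul_right, ← ENNReal.tsum_mul_left]
        refine tsum_congr fun j => ?_
        rw [← ENNReal.tsum_mul_left, ← ENNReal.tsum_mul_left]
    _ ≤ ENNReal.ofReal (Cg * C1 * Real.exp (-(2 * N))) * G * (2 * 2) := by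
        gcongr
        · exact tsum_exp_neg_le
        · exact tsum_exp_neg_le
    _ = ENNReal.ofReal (4 * (Cg * C1) * Real.exp (-(2 * N))) * G := by
        rw [show 4 * (Cg * C1) * Real.exp (-(2 * N)) = (Cg * C1 * Real.exp (-(2 * N))) * 4 by ring,
          ENNReal.ofReal_mul (q := 4) (by positivity)]
        have : ENNReal.ofReal 4 = 4 := by norm_num
        rw [this]
        ring

end Crest.Agent.R162.LB7c
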