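import Crest.Agent.R162.UD
import Crest.Agent.R162.KB1H
import Crest.Agent.R162.LBDefs

/-!
Row 162, node LB7c, deterministic part: (D1) content near `w₀` forces `w₀` to be reached,
(D2) comparison of the Green's function near `w₀`.
-/

set_option autoImplicit false

open Set MeasureTheory Filter Topology
open scoped ENNReal NNReal

namespace Crest.Agent.R162.LB7near

open Crest.Agent.R162.FL Crest.Agent.R162.OP Crest.Agent.R162.KB1

variable {W : ℝ → ℝ} {w w0 z : ℂ} {R t : ℝ}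

/-- `hd` of the images, from the distance in the domain -/
lemma hd_le_of_near (hW : ContinuousOn W (Ici 0)) (hw : Alive W w t) (hw0 : Alive W w0 t)
    {δ : ℝ} (hδ1 : δ < 1) (h : 5 * ‖w - w0‖ ≤ δ * OP.ups W t w0) :
    hd (Zfl W t w0) (Zfl W t w) ≤ δ := by
  have hf := FLC.differentiableOn_ffl hW hw.1
  have hi := FLC.injOn_ffl hW hw.1
  have h1 := ups_min_le_norm_sub hf hi (Zfl_im_pos hw0) (Zfl_im_pos hw)
  rw [FLC.ffl_Zfl hW hw, FLC.ffl_Zfl hW hw0] at h1
  have h2 : KB1.ups (ffl W t) (Zfl W t w0) = OP.ups W t w0 := by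
    rw [UD.ups_eq_ffl hW hw0]; rfl
  rw [h2] at h1
  have hpos := UD.ups_pos hW hw0
  have h3 : min 1 (hd (Zfl W t w0) (Zfl W t w)) ≤ δ := by
    by_contra hc
    have hc' := not_le.1 hc
    have : δ * OP.ups W t w0 < OP.ups W t w0 * min 1 (hd (Zfl W t w0) (Zfl W t w)) := by
      rw [mul_comm]; exact mul_lt_mul_of_pos_left hc' hpos
    linarith
  rcases min_le_iff.1 h3 with h4 | h4
  · linarith
  · exact h4

/-- (D1) if a point `w` near `w₀` has small conformal radius at time `t`, then `w₀` has been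
reached before `t`. -/
theorem reach_of_near (hW : ContinuousOn W (Ici 0)) (hw : Alive W w t)
    (h0 : 0 < w0.im) (hd : ‖w - w0‖ ≤ R) (hu : OP.ups W t w ≤ R) :
    ∃ s, 0 ≤ s ∧ s ≤ t ∧ Alive W w0 s ∧ OP.ups W s w0 ≤ 6 * R := by
  by_contra hcon
  push Not at hcon
  have ht := hw.1
  have hal : Alive W w0 t := by
    refine alive_of_apriori hW h0 ht
      (δ := (gfl W t w).im * Real.exp (-1)) (mul_pos (gfl_im_pos hw) (Real.exp_pos _)) ?_
    intro s hs hst ha
    have hws : Alive W w s := hw.mono hs hst.le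
    have h1 := hcon s hs hst.le ha
    have h2 : KB1.hd (Zfl W s w0) (Zfl W s w) ≤ 5 / 6 := by
      refine hd_le_of_near hW hws ha (by norm_num) ?_
      linarith
    have h3 := (abs_le.1 ((abs_log_im_le_hd (Zfl_im_pos ha) (Zfl_im_pos hws)).trans h2)).1
    rw [Zfl_im, Zfl_im] at h3
    have h4 : Real.log ((gfl W s w).im * Real.exp (-1)) ≤ Real.log (gfl W s w0).im := by
      rw [Real.log_mul (gfl_im_pos hws).ne' (Real.exp_pos _).ne', Real.log_exp]
      linarith
    have h5 := (Real.log_le_log_iff (mul_pos (gfl_im_pos hws) (Real.exp_pos _))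
      (gfl_im_pos ha)).1 h4
    refine le_trans ?_ h5
    have := im_anti hw hs hst.le
    gcongr
  have h1 := hcon t ht le_rfl hal
  have h2 := UD.udStmt W w0 w t hW hal hw
  rw [norm_sub_rev] at h2
  linarith

/-- comparison of the moduli at hyperbolic distance `≤ 5/6` -/
lemma norm_le_four {p q : ℂ} (hp : 0 < p.im) (hq : 0 < q.im) (h : hd p q ≤ 5 / 6) :
    ‖p‖ ≤ 4 * ‖q‖ := by
  have hs : 0 < √(p.im * q.im) := Real.sqrt_pos.2 (mul_pos hp hq)
  have h1 : Real.arsinh (‖p - q‖ / (2 * √(p.im * q.im))) ≤ 5 / 12 := by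
    unfold hd at h; linarith
  have h2 : ‖p - q‖ / (2 * √(p.im * q.im)) ≤ Real.sinh (5 / 12) := by
    have := Real.sinh_le_sinh.2 h1
    rwa [Real.sinh_arsinh] at this
  have h3 : Real.sinh (5 / 12) ≤ 3 / 5 := by
    rw [Real.sinh_eq]
    have e1 : Real.exp (5 / 12) ≤ 12 / 7 := by
      have := Real.add_one_le_exp (-(5 / 12 : ℝ))
      have h7 : (7 / 12 : ℝ) ≤ Real.exp (-(5 / 12)) := by linarith
      have h8 : Real.exp (5 / 12) * Real.exp (-(5 / 12)) = 1 := by rw [← Real.exp_add]; simp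
      have h9 := Real.exp_pos (5 / 12)
      nlinarith
    have e2 : (7 / 12 : ℝ) ≤ Real.exp (-(5 / 12)) := by
      have := Real.add_one_le_exp (-(5 / 12 : ℝ)); linarith
    linarith
  have h4 : ‖p - q‖ ≤ 6 / 5 * √(p.im * q.im) := by
    rw [div_le_iff₀ (by positivity)] at h2
    nlinarith
  have h5 : √(p.im * q.im) ≤ (‖p‖ + ‖q‖) / 2 := by
    have hp' : p.im ≤ ‖p‖ := (le_abs_self _).trans (Complex.abs_im_le_norm p)
    have hq' : q.im ≤ ‖q‖ := (le_abs_self _).trans (Complex.abs_im_le_norm q)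
    rw [Real.sqrt_le_left (by positivity)]
    nlinarith [sq_nonneg (p.im - q.im)]
  have h6 : ‖p‖ ≤ ‖q‖ + ‖p - q‖ := by
    have := norm_add_le q (p - q)
    simpa using this
  linarith

/-- (D2) the Green's function at time `t` is comparable on the ball where `w₀` has been seen at
distance `≥ 6 R`. -/
theorem gr_le_of_near {κ : ℝ} (hκ : 0 < κ) (hκ8 : κ < 8) (hW : ContinuousOn W (Ici 0))
    (hw0 : Alive W w0 t) (hd : ‖w - w0‖ ≤ R) (hu : 6 * R ≤ OP.ups W t w0) :
    gr κ W t w ≤ Real.exp 2 * (4 * Real.exp 1) ^ (8 / κ - 1) * gr κ W t w0 := by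
  have hb : 0 < 8 / κ - 1 := by
    have : 1 < 8 / κ := by rw [lt_div_iff₀ hκ]; linarith
    linarith
  have he : κ / 8 - 1 < 0 := by linarith
  have hup0 := UD.ups_pos hW hw0
  have hS0 : 0 < sfl W t w0 := div_pos (Zfl_im_pos hw0) (norm_pos_iff.2 (Zfl_ne_zero hw0))
  have hg0 : 0 ≤ gr κ W t w0 := by unfold gr; positivity
  by_cases hw : Alive W w t
  · have h1 : KB1.hd (Zfl W t w0) (Zfl W t w) ≤ 5 / 6 :=
      hd_le_of_near hW hw hw0 (by norm_num) (by linarith)
    have hup := UD.ups_pos hW hw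
    have hS : 0 < sfl W t w := div_pos (Zfl_im_pos hw) (norm_pos_iff.2 (Zfl_ne_zero hw))
    have h2 := exp_neg_le_ups (FLC.differentiableOn_ffl hW hw.1) (FLC.injOn_ffl hW hw.1)
      (Zfl_im_pos hw0) (Zfl_im_pos hw)
    have e1 : KB1.ups (ffl W t) (Zfl W t w0) = OP.ups W t w0 := by
      rw [UD.ups_eq_ffl hW hw0]; rfl
    have e2 : KB1.ups (ffl W t) (Zfl W t w) = OP.ups W t w := by
      rw [UD.ups_eq_ffl hW hw]; rfl
    rw [e1, e2] at h2
    have h3 : OP.ups W t w0 * Real.exp (-2) ≤ OP.ups W t w := by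
      refine le_trans ?_ h2
      gcongr
      linarith
    have h4 : OP.ups W t w ^ (κ / 8 - 1) ≤ Real.exp 2 * OP.ups W t w0 ^ (κ / 8 - 1) := by
      calc OP.ups W t w ^ (κ / 8 - 1) ≤ (OP.ups W t w0 * Real.exp (-2)) ^ (κ / 8 - 1) :=
            Real.rpow_le_rpow_of_nonpos (by positivity) h3 he.le
        _ = OP.ups W t w0 ^ (κ / 8 - 1) * Real.exp (-2) ^ (κ / 8 - 1) :=
            Real.mul_rpow hup0.le (Real.exp_pos _).le
        _ ≤ OP.ups W t w0 ^ (κ / 8 - 1) * Real.exp 2 := by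
            gcongr
            rw [← Real.exp_mul]
            refine Real.exp_le_exp.2 ?_
            nlinarith
        _ = _ := by ring
    have h5 : (Zfl W t w).im ≤ Real.exp 1 * (Zfl W t w0).im := by
      have h6 := (abs_le.1 ((abs_log_im_le_hd (Zfl_im_pos hw0) (Zfl_im_pos hw)).trans h1)).1
      have h7 : Real.log (Zfl W t w).im ≤ Real.log (Real.exp 1 * (Zfl W t w0).im) := by
        rw [Real.log_mul (Real.exp_pos _).ne' (Zfl_im_pos hw0).ne', Real.log_exp]
        linarith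
      exact (Real.log_le_log_iff (Zfl_im_pos hw)
        (mul_pos (Real.exp_pos _) (Zfl_im_pos hw0))).1 h7
    have h8 : ‖Zfl W t w0‖ ≤ 4 * ‖Zfl W t w‖ := norm_le_four (Zfl_im_pos hw0) (Zfl_im_pos hw) h1
    have hn : 0 < ‖Zfl W t w‖ := norm_pos_iff.2 (Zfl_ne_zero hw)
    have hn0 : 0 < ‖Zfl W t w0‖ := norm_pos_iff.2 (Zfl_ne_zero hw0)
    have h9 : sfl W t w ≤ 4 * Real.exp 1 * sfl W t w0 := by
      unfold sfl
      rw [div_le_iff₀ hn]
      calc (Zfl W t w).im ≤ Real.exp 1 * (Zfl W t w0).im := h5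
        _ = Real.exp 1 * ((Zfl W t w0).im / ‖Zfl W t w0‖) * ‖Zfl W t w0‖ := by
            field_simp
        _ ≤ Real.exp 1 * ((Zfl W t w0).im / ‖Zfl W t w0‖) * (4 * ‖Zfl W t w‖) := by
            have : 0 < (Zfl W t w0).im / ‖Zfl W t w0‖ := div_pos (Zfl_im_pos hw0) hn0
            gcongr
        _ = _ := by ring
    have h10 : sfl W t w ^ (8 / κ - 1) ≤
        (4 * Real.exp 1) ^ (8 / κ - 1) * sfl W t w0 ^ (8 / κ - 1) := by
      rw [← Real.mul_rpow (by positivity) hS0.le]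
      exact Real.rpow_le_rpow hS.le h9 hb.le
    unfold gr
    calc OP.ups W t w ^ (κ / 8 - 1) * sfl W t w ^ (8 / κ - 1)
        ≤ (Real.exp 2 * OP.ups W t w0 ^ (κ / 8 - 1)) *
          ((4 * Real.exp 1) ^ (8 / κ - 1) * sfl W t w0 ^ (8 / κ - 1)) := by
          gcongr
      _ = _ := by ring
  · have : gr κ W t w = 0 := by
      unfold gr
      rw [LB.ups_of_dead hw, Real.zero_rpow he.ne, zero_mul]
    rw [this]
    positivity

end Crest.Agent.R162.LB7near
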