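import Crest.Agent.R162.LB7c
import Crest.Agent.R162.LB7near
import Crest.Agent.R162.OS
import Crest.Agent.R162.LBSkel

/-!
Row 162, node LB7c: the tail of the content mass of a ball, from the exponential bound, the
first-moment bound of the content, the hitting estimate and LB7b.
-/

set_option autoImplicit false

open Set MeasureTheory Filter Topology Metric
open scoped ENNReal NNReal

namespace Crest.Agent.R162.LB7cI

open Crest.Agent.R162.FL Crest.Agent.R162.OP Crest.Agent.R162.LB Crest.Agent.R162.OS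

/-! ### deterministic part -/

section det

variable {W : ℝ → ℝ} {w w0 : ℂ} {R t : ℝ} {κ ε c1 : ℝ}

/-- no content near `w₀` at time `s` if `w₀` has not been reached before -/
lemma cd_eq_zero (hW : ContinuousOn W (Ici 0)) (h0 : 0 < w0.im) (hε : 0 < ε) (hεR : 2 * ε ≤ R)
    (hd : ‖w - w0‖ ≤ R) {s : ℝ}
    (hno : ∀ r, 0 ≤ r → r ≤ s → Alive W w0 r → 6 * R < OP.ups W r w0) :
    cd κ ε c1 1 W s w = 0 := by
  by_contra hne
  obtain ⟨h1, -, h3, -⟩ := of_cd_ne_zero hε hne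
  rw [one_mul] at h3
  obtain ⟨r, hr0, hrs, hr1, hr2⟩ := LB7near.reach_of_near hW h1 h0 hd (h3.trans hεR)
  exact absurd hr2 (not_le.2 (hno r hr0 hrs hr1))

lemma cz_zero_of {E : Set ℝ} (hE : MeasurableSet E) (h : ∀ s ∈ E, cd κ ε c1 1 W s w = 0) :
    cz κ ε c1 1 W E w = 0 := by
  unfold cz
  rw [setLIntegral_congr_fun hE (g := fun _ => 0) (fun s hs => by simp [h s hs])]
  simp

/-- content is collected only after the time `a` if there is no density before -/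
lemma cz_split {a T : ℝ} (ha : 0 ≤ a) (haT : a ≤ T)
    (h : ∀ s, 0 < s → s < a → cd κ ε c1 1 W s w = 0) :
    cz κ ε c1 1 W (Ioc 0 T) w = cz κ ε c1 1 W (Ioc a T) w := by
  have h1 : Ioc (0:ℝ) T = Ioc 0 a ∪ Ioc a T := (Ioc_union_Ioc_eq_Ioc ha haT).symm
  have hd : Disjoint (Ioc (0:ℝ) a) (Ioc a T) := by
    rw [Set.disjoint_left]; intro x hx hx'; exact absurd hx'.1 (not_lt.2 hx.2)
  rw [h1, cz_union measurableSet_Ioc hd]
  have h2 : cz κ ε c1 1 W (Ioc 0 a) w = 0 := by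
    have e : cz κ ε c1 1 W (Ioc 0 a) w = cz κ ε c1 1 W (Ioo 0 a) w := by
      unfold cz
      exact setLIntegral_congr Ioo_ae_eq_Ioc.symm
    rw [e]
    exact cz_zero_of measurableSet_Ioo fun s hs => h s hs.1 hs.2
  rw [h2, zero_add]

lemma mu_apply {T : ℝ} {V : Set ℂ} (hV : MeasurableSet V) :
    mu κ ε c1 W T V = ∫⁻ w in V, cz κ ε c1 1 W (Ioc 0 T) w := by
  unfold mu
  rw [withDensity_apply _ hV]
  rfl

end det

/-! ### probabilistic part -/

variable {Ω : Type*} {mΩ : MeasurableSpace Ω} {P : Measure Ω}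

/-- tail bound, `ℝ≥0∞`-valued mass -/
theorem tail_bound' (X : Ω → ℝ≥0∞) (hX : Measurable X) (hfin : ∀ᵐ ω ∂P, X ω ≠ ⊤) (A B : Set Ω)
    (h0 : ∀ᵐ ω ∂P, ω ∉ A → ω ∉ B → X ω = 0)
    {c N D K Cμ : ℝ} (hc : 0 < c) (hN : 0 ≤ N) (hCμ : 0 ≤ Cμ)
    (hexp : ∫⁻ ω in A, ENNReal.ofReal (Real.exp (c * (X ω).toReal)) ∂P ≤
      ENNReal.ofReal (D * Real.exp (K * N)))
    {b : ℝ≥0∞} (hB : ∫⁻ ω in B, X ω ∂P ≤ b) :
    ∫⁻ ω in {ω | ENNReal.ofReal (Cμ * N) < X ω}, X ω ∂P ≤
      ENNReal.ofReal (2 / c * D * Real.exp ((K - c * Cμ / 2) * N)) + b := by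
  have hμ : Measurable fun ω => (X ω).toReal := hX.ennreal_toReal
  have h := LB7c.tail_bound (P := P) (fun ω => (X ω).toReal) hμ A B
    (by filter_upwards [h0] with ω hω h1 h2; rw [hω h1 h2]; rfl) (c := c) (N := N) (D := D)
    (K := K) (Cμ := Cμ) hc hN hCμ hexp (b := b)
    (le_trans (lintegral_mono fun ω => ENNReal.ofReal_toReal_le) hB)
  refine le_trans (le_of_eq ?_) h
  have hS1 : MeasurableSet {ω | ENNReal.ofReal (Cμ * N) < X ω} :=
    measurableSet_lt measurable_const hX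
  have hS2 : MeasurableSet {ω | Cμ * N < (X ω).toReal} := measurableSet_lt measurable_const hμ
  rw [← lintegral_indicator hS1, ← lintegral_indicator hS2]
  refine lintegral_congr_ae ?_
  filter_upwards [hfin] with ω hω
  have hiff : ENNReal.ofReal (Cμ * N) < X ω ↔ Cμ * N < (X ω).toReal := by
    rw [ENNReal.ofReal_lt_iff_lt_toReal (by positivity) hω]
  by_cases h1 : ENNReal.ofReal (Cμ * N) < X ω
  · rw [indicator_of_mem (show ω ∈ {ω | ENNReal.ofReal (Cμ * N) < X ω} from h1),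
      indicator_of_mem (show ω ∈ {ω | Cμ * N < (X ω).toReal} from hiff.1 h1),
      ENNReal.ofReal_toReal hω]
  · rw [indicator_of_notMem (show ω ∉ {ω | ENNReal.ofReal (Cμ * N) < X ω} from h1),
      indicator_of_notMem (show ω ∉ {ω | Cμ * N < (X ω).toReal} from fun h2 => h1 (hiff.2 h2))]

/-- first moment of the mass of the ball on an event of the past of `σ` -/
theorem first_moment [SFinite P] (f g : Ω → ℂ → ℝ≥0∞) (A : Set Ω) (V : Set ℂ) (C : ℝ≥0∞) (w0 : ℂ)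
    (hf : Measurable fun p : Ω × ℂ => f p.1 p.2)
    (h1 : ∀ w ∈ V, ∫⁻ ω in A, f ω w ∂P ≤ ∫⁻ ω in A, g ω w ∂P)
    (h2 : ∀ w ∈ V, ∀ ω ∈ A, g ω w ≤ C * g ω w0) (hC : C ≠ ⊤) (hA : MeasurableSet A) :
    ∫⁻ ω in A, (∫⁻ w in V, f ω w) ∂P ≤ C * volume V * ∫⁻ ω in A, g ω w0 ∂P := by
  rw [lintegral_lintegral_swap (μ := P.restrict A) (ν := volume.restrict V) (hf.aemeasurable)]
  calc ∫⁻ w in V, ∫⁻ ω in A, f ω w ∂P ≤ ∫⁻ _ in V, C * ∫⁻ ω in A, g ω w0 ∂P := by
        refine setLIntegral_mono measurable_const fun w hw => ?_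
        refine (h1 w hw).trans ?_
        rw [← lintegral_const_mul' _ _ hC]
        exact setLIntegral_mono' hA fun ω hω => h2 w hw ω hω
    _ = C * volume V * ∫⁻ ω in A, g ω w0 ∂P := by
        rw [setLIntegral_const]; ring

open Crest.ProbabilityR.Loewner Crest.Agent.R162.LBS

lemma expE_le {x : ℝ≥0∞} {y : ℝ} (hx : x ≤ ENNReal.ofReal y) (hy : 0 ≤ y) :
    expE x ≤ ENNReal.ofReal (Real.exp y) := by
  have hne : x ≠ ⊤ := (hx.trans_lt ENNReal.ofReal_lt_top).ne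
  unfold expE
  rw [if_neg hne]
  exact ENNReal.ofReal_le_ofReal (Real.exp_le_exp.2 (ENNReal.toReal_le_of_le_ofReal hy hx))

lemma le_expE {c : ℝ} (hc : 0 ≤ c) (x : ℝ≥0∞) :
    ENNReal.ofReal (Real.exp (c * x.toReal)) ≤ expE (ENNReal.ofReal c * x) := by
  unfold expE
  split_ifs with h
  · exact le_top
  · rw [ENNReal.toReal_mul, ENNReal.toReal_ofReal hc]

/-- constant of the comparison of the Green's function -/
noncomputable def cG (κ : ℝ) : ℝ := Real.exp 2 * (4 * Real.exp 1) ^ (8 / κ - 1)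

lemma cG_pos (κ : ℝ) : 0 < cG κ := by unfold cG; positivity

/-- **Core of LB7c**: `σ` a stopping time `≤ T`, `H` the event that `w₀` has been reached at
`σ`; the four probabilistic inputs are `hcont`, `hexp`, `hU1`, `h7b`. -/
theorem tail_core [IsProbabilityMeasure P] {F : Filtration ℝ≥0 mΩ} {κ ε c1 : ℝ} (hκ : 0 < κ)
    (hκ8 : κ < 8) (W : Ω → ℝ → ℝ) (hW : ∀ ω, ContinuousOn (W ω) (Ici 0)) {w0 : ℂ}
    (hw0 : 0 < w0.im) {R N : ℝ} (hR : 0 < R) (hN : 0 ≤ N) (hε : 0 < ε) (hεR : 2 * ε ≤ R)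
    {T : ℝ≥0} {σ : Ω → ℝ≥0} (hσ : IsST F σ) (hσT : ∀ ω, σ ω ≤ T) {H : Set Ω} (hH : EvST F σ H)
    (h_alive : ∀ ω ∈ H, Alive (W ω) w0 (σ ω) ∧ 6 * R ≤ OP.ups (W ω) (σ ω) w0)
    (h_before : ∀ ω ∈ H, ∀ r : ℝ, 0 ≤ r → r < σ ω → Alive (W ω) w0 r →
      6 * R < OP.ups (W ω) r w0)
    (h_never : ∀ ω, ω ∉ H → ∀ r : ℝ, 0 ≤ r → r ≤ T → Alive (W ω) w0 r →
      6 * R < OP.ups (W ω) r w0)
    {Cm : ℝ}
    (hcont : ∀ w : ℂ, ∀ A, EvST F σ A → ∫⁻ ω in A, cz κ ε c1 1 (W ω) (Ioc (σ ω : ℝ) T) w ∂P ≤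
      ENNReal.ofReal Cm * ∫⁻ ω in A, ENNReal.ofReal (gr κ (W ω) (σ ω) w) ∂P)
    (hmeasC : Measurable fun p : Ω × ℂ => cz κ ε c1 1 (W p.1) (Ioc (σ p.1 : ℝ) T) p.2)
    (Λ : Ω → ℝ≥0∞) {C' : ℝ} (hC' : 0 ≤ C')
    (hΛ : EvST F σ {ω | Λ ω ≤ ENNReal.ofReal (C' * N)})
    (Ar : Ω → ℝ≥0∞) {CA : ℝ} (hCA : 0 ≤ CA) (hAr : ∀ ω ∈ H, Ar ω ≤ ENNReal.ofReal (CA * N))
    {c0 c : ℝ} (hc0 : 0 < c0) (hc : 0 ≤ c)
    (hexp : ∀ A, EvST F σ A →
      ∫⁻ ω in A, expE (ENNReal.ofReal c0 * muI κ ε c1 (W ω) (σ ω) T (closedBall w0 R)) ∂P ≤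
        ∫⁻ ω in A, expE (ENNReal.ofReal c * Λ ω + Ar ω) ∂P)
    {D E : ℝ} (hU1 : P H ≤ ENNReal.ofReal D)
    (h7b : ∫⁻ ω in H ∩ {ω | ENNReal.ofReal (C' * N) < Λ ω},
      ENNReal.ofReal (gr κ (W ω) (σ ω) w0) ∂P ≤ ENNReal.ofReal E)
    {Cμ : ℝ} (hCμ : 0 ≤ Cμ) :
    ∫⁻ ω in {ω | ENNReal.ofReal (Cμ * N) < mu κ ε c1 (W ω) T (closedBall w0 R)},
        mu κ ε c1 (W ω) T (closedBall w0 R) ∂P ≤
      ENNReal.ofReal (2 / c0 * D * Real.exp ((c * C' + CA - c0 * Cμ / 2) * N)) +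
        ENNReal.ofReal (cG κ) * volume (closedBall w0 R) *
          (ENNReal.ofReal Cm * ENNReal.ofReal E) := by
  have hHm : MeasurableSet H := hH.measurableSet
  have hVm : MeasurableSet (closedBall w0 R) := measurableSet_closedBall
  -- the mass after `σ`
  set Y : Ω → ℝ≥0∞ := fun ω => ∫⁻ w in closedBall w0 R, cz κ ε c1 1 (W ω) (Ioc (σ ω : ℝ) T) w
    with hYdef
  have hYm : Measurable Y := hmeasC.lintegral_prod_right' (ν := volume.restrict (closedBall w0 R))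
  have hon : ∀ ω ∈ H, mu κ ε c1 (W ω) T (closedBall w0 R) = Y ω := by
    intro ω hω
    rw [mu_apply hVm]
    refine setLIntegral_congr_fun hVm fun w hw => ?_
    have hd : ‖w - w0‖ ≤ R := by rw [← dist_eq_norm]; exact mem_closedBall.1 hw
    refine cz_split (NNReal.coe_nonneg _) (NNReal.coe_le_coe.2 (hσT ω)) fun s hs hsσ => ?_
    exact cd_eq_zero (hW ω) hw0 hε hεR hd fun r hr hrs hal =>
      h_before ω hω r hr (hrs.trans_lt hsσ) hal
  have hoff : ∀ ω, ω ∉ H → mu κ ε c1 (W ω) T (closedBall w0 R) = 0 := by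
    intro ω hω
    rw [mu_apply hVm]
    rw [setLIntegral_congr_fun hVm (g := fun _ => 0) fun w hw => ?_]
    · simp
    · have hd : ‖w - w0‖ ≤ R := by rw [← dist_eq_norm]; exact mem_closedBall.1 hw
      refine cz_zero_of measurableSet_Ioc fun s hs => ?_
      exact cd_eq_zero (hW ω) hw0 hε hεR hd fun r hr hrs hal =>
        h_never ω hω r hr (hrs.trans hs.2) hal
  set X : Ω → ℝ≥0∞ := fun ω => mu κ ε c1 (W ω) T (closedBall w0 R) with hXdef
  have hXY : X = H.indicator Y := by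
    funext ω
    by_cases hω : ω ∈ H
    · rw [indicator_of_mem hω]; exact hon ω hω
    · rw [indicator_of_notMem hω]; exact hoff ω hω
  have hXm : Measurable X := by rw [hXY]; exact hYm.indicator hHm
  -- first moment on events of the past of `σ`
  have hfm : ∀ A, EvST F σ A → A ⊆ H → ∫⁻ ω in A, X ω ∂P ≤
      ENNReal.ofReal (cG κ) * volume (closedBall w0 R) *
        (ENNReal.ofReal Cm * ∫⁻ ω in A, ENNReal.ofReal (gr κ (W ω) (σ ω) w0) ∂P) := by
    intro A hA hAH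
    have hAm := hA.measurableSet
    have hCmT : ENNReal.ofReal Cm ≠ ⊤ := ENNReal.ofReal_ne_top
    rw [← lintegral_const_mul' _ _ hCmT]
    calc ∫⁻ ω in A, X ω ∂P = ∫⁻ ω in A, Y ω ∂P :=
          setLIntegral_congr_fun hAm fun ω hω => hon ω (hAH hω)
      _ ≤ _ := first_moment (fun ω w => cz κ ε c1 1 (W ω) (Ioc (σ ω : ℝ) T) w)
          (fun ω w => ENNReal.ofReal Cm * ENNReal.ofReal (gr κ (W ω) (σ ω) w)) A (closedBall w0 R)
          (ENNReal.ofReal (cG κ)) w0 hmeasC (fun w _ => by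
            show _ ≤ ∫⁻ ω in A, ENNReal.ofReal Cm * ENNReal.ofReal (gr κ (W ω) (σ ω) w) ∂P
            rw [lintegral_const_mul' _ _ hCmT]
            exact hcont w A hA) (fun w hw ω hω => by
            have hd : ‖w - w0‖ ≤ R := by rw [← dist_eq_norm]; exact mem_closedBall.1 hw
            obtain ⟨h1, h2⟩ := h_alive ω (hAH hω)
            show ENNReal.ofReal Cm * ENNReal.ofReal (gr κ (W ω) (σ ω) w) ≤
              ENNReal.ofReal (cG κ) * (ENNReal.ofReal Cm * ENNReal.ofReal (gr κ (W ω) (σ ω) w0))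
            rw [mul_left_comm, ← ENNReal.ofReal_mul (cG_pos κ).le]
            gcongr
            exact LB7near.gr_le_of_near hκ hκ8 (hW ω) h1 hd h2)
          ENNReal.ofReal_ne_top hAm
  have hvol : volume (closedBall w0 R) ≠ ⊤ := measure_closedBall_lt_top.ne
  have hfinint : ∫⁻ ω, X ω ∂P ≠ ⊤ := by
    have e1 : ∫⁻ ω, X ω ∂P = ∫⁻ ω in H, X ω ∂P := by
      rw [← lintegral_indicator hHm]
      refine lintegral_congr fun ω => ?_
      by_cases hω : ω ∈ H
      · rw [indicator_of_mem hω]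
      · rw [indicator_of_notMem hω]; exact hoff ω hω
    rw [e1]
    refine ((hfm H hH subset_rfl).trans_lt ?_).ne
    refine ENNReal.mul_lt_top (ENNReal.mul_lt_top ENNReal.ofReal_lt_top hvol.lt_top) ?_
    refine ENNReal.mul_lt_top ENNReal.ofReal_lt_top ?_
    calc ∫⁻ ω in H, ENNReal.ofReal (gr κ (W ω) (σ ω) w0) ∂P
        ≤ ∫⁻ _ in H, ENNReal.ofReal ((6 * R) ^ (κ / 8 - 1)) ∂P := by
          refine setLIntegral_mono' hHm fun ω hω => ENNReal.ofReal_le_ofReal ?_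
          obtain ⟨h1, h2⟩ := h_alive ω hω
          have hS0 : 0 < sfl (W ω) (σ ω) w0 :=
            div_pos (Zfl_im_pos h1) (norm_pos_iff.2 (Zfl_ne_zero h1))
          have hS1 : sfl (W ω) (σ ω) w0 ≤ 1 := by
            unfold sfl
            rw [div_le_one (norm_pos_iff.2 (Zfl_ne_zero h1))]
            exact (le_abs_self _).trans (Complex.abs_im_le_norm _)
          have hb : 0 < 8 / κ - 1 := by
            have : 1 < 8 / κ := by rw [lt_div_iff₀ hκ]; linarith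
            linarith
          unfold gr
          calc OP.ups (W ω) (σ ω) w0 ^ (κ / 8 - 1) * sfl (W ω) (σ ω) w0 ^ (8 / κ - 1)
              ≤ (6 * R) ^ (κ / 8 - 1) * 1 := by
                refine mul_le_mul ?_ (Real.rpow_le_one hS0.le hS1 hb.le)
                  (Real.rpow_nonneg hS0.le _) (by positivity)
                exact Real.rpow_le_rpow_of_nonpos (by positivity) h2 (by linarith)
            _ = _ := mul_one _
      _ < ⊤ := by
          rw [setLIntegral_const]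
          exact ENNReal.mul_lt_top ENNReal.ofReal_lt_top (measure_lt_top _ _)
  have hfin : ∀ᵐ ω ∂P, X ω ≠ ⊤ := (ae_lt_top hXm hfinint).mono fun ω h => h.ne
  -- good and bad part
  set A : Set Ω := H ∩ {ω | Λ ω ≤ ENNReal.ofReal (C' * N)} with hAdef
  set Bd : Set Ω := H ∩ {ω | ENNReal.ofReal (C' * N) < Λ ω} with hBdef
  have hA : EvST F σ A := hH.inter hΛ
  have hBd : EvST F σ Bd := by
    have h1 : Bd = H ∩ {ω | Λ ω ≤ ENNReal.ofReal (C' * N)}ᶜ := by
      ext ω; simp [hBdef]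
    rw [h1]
    exact hH.inter (hΛ.compl hσ)
  have hgood : ∫⁻ ω in A, ENNReal.ofReal (Real.exp (c0 * (X ω).toReal)) ∂P ≤
      ENNReal.ofReal (D * Real.exp ((c * C' + CA) * N)) := by
    calc ∫⁻ ω in A, ENNReal.ofReal (Real.exp (c0 * (X ω).toReal)) ∂P
        ≤ ∫⁻ ω in A, expE (ENNReal.ofReal c0 *
            muI κ ε c1 (W ω) (σ ω) T (closedBall w0 R)) ∂P := by
          refine setLIntegral_mono' hA.measurableSet fun ω hω => ?_
          have : X ω = muI κ ε c1 (W ω) (σ ω) T (closedBall w0 R) := hon ω hω.1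
          rw [this]
          exact le_expE hc0.le _
      _ ≤ ∫⁻ ω in A, expE (ENNReal.ofReal c * Λ ω + Ar ω) ∂P := hexp A hA
      _ ≤ ∫⁻ _ in A, ENNReal.ofReal (Real.exp ((c * C' + CA) * N)) ∂P := by
          refine setLIntegral_mono' hA.measurableSet fun ω hω => ?_
          refine expE_le ?_ (by positivity)
          calc ENNReal.ofReal c * Λ ω + Ar ω
              ≤ ENNReal.ofReal c * ENNReal.ofReal (C' * N) + ENNReal.ofReal (CA * N) := by
                gcongr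
                · exact hω.2
                · exact hAr ω hω.1
            _ = ENNReal.ofReal ((c * C' + CA) * N) := by
                rw [← ENNReal.ofReal_mul hc, ← ENNReal.ofReal_add (by positivity) (by positivity)]
                congr 1; ring
      _ = ENNReal.ofReal (Real.exp ((c * C' + CA) * N)) * P A := setLIntegral_const _ _
      _ ≤ ENNReal.ofReal (Real.exp ((c * C' + CA) * N)) * ENNReal.ofReal D := by
          gcongr
          exact (measure_mono inter_subset_left).trans hU1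
      _ = ENNReal.ofReal (D * Real.exp ((c * C' + CA) * N)) := by
          rw [← ENNReal.ofReal_mul (Real.exp_pos _).le, mul_comm]
  have hbad : ∫⁻ ω in Bd, X ω ∂P ≤
      ENNReal.ofReal (cG κ) * volume (closedBall w0 R) *
        (ENNReal.ofReal Cm * ENNReal.ofReal E) := by
    refine (hfm Bd hBd inter_subset_left).trans ?_
    gcongr
  refine tail_bound' X hXm hfin A Bd (Filter.Eventually.of_forall fun ω h1 h2 => ?_) hc0 hN hCμ
    hgood hbad
  refine hoff ω fun hω => ?_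
  rcases le_or_gt (Λ ω) (ENNReal.ofReal (C' * N)) with h | h
  · exact h1 ⟨hω, h⟩
  · exact h2 ⟨hω, h⟩

end Crest.Agent.R162.LB7cI
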