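import Mathlib
import Crest.Agent.R162.OPDefs
import Crest.Agent.R162.FLB
import Crest.Agent.R162.FL3

/-!
Row 162, node LB7', deterministic part (helper926): continuity of the one-point state, exit from an
open set, the time lemma `t ≤ Λ²/2 (1 - exp (-2 a_t))` while `exp a |Z| ≤ Λ`.
-/

set_option autoImplicit false

open Set Filter Topology

namespace Crest.Agent.R162.LB7p

open FL OS OP

variable {W : ℝ → ℝ} {w : ℂ} {t : ℝ}

lemma stW_contOn (hW : ContinuousOn W (Ici 0)) (ha : Alive W w t) :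
    ContinuousOn (fun s => stW W s w) (Icc 0 t) := by
  unfold stW
  have h1 := continuousOn_Zfl hW ha
  refine (Complex.continuous_re.comp_continuousOn h1).prodMk
    ((Complex.continuous_im.comp_continuousOn h1).prodMk
      (ContinuousOn.prodMk ?_ (continuousOn_ath hW ha)))
  exact (continuousOn_ups hW ha).log fun s hs => (ups_pos (ha.mono hs.1 hs.2)).ne'

lemma alive_of_stW_im {W : ℝ → ℝ} {w : ℂ} {t : ℝ} (h : 0 < (stW W t w).2.1) : Alive W w t := by
  by_contra hna
  have : (stW W t w).2.1 = 0 := by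
    simp only [stW, Zfl_im, gfl_of_not_alive hna, Complex.zero_im]
  linarith

/-- exit from an open set at positive height: alive and in the closure at the exit -/
lemma exit_alive (hW : ContinuousOn W (Ici 0)) {O : Set (ℝ × ℝ × ℝ × ℝ)} {δ : ℝ} (hδ : 0 < δ)
    (hO : ∀ q ∈ O, δ ≤ q.2.1) {σ h : ℝ} (hσ : 0 ≤ σ) (hσh : σ ≤ h)
    (hin : ∀ s, σ ≤ s → s < h → stW W s w ∈ O) (hst : stW W σ w ∈ O) :
    Alive W w h ∧ stW W h w ∈ closure O := by
  have haσ : Alive W w σ := alive_of_stW_im (hδ.trans_le (hO _ hst))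
  rcases hσh.eq_or_lt with rfl | hlt
  · exact ⟨haσ, subset_closure hst⟩
  have hah : Alive W w h := by
    refine alive_of_apriori hW haσ.im_pos (hσ.trans hσh) hδ fun s hs hsh ha => ?_
    rcases le_total σ s with h1 | h1
    · have := hO _ (hin s h1 hsh)
      simpa only [stW, Zfl_im] using this
    · have h2 := hO _ hst
      simp only [stW, Zfl_im] at h2
      exact h2.trans (im_anti haσ hs h1)
  refine ⟨hah, ?_⟩
  have hc := stW_contOn hW hah h ⟨hσ.trans hσh, le_rfl⟩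
  have hcl : h ∈ closure (Ico σ h) := by
    rw [closure_Ico hlt.ne]; exact ⟨hσh, le_rfl⟩
  have hc' : ContinuousWithinAt (fun s => stW W s w) (Ico σ h) h :=
    hc.mono fun s hs => ⟨hσ.trans hs.1, hs.2.le⟩
  exact hc'.mem_closure hcl fun s hs => hin s hs.1 hs.2

/-- an alive point whose state is in an open set stays there for a while -/
lemma stay_open (hW : ContinuousOn W (Ici 0)) {O : Set (ℝ × ℝ × ℝ × ℝ)} (hO : IsOpen O) {h : ℝ}
    (ha : Alive W w h) (hst : stW W h w ∈ O) : ∃ ε > 0, ∀ s, h ≤ s → s < h + ε → stW W s w ∈ O := by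
  obtain ⟨t', ht', δ, hδ, hal⟩ := Alive.exists_gt hW ha
  have ha' : Alive W w t' := hal w (by simpa using hδ)
  have hc := stW_contOn hW ha' h ⟨ha.1, ht'.le⟩
  have hev := hc.eventually (hO.mem_nhds hst)
  rw [Filter.Eventually, Metric.mem_nhdsWithin_iff] at hev
  obtain ⟨ε, hε, hb⟩ := hev
  refine ⟨min ε (t' - h), lt_min hε (by linarith), fun s h1 h2 => ?_⟩
  have h3 : s < h + ε := h2.trans_le (by linarith [min_le_left ε (t' - h)])
  have h4 : s < t' := h2.trans_le (by linarith [min_le_right ε (t' - h)])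
  exact hb ⟨by rw [Metric.mem_ball, Real.dist_eq, abs_lt]; constructor <;> linarith,
    ⟨ha.1.trans h1, h4.le⟩⟩

/-- THE TIME LEMMA: while `exp a |Z| ≤ Λ`, `2 t ≤ Λ² (1 - exp (-2 a_t))`. -/
lemma time_lemma (hW : ContinuousOn W (Ici 0)) (ha : Alive W w t) {Λ : ℝ}
    (hle : ∀ s ∈ Ico 0 t, Real.exp (ath W s w) * ‖Zfl W s w‖ ≤ Λ) : 2 * t < Λ ^ 2 ∨ t = 0 := by
  rcases ha.1.eq_or_lt with h0 | hpos
  · exact Or.inr h0.symm
  left
  have hc : ContinuousOn (fun s => Real.exp (ath W s w) * ‖Zfl W s w‖) (Icc 0 t) :=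
    ((continuousOn_ath hW ha).rexp).mul (continuousOn_Zfl hW ha).norm
  have hle' : ∀ s ∈ Icc 0 t, Real.exp (ath W s w) * ‖Zfl W s w‖ ≤ Λ := by
    intro s hs
    rcases hs.2.lt_or_eq with h1 | h1
    · exact hle s ⟨hs.1, h1⟩
    subst h1
    have hcl : s ∈ closure (Ico 0 s) := by
      rw [closure_Ico hpos.ne]; exact ⟨hpos.le, le_rfl⟩
    have hcw := (hc s hs).mono Ico_subset_Icc_self
    have : (𝓝[Ico 0 s] s).NeBot := mem_closure_iff_nhdsWithin_neBot.1 hcl
    exact le_of_tendsto hcw (Filter.eventually_of_mem self_mem_nhdsWithin hle)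
  have hΛ : 0 < Λ := by
    have h1 := hle' 0 ⟨le_rfl, hpos.le⟩
    have h2 : 0 < ‖Zfl W 0 w‖ := norm_Zfl_pos_of_mem ha ⟨le_rfl, hpos.le⟩
    have := Real.exp_pos (ath W 0 w)
    exact lt_of_lt_of_le (by positivity) h1
  have hanti : AntitoneOn (fun s => Λ ^ 2 * Real.exp (-2 * ath W s w) + 2 * s) (Icc 0 t) := by
    refine antitoneOn_of_hasDerivWithinAt_nonpos
      (f' := fun s => Λ ^ 2 * (Real.exp (-2 * ath W s w) * (-2 * (1 / ‖Zfl W s w‖ ^ 2))) + 2)
      (convex_Icc 0 t) ?_ ?_ ?_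
    · exact (continuousOn_const.mul
        ((continuousOn_const.mul (continuousOn_ath hW ha)).rexp)).add (by fun_prop)
    · intro x hx
      have hx' := interior_subset hx
      have h1 := ((hasDeriv_ath hW ha hx').mono (interior_subset (s := Icc 0 t))).const_mul (-2)
      have h2 := (h1.exp.const_mul (Λ ^ 2)).add
        (((hasDerivAt_id x).const_mul 2).hasDerivWithinAt (s := interior (Icc 0 t)))
      refine h2.congr_deriv ?_
      simp
    · intro x hx
      have hx' := interior_subset hx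
      have h1 := hle' x hx'
      have h2 : 0 < ‖Zfl W x w‖ := norm_Zfl_pos_of_mem ha hx'
      have h3 : Real.exp (-2 * ath W x w) = (Real.exp (ath W x w) ^ 2)⁻¹ := by
        rw [← Real.exp_nat_mul, ← Real.exp_neg]; congr 1; push_cast; ring
      have h4 : (Real.exp (ath W x w) * ‖Zfl W x w‖) ^ 2 ≤ Λ ^ 2 :=
        pow_le_pow_left₀ (by positivity) h1 2
      have h5 : 0 < Real.exp (ath W x w) := Real.exp_pos _
      have h6 : 1 ≤ Λ ^ 2 * (Real.exp (-2 * ath W x w) * (1 / ‖Zfl W x w‖ ^ 2)) := by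
        rw [h3]
        rw [show Λ ^ 2 * ((Real.exp (ath W x w) ^ 2)⁻¹ * (1 / ‖Zfl W x w‖ ^ 2))
          = Λ ^ 2 / (Real.exp (ath W x w) * ‖Zfl W x w‖) ^ 2 by field_simp]
        rw [one_le_div (by positivity)]
        exact h4
      nlinarith
  have h1 := hanti ⟨le_rfl, hpos.le⟩ ⟨hpos.le, le_rfl⟩ hpos.le
  simp only [ath_zero, mul_zero, Real.exp_zero, mul_one, add_zero] at h1
  have h2 : 0 < Λ ^ 2 * Real.exp (-2 * ath W t w) := by positivity
  linarith

lemma norm_eq_sqrt (z : ℂ) : ‖z‖ = Real.sqrt (z.re ^ 2 + z.im ^ 2) := by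
  rw [← norm_sq_eq, Real.sqrt_sq (norm_nonneg _)]

lemma stW_zero {W : ℝ → ℝ} (hW0 : W 0 = 0) {w : ℂ} (hw : 0 < w.im) :
    stW W 0 w = (w.re, w.im, Real.log w.im, 0) := by
  simp [stW, Zfl_re, Zfl_im, gfl_zero hw, hW0, ups_zero hw]

end Crest.Agent.R162.LB7p
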