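import Mathlib
import Crest.Agent.R162.OPDefs

/-!
Row 162, node LB7': the generator on the monomials `exp (ℓ L + c a) Y^α (X²+Y²)^β`
and the weight `exp (p a) Y^p (κ/2 + S^{-p}) G` (helper926).
-/

set_option autoImplicit false

open MeasureTheory ProbabilityTheory
open scoped NNReal ENNReal

namespace Crest.Agent.R162.LB7p

open FL OS OP

/-- generator from derivatives -/
theorem gen_of {κ : ℝ} {F : ℝ × ℝ × ℝ × ℝ → ℝ} {q : ℝ × ℝ × ℝ × ℝ} {FX : ℝ → ℝ} {FXX FY FL Fa : ℝ}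
    (h1 : ∀ x, HasDerivAt (fun x => F (x, q.2)) (FX x) x) (h2 : HasDerivAt FX FXX q.1)
    (h3 : HasDerivAt (fun y => F (q.1, y, q.2.2)) FY q.2.1)
    (h4 : HasDerivAt (fun l => F (q.1, q.2.1, l, q.2.2.2)) FL q.2.2.1)
    (h5 : HasDerivAt (fun a => F (q.1, q.2.1, q.2.2.1, a)) Fa q.2.2.2) :
    gen κ F q = κ / 2 * FXX + 2 * q.1 / (q.1 ^ 2 + q.2.1 ^ 2) * FX q.1
      - 2 * q.2.1 / (q.1 ^ 2 + q.2.1 ^ 2) * FY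
      - 4 * q.2.1 ^ 2 / (q.1 ^ 2 + q.2.1 ^ 2) ^ 2 * FL
      + 1 / (q.1 ^ 2 + q.2.1 ^ 2) * Fa := by
  unfold gen
  have e1 : (deriv fun x => F (x, q.2)) = FX := funext fun x => (h1 x).deriv
  rw [e1, h2.deriv, h3.deriv, h4.deriv, h5.deriv]

/-- the monomial `exp (ℓ L + c a) Y^α (X²+Y²)^β` -/
noncomputable def mono (ℓ c α β : ℝ) (q : ℝ × ℝ × ℝ × ℝ) : ℝ :=
  Real.exp (ℓ * q.2.2.1 + c * q.2.2.2) * q.2.1 ^ α * (q.1 ^ 2 + q.2.1 ^ 2) ^ β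

lemma R_pos {q : ℝ × ℝ × ℝ × ℝ} (hq : 0 < q.2.1) (x : ℝ) : 0 < x ^ 2 + q.2.1 ^ 2 := by positivity

lemma mono_pos {ℓ c α β : ℝ} {q : ℝ × ℝ × ℝ × ℝ} (hq : 0 < q.2.1) : 0 < mono ℓ c α β q := by
  unfold mono
  have := R_pos hq q.1
  positivity

lemma mono_dX (ℓ c α β : ℝ) {q : ℝ × ℝ × ℝ × ℝ} (hq : 0 < q.2.1) (x : ℝ) :
    HasDerivAt (fun x => mono ℓ c α β (x, q.2))
      (Real.exp (ℓ * q.2.2.1 + c * q.2.2.2) * q.2.1 ^ α *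
        (2 * β * x * (x ^ 2 + q.2.1 ^ 2) ^ (β - 1))) x := by
  unfold mono
  simp only
  have h1 : HasDerivAt (fun x : ℝ => x ^ 2 + q.2.1 ^ 2) (2 * x) x := by
    simpa using (hasDerivAt_pow 2 x).add_const (q.2.1 ^ 2)
  have h2 := h1.rpow_const (p := β) (Or.inl (R_pos hq x).ne')
  refine (h2.const_mul _).congr_deriv ?_
  ring

lemma mono_dXX (ℓ c α β : ℝ) {q : ℝ × ℝ × ℝ × ℝ} (hq : 0 < q.2.1) (x : ℝ) :
    HasDerivAt (fun x => Real.exp (ℓ * q.2.2.1 + c * q.2.2.2) * q.2.1 ^ α *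
        (2 * β * x * (x ^ 2 + q.2.1 ^ 2) ^ (β - 1)))
      (Real.exp (ℓ * q.2.2.1 + c * q.2.2.2) * q.2.1 ^ α *
        (2 * β * (x ^ 2 + q.2.1 ^ 2) ^ (β - 1)
          + 4 * β * (β - 1) * x ^ 2 * (x ^ 2 + q.2.1 ^ 2) ^ (β - 2))) x := by
  have h1 : HasDerivAt (fun x : ℝ => x ^ 2 + q.2.1 ^ 2) (2 * x) x := by
    simpa using (hasDerivAt_pow 2 x).add_const (q.2.1 ^ 2)
  have h2 := h1.rpow_const (p := β - 1) (Or.inl (R_pos hq x).ne')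
  have h3 : HasDerivAt (fun x : ℝ => 2 * β * x) (2 * β) x := by
    simpa using (hasDerivAt_id x).const_mul (2 * β)
  refine ((h3.mul h2).const_mul _).congr_deriv ?_
  have e : β - 1 - 1 = β - 2 := by ring
  rw [e]; ring

lemma mono_dY (ℓ c α β : ℝ) {q : ℝ × ℝ × ℝ × ℝ} (hq : 0 < q.2.1) :
    HasDerivAt (fun y => mono ℓ c α β (q.1, y, q.2.2))
      (Real.exp (ℓ * q.2.2.1 + c * q.2.2.2) *
        (α * q.2.1 ^ (α - 1) * (q.1 ^ 2 + q.2.1 ^ 2) ^ β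
          + q.2.1 ^ α * (2 * β * q.2.1 * (q.1 ^ 2 + q.2.1 ^ 2) ^ (β - 1)))) q.2.1 := by
  unfold mono
  simp only
  have h1 : HasDerivAt (fun y : ℝ => q.1 ^ 2 + y ^ 2) (2 * q.2.1) q.2.1 := by
    simpa using (hasDerivAt_pow 2 q.2.1).const_add (q.1 ^ 2)
  have h2 := h1.rpow_const (p := β) (Or.inl (R_pos hq q.1).ne')
  have h3 : HasDerivAt (fun y : ℝ => y ^ α) (α * q.2.1 ^ (α - 1)) q.2.1 :=
    Real.hasDerivAt_rpow_const (Or.inl hq.ne')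
  have h4 := (h3.mul h2).const_mul (Real.exp (ℓ * q.2.2.1 + c * q.2.2.2))
  refine (h4.congr_deriv ?_).congr_of_eventuallyEq ?_
  · ring
  · exact Filter.Eventually.of_forall fun y => by simp only [Pi.mul_apply]; ring

lemma mono_dL (ℓ c α β : ℝ) (q : ℝ × ℝ × ℝ × ℝ) :
    HasDerivAt (fun l => mono ℓ c α β (q.1, q.2.1, l, q.2.2.2)) (ℓ * mono ℓ c α β q) q.2.2.1 := by
  unfold mono
  simp only
  have h1 : HasDerivAt (fun l : ℝ => ℓ * l + c * q.2.2.2) ℓ q.2.2.1 := by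
    simpa using ((hasDerivAt_id q.2.2.1).const_mul ℓ).add_const (c * q.2.2.2)
  have h2 := (h1.exp.mul_const (q.2.1 ^ α)).mul_const ((q.1 ^ 2 + q.2.1 ^ 2) ^ β)
  refine h2.congr_deriv ?_
  ring

lemma mono_da (ℓ c α β : ℝ) (q : ℝ × ℝ × ℝ × ℝ) :
    HasDerivAt (fun a => mono ℓ c α β (q.1, q.2.1, q.2.2.1, a)) (c * mono ℓ c α β q) q.2.2.2 := by
  unfold mono
  simp only
  have h1 : HasDerivAt (fun a : ℝ => ℓ * q.2.2.1 + c * a) c q.2.2.2 := by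
    simpa using ((hasDerivAt_id q.2.2.2).const_mul c).const_add (ℓ * q.2.2.1)
  have h2 := (h1.exp.mul_const (q.2.1 ^ α)).mul_const ((q.1 ^ 2 + q.2.1 ^ 2) ^ β)
  refine h2.congr_deriv ?_
  ring

/-- the scaled generator value -/
noncomputable def gv (κ ℓ c α β : ℝ) (q : ℝ × ℝ × ℝ × ℝ) : ℝ :=
  κ * β + 2 * κ * β * (β - 1) * (q.1 ^ 2 / (q.1 ^ 2 + q.2.1 ^ 2))
    + 4 * β * (q.1 ^ 2 / (q.1 ^ 2 + q.2.1 ^ 2)) - 2 * α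
    - 4 * β * (q.2.1 ^ 2 / (q.1 ^ 2 + q.2.1 ^ 2))
    - 4 * ℓ * (q.2.1 ^ 2 / (q.1 ^ 2 + q.2.1 ^ 2)) + c

theorem gen_lin (κ A₁ A₂ ℓ₁ c₁ α₁ β₁ ℓ₂ c₂ α₂ β₂ : ℝ) {q : ℝ × ℝ × ℝ × ℝ} (hq : 0 < q.2.1) :
    gen κ (fun q => A₁ * mono ℓ₁ c₁ α₁ β₁ q + A₂ * mono ℓ₂ c₂ α₂ β₂ q) q
      = (A₁ * (gv κ ℓ₁ c₁ α₁ β₁ q * mono ℓ₁ c₁ α₁ β₁ q)
        + A₂ * (gv κ ℓ₂ c₂ α₂ β₂ q * mono ℓ₂ c₂ α₂ β₂ q)) / (q.1 ^ 2 + q.2.1 ^ 2) := by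
  have hR := R_pos hq q.1
  rw [gen_of (FX := fun x => A₁ * (Real.exp (ℓ₁ * q.2.2.1 + c₁ * q.2.2.2) * q.2.1 ^ α₁ *
        (2 * β₁ * x * (x ^ 2 + q.2.1 ^ 2) ^ (β₁ - 1))) +
        A₂ * (Real.exp (ℓ₂ * q.2.2.1 + c₂ * q.2.2.2) * q.2.1 ^ α₂ *
        (2 * β₂ * x * (x ^ 2 + q.2.1 ^ 2) ^ (β₂ - 1))))
      (fun x => ((mono_dX ℓ₁ c₁ α₁ β₁ hq x).const_mul A₁).add
        ((mono_dX ℓ₂ c₂ α₂ β₂ hq x).const_mul A₂))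
      (((mono_dXX ℓ₁ c₁ α₁ β₁ hq q.1).const_mul A₁).add
        ((mono_dXX ℓ₂ c₂ α₂ β₂ hq q.1).const_mul A₂))
      (((mono_dY ℓ₁ c₁ α₁ β₁ hq).const_mul A₁).add ((mono_dY ℓ₂ c₂ α₂ β₂ hq).const_mul A₂))
      (((mono_dL ℓ₁ c₁ α₁ β₁ q).const_mul A₁).add ((mono_dL ℓ₂ c₂ α₂ β₂ q).const_mul A₂))
      (((mono_da ℓ₁ c₁ α₁ β₁ q).const_mul A₁).add ((mono_da ℓ₂ c₂ α₂ β₂ q).const_mul A₂))]
  have e1 : ∀ β : ℝ, (q.1 ^ 2 + q.2.1 ^ 2) ^ (β - 1) = (q.1 ^ 2 + q.2.1 ^ 2) ^ β / (q.1 ^ 2 + q.2.1 ^ 2) :=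
    fun β => by rw [Real.rpow_sub_one hR.ne']
  have e2 : ∀ β : ℝ, (q.1 ^ 2 + q.2.1 ^ 2) ^ (β - 2)
      = (q.1 ^ 2 + q.2.1 ^ 2) ^ β / (q.1 ^ 2 + q.2.1 ^ 2) ^ 2 := fun β => by
    rw [Real.rpow_sub hR]; norm_num
  have e3 : ∀ α : ℝ, q.2.1 ^ (α - 1) = q.2.1 ^ α / q.2.1 := fun α => by
    rw [Real.rpow_sub_one hq.ne']
  simp only [e1, e2, e3, gv, mono]
  have hY := hq.ne'
  have hR' := hR.ne'
  field_simp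
  ring

/-! ### The weights -/

/-- `b = 8/κ - 1` -/
noncomputable def bb (κ : ℝ) : ℝ := 8 / κ - 1

lemma kb {κ : ℝ} (hκ : 0 < κ) : κ * bb κ = 8 - κ := by
  unfold bb; field_simp

lemma Gq_eq (κ : ℝ) {q : ℝ × ℝ × ℝ × ℝ} (hq : 0 < q.2.1) :
    Gq κ q = mono (κ / 8 - 1) 0 (bb κ) (-(bb κ) / 2) q := by
  have hR := R_pos hq q.1
  unfold Gq mono sinq bb
  rw [Real.div_rpow hq.le (Real.sqrt_nonneg _), Real.sqrt_eq_rpow, ← Real.rpow_mul hR.le]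
  have e : -(8 / κ - 1) / 2 = -(1 / 2 * (8 / κ - 1)) := by ring
  rw [e, Real.rpow_neg hR.le, zero_mul, add_zero]
  ring

/-- `F = G e^{pa} (κ/2 Y^p + |Z|^p)` -/
noncomputable def Fq (κ p : ℝ) (q : ℝ × ℝ × ℝ × ℝ) : ℝ :=
  κ / 2 * mono (κ / 8 - 1) p (p + bb κ) (-(bb κ) / 2) q
    + 1 * mono (κ / 8 - 1) p (bb κ) ((p - bb κ) / 2) q

lemma xy_one {q : ℝ × ℝ × ℝ × ℝ} (hq : 0 < q.2.1) :
    q.1 ^ 2 / (q.1 ^ 2 + q.2.1 ^ 2) + q.2.1 ^ 2 / (q.1 ^ 2 + q.2.1 ^ 2) = 1 := by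
  have hR := R_pos hq q.1
  rw [← add_div, div_self hR.ne']

lemma gv_one {κ p : ℝ} (hκ : 0 < κ) {q : ℝ × ℝ × ℝ × ℝ} (hq : 0 < q.2.1) :
    gv κ (κ / 8 - 1) p (p + bb κ) (-(bb κ) / 2) q = -p := by
  have h1 := kb hκ
  have h2 := xy_one hq
  unfold gv
  set x2 := q.1 ^ 2 / (q.1 ^ 2 + q.2.1 ^ 2)
  set y2 := q.2.1 ^ 2 / (q.1 ^ 2 + q.2.1 ^ 2)
  have h3 : x2 = 1 - y2 := by linarith
  rw [h3]
  generalize bb κ = b at *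
  linear_combination (-1/2 + (b/2 + 1/2) * (1 - y2)) * h1

lemma gv_zero {κ : ℝ} (hκ : 0 < κ) {q : ℝ × ℝ × ℝ × ℝ} (hq : 0 < q.2.1) :
    gv κ (κ / 8 - 1) 0 (bb κ) (-(bb κ) / 2) q = 0 := by
  have := gv_one (p := 0) hκ hq
  simpa using this

lemma gv_two {κ p : ℝ} (hκ : 0 < κ) {q : ℝ × ℝ × ℝ × ℝ} (hq : 0 < q.2.1) :
    gv κ (κ / 8 - 1) p (bb κ) ((p - bb κ) / 2) q
      = -p + 4 * p * ((q.1 ^ 2 / (q.1 ^ 2 + q.2.1 ^ 2)) * (κ / 8 * (p + 1) - 1)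
        + κ / 8 * (q.2.1 ^ 2 / (q.1 ^ 2 + q.2.1 ^ 2))) := by
  have h1 := kb hκ
  have h2 := xy_one hq
  unfold gv
  set x2 := q.1 ^ 2 / (q.1 ^ 2 + q.2.1 ^ 2)
  set y2 := q.2.1 ^ 2 / (q.1 ^ 2 + q.2.1 ^ 2)
  have h3 : x2 = 1 - y2 := by linarith
  rw [h3]
  generalize bb κ = b at *
  linear_combination (-1/2 + (b/2 + 1/2 - p) * (1 - y2)) * h1

theorem gen_Gq {κ : ℝ} (hκ : 0 < κ) {q : ℝ × ℝ × ℝ × ℝ} (hq : 0 < q.2.1) :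
    gen κ (fun q => 1 * mono (κ / 8 - 1) 0 (bb κ) (-(bb κ) / 2) q
      + 0 * mono (κ / 8 - 1) 0 (bb κ) (-(bb κ) / 2) q) q = 0 := by
  rw [gen_lin κ _ _ _ _ _ _ _ _ _ _ hq, gv_zero hκ hq]
  simp

/-- `y² m₂ ≤ m₁` -/
lemma mono_le {κ p : ℝ} (hp2 : p ≤ 2) {q : ℝ × ℝ × ℝ × ℝ} (hq : 0 < q.2.1) :
    (q.2.1 ^ 2 / (q.1 ^ 2 + q.2.1 ^ 2)) * mono (κ / 8 - 1) p (bb κ) ((p - bb κ) / 2) q
      ≤ mono (κ / 8 - 1) p (p + bb κ) (-(bb κ) / 2) q := by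
  have hR := R_pos hq q.1
  set R := q.1 ^ 2 + q.2.1 ^ 2 with hRdef
  have hYR : q.2.1 ^ 2 ≤ R := by rw [hRdef]; nlinarith [sq_nonneg q.1]
  have key : (q.2.1 ^ 2 / R) * R ^ (p / 2) ≤ q.2.1 ^ p := by
    have h1 : (q.2.1 ^ 2) ^ (1 - p / 2) ≤ R ^ (1 - p / 2) :=
      Real.rpow_le_rpow (by positivity) hYR (by linarith)
    have h2 : (q.2.1 ^ 2) ^ (1 - p / 2) = q.2.1 ^ 2 / q.2.1 ^ p := by
      rw [← Real.rpow_natCast, ← Real.rpow_mul hq.le]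
      have e : ((2 : ℕ) : ℝ) * (1 - p / 2) = ((2 : ℕ) : ℝ) - p := by push_cast; ring
      rw [e, Real.rpow_sub hq]
    have h3 : R ^ (1 - p / 2) = R / R ^ (p / 2) := by
      rw [Real.rpow_sub hR, Real.rpow_one]
    rw [h2, h3] at h1
    have hYp : 0 < q.2.1 ^ p := Real.rpow_pos_of_pos hq _
    have hRp : 0 < R ^ (p / 2) := Real.rpow_pos_of_pos hR _
    rw [div_le_div_iff₀ hYp hRp] at h1
    rw [div_mul_eq_mul_div, div_le_iff₀ hR]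
    linarith
  unfold mono
  rw [← hRdef]
  have e1 : R ^ ((p - bb κ) / 2) = R ^ (p / 2) * R ^ (-(bb κ) / 2) := by
    rw [← Real.rpow_add hR]; congr 1; ring
  have e2 : q.2.1 ^ (p + bb κ) = q.2.1 ^ p * q.2.1 ^ (bb κ) := Real.rpow_add hq _ _
  rw [e1, e2]
  have hE : 0 < Real.exp ((κ / 8 - 1) * q.2.2.1 + p * q.2.2.2) := Real.exp_pos _
  have hYb : 0 < q.2.1 ^ (bb κ) := Real.rpow_pos_of_pos hq _
  have hRb : 0 < R ^ (-(bb κ) / 2) := Real.rpow_pos_of_pos hR _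
  calc q.2.1 ^ 2 / R * (Real.exp ((κ / 8 - 1) * q.2.2.1 + p * q.2.2.2) * q.2.1 ^ bb κ *
        (R ^ (p / 2) * R ^ (-(bb κ) / 2)))
      = (q.2.1 ^ 2 / R * R ^ (p / 2)) *
        (Real.exp ((κ / 8 - 1) * q.2.2.1 + p * q.2.2.2) * q.2.1 ^ bb κ * R ^ (-(bb κ) / 2)) := by
        ring
    _ ≤ q.2.1 ^ p *
        (Real.exp ((κ / 8 - 1) * q.2.2.1 + p * q.2.2.2) * q.2.1 ^ bb κ * R ^ (-(bb κ) / 2)) :=
        mul_le_mul_of_nonneg_right key (by positivity)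
    _ = _ := by ring

theorem gen_Fq {κ p : ℝ} (hκ : 0 < κ) (hp : 0 ≤ p) (hp2 : p ≤ 2) (hpb : p ≤ bb κ)
    {q : ℝ × ℝ × ℝ × ℝ} (hq : 0 < q.2.1) : gen κ (Fq κ p) q ≤ 0 := by
  have hR := R_pos hq q.1
  have e : gen κ (Fq κ p) q = _ := gen_lin κ (κ / 2) 1 (κ / 8 - 1) p (p + bb κ) (-(bb κ) / 2)
    (κ / 8 - 1) p (bb κ) ((p - bb κ) / 2) hq
  rw [e, gv_one hκ hq, gv_two hκ hq]
  refine div_nonpos_of_nonpos_of_nonneg ?_ hR.le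
  have h1 := mono_le (κ := κ) hp2 hq
  have hm1 : 0 < mono (κ / 8 - 1) p (p + bb κ) (-(bb κ) / 2) q := mono_pos hq
  have hm2 : 0 < mono (κ / 8 - 1) p (bb κ) ((p - bb κ) / 2) q := mono_pos hq
  have hx : 0 ≤ q.1 ^ 2 / (q.1 ^ 2 + q.2.1 ^ 2) := by positivity
  have hb : κ / 8 * (p + 1) - 1 ≤ 0 := by
    have := kb hκ
    nlinarith
  set x2 := q.1 ^ 2 / (q.1 ^ 2 + q.2.1 ^ 2)
  set y2 := q.2.1 ^ 2 / (q.1 ^ 2 + q.2.1 ^ 2)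
  set m1 := mono (κ / 8 - 1) p (p + bb κ) (-(bb κ) / 2) q
  set m2 := mono (κ / 8 - 1) p (bb κ) ((p - bb κ) / 2) q
  have h5 : 4 * p * (x2 * (κ / 8 * (p + 1) - 1)) * m2 ≤ 0 := by
    have : x2 * (κ / 8 * (p + 1) - 1) ≤ 0 := mul_nonpos_of_nonneg_of_nonpos hx hb
    have h6 : 4 * p * (x2 * (κ / 8 * (p + 1) - 1)) ≤ 0 :=
      mul_nonpos_of_nonneg_of_nonpos (by linarith) this
    exact mul_nonpos_of_nonpos_of_nonneg h6 hm2.le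
  have h7 : p * κ / 2 * (y2 * m2) ≤ p * κ / 2 * m1 :=
    mul_le_mul_of_nonneg_left h1 (by positivity)
  have h8 : 0 ≤ p * m2 := by positivity
  nlinarith

lemma contDiffOn_mono (ℓ c α β : ℝ) :
    ContDiffOn ℝ 3 (mono ℓ c α β) {q : ℝ × ℝ × ℝ × ℝ | 0 < q.2.1} := by
  unfold mono
  refine ContDiffOn.mul (ContDiffOn.mul ?_ ?_) ?_
  · exact (Real.contDiff_exp.comp (by fun_prop)).contDiffOn
  · exact ContDiffOn.rpow_const_of_ne (by fun_prop) (fun q hq => (ne_of_gt hq))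
  · exact ContDiffOn.rpow_const_of_ne (by fun_prop) (fun q hq => (R_pos hq q.1).ne')

lemma contDiffOn_Fq (κ p : ℝ) :
    ContDiffOn ℝ 3 (Fq κ p) {q : ℝ × ℝ × ℝ × ℝ | 0 < q.2.1} := by
  unfold Fq
  exact (contDiffOn_const.mul (contDiffOn_mono _ _ _ _)).add
    (contDiffOn_const.mul (contDiffOn_mono _ _ _ _))

/-- `Λ^p G ≤ F` where `Λ ≤ e^a |Z|` -/
lemma G_le_F {κ p Λ : ℝ} (hκ : 0 < κ) (hp : 0 ≤ p) (hΛ : 0 ≤ Λ) {q : ℝ × ℝ × ℝ × ℝ} (hq : 0 < q.2.1)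
    (h : Λ ≤ Real.exp q.2.2.2 * Real.sqrt (q.1 ^ 2 + q.2.1 ^ 2)) :
    Λ ^ p * Gq κ q ≤ Fq κ p q := by
  have hR := R_pos hq q.1
  set R := q.1 ^ 2 + q.2.1 ^ 2 with hRdef
  rw [Gq_eq κ hq]
  have h1 : Λ ^ p ≤ Real.exp (p * q.2.2.2) * R ^ (p / 2) := by
    calc Λ ^ p ≤ (Real.exp q.2.2.2 * Real.sqrt R) ^ p := Real.rpow_le_rpow hΛ h hp
      _ = Real.exp (p * q.2.2.2) * R ^ (p / 2) := by
        rw [Real.mul_rpow (Real.exp_pos _).le (Real.sqrt_nonneg _), ← Real.exp_mul,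
          Real.sqrt_eq_rpow, ← Real.rpow_mul hR.le, mul_comm q.2.2.2 p]
        congr 2; ring
  have h2 : mono (κ / 8 - 1) p (bb κ) ((p - bb κ) / 2) q
      = (Real.exp (p * q.2.2.2) * R ^ (p / 2)) * mono (κ / 8 - 1) 0 (bb κ) (-(bb κ) / 2) q := by
    unfold mono
    rw [← hRdef]
    have e1 : R ^ ((p - bb κ) / 2) = R ^ (p / 2) * R ^ (-(bb κ) / 2) := by
      rw [← Real.rpow_add hR]; congr 1; ring
    have e2 : Real.exp ((κ / 8 - 1) * q.2.2.1 + p * q.2.2.2)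
        = Real.exp (p * q.2.2.2) * Real.exp ((κ / 8 - 1) * q.2.2.1 + 0 * q.2.2.2) := by
      rw [← Real.exp_add]; congr 1; ring
    rw [e1, e2]; ring
  have hm0 : 0 < mono (κ / 8 - 1) 0 (bb κ) (-(bb κ) / 2) q := mono_pos hq
  have hm1 : 0 < mono (κ / 8 - 1) p (p + bb κ) (-(bb κ) / 2) q := mono_pos hq
  unfold Fq
  rw [h2]
  have h3 := mul_le_mul_of_nonneg_right h1 hm0.le
  have h4 : 0 ≤ κ / 2 * mono (κ / 8 - 1) p (p + bb κ) (-(bb κ) / 2) q := by positivity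
  linarith

/-- the value at the start (`a = 0`) -/
lemma Fq_start {κ p : ℝ} (hκ : 0 < κ) (hκ8 : κ < 8) (hp : 0 ≤ p) {q : ℝ × ℝ × ℝ × ℝ} (hq : 0 < q.2.1)
    (ha : q.2.2.2 = 0) :
    Fq κ p q ≤ 5 * (q.1 ^ 2 + q.2.1 ^ 2) ^ (p / 2) * Gq κ q := by
  have hR := R_pos hq q.1
  set R := q.1 ^ 2 + q.2.1 ^ 2 with hRdef
  rw [Gq_eq κ hq]
  have hm0 : 0 < mono (κ / 8 - 1) 0 (bb κ) (-(bb κ) / 2) q := mono_pos hq
  have e1 : mono (κ / 8 - 1) p (bb κ) ((p - bb κ) / 2) q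
      = R ^ (p / 2) * mono (κ / 8 - 1) 0 (bb κ) (-(bb κ) / 2) q := by
    unfold mono
    rw [← hRdef, ha]
    have e1 : R ^ ((p - bb κ) / 2) = R ^ (p / 2) * R ^ (-(bb κ) / 2) := by
      rw [← Real.rpow_add hR]; congr 1; ring
    rw [e1]; simp only [mul_zero]; ring
  have e2 : mono (κ / 8 - 1) p (p + bb κ) (-(bb κ) / 2) q
      = q.2.1 ^ p * mono (κ / 8 - 1) 0 (bb κ) (-(bb κ) / 2) q := by
    unfold mono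
    rw [← hRdef, ha]
    have e2 : q.2.1 ^ (p + bb κ) = q.2.1 ^ p * q.2.1 ^ (bb κ) := Real.rpow_add hq _ _
    rw [e2]; simp only [mul_zero]; ring
  have h1 : q.2.1 ^ p ≤ R ^ (p / 2) := by
    have : (q.2.1 ^ 2) ^ (p / 2) ≤ R ^ (p / 2) :=
      Real.rpow_le_rpow (by positivity) (by rw [hRdef]; nlinarith [sq_nonneg q.1]) (by positivity)
    have e : (q.2.1 ^ 2) ^ (p / 2) = q.2.1 ^ p := by
      rw [← Real.rpow_natCast, ← Real.rpow_mul hq.le]; congr 1; push_cast; ring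
    rwa [e] at this
  unfold Fq
  rw [e1, e2]
  have h2 := mul_le_mul_of_nonneg_right h1 hm0.le
  have h3 : 0 ≤ R ^ (p / 2) * mono (κ / 8 - 1) 0 (bb κ) (-(bb κ) / 2) q := by positivity
  have h4 : 0 ≤ q.2.1 ^ p * mono (κ / 8 - 1) 0 (bb κ) (-(bb κ) / 2) q := by positivity
  nlinarith

end Crest.Agent.R162.LB7p
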