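import Mathlib
import Crest.Agent.R162.LB7g
import Crest.Agent.R162.LB7d
import Crest.Agent.R162.OS

/-!
Row 162, node LB7' (helper926): decay in time of the Green-weighted survival,
`E[G_t(w); alive] ≤ 5 (|w|²/(2t))^{p/2} G_0(w)`, `0 ≤ p ≤ 2`, `p ≤ b = 8/κ - 1`.
-/

set_option autoImplicit false
set_option linter.unusedSectionVars false

open MeasureTheory ProbabilityTheory Set Filter Topology
open scoped NNReal ENNReal
open Crest.ProbabilityR.Loewner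

namespace Crest.Agent.R162.LB7p

open FL OS OP

/-- the open box -/
def UU (N : ℝ) : Set (ℝ × ℝ × ℝ × ℝ) :=
  Ioo (-N) N ×ˢ (Ioo N⁻¹ N ×ˢ (Ioo (-N) N ×ˢ Ioo (-N) N))

/-- the closed box -/
def CC (N : ℝ) : Set (ℝ × ℝ × ℝ × ℝ) :=
  Icc (-N) N ×ˢ (Icc N⁻¹ N ×ˢ (Icc (-N) N ×ˢ Icc (-N) N))

/-- the part of the open box where `exp a |Z| < Λ` -/
def OO (Λ N : ℝ) : Set (ℝ × ℝ × ℝ × ℝ) :=
  UU N ∩ {q | Real.exp q.2.2.2 * Real.sqrt (q.1 ^ 2 + q.2.1 ^ 2) < Λ}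

lemma isOpen_UU (N : ℝ) : IsOpen (UU N) :=
  isOpen_Ioo.prod (isOpen_Ioo.prod (isOpen_Ioo.prod isOpen_Ioo))

lemma isOpen_OO (Λ N : ℝ) : IsOpen (OO Λ N) := by
  refine (isOpen_UU N).inter (isOpen_lt ?_ continuous_const)
  fun_prop

lemma isCompact_CC (N : ℝ) : IsCompact (CC N) :=
  isCompact_Icc.prod (isCompact_Icc.prod (isCompact_Icc.prod isCompact_Icc))

lemma UU_sub_CC (N : ℝ) : UU N ⊆ CC N :=
  prod_mono Ioo_subset_Icc_self (prod_mono Ioo_subset_Icc_self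
    (prod_mono Ioo_subset_Icc_self Ioo_subset_Icc_self))

lemma closure_UU (N : ℝ) : closure (UU N) ⊆ CC N :=
  closure_minimal (UU_sub_CC N) (isCompact_CC N).isClosed

lemma CC_im {N : ℝ} {q : ℝ × ℝ × ℝ × ℝ} (h : q ∈ CC N) : N⁻¹ ≤ q.2.1 := h.2.1.1

lemma CC_im_pos {N : ℝ} (hN : 0 < N) {q : ℝ × ℝ × ℝ × ℝ} (h : q ∈ CC N) : 0 < q.2.1 :=
  (inv_pos.2 hN).trans_le (CC_im h)

lemma continuous_driving {Ω : Type*} {m : MeasurableSpace Ω} {P : Measure Ω}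
    {Fl : Filtration ℝ≥0 m} {B : ℝ≥0 → Ω → ℝ} (hB : IsBM Fl B P) (κ : ℝ) (ω : Ω) :
    Continuous (driving κ B ω) := by
  unfold driving
  exact continuous_const.mul ((hB.cont ω).comp continuous_real_toNNReal)

lemma driving_zero {Ω : Type*} {m : MeasurableSpace Ω} {P : Measure Ω}
    {Fl : Filtration ℝ≥0 m} {B : ℝ≥0 → Ω → ℝ} (hB : IsBM Fl B P) (κ : ℝ) (ω : Ω) :
    driving κ B ω 0 = 0 := by
  simp [driving, hB.zero ω]

lemma measurable_mono (ℓ c α β : ℝ) : Measurable (mono ℓ c α β) := by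
  unfold mono
  have h1 : Measurable fun q : ℝ × ℝ × ℝ × ℝ => q.2.1 ^ α :=
    (measurable_fst.comp measurable_snd).pow_const α
  have h2 : Measurable fun q : ℝ × ℝ × ℝ × ℝ => (q.1 ^ 2 + q.2.1 ^ 2) ^ β :=
    Measurable.pow_const (by fun_prop) β
  exact (Measurable.mul (by fun_prop) h1).mul h2

lemma measurable_Fq (κ p : ℝ) : Measurable (Fq κ p) := by
  unfold Fq
  exact ((measurable_mono _ _ _ _).const_mul _).add ((measurable_mono _ _ _ _).const_mul _)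

lemma measurable_Gq (κ : ℝ) : Measurable (Gq κ) := by
  unfold Gq sinq
  refine Measurable.mul (by fun_prop) (Measurable.pow_const ?_ _)
  exact Measurable.div (by fun_prop) (by fun_prop)

section

variable {Ω : Type*} {m : MeasurableSpace Ω} {P : Measure Ω} [IsProbabilityMeasure P]
  {Fl : Filtration ℝ≥0 m} {B : ℝ≥0 → Ω → ℝ} {κ : ℝ} {w : ℂ}

lemma le_hit' {E : Type*} {X : ℝ≥0 → Ω → E} {K : Set E} {σ : Ω → ℝ≥0} {T : ℝ≥0} {ω : Ω} :
    σ ω ≤ hit X K σ T ω := by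
  refine le_csInf ⟨max T (σ ω), Or.inr rfl⟩ ?_
  rintro x (⟨h, -⟩ | h)
  · exact h
  · rw [h]; exact le_max_right _ _

lemma hit_le' {E : Type*} {X : ℝ≥0 → Ω → E} {K : Set E} {σ : Ω → ℝ≥0} {T : ℝ≥0} {ω : Ω}
    (h : σ ω ≤ T) : hit X K σ T ω ≤ T := by
  have h1 : hit X K σ T ω ≤ max T (σ ω) := csInf_le (OrderBot.bddBelow _) (Or.inr rfl)
  rwa [max_eq_left h] at h1

lemma notMem_of_lt {E : Type*} {X : ℝ≥0 → Ω → E} {K : Set E} {σ : Ω → ℝ≥0} {T : ℝ≥0} {ω : Ω}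
    {s : ℝ≥0} (h1 : σ ω ≤ s) (h2 : s < hit X K σ T ω) : X s ω ∉ K := by
  intro h
  have h3 : hit X K σ T ω ≤ s := csInf_le (OrderBot.bddBelow _) (Or.inl ⟨h1, h⟩)
  exact absurd h3 (not_le.2 h2)

/-- if the path does not meet `K` on `[σ, T]` then the hitting time is `T` -/
lemma hit_eq {E : Type*} {X : ℝ≥0 → Ω → E} {K : Set E} {σ : Ω → ℝ≥0} {T : ℝ≥0} {ω : Ω}
    (h : σ ω ≤ T) (hn : ∀ s, σ ω ≤ s → s ≤ T → X s ω ∉ K) : hit X K σ T ω = T := by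
  refine le_antisymm (hit_le' h) (le_csInf ⟨max T (σ ω), Or.inr rfl⟩ ?_)
  rintro x (⟨h1, h2⟩ | h1)
  · by_contra hc
    exact hn x h1 (not_le.1 hc).le h2
  · rw [h1]; exact le_max_left _ _

/-- the whole closed interval up to the exit is alive, with states in the closure -/
lemma exit_all {ω : Ω} (hW : Continuous (driving κ B ω)) {O : Set (ℝ × ℝ × ℝ × ℝ)} {δ : ℝ}
    (hδ : 0 < δ) (hO : ∀ q ∈ O, δ ≤ q.2.1) {σ : Ω → ℝ≥0} {T : ℝ≥0}
    (hst : stP κ B w (σ ω) ω ∈ O) {s : ℝ≥0} (h1 : σ ω ≤ s)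
    (h2 : s ≤ hit (stP κ B w) Oᶜ σ T ω) : AliveP κ B w s ω ∧ stP κ B w s ω ∈ closure O := by
  have hin : ∀ r : ℝ≥0, σ ω ≤ r → r < hit (stP κ B w) Oᶜ σ T ω → stP κ B w r ω ∈ O :=
    fun r hr1 hr2 => not_not.1 (notMem_of_lt hr1 hr2)
  refine exit_alive hW.continuousOn hδ hO (σ := (σ ω : ℝ)) (h := (s : ℝ)) (σ ω).2
    (by exact_mod_cast h1) (fun r hr1 hr2 => ?_) hst
  have hr0 : 0 ≤ r := (σ ω).2.trans hr1
  exact hin (⟨r, hr0⟩ : ℝ≥0) (NNReal.coe_le_coe.1 hr1)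
    (lt_of_lt_of_le (NNReal.coe_lt_coe.1 hr2) h2)

/-- at an exit before `T` the state is not in the open set -/
lemma exit_notMem {ω : Ω} (hW : Continuous (driving κ B ω)) {O : Set (ℝ × ℝ × ℝ × ℝ)}
    (hO : IsOpen O) {σ : Ω → ℝ≥0} {T : ℝ≥0} (ha : AliveP κ B w (hit (stP κ B w) Oᶜ σ T ω) ω)
    (hlt : hit (stP κ B w) Oᶜ σ T ω < T) : stP κ B w (hit (stP κ B w) Oᶜ σ T ω) ω ∉ O := by
  intro hmem
  obtain ⟨ε, hε, hs⟩ := stay_open hW.continuousOn hO ha hmem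
  set h := hit (stP κ B w) Oᶜ σ T ω with hdef
  have hpos : (0 : ℝ) < min ε ((T : ℝ) - h) := lt_min hε (by
    have : (h : ℝ) < T := by exact_mod_cast hlt
    linarith)
  have key : h + ⟨min ε ((T : ℝ) - h), hpos.le⟩ ≤ h := by
    conv_rhs => rw [hdef]
    refine le_csInf ⟨max T (σ ω), Or.inr rfl⟩ ?_
    rintro x (⟨hx1, hx2⟩ | hx)
    · by_contra hc
      push Not at hc
      have hx3 : h ≤ x := by
        rw [hdef]; exact csInf_le (OrderBot.bddBelow _) (Or.inl ⟨hx1, hx2⟩)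
      refine hx2 (hs x (by exact_mod_cast hx3) ?_)
      have : (x : ℝ) < h + min ε ((T : ℝ) - h) := by exact_mod_cast hc
      exact this.trans_le (by linarith [min_le_left ε ((T : ℝ) - h)])
    · rw [hx]
      refine le_trans ?_ (le_max_left _ _)
      rw [← NNReal.coe_le_coe]
      have := min_le_right ε ((T : ℝ) - h)
      show (h : ℝ) + min ε ((T : ℝ) - h) ≤ T
      linarith
  have : (h : ℝ) + min ε ((T : ℝ) - h) ≤ h := by exact_mod_cast key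
  linarith

lemma aesm_of {E : Type*} [MeasurableSpace E] {μ : Measure Ω} {A : Set Ω} (hA : MeasurableSet A)
    {Z : Ω → E}
    (hZ : ∀ S, MeasurableSet S → MeasurableSet (A ∩ Z ⁻¹' S)) {f : E → ℝ} (hf : Measurable f) :
    AEStronglyMeasurable (fun ω => f (Z ω)) (μ.restrict A) := by
  refine AEMeasurable.aestronglyMeasurable ?_
  rw [← aemeasurable_indicator_iff hA]
  refine Measurable.aemeasurable fun S hS => ?_
  rw [Set.indicator_preimage]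
  have h1 := hZ (f ⁻¹' S) (hf hS)
  have e : A.ite ((fun ω => f (Z ω)) ⁻¹' S) (0 ⁻¹' S) = (A ∩ Z ⁻¹' (f ⁻¹' S)) ∪ ((0 : Ω → ℝ) ⁻¹' S \ A) := by
    unfold Set.ite
    rw [inter_comm]; rfl
  rw [e]
  exact h1.union ((measurable_zero hS).diff hA)

/-- exit-time measurability facts (from helper9's OPExit) -/
structure ExitFacts (Fl : Filtration ℝ≥0 m) (B : ℝ≥0 → Ω → ℝ) (κ : ℝ) (w : ℂ) : Prop where
  st : ∀ {O : Set (ℝ × ℝ × ℝ × ℝ)} {δ : ℝ}, IsOpen O → 0 < δ → (∀ q ∈ O, δ ≤ q.2.1) →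
    ∀ {σ : Ω → ℝ≥0}, IsST Fl σ → ∀ T : ℝ≥0, IsST Fl (hit (stP κ B w) Oᶜ σ T)
  ev : ∀ {σ : Ω → ℝ≥0}, IsST Fl σ → ∀ {S : Set (ℝ × ℝ × ℝ × ℝ)}, MeasurableSet S →
    EvST Fl σ {ω | AliveP κ B w (σ ω) ω ∧ stP κ B w (σ ω) ω ∈ S}

/-- start state -/
noncomputable def q0 (w : ℂ) : ℝ × ℝ × ℝ × ℝ := (w.re, w.im, Real.log w.im, 0)

/-- first time `exp a |Z| ≥ Λ` or exit from the box -/
noncomputable def tau (κ : ℝ) (B : ℝ≥0 → Ω → ℝ) (w : ℂ) (Λ N : ℝ) (t : ℝ≥0) : Ω → ℝ≥0 :=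
  hit (stP κ B w) (OO Λ N)ᶜ (fun _ => 0) t

/-- exit time from the box after `tau` -/
noncomputable def tau' (κ : ℝ) (B : ℝ≥0 → Ω → ℝ) (w : ℂ) (Λ N : ℝ) (t : ℝ≥0) : Ω → ℝ≥0 :=
  hit (stP κ B w) (UU N)ᶜ (tau κ B w Λ N t) t

/-- the event of stage 2 -/
def AA (κ : ℝ) (B : ℝ≥0 → Ω → ℝ) (w : ℂ) (Λ N : ℝ) (t : ℝ≥0) : Set Ω :=
  {ω | AliveP κ B w (tau κ B w Λ N t ω) ω ∧ stP κ B w (tau κ B w Λ N t ω) ω ∈
    (UU N ∩ {q | Λ ≤ Real.exp q.2.2.2 * Real.sqrt (q.1 ^ 2 + q.2.1 ^ 2)})}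

lemma stP_zero (hB : IsBM Fl B P) (hw : 0 < w.im) (ω : Ω) : stP κ B w 0 ω = q0 w := by
  unfold stP q0
  exact stW_zero (driving_zero hB κ ω) hw

lemma UU_im {N : ℝ} (q : ℝ × ℝ × ℝ × ℝ) (h : q ∈ UU N) : N⁻¹ ≤ q.2.1 := h.2.1.1.le

lemma UU_pos {N : ℝ} {q : ℝ × ℝ × ℝ × ℝ} (h : q ∈ UU N) : 0 < N := by
  have h1 : -N < q.1 := h.1.1
  have h2 : q.1 < N := h.1.2
  linarith

lemma stage1_path (hB : IsBM Fl B P) (hw : 0 < w.im) {Λ N : ℝ} {t : ℝ≥0} (h0 : q0 w ∈ UU N)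
    (ω : Ω) {s : ℝ≥0} (hs : s ≤ tau κ B w Λ N t ω) :
    AliveP κ B w s ω ∧ stP κ B w s ω ∈ CC N := by
  have hN := UU_pos h0
  by_cases hO : q0 w ∈ OO Λ N
  · have h1 := exit_all (continuous_driving hB κ ω) (inv_pos.2 hN)
      (fun q hq => UU_im q (hq : q ∈ OO Λ N).1) (σ := fun _ => 0) (T := t)
      (by rw [stP_zero hB hw]; exact hO) (zero_le) hs
    exact ⟨h1.1, closure_UU N (closure_mono inter_subset_left h1.2)⟩
  · have h1 : tau κ B w Λ N t ω = 0 := by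
      refine le_antisymm (csInf_le (OrderBot.bddBelow _) (Or.inl ⟨le_rfl, ?_⟩)) (zero_le)
      rw [stP_zero hB hw]; exact hO
    rw [h1] at hs
    have h2 : s = 0 := le_antisymm hs (zero_le)
    subst h2
    rw [stP_zero hB hw]
    exact ⟨alive_zero hw, UU_sub_CC N h0⟩

lemma isST_zero : IsST Fl (fun _ : Ω => (0 : ℝ≥0)) := fun t => by simp

lemma isST_tau (hE : ExitFacts Fl B κ w) {Λ N : ℝ} (hN : 0 < N) (t : ℝ≥0) :
    IsST Fl (tau κ B w Λ N t) :=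
  hE.st (isOpen_OO Λ N) (inv_pos.2 hN) (fun q hq => UU_im q (hq : q ∈ OO Λ N).1) isST_zero t

lemma isST_tau' (hE : ExitFacts Fl B κ w) {Λ N : ℝ} (hN : 0 < N) (t : ℝ≥0) :
    IsST Fl (tau' κ B w Λ N t) :=
  hE.st (isOpen_UU N) (inv_pos.2 hN) UU_im (isST_tau hE hN t) t

lemma meas_AA (Λ N : ℝ) : MeasurableSet
    (UU N ∩ {q : ℝ × ℝ × ℝ × ℝ | Λ ≤ Real.exp q.2.2.2 * Real.sqrt (q.1 ^ 2 + q.2.1 ^ 2)}) := by
  refine (isOpen_UU N).measurableSet.inter (IsClosed.measurableSet (isClosed_le continuous_const ?_))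
  fun_prop

lemma evST_AA (hE : ExitFacts Fl B κ w) {Λ N : ℝ} (hN : 0 < N) (t : ℝ≥0) :
    EvST Fl (tau κ B w Λ N t) (AA κ B w Λ N t) :=
  hE.ev (isST_tau hE hN t) (meas_AA Λ N)

lemma tau_le {Λ N : ℝ} {t : ℝ≥0} (ω : Ω) : tau κ B w Λ N t ω ≤ t := hit_le' (zero_le)

lemma tau'_le {Λ N : ℝ} {t : ℝ≥0} (ω : Ω) : tau' κ B w Λ N t ω ≤ t := hit_le' (tau_le ω)

lemma tau_le_tau' {Λ N : ℝ} {t : ℝ≥0} (ω : Ω) : tau κ B w Λ N t ω ≤ tau' κ B w Λ N t ω := le_hit'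

lemma stage2_path (hB : IsBM Fl B P) {Λ N : ℝ} {t : ℝ≥0} (hN : 0 < N)
    {ω : Ω} (hω : ω ∈ AA κ B w Λ N t) {s : ℝ≥0} (h1 : tau κ B w Λ N t ω ≤ s)
    (h2 : s ≤ tau' κ B w Λ N t ω) : AliveP κ B w s ω ∧ stP κ B w s ω ∈ CC N := by
  have h3 := exit_all (continuous_driving hB κ ω) (inv_pos.2 hN) UU_im hω.2.1 h1 h2
  exact ⟨h3.1, closure_UU N h3.2⟩

lemma stW_im_pos {W : ℝ → ℝ} {w : ℂ} {s : ℝ} (h : Alive W w s) : 0 < (stW W s w).2.1 :=
  Zfl_im_pos h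

lemma exists_bound {f : ℝ × ℝ × ℝ × ℝ → ℝ} {N : ℝ} (hN : 0 < N)
    (hf : ContinuousOn f {q : ℝ × ℝ × ℝ × ℝ | 0 < q.2.1}) : ∃ M : ℝ, ∀ q ∈ CC N, |f q| ≤ M := by
  obtain ⟨M, hM⟩ := (isCompact_CC N).exists_bound_of_continuousOn
    (hf.mono fun q hq => CC_im_pos hN hq)
  exact ⟨M, fun q hq => hM q hq⟩

end

universe u

section

variable {Ω : Type u} {m : MeasurableSpace Ω} {P : Measure Ω} [IsProbabilityMeasure P]
  {Fl : Filtration ℝ≥0 m} {B : ℝ≥0 → Ω → ℝ} {κ : ℝ} {w : ℂ}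

lemma isOpen_Y : IsOpen {q : ℝ × ℝ × ℝ × ℝ | 0 < q.2.1} :=
  isOpen_lt continuous_const (by fun_prop)

/-- integrability of a continuous function of the state at a time up to which the state is in the
box, on an event -/
lemma integrable_st (hE : ExitFacts Fl B κ w) {N : ℝ} (hN : 0 < N) {f : ℝ × ℝ × ℝ × ℝ → ℝ}
    (hfm : Measurable f) (hf : ContinuousOn f {q : ℝ × ℝ × ℝ × ℝ | 0 < q.2.1}) {σ : Ω → ℝ≥0}
    (hσ : IsST Fl σ) {A : Set Ω} (hA : MeasurableSet A)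
    (h : ∀ ω ∈ A, AliveP κ B w (σ ω) ω ∧ stP κ B w (σ ω) ω ∈ CC N) :
    IntegrableOn (fun ω => f (stP κ B w (σ ω) ω)) A P := by
  obtain ⟨M, hM⟩ := exists_bound hN hf
  refine Integrable.of_bound (C := M) (aesm_of hA (fun S hS => ?_) hfm) ?_
  · have h1 := (hE.ev hσ hS).measurableSet
    have e : A ∩ (fun ω => stP κ B w (σ ω) ω) ⁻¹' S
        = A ∩ {ω | AliveP κ B w (σ ω) ω ∧ stP κ B w (σ ω) ω ∈ S} := by
      ext ω
      constructor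
      · rintro ⟨h2, h3⟩; exact ⟨h2, (h ω h2).1, h3⟩
      · rintro ⟨h2, h3⟩; exact ⟨h2, h3.2⟩
    rw [e]
    exact hA.inter h1
  · exact (ae_restrict_iff' hA).2 (Eventually.of_forall fun ω hω => hM _ (h ω hω).2)

/-- STAGE 1 -/
lemma stage1 (hM : OPM.{u}) (hB : IsBM Fl B P) (hE : ExitFacts Fl B κ w) (hκ : 0 < κ)
    (hw : 0 < w.im) {p : ℝ} (hp : 0 ≤ p) (hp2 : p ≤ 2) (hpb : p ≤ bb κ) {Λ N : ℝ} {t : ℝ≥0}
    (h0 : q0 w ∈ UU N) :
    ∫ ω, Fq κ p (stP κ B w (tau κ B w Λ N t ω) ω) ∂P ≤ Fq κ p (q0 w) := by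
  have hN := UU_pos h0
  have h1 := hM hB hκ hw isOpen_Y (fun _ h => h) (contDiffOn_Fq κ p) (isCompact_CC N)
    (fun q hq => CC_im_pos hN hq) (σ := fun _ => 0) (isST_zero (Fl := Fl))
    (isST_tau hE (Λ := Λ) hN t) (T := t) (fun ω => tau_le ω) (A := univ)
    (EvST.univ isST_zero) (fun ω _ => zero_le)
    (fun ω _ s _ hs => stage1_path hB hw h0 ω hs)
  simp only [Measure.restrict_univ, stP_zero hB hw, integral_const, probReal_univ, one_smul] at h1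
  rw [h1]
  have h2 : ∫ ω, (∫ s in ((0 : ℝ≥0) : ℝ)..(tau κ B w Λ N t ω : ℝ),
      gen κ (Fq κ p) (stW (driving κ B ω) s w)) ∂P ≤ 0 := by
    refine integral_nonpos fun ω => ?_
    simp only [Pi.zero_apply]
    rw [← neg_nonneg, ← intervalIntegral.integral_neg]
    refine intervalIntegral.integral_nonneg (by exact_mod_cast zero_le) fun s hs => ?_
    rw [neg_nonneg]
    refine gen_Fq hκ hp hp2 hpb (stW_im_pos ?_)
    have hs0 : 0 ≤ s := hs.1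
    exact (stage1_path hB hw h0 ω (s := (⟨s, hs0⟩ : ℝ≥0)) (NNReal.coe_le_coe.1 hs.2)).1
  linarith

/-- the smooth version of `Gq` -/
noncomputable def G' (κ : ℝ) (q : ℝ × ℝ × ℝ × ℝ) : ℝ :=
  1 * mono (κ / 8 - 1) 0 (bb κ) (-(bb κ) / 2) q + 0 * mono (κ / 8 - 1) 0 (bb κ) (-(bb κ) / 2) q

lemma G'_eq {q : ℝ × ℝ × ℝ × ℝ} (hq : 0 < q.2.1) : G' κ q = Gq κ q := by
  rw [Gq_eq κ hq, G']; ring

lemma measurable_G' (κ : ℝ) : Measurable (G' κ) :=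
  ((measurable_mono _ _ _ _).const_mul _).add ((measurable_mono _ _ _ _).const_mul _)

lemma contDiffOn_G' (κ : ℝ) : ContDiffOn ℝ 3 (G' κ) {q : ℝ × ℝ × ℝ × ℝ | 0 < q.2.1} :=
  (contDiffOn_const.mul (contDiffOn_mono _ _ _ _)).add
    (contDiffOn_const.mul (contDiffOn_mono _ _ _ _))

/-- STAGE 2 -/
lemma stage2 (hM : OPM.{u}) (hB : IsBM Fl B P) (hE : ExitFacts Fl B κ w) (hκ : 0 < κ)
    (hw : 0 < w.im) {Λ N : ℝ} {t : ℝ≥0} (hN : 0 < N) :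
    ∫ ω in AA κ B w Λ N t, G' κ (stP κ B w (tau' κ B w Λ N t ω) ω) ∂P
      = ∫ ω in AA κ B w Λ N t, G' κ (stP κ B w (tau κ B w Λ N t ω) ω) ∂P := by
  have h1 := hM hB hκ hw isOpen_Y (fun _ h => h) (contDiffOn_G' κ) (isCompact_CC N)
    (fun q hq => CC_im_pos hN hq) (isST_tau hE (Λ := Λ) hN t)
    (isST_tau' hE (Λ := Λ) hN t) (T := t) (fun ω => tau'_le ω) (A := AA κ B w Λ N t)
    (evST_AA hE hN t) (fun ω _ => tau_le_tau' ω)
    (fun ω hω s h2 h3 => stage2_path hB hN hω h2 h3)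
  rw [h1]
  have h2 : ∫ ω in AA κ B w Λ N t, (∫ s in (tau κ B w Λ N t ω : ℝ)..(tau' κ B w Λ N t ω : ℝ),
      gen κ (G' κ) (stW (driving κ B ω) s w)) ∂P = 0 := by
    refine setIntegral_eq_zero_of_forall_eq_zero fun ω hω => ?_
    have hle : (tau κ B w Λ N t ω : ℝ) ≤ tau' κ B w Λ N t ω := by
      exact_mod_cast tau_le_tau' ω
    refine (intervalIntegral.integral_congr (g := fun _ => 0) fun s hs => ?_).trans (by simp)
    rw [uIcc_of_le hle] at hs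
    have hs0 : 0 ≤ s := (tau κ B w Λ N t ω).2.trans hs.1
    refine gen_Gq hκ (stW_im_pos ?_)
    exact (stage2_path hB hN hω (s := (⟨s, hs0⟩ : ℝ≥0)) (NNReal.coe_le_coe.1 hs.1)
      (NNReal.coe_le_coe.1 hs.2)).1
  rw [h2, add_zero]

lemma Fq_pos {κ p : ℝ} (hκ : 0 < κ) {q : ℝ × ℝ × ℝ × ℝ} (hq : 0 < q.2.1) : 0 < Fq κ p q := by
  have h1 : 0 < mono (κ / 8 - 1) p (p + bb κ) (-(bb κ) / 2) q := mono_pos hq
  have h2 : 0 < mono (κ / 8 - 1) p (bb κ) ((p - bb κ) / 2) q := mono_pos hq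
  unfold Fq
  positivity

/-- both stages -/
lemma stages (hM : OPM.{u}) (hB : IsBM Fl B P) (hE : ExitFacts Fl B κ w) (hκ : 0 < κ)
    (hw : 0 < w.im) {p : ℝ} (hp : 0 ≤ p) (hp2 : p ≤ 2) (hpb : p ≤ bb κ) {Λ N : ℝ} (hΛ : 0 < Λ)
    {t : ℝ≥0} (h0 : q0 w ∈ UU N) :
    ∫ ω in AA κ B w Λ N t, G' κ (stP κ B w (tau' κ B w Λ N t ω) ω) ∂P
      ≤ (Λ ^ p)⁻¹ * Fq κ p (q0 w) := by
  have hN := UU_pos h0
  have hΛp : 0 < Λ ^ p := Real.rpow_pos_of_pos hΛ _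
  have hAm : MeasurableSet (AA κ B w Λ N t) := (evST_AA hE hN t).measurableSet
  have hτ := isST_tau hE (Λ := Λ) hN t
  have hall : ∀ ω, AliveP κ B w (tau κ B w Λ N t ω) ω ∧
      stP κ B w (tau κ B w Λ N t ω) ω ∈ CC N := fun ω => stage1_path hB hw h0 ω le_rfl
  have i1 : Integrable (fun ω => Fq κ p (stP κ B w (tau κ B w Λ N t ω) ω)) P := by
    have := integrable_st (P := P) hE hN (measurable_Fq κ p) (contDiffOn_Fq κ p).continuousOn hτ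
      MeasurableSet.univ (fun ω _ => hall ω)
    rwa [integrableOn_univ] at this
  have i2 : IntegrableOn (fun ω => G' κ (stP κ B w (tau κ B w Λ N t ω) ω)) (AA κ B w Λ N t) P :=
    integrable_st (P := P) hE hN (measurable_G' κ) (contDiffOn_G' κ).continuousOn hτ
      hAm (fun ω _ => hall ω)
  rw [stage2 hM hB hE hκ hw hN]
  calc ∫ ω in AA κ B w Λ N t, G' κ (stP κ B w (tau κ B w Λ N t ω) ω) ∂P
      ≤ ∫ ω in AA κ B w Λ N t, (Λ ^ p)⁻¹ * Fq κ p (stP κ B w (tau κ B w Λ N t ω) ω) ∂P := by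
        refine setIntegral_mono_on i2 (i1.integrableOn.const_mul _) hAm fun ω hω => ?_
        have hpos : 0 < (stP κ B w (tau κ B w Λ N t ω) ω).2.1 := stW_im_pos hω.1
        have := G_le_F (κ := κ) hκ hp hΛ.le hpos hω.2.2
        rw [G'_eq hpos]
        rw [← div_eq_inv_mul, le_div_iff₀ hΛp]
        linarith
    _ = (Λ ^ p)⁻¹ * ∫ ω in AA κ B w Λ N t, Fq κ p (stP κ B w (tau κ B w Λ N t ω) ω) ∂P :=
        integral_const_mul _ _
    _ ≤ (Λ ^ p)⁻¹ * ∫ ω, Fq κ p (stP κ B w (tau κ B w Λ N t ω) ω) ∂P := by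
        refine mul_le_mul_of_nonneg_left ?_ (inv_pos.2 hΛp).le
        refine setIntegral_le_integral i1 (Eventually.of_forall fun ω => ?_)
        exact (Fq_pos hκ (stW_im_pos (hall ω).1)).le
    _ ≤ _ := mul_le_mul_of_nonneg_left (stage1 hM hB hE hκ hw hp hp2 hpb h0) (inv_pos.2 hΛp).le

/-- paths which stay in the box until `t` are in the event of stage 2, with `tau' = t` -/
lemma mem_AA (hB : IsBM Fl B P) {Λ N : ℝ} {t : ℝ≥0} (ht : 0 < t) (hΛ : Λ ^ 2 = 2 * t) {ω : Ω}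
    (ha : AliveP κ B w t ω) (hst : ∀ s : ℝ≥0, s ≤ t → stP κ B w s ω ∈ UU N) :
    ω ∈ AA κ B w Λ N t ∧ tau' κ B w Λ N t ω = t := by
  have hW := continuous_driving hB κ ω
  have hle : tau κ B w Λ N t ω ≤ t := tau_le ω
  have haτ : AliveP κ B w (tau κ B w Λ N t ω) ω :=
    Alive.mono ha (tau κ B w Λ N t ω).2 (by exact_mod_cast hle)
  refine ⟨⟨haτ, hst _ hle, ?_⟩, hit_eq hle fun s _ hs => not_not.2 (hst s hs)⟩
  show Λ ≤ _
  by_contra hc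
  push Not at hc
  rcases hle.lt_or_eq with hlt | heq
  · exact exit_notMem hW (isOpen_OO Λ N) haτ hlt ⟨hst _ hle, hc⟩
  · have key := time_lemma (Λ := Λ) hW.continuousOn ha fun s hs => ?_
    · have ht' : (0 : ℝ) < t := by exact_mod_cast ht
      rcases key with h1 | h1 <;> linarith
    · have h2 : stP κ B w (⟨s, hs.1⟩ : ℝ≥0) ω ∈ OO Λ N := by
        refine not_not.1 (notMem_of_lt (X := stP κ B w) (K := (OO Λ N)ᶜ) (σ := fun _ => 0)
          (T := t) (s := (⟨s, hs.1⟩ : ℝ≥0)) zero_le ?_)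
        have : tau κ B w Λ N t ω = hit (stP κ B w) (OO Λ N)ᶜ (fun _ => 0) t ω := rfl
        rw [← this, heq]
        exact NNReal.coe_lt_coe.1 hs.2
      have h3 := h2.2
      simp only [mem_ofPred_eq, stP, stW] at h3
      rw [norm_eq_sqrt]
      exact h3.le

/-- an alive path stays in some box -/
lemma exists_box (hB : IsBM Fl B P) {t : ℝ≥0} {ω : Ω} (ha : AliveP κ B w t ω) :
    ∃ N₀ : ℕ, ∀ n : ℕ, N₀ ≤ n → ∀ s : ℝ≥0, s ≤ t → stP κ B w s ω ∈ UU ((n : ℝ) + 1) := by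
  have hW := continuous_driving hB κ ω
  have hc := stW_contOn hW.continuousOn ha
  have hcomp : IsCompact ((fun s => stW (driving κ B ω) s w) '' Icc 0 (t : ℝ)) :=
    isCompact_Icc.image_of_continuousOn hc
  have hopen : ∀ n : ℕ, IsOpen (UU ((n : ℝ) + 1)) := fun n => isOpen_UU _
  have hmono : ∀ {a b : ℕ}, a ≤ b → UU ((a : ℝ) + 1) ⊆ UU ((b : ℝ) + 1) := by
    intro a b hab
    have h1 : ((a : ℝ) + 1) ≤ (b : ℝ) + 1 := by
      have : (a : ℝ) ≤ b := by exact_mod_cast hab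
      linarith
    have h2 : ((b : ℝ) + 1)⁻¹ ≤ ((a : ℝ) + 1)⁻¹ := inv_anti₀ (by positivity) h1
    exact prod_mono (Ioo_subset_Ioo (by linarith) h1) (prod_mono (Ioo_subset_Ioo h2 h1)
      (prod_mono (Ioo_subset_Ioo (by linarith) h1) (Ioo_subset_Ioo (by linarith) h1)))
  have hcov : (fun s => stW (driving κ B ω) s w) '' Icc 0 (t : ℝ) ⊆ ⋃ n : ℕ, UU ((n : ℝ) + 1) := by
    rintro q ⟨s, hs, rfl⟩
    have hpos : 0 < (stW (driving κ B ω) s w).2.1 := stW_im_pos (ha.mono hs.1 hs.2)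
    set q := stW (driving κ B ω) s w
    obtain ⟨n, hn⟩ := exists_nat_gt (|q.1| + |q.2.1| + |q.2.2.1| + |q.2.2.2| + (q.2.1)⁻¹)
    refine mem_iUnion.2 ⟨n, ?_⟩
    have a1 := abs_nonneg q.1
    have a2 := abs_nonneg q.2.1
    have a3 := abs_nonneg q.2.2.1
    have a4 := abs_nonneg q.2.2.2
    have a5 : 0 < (q.2.1)⁻¹ := inv_pos.2 hpos
    refine ⟨abs_lt.1 (by linarith), ⟨?_, ?_⟩, abs_lt.1 (by linarith), abs_lt.1 (by linarith)⟩
    · rw [inv_lt_comm₀ (by positivity) hpos]; linarith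
    · exact (le_abs_self _).trans_lt (by linarith)
  obtain ⟨N₀, hN₀⟩ := hcomp.elim_directed_cover _ hopen hcov
    (directed_of_isDirected_le fun a b hab => hmono hab)
  exact ⟨N₀, fun n hn s hs => hmono hn (hN₀ ⟨s, ⟨s.2, by exact_mod_cast hs⟩, rfl⟩)⟩

lemma measurable_ind {E : Type*} [MeasurableSpace E] {A : Set Ω} {Z : Ω → E}
    (hA : MeasurableSet A)
    (hZ : ∀ S, MeasurableSet S → MeasurableSet (A ∩ Z ⁻¹' S)) {f : E → ℝ≥0∞} (hf : Measurable f) :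
    Measurable (A.indicator fun ω => f (Z ω)) := by
  intro S hS
  rw [Set.indicator_preimage]
  have h1 := hZ (f ⁻¹' S) (hf hS)
  have e : A.ite ((fun ω => f (Z ω)) ⁻¹' S) (0 ⁻¹' S)
      = (A ∩ Z ⁻¹' (f ⁻¹' S)) ∪ ((0 : Ω → ℝ≥0∞) ⁻¹' S \ A) := by
    unfold Set.ite
    rw [inter_comm]; rfl
  rw [e]
  exact h1.union ((measurable_zero hS).diff hA)

lemma isST_const (c : ℝ≥0) : IsST Fl (fun _ : Ω => c) := fun t => by
  by_cases h : c ≤ t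
  · simp [h]
  · simp [h]

lemma q0_mem (hw : 0 < w.im) : ∃ N₀ : ℕ, ∀ n : ℕ, N₀ ≤ n → q0 w ∈ UU ((n : ℝ) + 1) := by
  obtain ⟨N₀, hN₀⟩ := exists_nat_gt (|w.re| + |w.im| + |Real.log w.im| + (w.im)⁻¹)
  refine ⟨N₀, fun n hn => ?_⟩
  have hn' : (N₀ : ℝ) ≤ n := by exact_mod_cast hn
  have a1 := abs_nonneg w.re
  have a2 := abs_nonneg w.im
  have a3 := abs_nonneg (Real.log w.im)
  have a5 : 0 < (w.im)⁻¹ := inv_pos.2 hw
  have hpos : (0 : ℝ) < n + 1 := by positivity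
  refine ⟨abs_lt.1 (by simp only [q0]; linarith), ⟨?_, ?_⟩,
    abs_lt.1 (by simp only [q0]; linarith), abs_lt.1 (by simp only [q0, abs_zero]; linarith)⟩
  · show ((n : ℝ) + 1)⁻¹ < w.im
    rw [inv_lt_comm₀ hpos hw]; linarith
  · show w.im < (n : ℝ) + 1
    exact (le_abs_self _).trans_lt (by linarith)

/-- LB7', state form: decay of the Green-weighted survival -/
theorem lb7_state (hM : OPM.{u}) (hB : IsBM Fl B P) (hE : ExitFacts Fl B κ w) (hκ : 0 < κ)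
    (hκ8 : κ < 8) (hw : 0 < w.im) {p : ℝ} (hp : 0 ≤ p) (hp2 : p ≤ 2) (hpb : p ≤ bb κ)
    {t : ℝ≥0} (ht : 0 < t) :
    ∫⁻ ω in {ω | AliveP κ B w t ω}, ENNReal.ofReal (Gq κ (stP κ B w t ω)) ∂P
      ≤ ENNReal.ofReal (5 * (‖w‖ ^ 2 / (2 * t)) ^ (p / 2) * Gq κ (q0 w)) := by
  have ht' : (0 : ℝ) < t := by exact_mod_cast ht
  set Λ : ℝ := Real.sqrt (2 * t) with hΛdef
  have hΛ : 0 < Λ := Real.sqrt_pos.2 (by linarith)
  have hΛ2 : Λ ^ 2 = 2 * t := Real.sq_sqrt (by linarith)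
  set R : ℝ≥0∞ := ENNReal.ofReal (5 * (‖w‖ ^ 2 / (2 * t)) ^ (p / 2) * Gq κ (q0 w)) with hR
  have hA : MeasurableSet {ω | AliveP κ B w t ω} := by
    have := (hE.ev (isST_const (Fl := Fl) t) MeasurableSet.univ).measurableSet
    simpa using this
  set g : Ω → ℝ≥0∞ := {ω | AliveP κ B w t ω}.indicator
    fun ω => ENNReal.ofReal (Gq κ (stP κ B w t ω)) with hg
  have hgm : Measurable g := by
    refine measurable_ind (Z := fun ω => stP κ B w t ω) hA (fun S hS => ?_)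
      (f := fun q => ENNReal.ofReal (Gq κ q)) (measurable_Gq κ).ennreal_ofReal
    exact (hE.ev (isST_const (Fl := Fl) t) hS).measurableSet
  set E : ℕ → Set Ω := fun n => AA κ B w Λ ((n : ℝ) + 1) t ∩
    {ω | tau' κ B w Λ ((n : ℝ) + 1) t ω = t} with hEdef
  have hNpos : ∀ n : ℕ, (0 : ℝ) < (n : ℝ) + 1 := fun n => by positivity
  have hAAm : ∀ n : ℕ, MeasurableSet (AA κ B w Λ ((n : ℝ) + 1) t) := fun n =>
    (evST_AA hE (hNpos n) t).measurableSet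
  have hEm : ∀ n, MeasurableSet (E n) := fun n =>
    (hAAm n).inter ((isST_tau' hE (Λ := Λ) (hNpos n) t).measurable (measurableSet_singleton t))
  obtain ⟨N₁, hN₁⟩ := q0_mem hw
  have hstart : (Λ ^ p)⁻¹ * Fq κ p (q0 w) ≤ 5 * (‖w‖ ^ 2 / (2 * t)) ^ (p / 2) * Gq κ (q0 w) := by
    have h1 := Fq_start (κ := κ) hκ hκ8 hp (q := q0 w) hw rfl
    have h2 : (q0 w).1 ^ 2 + (q0 w).2.1 ^ 2 = ‖w‖ ^ 2 := (norm_sq_eq w).symm
    rw [h2] at h1
    have h3 : Λ ^ p = (2 * (t : ℝ)) ^ (p / 2) := by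
      rw [hΛdef, Real.sqrt_eq_rpow, ← Real.rpow_mul (by linarith)]; congr 1; ring
    have h4 : 0 < (2 * (t : ℝ)) ^ (p / 2) := Real.rpow_pos_of_pos (by linarith) _
    rw [h3, Real.div_rpow (by positivity) (by linarith)]
    calc ((2 * (t : ℝ)) ^ (p / 2))⁻¹ * Fq κ p (q0 w)
        ≤ ((2 * (t : ℝ)) ^ (p / 2))⁻¹ * (5 * (‖w‖ ^ 2) ^ (p / 2) * Gq κ (q0 w)) :=
          mul_le_mul_of_nonneg_left h1 (inv_pos.2 h4).le
      _ = _ := by field_simp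
  have hbound : ∀ n, N₁ ≤ n → ∫⁻ ω, (E n).indicator g ω ∂P ≤ R := by
    intro n hn
    have hN := hNpos n
    have h0 := hN₁ n hn
    rw [lintegral_indicator (hEm n)]
    have hpath : ∀ ω ∈ AA κ B w Λ ((n : ℝ) + 1) t,
        AliveP κ B w (tau' κ B w Λ ((n : ℝ) + 1) t ω) ω ∧
        stP κ B w (tau' κ B w Λ ((n : ℝ) + 1) t ω) ω ∈ CC ((n : ℝ) + 1) := fun ω hω =>
      stage2_path hB hN hω (tau_le_tau' ω) le_rfl
    have i2 : IntegrableOn (fun ω => G' κ (stP κ B w (tau' κ B w Λ ((n : ℝ) + 1) t ω) ω))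
        (AA κ B w Λ ((n : ℝ) + 1) t) P :=
      integrable_st (P := P) hE hN (measurable_G' κ) (contDiffOn_G' κ).continuousOn
        (isST_tau' hE hN t) (hAAm n) hpath
    calc ∫⁻ ω in E n, g ω ∂P
        = ∫⁻ ω in E n, ENNReal.ofReal
            (G' κ (stP κ B w (tau' κ B w Λ ((n : ℝ) + 1) t ω) ω)) ∂P := by
          refine setLIntegral_congr_fun (hEm n) fun ω hω => ?_
          have h1 := hpath ω hω.1
          have h2 : tau' κ B w Λ ((n : ℝ) + 1) t ω = t := hω.2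
          rw [h2] at h1 ⊢
          have h3 : G' κ (stP κ B w t ω) = Gq κ (stP κ B w t ω) := G'_eq (stW_im_pos h1.1)
          rw [hg, indicator_of_mem (show ω ∈ {ω | AliveP κ B w t ω} from h1.1), h3]
      _ ≤ ∫⁻ ω in AA κ B w Λ ((n : ℝ) + 1) t, ENNReal.ofReal
            (G' κ (stP κ B w (tau' κ B w Λ ((n : ℝ) + 1) t ω) ω)) ∂P :=
          lintegral_mono_set inter_subset_left
      _ = ENNReal.ofReal (∫ ω in AA κ B w Λ ((n : ℝ) + 1) t,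
            G' κ (stP κ B w (tau' κ B w Λ ((n : ℝ) + 1) t ω) ω) ∂P) := by
          refine (ofReal_integral_eq_lintegral_ofReal i2 ?_).symm
          refine (ae_restrict_iff' (hAAm n)).2 (Eventually.of_forall fun ω hω => ?_)
          have h1 := hpath ω hω
          have h3 : 0 < mono (κ / 8 - 1) 0 (bb κ) (-(bb κ) / 2)
            (stP κ B w (tau' κ B w Λ ((n : ℝ) + 1) t ω) ω) := mono_pos (stW_im_pos h1.1)
          simp only [Pi.zero_apply, G']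
          linarith
      _ ≤ R := by
          refine ENNReal.ofReal_le_ofReal ?_
          exact (stages hM hB hE hκ hw hp hp2 hpb hΛ h0).trans hstart
  calc ∫⁻ ω in {ω | AliveP κ B w t ω}, ENNReal.ofReal (Gq κ (stP κ B w t ω)) ∂P
      = ∫⁻ ω, g ω ∂P := (lintegral_indicator hA _).symm
    _ ≤ ∫⁻ ω, liminf (fun n => (E n).indicator g ω) atTop ∂P := by
        refine lintegral_mono fun ω => ?_
        by_cases ha : AliveP κ B w t ω
        · obtain ⟨N₀, hN₀⟩ := exists_box hB ha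
          refine le_liminf_of_le (by isBoundedDefault) ?_
          filter_upwards [eventually_ge_atTop N₀] with n hn
          have h1 := mem_AA hB ht hΛ2 ha (hN₀ n hn)
          rw [indicator_of_mem (show ω ∈ E n from h1)]
        · rw [hg, indicator_of_notMem (show ω ∉ {ω | AliveP κ B w t ω} from ha)]
          exact zero_le
    _ ≤ liminf (fun n => ∫⁻ ω, (E n).indicator g ω ∂P) atTop :=
        lintegral_liminf_le fun n => hgm.indicator (hEm n)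
    _ ≤ R := by
        refine liminf_le_of_le (by isBoundedDefault) fun b hb => ?_
        obtain ⟨n, h1, h2⟩ := (hb.and (eventually_ge_atTop N₁)).exists
        exact h1.trans (hbound n h2)

lemma gr_eq_Gq {W : ℝ → ℝ} {t : ℝ} {w : ℂ} (ha : Alive W w t) :
    gr κ W t w = Gq κ (stW W t w) := by
  unfold gr Gq sfl sinq stW
  rw [mul_comm (κ / 8 - 1), ← Real.rpow_def_of_pos (ups_pos ha), norm_eq_sqrt]

lemma gr_dead (hκ8 : κ < 8) {W : ℝ → ℝ} {t : ℝ} {w : ℂ} (ha : ¬ Alive W w t) :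
    gr κ W t w = 0 := by
  unfold gr
  rw [ups_of_not_alive ha, Real.zero_rpow (by linarith), zero_mul]

lemma green_eq_Gq {w : ℂ} (hw : 0 < w.im) :
    w.im ^ (κ / 8 - 1) * (w.im / ‖w‖) ^ (8 / κ - 1) = Gq κ (q0 w) := by
  unfold Gq sinq q0
  rw [mul_comm (κ / 8 - 1), ← Real.rpow_def_of_pos hw, norm_eq_sqrt]

/-- **LB7'**: `E[G_t(w)] ≤ 5 (|w|²/(2t))^{p/2} G_0(w)` for `0 ≤ p ≤ min(2, 8/κ-1)`. -/
theorem lb7 (hM : OPM.{u}) (hB : IsBM Fl B P) (hE : ExitFacts Fl B κ w) (hκ : 0 < κ)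
    (hκ8 : κ < 8) (hw : 0 < w.im) {p : ℝ} (hp : 0 ≤ p) (hp2 : p ≤ 2) (hpb : p ≤ 8 / κ - 1)
    {t : ℝ≥0} (ht : 0 < t) :
    ∫⁻ ω, ENNReal.ofReal (gr κ (driving κ B ω) t w) ∂P
      ≤ ENNReal.ofReal (5 * (‖w‖ ^ 2 / (2 * t)) ^ (p / 2) *
        (w.im ^ (κ / 8 - 1) * (w.im / ‖w‖) ^ (8 / κ - 1))) := by
  rw [green_eq_Gq hw]
  refine le_trans (le_of_eq ?_) (lb7_state hM hB hE hκ hκ8 hw hp hp2 hpb ht)
  have hA : MeasurableSet {ω | AliveP κ B w t ω} := by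
    have := (hE.ev (isST_const (Fl := Fl) t) MeasurableSet.univ).measurableSet
    simpa using this
  rw [← lintegral_indicator hA]
  refine lintegral_congr fun ω => ?_
  by_cases ha : AliveP κ B w t ω
  · rw [indicator_of_mem (show ω ∈ {ω | AliveP κ B w t ω} from ha), gr_eq_Gq ha]; rfl
  · rw [indicator_of_notMem (show ω ∉ {ω | AliveP κ B w t ω} from ha), gr_dead hκ8 ha]
    simp

end

end Crest.Agent.R162.LB7p
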