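import Mathlib
import Crest.Agent.R162.LB7p
import Crest.Agent.R162.OPTr2

/-!
Row 162, node LB7' (helper926): final forms, with helper9's exit-time facts.
-/

set_option autoImplicit false
set_option linter.unusedSectionVars false

open MeasureTheory ProbabilityTheory Set Filter Topology
open scoped NNReal ENNReal
open Crest.ProbabilityR.Loewner

namespace Crest.Agent.R162.LB7p

open FL OS OP

universe u

section

variable {Ω : Type u} {m : MeasurableSpace Ω} {P : Measure Ω} [IsProbabilityMeasure P]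
  {Fl : Filtration ℝ≥0 m} {B : ℝ≥0 → Ω → ℝ} {κ : ℝ} {w : ℂ}

theorem exitFacts (hB : IsBM Fl B P) (κ : ℝ) (w : ℂ) : ExitFacts Fl B κ w where
  st := fun hO hδ hOδ _ hσ T => OPTr.hit_open_isST hB hδ hO hOδ hσ T
  ev := fun hσ _ hS => OPTr.evST_alive_mem hB hS hσ

/-- **LB7'**: `E[G_t(w)] ≤ 5 (|w|²/(2t))^{p/2} G_0(w)` for `0 ≤ p ≤ min(2, 8/κ-1)`. -/
theorem lb7' (hM : OPM.{u}) (hB : IsBM Fl B P) (hκ : 0 < κ)
    (hκ8 : κ < 8) (hw : 0 < w.im) {p : ℝ} (hp : 0 ≤ p) (hp2 : p ≤ 2) (hpb : p ≤ 8 / κ - 1)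
    {t : ℝ≥0} (ht : 0 < t) :
    ∫⁻ ω, ENNReal.ofReal (gr κ (driving κ B ω) t w) ∂P
      ≤ ENNReal.ofReal (5 * (‖w‖ ^ 2 / (2 * t)) ^ (p / 2) *
        (w.im ^ (κ / 8 - 1) * (w.im / ‖w‖) ^ (8 / κ - 1))) :=
  lb7 hM hB (exitFacts hB κ w) hκ hκ8 hw hp hp2 hpb ht

end

/-- uniform smallness of the Green-weighted survival on bounded sets -/
theorem lb7_small {κ : ℝ} (hκ : 0 < κ) (hκ8 : κ < 8) (R δ : ℝ) (hδ : 0 < δ) :
    ∃ t₀ : ℝ≥0, 0 < t₀ ∧ ∀ (_ : OPM.{u}) {Ω : Type u} {m : MeasurableSpace Ω} {P : Measure Ω}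
      [IsProbabilityMeasure P] {Fl : Filtration ℝ≥0 m} {B : ℝ≥0 → Ω → ℝ} (_ : IsBM Fl B P)
      (w : ℂ), 0 < w.im → ‖w‖ ≤ R → ∀ t : ℝ≥0, t₀ ≤ t →
      ∫⁻ ω, ENNReal.ofReal (gr κ (driving κ B ω) t w) ∂P
        ≤ ENNReal.ofReal (δ * (w.im ^ (κ / 8 - 1) * (w.im / ‖w‖) ^ (8 / κ - 1))) := by
  set p : ℝ := min 2 (8 / κ - 1) with hp
  have hb : 0 < 8 / κ - 1 := by rw [sub_pos, lt_div_iff₀ hκ]; linarith
  have hp0 : 0 < p := lt_min two_pos hb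
  have hlim : Tendsto (fun t : ℝ => 5 * (R ^ 2 / (2 * t)) ^ (p / 2)) atTop (𝓝 0) := by
    have h1 : Tendsto (fun t : ℝ => R ^ 2 / (2 * t)) atTop (𝓝 0) :=
      Tendsto.div_atTop tendsto_const_nhds (tendsto_id.const_mul_atTop two_pos)
    have h2 := (h1.rpow_const (p := p / 2) (Or.inr (by positivity))).const_mul 5
    rwa [Real.zero_rpow (by positivity), mul_zero] at h2
  obtain ⟨T, hT⟩ := eventually_atTop.1 (hlim.eventually (gt_mem_nhds hδ))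
  refine ⟨Real.toNNReal (max T 1), Real.toNNReal_pos.2 (lt_max_of_lt_right one_pos), ?_⟩
  intro hM Ω m P _ Fl B hB w hw hwR t ht
  have ht1 : max T 1 ≤ (t : ℝ) := Real.toNNReal_le_iff_le_coe.1 ht
  have ht0 : (0 : ℝ) < t := lt_of_lt_of_le one_pos ((le_max_right _ _).trans ht1)
  refine (lb7' hM hB hκ hκ8 hw hp0.le (min_le_left _ _) (min_le_right _ _)
    (t := t) (by exact_mod_cast ht0)).trans (ENNReal.ofReal_le_ofReal ?_)
  have h1 := (hT t ((le_max_left _ _).trans ht1)).le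
  have h2 : (‖w‖ ^ 2 / (2 * (t : ℝ))) ^ (p / 2) ≤ (R ^ 2 / (2 * t)) ^ (p / 2) := by
    refine Real.rpow_le_rpow (by positivity) ?_ (by positivity)
    have : ‖w‖ ^ 2 ≤ R ^ 2 := pow_le_pow_left₀ (norm_nonneg _) hwR 2
    exact div_le_div_of_nonneg_right this (by positivity)
  refine mul_le_mul_of_nonneg_right ?_ (by positivity)
  linarith

end Crest.Agent.R162.LB7p
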