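import Mathlib
import Crest.Agent.R162.LB7q
import Crest.Agent.R162.OPM

/-!
Row 162, node LB7' (helper926): unconditional forms (helper9's `opm`).
-/

set_option autoImplicit false

open MeasureTheory ProbabilityTheory Set Filter Topology
open scoped NNReal ENNReal
open Crest.ProbabilityR.Loewner

namespace Crest.Agent.R162.LB7p

open FL OS OP

universe u

/-- **LB7'**, unconditional. -/
theorem lb7_final {Ω : Type u} {m : MeasurableSpace Ω} {P : Measure Ω} [IsProbabilityMeasure P]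
    {Fl : Filtration ℝ≥0 m} {B : ℝ≥0 → Ω → ℝ} {κ : ℝ} {w : ℂ}
    (hB : IsBM Fl B P) (hκ : 0 < κ)
    (hκ8 : κ < 8) (hw : 0 < w.im) {p : ℝ} (hp : 0 ≤ p) (hp2 : p ≤ 2) (hpb : p ≤ 8 / κ - 1)
    {t : ℝ≥0} (ht : 0 < t) :
    ∫⁻ ω, ENNReal.ofReal (gr κ (driving κ B ω) t w) ∂P
      ≤ ENNReal.ofReal (5 * (‖w‖ ^ 2 / (2 * t)) ^ (p / 2) *
        (w.im ^ (κ / 8 - 1) * (w.im / ‖w‖) ^ (8 / κ - 1))) :=
  lb7' OPM.opm hB hκ hκ8 hw hp hp2 hpb ht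

/-- uniform smallness of the Green-weighted survival on bounded sets, unconditional -/
theorem lb7_small_final {κ : ℝ} (hκ : 0 < κ) (hκ8 : κ < 8) (R δ : ℝ) (hδ : 0 < δ) :
    ∃ t₀ : ℝ≥0, 0 < t₀ ∧ ∀ {Ω : Type u} {m : MeasurableSpace Ω} {P : Measure Ω}
      [IsProbabilityMeasure P] {Fl : Filtration ℝ≥0 m} {B : ℝ≥0 → Ω → ℝ} (_ : IsBM Fl B P)
      (w : ℂ), 0 < w.im → ‖w‖ ≤ R → ∀ t : ℝ≥0, t₀ ≤ t →
      ∫⁻ ω, ENNReal.ofReal (gr κ (driving κ B ω) t w) ∂P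
        ≤ ENNReal.ofReal (δ * (w.im ^ (κ / 8 - 1) * (w.im / ‖w‖) ^ (8 / κ - 1))) := by
  obtain ⟨t₀, h0, h⟩ := lb7_small.{u} hκ hκ8 R δ hδ
  exact ⟨t₀, h0, fun hB w hw hwR t ht => h OPM.opm hB w hw hwR t ht⟩

end Crest.Agent.R162.LB7p
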