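import Crest.Agent.R162.GM1

/-!
Row 162, node LB8 (Frostman, good cells).

* `good_event` : abstract form (thresholds `T k`, errors `δ k`).
* `frostman` : form with the gauge.
-/

set_option autoImplicit false

namespace Crest.Agent.R162.LB8

open Crest.ProbabilityR.Loewner MeasureTheory Set Filter Topology Metric
open scoped ENNReal

/-- the fixed square `[0,1) x [1,2)`. -/
def Q0 : Set ℂ := {z | 0 ≤ z.re ∧ z.re < 1 ∧ 1 ≤ z.im ∧ z.im < 2}

/-- side length `2^-k`. -/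
noncomputable def side (k : ℕ) : ℝ := ((2 : ℝ) ^ k)⁻¹

lemma side_pos (k : ℕ) : 0 < side k := by unfold side; positivity

/-- centre of the cell `p` of level `k`. -/
noncomputable def ctr (k : ℕ) (p : Fin (2 ^ k) × Fin (2 ^ k)) : ℂ :=
  ⟨((p.1 : ℕ) + 1 / 2) * side k, 1 + ((p.2 : ℕ) + 1 / 2) * side k⟩

/-- the cell `p` of level `k`. -/
def cell (k : ℕ) (p : Fin (2 ^ k) × Fin (2 ^ k)) : Set ℂ :=
  {z | ((p.1 : ℕ) : ℝ) * side k ≤ z.re ∧ z.re < ((p.1 : ℕ) + 1) * side k ∧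
    1 + ((p.2 : ℕ) : ℝ) * side k ≤ z.im ∧ z.im < 1 + ((p.2 : ℕ) + 1) * side k}

/-- the ball around the cell. -/
noncomputable def bll (k : ℕ) (p : Fin (2 ^ k) × Fin (2 ^ k)) : Set ℂ :=
  closedBall (ctr k p) (3 * side k)

lemma measurableSet_Q0 : MeasurableSet Q0 := by
  unfold Q0
  exact (measurableSet_le measurable_const Complex.measurable_re).inter
    ((measurableSet_lt Complex.measurable_re measurable_const).inter
      ((measurableSet_le measurable_const Complex.measurable_im).inter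
        (measurableSet_lt Complex.measurable_im measurable_const)))

lemma measurableSet_cell (k : ℕ) (p : Fin (2 ^ k) × Fin (2 ^ k)) : MeasurableSet (cell k p) := by
  unfold cell
  exact (measurableSet_le measurable_const Complex.measurable_re).inter
    ((measurableSet_lt Complex.measurable_re measurable_const).inter
      ((measurableSet_le measurable_const Complex.measurable_im).inter
        (measurableSet_lt Complex.measurable_im measurable_const)))

lemma exists_idx (k : ℕ) {x : ℝ} (h0 : 0 ≤ x) (h1 : x < 1) :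
    ∃ i : Fin (2 ^ k), ((i : ℕ) : ℝ) * side k ≤ x ∧ x < ((i : ℕ) + 1) * side k := by
  have hp : (0 : ℝ) < 2 ^ k := by positivity
  have hlt : ⌊x * 2 ^ k⌋₊ < 2 ^ k := by
    rw [Nat.floor_lt (by positivity)]
    push_cast
    nlinarith
  refine ⟨⟨⌊x * 2 ^ k⌋₊, hlt⟩, ?_, ?_⟩
  · show ((⌊x * 2 ^ k⌋₊ : ℕ) : ℝ) * side k ≤ x
    have := Nat.floor_le (show 0 ≤ x * 2 ^ k by positivity)
    unfold side
    rw [← div_eq_mul_inv, div_le_iff₀ hp]
    exact this
  · show x < (((⌊x * 2 ^ k⌋₊ : ℕ) : ℝ) + 1) * side k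
    have := Nat.lt_floor_add_one (x * 2 ^ k)
    unfold side
    rw [← div_eq_mul_inv, lt_div_iff₀ hp]
    exact this

lemma exists_cell (k : ℕ) {z : ℂ} (hz : z ∈ Q0) : ∃ p, z ∈ cell k p := by
  obtain ⟨h1, h2, h3, h4⟩ := hz
  obtain ⟨i, hi1, hi2⟩ := exists_idx k h1 h2
  obtain ⟨j, hj1, hj2⟩ := exists_idx k (show 0 ≤ z.im - 1 by linarith) (by linarith)
  exact ⟨(i, j), hi1, hi2, by linarith, by linarith⟩

lemma dist_ctr_le {k : ℕ} {p : Fin (2 ^ k) × Fin (2 ^ k)} {z : ℂ} (hz : z ∈ cell k p) :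
    dist z (ctr k p) ≤ side k := by
  obtain ⟨h1, h2, h3, h4⟩ := hz
  have hs := side_pos k
  rw [Complex.dist_eq]
  refine (Complex.norm_le_abs_re_add_abs_im _).trans ?_
  have e1 : |(z - ctr k p).re| ≤ side k / 2 := by
    rw [Complex.sub_re, abs_le]
    simp only [ctr]
    constructor <;> nlinarith
  have e2 : |(z - ctr k p).im| ≤ side k / 2 := by
    rw [Complex.sub_im, abs_le]
    simp only [ctr]
    constructor <;> nlinarith
  linarith

lemma cell_subset_bll (k : ℕ) (p : Fin (2 ^ k) × Fin (2 ^ k)) : cell k p ⊆ bll k p := by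
  intro z hz
  have := dist_ctr_le hz
  have hs := side_pos k
  exact mem_closedBall.2 (by linarith)

lemma closedBall_subset_bll {k : ℕ} {p : Fin (2 ^ k) × Fin (2 ^ k)} {g z : ℂ} {r : ℝ}
    (hg : g ∈ cell k p) (hgz : g ∈ closedBall z r) (hr : r ≤ side k) :
    closedBall z r ⊆ bll k p := by
  intro x hx
  have h1 := dist_ctr_le hg
  have h2 : dist x (ctr k p) ≤ dist x z + dist z g + dist g (ctr k p) :=
    dist_triangle4 x z g (ctr k p)
  rw [mem_closedBall] at hx hgz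
  rw [dist_comm] at hgz
  exact mem_closedBall.2 (by linarith)

section abstract_form

variable {Ω : Type*} {mΩ : MeasurableSpace Ω}

/-- the bad mass of level `k`. -/
noncomputable def Yk (μ : Ω → Measure ℂ) (T : ℕ → ℝ≥0∞) (k1 k : ℕ) (ω : Ω) : ℝ≥0∞ :=
  if k1 ≤ k then ∑ p, indicator {ω | T k < μ ω (bll k p)} (fun ω => μ ω (bll k p)) ω else 0

/-- the good set. -/
def G (μ : Ω → Measure ℂ) (T : ℕ → ℝ≥0∞) (k1 : ℕ) (ω : Ω) : Set ℂ :=
  Q0 \ ⋃ k, ⋃ p, {z | k1 ≤ k ∧ T k < μ ω (bll k p) ∧ z ∈ cell k p}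

lemma measurableSet_bad (μ : Ω → Measure ℂ) (T : ℕ → ℝ≥0∞) (k1 k : ℕ) (ω : Ω)
    (p : Fin (2 ^ k) × Fin (2 ^ k)) :
    MeasurableSet {z | k1 ≤ k ∧ T k < μ ω (bll k p) ∧ z ∈ cell k p} := by
  by_cases h : k1 ≤ k ∧ T k < μ ω (bll k p)
  · have : {z | k1 ≤ k ∧ T k < μ ω (bll k p) ∧ z ∈ cell k p} = cell k p := by
      ext z; simp [h.1, h.2]
    rw [this]; exact measurableSet_cell k p
  · have : {z | k1 ≤ k ∧ T k < μ ω (bll k p) ∧ z ∈ cell k p} = ∅ := by
      ext z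
      simp only [mem_ofPred_eq, mem_empty_iff_false, iff_false]
      rintro ⟨a, b, -⟩
      exact h ⟨a, b⟩
    rw [this]; exact MeasurableSet.empty

lemma measurableSet_G (μ : Ω → Measure ℂ) (T : ℕ → ℝ≥0∞) (k1 : ℕ) (ω : Ω) :
    MeasurableSet (G μ T k1 ω) :=
  measurableSet_Q0.diff (MeasurableSet.iUnion fun k => MeasurableSet.iUnion fun p =>
    measurableSet_bad μ T k1 k ω p)

lemma G_subset (μ : Ω → Measure ℂ) (T : ℕ → ℝ≥0∞) (k1 : ℕ) (ω : Ω) : G μ T k1 ω ⊆ Q0 :=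
  sdiff_subset

/-- a point of the good set lies in good cells only. -/
lemma good_of_mem {μ : Ω → Measure ℂ} {T : ℕ → ℝ≥0∞} {k1 k : ℕ} {ω : Ω} {z : ℂ}
    {p : Fin (2 ^ k) × Fin (2 ^ k)}
    (hz : z ∈ G μ T k1 ω) (hk : k1 ≤ k) (hp : z ∈ cell k p) : μ ω (bll k p) ≤ T k := by
  by_contra hlt
  push Not at hlt
  exact hz.2 (mem_iUnion.2 ⟨k, mem_iUnion.2 ⟨p, hk, hlt, hp⟩⟩)

lemma frost {μ : Ω → Measure ℂ} {T : ℕ → ℝ≥0∞} {k1 k : ℕ} {ω : Ω} (hk : k1 ≤ k) {z : ℂ} {r : ℝ}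
    (hr : r ≤ side k) : μ ω (G μ T k1 ω ∩ closedBall z r) ≤ T k := by
  rcases (G μ T k1 ω ∩ closedBall z r).eq_empty_or_nonempty with h | ⟨g, hg1, hg2⟩
  · rw [h, measure_empty]; exact zero_le
  · obtain ⟨p, hp⟩ := exists_cell k (G_subset μ T k1 ω hg1)
    exact (measure_mono (inter_subset_right.trans (closedBall_subset_bll hp hg2 hr))).trans
      (good_of_mem hg1 hk hp)

lemma mass_le (μ : Ω → Measure ℂ) (T : ℕ → ℝ≥0∞) (k1 : ℕ) (ω : Ω) :
    μ ω (G μ T k1 ω) ≤ 4 ^ k1 * T k1 := by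
  have hcov : G μ T k1 ω ⊆ ⋃ p, (G μ T k1 ω ∩ cell k1 p) := by
    intro z hz
    obtain ⟨p, hp⟩ := exists_cell k1 (G_subset μ T k1 ω hz)
    exact mem_iUnion.2 ⟨p, hz, hp⟩
  calc μ ω (G μ T k1 ω) ≤ μ ω (⋃ p, (G μ T k1 ω ∩ cell k1 p)) := measure_mono hcov
    _ ≤ ∑ p, μ ω (G μ T k1 ω ∩ cell k1 p) := measure_iUnion_fintype_le _ _
    _ ≤ ∑ _p : Fin (2 ^ k1) × Fin (2 ^ k1), T k1 := by
        refine Finset.sum_le_sum fun p _ => ?_
        rcases (G μ T k1 ω ∩ cell k1 p).eq_empty_or_nonempty with h | ⟨g, hg1, hg2⟩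
        · rw [h, measure_empty]; exact zero_le
        · exact (measure_mono (inter_subset_right.trans (cell_subset_bll k1 p))).trans
            (good_of_mem hg1 le_rfl hg2)
    _ = 4 ^ k1 * T k1 := by
        rw [Finset.sum_const, Finset.card_univ, Fintype.card_prod, Fintype.card_fin, nsmul_eq_mul]
        congr 1
        push_cast
        rw [← mul_pow]
        norm_num

lemma mass_ge (μ : Ω → Measure ℂ) (T : ℕ → ℝ≥0∞) (k1 : ℕ) (ω : Ω) :
    μ ω Q0 ≤ μ ω (G μ T k1 ω) + ∑' k, Yk μ T k1 k ω := by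
  have hcov : Q0 ⊆ G μ T k1 ω ∪ ⋃ k, ⋃ p, {z | k1 ≤ k ∧ T k < μ ω (bll k p) ∧ z ∈ cell k p} := by
    intro z hz
    by_cases h : z ∈ ⋃ k, ⋃ p, {z | k1 ≤ k ∧ T k < μ ω (bll k p) ∧ z ∈ cell k p}
    · exact Or.inr h
    · exact Or.inl ⟨hz, h⟩
  refine (measure_mono hcov).trans ((measure_union_le _ _).trans ?_)
  gcongr
  refine (measure_iUnion_le _).trans (ENNReal.tsum_le_tsum fun k => ?_)
  refine (measure_iUnion_fintype_le _ _).trans ?_
  unfold Yk
  by_cases hk : k1 ≤ k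
  · rw [if_pos hk]
    refine Finset.sum_le_sum fun p _ => ?_
    by_cases hb : T k < μ ω (bll k p)
    · rw [indicator_of_mem (show ω ∈ {ω | T k < μ ω (bll k p)} from hb)]
      exact measure_mono fun z hz => cell_subset_bll k p hz.2.2
    · have : {z | k1 ≤ k ∧ T k < μ ω (bll k p) ∧ z ∈ cell k p} = ∅ := by
        ext z
        simp only [mem_ofPred_eq, mem_empty_iff_false, iff_false]
        rintro ⟨-, b, -⟩
        exact hb b
      rw [this, measure_empty]; exact zero_le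
  · rw [if_neg hk]
    refine le_of_eq (Finset.sum_eq_zero fun p _ => ?_)
    have : {z | k1 ≤ k ∧ T k < μ ω (bll k p) ∧ z ∈ cell k p} = ∅ := by
      ext z
      simp only [mem_ofPred_eq, mem_empty_iff_false, iff_false]
      rintro ⟨b, -, -⟩
      exact hk b
    rw [this, measure_empty]

/-- **Abstract good event.** -/
theorem good_event (P : Measure Ω) [IsProbabilityMeasure P] (m : MeasurableSpace Ω) (hm : m ≤ mΩ)
    (μ : Ω → Measure ℂ) (k1 : ℕ) (T δ : ℕ → ℝ≥0∞) (a : ℝ≥0∞) (ha : a ≠ ⊤)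
    (hQ : Measurable[m] fun ω => μ ω Q0)
    (hB : ∀ k p, Measurable[m] fun ω => μ ω (bll k p))
    (hmass : a ≤ ∫⁻ ω, μ ω Q0 ∂P)
    (hbad : ∀ k, k1 ≤ k → ∀ p,
      ∫⁻ ω in {ω | T k < μ ω (bll k p)}, μ ω (bll k p) ∂P ≤ δ k * (4 ^ k)⁻¹)
    (hδ : ∑' k, (if k1 ≤ k then δ k else 0) ≤ a / 2) :
    ∃ A, MeasurableSet[m] A ∧ a / 4 ≤ (4 ^ k1 * T k1) * P A ∧
      ∀ ω ∈ A, ∃ g : Set ℂ, MeasurableSet g ∧ g ⊆ Q0 ∧ a / 4 ≤ μ ω g ∧
        ∀ k, k1 ≤ k → ∀ (z : ℂ) (r : ℝ), r ≤ side k → μ ω (g ∩ closedBall z r) ≤ T k := by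
  have hbadm : ∀ k p, MeasurableSet[m] {ω | T k < μ ω (bll k p)} := fun k p =>
    measurableSet_lt measurable_const (hB k p)
  have hYm : ∀ k, Measurable[m] (Yk μ T k1 k) := by
    intro k
    unfold Yk
    by_cases hk : k1 ≤ k
    · simp only [if_pos hk]
      exact Finset.measurable_sum _ fun p _ => (hB k p).indicator (hbadm k p)
    · simp only [if_neg hk]
      exact measurable_const
  have hYsm : Measurable[m] fun ω => ∑' k, Yk μ T k1 k ω := Measurable.tsum hYm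
  have hXm : Measurable[m] fun ω => μ ω Q0 - ∑' k, Yk μ T k1 k ω := hQ.sub hYsm
  have hY : ∫⁻ ω, ∑' k, Yk μ T k1 k ω ∂P ≤ a / 2 := by
    rw [lintegral_tsum fun k => ((hYm k).mono hm le_rfl).aemeasurable]
    refine (ENNReal.tsum_le_tsum fun k => ?_).trans hδ
    by_cases hk : k1 ≤ k
    · simp only [Yk, if_pos hk]
      rw [lintegral_finsetSum _ fun p _ => ((hB k p).indicator (hbadm k p)).mono hm le_rfl]
      calc ∑ p, ∫⁻ ω, indicator {ω | T k < μ ω (bll k p)} (fun ω => μ ω (bll k p)) ω ∂P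
          ≤ ∑ _p : Fin (2 ^ k) × Fin (2 ^ k), δ k * (4 ^ k)⁻¹ := by
            refine Finset.sum_le_sum fun p _ => ?_
            rw [lintegral_indicator (hm _ (hbadm k p))]
            exact hbad k hk p
        _ = δ k := by
            rw [Finset.sum_const, Finset.card_univ, Fintype.card_prod, Fintype.card_fin,
              nsmul_eq_mul]
            have h4 : (((2 ^ k * 2 ^ k : ℕ)) : ℝ≥0∞) = 4 ^ k := by
              push_cast
              rw [← mul_pow]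
              norm_num
            rw [h4, mul_comm (δ k), ← mul_assoc, ENNReal.mul_inv_cancel (by positivity)
              (ENNReal.pow_ne_top (by norm_num)), one_mul]
    · simp only [Yk, if_neg hk, lintegral_zero, le_refl]
  have hX : a / 2 ≤ ∫⁻ ω, (μ ω Q0 - ∑' k, Yk μ T k1 k ω) ∂P := by
    have h1 : a ≤ ∫⁻ ω, (μ ω Q0 - ∑' k, Yk μ T k1 k ω) ∂P + a / 2 := by
      calc a ≤ ∫⁻ ω, μ ω Q0 ∂P := hmass
        _ ≤ ∫⁻ ω, ((μ ω Q0 - ∑' k, Yk μ T k1 k ω) + ∑' k, Yk μ T k1 k ω) ∂P :=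
            lintegral_mono fun ω => le_tsub_add
        _ = ∫⁻ ω, (μ ω Q0 - ∑' k, Yk μ T k1 k ω) ∂P + ∫⁻ ω, ∑' k, Yk μ T k1 k ω ∂P :=
            lintegral_add_left (hXm.mono hm le_rfl) _
        _ ≤ _ := by gcongr
    have h2 : a / 2 + a / 2 = a := ENNReal.add_halves a
    have h3 : a / 2 ≠ ⊤ := ENNReal.div_ne_top ha (by norm_num)
    by_contra hlt
    push Not at hlt
    have : ∫⁻ ω, (μ ω Q0 - ∑' k, Yk μ T k1 k ω) ∂P + a / 2 < a / 2 + a / 2 :=
      ENNReal.add_lt_add_right h3 hlt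
    rw [h2] at this
    exact absurd h1 (not_le.2 this)
  have hXle : ∀ ω, μ ω Q0 - ∑' k, Yk μ T k1 k ω ≤ μ ω (G μ T k1 ω) := fun ω =>
    tsub_le_iff_right.2 (mass_ge μ T k1 ω)
  refine ⟨{ω | a / 4 ≤ μ ω Q0 - ∑' k, Yk μ T k1 k ω}, measurableSet_le measurable_const hXm,
    ?_, ?_⟩
  · set A := {ω | a / 4 ≤ μ ω Q0 - ∑' k, Yk μ T k1 k ω} with hA
    have hAm' : MeasurableSet[m] A := measurableSet_le measurable_const hXm
    have hAm : MeasurableSet[mΩ] A := hm A hAm'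
    have h1 : ∫⁻ ω, (μ ω Q0 - ∑' k, Yk μ T k1 k ω) ∂P ≤ a / 4 + (4 ^ k1 * T k1) * P A := by
      calc ∫⁻ ω, (μ ω Q0 - ∑' k, Yk μ T k1 k ω) ∂P
          ≤ ∫⁻ ω, (a / 4 + A.indicator (fun _ => 4 ^ k1 * T k1) ω) ∂P := by
            refine lintegral_mono fun ω => ?_
            by_cases h : ω ∈ A
            · rw [indicator_of_mem h]
              exact ((hXle ω).trans (mass_le μ T k1 ω)).trans le_add_self
            · have h' : μ ω Q0 - ∑' k, Yk μ T k1 k ω < a / 4 := not_le.1 h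
              exact h'.le.trans le_self_add
        _ = a / 4 + (4 ^ k1 * T k1) * P A := by
            rw [lintegral_add_left measurable_const, lintegral_const, measure_univ, mul_one,
              lintegral_indicator_const hAm]
    have h2 : a / 4 + a / 4 = a / 2 := by
      rw [ENNReal.div_add_div_same, ← two_mul, show (4 : ℝ≥0∞) = 2 * 2 by norm_num,
        ENNReal.mul_div_mul_left _ _ (by norm_num) (by norm_num)]
    have h3 : a / 4 ≠ ⊤ := ENNReal.div_ne_top ha (by norm_num)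
    have h4 := hX.trans h1
    rw [← h2] at h4
    exact (ENNReal.add_le_add_iff_left h3).1 h4
  · intro ω hω
    exact ⟨G μ T k1 ω, measurableSet_G μ T k1 ω, G_subset μ T k1 ω, le_trans hω (hXle ω),
      fun k hk z r hr => frost hk hr⟩

end abstract_form

section gauge_form

open GM

lemma side_eq (k : ℕ) : side k = (1 / 2 : ℝ) ^ k := by
  unfold side; rw [one_div, inv_pow]

lemma side_anti {j k : ℕ} (h : j ≤ k) : side k ≤ side j := by
  rw [side_eq, side_eq]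
  exact pow_le_pow_of_le_one (by norm_num) (by norm_num) h

lemma exists_level {k1 : ℕ} {r : ℝ} (hr : 0 < r) (hr1 : r ≤ side k1) :
    ∃ k, k1 ≤ k ∧ r ≤ side k ∧ side k ≤ 2 * r := by
  have h1 : r ≤ 1 := hr1.trans (by rw [side_eq]; exact pow_le_one₀ (by norm_num) (by norm_num))
  obtain ⟨n, hn1, hn2⟩ := exists_nat_pow_near_of_lt_one hr h1
    (show (0 : ℝ) < 1 / 2 by norm_num) (by norm_num)
  refine ⟨n, ?_, by rw [side_eq]; exact hn2, ?_⟩
  · by_contra hlt
    push Not at hlt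
    have : side k1 ≤ side (n + 1) := side_anti hlt
    rw [side_eq (n + 1)] at this
    linarith
  · rw [side_eq]
    rw [pow_succ] at hn1
    linarith

lemma ctr_mem_Q0 (k : ℕ) (p : Fin (2 ^ k) × Fin (2 ^ k)) : ctr k p ∈ Q0 := by
  have hp : (0 : ℝ) < 2 ^ k := by positivity
  have key : ∀ i : Fin (2 ^ k), 0 ≤ (((i : ℕ) : ℝ) + 1 / 2) * side k ∧
      (((i : ℕ) : ℝ) + 1 / 2) * side k < 1 := by
    intro i
    have h1 : ((i : ℕ) : ℝ) + 1 ≤ 2 ^ k := by exact_mod_cast i.2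
    constructor
    · exact mul_nonneg (by positivity) (side_pos k).le
    · unfold side
      rw [← div_eq_mul_inv, div_lt_one hp]
      linarith
  obtain ⟨h1, h2⟩ := key p.1
  obtain ⟨h3, h4⟩ := key p.2
  exact ⟨h1, h2, by simp only [ctr]; linarith, by simp only [ctr]; linarith⟩

lemma log_side_ge {k : ℕ} (hk : 3 ≤ k) : (k : ℝ) / 4 ≤ Real.log (1 / (3 * side k)) := by
  have h1 : Real.log (1 / (3 * side k)) = k * Real.log 2 - Real.log 3 := by
    rw [one_div, Real.log_inv, Real.log_mul (by norm_num) (side_pos k).ne', side_eq, Real.log_pow,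
      one_div, Real.log_inv]
    ring
  have h2 : 0.6931 < Real.log 2 := lt_trans (by norm_num) Real.log_two_gt_d9
  have h3 : Real.log 3 ≤ 1.3 := by
    have h5 : 5 * Real.log 3 = Real.log 243 := by
      rw [show (243 : ℝ) = 3 ^ 5 by norm_num, Real.log_pow]; push_cast; ring
    have h6 : 8 * Real.log 2 = Real.log 256 := by
      rw [show (256 : ℝ) = 2 ^ 8 by norm_num, Real.log_pow]; push_cast; ring
    have h8 : Real.log 243 ≤ Real.log 256 := Real.log_le_log (by norm_num) (by norm_num)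
    have h7 : Real.log 2 < 0.6931471808 := Real.log_two_lt_d9
    linarith
  rw [h1]
  have hk' : (3 : ℝ) ≤ k := by exact_mod_cast hk
  nlinarith

lemma tsum_tail (f : ℕ → ℝ≥0∞) (k1 : ℕ) :
    ∑' k, (if k1 ≤ k then f k else 0) = ∑' j, f (j + k1) := by
  have h := Summable.sum_add_tsum_nat_add' (f := fun k => if k1 ≤ k then f k else 0) (k := k1)
    ENNReal.summable
  rw [← h, Finset.sum_eq_zero, zero_add]
  · refine tsum_congr fun j => ?_
    rw [if_pos (by omega)]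
  · intro i hi
    rw [if_neg (by have := Finset.mem_range.1 hi; omega)]

lemma small_scale {κ : ℝ} (hκ8 : κ < 8) {D M ε r : ℝ} (hD : 0 ≤ D) (hM : 0 < M)
    (hr : 0 < r) (hrm : r ≤ m0) (h : r < M * ε * Real.sqrt (L r)) :
    D * ε ^ (dimParam κ - 2) * r ^ 2 ≤ D * M ^ (2 - dimParam κ) * gaugeReal κ r := by
  have hd := dim_lt hκ8
  have hL := L_ge_one hr hrm
  have hL0 : 0 < L r := by linarith
  have hs : 0 < Real.sqrt (L r) := Real.sqrt_pos.2 hL0
  rw [gaugeReal_small hrm]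
  have hq : 0 < r / (M * Real.sqrt (L r)) := by positivity
  have h1 : r / (M * Real.sqrt (L r)) ≤ ε := by
    rw [div_le_iff₀ (by positivity)]
    nlinarith
  have h2 : ε ^ (dimParam κ - 2) ≤ (r / (M * Real.sqrt (L r))) ^ (dimParam κ - 2) :=
    Real.rpow_le_rpow_of_nonpos hq h1 (by linarith)
  have h3 : (r / (M * Real.sqrt (L r))) ^ (dimParam κ - 2) =
      r ^ (dimParam κ - 2) * (M ^ (2 - dimParam κ) * L r ^ ((2 - dimParam κ) / 2)) := by
    rw [Real.div_rpow hr.le (by positivity), div_eq_mul_inv, ← Real.rpow_neg (by positivity),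
      Real.mul_rpow hM.le hs.le, Real.sqrt_eq_rpow, ← Real.rpow_mul hL0.le]
    congr 3 <;> ring
  have h4 : r ^ (dimParam κ - 2) * r ^ 2 = r ^ dimParam κ := by
    rw [← Real.rpow_natCast r 2, ← Real.rpow_add hr]
    norm_num
  calc D * ε ^ (dimParam κ - 2) * r ^ 2
      ≤ D * (r / (M * Real.sqrt (L r))) ^ (dimParam κ - 2) * r ^ 2 := by gcongr
    _ = D * M ^ (2 - dimParam κ) *
        ((r ^ (dimParam κ - 2) * r ^ 2) * L r ^ ((2 - dimParam κ) / 2)) := by
        rw [h3]; ring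
    _ = _ := by rw [h4]

/-- **Node LB8** : Frostman measures on an event of probability bounded below, uniformly in `ε`. -/
theorem frostman {κ : ℝ} (hκ : 0 < κ) (hκ8 : κ < 8) {a : ℝ≥0∞} (ha0 : a ≠ 0) (ha : a ≠ ⊤)
    {D M Cm C3 r1 : ℝ} (hD : 0 ≤ D) (hM : 0 < M) (hr1 : 0 < r1) :
    ∃ k1 : ℕ, ∃ C : ℝ, 0 < C ∧ ∃ c8 : ℝ≥0∞, c8 ≠ 0 ∧
      ∀ {Ω : Type*} {mΩ : MeasurableSpace Ω} (P : Measure Ω) [IsProbabilityMeasure P]
        (m : MeasurableSpace Ω) (_ : m ≤ mΩ) (ε : ℝ) (_ : 0 < ε) (μ : Ω → Measure ℂ)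
        (_ : Measurable[m] fun ω => μ ω Q0)
        (_ : ∀ z r, Measurable[m] fun ω => μ ω (closedBall z r))
        (_ : a ≤ ∫⁻ ω, μ ω Q0 ∂P)
        (_ : ∀ ω, ∀ z ∈ Q0, ∀ r, 0 < r → r ≤ r1 →
          μ ω (closedBall z r) ≤ ENNReal.ofReal (D * ε ^ (dimParam κ - 2) * r ^ 2))
        (_ : ∀ z ∈ Q0, ∀ r, 0 < r → r ≤ r1 → M * ε * Real.sqrt (L r) ≤ r →
          ∫⁻ ω in {ω | ENNReal.ofReal (Cm * gaugeReal κ r) < μ ω (closedBall z r)},
            μ ω (closedBall z r) ∂P ≤ ENNReal.ofReal (C3 * (Real.log (1 / r) ^ 2)⁻¹ * r ^ 2)),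
        ∃ A, MeasurableSet[m] A ∧ c8 ≤ P A ∧
          ∀ ω ∈ A, ∃ g : Set ℂ, MeasurableSet g ∧ g ⊆ Q0 ∧ a / 4 ≤ μ ω g ∧
            ∀ (z : ℂ) (r : ℝ), 0 < r → r ≤ side k1 →
              μ ω (g ∩ closedBall z r) ≤ ENNReal.ofReal (C * gaugeReal κ r) := by
  have hd1 := dim_gt hκ
  have hd2 := dim_lt hκ8
  set Cx : ℝ := max 1 (max Cm (D * M ^ (2 - dimParam κ))) with hCx
  have hCx1 : 1 ≤ Cx := le_max_left _ _
  have hCxm : Cm ≤ Cx := (le_max_left _ _).trans (le_max_right _ _)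
  have hCxD : D * M ^ (2 - dimParam κ) ≤ Cx := (le_max_right _ _).trans (le_max_right _ _)
  set C4 : ℝ := max C3 0 with hC4
  have hC40 : 0 ≤ C4 := le_max_right _ _
  have hC43 : C3 ≤ C4 := le_max_left _ _
  set T : ℕ → ℝ≥0∞ := fun k => ENNReal.ofReal (Cx * gaugeReal κ (3 * side k)) with hT
  set δ : ℕ → ℝ≥0∞ := fun k => ENNReal.ofReal (144 * C4 * ((k : ℝ) ^ 2)⁻¹) with hδ
  -- choice of `k1`
  have hsum : ∑' k, δ k ≠ ⊤ := by
    have hs : Summable fun k : ℕ => 144 * C4 * ((k : ℝ) ^ 2)⁻¹ :=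
      (Real.summable_nat_pow_inv.2 (by norm_num)).mul_left _
    rw [hδ, ← ENNReal.ofReal_tsum_of_nonneg (fun k => by positivity) hs]
    exact ENNReal.ofReal_ne_top
  have htail : Tendsto (fun i => ∑' k, δ (k + i)) atTop (𝓝 0) :=
    ENNReal.tendsto_sum_nat_add δ hsum
  have hside : Tendsto (fun k => 3 * side k) atTop (𝓝 0) := by
    have : Tendsto (fun k => 3 * (1 / 2 : ℝ) ^ k) atTop (𝓝 (3 * 0)) :=
      (tendsto_pow_atTop_nhds_zero_of_lt_one (by norm_num) (by norm_num)).const_mul 3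
    rw [mul_zero] at this
    refine this.congr fun k => ?_
    rw [side_eq]
  have ha2 : 0 < a / 2 := ENNReal.div_pos ha0 (by norm_num)
  have hev : ∀ᶠ k in atTop, 3 ≤ k ∧ ∑' j, δ (j + k) ≤ a / 2 ∧ 3 * side k ≤ min r1 m0 := by
    filter_upwards [eventually_ge_atTop 3, htail.eventually_le_const ha2,
      hside.eventually_le_const (lt_min hr1 m0_pos)] with k h1 h2 h3
    exact ⟨h1, h2, h3⟩
  obtain ⟨k1, hk3, hk1t, hk1s⟩ := hev.exists
  have hTtop : T k1 ≠ ⊤ := ENNReal.ofReal_ne_top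
  have hTpos : T k1 ≠ 0 := by
    rw [hT]
    simp only [ne_eq, ENNReal.ofReal_eq_zero, not_le]
    exact mul_pos (by linarith) (gaugeReal_pos (by have := side_pos k1; positivity))
  have h4T : (4 : ℝ≥0∞) ^ k1 * T k1 ≠ ⊤ :=
    ENNReal.mul_ne_top (ENNReal.pow_ne_top (by norm_num)) hTtop
  have h4T0 : (4 : ℝ≥0∞) ^ k1 * T k1 ≠ 0 := mul_ne_zero (by positivity) hTpos
  refine ⟨k1, Cx * 6 ^ dimParam κ, by positivity, a / 4 / (4 ^ k1 * T k1), ?_, ?_⟩
  · exact (ENNReal.div_pos (ENNReal.div_pos ha0 (by norm_num)).ne' h4T).ne'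
  intro Ω mΩ P _ m hm ε hε μ hQ hB hmass hdens h3
  have hbad : ∀ k, k1 ≤ k → ∀ p,
      ∫⁻ ω in {ω | T k < μ ω (bll k p)}, μ ω (bll k p) ∂P ≤ δ k * (4 ^ k)⁻¹ := by
    intro k hk p
    have hs := side_pos k
    have hr0 : 0 < 3 * side k := by positivity
    have hrk : 3 * side k ≤ min r1 m0 := by
      have := side_anti hk
      linarith
    have hrr : 3 * side k ≤ r1 := hrk.trans (min_le_left _ _)
    have hrm : 3 * side k ≤ m0 := hrk.trans (min_le_right _ _)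
    have hk' : 3 ≤ k := hk3.trans hk
    by_cases hcase : M * ε * Real.sqrt (L (3 * side k)) ≤ 3 * side k
    · have h4 := h3 (ctr k p) (ctr_mem_Q0 k p) (3 * side k) hr0 hrr hcase
      have hsub : {ω | T k < μ ω (bll k p)} ⊆
          {ω | ENNReal.ofReal (Cm * gaugeReal κ (3 * side k)) <
            μ ω (closedBall (ctr k p) (3 * side k))} := by
        intro ω hω
        refine lt_of_le_of_lt (ENNReal.ofReal_le_ofReal ?_) hω
        exact mul_le_mul_of_nonneg_right hCxm (gaugeReal_nonneg hr0.le)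
      refine (lintegral_mono_set hsub).trans (h4.trans ?_)
      rw [hδ]
      have h5 : ((4 : ℝ≥0∞) ^ k)⁻¹ = ENNReal.ofReal (side k ^ 2) := by
        have h50 : side k ^ 2 = ((4 : ℝ) ^ k)⁻¹ := by
          rw [side, inv_pow, ← pow_mul, mul_comm k 2, pow_mul]
          norm_num
        rw [h50, ENNReal.ofReal_inv_of_pos (by positivity), ENNReal.ofReal_pow (by norm_num),
          ENNReal.ofReal_ofNat]
      rw [h5]
      simp only
      rw [← ENNReal.ofReal_mul (by positivity)]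
      refine ENNReal.ofReal_le_ofReal ?_
      have hlog := log_side_ge hk'
      have hkpos : (0 : ℝ) < k := by
        have : 0 < k := by omega
        exact_mod_cast this
      have h6 : (Real.log (1 / (3 * side k)) ^ 2)⁻¹ ≤ 16 * ((k : ℝ) ^ 2)⁻¹ := by
        have : ((k : ℝ) / 4) ^ 2 ≤ Real.log (1 / (3 * side k)) ^ 2 := by gcongr
        calc (Real.log (1 / (3 * side k)) ^ 2)⁻¹ ≤ (((k : ℝ) / 4) ^ 2)⁻¹ := by gcongr
          _ = 16 * ((k : ℝ) ^ 2)⁻¹ := by field_simp; ring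
      calc C3 * (Real.log (1 / (3 * side k)) ^ 2)⁻¹ * (3 * side k) ^ 2
          ≤ C4 * (Real.log (1 / (3 * side k)) ^ 2)⁻¹ * (3 * side k) ^ 2 := by gcongr
        _ ≤ C4 * (16 * ((k : ℝ) ^ 2)⁻¹) * (3 * side k) ^ 2 := by gcongr
        _ = 144 * C4 * ((k : ℝ) ^ 2)⁻¹ * side k ^ 2 := by ring
    · have hcase' := not_le.1 hcase
      have hemp : {ω | T k < μ ω (bll k p)} = ∅ := by
        ext ω
        simp only [mem_ofPred_eq, mem_empty_iff_false, iff_false, not_lt]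
        refine (hdens ω (ctr k p) (ctr_mem_Q0 k p) (3 * side k) hr0 hrr).trans ?_
        refine ENNReal.ofReal_le_ofReal ((small_scale hκ8 hD hM hr0 hrm hcase').trans ?_)
        exact mul_le_mul_of_nonneg_right hCxD (gaugeReal_nonneg hr0.le)
      rw [hemp, Measure.restrict_empty, lintegral_zero_measure]
      exact zero_le
  obtain ⟨A, hAm, hAP, hA⟩ := good_event P m hm μ k1 T δ a ha hQ (fun k p => hB _ _) hmass hbad
    (by rw [tsum_tail]; exact hk1t)
  refine ⟨A, hAm, ?_, fun ω hω => ?_⟩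
  · rw [ENNReal.div_le_iff h4T0 h4T, mul_comm]
    exact hAP
  · obtain ⟨g, hg1, hg2, hg3, hg4⟩ := hA ω hω
    refine ⟨g, hg1, hg2, hg3, fun z r hr hrs => ?_⟩
    obtain ⟨k, hk, hrk, hk2⟩ := exists_level hr hrs
    refine (hg4 k hk z r hrk).trans (ENNReal.ofReal_le_ofReal ?_)
    have h6 : gaugeReal κ (3 * side k) ≤ 6 ^ dimParam κ * gaugeReal κ r := by
      refine (gaugeReal_mono hκ hκ8 (by have := side_pos k; positivity)
        (show 3 * side k ≤ 6 * r by linarith)).trans ?_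
      exact gaugeReal_mul_le hκ hκ8 (by norm_num) hr.le
    calc Cx * gaugeReal κ (3 * side k) ≤ Cx * (6 ^ dimParam κ * gaugeReal κ r) := by gcongr
      _ = Cx * 6 ^ dimParam κ * gaugeReal κ r := by ring

end gauge_form

end Crest.Agent.R162.LB8
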