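import Mathlib
import Crest.Agent.R162.Base
import Crest.Agent.R162.FL1
import Crest.Agent.R162.Ga1
import Crest.Agent.R162.GM1

/-!
Row 162 (S0243), node LB9a (measure side): the compact set `KK W n Q0` of points of `Q0` near which
the conformal radius gets arbitrarily small before time `n`; finite measures at scales `ε → 0`
carried by points of small conformal radius, with mass bounded below and a Frostman bound, give
positive gauge measure of `KK W n Q0`.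
-/

set_option autoImplicit false

open Set MeasureTheory Filter Topology
open Crest.ProbabilityR.Loewner

namespace Crest.Agent.R162.LB9a

open Crest.Agent.R162.FL Crest.Agent.R162.OP

/-- points of `Q0` of conformal radius at most `ε` at some time `≤ n` -/
def SS (W : ℝ → ℝ) (n : ℝ) (Q0 : Set ℂ) (ε : ℝ) : Set ℂ :=
  {z | z ∈ Q0 ∧ ∃ u ∈ Icc (0 : ℝ) n, Alive W z u ∧ ups W u z ≤ ε}

/-- points of `Q0` near which the conformal radius gets arbitrarily small before time `n` -/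
def KK (W : ℝ → ℝ) (n : ℝ) (Q0 : Set ℂ) : Set ℂ :=
  {z | z ∈ Q0 ∧ ∀ ε > 0, ∃ z', ‖z' - z‖ < ε ∧ ∃ u ∈ Icc (0 : ℝ) n, Alive W z' u ∧ ups W u z' ≤ ε}

variable {W : ℝ → ℝ} {n : ℝ} {Q0 : Set ℂ} {κ : ℝ}

lemma KK_subset : KK W n Q0 ⊆ Q0 := fun _ h => h.1

lemma SS_subset {ε : ℝ} : SS W n Q0 ε ⊆ Q0 := fun _ h => h.1

lemma SS_mono {ε ε' : ℝ} (h : ε ≤ ε') : SS W n Q0 ε ⊆ SS W n Q0 ε' := by
  rintro z ⟨hz, u, hu, ha, hle⟩
  exact ⟨hz, u, hu, ha, hle.trans h⟩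

lemma KK_mono {n' : ℝ} {Q1 : Set ℂ} (hn : n ≤ n') (hQ : Q0 ⊆ Q1) : KK W n Q0 ⊆ KK W n' Q1 := by
  rintro z ⟨hz, h⟩
  refine ⟨hQ hz, fun ε hε => ?_⟩
  obtain ⟨z', h1, u, hu, h2⟩ := h ε hε
  exact ⟨z', h1, u, ⟨hu.1, hu.2.trans hn⟩, h2⟩

lemma KK_isClosed (hQ : IsClosed Q0) : IsClosed (KK W n Q0) := by
  rw [← isSeqClosed_iff_isClosed]
  intro x z hx hz
  refine ⟨hQ.isSeqClosed (fun k => (hx k).1) hz, fun ε hε => ?_⟩
  obtain ⟨k, hk⟩ := ((Metric.tendsto_nhds.1 hz (ε / 2) (half_pos hε))).exists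
  obtain ⟨z', h1, u, hu, ha, hle⟩ := (hx k).2 (ε / 2) (half_pos hε)
  refine ⟨z', ?_, u, hu, ha, hle.trans (by linarith)⟩
  rw [dist_eq_norm] at hk
  calc ‖z' - z‖ = ‖(z' - x k) + (x k - z)‖ := by ring_nf
    _ ≤ ‖z' - x k‖ + ‖x k - z‖ := norm_add_le _ _
    _ < ε := by linarith

/-- (1) `KK` is compact -/
theorem KK_isCompact (hQ : IsCompact Q0) : IsCompact (KK W n Q0) :=
  hQ.of_isClosed_subset (KK_isClosed hQ.isClosed) KK_subset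

/-- (2) points of `Q0` of small conformal radius are close to `KK` -/
theorem KK_supp' (hQ : IsCompact Q0) {δ : ℝ} (hδ : 0 < δ) :
    ∃ ε0 > 0, SS W n Q0 ε0 ⊆ Metric.thickening δ (KK W n Q0) := by
  by_contra hcon
  push Not at hcon
  have hcon' : ∀ k : ℕ, ∃ z ∈ SS W n Q0 (1 / ((k : ℝ) + 1)), z ∉ Metric.thickening δ (KK W n Q0) :=
    fun k => not_subset.1 (hcon _ (by positivity))
  choose x hx hxn using hcon'
  obtain ⟨z, hz, φ, hφ, hlim⟩ := hQ.tendsto_subseq fun k => (hx k).1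
  have hzK : z ∈ KK W n Q0 := by
    refine ⟨hz, fun ε hε => ?_⟩
    have h1 : ∀ᶠ k in atTop, ‖x (φ k) - z‖ < ε := by
      have := Metric.tendsto_nhds.1 hlim ε hε
      simpa [dist_eq_norm] using this
    have h2 : ∀ᶠ k in atTop, 1 / ((φ k : ℝ) + 1) ≤ ε := by
      have := (tendsto_one_div_add_atTop_nhds_zero_nat.comp hφ.tendsto_atTop).eventually
        (ge_mem_nhds hε)
      simpa using this
    obtain ⟨k, hk1, hk2⟩ := (h1.and h2).exists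
    obtain ⟨_, u, hu, ha, hle⟩ := hx (φ k)
    exact ⟨x (φ k), hk1, u, hu, ha, hle.trans hk2⟩
  obtain ⟨k, hk⟩ := (Metric.tendsto_nhds.1 hlim δ hδ).exists
  exact hxn (φ k) (Metric.mem_thickening_iff.2 ⟨z, hzK, hk⟩)

/-- (2) in the form of note 14765 -/
theorem KK_supp (hQ : IsCompact Q0) : ∀ δ > 0, ∃ ε0 > 0, ∀ z ∈ Q0,
    (∃ u ∈ Icc (0 : ℝ) n, Alive W z u ∧ ups W u z ≤ ε0) → z ∈ Metric.thickening δ (KK W n Q0) := by
  intro δ hδ
  obtain ⟨ε0, h0, h⟩ := KK_supp' (W := W) (n := n) hQ hδ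
  exact ⟨ε0, h0, fun z hz hu => h ⟨hz, hu⟩⟩

/-- (3) one-measure-per-scale form (balls) -/
theorem gaugeMeasure_KK_ge (hκ : 0 < κ) (hκ8 : κ < 8) (hQ : IsCompact Q0) {c C r0 : ℝ}
    (hC : 0 < C) (hr0 : 0 < r0)
    (h : ∀ ε : ℝ, 0 < ε → ∃ ν : Measure ℂ, ENNReal.ofReal c ≤ ν univ ∧
      (∀ᵐ z ∂ν, z ∈ SS W n Q0 ε) ∧
      ∀ x : ℂ, ∀ r : ℝ, ε ≤ r → r ≤ r0 →
        ν (Metric.closedBall x r) ≤ ENNReal.ofReal (C * gaugeReal κ r)) :
    ENNReal.ofReal (c / (4 * C)) ≤ gaugeMeasure κ (KK W n Q0) := by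
  refine Ga.gaugeMeasure_ge_of_approx hκ hκ8 (KK_isCompact hQ) hC hr0 fun δ hδ => ?_
  obtain ⟨ε0, h0, hs⟩ := KK_supp' (W := W) (n := n) hQ hδ
  obtain ⟨ν, h1, h2, h3⟩ := h (min ε0 δ) (lt_min h0 hδ)
  refine ⟨ν, h1, ?_, fun x _ r hr hr' => h3 x r ((min_le_right _ _).trans hr) hr'⟩
  have : ∀ᵐ z ∂ν, z ∈ Metric.thickening δ (KK W n Q0) := by
    filter_upwards [h2] with z hz
    exact hs (SS_mono (min_le_left _ _) hz)
  exact this

theorem gaugeMeasure_KK_pos (hκ : 0 < κ) (hκ8 : κ < 8) (hQ : IsCompact Q0) {c C r0 : ℝ}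
    (hc : 0 < c) (hC : 0 < C) (hr0 : 0 < r0)
    (h : ∀ ε : ℝ, 0 < ε → ∃ ν : Measure ℂ, ENNReal.ofReal c ≤ ν univ ∧
      (∀ᵐ z ∂ν, z ∈ SS W n Q0 ε) ∧
      ∀ x : ℂ, ∀ r : ℝ, ε ≤ r → r ≤ r0 →
        ν (Metric.closedBall x r) ≤ ENNReal.ofReal (C * gaugeReal κ r)) :
    0 < gaugeMeasure κ (KK W n Q0) := by
  refine lt_of_lt_of_le ?_ (gaugeMeasure_KK_ge (W := W) (n := n) hκ hκ8 hQ hC hr0 h)
  rw [ENNReal.ofReal_pos]; positivity

/-- (3) sequence form: for infinitely many `m` the measure `μ m` has mass `≥ c`, is carried by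
points of `Q0` of conformal radius `≤ ε m`, and satisfies the Frostman bound on balls -/
theorem gaugeMeasure_KK_pos_of_seq (hκ : 0 < κ) (hκ8 : κ < 8) (hQ : IsCompact Q0) {c C r0 : ℝ}
    (hc : 0 < c) (hC : 0 < C) (hr0 : 0 < r0) (μ : ℕ → Measure ℂ) (ε : ℕ → ℝ)
    (hε : Tendsto ε atTop (𝓝 0))
    (h : ∃ᶠ m in atTop, ENNReal.ofReal c ≤ μ m univ ∧ (∀ᵐ z ∂(μ m), z ∈ SS W n Q0 (ε m)) ∧
      ∀ x : ℂ, ∀ r : ℝ, ε m ≤ r → r ≤ r0 →
        μ m (Metric.closedBall x r) ≤ ENNReal.ofReal (C * gaugeReal κ r)) :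
    0 < gaugeMeasure κ (KK W n Q0) := by
  refine gaugeMeasure_KK_pos (W := W) (n := n) hκ hκ8 hQ hc hC hr0 fun δ hδ => ?_
  obtain ⟨m, ⟨h1, h2, h3⟩, h4⟩ := (h.and_eventually (hε.eventually (gt_mem_nhds hδ))).exists
  refine ⟨μ m, h1, ?_, fun x r hr hr' => h3 x r (h4.le.trans hr) hr'⟩
  filter_upwards [h2] with z hz
  exact SS_mono h4.le hz

end Crest.Agent.R162.LB9a
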