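import Mathlib

/-!
Row 162, node ZO1: restarted Brownian pieces on successive intervals are independent, hence
almost surely at least one of infinitely many events of probability `≥ c`, each measurable with
respect to the increments on its own interval, occurs.
-/

set_option autoImplicit false
set_option linter.unusedSectionVars false
set_option warn.classDefReducibility false

open MeasureTheory ProbabilityTheory Filter
open scoped NNReal ENNReal Topology

namespace Crest.Agent.R162.ZO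

variable {Ω : Type*} [mΩ : MeasurableSpace Ω] {P : Measure Ω} {B : ℝ≥0 → Ω → ℝ}

/-- The sigma-algebra of the increments `B (s + u) - B s`, `u ≤ τ`. -/
def incSigma (B : ℝ≥0 → Ω → ℝ) (s τ : ℝ≥0) : MeasurableSpace Ω :=
  MeasurableSpace.comap (fun ω (u : Set.Iic τ) => B (s + u) ω - B s ω) MeasurableSpace.pi

/-- The sigma-algebra of the past up to time `s`. -/
def pastSigma (B : ℝ≥0 → Ω → ℝ) (s : ℝ≥0) : MeasurableSpace Ω :=
  MeasurableSpace.comap (fun ω (u : Set.Iic s) => B u ω) MeasurableSpace.pi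

/-- The sigma-algebra of all increments after time `s`. -/
def futSigma (B : ℝ≥0 → Ω → ℝ) (s : ℝ≥0) : MeasurableSpace Ω :=
  MeasurableSpace.comap (fun ω (u : ℝ≥0) => B (s + u) ω - B s ω) MeasurableSpace.pi

lemma incSigma_le_fut (B : ℝ≥0 → Ω → ℝ) (s τ : ℝ≥0) : incSigma B s τ ≤ futSigma B s := by
  unfold incSigma futSigma
  have : (fun ω (u : Set.Iic τ) => B (s + u) ω - B s ω)
      = (fun (x : ℝ≥0 → ℝ) (u : Set.Iic τ) => x u) ∘
        (fun ω (u : ℝ≥0) => B (s + u) ω - B s ω) := rfl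
  rw [this, ← MeasurableSpace.comap_comp]
  apply MeasurableSpace.comap_mono
  rw [← measurable_iff_comap_le]
  exact measurable_pi_lambda _ fun u => measurable_pi_apply _

lemma incSigma_le_past (B : ℝ≥0 → Ω → ℝ) {s τ r : ℝ≥0} (h : s + τ ≤ r) :
    incSigma B s τ ≤ pastSigma B r := by
  unfold incSigma pastSigma
  have hs : s ≤ r := le_trans (le_add_of_nonneg_right zero_le) h
  have hu : ∀ u : Set.Iic τ, s + (u : ℝ≥0) ≤ r := fun u => le_trans (by gcongr; exact u.2) h
  have : (fun ω (u : Set.Iic τ) => B (s + u) ω - B s ω)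
      = (fun (x : Set.Iic r → ℝ) (u : Set.Iic τ) => x ⟨s + u, hu u⟩ - x ⟨s, hs⟩) ∘
        (fun ω (u : Set.Iic r) => B u ω) := rfl
  rw [this, ← MeasurableSpace.comap_comp]
  apply MeasurableSpace.comap_mono
  rw [← measurable_iff_comap_le]
  exact measurable_pi_lambda _ fun u => (measurable_pi_apply _).sub (measurable_pi_apply _)

lemma pastSigma_mono (B : ℝ≥0 → Ω → ℝ) {s r : ℝ≥0} (h : s ≤ r) :
    pastSigma B s ≤ pastSigma B r := by
  unfold pastSigma
  have hu : ∀ u : Set.Iic s, (u : ℝ≥0) ≤ r := fun u => le_trans u.2 h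
  have : (fun ω (u : Set.Iic s) => B u ω)
      = (fun (x : Set.Iic r → ℝ) (u : Set.Iic s) => x ⟨u, hu u⟩) ∘
        (fun ω (u : Set.Iic r) => B u ω) := rfl
  rw [this, ← MeasurableSpace.comap_comp]
  apply MeasurableSpace.comap_mono
  rw [← measurable_iff_comap_le]
  exact measurable_pi_lambda _ fun u => measurable_pi_apply _

lemma pastSigma_le (hm : ∀ t, Measurable (B t)) (s : ℝ≥0) : pastSigma B s ≤ mΩ := by
  unfold pastSigma
  rw [← measurable_iff_comap_le]
  exact measurable_pi_lambda _ fun u => hm _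

lemma futSigma_le (hm : ∀ t, Measurable (B t)) (s : ℝ≥0) : futSigma B s ≤ mΩ := by
  unfold futSigma
  rw [← measurable_iff_comap_le]
  exact measurable_pi_lambda _ fun u => (hm _).sub (hm _)

lemma incSigma_le (hm : ∀ t, Measurable (B t)) (s τ : ℝ≥0) : incSigma B s τ ≤ mΩ :=
  (incSigma_le_fut B s τ).trans (futSigma_le hm s)

/-- Independence of the future increments and the past. -/
lemma indep_fut_past (hB : IsPreBrownianReal B P) (s : ℝ≥0) :
    Indep (futSigma B s) (pastSigma B s) P :=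
  hB.indepFun_shift s

/-- The probability that none of the first `n` events occurs. -/
lemma prob_none_le (hB : IsPreBrownianReal B P) (hm : ∀ t, Measurable (B t))
    {c : ℝ≥0∞} (s τ : ℕ → ℝ≥0) (hs : ∀ k, s k + τ k ≤ s (k + 1))
    (E : ℕ → Set Ω) (hE : ∀ k, MeasurableSet[incSigma B (s k) (τ k)] (E k))
    (hP : ∀ k, c ≤ P (E k)) (n : ℕ) :
    P (⋂ k ∈ Finset.range n, (E k)ᶜ) ≤ (1 - c) ^ n := by
  have hprob : IsProbabilityMeasure P := hB.isGaussianProcess.isProbabilityMeasure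
  have hmono : ∀ k m, k < m → s k + τ k ≤ s m := by
    intro k m hkm
    induction m with
    | zero => omega
    | succ m ih =>
      rcases Nat.lt_succ_iff_lt_or_eq.mp hkm with h | h
      · exact (ih h).trans ((le_add_of_nonneg_right zero_le).trans (hs m))
      · subst h; exact hs k
  induction n with
  | zero => simpa using prob_le_one
  | succ n ih =>
    have h1 : (⋂ k ∈ Finset.range (n + 1), (E k)ᶜ)
        = (E n)ᶜ ∩ (⋂ k ∈ Finset.range n, (E k)ᶜ) := by
      rw [Finset.range_add_one, Finset.set_biInter_insert]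
    have hA : MeasurableSet[futSigma B (s n)] (E n)ᶜ :=
      (incSigma_le_fut B _ _ _ (hE n)).compl
    have hC : MeasurableSet[pastSigma B (s n)] (⋂ k ∈ Finset.range n, (E k)ᶜ) := by
      refine @Finset.measurableSet_biInter _ _ (pastSigma B (s n)) _ _ fun k hk => ?_
      exact (incSigma_le_past B (hmono k n (Finset.mem_range.mp hk)) _ (hE k)).compl
    have hind := (Indep_iff _ _ P).mp (indep_fut_past hB (s n)) _ _ hA hC
    rw [h1, hind, pow_succ, mul_comm]
    refine mul_le_mul' ih ?_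
    rw [prob_compl_eq_one_sub (incSigma_le hm _ _ _ (hE n))]
    exact tsub_le_tsub_left (hP n) 1

/-- **Node ZO1.** Almost surely one of the events occurs. -/
theorem ae_exists (hB : IsPreBrownianReal B P) (hm : ∀ t, Measurable (B t))
    {c : ℝ≥0∞} (hc : 0 < c) (s τ : ℕ → ℝ≥0) (hs : ∀ k, s k + τ k ≤ s (k + 1))
    (E : ℕ → Set Ω) (hE : ∀ k, MeasurableSet[incSigma B (s k) (τ k)] (E k))
    (hP : ∀ k, c ≤ P (E k)) : ∀ᵐ ω ∂P, ∃ k, ω ∈ E k := by
  have hlt : (1 - c : ℝ≥0∞) < 1 := ENNReal.sub_lt_self ENNReal.one_ne_top one_ne_zero hc.ne'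
  have hlim : Tendsto (fun n : ℕ => (1 - c : ℝ≥0∞) ^ n) atTop (𝓝 0) :=
    ENNReal.tendsto_pow_atTop_nhds_zero_of_lt_one hlt
  have hle : ∀ n : ℕ, P {ω | ¬ ∃ k, ω ∈ E k} ≤ (1 - c) ^ n := by
    intro n
    refine (measure_mono ?_).trans (prob_none_le hB hm s τ hs E hE hP n)
    intro ω hω
    simp only [Set.mem_iInter, Set.mem_compl_iff]
    intro k _ hk
    exact hω ⟨k, hk⟩
  rw [ae_iff]
  exact le_antisymm (ge_of_tendsto' hlim hle) zero_le

/-- Version with the intervals inside `[a, b)`: restart times `s k = b - (b - a) / 2 ^ k`. -/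
theorem ae_exists_Ico (hB : IsPreBrownianReal B P) (hm : ∀ t, Measurable (B t))
    {c : ℝ≥0∞} (hc : 0 < c) {a b : ℝ≥0} (hab : a < b)
    (E : ℝ≥0 → ℝ≥0 → Set Ω)
    (hE : ∀ s τ, 0 < τ → MeasurableSet[incSigma B s τ] (E s τ))
    (hP : ∀ s τ, 0 < τ → c ≤ P (E s τ)) :
    ∀ᵐ ω ∂P, ∃ s τ : ℝ≥0, a ≤ s ∧ 0 < τ ∧ s + τ ≤ b ∧ ω ∈ E s τ := by
  obtain ⟨l, hl, rfl⟩ : ∃ l : ℝ≥0, 0 < l ∧ b = a + l :=
    ⟨b - a, tsub_pos_of_lt hab, (add_tsub_cancel_of_le hab.le).symm⟩
  -- s k = a + l * (1 - 2^{-k}), τ k = l * 2^{-(k+1)}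
  let x : ℕ → ℝ≥0 := fun k => 1 - (1 / 2) ^ k
  have hx : ∀ k, x k + (1 / 2) ^ k = 1 := fun k =>
    tsub_add_cancel_of_le (pow_le_one₀ (by positivity) (by norm_num))
  have hx1 : ∀ k, x k + (1 / 2) ^ (k + 1) = x (k + 1) := by
    intro k
    have h1 := hx k
    have h2 := hx (k + 1)
    have h3 : ((1 : ℝ≥0) / 2) ^ k = (1 / 2) ^ (k + 1) + (1 / 2) ^ (k + 1) := by
      rw [pow_succ]
      rw [← mul_add]
      norm_num
    have h4 : (x k + (1 / 2) ^ (k + 1)) + (1 / 2) ^ (k + 1) = x (k + 1) + (1 / 2) ^ (k + 1) := by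
      rw [h2, add_assoc, ← h3, h1]
    exact add_right_cancel h4
  have hτ : ∀ k : ℕ, 0 < l * ((1 : ℝ≥0) / 2) ^ (k + 1) := fun k => by positivity
  have key := ae_exists hB hm hc (fun k => a + l * x k) (fun k => l * (1 / 2) ^ (k + 1))
    (fun k => by
      show a + l * x k + l * (1 / 2) ^ (k + 1) ≤ a + l * x (k + 1)
      rw [add_assoc, ← mul_add, hx1])
    (fun k => E (a + l * x k) (l * (1 / 2) ^ (k + 1)))
    (fun k => hE _ _ (hτ k)) (fun k => hP _ _ (hτ k))
  filter_upwards [key] with ω ⟨k, hk⟩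
  refine ⟨_, _, ?_, hτ k, ?_, hk⟩
  · exact le_add_of_nonneg_right zero_le
  · rw [add_assoc, ← mul_add, hx1]
    have : x (k + 1) ≤ 1 := by
      calc x (k + 1) ≤ x (k + 1) + (1 / 2) ^ (k + 1) := le_add_of_nonneg_right zero_le
        _ = 1 := hx _
    calc a + l * x (k + 1) ≤ a + l * 1 := by gcongr
      _ = a + l := by rw [mul_one]

/-- The restarted and rescaled process `t ↦ τ^{-1/2} (B_{s + τ t} - B_s)`. -/
noncomputable def piece (B : ℝ≥0 → Ω → ℝ) (s τ : ℝ≥0) : ℝ≥0 → Ω → ℝ :=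
  fun t ω => (√(τ : ℝ))⁻¹ * (B (s + τ * t) ω - B s ω)

lemma piece_isBrownian (hB : IsBrownianReal B P) (s : ℝ≥0) {τ : ℝ≥0} (hτ : 0 < τ) :
    IsBrownianReal (piece B s τ) P :=
  (hB.shift s).smul hτ.ne'

lemma piece_measurable (hm : ∀ t, Measurable (B t)) (s τ t : ℝ≥0) :
    Measurable (piece B s τ t) :=
  ((hm _).sub (hm _)).const_mul _

lemma piece_continuous (hc : ∀ ω, Continuous fun t => B t ω) (s τ : ℝ≥0) (ω : Ω) :
    Continuous fun t => piece B s τ t ω := by
  unfold piece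
  have := hc ω
  fun_prop

lemma piece_zero (B : ℝ≥0 → Ω → ℝ) (s τ : ℝ≥0) (ω : Ω) : piece B s τ 0 ω = 0 := by
  simp [piece]

lemma past_piece_le (B : ℝ≥0 → Ω → ℝ) (s τ : ℝ≥0) :
    pastSigma (piece B s τ) 1 ≤ incSigma B s τ := by
  unfold pastSigma incSigma
  have hu : ∀ u : Set.Iic (1 : ℝ≥0), τ * (u : ℝ≥0) ≤ τ := fun u =>
    mul_le_of_le_one_right zero_le u.2
  have : (fun ω (u : Set.Iic (1 : ℝ≥0)) => piece B s τ u ω)
      = (fun (x : Set.Iic τ → ℝ) (u : Set.Iic (1 : ℝ≥0)) => (√(τ : ℝ))⁻¹ * x ⟨τ * u, hu u⟩) ∘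
        (fun ω (u : Set.Iic τ) => B (s + u) ω - B s ω) := rfl
  rw [this, ← MeasurableSpace.comap_comp]
  apply MeasurableSpace.comap_mono
  rw [← measurable_iff_comap_le]
  exact measurable_pi_lambda _ fun u => (measurable_pi_apply _).const_mul _

/-- **Node ZO1, final form.** If a path event `Good` has probability `≥ c` for every Brownian
motion on `(Ω, P)` with measurable coordinates and continuous paths started at `0`, and is
measurable with respect to the path up to time `1`, then almost surely, in every interval there is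
a good rescaled piece. -/
theorem ae_good_piece (hB : IsBrownianReal B P) (hm : ∀ t, Measurable (B t))
    (hcont : ∀ ω, Continuous fun t => B t ω)
    {c : ℝ≥0∞} (hc : 0 < c) (Good : (ℝ≥0 → ℝ) → Prop)
    (hmeas : ∀ B' : ℝ≥0 → Ω → ℝ, (∀ t, Measurable (B' t)) → (∀ ω, Continuous fun t => B' t ω) →
      (∀ ω, B' 0 ω = 0) → MeasurableSet[pastSigma B' 1] {ω | Good fun t => B' t ω})
    (hprob : ∀ B' : ℝ≥0 → Ω → ℝ, IsBrownianReal B' P → (∀ t, Measurable (B' t)) →
      (∀ ω, Continuous fun t => B' t ω) → (∀ ω, B' 0 ω = 0) →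
      c ≤ P {ω | Good fun t => B' t ω}) :
    ∀ᵐ ω ∂P, ∀ a b : ℝ≥0, a < b → ∃ s τ : ℝ≥0, a ≤ s ∧ 0 < τ ∧ s + τ ≤ b ∧
      Good fun t => piece B s τ t ω := by
  let E : ℝ≥0 → ℝ≥0 → Set Ω := fun s τ => {ω | Good fun t => piece B s τ t ω}
  have hE : ∀ s τ, 0 < τ → MeasurableSet[incSigma B s τ] (E s τ) := fun s τ _ =>
    past_piece_le B s τ _ (hmeas (piece B s τ) (piece_measurable hm s τ)
      (piece_continuous hcont s τ) (piece_zero B s τ))
  have hP : ∀ s τ, 0 < τ → c ≤ P (E s τ) := fun s τ hτ =>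
    hprob (piece B s τ) (piece_isBrownian hB s hτ) (piece_measurable hm s τ)
      (piece_continuous hcont s τ) (piece_zero B s τ)
  have h1 : ∀ᵐ ω ∂P, ∀ p q : ℚ, Real.toNNReal p < Real.toNNReal q → ∃ s τ : ℝ≥0,
      Real.toNNReal p ≤ s ∧ 0 < τ ∧ s + τ ≤ Real.toNNReal q ∧ ω ∈ E s τ := by
    rw [ae_all_iff]
    intro p
    rw [ae_all_iff]
    intro q
    by_cases h : Real.toNNReal p < Real.toNNReal q
    · filter_upwards [ae_exists_Ico hB.toIsPreBrownianReal hm hc h E hE hP] with ω hω _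
      exact hω
    · exact Eventually.of_forall fun ω h' => absurd h' h
  filter_upwards [h1] with ω hω a b hab
  obtain ⟨q, _, haq, hqb⟩ := (NNReal.lt_iff_exists_rat_btwn a b).mp hab
  obtain ⟨p, _, hap, hpq⟩ := (NNReal.lt_iff_exists_rat_btwn a _).mp haq
  obtain ⟨s, τ, h1, h2, h3, h4⟩ := hω p q hpq
  exact ⟨s, τ, hap.le.trans h1, h2, h3.trans hqb.le, h4⟩

end Crest.Agent.R162.ZO
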