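import Mathlib
import Crest.Agent.R162.LB9a
import Crest.Agent.R162.ZO1

/-!
Row 162 (S0243), node LB9a (packaging): from events `A m` at scales `ε m → 0` (each of probability
`≥ c8`, measurable with respect to the path up to time `n`, each giving a finite measure carried by
points of small conformal radius with a Frostman bound) to ONE path predicate
`Good w := ∃ᶠ m, A m w`, with the three properties (G1), (G2), (G3) of note 14765.
-/

set_option autoImplicit false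

open Set MeasureTheory Filter Topology ProbabilityTheory
open scoped NNReal ENNReal
open Crest.ProbabilityR.Loewner

namespace Crest.Agent.R162.LB9a

open Crest.Agent.R162.FL Crest.Agent.R162.OP

/-- `P (limsup A_m) ≥ c` as soon as `P (A_m) ≥ c` for all large `m`; the events need not be
measurable for the full σ-algebra beyond what is assumed. -/
theorem le_measure_limsup {Ω : Type*} {m0 : MeasurableSpace Ω} {P : Measure Ω} [IsFiniteMeasure P]
    {c : ℝ≥0∞} {A : ℕ → Set Ω} (hA : ∀ m, MeasurableSet (A m))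
    (hP : ∀ᶠ m in atTop, c ≤ P (A m)) : c ≤ P {ω | ∃ᶠ m in atTop, ω ∈ A m} := by
  have hset : {ω | ∃ᶠ m in atTop, ω ∈ A m} = ⋂ k : ℕ, ⋃ m : ℕ, ⋃ _ : k ≤ m, A m := by
    ext ω
    simp only [mem_setOf_eq, frequently_atTop, mem_iInter, mem_iUnion, exists_prop]
  rw [hset]
  have hmeas : ∀ k : ℕ, MeasurableSet (⋃ m : ℕ, ⋃ _ : k ≤ m, A m) := fun k =>
    MeasurableSet.iUnion fun m => MeasurableSet.iUnion fun _ => hA m
  have hanti : Antitone fun k : ℕ => ⋃ m : ℕ, ⋃ _ : k ≤ m, A m := by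
    intro k l hkl ω hω
    simp only [mem_iUnion, exists_prop] at hω ⊢
    obtain ⟨m, hm, h⟩ := hω
    exact ⟨m, hkl.trans hm, h⟩
  have hlim := tendsto_measure_iInter_atTop (μ := P) (fun k => (hmeas k).nullMeasurableSet) hanti
    ⟨0, measure_ne_top _ _⟩
  obtain ⟨k0, hk0⟩ := eventually_atTop.1 hP
  refine ge_of_tendsto hlim (eventually_atTop.2 ⟨k0, fun k hk => ?_⟩)
  refine (hk0 k hk).trans (measure_mono ?_)
  intro ω hω
  simp only [mem_iUnion, exists_prop]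
  exact ⟨k, le_rfl, hω⟩

/-- (G1) measurability of `∃ᶠ m, A m` for any σ-algebra -/
theorem measurableSet_frequently {Ω : Type*} {m0 : MeasurableSpace Ω} {A : ℕ → Set Ω}
    (hA : ∀ m, MeasurableSet (A m)) : MeasurableSet {ω | ∃ᶠ m in atTop, ω ∈ A m} := by
  have hset : {ω | ∃ᶠ m in atTop, ω ∈ A m} = ⋂ k : ℕ, ⋃ m : ℕ, ⋃ _ : k ≤ m, A m := by
    ext ω
    simp only [mem_setOf_eq, frequently_atTop, mem_iInter, mem_iUnion, exists_prop]
  rw [hset]
  exact MeasurableSet.iInter fun k => MeasurableSet.iUnion fun m =>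
    MeasurableSet.iUnion fun _ => hA m

/-- conversion of a Frostman bound for all sets of small diameter into one for balls -/
theorem ball_bound_of_diam {κ : ℝ} (hκ : 0 < κ) (hκ8 : κ < 8) {ν : Measure ℂ} {C r1 : ℝ}
    (hC : 0 ≤ C)
    (h : ∀ U : Set ℂ, Bornology.IsBounded U → Metric.diam U ≤ r1 →
      ν U ≤ ENNReal.ofReal (C * gaugeReal κ (Metric.diam U))) :
    ∀ x : ℂ, ∀ r : ℝ, 0 ≤ r → r ≤ r1 / 2 →
      ν (Metric.closedBall x r) ≤ ENNReal.ofReal (4 * C * gaugeReal κ r) := by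
  intro x r hr hr1
  have hd : Metric.diam (Metric.closedBall x r) ≤ 2 * r := Metric.diam_closedBall hr
  refine (h _ Metric.isBounded_closedBall (hd.trans (by linarith))).trans
    (ENNReal.ofReal_le_ofReal ?_)
  have h1 : gaugeReal κ (Metric.diam (Metric.closedBall x r)) ≤ gaugeReal κ (2 * r) :=
    GM.gaugeReal_mono hκ hκ8 Metric.diam_nonneg hd
  have h2 : gaugeReal κ (2 * r) ≤ 4 * gaugeReal κ r := by
    have := Ga.gaugeReal_two_mul_le (κ := κ) hκ hκ8 hr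
    linarith
  nlinarith [GM.gaugeReal_nonneg (κ := κ) hr]

/-- **Packaging of LB8 for LB9b.**  `A m` (`m : ℕ`) are predicates of the driving Brownian path. -/
theorem good_pack {κ : ℝ} (hκ : 0 < κ) (hκ8 : κ < 8) {n : ℝ≥0} {Q0 : Set ℂ} (hQ : IsCompact Q0)
    {c C r0 : ℝ} (hc : 0 < c) (hC : 0 < C) (hr0 : 0 < r0) (ε : ℕ → ℝ)
    (hε : Tendsto ε atTop (𝓝 0)) (A : ℕ → (ℝ≥0 → ℝ) → Prop)
    (hA : ∀ m w, Continuous w → w 0 = 0 → A m w → ∃ ν : Measure ℂ, ENNReal.ofReal c ≤ ν univ ∧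
      (∀ᵐ z ∂ν, z ∈ SS (fun t => √κ * w t.toNNReal) n Q0 (ε m)) ∧
      ∀ x : ℂ, ∀ r : ℝ, ε m ≤ r → r ≤ r0 →
        ν (Metric.closedBall x r) ≤ ENNReal.ofReal (C * gaugeReal κ r))
    {Ω : Type*} {m0 : MeasurableSpace Ω} {P : Measure Ω} [IsProbabilityMeasure P] {c8 : ℝ≥0∞}
    (hm : ∀ m, ∀ B' : ℝ≥0 → Ω → ℝ, (∀ t, Measurable (B' t)) →
      (∀ ω, Continuous fun t => B' t ω) → (∀ ω, B' 0 ω = 0) →
      MeasurableSet[ZO.pastSigma B' n] {ω | A m fun t => B' t ω})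
    (hP : ∀ B' : ℝ≥0 → Ω → ℝ, IsBrownianReal B' P → (∀ t, Measurable (B' t)) →
      (∀ ω, Continuous fun t => B' t ω) → (∀ ω, B' 0 ω = 0) →
      ∀ᶠ m in atTop, c8 ≤ P {ω | A m fun t => B' t ω}) :
    (∀ B' : ℝ≥0 → Ω → ℝ, (∀ t, Measurable (B' t)) →
      (∀ ω, Continuous fun t => B' t ω) → (∀ ω, B' 0 ω = 0) →
      MeasurableSet[ZO.pastSigma B' n] {ω | ∃ᶠ m in atTop, A m fun t => B' t ω}) ∧
    (∀ B' : ℝ≥0 → Ω → ℝ, IsBrownianReal B' P → (∀ t, Measurable (B' t)) →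
      (∀ ω, Continuous fun t => B' t ω) → (∀ ω, B' 0 ω = 0) →
      c8 ≤ P {ω | ∃ᶠ m in atTop, A m fun t => B' t ω}) ∧
    ∀ w : ℝ≥0 → ℝ, Continuous w → w 0 = 0 → (∃ᶠ m in atTop, A m w) →
      0 < gaugeMeasure κ (KK (fun t => √κ * w t.toNNReal) n Q0) := by
  refine ⟨fun B' h1 h2 h3 => ?_, fun B' h0 h1 h2 h3 => ?_, fun w hw hw0 hfr => ?_⟩
  · exact measurableSet_frequently (m0 := ZO.pastSigma B' n) (A := fun m => {ω | A m fun t => B' t ω})
      (fun m => hm m B' h1 h2 h3)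
  · refine le_measure_limsup (A := fun m => {ω | A m fun t => B' t ω}) (fun m => ?_)
      (hP B' h0 h1 h2 h3)
    exact ZO.pastSigma_le h1 n _ (hm m B' h1 h2 h3)
  · refine gaugeMeasure_KK_pos hκ hκ8 hQ hc hC hr0 fun δ hδ => ?_
    obtain ⟨m, h1, h2⟩ := (hfr.and_eventually (hε.eventually (gt_mem_nhds hδ))).exists
    obtain ⟨ν, a1, a2, a3⟩ := hA m w hw hw0 h1
    refine ⟨ν, a1, ?_, fun x r hr hr' => a3 x r (h2.le.trans hr) hr'⟩
    filter_upwards [a2] with z hz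
    exact SS_mono h2.le hz

end Crest.Agent.R162.LB9a
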