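import Mathlib
import Crest.Agent.R162.OSDefs

/-!
Row 162 (S0243), node VER (helper310): from `IsBrownianReal B P` to a version with all paths
continuous, started at `0`, which is a Brownian motion of its natural filtration in the sense of
`OS.IsBM`, and whose paths are a.s. equal to those of `B`.
-/

set_option autoImplicit false

open MeasureTheory ProbabilityTheory Filter Topology
open scoped NNReal ENNReal

namespace Crest.Agent.R162.Ver

variable {Ω : Type*} {mΩ : MeasurableSpace Ω} {P : Measure Ω}

/-- the natural filtration of a measurable process -/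
def natF (B : ℝ≥0 → Ω → ℝ) (hm : ∀ t, Measurable (B t)) : Filtration ℝ≥0 mΩ where
  seq t := ⨆ s : Set.Iic t, MeasurableSpace.comap (B s) inferInstance
  mono' := by
    intro s t hst
    refine iSup_le fun r => ?_
    exact le_iSup (fun s : Set.Iic t => MeasurableSpace.comap (B s) inferInstance)
      ⟨r.1, le_trans r.2 hst⟩
  le' := by
    intro t
    exact iSup_le fun s => (hm s).comap_le

theorem natF_adapted (B : ℝ≥0 → Ω → ℝ) (hm : ∀ t, Measurable (B t)) (s t : ℝ≥0) (hst : s ≤ t) :
    Measurable[natF B hm t] (B s) := by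
  rw [measurable_iff_comap_le]
  exact le_iSup (fun s : Set.Iic t => MeasurableSpace.comap (B s) inferInstance) ⟨s, hst⟩

theorem natF_eq (B : ℝ≥0 → Ω → ℝ) (hm : ∀ t, Measurable (B t)) (t : ℝ≥0) :
    (natF B hm t : MeasurableSpace Ω) =
      MeasurableSpace.comap (fun ω (s : Set.Iic t) => B s ω) MeasurableSpace.pi := by
  change (⨆ s : Set.Iic t, MeasurableSpace.comap (B s) inferInstance) = _
  simp only [MeasurableSpace.pi, MeasurableSpace.comap_iSup, MeasurableSpace.comap_comp]
  rfl

theorem isBM_natF {B : ℝ≥0 → Ω → ℝ} (hB : IsPreBrownianReal B P) (hm : ∀ t, Measurable (B t))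
    (hc : ∀ ω, Continuous fun t => B t ω) (h0 : ∀ ω, B 0 ω = 0) :
    OS.IsBM (natF B hm) B P where
  cont := hc
  zero := h0
  adapted t := natF_adapted B hm t t le_rfl
  law s u := ((hB.shift s).hasLaw_eval u).map_eq
  indep s := by
    rw [natF_eq]
    exact hB.indepFun_shift s

/-- The version. -/
theorem exists_version [IsProbabilityMeasure P] {B : ℝ≥0 → Ω → ℝ} (hB : IsBrownianReal B P) :
    ∃ (B' : ℝ≥0 → Ω → ℝ) (F : Filtration ℝ≥0 mΩ), OS.IsBM F B' P ∧
      IsBrownianReal B' P ∧ (∀ t, Measurable (B' t)) ∧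
      ∀ᵐ ω ∂P, ∀ t, B' t ω = B t ω := by
  classical
  set D : ℕ → ℝ≥0 := TopologicalSpace.denseSeq ℝ≥0 with hD
  set mk : ℝ≥0 → Ω → ℝ := fun t => (hB.aemeasurable t).mk (B t) with hmk
  set G : Set Ω := {ω | Continuous (B · ω) ∧ B 0 ω = 0 ∧ ∀ n, B (D n) ω = mk (D n) ω} with hG
  have hGae : ∀ᵐ ω ∂P, ω ∈ G := by
    have h3 : ∀ᵐ ω ∂P, ∀ n, B (D n) ω = mk (D n) ω := by
      rw [ae_all_iff]
      exact fun n => (hB.aemeasurable (D n)).ae_eq_mk
    filter_upwards [hB.cont, hB.eval_zero_ae_eq_zero, h3] with ω h1 h2 h3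
    exact ⟨h1, h2, h3⟩
  set N : Set Ω := toMeasurable P Gᶜ with hN
  have hNm : MeasurableSet N := measurableSet_toMeasurable _ _
  have hN0 : P N = 0 := by
    rw [hN, measure_toMeasurable]
    exact hGae
  have hNG : ∀ ω, ω ∉ N → ω ∈ G := by
    intro ω hω
    by_contra h
    exact hω (subset_toMeasurable _ _ h)
  have hNae : ∀ᵐ ω ∂P, ω ∉ N := by
    rw [ae_iff]
    simpa using hN0
  set B' : ℝ≥0 → Ω → ℝ := fun t ω => if ω ∈ N then 0 else B t ω with hB'
  have hcont : ∀ ω, Continuous fun t => B' t ω := by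
    intro ω
    by_cases h : ω ∈ N
    · simp only [hB', h, if_true]
      exact continuous_const
    · simp only [hB', h, if_false]
      exact (hNG ω h).1
  have hzero : ∀ ω, B' 0 ω = 0 := by
    intro ω
    by_cases h : ω ∈ N
    · simp only [hB', h, if_true]
    · simp only [hB', h, if_false]
      exact (hNG ω h).2.1
  have hmD : ∀ n, Measurable (B' (D n)) := by
    intro n
    have : B' (D n) = fun ω => if ω ∈ N then 0 else mk (D n) ω := by
      funext ω
      by_cases h : ω ∈ N
      · simp only [hB', h, if_true]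
      · simp only [hB', h, if_false]
        exact (hNG ω h).2.2 n
    rw [this]
    exact Measurable.ite hNm measurable_const (hB.aemeasurable (D n)).measurable_mk
  have hm : ∀ t, Measurable (B' t) := by
    intro t
    have ht : t ∈ closure (Set.range D) := (TopologicalSpace.denseRange_denseSeq ℝ≥0) t
    obtain ⟨q, hq, hlim⟩ := mem_closure_iff_seq_limit.1 ht
    choose k hk using hq
    refine measurable_of_tendsto_metrizable (f := fun n => B' (q n)) (fun n => ?_) ?_
    · rw [← hk n]
      exact hmD (k n)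
    · rw [tendsto_pi_nhds]
      intro ω
      exact ((hcont ω).tendsto t).comp hlim
  have heq : ∀ᵐ ω ∂P, ∀ t, B' t ω = B t ω := by
    filter_upwards [hNae] with ω hω t
    simp only [hB', hω, if_false]
  have hpre : IsPreBrownianReal B' P := by
    refine hB.toIsPreBrownianReal.congr fun t => ?_
    filter_upwards [heq] with ω hω
    exact (hω t).symm
  refine ⟨B', natF B' hm, isBM_natF hpre hm hcont hzero,
    { toIsPreBrownianReal := hpre, cont := ae_of_all _ hcont }, hm, heq⟩

end Crest.Agent.R162.Ver
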