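import Crest.Agent.R162.LB8
import Crest.Agent.R162.LB9g
import Crest.Agent.R162.Ver

/-!
Row 162, node LB8, second part: predicate form of `frostman`, and the assembly of the good
predicate of the driving path from an abstract content functional.
-/

set_option autoImplicit false

namespace Crest.Agent.R162.LB8

open Crest.ProbabilityR.Loewner MeasureTheory ProbabilityTheory Set Filter Topology Metric
open scoped ENNReal NNReal

section pred

/-- the good predicate of a measure -/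
def GoodM (a : ℝ≥0∞) (T : ℕ → ℝ≥0∞) (k1 : ℕ) (ν : Measure ℂ) : Prop :=
  a / 4 ≤ ν Q0 - ∑' k, Yk (fun _ : Unit => ν) T k1 k ()

lemma GoodM.spec {a : ℝ≥0∞} {T : ℕ → ℝ≥0∞} {k1 : ℕ} {ν : Measure ℂ} (h : GoodM a T k1 ν) :
    ∃ g : Set ℂ, MeasurableSet g ∧ g ⊆ Q0 ∧ a / 4 ≤ ν g ∧
      ∀ k, k1 ≤ k → ∀ (z : ℂ) (r : ℝ), r ≤ side k → ν (g ∩ closedBall z r) ≤ T k :=
  ⟨G (fun _ : Unit => ν) T k1 (), measurableSet_G _ T k1 (), G_subset _ T k1 (),
    h.trans (tsub_le_iff_right.2 (mass_ge (fun _ : Unit => ν) T k1 ())),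
    fun _ hk _ _ hr => frost (μ := fun _ : Unit => ν) (ω := ()) hk hr⟩

lemma Yk_eq {Ω : Type*} (μ : Ω → Measure ℂ) (T : ℕ → ℝ≥0∞) (k1 k : ℕ) (ω : Ω) :
    Yk (fun _ : Unit => μ ω) T k1 k () = Yk μ T k1 k ω := by
  unfold Yk
  split_ifs with h
  · refine Finset.sum_congr rfl fun p _ => ?_
    by_cases hb : T k < μ ω (bll k p)
    · rw [indicator_of_mem (show () ∈ {_x : Unit | T k < μ ω (bll k p)} from hb),
        indicator_of_mem (show ω ∈ {ω | T k < μ ω (bll k p)} from hb)]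
    · rw [indicator_of_notMem (show () ∉ {_x : Unit | T k < μ ω (bll k p)} from hb),
        indicator_of_notMem (show ω ∉ {ω | T k < μ ω (bll k p)} from hb)]
  · rfl

lemma goodM_iff {Ω : Type*} (a : ℝ≥0∞) (T : ℕ → ℝ≥0∞) (k1 : ℕ) (μ : Ω → Measure ℂ) (ω : Ω) :
    GoodM a T k1 (μ ω) ↔ a / 4 ≤ μ ω Q0 - ∑' k, Yk μ T k1 k ω := by
  unfold GoodM
  rw [tsum_congr fun k => Yk_eq μ T k1 k ω]

lemma measurableSet_goodM {Ω : Type*} {m : MeasurableSpace Ω} {a : ℝ≥0∞} {T : ℕ → ℝ≥0∞} {k1 : ℕ}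
    {μ : Ω → Measure ℂ} (hQ : Measurable fun ω => μ ω Q0)
    (hB : ∀ k p, Measurable fun ω => μ ω (bll k p)) :
    MeasurableSet {ω | GoodM a T k1 (μ ω)} := by
  have hbadm : ∀ k p, MeasurableSet {ω | T k < μ ω (bll k p)} := fun k p =>
    measurableSet_lt measurable_const (hB k p)
  have hYm : ∀ k, Measurable (Yk μ T k1 k) := by
    intro k
    unfold Yk
    by_cases hk : k1 ≤ k
    · simp only [if_pos hk]
      exact Finset.measurable_sum _ fun p _ => (hB k p).indicator (hbadm k p)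
    · simp only [if_neg hk]
      exact measurable_const
  have : {ω | GoodM a T k1 (μ ω)} = {ω | a / 4 ≤ μ ω Q0 - ∑' k, Yk μ T k1 k ω} := by
    ext ω; exact goodM_iff a T k1 μ ω
  rw [this]
  exact measurableSet_le measurable_const (hQ.sub (Measurable.tsum hYm))

/-- **Abstract good event**, predicate form. -/
theorem good_event' {Ω : Type*} {mΩ : MeasurableSpace Ω} (P : Measure Ω) [IsProbabilityMeasure P]
    (μ : Ω → Measure ℂ) (k1 : ℕ) (T δ : ℕ → ℝ≥0∞) (a : ℝ≥0∞) (ha : a ≠ ⊤)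
    (hQ : Measurable fun ω => μ ω Q0)
    (hB : ∀ k p, Measurable fun ω => μ ω (bll k p))
    (hmass : a ≤ ∫⁻ ω, μ ω Q0 ∂P)
    (hbad : ∀ k, k1 ≤ k → ∀ p,
      ∫⁻ ω in {ω | T k < μ ω (bll k p)}, μ ω (bll k p) ∂P ≤ δ k * (4 ^ k)⁻¹)
    (hδ : ∑' k, (if k1 ≤ k then δ k else 0) ≤ a / 2) :
    a / 4 ≤ (4 ^ k1 * T k1) * P {ω | GoodM a T k1 (μ ω)} := by
  have hbadm : ∀ k p, MeasurableSet {ω | T k < μ ω (bll k p)} := fun k p =>
    measurableSet_lt measurable_const (hB k p)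
  have hYm : ∀ k, Measurable (Yk μ T k1 k) := by
    intro k
    unfold Yk
    by_cases hk : k1 ≤ k
    · simp only [if_pos hk]
      exact Finset.measurable_sum _ fun p _ => (hB k p).indicator (hbadm k p)
    · simp only [if_neg hk]
      exact measurable_const
  have hYsm : Measurable fun ω => ∑' k, Yk μ T k1 k ω := Measurable.tsum hYm
  have hXm : Measurable fun ω => μ ω Q0 - ∑' k, Yk μ T k1 k ω := hQ.sub hYsm
  have hY : ∫⁻ ω, ∑' k, Yk μ T k1 k ω ∂P ≤ a / 2 := by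
    rw [lintegral_tsum fun k => (hYm k).aemeasurable]
    refine (ENNReal.tsum_le_tsum fun k => ?_).trans hδ
    by_cases hk : k1 ≤ k
    · simp only [Yk, if_pos hk]
      rw [lintegral_finsetSum _ fun p _ => (hB k p).indicator (hbadm k p)]
      calc ∑ p, ∫⁻ ω, indicator {ω | T k < μ ω (bll k p)} (fun ω => μ ω (bll k p)) ω ∂P
          ≤ ∑ _p : Fin (2 ^ k) × Fin (2 ^ k), δ k * (4 ^ k)⁻¹ := by
            refine Finset.sum_le_sum fun p _ => ?_
            rw [lintegral_indicator (hbadm k p)]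
            exact hbad k hk p
        _ = δ k := by
            rw [Finset.sum_const, Finset.card_univ, Fintype.card_prod, Fintype.card_fin,
              nsmul_eq_mul]
            have h4 : (((2 ^ k * 2 ^ k : ℕ)) : ℝ≥0∞) = 4 ^ k := by
              push_cast
              rw [← mul_pow]
              norm_num
            rw [h4, mul_comm (δ k), ← mul_assoc, ENNReal.mul_inv_cancel (by positivity)
              (ENNReal.pow_ne_top (by norm_num)), one_mul]
    · simp only [Yk, if_neg hk, lintegral_zero, le_refl]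
  have hX : a / 2 ≤ ∫⁻ ω, (μ ω Q0 - ∑' k, Yk μ T k1 k ω) ∂P := by
    have h1 : a ≤ ∫⁻ ω, (μ ω Q0 - ∑' k, Yk μ T k1 k ω) ∂P + a / 2 := by
      calc a ≤ ∫⁻ ω, μ ω Q0 ∂P := hmass
        _ ≤ ∫⁻ ω, ((μ ω Q0 - ∑' k, Yk μ T k1 k ω) + ∑' k, Yk μ T k1 k ω) ∂P :=
            lintegral_mono fun ω => le_tsub_add
        _ = ∫⁻ ω, (μ ω Q0 - ∑' k, Yk μ T k1 k ω) ∂P + ∫⁻ ω, ∑' k, Yk μ T k1 k ω ∂P :=
            lintegral_add_left hXm _
        _ ≤ _ := by gcongr
    have h2 : a / 2 + a / 2 = a := ENNReal.add_halves a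
    have h3 : a / 2 ≠ ⊤ := ENNReal.div_ne_top ha (by norm_num)
    by_contra hlt
    push Not at hlt
    have : ∫⁻ ω, (μ ω Q0 - ∑' k, Yk μ T k1 k ω) ∂P + a / 2 < a / 2 + a / 2 :=
      ENNReal.add_lt_add_right h3 hlt
    rw [h2] at this
    exact absurd h1 (not_le.2 this)
  have hXle : ∀ ω, μ ω Q0 - ∑' k, Yk μ T k1 k ω ≤ μ ω (G μ T k1 ω) := fun ω =>
    tsub_le_iff_right.2 (mass_ge μ T k1 ω)
  have hAe : {ω | GoodM a T k1 (μ ω)} = {ω | a / 4 ≤ μ ω Q0 - ∑' k, Yk μ T k1 k ω} := by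
    ext ω; exact goodM_iff a T k1 μ ω
  rw [hAe]
  set A := {ω | a / 4 ≤ μ ω Q0 - ∑' k, Yk μ T k1 k ω} with hA
  have hAm : MeasurableSet A := measurableSet_le measurable_const hXm
  have h1 : ∫⁻ ω, (μ ω Q0 - ∑' k, Yk μ T k1 k ω) ∂P ≤ a / 4 + (4 ^ k1 * T k1) * P A := by
    calc ∫⁻ ω, (μ ω Q0 - ∑' k, Yk μ T k1 k ω) ∂P
        ≤ ∫⁻ ω, (a / 4 + A.indicator (fun _ => 4 ^ k1 * T k1) ω) ∂P := by
          refine lintegral_mono fun ω => ?_
          by_cases h : ω ∈ A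
          · rw [indicator_of_mem h]
            exact ((hXle ω).trans (mass_le μ T k1 ω)).trans le_add_self
          · have h' : μ ω Q0 - ∑' k, Yk μ T k1 k ω < a / 4 := not_le.1 h
            exact h'.le.trans le_self_add
      _ = a / 4 + (4 ^ k1 * T k1) * P A := by
          rw [lintegral_add_left measurable_const, lintegral_const, measure_univ, mul_one,
            lintegral_indicator_const hAm]
  have h2 : a / 4 + a / 4 = a / 2 := by
    rw [ENNReal.div_add_div_same, ← two_mul, show (4 : ℝ≥0∞) = 2 * 2 by norm_num,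
      ENNReal.mul_div_mul_left _ _ (by norm_num) (by norm_num)]
  have h3 : a / 4 ≠ ⊤ := ENNReal.div_ne_top ha (by norm_num)
  have h4 := hX.trans h1
  rw [← h2] at h4
  exact (ENNReal.add_le_add_iff_left h3).1 h4

open GM

/-- **Node LB8**, predicate form. -/
theorem frostman_pred {κ : ℝ} (hκ : 0 < κ) (hκ8 : κ < 8) {a : ℝ≥0∞} (ha0 : a ≠ 0) (ha : a ≠ ⊤)
    {D M Cm C3 r1 : ℝ} (hD : 0 ≤ D) (hM : 0 < M) (hr1 : 0 < r1) :
    ∃ k1 : ℕ, ∃ C : ℝ, 0 < C ∧ ∃ c8 : ℝ≥0∞, c8 ≠ 0 ∧ ∃ Good : Measure ℂ → Prop,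
      (∀ ν, Good ν → ∃ g : Set ℂ, MeasurableSet g ∧ g ⊆ Q0 ∧ a / 4 ≤ ν g ∧
        ∀ (z : ℂ) (r : ℝ), 0 < r → r ≤ side k1 →
          ν (g ∩ closedBall z r) ≤ ENNReal.ofReal (C * gaugeReal κ r)) ∧
      (∀ {Ω : Type*} {_m : MeasurableSpace Ω} (μ : Ω → Measure ℂ)
        (_ : Measurable fun ω => μ ω Q0)
        (_ : ∀ z r, Measurable fun ω => μ ω (closedBall z r)),
        MeasurableSet {ω | Good (μ ω)}) ∧
      ∀ {Ω : Type*} {_mΩ : MeasurableSpace Ω} (P : Measure Ω) [IsProbabilityMeasure P]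
        (ε : ℝ) (_ : 0 < ε) (μ : Ω → Measure ℂ)
        (_ : Measurable fun ω => μ ω Q0)
        (_ : ∀ z r, Measurable fun ω => μ ω (closedBall z r))
        (_ : a ≤ ∫⁻ ω, μ ω Q0 ∂P)
        (_ : ∀ ω, ∀ z ∈ Q0, ∀ r, 0 < r → r ≤ r1 →
          μ ω (closedBall z r) ≤ ENNReal.ofReal (D * ε ^ (dimParam κ - 2) * r ^ 2))
        (_ : ∀ z ∈ Q0, ∀ r, 0 < r → r ≤ r1 → M * ε * Real.sqrt (L r) ≤ r →
          ∫⁻ ω in {ω | ENNReal.ofReal (Cm * gaugeReal κ r) < μ ω (closedBall z r)},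
            μ ω (closedBall z r) ∂P ≤ ENNReal.ofReal (C3 * (Real.log (1 / r) ^ 2)⁻¹ * r ^ 2)),
        c8 ≤ P {ω | Good (μ ω)} := by
  have hd1 := dim_gt hκ
  have hd2 := dim_lt hκ8
  set Cx : ℝ := max 1 (max Cm (D * M ^ (2 - dimParam κ))) with hCx
  have hCx1 : 1 ≤ Cx := le_max_left _ _
  have hCxm : Cm ≤ Cx := (le_max_left _ _).trans (le_max_right _ _)
  have hCxD : D * M ^ (2 - dimParam κ) ≤ Cx := (le_max_right _ _).trans (le_max_right _ _)
  set C4 : ℝ := max C3 0 with hC4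
  have hC40 : 0 ≤ C4 := le_max_right _ _
  have hC43 : C3 ≤ C4 := le_max_left _ _
  set T : ℕ → ℝ≥0∞ := fun k => ENNReal.ofReal (Cx * gaugeReal κ (3 * side k)) with hT
  set δ : ℕ → ℝ≥0∞ := fun k => ENNReal.ofReal (144 * C4 * ((k : ℝ) ^ 2)⁻¹) with hδ
  -- choice of `k1`
  have hsum : ∑' k, δ k ≠ ⊤ := by
    have hs : Summable fun k : ℕ => 144 * C4 * ((k : ℝ) ^ 2)⁻¹ :=
      (Real.summable_nat_pow_inv.2 (by norm_num)).mul_left _
    rw [hδ, ← ENNReal.ofReal_tsum_of_nonneg (fun k => by positivity) hs]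
    exact ENNReal.ofReal_ne_top
  have htail : Tendsto (fun i => ∑' k, δ (k + i)) atTop (𝓝 0) :=
    ENNReal.tendsto_sum_nat_add δ hsum
  have hside : Tendsto (fun k => 3 * side k) atTop (𝓝 0) := by
    have : Tendsto (fun k => 3 * (1 / 2 : ℝ) ^ k) atTop (𝓝 (3 * 0)) :=
      (tendsto_pow_atTop_nhds_zero_of_lt_one (by norm_num) (by norm_num)).const_mul 3
    rw [mul_zero] at this
    refine this.congr fun k => ?_
    rw [side_eq]
  have ha2 : 0 < a / 2 := ENNReal.div_pos ha0 (by norm_num)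
  have hev : ∀ᶠ k in atTop, 3 ≤ k ∧ ∑' j, δ (j + k) ≤ a / 2 ∧ 3 * side k ≤ min r1 m0 := by
    filter_upwards [eventually_ge_atTop 3, htail.eventually_le_const ha2,
      hside.eventually_le_const (lt_min hr1 m0_pos)] with k h1 h2 h3
    exact ⟨h1, h2, h3⟩
  obtain ⟨k1, hk3, hk1t, hk1s⟩ := hev.exists
  have hTtop : T k1 ≠ ⊤ := ENNReal.ofReal_ne_top
  have hTpos : T k1 ≠ 0 := by
    rw [hT]
    simp only [ne_eq, ENNReal.ofReal_eq_zero, not_le]
    exact mul_pos (by linarith) (gaugeReal_pos (by have := side_pos k1; positivity))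
  have h4T : (4 : ℝ≥0∞) ^ k1 * T k1 ≠ ⊤ :=
    ENNReal.mul_ne_top (ENNReal.pow_ne_top (by norm_num)) hTtop
  have h4T0 : (4 : ℝ≥0∞) ^ k1 * T k1 ≠ 0 := mul_ne_zero (by positivity) hTpos
  refine ⟨k1, Cx * 6 ^ dimParam κ, by positivity, a / 4 / (4 ^ k1 * T k1), ?_, GoodM a T k1,
    ?_, ?_, ?_⟩
  · exact (ENNReal.div_pos (ENNReal.div_pos ha0 (by norm_num)).ne' h4T).ne'
  · intro ν hν
    obtain ⟨g, hg1, hg2, hg3, hg4⟩ := hν.spec
    refine ⟨g, hg1, hg2, hg3, fun z r hr hrs => ?_⟩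
    obtain ⟨k, hk, hrk, hk2⟩ := exists_level hr hrs
    refine (hg4 k hk z r hrk).trans (ENNReal.ofReal_le_ofReal ?_)
    have h6 : gaugeReal κ (3 * side k) ≤ 6 ^ dimParam κ * gaugeReal κ r := by
      refine (gaugeReal_mono hκ hκ8 (by have := side_pos k; positivity)
        (show 3 * side k ≤ 6 * r by linarith)).trans ?_
      exact gaugeReal_mul_le hκ hκ8 (by norm_num) hr.le
    calc Cx * gaugeReal κ (3 * side k) ≤ Cx * (6 ^ dimParam κ * gaugeReal κ r) := by gcongr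
      _ = Cx * 6 ^ dimParam κ * gaugeReal κ r := by ring
  · intro Ω m μ hQ hB
    exact measurableSet_goodM hQ fun k p => hB _ _
  intro Ω mΩ P _ ε hε μ hQ hB hmass hdens h3
  have hbad : ∀ k, k1 ≤ k → ∀ p,
      ∫⁻ ω in {ω | T k < μ ω (bll k p)}, μ ω (bll k p) ∂P ≤ δ k * (4 ^ k)⁻¹ := by
    intro k hk p
    have hs := side_pos k
    have hr0 : 0 < 3 * side k := by positivity
    have hrk : 3 * side k ≤ min r1 m0 := by
      have := side_anti hk
      linarith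
    have hrr : 3 * side k ≤ r1 := hrk.trans (min_le_left _ _)
    have hrm : 3 * side k ≤ m0 := hrk.trans (min_le_right _ _)
    have hk' : 3 ≤ k := hk3.trans hk
    by_cases hcase : M * ε * Real.sqrt (L (3 * side k)) ≤ 3 * side k
    · have h4 := h3 (ctr k p) (ctr_mem_Q0 k p) (3 * side k) hr0 hrr hcase
      have hsub : {ω | T k < μ ω (bll k p)} ⊆
          {ω | ENNReal.ofReal (Cm * gaugeReal κ (3 * side k)) <
            μ ω (closedBall (ctr k p) (3 * side k))} := by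
        intro ω hω
        refine lt_of_le_of_lt (ENNReal.ofReal_le_ofReal ?_) hω
        exact mul_le_mul_of_nonneg_right hCxm (gaugeReal_nonneg hr0.le)
      refine (lintegral_mono_set hsub).trans (h4.trans ?_)
      rw [hδ]
      have h5 : ((4 : ℝ≥0∞) ^ k)⁻¹ = ENNReal.ofReal (side k ^ 2) := by
        have h50 : side k ^ 2 = ((4 : ℝ) ^ k)⁻¹ := by
          rw [side, inv_pow, ← pow_mul, mul_comm k 2, pow_mul]
          norm_num
        rw [h50, ENNReal.ofReal_inv_of_pos (by positivity), ENNReal.ofReal_pow (by norm_num),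
          ENNReal.ofReal_ofNat]
      rw [h5]
      simp only
      rw [← ENNReal.ofReal_mul (by positivity)]
      refine ENNReal.ofReal_le_ofReal ?_
      have hlog := log_side_ge hk'
      have hkpos : (0 : ℝ) < k := by
        have : 0 < k := by omega
        exact_mod_cast this
      have h6 : (Real.log (1 / (3 * side k)) ^ 2)⁻¹ ≤ 16 * ((k : ℝ) ^ 2)⁻¹ := by
        have : ((k : ℝ) / 4) ^ 2 ≤ Real.log (1 / (3 * side k)) ^ 2 := by gcongr
        calc (Real.log (1 / (3 * side k)) ^ 2)⁻¹ ≤ (((k : ℝ) / 4) ^ 2)⁻¹ := by gcongr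
          _ = 16 * ((k : ℝ) ^ 2)⁻¹ := by field_simp; ring
      calc C3 * (Real.log (1 / (3 * side k)) ^ 2)⁻¹ * (3 * side k) ^ 2
          ≤ C4 * (Real.log (1 / (3 * side k)) ^ 2)⁻¹ * (3 * side k) ^ 2 := by gcongr
        _ ≤ C4 * (16 * ((k : ℝ) ^ 2)⁻¹) * (3 * side k) ^ 2 := by gcongr
        _ = 144 * C4 * ((k : ℝ) ^ 2)⁻¹ * side k ^ 2 := by ring
    · have hcase' := not_le.1 hcase
      have hemp : {ω | T k < μ ω (bll k p)} = ∅ := by
        ext ω
        simp only [mem_ofPred_eq, mem_empty_iff_false, iff_false, not_lt]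
        refine (hdens ω (ctr k p) (ctr_mem_Q0 k p) (3 * side k) hr0 hrr).trans ?_
        refine ENNReal.ofReal_le_ofReal ((small_scale hκ8 hD hM hr0 hrm hcase').trans ?_)
        exact mul_le_mul_of_nonneg_right hCxD (gaugeReal_nonneg hr0.le)
      rw [hemp, Measure.restrict_empty, lintegral_zero_measure]
      exact zero_le
  have hAP := good_event' P μ k1 T δ a ha hQ (fun k p => hB _ _) hmass hbad
    (by rw [tsum_tail]; exact hk1t)
  rw [ENNReal.div_le_iff h4T0 h4T, mul_comm]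
  exact hAP

end pred

section assembly

open FL OP

/-- the closed square -/
def Qc : Set ℂ := Icc (0 : ℝ) 1 ×ℂ Icc (1 : ℝ) 2

lemma isCompact_Qc : IsCompact Qc := isCompact_Icc.reProdIm isCompact_Icc

lemma Q0_subset_Qc : Q0 ⊆ Qc := by
  rintro z ⟨h1, h2, h3, h4⟩
  rw [Qc, Complex.mem_reProdIm]
  exact ⟨⟨h1, h2.le⟩, h3, h4.le⟩

lemma volume_Q0_ne_top : volume Q0 ≠ ⊤ :=
  ne_top_of_le_ne_top isCompact_Qc.measure_lt_top.ne (measure_mono Q0_subset_Qc)

lemma volume_Q0_ne_zero : volume Q0 ≠ 0 := by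
  have hsub : ball (⟨1 / 2, 3 / 2⟩ : ℂ) (1 / 2) ⊆ Q0 := by
    intro z hz
    rw [mem_ball, Complex.dist_eq] at hz
    have h1 := (Complex.abs_re_le_norm (z - ⟨1 / 2, 3 / 2⟩)).trans_lt hz
    have h2 := (Complex.abs_im_le_norm (z - ⟨1 / 2, 3 / 2⟩)).trans_lt hz
    rw [Complex.sub_re, abs_lt] at h1
    rw [Complex.sub_im, abs_lt] at h2
    simp only at h1 h2
    exact ⟨by linarith, by linarith, by linarith, by linarith⟩
  exact ((measure_ball_pos volume _ (by norm_num)).trans_le (measure_mono hsub)).ne'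

/-- the measure with density `C` on the square. -/
noncomputable def muC (C : ℂ → ℝ≥0∞) : Measure ℂ := (volume.restrict Q0).withDensity C

lemma muC_apply (C : ℂ → ℝ≥0∞) {S : Set ℂ} (hS : MeasurableSet S) :
    muC C S = ∫⁻ z in S, C z ∂(volume.restrict Q0) := withDensity_apply C hS

lemma muC_le (C : ℂ → ℝ≥0∞) {S : Set ℂ} (hS : MeasurableSet S) :
    muC C S ≤ ∫⁻ z in S, C z := by
  rw [muC_apply C hS]
  exact lintegral_mono' (Measure.restrict_mono_measure Measure.restrict_le_self S) le_rfl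

lemma muC_Q0 (C : ℂ → ℝ≥0∞) : muC C Q0 = ∫⁻ z in Q0, C z := by
  rw [muC_apply C measurableSet_Q0, Measure.restrict_restrict measurableSet_Q0, inter_self]

lemma muC_closedBall_le {C : ℂ → ℝ≥0∞} {b : ℝ} (hb : 0 ≤ b)
    (hC : ∀ z ∈ Q0, C z ≤ ENNReal.ofReal b) (z : ℂ) {r : ℝ} (hr : 0 ≤ r) :
    muC C (closedBall z r) ≤ ENNReal.ofReal (b * Real.pi * r ^ 2) := by
  rw [muC_apply C measurableSet_closedBall, Measure.restrict_restrict measurableSet_closedBall]
  calc ∫⁻ w in closedBall z r ∩ Q0, C w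
      ≤ ∫⁻ _ in closedBall z r ∩ Q0, ENNReal.ofReal b := by
        refine lintegral_mono_ae ?_
        filter_upwards [ae_restrict_mem (measurableSet_closedBall.inter measurableSet_Q0)] with w hw
        exact hC w hw.2
    _ = ENNReal.ofReal b * volume (closedBall z r ∩ Q0) := setLIntegral_const _ _
    _ ≤ ENNReal.ofReal b * volume (closedBall z r) := by gcongr; exact inter_subset_left
    _ = ENNReal.ofReal (b * Real.pi * r ^ 2) := by
        rw [Complex.volume_closedBall, mul_assoc b, ENNReal.ofReal_mul hb,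
          ENNReal.ofReal_mul Real.pi_pos.le, ENNReal.ofReal_pow hr, mul_comm (_ ^ 2)]
        congr 2
        rw [← ENNReal.ofReal_coe_nnreal]
        rfl

/-- **LB8, assembly**: from an abstract content functional `Cn ε w z` (content of the point `z` at
scale `ε` collected by the path `w` up to time `n`) to the good predicate of the path. -/
theorem assembly {κ : ℝ} (hκ : 0 < κ) (hκ8 : κ < 8) {n : ℝ≥0}
    (Cn : ℝ → (ℝ≥0 → ℝ) → ℂ → ℝ≥0∞) {a : ℝ≥0∞} (ha0 : a ≠ 0) {D K M Cm C3 r1 ε0 : ℝ}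
    (hD : 0 ≤ D) (hK : 0 < K) (hM : 0 < M) (hr1 : 0 < r1) (hε0 : 0 < ε0)
    {Ω : Type*} {m0 : MeasurableSpace Ω} {P : Measure Ω} [IsProbabilityMeasure P]
    (H0 : ∀ ε, 0 < ε → ∀ w : ℝ≥0 → ℝ, Continuous w → w 0 = 0 → Measurable (Cn ε w))
    (H1 : ∀ ε, 0 < ε → ∀ B' : ℝ≥0 → Ω → ℝ, (∀ t, Measurable (B' t)) →
      (∀ ω, Continuous fun t => B' t ω) → (∀ ω, B' 0 ω = 0) →
      @Measurable (Ω × ℂ) ℝ≥0∞ (@Prod.instMeasurableSpace Ω ℂ (ZO.pastSigma B' n) _) _
        (fun p => Cn ε (fun t => B' t p.1) p.2))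
    (H2 : ∀ ε, 0 < ε → ∀ w : ℝ≥0 → ℝ, Continuous w → w 0 = 0 → ∀ z ∈ Q0,
      Cn ε w z ≤ ENNReal.ofReal (D * ε ^ (dimParam κ - 2)))
    (H3 : ∀ ε, 0 < ε → ∀ w : ℝ≥0 → ℝ, Continuous w → w 0 = 0 → ∀ z ∈ Q0, Cn ε w z ≠ 0 →
      ∃ u ∈ Icc (0 : ℝ) n, Alive (fun t => √κ * w t.toNNReal) z u ∧
        ups (fun t => √κ * w t.toNNReal) u z ≤ K * ε)
    (H4 : ∀ ε, 0 < ε → ε ≤ ε0 → ∀ (F : Filtration ℝ≥0 m0) (B' : ℝ≥0 → Ω → ℝ), OS.IsBM F B' P →
      ∀ z ∈ Q0, a ≤ ∫⁻ ω, Cn ε (fun t => B' t ω) z ∂P)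
    (H5 : ∀ ε, 0 < ε → ε ≤ ε0 → ∀ (F : Filtration ℝ≥0 m0) (B' : ℝ≥0 → Ω → ℝ), OS.IsBM F B' P →
      ∀ z ∈ Q0, ∀ r, 0 < r → r ≤ r1 → M * ε * Real.sqrt (GM.L r) ≤ r →
      ∫⁻ ω in {ω | ENNReal.ofReal (Cm * gaugeReal κ r) <
          ∫⁻ x in closedBall z r, Cn ε (fun t => B' t ω) x},
        (∫⁻ x in closedBall z r, Cn ε (fun t => B' t ω) x) ∂P ≤
          ENNReal.ofReal (C3 * (Real.log (1 / r) ^ 2)⁻¹ * r ^ 2)) :
    ∃ Good : (ℝ≥0 → ℝ) → Prop, ∃ c8 : ℝ≥0∞, c8 ≠ 0 ∧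
      (∀ B' : ℝ≥0 → Ω → ℝ, (∀ t, Measurable (B' t)) →
        (∀ ω, Continuous fun t => B' t ω) → (∀ ω, B' 0 ω = 0) →
        MeasurableSet[ZO.pastSigma B' n] {ω | Good fun t => B' t ω}) ∧
      (∀ B' : ℝ≥0 → Ω → ℝ, IsBrownianReal B' P → (∀ t, Measurable (B' t)) →
        (∀ ω, Continuous fun t => B' t ω) → (∀ ω, B' 0 ω = 0) →
        c8 ≤ P {ω | Good fun t => B' t ω}) ∧
      ∀ w : ℝ≥0 → ℝ, Continuous w → w 0 = 0 → Good w →
        0 < gaugeMeasure κ (LB9a.KK (fun t => √κ * w t.toNNReal) n Qc) := by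
  -- total mass `a * volume Q0`
  set a1 : ℝ≥0∞ := min a 1 with ha1
  have ha1t : a1 ≠ ⊤ := ne_top_of_le_ne_top ENNReal.one_ne_top (min_le_right _ _)
  have ha10 : a1 ≠ 0 := by
    rw [ha1]
    exact (lt_min (pos_iff_ne_zero.2 ha0) one_pos).ne'
  set b : ℝ≥0∞ := a1 * volume Q0 with hb
  have hb0 : b ≠ 0 := mul_ne_zero ha10 volume_Q0_ne_zero
  have hbt : b ≠ ⊤ := ENNReal.mul_ne_top ha1t volume_Q0_ne_top
  have hb4t : b / 4 ≠ ⊤ := ENNReal.div_ne_top hbt (by norm_num)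
  have hb40 : b / 4 ≠ 0 := (ENNReal.div_pos hb0 (by norm_num)).ne'
  obtain ⟨k1, C, hC, c8, hc8, Good, hG1, hG2, hG3⟩ :=
    frostman_pred (D := D * Real.pi) (M := M) (Cm := Cm) (C3 := C3) (r1 := r1) hκ hκ8 hb0 hbt
      (mul_nonneg hD Real.pi_pos.le) hM hr1
  -- the scales
  set e : ℕ → ℝ := fun m => min ε0 (1 / ((m : ℝ) + 1)) with he
  have he0 : ∀ m, 0 < e m := fun m => lt_min hε0 (by positivity)
  have hee : ∀ m, e m ≤ ε0 := fun m => min_le_left _ _
  have hlim : Tendsto (fun m => K * e m) atTop (𝓝 0) := by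
    have h1 : Tendsto e atTop (𝓝 0) := by
      refine tendsto_of_tendsto_of_tendsto_of_le_of_le tendsto_const_nhds
        tendsto_one_div_add_atTop_nhds_zero_nat (fun m => (he0 m).le) (fun m => min_le_right _ _)
    simpa using h1.const_mul K
  have hmeas : ∀ m, ∀ B' : ℝ≥0 → Ω → ℝ, (∀ t, Measurable (B' t)) →
      (∀ ω, Continuous fun t => B' t ω) → (∀ ω, B' 0 ω = 0) → ∀ S : Set ℂ, MeasurableSet S →
      Measurable[ZO.pastSigma B' n] fun ω => muC (Cn (e m) fun t => B' t ω) S := by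
    intro m B' h1 h2 h3 S hS
    have hj := H1 (e m) (he0 m) B' h1 h2 h3
    have : (fun ω => muC (Cn (e m) fun t => B' t ω) S) =
        fun ω => ∫⁻ z, Cn (e m) (fun t => B' t ω) z ∂((volume.restrict Q0).restrict S) := by
      funext ω
      exact muC_apply _ hS
    rw [this]
    exact @Measurable.lintegral_prod_right' Ω ℂ (ZO.pastSigma B' n) _
      ((volume.restrict Q0).restrict S) _ _ hj
  obtain ⟨q1, q2, q3⟩ := LB9a.good_pack (κ := κ) hκ hκ8 (n := n) isCompact_Qc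
    (c := (b / 4).toReal) (C := C) (r0 := side k1)
    (ENNReal.toReal_pos hb40 hb4t) hC (side_pos k1) (fun m => K * e m) hlim
    (fun m w => Good (muC (Cn (e m) w)))
    (by
      intro m w hw hw0 hg
      obtain ⟨g, g1, g2, g3, g4⟩ := hG1 _ hg
      refine ⟨(muC (Cn (e m) w)).restrict g, ?_, ?_, ?_⟩
      · rw [Measure.restrict_apply_univ, ENNReal.ofReal_toReal hb4t]
        exact g3
      · have hae : ∀ᵐ z ∂((volume.restrict Q0).withDensity (Cn (e m) w)),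
            z ∈ LB9a.SS (fun t => √κ * w t.toNNReal) n Qc (K * e m) := by
          rw [ae_withDensity_iff (H0 (e m) (he0 m) w hw hw0)]
          filter_upwards [ae_restrict_mem measurableSet_Q0] with z hz hne
          obtain ⟨u, hu, hal, hup⟩ := H3 (e m) (he0 m) w hw hw0 z hz hne
          exact ⟨Q0_subset_Qc hz, u, hu, hal, hup⟩
        exact ae_mono Measure.restrict_le_self hae
      · intro x r hr hr'
        rw [Measure.restrict_apply measurableSet_closedBall, inter_comm]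
        exact g4 x r ((mul_pos hK (he0 m)).trans_le hr) hr')
    (P := P) (c8 := c8)
    (by
      intro m B' h1 h2 h3
      exact hG2 (_m := ZO.pastSigma B' n) (fun ω => muC (Cn (e m) fun t => B' t ω))
        (hmeas m B' h1 h2 h3 _ measurableSet_Q0)
        (fun z r => hmeas m B' h1 h2 h3 _ measurableSet_closedBall))
    (by
      intro B' hB h1 h2 h3
      have hBM := Ver.isBM_natF hB.toIsPreBrownianReal h1 h2 h3
      refine Eventually.of_forall fun m => ?_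
      have hle := ZO.pastSigma_le h1 n
      refine hG3 P (e m) (he0 m) (fun ω => muC (Cn (e m) fun t => B' t ω))
        ((hmeas m B' h1 h2 h3 _ measurableSet_Q0).mono hle le_rfl)
        (fun z r => (hmeas m B' h1 h2 h3 _ measurableSet_closedBall).mono hle le_rfl) ?_ ?_ ?_
      · have hj : Measurable fun p : Ω × ℂ => Cn (e m) (fun t => B' t p.1) p.2 :=
          (H1 (e m) (he0 m) B' h1 h2 h3).mono (sup_le_sup (MeasurableSpace.comap_mono hle) le_rfl)
            le_rfl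
        calc b = ∫⁻ _ in Q0, a1 := by rw [setLIntegral_const]
          _ ≤ ∫⁻ z in Q0, ∫⁻ ω, Cn (e m) (fun t => B' t ω) z ∂P := by
              refine lintegral_mono_ae ?_
              filter_upwards [ae_restrict_mem measurableSet_Q0] with z hz
              exact (min_le_left _ _).trans (H4 (e m) (he0 m) (hee m) _ B' hBM z hz)
          _ = ∫⁻ ω, (∫⁻ z in Q0, Cn (e m) (fun t => B' t ω) z) ∂P := by
              rw [lintegral_lintegral_swap]
              exact (hj.comp measurable_swap).aemeasurable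
          _ = ∫⁻ ω, muC (Cn (e m) fun t => B' t ω) Q0 ∂P :=
              lintegral_congr fun ω => (muC_Q0 _).symm
      · intro ω z hz r hr hr'
        refine (muC_closedBall_le (by positivity) (H2 (e m) (he0 m) _ (h2 ω) (h3 ω)) z
          hr.le).trans (le_of_eq ?_)
        congr 1
        ring
      · intro z hz r hr hr' hMr
        refine le_trans ?_ (H5 (e m) (he0 m) (hee m) _ B' hBM z hz r hr hr' hMr)
        refine (lintegral_mono fun ω => muC_le _ measurableSet_closedBall).trans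
          (lintegral_mono_set fun ω hω => ?_)
        exact lt_of_lt_of_le hω (muC_le _ measurableSet_closedBall))
  exact ⟨fun w => ∃ᶠ m in atTop, Good (muC (Cn (e m) w)), c8, hc8, q1, q2, q3⟩

end assembly

end Crest.Agent.R162.LB8
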