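import Crest.Agent.R162.OSDefs

/-!
Row 162, node OS5 (helper430): Brownian set-up.  From `IsBrownianReal B P` a version `Bc` with all
paths continuous, started at `0`, measurable, equal to `B` almost surely simultaneously at all
times, with `IsBM` for its natural filtration.
-/

set_option autoImplicit false

open MeasureTheory ProbabilityTheory Filter Topology Set
open scoped NNReal ENNReal

noncomputable section

namespace Crest.Agent.R162.OS

variable {Ω : Type*} {m : MeasurableSpace Ω} {P : Measure Ω}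

lemma exists_measurable_version {B : ℝ≥0 → Ω → ℝ} (hB : IsBrownianReal B P) :
    ∃ Bc : ℝ≥0 → Ω → ℝ, (∀ t, Measurable (Bc t)) ∧ (∀ ω, Continuous fun t => Bc t ω) ∧
      (∀ ω, Bc 0 ω = 0) ∧ ∀ᵐ ω ∂P, ∀ t, Bc t ω = B t ω := by
  classical
  -- measurable versions at rational times
  let R : ℚ → ℝ≥0 := fun q => Real.toNNReal q
  let M : ℚ → Ω → ℝ := fun q => (hB.aemeasurable (R q)).mk (B (R q))
  have hM : ∀ q, Measurable (M q) := fun q => (hB.aemeasurable (R q)).measurable_mk
  have hae : ∀ᵐ ω ∂P, (Continuous fun t => B t ω) ∧ B 0 ω = 0 ∧ ∀ q, B (R q) ω = M q ω := by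
    have h1 : ∀ᵐ ω ∂P, ∀ q, B (R q) ω = M q ω :=
      ae_all_iff.2 fun q => (hB.aemeasurable (R q)).ae_eq_mk
    filter_upwards [hB.cont, hB.eval_zero_ae_eq_zero, h1] with ω a b c using ⟨a, b, c⟩
  obtain ⟨N, hNsub, hNmeas, hN0⟩ := exists_measurable_superset_of_null (ae_iff.1 hae)
  have hG : ∀ ω, ω ∉ N → (Continuous fun t => B t ω) ∧ B 0 ω = 0 ∧ ∀ q, B (R q) ω = M q ω := by
    intro ω hω
    by_contra h
    exact hω (hNsub h)
  let Bc : ℝ≥0 → Ω → ℝ := fun t => (Nᶜ).indicator (B t)
  have hcont : ∀ ω, Continuous fun t => Bc t ω := by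
    intro ω
    by_cases hω : ω ∈ N
    · have : (fun t => Bc t ω) = fun _ => (0 : ℝ) := by
        funext t; simp [Bc, hω]
      rw [this]; exact continuous_const
    · have : (fun t => Bc t ω) = fun t => B t ω := by
        funext t; simp [Bc, hω]
      rw [this]; exact (hG ω hω).1
  have hrat : ∀ q, Measurable (Bc (R q)) := by
    intro q
    have : Bc (R q) = (Nᶜ).indicator (M q) := by
      funext ω
      by_cases hω : ω ∈ N
      · simp [Bc, hω]
      · simp [Bc, hω, (hG ω hω).2.2 q]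
    rw [this]; exact (hM q).indicator hNmeas.compl
  refine ⟨Bc, fun t => ?_, hcont, fun ω => ?_, ?_⟩
  · -- approximate `t` by rationals
    have hex : ∀ n : ℕ, ∃ q : ℚ, t < R q ∧ R q < t + ⟨1 / ((n : ℝ) + 1), by positivity⟩ := by
      intro n
      have hlt : t < t + ⟨1 / ((n : ℝ) + 1), by positivity⟩ :=
        lt_add_of_pos_right t (by exact_mod_cast (Nat.one_div_pos_of_nat : 0 < 1 / ((n : ℝ) + 1)))
      obtain ⟨q, -, h1, h2⟩ := (NNReal.lt_iff_exists_rat_btwn _ _).1 hlt
      exact ⟨q, h1, h2⟩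
    choose q hq1 hq2 using hex
    have hlim : Tendsto (fun n => R (q n)) atTop (𝓝 t) := by
      rw [← NNReal.tendsto_coe]
      refine tendsto_of_tendsto_of_tendsto_of_le_of_le' (g := fun _ => (t : ℝ))
        (h := fun n : ℕ => (t : ℝ) + 1 / ((n : ℝ) + 1)) tendsto_const_nhds ?_ ?_ ?_
      · simpa using (tendsto_const_nhds (x := (t : ℝ))).add
          (tendsto_one_div_add_atTop_nhds_zero_nat (𝕜 := ℝ))
      · exact Eventually.of_forall fun n => NNReal.coe_le_coe.2 (hq1 n).le
      · exact Eventually.of_forall fun n => (NNReal.coe_lt_coe.2 (hq2 n)).le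
    refine measurable_of_tendsto_metrizable (fun n => hrat (q n)) ?_
    rw [tendsto_pi_nhds]
    intro ω
    exact ((hcont ω).tendsto t).comp hlim
  · by_cases hω : ω ∈ N
    · simp [Bc, hω]
    · simp [Bc, hω, (hG ω hω).2.1]
  · have : ∀ᵐ ω ∂P, ω ∉ N := measure_eq_zero_iff_ae_notMem.1 hN0
    filter_upwards [this] with ω hω t
    simp [Bc, hω]

/-- natural filtration of a measurable real process. -/
def natF (Bc : ℝ≥0 → Ω → ℝ) (h : ∀ t, Measurable (Bc t)) : Filtration ℝ≥0 m where
  seq s := MeasurableSpace.comap (fun ω (t : Set.Iic s) => Bc t ω) MeasurableSpace.pi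
  mono' s t hst := by
    rw [← measurable_iff_comap_le]
    refine @measurable_pi_lambda _ _ _ (_) _ _ fun u => ?_
    have h1 : Measurable[MeasurableSpace.comap (fun ω (t' : Set.Iic t) => Bc t' ω)
        MeasurableSpace.pi] (fun ω (t' : Set.Iic t) => Bc t' ω) := comap_measurable _
    exact (measurable_pi_apply (⟨u.1, u.2.trans hst⟩ : Set.Iic t)).comp h1
  le' s := by
    rw [← measurable_iff_comap_le]
    exact measurable_pi_lambda _ fun u => h u

lemma isBM_natF [IsProbabilityMeasure P] {Bc : ℝ≥0 → Ω → ℝ} (h : ∀ t, Measurable (Bc t))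
    (hc : ∀ ω, Continuous fun t => Bc t ω) (h0 : ∀ ω, Bc 0 ω = 0) (hB : IsPreBrownianReal Bc P) :
    IsBM (natF Bc h) Bc P where
  cont := hc
  zero := h0
  adapted t := by
    have h1 : Measurable[natF Bc h t] (fun ω (t' : Set.Iic t) => Bc t' ω) := comap_measurable _
    exact (measurable_pi_apply (⟨t, Set.mem_Iic.2 le_rfl⟩ : Set.Iic t)).comp h1
  law s u := by
    have h1 := (hB.shift s).hasLaw_eval u
    exact h1.map_eq
  indep s := by
    have h1 := hB.indepFun_shift s
    exact h1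

/-- **Brownian set-up.** -/
theorem exists_isBM [IsProbabilityMeasure P] {B : ℝ≥0 → Ω → ℝ} (hB : IsBrownianReal B P) :
    ∃ (Bc : ℝ≥0 → Ω → ℝ) (h : ∀ t, Measurable (Bc t)), IsBM (natF Bc h) Bc P ∧
      IsBrownianReal Bc P ∧ ∀ᵐ ω ∂P, ∀ t, Bc t ω = B t ω := by
  obtain ⟨Bc, h, hc, h0, hae⟩ := exists_measurable_version hB
  have hpre : IsPreBrownianReal Bc P :=
    hB.toIsPreBrownianReal.congr fun t => by filter_upwards [hae] with ω hω using (hω t).symm
  exact ⟨Bc, h, isBM_natF h hc h0 hpre,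
    { toIsPreBrownianReal := hpre, cont := Eventually.of_forall hc }, hae⟩

end Crest.Agent.R162.OS
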