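import Mathlib
import Crest.Prelude.Def_Loewner
import Crest.Agent.R162.FLE2
import Crest.Agent.R162.LBDefs
import Crest.Agent.R162.LB8b
import Crest.Agent.R162.OS5
import Crest.Agent.R162.ZO1

/-!
Row 162 (S0243), node LB8m (helper904): measurability of the content density `LB.cd`, of the
content `LB.cz`, `LB.Ct` and of the occupation measure `LB.mu` (`LBDefs`), jointly in `(ω, z)` and
with respect to the past `F t`; the measurability fields of `ZO.LBIn` and the hypotheses `H0`, `H1`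
of `LB8.assembly`.
-/

set_option autoImplicit false

open Set MeasureTheory Filter Topology ProbabilityTheory
open scoped NNReal ENNReal

namespace Crest.Agent.R162.LB8m

open Crest.Agent.R162.FL Crest.Agent.R162.OP Crest.Agent.R162.OS Crest.Agent.R162.FLD
open Crest.ProbabilityR.Loewner
open Crest.Agent.R162.LB (chi cd cz Ct mu measurable_chi)

/-! ### The density -/

/-- the content density as a function of `(lam, Υ, S, Z)` -/
noncomputable def cdF (κ ε c1 : ℝ) (x : (ℝ × ℝ) × (ℝ × ℂ)) : ℝ :=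
  chi (x.1.1 * x.1.2 / ε) * (x.1.1 * x.1.2) ^ (κ / 8 - 1) * x.2.1 ^ (8 / κ - 1) *
    (if c1 ≤ x.2.1 then 1 else 0) * (4 * x.2.1 ^ 2 / ‖x.2.2‖ ^ 2)

lemma cd_eq (κ ε c1 lam : ℝ) (W : ℝ → ℝ) (s : ℝ) (z : ℂ) :
    cd κ ε c1 lam W s z = cdF κ ε c1 ((lam, ups W s z), (sfl W s z, Zfl W s z)) := rfl

lemma measurable_cdF (κ ε c1 : ℝ) : Measurable (cdF κ ε c1) := by
  have h1 : Measurable (fun x : (ℝ × ℝ) × (ℝ × ℂ) => x.1.1 * x.1.2) := by fun_prop
  have h2 : Measurable (fun x : (ℝ × ℝ) × (ℝ × ℂ) => x.2.1) := by fun_prop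
  have h3 : Measurable (fun x : (ℝ × ℝ) × (ℝ × ℂ) => (if c1 ≤ x.2.1 then (1:ℝ) else 0)) :=
    Measurable.ite (measurableSet_le measurable_const h2) measurable_const measurable_const
  have h4 : Measurable (fun x : (ℝ × ℝ) × (ℝ × ℂ) => 4 * x.2.1 ^ 2 / ‖x.2.2‖ ^ 2) := by fun_prop
  exact (((measurable_chi.comp (h1.div_const ε)).mul (h1.pow_const _)).mul (h2.pow_const _)).mul
    h3 |>.mul h4

section generic

variable {Ω : Type*} {m : MeasurableSpace Ω} {W : Ω → ℝ → ℝ} {T : ℝ}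

/-- the content density is jointly measurable in `(ω, z, s)`, `s ∈ [0,T]`; the factor `lam` may
depend measurably on `(ω, z)` -/
theorem jm_cd (κ ε c1 : ℝ) {lam : Ω × ℂ → ℝ} (hlam : Measurable lam)
    (hc : ∀ ω, ContinuousOn (W ω) (Icc 0 T))
    (hm : ∀ s ∈ Icc 0 T, Measurable (fun ω => W ω s)) :
    JM (m := m) T (fun p s => cd κ ε c1 (lam p) (W p.1) s p.2) := by
  have h1 := jm_ups hc hm
  have h2 := jm_sfl hc hm
  have h3 := jm_Zfl hc hm
  unfold JM at h1 h2 h3
  refine JM.of_eq ((measurable_cdF κ ε c1).comp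
    (((hlam.comp measurable_fst).prodMk h1).prodMk (h2.prodMk h3))) (fun x hx => ?_)
  simp only [Function.comp, cd_eq]
  rw [indicator_of_mem hx, indicator_of_mem hx, indicator_of_mem hx]

/-- the same, with a constant factor `lam` -/
theorem jm_cd' (κ ε c1 lam : ℝ) (hc : ∀ ω, ContinuousOn (W ω) (Icc 0 T))
    (hm : ∀ s ∈ Icc 0 T, Measurable (fun ω => W ω s)) :
    JM (m := m) T (fun p s => cd κ ε c1 lam (W p.1) s p.2) :=
  jm_cd κ ε c1 (lam := fun _ => lam) measurable_const hc hm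

/-- `(ω, z) ↦ ∫⁻ s in E (ω,z), f` is measurable, if `E ⊆ [0,T]` is a measurable family of sets -/
theorem measurable_lintegral_JM {f : Ω × ℂ → ℝ → ℝ} (hf : JM (m := m) T f)
    {E : Ω × ℂ → Set ℝ} (hE : MeasurableSet {x : (Ω × ℂ) × ℝ | x.2 ∈ E x.1})
    (hET : ∀ p, E p ⊆ Icc 0 T) :
    Measurable (fun p : Ω × ℂ => ∫⁻ s in E p, ENNReal.ofReal (f p s)) := by
  unfold JM at hf
  have h1 : Measurable (fun x : (Ω × ℂ) × ℝ => ({x : (Ω × ℂ) × ℝ | x.2 ∈ E x.1}).indicator
      (fun x => ENNReal.ofReal ((Icc 0 T).indicator (f x.1) x.2)) x) :=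
    (ENNReal.measurable_ofReal.comp hf).indicator hE
  have h2 := h1.lintegral_prod_right' (ν := (volume : Measure ℝ))
  convert h2 using 1
  funext p
  have hEp : MeasurableSet (E p) := measurable_prodMk_left hE
  rw [← lintegral_indicator hEp]
  refine lintegral_congr fun s => ?_
  by_cases hs : s ∈ E p
  · rw [indicator_of_mem hs, indicator_of_mem (show (p, s) ∈ {x : (Ω × ℂ) × ℝ | x.2 ∈ E x.1}
      from hs)]
    simp only
    rw [indicator_of_mem (hET p hs)]
  · rw [indicator_of_notMem hs, indicator_of_notMem (show (p, s) ∉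
      {x : (Ω × ℂ) × ℝ | x.2 ∈ E x.1} from hs)]

/-- the content per unit area is measurable in `(ω, z)` -/
theorem measurable_cz (κ ε c1 : ℝ) {lam : Ω × ℂ → ℝ} (hlam : Measurable lam)
    (hc : ∀ ω, ContinuousOn (W ω) (Icc 0 T))
    (hm : ∀ s ∈ Icc 0 T, Measurable (fun ω => W ω s))
    {E : Ω × ℂ → Set ℝ} (hE : MeasurableSet {x : (Ω × ℂ) × ℝ | x.2 ∈ E x.1})
    (hET : ∀ p, E p ⊆ Icc 0 T) :
    Measurable (fun p : Ω × ℂ => cz κ ε c1 (lam p) (W p.1) (E p) p.2) :=
  measurable_lintegral_JM (jm_cd κ ε c1 hlam hc hm) hE hET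

/-- the content per unit area collected at times in a fixed set `E ⊆ [0,T]` -/
theorem measurable_cz' (κ ε c1 lam : ℝ) (hc : ∀ ω, ContinuousOn (W ω) (Icc 0 T))
    (hm : ∀ s ∈ Icc 0 T, Measurable (fun ω => W ω s))
    {E : Set ℝ} (hE : MeasurableSet E) (hET : E ⊆ Icc 0 T) :
    Measurable (fun p : Ω × ℂ => cz κ ε c1 lam (W p.1) E p.2) :=
  measurable_cz κ ε c1 (lam := fun _ => lam) measurable_const hc hm (E := fun _ => E)
    (measurable_snd hE) (fun _ => hET)

/-- the global content is measurable in `(ω, z)` -/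
theorem measurable_Ct (κ ε c1 : ℝ) (hc : ∀ ω, ContinuousOn (W ω) (Icc 0 T))
    (hm : ∀ s ∈ Icc 0 T, Measurable (fun ω => W ω s)) :
    Measurable (fun p : Ω × ℂ => Ct κ ε c1 (W p.1) T p.2) :=
  measurable_cz' κ ε c1 1 hc hm measurableSet_Ioc Ioc_subset_Icc_self

/-- the global content up to a measurable time `τ ≤ T` is measurable in `(ω, z)` -/
theorem measurable_Ct_at (κ ε c1 : ℝ) (hc : ∀ ω, ContinuousOn (W ω) (Icc 0 T))
    (hm : ∀ s ∈ Icc 0 T, Measurable (fun ω => W ω s)) {τ : Ω → ℝ} (hτ : Measurable τ)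
    (hτT : ∀ ω, τ ω ≤ T) :
    Measurable (fun p : Ω × ℂ => Ct κ ε c1 (W p.1) (τ p.1) p.2) :=
  measurable_cz κ ε c1 (lam := fun _ => 1) measurable_const hc hm
    (E := fun p => Ioc 0 (τ p.1))
    ((measurableSet_lt measurable_const measurable_snd).inter
      (measurableSet_le measurable_snd (hτ.comp (measurable_fst.comp measurable_fst))))
    (fun p _ hs => ⟨hs.1.le, hs.2.trans (hτT p.1)⟩)

/-- integrals over `z` of a jointly measurable density -/
theorem measurable_withDensity_apply {G : Ω × ℂ → ℝ≥0∞} (hG : Measurable G) {A : Set ℂ}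
    (hA : MeasurableSet A) :
    Measurable (fun ω => (volume.withDensity (fun z => G (ω, z))) A) := by
  have h1 := hG.lintegral_prod_right' (ν := (volume : Measure ℂ).restrict A)
  convert h1 using 1
  funext ω
  rw [withDensity_apply _ hA]

/-- the same for the measure of `LB8.assembly` -/
theorem measurable_muC_apply {G : Ω × ℂ → ℝ≥0∞} (hG : Measurable G) {A : Set ℂ}
    (hA : MeasurableSet A) :
    Measurable (fun ω => LB8.muC (fun z => G (ω, z)) A) := by
  have h1 := hG.lintegral_prod_right' (ν := ((volume : Measure ℂ).restrict LB8.Q0).restrict A)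
  convert h1 using 1
  funext ω
  exact LB8.muC_apply _ hA

/-- the occupation measure of a measurable set is measurable in `ω` -/
theorem measurable_mu (κ ε c1 : ℝ) (hc : ∀ ω, ContinuousOn (W ω) (Icc 0 T))
    (hm : ∀ s ∈ Icc 0 T, Measurable (fun ω => W ω s)) {A : Set ℂ} (hA : MeasurableSet A) :
    Measurable (fun ω => mu κ ε c1 (W ω) T A) :=
  measurable_withDensity_apply (measurable_Ct κ ε c1 hc hm) hA

/-- the occupation measure at a measurable time `τ ≤ T` -/
theorem measurable_mu_at (κ ε c1 : ℝ) (hc : ∀ ω, ContinuousOn (W ω) (Icc 0 T))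
    (hm : ∀ s ∈ Icc 0 T, Measurable (fun ω => W ω s)) {τ : Ω → ℝ} (hτ : Measurable τ)
    (hτT : ∀ ω, τ ω ≤ T) {A : Set ℂ} (hA : MeasurableSet A) :
    Measurable (fun ω => mu κ ε c1 (W ω) (τ ω) A) :=
  measurable_withDensity_apply (measurable_Ct_at κ ε c1 hc hm hτ hτT) hA

end generic

/-! ### Deterministic path -/

section det

lemma measurable_of_unit {E : Type*} [MeasurableSpace E] {g : ℂ → E}
    (h : Measurable (fun p : Unit × ℂ => g p.2)) : Measurable g := by
  have h2 : Measurable (fun z : ℂ => (((), z) : Unit × ℂ)) :=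
    measurable_const.prodMk measurable_id
  exact h.comp h2

lemma measurable_section {Ω : Type*} {m' : MeasurableSpace Ω} {E : Type*} [MeasurableSpace E]
    {g : Ω → ℂ → E} (h : Measurable (fun p : Ω × ℂ => g p.1 p.2)) (z : ℂ) :
    Measurable (fun ω => g ω z) := by
  have h2 : Measurable (fun ω : Ω => (ω, z)) := measurable_id.prodMk measurable_const
  exact h.comp h2

/-- the global content of a fixed path is a measurable function of the point -/
theorem measurable_Ct_det (κ ε c1 : ℝ) {W : ℝ → ℝ} {T : ℝ} (hc : ContinuousOn W (Icc 0 T)) :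
    Measurable (Ct κ ε c1 W T) := by
  have h : Measurable (fun p : Unit × ℂ => Ct κ ε c1 W T p.2) :=
    measurable_Ct (Ω := Unit) (m := inferInstance) (W := fun _ => W) κ ε c1
      (fun _ => hc) (fun _ _ => measurable_const)
  exact measurable_of_unit h

/-- the content per unit area of a fixed path is a measurable function of the point -/
theorem measurable_cz_det (κ ε c1 lam : ℝ) {W : ℝ → ℝ} {T : ℝ} (hc : ContinuousOn W (Icc 0 T))
    {E : Set ℝ} (hE : MeasurableSet E) (hET : E ⊆ Icc 0 T) :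
    Measurable (cz κ ε c1 lam W E) := by
  have h : Measurable (fun p : Unit × ℂ => cz κ ε c1 lam W E p.2) :=
    measurable_cz' (Ω := Unit) (m := inferInstance) (W := fun _ => W) κ ε c1 lam
      (fun _ => hc) (fun _ _ => measurable_const) hE hET
  exact measurable_of_unit h

/-- the time density of a fixed path at a fixed point is measurable in time -/
theorem measurable_cd_det (κ ε c1 lam : ℝ) {W : ℝ → ℝ} {T : ℝ} (hc : ContinuousOn W (Icc 0 T))
    (z : ℂ) : Measurable ((Icc 0 T).indicator fun s => cd κ ε c1 lam W s z) := by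
  have h := jm_cd' (Ω := Unit) (m := inferInstance) (W := fun _ => W) (T := T) κ ε c1 lam
    (fun _ => hc) (fun _ _ => measurable_const)
  have h2 : Measurable (fun s : ℝ => (((), s) : Unit × ℝ)) :=
    measurable_const.prodMk measurable_id
  exact (JM.pt h z).comp h2

end det

/-! ### Brownian driving function -/

section brownian

variable {Ω : Type*} {m : MeasurableSpace Ω} {F : Filtration ℝ≥0 m} {P : Measure Ω}
  {B : ℝ≥0 → Ω → ℝ}

/-- the content density is progressively measurable, jointly in the point -/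
theorem jmF_cd (hB : IsBM F B P) (κ' κ ε c1 lam : ℝ) (t : ℝ≥0) :
    JM (m := F t) (t : ℝ) (fun p s => cd κ ε c1 lam (driving κ' B p.1) s p.2) :=
  jm_cd' (m := F t) κ ε c1 lam (fun ω => (driving_cont hB κ' ω).continuousOn)
    (fun _ hs => driving_meas hB κ' hs)

/-- the content is `F t`-measurable, jointly in the point -/
theorem jmF_cz (hB : IsBM F B P) (κ' κ ε c1 lam : ℝ) (t : ℝ≥0) {E : Set ℝ}
    (hE : MeasurableSet E) (hET : E ⊆ Icc 0 (t : ℝ)) :
    @Measurable (Ω × ℂ) ℝ≥0∞ (@Prod.instMeasurableSpace Ω ℂ (F t) _) _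
      (fun p => cz κ ε c1 lam (driving κ' B p.1) E p.2) :=
  measurable_cz' (m := F t) κ ε c1 lam (fun ω => (driving_cont hB κ' ω).continuousOn)
    (fun _ hs => driving_meas hB κ' hs) hE hET

/-- **LB8m (a)**: the global content is `F t`-measurable, jointly in the point -/
theorem jmF_Ct (hB : IsBM F B P) (κ' κ ε c1 : ℝ) (t : ℝ≥0) :
    @Measurable (Ω × ℂ) ℝ≥0∞ (@Prod.instMeasurableSpace Ω ℂ (F t) _) _
      (fun p => Ct κ ε c1 (driving κ' B p.1) t p.2) :=
  measurable_Ct (m := F t) κ ε c1 (fun ω => (driving_cont hB κ' ω).continuousOn)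
    (fun _ hs => driving_meas hB κ' hs)

/-- the global content of a fixed point is `F t`-measurable -/
theorem measF_Ct (hB : IsBM F B P) (κ' κ ε c1 : ℝ) (t : ℝ≥0) (z : ℂ) :
    Measurable[F t] (fun ω => Ct κ ε c1 (driving κ' B ω) t z) :=
  measurable_section (m' := F t) (g := fun ω z => Ct κ ε c1 (driving κ' B ω) t z)
    (jmF_Ct hB κ' κ ε c1 t) z

/-- the global content, `m`-measurable, jointly in the point -/
theorem measurable_Ct_driving (hB : IsBM F B P) (κ' κ ε c1 : ℝ) (t : ℝ) :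
    Measurable (fun p : Ω × ℂ => Ct κ ε c1 (driving κ' B p.1) t p.2) :=
  measurable_Ct κ ε c1 (fun ω => (driving_cont hB κ' ω).continuousOn)
    (fun s _ => driving_meas' hB κ' s)

/-- **LB8m (b)**: the occupation measure of a measurable set is `F t`-measurable -/
theorem measF_mu (hB : IsBM F B P) (κ' κ ε c1 : ℝ) (t : ℝ≥0) {A : Set ℂ}
    (hA : MeasurableSet A) :
    Measurable[F t] (fun ω => mu κ ε c1 (driving κ' B ω) t A) :=
  measurable_mu (m := F t) κ ε c1 (fun ω => (driving_cont hB κ' ω).continuousOn)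
    (fun _ hs => driving_meas hB κ' hs) hA

/-- the restricted occupation measure -/
theorem measF_mu_restrict (hB : IsBM F B P) (κ' κ ε c1 : ℝ) (t : ℝ≥0) {A Q : Set ℂ}
    (hA : MeasurableSet A) (hQ : MeasurableSet Q) :
    Measurable[F t] (fun ω => (mu κ ε c1 (driving κ' B ω) t).restrict Q A) := by
  simp only [Measure.restrict_apply hA]
  exact measF_mu hB κ' κ ε c1 t (hA.inter hQ)

/-- the measure of `LB8.assembly` -/
theorem measF_muC (hB : IsBM F B P) (κ' κ ε c1 : ℝ) (t : ℝ≥0) {A : Set ℂ}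
    (hA : MeasurableSet A) :
    Measurable[F t] (fun ω => LB8.muC (Ct κ ε c1 (driving κ' B ω) t) A) :=
  measurable_muC_apply (m := F t) (jmF_Ct hB κ' κ ε c1 t) hA

/-- **LB8m (c)**: the good event of `LB8b` is in `F t` -/
theorem measF_goodM (hB : IsBM F B P) (κ' κ ε c1 : ℝ) (t : ℝ≥0) (a : ℝ≥0∞) (Th : ℕ → ℝ≥0∞)
    (k1 : ℕ) :
    MeasurableSet[F t] {ω | LB8.GoodM a Th k1 (mu κ ε c1 (driving κ' B ω) t)} :=
  LB8.measurableSet_goodM (m := F t) (measF_mu hB κ' κ ε c1 t LB8.measurableSet_Q0)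
    (fun k p => measF_mu hB κ' κ ε c1 t (by unfold LB8.bll; measurability))

/-- the good event of `LB8b`, restricted form -/
theorem measF_goodM_muC (hB : IsBM F B P) (κ' κ ε c1 : ℝ) (t : ℝ≥0) (a : ℝ≥0∞)
    (Th : ℕ → ℝ≥0∞) (k1 : ℕ) :
    MeasurableSet[F t] {ω | LB8.GoodM a Th k1 (LB8.muC (Ct κ ε c1 (driving κ' B ω) t))} :=
  LB8.measurableSet_goodM (m := F t) (measF_muC hB κ' κ ε c1 t LB8.measurableSet_Q0)
    (fun k p => measF_muC hB κ' κ ε c1 t (by unfold LB8.bll; measurability))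

end brownian

/-! ### The fields of `ZO.LBIn` -/

section lbin

variable {Ω : Type*} [MeasurableSpace Ω] {P : Measure Ω} {B : ℝ≥0 → Ω → ℝ}

/-- the two measurability fields of `ZO.LBIn` for `μ ω = LB.mu κ ε c1 (driving κ B ω) n` -/
theorem lbin_fields (h : ∀ t, Measurable (B t)) (hB : OS.IsBM (OS.natF B h) B P)
    (κ' κ ε c1 : ℝ) (n : ℝ≥0) :
    (Measurable[OS.natF B h n] fun ω => mu κ ε c1 (driving κ' B ω) n LB8.Q0) ∧
    (∀ z r, Measurable[OS.natF B h n] fun ω =>
      mu κ ε c1 (driving κ' B ω) n (Metric.closedBall z r)) :=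
  ⟨measF_mu hB κ' κ ε c1 n LB8.measurableSet_Q0,
    fun _ _ => measF_mu hB κ' κ ε c1 n measurableSet_closedBall⟩

/-- the two measurability fields of `ZO.LBIn` for the occupation measure restricted to `Q` -/
theorem lbin_fields_restrict (h : ∀ t, Measurable (B t)) (hB : OS.IsBM (OS.natF B h) B P)
    (κ' κ ε c1 : ℝ) (n : ℝ≥0) {Q : Set ℂ} (hQ : MeasurableSet Q) :
    (Measurable[OS.natF B h n] fun ω => (mu κ ε c1 (driving κ' B ω) n).restrict Q LB8.Q0) ∧
    (∀ z r, Measurable[OS.natF B h n] fun ω =>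
      (mu κ ε c1 (driving κ' B ω) n).restrict Q (Metric.closedBall z r)) :=
  ⟨measF_mu_restrict hB κ' κ ε c1 n LB8.measurableSet_Q0 hQ,
    fun _ _ => measF_mu_restrict hB κ' κ ε c1 n measurableSet_closedBall hQ⟩

/-- the two measurability fields of `ZO.LBIn` for `LB8.muC (Ct ..)` -/
theorem lbin_fields_muC (h : ∀ t, Measurable (B t)) (hB : OS.IsBM (OS.natF B h) B P)
    (κ' κ ε c1 : ℝ) (n : ℝ≥0) :
    (Measurable[OS.natF B h n] fun ω => LB8.muC (Ct κ ε c1 (driving κ' B ω) n) LB8.Q0) ∧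
    (∀ z r, Measurable[OS.natF B h n] fun ω =>
      LB8.muC (Ct κ ε c1 (driving κ' B ω) n) (Metric.closedBall z r)) :=
  ⟨measF_muC hB κ' κ ε c1 n LB8.measurableSet_Q0,
    fun _ _ => measF_muC hB κ' κ ε c1 n measurableSet_closedBall⟩

end lbin

/-! ### The hypotheses `H0`, `H1` of `LB8.assembly` -/

section assembly

/-- the abstract content functional of `LB8.assembly` -/
noncomputable def Cn (κ c1 : ℝ) (n : ℝ≥0) (ε : ℝ) (w : ℝ≥0 → ℝ) (z : ℂ) : ℝ≥0∞ :=
  Ct κ ε c1 (fun t => √κ * w t.toNNReal) n z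

theorem cont_path {κ : ℝ} {w : ℝ≥0 → ℝ} (hw : Continuous w) :
    Continuous (fun t : ℝ => √κ * w t.toNNReal) :=
  continuous_const.mul (hw.comp continuous_real_toNNReal)

/-- `H0` of `LB8.assembly` -/
theorem H0 (κ c1 : ℝ) (n : ℝ≥0) : ∀ ε, 0 < ε → ∀ w : ℝ≥0 → ℝ, Continuous w → w 0 = 0 →
    Measurable (Cn κ c1 n ε w) :=
  fun ε _ _ hw _ => measurable_Ct_det κ ε c1 (cont_path hw).continuousOn

theorem meas_past {Ω : Type*} {B' : ℝ≥0 → Ω → ℝ} {n s : ℝ≥0} (hs : s ≤ n) :
    Measurable[ZO.pastSigma B' n] (B' s) := by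
  have h1 : Measurable[ZO.pastSigma B' n] (fun ω (u : Set.Iic n) => B' u ω) :=
    comap_measurable _
  exact (measurable_pi_apply (⟨s, hs⟩ : Set.Iic n)).comp h1

/-- `H1` of `LB8.assembly` -/
theorem H1 {Ω : Type*} [MeasurableSpace Ω] (κ c1 : ℝ) (n : ℝ≥0) :
    ∀ ε, 0 < ε → ∀ B' : ℝ≥0 → Ω → ℝ, (∀ t, Measurable (B' t)) →
      (∀ ω, Continuous fun t => B' t ω) → (∀ ω, B' 0 ω = 0) →
      @Measurable (Ω × ℂ) ℝ≥0∞ (@Prod.instMeasurableSpace Ω ℂ (ZO.pastSigma B' n) _) _
        (fun p => Cn κ c1 n ε (fun t => B' t p.1) p.2) := by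
  intro ε _ B' _ hc _
  refine measurable_Ct (m := ZO.pastSigma B' n)
    (W := fun ω (t : ℝ) => √κ * B' t.toNNReal ω) (T := (n : ℝ)) κ ε c1
    (fun ω => (cont_path (hc ω)).continuousOn) (fun s hs => ?_)
  have h2 : s.toNNReal ≤ n := by
    rw [Real.toNNReal_le_iff_le_coe]
    exact hs.2
  exact (meas_past h2).const_mul _

end assembly

end Crest.Agent.R162.LB8m
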