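import Crest.Agent.R162.LB8
import Crest.Agent.R162.OSDefs
import Crest.Agent.R162.FLDef

/-!
Row 162, node LB8s (iii) : from the normalised ball tail (LB7c) to the physical ball tail used by
`LB8.frostman`.
-/

set_option autoImplicit false

namespace Crest.Agent.R162.LB8s

open Crest.ProbabilityR.Loewner MeasureTheory ProbabilityTheory Set Filter Topology Metric
open scoped ENNReal NNReal
open Crest.Agent.R162.GM Crest.Agent.R162.OS Crest.Agent.R162.FL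
open Crest.Agent.R162.LB8 (Q0)

universe u

/-- abstract content functional `m ε W t V`. -/
abbrev CF := ℝ → (ℝ → ℝ) → ℝ → Set ℂ → ℝ≥0∞

/-- Brownian scaling of the content of balls. -/
def Scales (κ : ℝ) (m : CF) : Prop :=
  ∀ (l ε t r : ℝ) (W : ℝ → ℝ) (z : ℂ), Continuous W → 0 < l → 0 < ε → 0 ≤ t →
    m ε W t (closedBall z r) =
      ENNReal.ofReal (l ^ dimParam κ) *
        m (ε / l) (scl l W) (t / l ^ 2) (closedBall (z / l) (r / l))

/-- start weight `G_0(w) = (Im w)^(κ/8-1) (Im w/|w|)^(8/κ-1)`. -/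
noncomputable def G0 (κ : ℝ) (w : ℂ) : ℝ := w.im ^ (κ / 8 - 1) * (w.im / ‖w‖) ^ (8 / κ - 1)

/-- the normalised ball tail (LB7c). -/
def Norm7 (κ : ℝ) (m : CF) : Prop :=
  ∃ Cμ C Kt ε0 : ℝ, 0 < Cμ ∧ 0 < C ∧ 0 < Kt ∧ 0 < ε0 ∧
    ∀ (N : ℝ) (w0 : ℂ) (ε : ℝ), 1 ≤ N → Kt * Real.sqrt N ≤ w0.im → (1 / 2) * ‖w0‖ ≤ w0.im →
      0 < ε → ε ≤ ε0 →
    ∀ (Ω : Type u) [MeasurableSpace Ω] (P : Measure Ω) [IsProbabilityMeasure P]
      (F : Filtration ℝ≥0 (inferInstance : MeasurableSpace Ω)) (B : ℝ≥0 → Ω → ℝ)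
      (_ : IsBM F B P) (t : ℝ≥0),
      ∫⁻ ω in {ω | ENNReal.ofReal (Cμ * N) <
            m ε (driving κ B ω) t (closedBall w0 (Real.sqrt N))},
          m ε (driving κ B ω) t (closedBall w0 (Real.sqrt N)) ∂P ≤
        ENNReal.ofReal (C * Real.exp (-2 * N) * N * G0 κ w0)

/-- Brownian scaling (a Prop, discharged by node LB-SCALE). -/
def BMScale : Prop :=
  ∀ (Ω : Type u) [MeasurableSpace Ω] (P : Measure Ω) [IsProbabilityMeasure P]
      (F : Filtration ℝ≥0 (inferInstance : MeasurableSpace Ω)) (B : ℝ≥0 → Ω → ℝ)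
      (_ : IsBM F B P) (l : ℝ≥0), 0 < l →
      ∃ F' : Filtration ℝ≥0 (inferInstance : MeasurableSpace Ω),
        IsBM F' (fun t ω => (l : ℝ)⁻¹ * B (l ^ 2 * t) ω) P

lemma driving_scl {Ω : Type*} (κ : ℝ) (B : ℝ≥0 → Ω → ℝ) (l : ℝ≥0) (ω : Ω) :
    driving κ (fun t ω => (l : ℝ)⁻¹ * B (l ^ 2 * t) ω) ω = scl l (driving κ B ω) := by
  funext t
  have h : (((l : ℝ) ^ 2) * t).toNNReal = l ^ 2 * t.toNNReal := by
    rw [Real.toNNReal_mul (by positivity), Real.toNNReal_pow (by positivity), Real.toNNReal_coe]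
  simp only [driving, scl, h]
  ring

lemma driving_cont {Ω : Type*} {κ : ℝ} {B : ℝ≥0 → Ω → ℝ} {ω : Ω}
    (h : Continuous fun t => B t ω) : Continuous (driving κ B ω) := by
  unfold driving
  exact continuous_const.mul (h.comp continuous_real_toNNReal)

lemma norm_le_of_mem {z : ℂ} (hz : z ∈ Q0) : (1 / 2) * ‖z‖ ≤ z.im := by
  obtain ⟨h1, h2, h3, h4⟩ := hz
  have := Complex.norm_le_abs_re_add_abs_im z
  rw [abs_of_nonneg h1, abs_of_nonneg (by linarith : (0 : ℝ) ≤ z.im)] at this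
  linarith

lemma G0_div {κ : ℝ} (w : ℂ) {l : ℝ} (hl : 0 < l) (hw : 0 < w.im) :
    G0 κ (w / l) = l ^ (1 - κ / 8) * G0 κ w := by
  have him : (w / (l : ℂ)).im = w.im / l := by
    rw [Complex.div_ofReal_im]
  have hn : ‖w / (l : ℂ)‖ = ‖w‖ / l := by
    rw [norm_div, Complex.norm_real, Real.norm_of_nonneg hl.le]
  unfold G0
  rw [him, hn]
  have h1 : w.im / l / (‖w‖ / l) = w.im / ‖w‖ := by
    rw [div_div_div_cancel_right₀ hl.ne']
  rw [h1, Real.div_rpow hw.le hl.le, show (1 - κ / 8) = -(κ / 8 - 1) by ring,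
    Real.rpow_neg hl.le]
  ring

lemma G0_le_one {κ : ℝ} (hκ : 0 < κ) (hκ8 : κ < 8) {w : ℂ} (hw : 1 ≤ w.im) : G0 κ w ≤ 1 := by
  unfold G0
  have h0 : 0 < w.im := by linarith
  have hn : w.im ≤ ‖w‖ := (le_abs_self _).trans (Complex.abs_im_le_norm w)
  have hn0 : 0 < ‖w‖ := h0.trans_le hn
  have h1 : w.im ^ (κ / 8 - 1) ≤ 1 :=
    Real.rpow_le_one_of_one_le_of_nonpos hw (by linarith)
  have h2 : (w.im / ‖w‖) ^ (8 / κ - 1) ≤ 1 := by
    refine Real.rpow_le_one (by positivity) ((div_le_one hn0).2 hn) ?_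
    have : 1 ≤ 8 / κ := by rw [le_div_iff₀ hκ]; linarith
    linarith
  exact mul_le_one₀ h1 (by positivity) h2

lemma G0_nonneg {κ : ℝ} {w : ℂ} (hw : 0 ≤ w.im) : 0 ≤ G0 κ w := by
  unfold G0; positivity

/-- the physical ball tail. -/
theorem ball_tail {κ : ℝ} (hκ : 0 < κ) (hκ8 : κ < 8) {m : CF} (hbm : BMScale.{u})
    (hs : Scales κ m) (hN : Norm7.{u} κ m) :
    ∃ Cm C3 M r1 : ℝ, 0 < Cm ∧ 0 < C3 ∧ 0 < M ∧ 0 < r1 ∧ r1 ≤ m0 ∧
    ∀ (Ω : Type u) [MeasurableSpace Ω] (P : Measure Ω) [IsProbabilityMeasure P]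
      (F : Filtration ℝ≥0 (inferInstance : MeasurableSpace Ω)) (B : ℝ≥0 → Ω → ℝ)
      (_ : IsBM F B P) (ε : ℝ) (_ : 0 < ε) (n : ℝ≥0),
      ∀ z ∈ Q0, ∀ r, 0 < r → r ≤ r1 → M * ε * Real.sqrt (L r) ≤ r →
        ∫⁻ ω in {ω | ENNReal.ofReal (Cm * gaugeReal κ r) <
              m ε (driving κ B ω) n (closedBall z r)},
            m ε (driving κ B ω) n (closedBall z r) ∂P ≤
          ENNReal.ofReal (C3 * (Real.log (1 / r) ^ 2)⁻¹ * r ^ 2) := by
  obtain ⟨Cμ, C, Kt, ε0, hCμ, hC, hKt, hε0, hmain⟩ := hN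
  refine ⟨Cμ, C, 1 / ε0, min m0 (1 / Kt), hCμ, hC, by positivity,
    lt_min m0_pos (by positivity), min_le_left _ _, ?_⟩
  intro Ω _ P _ F B hB ε hε n z hz r hr hr1 hM
  have hrm : r ≤ m0 := hr1.trans (min_le_left _ _)
  have hrK : r ≤ 1 / Kt := hr1.trans (min_le_right _ _)
  set N : ℝ := L r with hNdef
  have hN1 : 1 ≤ N := L_ge_one hr hrm
  have hN0 : 0 < N := by linarith
  have hsN : 0 < Real.sqrt N := Real.sqrt_pos.2 hN0
  have hsN2 : Real.sqrt N ^ 2 = N := Real.sq_sqrt hN0.le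
  set l : ℝ≥0 := ⟨r / Real.sqrt N, by positivity⟩ with hl
  have hlr : (l : ℝ) = r / Real.sqrt N := rfl
  have hl0 : (0 : ℝ) < l := by rw [hlr]; positivity
  have hl0' : 0 < l := by exact_mod_cast hl0
  have hrl : r / l = Real.sqrt N := by rw [hlr]; field_simp
  have hz1 : 1 ≤ z.im := hz.2.2.1
  have hd := dim_gt hκ
  obtain ⟨F', hB'⟩ := hbm Ω P F B hB l hl0'
  -- scaling of the content
  have hsc : ∀ ω, m ε (driving κ B ω) n (closedBall z r) =
      ENNReal.ofReal ((l : ℝ) ^ dimParam κ) *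
        m (ε / l) (driving κ (fun t ω => (l : ℝ)⁻¹ * B (l ^ 2 * t) ω) ω) ((n / l ^ 2 : ℝ≥0) : ℝ)
          (closedBall (z / (l : ℝ)) (Real.sqrt N)) := by
    intro ω
    rw [hs l ε n r (driving κ B ω) z (driving_cont (hB.cont ω)) hl0 hε n.2, driving_scl, hrl]
    simp
  have hdl : (0 : ℝ) < (l : ℝ) ^ dimParam κ := Real.rpow_pos_of_pos hl0 _
  have hgauge : gaugeReal κ r = (l : ℝ) ^ dimParam κ * N := by
    rw [gaugeReal_small hrm, ← hNdef, hlr, Real.div_rpow hr.le hsN.le, Real.sqrt_eq_rpow,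
      ← Real.rpow_mul hN0.le, div_mul_eq_mul_div, mul_div_assoc]
    congr 1
    rw [show (2 - dimParam κ) / 2 = 1 - 1 / 2 * dimParam κ by ring, Real.rpow_sub hN0,
      Real.rpow_one]
  -- the events agree
  have hset : {ω | ENNReal.ofReal (Cμ * gaugeReal κ r) <
        m ε (driving κ B ω) n (closedBall z r)} =
      {ω | ENNReal.ofReal (Cμ * N) <
        m (ε / l) (driving κ (fun t ω => (l : ℝ)⁻¹ * B (l ^ 2 * t) ω) ω) ((n / l ^ 2 : ℝ≥0) : ℝ)
          (closedBall (z / (l : ℝ)) (Real.sqrt N))} := by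
    ext ω
    simp only [mem_ofPred_eq]
    rw [hsc ω, hgauge, show Cμ * ((l : ℝ) ^ dimParam κ * N) = (l : ℝ) ^ dimParam κ * (Cμ * N) by
      ring, ENNReal.ofReal_mul hdl.le]
    exact ENNReal.mul_lt_mul_iff_right (ENNReal.ofReal_pos.2 hdl).ne' ENNReal.ofReal_ne_top
  rw [hset]
  simp_rw [hsc]
  rw [lintegral_const_mul' _ _ ENNReal.ofReal_ne_top]
  have hεl : ε / l ≤ ε0 := by
    rw [div_le_iff₀ hl0, hlr]
    have h1 : 1 / ε0 * ε * Real.sqrt N ≤ r := hM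
    rw [mul_div_assoc', le_div_iff₀ hsN]
    have h2 : ε0 * (1 / ε0 * ε * Real.sqrt N) ≤ ε0 * r := by gcongr
    have h3 : ε0 * (1 / ε0 * ε * Real.sqrt N) = ε * Real.sqrt N := by field_simp
    linarith
  have him : (z / ((l : ℝ) : ℂ)).im = z.im / l := by rw [Complex.div_ofReal_im]
  have hnz : ‖z / ((l : ℝ) : ℂ)‖ = ‖z‖ / l := by
    rw [norm_div, Complex.norm_real, Real.norm_of_nonneg hl0.le]
  have h7 := hmain N (z / (l : ℝ)) (ε / l) hN1 ?_ ?_ (by positivity) hεl Ω P F'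
    (fun t ω => (l : ℝ)⁻¹ * B (l ^ 2 * t) ω) hB' (n / l ^ 2)
  · refine (mul_le_mul_right h7 _).trans ?_
    rw [← ENNReal.ofReal_mul hdl.le]
    refine ENNReal.ofReal_le_ofReal ?_
    rw [G0_div z hl0 (by linarith)]
    have hexp : Real.exp (-2 * N) = (Real.log (1 / r) ^ 2)⁻¹ := by
      have hlog : 0 < Real.log (1 / r) := (Real.exp_pos 1).trans_le (log_one_div_ge hr hrm)
      have : Real.exp N = Real.log (1 / r) := by rw [hNdef, L, Real.exp_log hlog]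
      rw [← this, ← Real.exp_nat_mul, ← Real.exp_neg]
      congr 1
      push_cast; ring
    have hl2 : (l : ℝ) ^ dimParam κ * (l : ℝ) ^ (1 - κ / 8) = (l : ℝ) ^ 2 := by
      rw [← Real.rpow_add hl0, ← Real.rpow_natCast]
      congr 1
      unfold dimParam; push_cast; ring
    have hl2N : (l : ℝ) ^ 2 * N = r ^ 2 := by
      rw [hlr, div_pow, hsN2]; field_simp
    have hG := G0_le_one hκ hκ8 hz1
    have hG0 : 0 ≤ G0 κ z := G0_nonneg (by linarith)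
    calc (l : ℝ) ^ dimParam κ * (C * Real.exp (-2 * N) * N * ((l : ℝ) ^ (1 - κ / 8) * G0 κ z))
        = C * Real.exp (-2 * N) * (((l : ℝ) ^ dimParam κ * (l : ℝ) ^ (1 - κ / 8)) * N) *
            G0 κ z := by ring
      _ = C * (Real.log (1 / r) ^ 2)⁻¹ * r ^ 2 * G0 κ z := by rw [hl2, hl2N, hexp]
      _ ≤ C * (Real.log (1 / r) ^ 2)⁻¹ * r ^ 2 * 1 := by gcongr
      _ = _ := by ring
  · rw [him, le_div_iff₀ hl0, hlr]
    have : Kt * Real.sqrt N * (r / Real.sqrt N) = Kt * r := by field_simp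
    rw [this]
    have h1 : Kt * r ≤ Kt * (1 / Kt) := by gcongr
    have h2 : Kt * (1 / Kt) = 1 := by field_simp
    linarith
  · rw [him, hnz, mul_div_assoc']
    exact div_le_div_of_nonneg_right (norm_le_of_mem hz) hl0.le

end Crest.Agent.R162.LB8s
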