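import Mathlib
import Crest.Agent.R162.LBDefs
import Crest.Agent.R162.U5br
import Crest.Agent.R162.OSDefs
import Crest.Agent.R162.LBbc

/-!
Row 162 (S0243), node LB-SCALE (helper105): scaling.

(i) Brownian scaling keeps `OS.IsBM` (for the rescaled filtration);
(ii) pathwise scaling of `gr`, `cd`, `Ct`, `mu` (no aliveness hypothesis).
-/

set_option autoImplicit false

open Set MeasureTheory ProbabilityTheory
open scoped NNReal ENNReal

namespace Crest.Agent.R162.LBScale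

open Crest.Agent.R162.FL Crest.Agent.R162.OP Crest.Agent.R162.LB
open Crest.ProbabilityR.Loewner

/-! ### (i) Brownian scaling -/

section brownian

variable {Ω : Type*} {m : MeasurableSpace Ω} {F : Filtration ℝ≥0 m} {B : ℝ≥0 → Ω → ℝ}
  {P : Measure Ω}

/-- the rescaled filtration `t ↦ F (l² t)` -/
def sclF (F : Filtration ℝ≥0 m) (l : ℝ≥0) : Filtration ℝ≥0 m where
  seq t := F (l ^ 2 * t)
  mono' _ _ h := F.mono (mul_le_mul_right h _)
  le' _ := F.le _

/-- the rescaled path `t ↦ l⁻¹ B (l² t)` -/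
noncomputable def sclB (B : ℝ≥0 → Ω → ℝ) (l : ℝ≥0) (t : ℝ≥0) (ω : Ω) : ℝ :=
  (l : ℝ)⁻¹ * B (l ^ 2 * t) ω

theorem isBM_scl (hB : OS.IsBM F B P) {l : ℝ≥0} (hl : 0 < l) :
    OS.IsBM (sclF F l) (sclB B l) P where
  cont ω := by
    unfold sclB
    exact continuous_const.mul ((hB.cont ω).comp (by fun_prop))
  zero ω := by
    unfold sclB
    rw [mul_zero, hB.zero ω, mul_zero]
  adapted t := by
    unfold sclB
    exact (hB.adapted (l ^ 2 * t)).const_mul _
  law s u := by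
    have hm : Measurable (fun ω => B (l ^ 2 * s + l ^ 2 * u) ω - B (l ^ 2 * s) ω) :=
      ((hB.adapted _).mono (F.le _) le_rfl).sub ((hB.adapted _).mono (F.le _) le_rfl)
    have h1 : (fun ω => sclB B l (s + u) ω - sclB B l s ω)
        = (fun x => (l : ℝ)⁻¹ * x) ∘ (fun ω => B (l ^ 2 * s + l ^ 2 * u) ω - B (l ^ 2 * s) ω) := by
      funext ω
      simp only [sclB, Function.comp, mul_add]
      ring
    rw [h1, ← Measure.map_map (by fun_prop) hm, hB.law]
    rw [gaussianReal_map_const_mul]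
    congr 1
    · simp
    · apply NNReal.coe_injective
      have : (l : ℝ) ≠ 0 := by exact_mod_cast hl.ne'
      push_cast
      field_simp
  indep s := by
    have h := hB.indep (l ^ 2 * s)
    refine indep_of_indep_of_le_left h ?_
    have h1 : (fun ω (u : ℝ≥0) => sclB B l (s + u) ω - sclB B l s ω)
        = (fun (x : ℝ≥0 → ℝ) (u : ℝ≥0) => (l : ℝ)⁻¹ * x (l ^ 2 * u)) ∘
          (fun ω (u : ℝ≥0) => B (l ^ 2 * s + u) ω - B (l ^ 2 * s) ω) := by
      funext ω u
      simp only [sclB, Function.comp, mul_add]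
      ring
    rw [h1, ← MeasurableSpace.comap_comp]
    apply MeasurableSpace.comap_mono
    apply Measurable.comap_le
    rw [measurable_pi_iff]
    intro u
    exact (measurable_pi_apply _).const_mul _

/-- scaling of the driving function: equality of functions -/
theorem scl_driving (κ : ℝ) (B : ℝ≥0 → Ω → ℝ) (l : ℝ≥0) (ω : Ω) :
    scl l (driving κ B ω) = driving κ (sclB B l) ω := by
  funext v
  unfold FL.scl driving sclB
  have h1 : Real.toNNReal ((l : ℝ) ^ 2 * v) = l ^ 2 * Real.toNNReal v := by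
    rw [Real.toNNReal_mul (by positivity)]
    congr 1
    apply NNReal.coe_injective
    rw [Real.coe_toNNReal _ (by positivity)]
    push_cast
    rfl
  rw [h1]
  ring

end brownian

/-! ### (ii) pathwise scaling -/

section path

variable {W : ℝ → ℝ} {κ ε c1 l s t : ℝ} {z : ℂ}

theorem ups_nn (W : ℝ → ℝ) (t : ℝ) (z : ℂ) : 0 ≤ ups W t z := by
  by_cases h : Alive W z t
  · exact mul_nonneg (gfl_im_pos h).le (Real.exp_pos _).le
  · rw [ups_of_dead h]

theorem gr_scl (hl : 0 < l) (h : Alive W (l * z) (l ^ 2 * t)) :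
    gr κ (scl l W) t z = l ^ (1 - κ / 8) * gr κ W (l ^ 2 * t) (l * z) := by
  unfold gr
  rw [U5br.ups_scl hl h, U5br.sfl_scl hl h,
    Real.mul_rpow (inv_nonneg.2 hl.le) (ups_nn _ _ _), ← Real.rpow_neg_one,
    ← Real.rpow_mul hl.le, mul_assoc]
  congr 2
  ring

theorem gr_of_dead (hκ : κ < 8) (h : ¬ Alive W z t) : gr κ W t z = 0 := by
  unfold gr
  rw [ups_of_dead h, Real.zero_rpow (by linarith), zero_mul]

theorem gr_scl' (hκ : κ < 8) (hl : 0 < l) :
    gr κ (scl l W) t z = l ^ (1 - κ / 8) * gr κ W (l ^ 2 * t) (l * z) := by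
  by_cases h : Alive W (l * z) (l ^ 2 * t)
  · exact gr_scl hl h
  · rw [gr_of_dead hκ h, gr_of_dead hκ fun h' => h ((alive_scl hl).1 h'), mul_zero]

theorem ups_scl' (hl : 0 < l) :
    ups (scl l W) t z = l⁻¹ * ups W (l ^ 2 * t) (l * z) := by
  by_cases h : Alive W (l * z) (l ^ 2 * t)
  · exact U5br.ups_scl hl h
  · rw [ups_of_dead h, ups_of_dead fun h' => h ((alive_scl hl).1 h'), mul_zero]

/-- scaling of the density of the content -/
theorem cd_scl (hl : 0 < l) :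
    cd κ ε c1 1 (scl l W) s z
      = l ^ 2 * (l ^ (1 - κ / 8) * cd κ (l * ε) c1 1 W (l ^ 2 * s) (l * z)) := by
  by_cases h : Alive W (l * z) (l ^ 2 * s)
  · unfold cd
    rw [U5br.ups_scl hl h, U5br.sfl_scl hl h, Zfl_scl hl h]
    have h1 : (1:ℝ) * (l⁻¹ * ups W (l ^ 2 * s) (l * z)) / ε
        = 1 * ups W (l ^ 2 * s) (l * z) / (l * ε) := by
      field_simp
    have h2 : ((1:ℝ) * (l⁻¹ * ups W (l ^ 2 * s) (l * z))) ^ (κ / 8 - 1)
        = l ^ (1 - κ / 8) * (1 * ups W (l ^ 2 * s) (l * z)) ^ (κ / 8 - 1) := by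
      rw [one_mul, one_mul, Real.mul_rpow (inv_nonneg.2 hl.le) (ups_nn _ _ _),
        ← Real.rpow_neg_one, ← Real.rpow_mul hl.le]
      congr 2
      ring
    have h3 : ‖(l : ℂ)⁻¹ * Zfl W (l ^ 2 * s) (l * z)‖ ^ 2
        = (l ^ 2)⁻¹ * ‖Zfl W (l ^ 2 * s) (l * z)‖ ^ 2 := by
      rw [norm_mul, norm_inv, Complex.norm_real, Real.norm_of_nonneg hl.le, mul_pow, inv_pow]
    rw [h1, h2, h3]
    have hn : ‖Zfl W (l ^ 2 * s) (l * z)‖ ≠ 0 := norm_ne_zero_iff.mpr (Zfl_ne_zero h)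
    field_simp
  · rw [cd_of_dead h, cd_of_dead fun h' => h ((alive_scl hl).1 h'), mul_zero, mul_zero]

/-- the substitution `s ↦ c s` in a `lintegral` (no measurability) -/
theorem lintegral_comp_mul_left {c : ℝ} (hc : 0 < c) (f : ℝ → ℝ≥0∞) (E : Set ℝ) :
    ∫⁻ s in (fun s => c * s) ⁻¹' E, ENNReal.ofReal c * f (c * s) = ∫⁻ s in E, f s := by
  have e : MeasurableEmbedding (fun s : ℝ => c * s) :=
    (Homeomorph.mulLeft₀ c hc.ne').measurableEmbedding
  rw [lintegral_const_mul' _ _ ENNReal.ofReal_ne_top]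
  have h1 : ∫⁻ s in (fun s => c * s) ⁻¹' E, f (c * s)
      = ∫⁻ s, f s ∂((volume.restrict ((fun s => c * s) ⁻¹' E)).map (fun s => c * s)) :=
    (e.lintegral_map f).symm
  rw [h1, ← e.restrict_map, Real.map_volume_mul_left hc.ne', Measure.restrict_smul,
    lintegral_smul_measure, smul_eq_mul, ← mul_assoc, ← ENNReal.ofReal_mul hc.le,
    abs_of_pos (inv_pos.2 hc), mul_inv_cancel₀ hc.ne', ENNReal.ofReal_one, one_mul]

/-- scaling of the content per unit area -/
theorem cz_scl (hl : 0 < l) (E : Set ℝ) :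
    cz κ ε c1 1 (scl l W) ((fun s => l ^ 2 * s) ⁻¹' E) z
      = ENNReal.ofReal (l ^ (1 - κ / 8)) * cz κ (l * ε) c1 1 W E (l * z) := by
  have hl2 : 0 < l ^ 2 := by positivity
  have hlk : 0 ≤ l ^ (1 - κ / 8) := Real.rpow_nonneg hl.le _
  unfold cz
  rw [← lintegral_const_mul' _ _ ENNReal.ofReal_ne_top, ← lintegral_comp_mul_left hl2 _ E]
  refine lintegral_congr fun s => ?_
  rw [cd_scl hl, ENNReal.ofReal_mul hl2.le, ENNReal.ofReal_mul hlk]

/-- scaling of the content density `Ct` -/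
theorem Ct_scl (hl : 0 < l) :
    Ct κ ε c1 (scl l W) t z
      = ENNReal.ofReal (l ^ (1 - κ / 8)) * Ct κ (l * ε) c1 W (l ^ 2 * t) (l * z) := by
  have hl2 : 0 < l ^ 2 := by positivity
  unfold Ct
  rw [← cz_scl hl]
  congr 1
  ext s
  simp only [mem_Ioc, mem_preimage]
  constructor
  · rintro ⟨h1, h2⟩
    exact ⟨by positivity, mul_le_mul_of_nonneg_left h2 hl2.le⟩
  · rintro ⟨h1, h2⟩
    exact ⟨(mul_pos_iff_of_pos_left hl2).1 h1, le_of_mul_le_mul_left h2 hl2⟩

/-- the same, with the scaled path on the right -/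
theorem Ct_scl' (hl : 0 < l) :
    Ct κ ε c1 W t z
      = ENNReal.ofReal (l ^ (κ / 8 - 1)) * Ct κ (ε / l) c1 (scl l W) (t / l ^ 2) (z / l) := by
  have hl0 : (l : ℂ) ≠ 0 := Complex.ofReal_ne_zero.2 hl.ne'
  rw [Ct_scl hl, ← mul_assoc, ← ENNReal.ofReal_mul (Real.rpow_nonneg hl.le _),
    ← Real.rpow_add hl]
  have e1 : κ / 8 - 1 + (1 - κ / 8) = 0 := by ring
  have e2 : l * (ε / l) = ε := by field_simp
  have e3 : l ^ 2 * (t / l ^ 2) = t := by field_simp
  have e4 : (l : ℂ) * (z / l) = z := by field_simp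
  rw [e1, e2, e3, e4, Real.rpow_zero, ENNReal.ofReal_one, one_mul]

/-- the substitution `z ↦ l z` in the plane (no measurability of the integrand) -/
theorem lintegral_comp_smul (hl : 0 < l) (f : ℂ → ℝ≥0∞) (A : Set ℂ) :
    ∫⁻ z in A, f z = ENNReal.ofReal (l ^ 2) * ∫⁻ z in (fun z => (l : ℂ) * z) ⁻¹' A, f (l * z) := by
  have hl2 : 0 < l ^ 2 := by positivity
  have hl0 : (l : ℂ) ≠ 0 := Complex.ofReal_ne_zero.2 hl.ne'
  have e : MeasurableEmbedding (fun z : ℂ => (l : ℂ) * z) :=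
    (Homeomorph.mulLeft₀ (l : ℂ) hl0).measurableEmbedding
  have h0 : (volume : Measure ℂ).map (fun z : ℂ => (l : ℂ) * z)
      = ENNReal.ofReal ((l ^ 2)⁻¹) • volume := by
    have := Measure.map_addHaar_smul (volume : Measure ℂ) hl.ne'
    rw [Complex.finrank_real_complex, abs_of_pos (inv_pos.2 hl2)] at this
    rw [← this]
    congr 1
  have h1 : ∫⁻ z in (fun z => (l : ℂ) * z) ⁻¹' A, f (l * z)
      = ∫⁻ z, f z ∂((volume.restrict ((fun z : ℂ => (l : ℂ) * z) ⁻¹' A)).map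
          (fun z => (l : ℂ) * z)) := (e.lintegral_map f).symm
  rw [h1, ← e.restrict_map, h0, Measure.restrict_smul,
    lintegral_smul_measure, smul_eq_mul, ← mul_assoc, ← ENNReal.ofReal_mul hl2.le,
    mul_inv_cancel₀ hl2.ne', ENNReal.ofReal_one, one_mul]

/-- scaling of the content of a set -/
theorem lintegral_Ct_scl (hl : 0 < l) (A : Set ℂ) :
    ∫⁻ z in A, Ct κ ε c1 W t z
      = ENNReal.ofReal (l ^ (1 + κ / 8)) *
        ∫⁻ z in (fun z => (l : ℂ) * z) ⁻¹' A, Ct κ (ε / l) c1 (scl l W) (t / l ^ 2) z := by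
  have hl0 : (l : ℂ) ≠ 0 := Complex.ofReal_ne_zero.2 hl.ne'
  rw [lintegral_comp_smul hl]
  have h1 : ∀ z : ℂ, Ct κ ε c1 W t (l * z) =
      ENNReal.ofReal (l ^ (κ / 8 - 1)) * Ct κ (ε / l) c1 (scl l W) (t / l ^ 2) z := by
    intro z
    rw [Ct_scl' hl]
    congr 2
    field_simp
  rw [lintegral_congr h1, lintegral_const_mul' _ _ ENNReal.ofReal_ne_top, ← mul_assoc,
    ← ENNReal.ofReal_mul (by positivity)]
  congr 2
  rw [← Real.rpow_natCast l 2, ← Real.rpow_add hl]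
  congr 1
  push_cast
  ring

/-- scaling of the measure `mu` -/
theorem mu_scl (hl : 0 < l) {A : Set ℂ} (hA : MeasurableSet A) :
    mu κ ε c1 W t A
      = ENNReal.ofReal (l ^ (1 + κ / 8)) *
        mu κ (ε / l) c1 (scl l W) (t / l ^ 2) ((fun z => (l : ℂ) * z) ⁻¹' A) := by
  have hm : Measurable (fun z : ℂ => (l : ℂ) * z) := by fun_prop
  unfold mu
  rw [withDensity_apply _ hA, withDensity_apply _ (hm hA), lintegral_Ct_scl hl]

theorem preimage_closedBall (hl : 0 < l) (z : ℂ) (r : ℝ) :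
    (fun z => (l : ℂ) * z) ⁻¹' Metric.closedBall z r = Metric.closedBall (z / l) (r / l) := by
  have hl0 : (l : ℂ) ≠ 0 := Complex.ofReal_ne_zero.2 hl.ne'
  ext w
  simp only [mem_preimage, Metric.mem_closedBall, dist_eq_norm]
  have h1 : (l : ℂ) * w - z = l * (w - z / l) := by field_simp
  rw [h1, norm_mul, Complex.norm_real, Real.norm_of_nonneg hl.le, le_div_iff₀ hl, mul_comm]

theorem preimage_ball (hl : 0 < l) (z : ℂ) (r : ℝ) :
    (fun z => (l : ℂ) * z) ⁻¹' Metric.ball z r = Metric.ball (z / l) (r / l) := by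
  have hl0 : (l : ℂ) ≠ 0 := Complex.ofReal_ne_zero.2 hl.ne'
  ext w
  simp only [mem_preimage, Metric.mem_ball, dist_eq_norm]
  have h1 : (l : ℂ) * w - z = l * (w - z / l) := by field_simp
  rw [h1, norm_mul, Complex.norm_real, Real.norm_of_nonneg hl.le, lt_div_iff₀ hl, mul_comm]

/-- scaling of the measure of a closed ball -/
theorem mu_closedBall_scl (hl : 0 < l) (z : ℂ) (r : ℝ) :
    mu κ ε c1 W t (Metric.closedBall z r)
      = ENNReal.ofReal (l ^ (1 + κ / 8)) *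
        mu κ (ε / l) c1 (scl l W) (t / l ^ 2) (Metric.closedBall (z / l) (r / l)) := by
  rw [mu_scl hl Metric.isClosed_closedBall.measurableSet, preimage_closedBall hl]

/-- scaling of the measure of a ball -/
theorem mu_ball_scl (hl : 0 < l) (z : ℂ) (r : ℝ) :
    mu κ ε c1 W t (Metric.ball z r)
      = ENNReal.ofReal (l ^ (1 + κ / 8)) *
        mu κ (ε / l) c1 (scl l W) (t / l ^ 2) (Metric.ball (z / l) (r / l)) := by
  rw [mu_scl hl Metric.isOpen_ball.measurableSet, preimage_ball hl]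

/-- scaling of Green's function -/
theorem green_mul (κ : ℝ) (hl : 0 < l) (hz : 0 ≤ z.im) :
    UB.green κ (l * z) = l ^ (κ / 8 - 1) * UB.green κ z := by
  unfold UB.green
  rw [Complex.im_ofReal_mul, norm_mul, Complex.norm_real, Real.norm_of_nonneg hl.le,
    mul_div_mul_left _ _ hl.ne', Real.mul_rpow hl.le hz, mul_assoc]

/-- scaling of Green's function -/
theorem green_div (κ : ℝ) (hl : 0 < l) (hz : 0 ≤ z.im) :
    UB.green κ (z / l) = l ^ (1 - κ / 8) * UB.green κ z := by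
  have hl0 : (l : ℂ) ≠ 0 := Complex.ofReal_ne_zero.2 hl.ne'
  have hz' : 0 ≤ (z / l).im := by
    rw [Complex.div_ofReal_im]; positivity
  have h1 : (l : ℂ) * (z / l) = z := by field_simp
  have h2 := green_mul (z := z / l) κ hl hz'
  rw [h1] at h2
  rw [h2, ← mul_assoc, ← Real.rpow_add hl]
  have e1 : 1 - κ / 8 + (κ / 8 - 1) = 0 := by ring
  rw [e1, Real.rpow_zero, one_mul]

end path

/-! ### the physical form, for Brownian driving functions -/

section phys

variable {Ω : Type*} {m : MeasurableSpace Ω} {F : Filtration ℝ≥0 m} {B : ℝ≥0 → Ω → ℝ}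
  {P : Measure Ω} {κ ε c1 t : ℝ}

theorem mu_closedBall_driving (B : ℝ≥0 → Ω → ℝ) {l : ℝ≥0} (hl : 0 < l) (ω : Ω) (z : ℂ) (r : ℝ) :
    mu κ ε c1 (driving κ B ω) t (Metric.closedBall z r)
      = ENNReal.ofReal ((l : ℝ) ^ (1 + κ / 8)) *
        mu κ (ε / l) c1 (driving κ (sclB B l) ω) (t / l ^ 2)
          (Metric.closedBall (z / (l : ℝ)) (r / l)) := by
  rw [← scl_driving]
  exact mu_closedBall_scl (NNReal.coe_pos.2 hl) z r

theorem mu_ball_driving (B : ℝ≥0 → Ω → ℝ) {l : ℝ≥0} (hl : 0 < l) (ω : Ω) (z : ℂ) (r : ℝ) :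
    mu κ ε c1 (driving κ B ω) t (Metric.ball z r)
      = ENNReal.ofReal ((l : ℝ) ^ (1 + κ / 8)) *
        mu κ (ε / l) c1 (driving κ (sclB B l) ω) (t / l ^ 2)
          (Metric.ball (z / (l : ℝ)) (r / l)) := by
  rw [← scl_driving]
  exact mu_ball_scl (NNReal.coe_pos.2 hl) z r

end phys

end Crest.Agent.R162.LBScale
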