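import Crest.Agent.R162.LB8s
import Crest.Agent.R162.LBDefs
import Crest.Agent.R162.UBDefs
import Crest.Agent.R162.LBScale
import Crest.Agent.R162.LBSkel

/-!
Row 162, node LB8s, concrete form: `TailN` (final form of LB7c, note 15162) ⟹ tail field of `LBIn`.
-/

set_option autoImplicit false

namespace Crest.Agent.R162.LB8s

open Crest.ProbabilityR.Loewner MeasureTheory ProbabilityTheory Set Filter Topology Metric
open scoped ENNReal NNReal
open Crest.Agent.R162.GM Crest.Agent.R162.OS Crest.Agent.R162.FL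
open Crest.Agent.R162.LB8 (Q0)

universe u

/-- normalised ball tail with free constants. -/
def NormG (κ : ℝ) (m : CF) (Cμ C M K N0 : ℝ) : Prop :=
    ∀ (Ω : Type u) [MeasurableSpace Ω] (P : Measure Ω) [IsProbabilityMeasure P]
      (F : Filtration ℝ≥0 (inferInstance : MeasurableSpace Ω)) (B : ℝ≥0 → Ω → ℝ)
      (_ : IsBM F B P) (N : ℝ), N0 ≤ N → ∀ ε : ℝ, 0 < ε → M * ε ≤ 1 → ∀ (t : ℝ≥0) (w0 : ℂ),
      K * Real.sqrt N ≤ w0.im → ‖w0‖ ≤ 2 * w0.im →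
      ∫⁻ ω in {ω | ENNReal.ofReal (Cμ * N) <
            m ε (driving κ B ω) t (closedBall w0 (Real.sqrt N))},
          m ε (driving κ B ω) t (closedBall w0 (Real.sqrt N)) ∂P ≤
        ENNReal.ofReal (C * Real.exp (-(2 * N)) * N * G0 κ w0)

/-- the physical ball tail. -/
theorem ball_tailG {κ : ℝ} (hκ : 0 < κ) (hκ8 : κ < 8) {m : CF} (hbm : BMScale.{u})
    (hs : Scales κ m) {Cm C3 M K N0 : ℝ} (hC : 0 < C3) (hM0 : 0 < M) (hKt : 0 < K)
    (hN : NormG.{u} κ m Cm C3 M K N0) :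
    ∃ r1 : ℝ, 0 < r1 ∧ r1 ≤ m0 ∧
    ∀ (Ω : Type u) [MeasurableSpace Ω] (P : Measure Ω) [IsProbabilityMeasure P]
      (F : Filtration ℝ≥0 (inferInstance : MeasurableSpace Ω)) (B : ℝ≥0 → Ω → ℝ)
      (_ : IsBM F B P) (ε : ℝ) (_ : 0 < ε) (n : ℝ≥0),
      ∀ z ∈ Q0, ∀ r, 0 < r → r ≤ r1 → M * ε * Real.sqrt (L r) ≤ r →
        ∫⁻ ω in {ω | ENNReal.ofReal (Cm * gaugeReal κ r) <
              m ε (driving κ B ω) n (closedBall z r)},
            m ε (driving κ B ω) n (closedBall z r) ∂P ≤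
          ENNReal.ofReal (C3 * (Real.log (1 / r) ^ 2)⁻¹ * r ^ 2) := by
  refine ⟨min (min m0 (1 / K)) (Real.exp (-Real.exp N0)), lt_min
    (lt_min m0_pos (by positivity)) (Real.exp_pos _), (min_le_left _ _).trans (min_le_left _ _), ?_⟩
  intro Ω _ P _ F B hB ε hε n z hz r hr hr1 hM
  have hrm : r ≤ m0 := (hr1.trans (min_le_left _ _)).trans (min_le_left _ _)
  have hrK : r ≤ 1 / K := (hr1.trans (min_le_left _ _)).trans (min_le_right _ _)
  have hrN : r ≤ Real.exp (-Real.exp N0) := hr1.trans (min_le_right _ _)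
  set N : ℝ := L r with hNdef
  have hN1 : 1 ≤ N := L_ge_one hr hrm
  have hNN0 : N0 ≤ N := by
    have h1 : Real.exp N0 ≤ Real.log (1 / r) := by
      rw [one_div, Real.log_inv]
      have := Real.log_le_log hr hrN
      rw [Real.log_exp] at this
      linarith
    have h2 := Real.log_le_log (Real.exp_pos _) h1
    rwa [Real.log_exp] at h2
  have hN0 : 0 < N := by linarith
  have hsN : 0 < Real.sqrt N := Real.sqrt_pos.2 hN0
  have hsN2 : Real.sqrt N ^ 2 = N := Real.sq_sqrt hN0.le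
  set l : ℝ≥0 := ⟨r / Real.sqrt N, by positivity⟩ with hl
  have hlr : (l : ℝ) = r / Real.sqrt N := rfl
  have hl0 : (0 : ℝ) < l := by rw [hlr]; positivity
  have hl0' : 0 < l := by exact_mod_cast hl0
  have hrl : r / l = Real.sqrt N := by rw [hlr]; field_simp
  have hz1 : 1 ≤ z.im := hz.2.2.1
  have hd := dim_gt hκ
  obtain ⟨F', hB'⟩ := hbm Ω P F B hB l hl0'
  -- scaling of the content
  have hsc : ∀ ω, m ε (driving κ B ω) n (closedBall z r) =
      ENNReal.ofReal ((l : ℝ) ^ dimParam κ) *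
        m (ε / l) (driving κ (fun t ω => (l : ℝ)⁻¹ * B (l ^ 2 * t) ω) ω) ((n / l ^ 2 : ℝ≥0) : ℝ)
          (closedBall (z / (l : ℝ)) (Real.sqrt N)) := by
    intro ω
    rw [hs l ε n r (driving κ B ω) z (driving_cont (hB.cont ω)) hl0 hε n.2, driving_scl, hrl]
    simp
  have hdl : (0 : ℝ) < (l : ℝ) ^ dimParam κ := Real.rpow_pos_of_pos hl0 _
  have hgauge : gaugeReal κ r = (l : ℝ) ^ dimParam κ * N := by
    rw [gaugeReal_small hrm, ← hNdef, hlr, Real.div_rpow hr.le hsN.le, Real.sqrt_eq_rpow,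
      ← Real.rpow_mul hN0.le, div_mul_eq_mul_div, mul_div_assoc]
    congr 1
    rw [show (2 - dimParam κ) / 2 = 1 - 1 / 2 * dimParam κ by ring, Real.rpow_sub hN0,
      Real.rpow_one]
  -- the events agree
  have hset : {ω | ENNReal.ofReal (Cm * gaugeReal κ r) <
        m ε (driving κ B ω) n (closedBall z r)} =
      {ω | ENNReal.ofReal (Cm * N) <
        m (ε / l) (driving κ (fun t ω => (l : ℝ)⁻¹ * B (l ^ 2 * t) ω) ω) ((n / l ^ 2 : ℝ≥0) : ℝ)
          (closedBall (z / (l : ℝ)) (Real.sqrt N))} := by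
    ext ω
    simp only [mem_ofPred_eq]
    rw [hsc ω, hgauge, show Cm * ((l : ℝ) ^ dimParam κ * N) = (l : ℝ) ^ dimParam κ * (Cm * N) by
      ring, ENNReal.ofReal_mul hdl.le]
    exact ENNReal.mul_lt_mul_iff_right (ENNReal.ofReal_pos.2 hdl).ne' ENNReal.ofReal_ne_top
  rw [hset]
  simp_rw [hsc]
  rw [lintegral_const_mul' _ _ ENNReal.ofReal_ne_top]
  have hεl : M * (ε / l) ≤ 1 := by
    rw [mul_div_assoc', div_le_one hl0, hlr, le_div_iff₀ hsN]
    exact hM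
  have him : (z / ((l : ℝ) : ℂ)).im = z.im / l := by rw [Complex.div_ofReal_im]
  have hnz : ‖z / ((l : ℝ) : ℂ)‖ = ‖z‖ / l := by
    rw [norm_div, Complex.norm_real, Real.norm_of_nonneg hl0.le]
  have h7 := hN Ω P F' (fun t ω => (l : ℝ)⁻¹ * B (l ^ 2 * t) ω) hB' N hNN0 (ε / l) (by positivity)
    hεl (n / l ^ 2) (z / (l : ℝ)) ?_ ?_
  · refine (mul_le_mul_right h7 _).trans ?_
    rw [← ENNReal.ofReal_mul hdl.le]
    refine ENNReal.ofReal_le_ofReal ?_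
    rw [G0_div z hl0 (by linarith)]
    have hexp : Real.exp (-(2 * N)) = (Real.log (1 / r) ^ 2)⁻¹ := by
      have hlog : 0 < Real.log (1 / r) := (Real.exp_pos 1).trans_le (log_one_div_ge hr hrm)
      have : Real.exp N = Real.log (1 / r) := by rw [hNdef, L, Real.exp_log hlog]
      rw [← this, ← Real.exp_nat_mul, ← Real.exp_neg]
      congr 1
    have hl2 : (l : ℝ) ^ dimParam κ * (l : ℝ) ^ (1 - κ / 8) = (l : ℝ) ^ 2 := by
      rw [← Real.rpow_add hl0, ← Real.rpow_natCast]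
      congr 1
      unfold dimParam; push_cast; ring
    have hl2N : (l : ℝ) ^ 2 * N = r ^ 2 := by
      rw [hlr, div_pow, hsN2]; field_simp
    have hG := G0_le_one hκ hκ8 hz1
    have hG0 : 0 ≤ G0 κ z := G0_nonneg (by linarith)
    calc (l : ℝ) ^ dimParam κ * (C3 * Real.exp (-(2 * N)) * N * ((l : ℝ) ^ (1 - κ / 8) * G0 κ z))
        = C3 * Real.exp (-(2 * N)) * (((l : ℝ) ^ dimParam κ * (l : ℝ) ^ (1 - κ / 8)) * N) *
            G0 κ z := by ring
      _ = C3 * (Real.log (1 / r) ^ 2)⁻¹ * r ^ 2 * G0 κ z := by rw [hl2, hl2N, hexp]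
      _ ≤ C3 * (Real.log (1 / r) ^ 2)⁻¹ * r ^ 2 * 1 := by gcongr
      _ = _ := by ring
  · rw [him, le_div_iff₀ hl0, hlr]
    have : K * Real.sqrt N * (r / Real.sqrt N) = K * r := by field_simp
    rw [this]
    have h1 : K * r ≤ K * (1 / K) := by gcongr
    have h2 : K * (1 / K) = 1 := by field_simp
    linarith
  · rw [him, hnz, mul_div_assoc']
    have := norm_le_of_mem hz
    exact div_le_div_of_nonneg_right (by linarith) hl0.le


/-- the content measure of `LBDefs` as a content functional. -/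
noncomputable def cfMu (κ c1 : ℝ) : CF := fun ε W t V => LB.mu κ ε c1 W t V

theorem bmScale : BMScale.{u} := fun _ _ _ _ _ _ hB _ hl => ⟨_, LBScale.isBM_scl hB hl⟩

theorem scales_mu (κ c1 : ℝ) : Scales κ (cfMu κ c1) := by
  intro l ε t r W z _ hl _ _
  exact LBScale.mu_closedBall_scl hl z r

/-- the tail field of `LBIn`, from `TailN`. -/
theorem tail_of {κ c1 : ℝ} (hκ : 0 < κ) (hκ8 : κ < 8)
    (hT : ∃ (Cμ C M K N0 : ℝ), 0 < Cμ ∧ 0 < C ∧ 0 < M ∧ 1 ≤ K ∧ 1 ≤ N0 ∧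
      ∀ (Ω : Type u) [MeasurableSpace Ω] (P : Measure Ω) [IsProbabilityMeasure P]
        (F : Filtration ℝ≥0 (inferInstance : MeasurableSpace Ω)) (B : ℝ≥0 → Ω → ℝ),
        OS.IsBM F B P → ∀ N : ℝ, N0 ≤ N → ∀ ε : ℝ, 0 < ε → M * ε ≤ 1 → ∀ T : ℝ≥0, ∀ w0 : ℂ,
        K * Real.sqrt N ≤ w0.im → ‖w0‖ ≤ 2 * w0.im →
        ∫⁻ ω in {ω | ENNReal.ofReal (Cμ * N) <
              LB.mu κ ε c1 (driving κ B ω) T (closedBall w0 (Real.sqrt N))},
            LB.mu κ ε c1 (driving κ B ω) T (closedBall w0 (Real.sqrt N)) ∂P ≤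
          ENNReal.ofReal (C * Real.exp (-(2 * N)) * N * UB.green κ w0)) :
    ∃ M Cm C3 r1 : ℝ, 0 < M ∧ 0 < r1 ∧ ∀ (Ω : Type u) [MeasurableSpace Ω] (P : Measure Ω)
      [IsProbabilityMeasure P]
      (F : Filtration ℝ≥0 (inferInstance : MeasurableSpace Ω)) (B : ℝ≥0 → Ω → ℝ)
      (_ : IsBM F B P) (n : ℝ≥0) (ε : ℝ) (_ : 0 < ε),
      ∀ z ∈ Q0, ∀ r, 0 < r → r ≤ r1 → M * ε * Real.sqrt (L r) ≤ r →
        ∫⁻ ω in {ω | ENNReal.ofReal (Cm * gaugeReal κ r) <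
              LB.mu κ ε c1 (driving κ B ω) n (closedBall z r)},
            LB.mu κ ε c1 (driving κ B ω) n (closedBall z r) ∂P ≤
          ENNReal.ofReal (C3 * (Real.log (1 / r) ^ 2)⁻¹ * r ^ 2) := by
  obtain ⟨Cμ, C, M, K, N0, h1, h2, h3, h4, h5, h6⟩ := hT
  have h7 : NormG.{u} κ (cfMu κ c1) Cμ C M K N0 := by
    intro Ω _ P _ F B hB N hN ε hε hM t w0 hK hw
    exact h6 Ω P F B hB N hN ε hε hM t w0 hK hw
  obtain ⟨r1, hr1, -, h8⟩ := ball_tailG hκ hκ8 bmScale (scales_mu κ c1) h2 h3 (by linarith) h7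
  exact ⟨M, Cμ, C, r1, h3, hr1, fun Ω _ P _ F B hB n ε hε => h8 Ω P F B hB ε hε n⟩

/-- the tail field of `LBIn`, from 310's frozen `Frost7`. -/
theorem tail_of_frost7 {κ c1 : ℝ} (hκ : 0 < κ) (hκ8 : κ < 8) (hT : LBS.Frost7.{u} κ c1) :
    ∃ M Cm C3 r1 : ℝ, 0 < M ∧ 0 < r1 ∧ ∀ (Ω : Type u) [MeasurableSpace Ω] (P : Measure Ω)
      [IsProbabilityMeasure P]
      (F : Filtration ℝ≥0 (inferInstance : MeasurableSpace Ω)) (B : ℝ≥0 → Ω → ℝ)
      (_ : IsBM F B P) (n : ℝ≥0) (ε : ℝ) (_ : 0 < ε),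
      ∀ z ∈ Q0, ∀ r, 0 < r → r ≤ r1 → M * ε * Real.sqrt (L r) ≤ r →
        ∫⁻ ω in {ω | ENNReal.ofReal (Cm * gaugeReal κ r) <
              LB.mu κ ε c1 (driving κ B ω) n (closedBall z r)},
            LB.mu κ ε c1 (driving κ B ω) n (closedBall z r) ∂P ≤
          ENNReal.ofReal (C3 * (Real.log (1 / r) ^ 2)⁻¹ * r ^ 2) := by
  obtain ⟨Cμ, C, K, ε0, h1, h2, h4, h5, h6⟩ := hT (1 / 2) (by norm_num)
  refine tail_of hκ hκ8 ⟨Cμ, C, 1 / ε0, max K 1, 1, h1, h2, by positivity, le_max_right _ _,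
    le_rfl, ?_⟩
  intro Ω _ P _ F B hB N hN ε hε hM T w0 hK hw
  have h7 := h6 N w0 ε hN ((mul_le_mul_of_nonneg_right (le_max_left _ _)
    (Real.sqrt_nonneg _)).trans hK) (by linarith) hε ?_ Ω P F B hB T
  · have e1 : -2 * N = -(2 * N) := by ring
    rw [e1] at h7
    exact h7
  · rwa [one_div, inv_mul_le_one₀ h5] at hM

end Crest.Agent.R162.LB8s
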