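import Mathlib
import Crest.Prelude.Def_Loewner

/-!
Row 162, node LBA: approximate mass distribution principle for the gauge measure
(compactness, no weak limits), and limsup events / Paley-Zygmund.
-/

set_option autoImplicit false

namespace Crest.Agent.R162.LBA

open MeasureTheory Filter Topology Set Metric
open Crest.ProbabilityR.Loewner
open scoped ENNReal

/-! ### continuity of the gauge -/

/-- the cut-off radius -/
noncomputable def E0 : ℝ := Real.exp (-Real.exp 1)

lemma E0_pos : 0 < E0 := Real.exp_pos _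

/-- the formula part of the gauge -/
noncomputable def F (κ y : ℝ) : ℝ :=
  y ^ dimParam κ * Real.log (Real.log (1 / y)) ^ ((2 - dimParam κ) / 2)

lemma gaugeReal_eq (κ x : ℝ) : gaugeReal κ x = F κ (min x E0) := rfl

lemma dim_pos {κ : ℝ} (hκ : 0 < κ) : 0 < dimParam κ := by
  unfold dimParam; positivity

lemma F_zero {κ : ℝ} (hκ : 0 < κ) : F κ 0 = 0 := by
  unfold F
  rw [Real.zero_rpow (dim_pos hκ).ne', zero_mul]

lemma gaugeReal_zero {κ : ℝ} (hκ : 0 < κ) : gaugeReal κ 0 = 0 := by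
  rw [gaugeReal_eq, min_eq_left E0_pos.le, F_zero hκ]

lemma log_inv_ge {y : ℝ} (hy : 0 < y) (hyE : y ≤ E0) : Real.exp 1 ≤ Real.log (1 / y) := by
  rw [one_div, Real.log_inv]
  have := Real.log_le_log hy hyE
  unfold E0 at this
  rw [Real.log_exp] at this
  linarith

lemma loglog_ge {y : ℝ} (hy : 0 < y) (hyE : y ≤ E0) : 1 ≤ Real.log (Real.log (1 / y)) := by
  have h := log_inv_ge hy hyE
  have := Real.log_le_log (Real.exp_pos 1) h
  rwa [Real.log_exp] at this

lemma F_nonneg {κ y : ℝ} (hy : 0 ≤ y) (hyE : y ≤ E0) : 0 ≤ F κ y := by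
  rcases hy.eq_or_lt with h | h
  · subst h
    unfold F
    have h1 : (0:ℝ) ≤ Real.log (Real.log (1 / 0)) := by simp
    exact mul_nonneg (Real.rpow_nonneg le_rfl _) (Real.rpow_nonneg h1 _)
  · unfold F
    exact mul_nonneg (Real.rpow_nonneg hy _)
      (Real.rpow_nonneg (zero_le_one.trans (loglog_ge h hyE)) _)

lemma gaugeReal_nonneg {κ x : ℝ} (hx : 0 ≤ x) : 0 ≤ gaugeReal κ x := by
  rw [gaugeReal_eq]
  exact F_nonneg (le_min hx E0_pos.le) (min_le_right _ _)

lemma F_le {κ y : ℝ} (hκ : 0 < κ) (hκ8 : κ < 8) (hy : 0 < y) (hyE : y ≤ E0) :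
    F κ y ≤ -(Real.log y * y ^ dimParam κ) := by
  have h1 := loglog_ge hy hyE
  have h2 := log_inv_ge hy hyE
  have he0 : 0 ≤ (2 - dimParam κ) / 2 := by unfold dimParam; linarith
  have he1 : (2 - dimParam κ) / 2 ≤ 1 := by unfold dimParam; linarith
  have hL : 0 < Real.log (1 / y) := (Real.exp_pos 1).trans_le h2
  have h3 : Real.log (Real.log (1 / y)) ^ ((2 - dimParam κ) / 2) ≤ Real.log (1 / y) := by
    calc Real.log (Real.log (1 / y)) ^ ((2 - dimParam κ) / 2)
        ≤ Real.log (Real.log (1 / y)) ^ (1 : ℝ) := Real.rpow_le_rpow_of_exponent_le h1 he1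
      _ = Real.log (Real.log (1 / y)) := Real.rpow_one _
      _ ≤ Real.log (1 / y) := by
          have := Real.log_le_sub_one_of_pos hL
          linarith
  unfold F
  calc y ^ dimParam κ * Real.log (Real.log (1 / y)) ^ ((2 - dimParam κ) / 2)
      ≤ y ^ dimParam κ * Real.log (1 / y) :=
        mul_le_mul_of_nonneg_left h3 (Real.rpow_nonneg hy.le _)
    _ = -(Real.log y * y ^ dimParam κ) := by
        rw [one_div, Real.log_inv]; ring

lemma F_continuousOn {κ : ℝ} (hκ : 0 < κ) (hκ8 : κ < 8) : ContinuousOn (F κ) (Icc 0 E0) := by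
  intro y hy
  rcases hy.1.eq_or_lt with h | h
  · subst h
    have hlim : Tendsto (F κ) (𝓝[>] 0) (𝓝 0) := by
      have h1 : Tendsto (fun x : ℝ => -(Real.log x * x ^ dimParam κ)) (𝓝[>] 0) (𝓝 0) := by
        simpa using (tendsto_log_mul_rpow_nhdsGT_zero (dim_pos hκ)).neg
      refine tendsto_of_tendsto_of_tendsto_of_le_of_le' tendsto_const_nhds h1 ?_ ?_
      · have : ∀ᶠ x : ℝ in 𝓝[>] 0, x ≤ E0 :=
          nhdsWithin_le_nhds (Iic_mem_nhds E0_pos)
        filter_upwards [this, self_mem_nhdsWithin] with x hx hx0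
        exact F_nonneg (le_of_lt hx0) hx
      · have : ∀ᶠ x : ℝ in 𝓝[>] 0, x ≤ E0 :=
          nhdsWithin_le_nhds (Iic_mem_nhds E0_pos)
        filter_upwards [this, self_mem_nhdsWithin] with x hx hx0
        exact F_le hκ hκ8 hx0 hx
    have h2 : Tendsto (F κ) (𝓝[≥] 0) (𝓝 (F κ 0)) := by
      have : (Ici (0:ℝ)) = insert 0 (Ioi 0) := by
        ext x; simp [le_iff_lt_or_eq, or_comm, eq_comm]
      rw [this, nhdsWithin_insert]
      refine Tendsto.sup (tendsto_pure_nhds _ _) ?_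
      rwa [F_zero hκ]
    exact ContinuousWithinAt.mono (s := Icc 0 E0) (t := Ici 0) h2 Icc_subset_Ici_self
  · have h1 := loglog_ge h hy.2
    have h2 := log_inv_ge h hy.2
    have hy0 : y ≠ 0 := h.ne'
    have hc : ContinuousAt (F κ) y := by
      unfold F
      refine ContinuousAt.mul (Real.continuousAt_rpow_const _ _ (Or.inl hy0)) ?_
      have hinv : ContinuousAt (fun y : ℝ => 1 / y) y := by
        simp only [one_div]; exact continuousAt_inv₀ hy0
      have hl1 : ContinuousAt (fun y : ℝ => Real.log (1 / y)) y :=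
        hinv.log (by positivity)
      have hl2 : ContinuousAt (fun y : ℝ => Real.log (Real.log (1 / y))) y :=
        hl1.log ((Real.exp_pos 1).trans_le h2).ne'
      exact hl2.rpow_const (Or.inl (zero_lt_one.trans_le h1).ne')
    exact hc.continuousWithinAt

lemma gaugeReal_continuousOn {κ : ℝ} (hκ : 0 < κ) (hκ8 : κ < 8) :
    ContinuousOn (gaugeReal κ) (Ici 0) := by
  have : gaugeReal κ = F κ ∘ (fun x => min x E0) := rfl
  rw [this]
  refine (F_continuousOn hκ hκ8).comp (by fun_prop) ?_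
  intro x hx
  exact ⟨le_min hx E0_pos.le, min_le_right _ _⟩

/-- For every `D ≥ 0` and `η > 0` there is `ρ > D`, as close to `D` as we like, with
`gauge ρ ≤ gauge D + η`. -/
lemma exists_radius {κ : ℝ} (hκ : 0 < κ) (hκ8 : κ < 8) {D η δ : ℝ} (hD : 0 ≤ D) (hη : 0 < η)
    (hδ : 0 < δ) : ∃ ρ, D < ρ ∧ ρ ≤ D + δ ∧ gaugeReal κ ρ ≤ gaugeReal κ D + η := by
  have hc := gaugeReal_continuousOn hκ hκ8 D hD
  rw [Metric.continuousWithinAt_iff] at hc
  obtain ⟨δ', hδ', h⟩ := hc η hη
  have hm : 0 < min (δ' / 2) δ := lt_min (by positivity) hδ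
  refine ⟨D + min (δ' / 2) δ, by linarith, by linarith [min_le_right (δ' / 2) δ], ?_⟩
  have h1 : dist (D + min (δ' / 2) δ) D < δ' := by
    rw [Real.dist_eq, add_sub_cancel_left, abs_of_pos hm]
    linarith [min_le_left (δ' / 2) δ]
  have h2 := h (show D + min (δ' / 2) δ ∈ Ici 0 from by simp only [mem_Ici]; linarith) h1
  rw [Real.dist_eq] at h2
  linarith [(abs_lt.1 h2).2]

/-! ### the approximate mass distribution principle -/

theorem gaugeMeasure_ge_of_approx' {κ : ℝ} (hκ : 0 < κ) (hκ8 : κ < 8) {K : Set ℂ}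
    (hK : IsCompact K) {μ : ℕ → Measure ℂ} {eps : ℕ → ℝ} (heps : Tendsto eps atTop (𝓝 0))
    {C r0 : ℝ} {c : ℝ≥0∞} (hC : 0 < C) (hr0 : 0 < r0)
    (hsupp : ∀ n, μ n (Metric.thickening (eps n) K)ᶜ = 0)
    (hball : ∀ n x r, eps n ≤ r → r ≤ r0 →
      μ n (Metric.closedBall x r) ≤ ENNReal.ofReal (C * gaugeReal κ r))
    (hmass : ∃ᶠ n in atTop, c ≤ μ n univ) :
    c / ENNReal.ofReal C ≤ gaugeMeasure κ K := by
  unfold gaugeMeasure
  rw [Measure.mkMetric_apply]
  refine le_trans ?_ (le_iSup₂ (ENNReal.ofReal (r0 / 2)) (by simpa using hr0))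
  refine le_iInf fun t => le_iInf fun ht => le_iInf fun htd => ?_
  refine ENNReal.le_of_forall_pos_le_add fun η hη _ => ?_
  obtain ⟨ε', hε'pos, hε'sum⟩ := ENNReal.exists_pos_sum_of_countable
    (ENNReal.coe_pos.2 hη).ne' ℕ
  -- the radii
  have hfin : ∀ n, ediam (t n) ≠ ⊤ := fun n => ne_top_of_le_ne_top ENNReal.ofReal_ne_top (htd n)
  have hDle : ∀ n, (ediam (t n)).toReal ≤ r0 / 2 := fun n => by
    have := ENNReal.toReal_mono ENNReal.ofReal_ne_top (htd n)
    rwa [ENNReal.toReal_ofReal (by positivity)] at this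
  have hrad : ∀ n, ∃ ρ, (ediam (t n)).toReal < ρ ∧ ρ ≤ (ediam (t n)).toReal + r0 / 2 ∧
      gaugeReal κ ρ ≤ gaugeReal κ (ediam (t n)).toReal + ε' n := fun n =>
    exists_radius hκ hκ8 ENNReal.toReal_nonneg (by exact_mod_cast hε'pos n) (by positivity)
  choose ρ hρ1 hρ2 hρ3 using hrad
  have hρpos : ∀ n, 0 < ρ n := fun n => ENNReal.toReal_nonneg.trans_lt (hρ1 n)
  -- the open balls
  classical
  let O : ℕ → Set ℂ := fun n =>
    if h : (t n).Nonempty then Metric.ball h.some (ρ n) else ∅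
  have hOopen : ∀ n, IsOpen (O n) := fun n => by
    by_cases h : (t n).Nonempty
    · simp only [O, h, dif_pos]; exact Metric.isOpen_ball
    · simp only [O, h]; exact isOpen_empty
  have htO : ∀ n, t n ⊆ O n := fun n y hy => by
    have h : (t n).Nonempty := ⟨y, hy⟩
    simp only [O, h, dif_pos, Metric.mem_ball]
    have h1 : edist y h.some ≤ ediam (t n) := edist_le_ediam_of_mem hy h.some_mem
    have h2 := ENNReal.toReal_mono (hfin n) h1
    rw [edist_dist, ENNReal.toReal_ofReal dist_nonneg] at h2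
    exact h2.trans_lt (hρ1 n)
  have hKO : K ⊆ ⋃ n, O n := ht.trans (iUnion_mono htO)
  obtain ⟨S, hS⟩ := hK.elim_finite_subcover O hOopen hKO
  have hUopen : IsOpen (⋃ i ∈ S, O i) := isOpen_biUnion fun i _ => hOopen i
  obtain ⟨δ, hδ, hthick⟩ := hK.exists_thickening_subset_open hUopen hS
  obtain ⟨m, hm, hmle⟩ : ∃ m : ℝ, 0 < m ∧ ∀ i ∈ S, m ≤ ρ i := by
    rcases S.eq_empty_or_nonempty with h | h
    · exact ⟨1, one_pos, by simp [h]⟩
    · obtain ⟨i, _, hi⟩ := S.exists_min_image ρ h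
      exact ⟨ρ i, hρpos i, hi⟩
  have hev : ∀ᶠ n in atTop, eps n < min δ m :=
    heps.eventually (Iio_mem_nhds (lt_min hδ hm))
  obtain ⟨n, hnmass, hneps⟩ := (hmass.and_eventually hev).exists
  -- the estimate
  have hub : ∀ i ∈ S, μ n (O i) ≤
      ENNReal.ofReal C * ((⨆ _ : (t i).Nonempty, gaugeExt κ (ediam (t i))) + ε' i) := by
    intro i hi
    by_cases h : (t i).Nonempty
    · simp only [O, h, dif_pos, ciSup_pos]
      calc μ n (Metric.ball h.some (ρ i))
          ≤ μ n (Metric.closedBall h.some (ρ i)) := measure_mono Metric.ball_subset_closedBall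
        _ ≤ ENNReal.ofReal (C * gaugeReal κ (ρ i)) := by
            refine hball n _ _ ?_ ?_
            · exact (hneps.le.trans (min_le_right _ _)).trans (hmle i hi)
            · linarith [hρ2 i, hDle i]
        _ = ENNReal.ofReal C * ENNReal.ofReal (gaugeReal κ (ρ i)) :=
            ENNReal.ofReal_mul hC.le
        _ ≤ ENNReal.ofReal C * (ENNReal.ofReal (gaugeReal κ (ediam (t i)).toReal) + ε' i) := by
            gcongr
            calc ENNReal.ofReal (gaugeReal κ (ρ i))
                ≤ ENNReal.ofReal (gaugeReal κ (ediam (t i)).toReal + ε' i) :=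
                  ENNReal.ofReal_le_ofReal (hρ3 i)
              _ ≤ ENNReal.ofReal (gaugeReal κ (ediam (t i)).toReal) + ENNReal.ofReal (ε' i) :=
                  ENNReal.ofReal_add_le
              _ = _ := by rw [ENNReal.ofReal_coe_nnreal]
        _ = _ := rfl
    · simp [O, h]
  have hmain : c ≤ ENNReal.ofReal C *
      ((∑' i, ⨆ _ : (t i).Nonempty, gaugeExt κ (ediam (t i))) + η) := by
    calc c ≤ μ n univ := hnmass
      _ ≤ μ n (Metric.thickening (eps n) K) + μ n (Metric.thickening (eps n) K)ᶜ := by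
          rw [← union_compl_self (Metric.thickening (eps n) K)]
          exact measure_union_le _ _
      _ = μ n (Metric.thickening (eps n) K) := by rw [hsupp n, add_zero]
      _ ≤ μ n (⋃ i ∈ S, O i) := measure_mono
          ((Metric.thickening_mono (hneps.le.trans (min_le_left _ _)) K).trans hthick)
      _ ≤ ∑ i ∈ S, μ n (O i) := measure_biUnion_finset_le S O
      _ ≤ ∑ i ∈ S, ENNReal.ofReal C *
            ((⨆ _ : (t i).Nonempty, gaugeExt κ (ediam (t i))) + ε' i) :=
          Finset.sum_le_sum hub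
      _ = ENNReal.ofReal C * ∑ i ∈ S,
            ((⨆ _ : (t i).Nonempty, gaugeExt κ (ediam (t i))) + ε' i) := by
          rw [Finset.mul_sum]
      _ ≤ ENNReal.ofReal C * ∑' i,
            ((⨆ _ : (t i).Nonempty, gaugeExt κ (ediam (t i))) + ε' i) := by
          gcongr; exact ENNReal.sum_le_tsum S
      _ ≤ ENNReal.ofReal C *
            ((∑' i, ⨆ _ : (t i).Nonempty, gaugeExt κ (ediam (t i))) + η) := by
          rw [ENNReal.tsum_add]; gcongr
  have hC0 : ENNReal.ofReal C ≠ 0 := by simpa using hC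
  exact ENNReal.div_le_of_le_mul' hmain

theorem gaugeMeasure_ge_of_approx {κ : ℝ} (hκ : 0 < κ) (hκ8 : κ < 8) {K : Set ℂ}
    (hK : IsCompact K) {μ : ℕ → Measure ℂ} {eps : ℕ → ℝ} (heps : Tendsto eps atTop (𝓝 0))
    {C c r0 : ℝ} (hC : 0 < C) (hr0 : 0 < r0)
    (hsupp : ∀ n, μ n (Metric.thickening (eps n) K)ᶜ = 0)
    (hball : ∀ n x r, eps n ≤ r → r ≤ r0 →
      μ n (Metric.closedBall x r) ≤ ENNReal.ofReal (C * gaugeReal κ r))
    (hmass : ∃ᶠ n in atTop, ENNReal.ofReal c ≤ μ n univ) :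
    ENNReal.ofReal (c / C) ≤ gaugeMeasure κ K := by
  rw [ENNReal.ofReal_div_of_pos hC]
  exact gaugeMeasure_ge_of_approx' hκ hκ8 hK heps hC hr0 hsupp hball hmass

end Crest.Agent.R162.LBA
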