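import Crest.Agent.R162.LBStepIn
import Crest.Agent.R162.LB2c

/-!
Row 162, node STEP (helper261, with helper561): probability bookkeeping of one step: from the
window estimates (`E2`, `E3`, `EZ`) to `T > 0` a.s., finiteness and exponential moment of the new
potential, and smallness of the event "`T₂` or `T₃` before `T₁`".
-/

set_option autoImplicit false

open MeasureTheory ProbabilityTheory Set Filter Topology Complex
open scoped NNReal ENNReal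

namespace Crest.Agent.R162.LBBook

open Crest.Agent.R162.LB Crest.Agent.R162.LBStep

/-- the pathwise facts about the step time `T` used by the bookkeeping -/
structure PathFacts (p : LB.Par) (f : ℂ → ℂ) (W : ℝ → ℝ) : Prop where
  pos : 0 < p.T f W → 0 < rad W (p.T f W)
  le : 0 < p.T f W → rad W (p.T f W) ≤ p.rho1 f
  nb2 : 0 < p.T f W → ¬ p.Bad2 f W (p.T f W)
  low : 0 < p.T f W → rad W (p.T f W) < p.rho1 f → ∀ k : ℤ, (2 : ℝ) ^ k ≤ rad W (p.T f W) →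
    rad W (p.T f W) < (2 : ℝ) ^ (k + 1) → E2 p f W k ∨ E3 p f W k ∨ E3 p f W (k - 1)
  zero : p.T f W = 0 → ∀ K : ℤ, ∃ k ≤ K, E2 p f W k ∨ E3 p f W k
  bad : ∀ s, 0 < s → rad W s ≤ p.rho1 f → (p.Bad2 f W s ∨ ∃ k, p.Bad3 f W s k) →
    ∃ k : ℤ, (2 : ℝ) ^ k ≤ p.rho1 f ∧ (E2 p f W k ∨ E3 p f W k)

/-- the new potential at the end of the step -/
noncomputable def Zt (p : LB.Par) (f : ℂ → ℂ) (W : ℝ → ℝ) : ℝ≥0∞ :=
  Jv p.u0 p.q (LB.Par.st f W (p.T f W)) (10 * rad W (p.T f W))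

/-- the estimates in the windows -/
structure Windows {Ω : Type*} [MeasurableSpace Ω] (P : Measure Ω) (p : LB.Par) (f : ℂ → ℂ)
    (W : Ω → ℝ → ℝ) (C2 C3 C a s : ℝ) : Prop where
  rho : 0 < p.rho1 f
  cs : 0 < p.cs
  hC2 : 0 ≤ C2
  hC3 : 0 ≤ C3
  hC : 0 ≤ C
  ha : 0 < a
  hs : 0 ≤ s
  v_pos : ∀ k : ℤ, (2 : ℝ) ^ k ≤ p.rho1 f → 0 < vv p.u0 f ((2 : ℝ) ^ k)
  v_le : ∀ k : ℤ, (2 : ℝ) ^ k ≤ p.rho1 f → vv p.u0 f ((2 : ℝ) ^ k) ≤ 1
  h2 : ∀ k : ℤ, (2 : ℝ) ^ k ≤ p.rho1 f →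
    P {ω | E2 p f (W ω) k} ≤ ENNReal.ofReal (C2 * vv p.u0 f (2 ^ k) ^ p.cs)
  h3 : ∀ k : ℤ, (2 : ℝ) ^ k ≤ p.rho1 f →
    P {ω | E3 p f (W ω) k} ≤ ENNReal.ofReal (C3 * vv p.u0 f (2 ^ k) ^ (p.cs / 2))
  hz : ∀ (k : ℤ) (n : ℕ), (2 : ℝ) ^ k ≤ p.rho1 f →
    P {ω | EZ p f (W ω) k n} ≤ ENNReal.ofReal (C * Real.exp (-(a * n)))
  hsum : ∑' k : ℤ, (if (2 : ℝ) ^ k ≤ p.rho1 f then
    ENNReal.ofReal (vv p.u0 f ((2 : ℝ) ^ k) ^ (p.cs / 4)) else 0) ≤ ENNReal.ofReal s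
  path : ∀ ω, PathFacts p f (W ω)

variable {Ω : Type*} [MeasurableSpace Ω] {P : Measure Ω} {p : LB.Par} {f : ℂ → ℂ}
  {W : Ω → ℝ → ℝ} {C2 C3 C a s : ℝ}

/-- `P(E2 ∪ E3) ≤ (C2 + C3) v^{c*/2}` -/
theorem Windows.h23 (h : Windows P p f W C2 C3 C a s) {k : ℤ} (hk : (2 : ℝ) ^ k ≤ p.rho1 f) :
    P {ω | E2 p f (W ω) k ∨ E3 p f (W ω) k} ≤
      ENNReal.ofReal ((C2 + C3) * vv p.u0 f (2 ^ k) ^ (p.cs / 2)) := by
  have hv := h.v_pos k hk
  have hv1 := h.v_le k hk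
  have hcs := h.cs
  have h1 : vv p.u0 f (2 ^ k) ^ p.cs ≤ vv p.u0 f (2 ^ k) ^ (p.cs / 2) :=
    Real.rpow_le_rpow_of_exponent_ge hv hv1 (by linarith)
  have hsub : {ω | E2 p f (W ω) k ∨ E3 p f (W ω) k} ⊆
      {ω | E2 p f (W ω) k} ∪ {ω | E3 p f (W ω) k} := fun ω hω => hω
  calc P {ω | E2 p f (W ω) k ∨ E3 p f (W ω) k}
      ≤ P {ω | E2 p f (W ω) k} + P {ω | E3 p f (W ω) k} :=
        (measure_mono hsub).trans (measure_union_le _ _)
    _ ≤ ENNReal.ofReal (C2 * vv p.u0 f (2 ^ k) ^ (p.cs / 2)) +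
        ENNReal.ofReal (C3 * vv p.u0 f (2 ^ k) ^ (p.cs / 2)) := by
        refine add_le_add ((h.h2 k hk).trans (ENNReal.ofReal_le_ofReal ?_)) (h.h3 k hk)
        exact mul_le_mul_of_nonneg_left h1 h.hC2
    _ = _ := by
        have e1 := h.hC2
        have e2 := h.hC3
        rw [← ENNReal.ofReal_add (by positivity) (by positivity)]
        congr 1
        ring

/-- the sum over the windows -/
theorem Windows.sum23 (h : Windows P p f W C2 C3 C a s) :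
    ∑' k : ℤ, P {ω | (2 : ℝ) ^ k ≤ p.rho1 f ∧ (E2 p f (W ω) k ∨ E3 p f (W ω) k)} ≤
      ENNReal.ofReal ((C2 + C3) * s) := by
  have e1 := h.hC2
  have e2 := h.hC3
  have hcs := h.cs
  calc ∑' k : ℤ, P {ω | (2 : ℝ) ^ k ≤ p.rho1 f ∧ (E2 p f (W ω) k ∨ E3 p f (W ω) k)}
      ≤ ∑' k : ℤ, ENNReal.ofReal (C2 + C3) * (if (2 : ℝ) ^ k ≤ p.rho1 f then
          ENNReal.ofReal (vv p.u0 f ((2 : ℝ) ^ k) ^ (p.cs / 4)) else 0) := by
        refine ENNReal.tsum_le_tsum fun k => ?_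
        by_cases hk : (2 : ℝ) ^ k ≤ p.rho1 f
        · rw [if_pos hk, ← ENNReal.ofReal_mul (by positivity)]
          refine (measure_mono fun ω hω => hω.2).trans ((h.h23 hk).trans ?_)
          refine ENNReal.ofReal_le_ofReal ?_
          have := Real.rpow_le_rpow_of_exponent_ge (h.v_pos k hk) (h.v_le k hk)
            (show p.cs / 4 ≤ p.cs / 2 by linarith)
          exact mul_le_mul_of_nonneg_left this (by positivity)
        · rw [if_neg hk, mul_zero]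
          have : {ω | (2 : ℝ) ^ k ≤ p.rho1 f ∧ (E2 p f (W ω) k ∨ E3 p f (W ω) k)} = ∅ := by
            ext ω; simp [hk]
          rw [this, measure_empty]
    _ = ENNReal.ofReal (C2 + C3) * ∑' k : ℤ, (if (2 : ℝ) ^ k ≤ p.rho1 f then
          ENNReal.ofReal (vv p.u0 f ((2 : ℝ) ^ k) ^ (p.cs / 4)) else 0) := ENNReal.tsum_mul_left
    _ ≤ ENNReal.ofReal (C2 + C3) * ENNReal.ofReal s := by
        gcongr
        exact h.hsum
    _ = _ := by rw [← ENNReal.ofReal_mul (by positivity)]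

/-- **(O4)** "`T₂` or `T₃` before `T₁`" has small probability. -/
theorem Windows.bad_le (h : Windows P p f W C2 C3 C a s) :
    P {ω | ∃ t, 0 < t ∧ rad (W ω) t ≤ p.rho1 f ∧ (p.Bad2 f (W ω) t ∨ ∃ k, p.Bad3 f (W ω) t k)} ≤
      ENNReal.ofReal ((C2 + C3) * s) := by
  refine le_trans ?_ h.sum23
  refine le_trans (measure_mono ?_) (measure_iUnion_le _)
  rintro ω ⟨t, ht, hr, hb⟩
  obtain ⟨k, hk, hE⟩ := (h.path ω).bad t ht hr hb
  exact mem_iUnion.2 ⟨k, hk, hE⟩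

/-- **(O1)** `T > 0` almost surely. -/
theorem Windows.T_pos (h : Windows P p f W C2 C3 C a s) : ∀ᵐ ω ∂P, 0 < p.T f (W ω) := by
  have hfin : ∑' k : ℤ, P {ω | (2 : ℝ) ^ k ≤ p.rho1 f ∧ (E2 p f (W ω) k ∨ E3 p f (W ω) k)} ≠ ⊤ :=
    ne_top_of_le_ne_top ENNReal.ofReal_ne_top h.sum23
  have hae := ae_finite_setOfPred_mem hfin
  filter_upwards [hae] with ω hω
  by_contra hT
  have hT0 : p.T f (W ω) = 0 := le_antisymm (not_lt.1 hT) (T_nonneg p f (W ω))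
  have hz := (h.path ω).zero hT0
  -- a level below rho1
  obtain ⟨K0, hK0⟩ : ∃ K0 : ℤ, (2 : ℝ) ^ K0 ≤ p.rho1 f := by
    obtain ⟨n, hn, -⟩ := exists_mem_Ico_zpow h.rho (by norm_num : (1 : ℝ) < 2)
    exact ⟨n, hn⟩
  obtain ⟨L, hL⟩ := hω.bddBelow
  obtain ⟨k, hk, hE⟩ := hz (min K0 (L - 1))
  have hk1 : (2 : ℝ) ^ k ≤ p.rho1 f :=
    (zpow_le_zpow_right₀ (by norm_num) (hk.trans (min_le_left _ _))).trans hK0
  have hmem : k ∈ {i : ℤ | ω ∈ {ω | (2 : ℝ) ^ i ≤ p.rho1 f ∧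
      (E2 p f (W ω) i ∨ E3 p f (W ω) i)}} := ⟨hk1, hE⟩
  have h1 := hL hmem
  have h2 := hk.trans (min_le_right _ _)
  omega

/-- the event "`T` in window `k`" -/
def Sk (p : LB.Par) (f : ℂ → ℂ) (W : Ω → ℝ → ℝ) (k : ℤ) : Set Ω :=
  {ω | 0 < p.T f (W ω) ∧ (2 : ℝ) ^ k ≤ rad (W ω) (p.T f (W ω)) ∧
    rad (W ω) (p.T f (W ω)) < (2 : ℝ) ^ (k + 1)}

theorem Windows.Sk_cov (h : Windows P p f W C2 C3 C a s) : ∀ᵐ ω ∂P, ω ∈ ⋃ k, Sk p f W k := by
  filter_upwards [h.T_pos] with ω hω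
  obtain ⟨n, hn, hn'⟩ := exists_mem_Ico_zpow ((h.path ω).pos hω) (by norm_num : (1 : ℝ) < 2)
  exact mem_iUnion.2 ⟨n, hω, hn, hn'⟩

theorem Windows.Sk_empty (h : Windows P p f W C2 C3 C a s) {k : ℤ} (hk : p.rho1 f < (2 : ℝ) ^ k) :
    Sk p f W k = ∅ := by
  ext ω
  simp only [mem_empty_iff_false, iff_false]
  rintro ⟨h1, h2, -⟩
  have := (h.path ω).le h1
  linarith

theorem Windows.Sk_tail (h : Windows P p f W C2 C3 C a s) (k : ℤ) (n : ℕ) :
    P ({ω | ENNReal.ofReal n < Zt p f (W ω)} ∩ Sk p f W k) ≤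
      ENNReal.ofReal (C * Real.exp (-(a * n))) := by
  by_cases hk : (2 : ℝ) ^ k ≤ p.rho1 f
  · refine (measure_mono ?_).trans (h.hz k n hk)
    rintro ω ⟨h1, h2, h3, h4⟩
    exact ⟨p.T f (W ω), h2, h3, h4, (h.path ω).nb2 h2, h1⟩
  · rw [h.Sk_empty (not_le.1 hk), inter_empty, measure_empty]
    exact zero_le

/-- **(O2)** the new potential is finite almost surely. -/
theorem Windows.Z_ne_top (h : Windows P p f W C2 C3 C a s) : ∀ᵐ ω ∂P, Zt p f (W ω) ≠ ⊤ := by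
  have hk : ∀ k : ℤ, P ({ω | Zt p f (W ω) = ⊤} ∩ Sk p f W k) = 0 := by
    intro k
    have h1 : ∀ n : ℕ, P ({ω | Zt p f (W ω) = ⊤} ∩ Sk p f W k) ≤
        ENNReal.ofReal (C * Real.exp (-(a * n))) := by
      intro n
      refine (measure_mono ?_).trans (h.Sk_tail k n)
      rintro ω ⟨h1, h2⟩
      refine ⟨?_, h2⟩
      show ENNReal.ofReal n < Zt p f (W ω)
      have h1' : Zt p f (W ω) = ⊤ := h1
      rw [h1']
      exact ENNReal.ofReal_lt_top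
    have h2 : Tendsto (fun n : ℕ => ENNReal.ofReal (C * Real.exp (-(a * n)))) atTop (𝓝 0) := by
      rw [← ENNReal.ofReal_zero]
      refine ENNReal.tendsto_ofReal ?_
      have h3 : Tendsto (fun n : ℕ => Real.exp (-(a * (n : ℝ)))) atTop (𝓝 0) := by
        refine Real.tendsto_exp_neg_atTop_nhds_zero.comp ?_
        exact Tendsto.const_mul_atTop h.ha tendsto_natCast_atTop_atTop
      simpa using h3.const_mul C
    exact le_antisymm (ge_of_tendsto' h2 h1) zero_le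
  have hU : P (⋃ k : ℤ, ({ω | Zt p f (W ω) = ⊤} ∩ Sk p f W k)) = 0 :=
    measure_iUnion_null hk
  have hU' : ∀ᵐ ω ∂P, ω ∉ ⋃ k : ℤ, ({ω | Zt p f (W ω) = ⊤} ∩ Sk p f W k) :=
    measure_eq_zero_iff_ae_notMem.1 hU
  filter_upwards [hU', h.Sk_cov] with ω h1 h2 h3
  apply h1
  obtain ⟨k, hk⟩ := mem_iUnion.1 h2
  exact mem_iUnion.2 ⟨k, h3, hk⟩

/-- the probability bound for "`T` in window `k`" -/
noncomputable def pr (p : LB.Par) (f : ℂ → ℂ) (A : ℝ) (k : ℤ) : ℝ≥0∞ :=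
  if (2 : ℝ) ^ k ≤ p.rho1 f then
    (if p.rho1 f < (2 : ℝ) ^ (k + 1) then 1
      else ENNReal.ofReal (A * vv p.u0 f (2 ^ k) ^ (p.cs / 2)) +
        ENNReal.ofReal (A * vv p.u0 f (2 ^ (k - 1)) ^ (p.cs / 2)))
  else 0

theorem Windows.Sk_le [IsProbabilityMeasure P] (h : Windows P p f W C2 C3 C a s) (k : ℤ) :
    P (Sk p f W k) ≤ pr p f (C2 + C3) k := by
  have e1 := h.hC2
  have e2 := h.hC3
  unfold pr
  by_cases hk : (2 : ℝ) ^ k ≤ p.rho1 f
  · rw [if_pos hk]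
    by_cases hk1 : p.rho1 f < (2 : ℝ) ^ (k + 1)
    · rw [if_pos hk1]
      exact prob_le_one
    · rw [if_neg hk1]
      have hk' : (2 : ℝ) ^ (k - 1) ≤ p.rho1 f :=
        (zpow_le_zpow_right₀ (by norm_num) (by omega)).trans hk
      have hsub : Sk p f W k ⊆ {ω | E2 p f (W ω) k ∨ E3 p f (W ω) k} ∪
          {ω | E3 p f (W ω) (k - 1)} := by
        rintro ω ⟨h1, h2, h3⟩
        rcases (h.path ω).low h1 (h3.trans_le (not_lt.1 hk1)) k h2 h3 with h4 | h4 | h4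
        · exact Or.inl (Or.inl h4)
        · exact Or.inl (Or.inr h4)
        · exact Or.inr h4
      refine (measure_mono hsub).trans ((measure_union_le _ _).trans
        (add_le_add (h.h23 hk) ((h.h3 (k - 1) hk').trans (ENNReal.ofReal_le_ofReal ?_))))
      have hv := (h.v_pos (k - 1) hk').le
      have h0 : 0 ≤ vv p.u0 f (2 ^ (k - 1)) ^ (p.cs / 2) := Real.rpow_nonneg hv _
      nlinarith
  · rw [if_neg hk, h.Sk_empty (not_le.1 hk), measure_empty]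

theorem Windows.pr_sum (h : Windows P p f W C2 C3 C a s) :
    ∑' k : ℤ, (pr p f (C2 + C3) k) ^ (1 / 2 : ℝ) ≤
      ENNReal.ofReal (1 + 2 * Real.sqrt (C2 + C3) * s) := by
  have e1 := h.hC2
  have e2 := h.hC3
  have e3 := h.hs
  have hcs := h.cs
  set A : ℝ := C2 + C3 with hA
  have hA0 : 0 ≤ A := by positivity
  set g : ℤ → ℝ≥0∞ := fun k => if (2 : ℝ) ^ k ≤ p.rho1 f then
    ENNReal.ofReal (vv p.u0 f ((2 : ℝ) ^ k) ^ (p.cs / 4)) else 0 with hg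
  obtain ⟨n, hn, hn'⟩ := exists_mem_Ico_zpow h.rho (by norm_num : (1 : ℝ) < 2)
  have hrt : ∀ k : ℤ, (2 : ℝ) ^ k ≤ p.rho1 f →
      (ENNReal.ofReal (A * vv p.u0 f (2 ^ k) ^ (p.cs / 2))) ^ (1 / 2 : ℝ) =
        ENNReal.ofReal (Real.sqrt A) * g k := by
    intro k hk
    have hv := h.v_pos k hk
    simp only [hg]
    rw [if_pos hk, ← ENNReal.ofReal_mul (Real.sqrt_nonneg _),
      ENNReal.ofReal_rpow_of_nonneg (by positivity) (by norm_num),
      Real.mul_rpow (by positivity) (by positivity), ← Real.sqrt_eq_rpow,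
      ← Real.rpow_mul hv.le]
    congr 3
    ring
  have hle : ∀ k : ℤ, (pr p f A k) ^ (1 / 2 : ℝ) ≤ (if k = n then 1 else 0) +
      (ENNReal.ofReal (Real.sqrt A) * g k + ENNReal.ofReal (Real.sqrt A) * g (k - 1)) := by
    intro k
    unfold pr
    by_cases hk : (2 : ℝ) ^ k ≤ p.rho1 f
    · rw [if_pos hk]
      by_cases hk1 : p.rho1 f < (2 : ℝ) ^ (k + 1)
      · rw [if_pos hk1]
        have hkn : k = n := by
          have h1 : k < n + 1 := (zpow_lt_zpow_iff_right₀ (by norm_num : (1 : ℝ) < 2)).1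
            (hk.trans_lt hn')
          have h2 : n < k + 1 := (zpow_lt_zpow_iff_right₀ (by norm_num : (1 : ℝ) < 2)).1
            (hn.trans_lt hk1)
          omega
        rw [if_pos hkn, ENNReal.one_rpow]
        exact le_self_add
      · rw [if_neg hk1]
        refine le_trans ?_ le_add_self
        have hk' : (2 : ℝ) ^ (k - 1) ≤ p.rho1 f :=
          (zpow_le_zpow_right₀ (by norm_num) (by omega)).trans hk
        refine (ENNReal.rpow_add_le_add_rpow _ _ (by norm_num) (by norm_num)).trans ?_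
        rw [hrt k hk, hrt (k - 1) hk']
    · rw [if_neg hk, ENNReal.zero_rpow_of_pos (by norm_num)]
      exact zero_le
  have hshift : ∑' k : ℤ, g (k - 1) = ∑' k : ℤ, g k := (Equiv.subRight (1 : ℤ)).tsum_eq g
  calc ∑' k, (pr p f A k) ^ (1 / 2 : ℝ)
      ≤ ∑' k : ℤ, ((if k = n then 1 else 0) +
        (ENNReal.ofReal (Real.sqrt A) * g k + ENNReal.ofReal (Real.sqrt A) * g (k - 1))) :=
        ENNReal.tsum_le_tsum hle
    _ = 1 + (ENNReal.ofReal (Real.sqrt A) * ∑' k : ℤ, g k +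
          ENNReal.ofReal (Real.sqrt A) * ∑' k : ℤ, g k) := by
        rw [ENNReal.tsum_add, ENNReal.tsum_add, ENNReal.tsum_mul_left, ENNReal.tsum_mul_left,
          hshift, tsum_ite_eq]
    _ ≤ 1 + (ENNReal.ofReal (Real.sqrt A) * ENNReal.ofReal s +
          ENNReal.ofReal (Real.sqrt A) * ENNReal.ofReal s) := by
        have := h.hsum
        gcongr
    _ = _ := by
        rw [← ENNReal.ofReal_mul (Real.sqrt_nonneg _), ← ENNReal.ofReal_one,
          ← ENNReal.ofReal_add (by positivity) (by positivity),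
          ← ENNReal.ofReal_add zero_le_one (by positivity)]
        congr 1
        ring

/-- **(O3)** exponential tail of the new potential. -/
theorem Windows.tail [IsProbabilityMeasure P] (h : Windows P p f W C2 C3 C a s) (n : ℕ) :
    P {ω | ENNReal.ofReal n < Zt p f (W ω)} ≤
      ENNReal.ofReal (Real.sqrt C * (1 + 2 * Real.sqrt (C2 + C3) * s) *
        Real.exp (-(a / 2 * n))) := by
  have e0 := h.hC
  have e1 := h.hC2
  have e2 := h.hC3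
  have e3 := h.hs
  have hnull : P (⋃ j, Sk p f W j)ᶜ = 0 := ae_iff.1 h.Sk_cov
  have hsub : {ω | ENNReal.ofReal n < Zt p f (W ω)} ⊆
      (⋃ j, ({ω | ENNReal.ofReal n < Zt p f (W ω)} ∩ Sk p f W j)) ∪ (⋃ j, Sk p f W j)ᶜ := by
    intro ω hω
    by_cases h : ω ∈ ⋃ j, Sk p f W j
    · left
      rw [← inter_iUnion]
      exact ⟨hω, h⟩
    · right
      exact h
  calc P {ω | ENNReal.ofReal n < Zt p f (W ω)}
      ≤ P (⋃ j, ({ω | ENNReal.ofReal n < Zt p f (W ω)} ∩ Sk p f W j)) +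
          P (⋃ j, Sk p f W j)ᶜ := (measure_mono hsub).trans (measure_union_le _ _)
    _ = P (⋃ j, ({ω | ENNReal.ofReal n < Zt p f (W ω)} ∩ Sk p f W j)) := by rw [hnull, add_zero]
    _ ≤ ∑' j, P ({ω | ENNReal.ofReal n < Zt p f (W ω)} ∩ Sk p f W j) := measure_iUnion_le _
    _ ≤ ∑' j, (ENNReal.ofReal (C * Real.exp (-(a * n)))) ^ (1 / 2 : ℝ)
          * (pr p f (C2 + C3) j) ^ (1 / 2 : ℝ) :=
        ENNReal.tsum_le_tsum (fun j => LB2c.min_le_sqrt (h.Sk_tail j n)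
          ((measure_mono inter_subset_right).trans (h.Sk_le j)))
    _ = (ENNReal.ofReal (C * Real.exp (-(a * n)))) ^ (1 / 2 : ℝ)
          * ∑' j, (pr p f (C2 + C3) j) ^ (1 / 2 : ℝ) := ENNReal.tsum_mul_left
    _ ≤ (ENNReal.ofReal (C * Real.exp (-(a * n)))) ^ (1 / 2 : ℝ) *
          ENNReal.ofReal (1 + 2 * Real.sqrt (C2 + C3) * s) := by
        gcongr
        exact h.pr_sum
    _ = _ := by
        rw [ENNReal.ofReal_rpow_of_nonneg (by positivity) (by norm_num),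
          ← ENNReal.ofReal_mul (by positivity), Real.mul_rpow h.hC (Real.exp_pos _).le,
          ← Real.sqrt_eq_rpow, ← Real.exp_mul]
        congr 1
        have : -(a * n) * (1 / 2 : ℝ) = -(a / 2 * n) := by ring
        rw [this]
        ring

/-- **(LBrS)** the step ends with `ρ_T = ρ₁` except with small probability. -/
theorem Windows.rad_ne_le (h : Windows P p f W C2 C3 C a s) :
    P {ω | rad (W ω) (p.T f (W ω)) ≠ p.rho1 f} ≤ ENNReal.ofReal ((C2 + C3) * s) := by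
  have hT : P {ω | ¬ 0 < p.T f (W ω)} = 0 := ae_iff.1 h.T_pos
  have hsub : {ω | rad (W ω) (p.T f (W ω)) ≠ p.rho1 f} ⊆
      {ω | ¬ 0 < p.T f (W ω)} ∪
        ⋃ k : ℤ, {ω | (2 : ℝ) ^ k ≤ p.rho1 f ∧ (E2 p f (W ω) k ∨ E3 p f (W ω) k)} := by
    intro ω hω
    by_cases h0 : 0 < p.T f (W ω)
    · right
      have hlt : rad (W ω) (p.T f (W ω)) < p.rho1 f := lt_of_le_of_ne ((h.path ω).le h0) hω
      obtain ⟨k, hk, hk'⟩ := exists_mem_Ico_zpow ((h.path ω).pos h0) (by norm_num : (1 : ℝ) < 2)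
      have hkr : (2 : ℝ) ^ k ≤ p.rho1 f := hk.trans hlt.le
      have hkr' : (2 : ℝ) ^ (k - 1) ≤ p.rho1 f :=
        (zpow_le_zpow_right₀ (by norm_num) (by omega)).trans hkr
      rcases (h.path ω).low h0 hlt k hk hk' with h4 | h4 | h4
      · exact mem_iUnion.2 ⟨k, hkr, Or.inl h4⟩
      · exact mem_iUnion.2 ⟨k, hkr, Or.inr h4⟩
      · exact mem_iUnion.2 ⟨k - 1, hkr', Or.inr h4⟩
    · left
      exact h0
  calc P {ω | rad (W ω) (p.T f (W ω)) ≠ p.rho1 f}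
      ≤ P {ω | ¬ 0 < p.T f (W ω)} +
        P (⋃ k : ℤ, {ω | (2 : ℝ) ^ k ≤ p.rho1 f ∧ (E2 p f (W ω) k ∨ E3 p f (W ω) k)}) :=
        (measure_mono hsub).trans (measure_union_le _ _)
    _ = P (⋃ k : ℤ, {ω | (2 : ℝ) ^ k ≤ p.rho1 f ∧ (E2 p f (W ω) k ∨ E3 p f (W ω) k)}) := by
        rw [hT, zero_add]
    _ ≤ _ := (measure_iUnion_le _).trans h.sum23

end Crest.Agent.R162.LBBook
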