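import Crest.Agent.R162.LB1

/-!
Row 162, node LB-STEPGLUE (helper561), part 1: dyadic sums of `v` are bounded by `J`.
-/

set_option autoImplicit false

namespace Crest.Agent.R162.LBStep

open Complex Set MeasureTheory
open Crest.Agent.R162.KB1 Crest.Agent.R162.LB1
open scoped ENNReal

section

variable {f : ℂ → ℂ} (hf : DifferentiableOn ℂ f Hs) (hfi : InjOn f Hs)
  {u0 : ℂ → ℝ} (hu0 : ∀ p, 1 ≤ u0 p) (hl : ∀ p p' : ℂ, |u0 p - u0 p'| ≤ ‖p - p'‖)

include hf hfi hu0 in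
theorem vv_pos {y : ℝ} (hy : 0 < y) : 0 < vv u0 f y := by
  unfold vv
  have h1 : 0 < ups f (y * I) := ups_pos hf hfi (by rw [im_axis]; exact hy)
  have h2 := hu0 (f (y * I))
  positivity

include hf hfi hu0 hl in
theorem vv_le_ten {s y : ℝ} (hs : 0 < s) (h1 : s ≤ y) (h2 : y ≤ 2 * s) (hv : vv u0 f s ≤ 1) :
    vv u0 f s ≤ 10 * vv u0 f y := by
  have hy : 0 < y := hs.trans_le h1
  have hus : 0 < ups f (s * I) := ups_pos hf hfi (by rw [im_axis]; exact hs)
  have huy : 0 < ups f (y * I) := ups_pos hf hfi (by rw [im_axis]; exact hy)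
  have h3 := (ups_axis_le hf hfi hs h1).2
  have h4 := dist_axis_left hf hfi hs h1
  have hys : y / s ≤ 2 := by rw [div_le_iff₀ hs]; exact h2
  have hys0 : 0 < y / s := by positivity
  have hys2 : (y / s) ^ 2 ≤ 4 := by nlinarith
  have h5 := (abs_le.1 (hl (f (y * I)) (f (s * I)))).2
  have hp1 := hu0 (f (s * I))
  have hp2 := hu0 (f (y * I))
  have hv' : ups f (s * I) ≤ u0 (f (s * I)) := by
    have := hv
    unfold vv at this
    rwa [div_le_one (by linarith)] at this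
  have h6 : u0 (f (y * I)) ≤ 5 / 2 * u0 (f (s * I)) := by nlinarith
  have h7 : ups f (s * I) ≤ 4 * ups f (y * I) := by nlinarith
  unfold vv
  rw [← mul_div_assoc, div_le_div_iff₀ (by linarith) (by linarith)]
  nlinarith

include hf hfi hu0 hl in
theorem window_le {q s : ℝ} (hq : 0 ≤ q) (hq1 : q ≤ 1) (hs : 0 < s) (hv : vv u0 f s ≤ 1) :
    ENNReal.ofReal (vv u0 f s ^ q) ≤
      ENNReal.ofReal 20 * ∫⁻ y in Ioc s (2 * s), ENNReal.ofReal ((min (vv u0 f y) 1) ^ q / y) := by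
  have hvs := vv_pos hf hfi hu0 hs
  have hlow : ∀ y ∈ Ioc s (2 * s), ENNReal.ofReal (vv u0 f s ^ q / 20 / s) ≤
      ENNReal.ofReal ((min (vv u0 f y) 1) ^ q / y) := by
    intro y hy
    apply ENNReal.ofReal_le_ofReal
    have hy0 : 0 < y := hs.trans hy.1
    have h10 := vv_le_ten hf hfi hu0 hl hs hy.1.le hy.2 hv
    have hmin : vv u0 f s / 10 ≤ min (vv u0 f y) 1 := le_min (by linarith) (by linarith)
    have h1 : (vv u0 f s / 10) ^ q ≤ (min (vv u0 f y) 1) ^ q :=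
      Real.rpow_le_rpow (by positivity) hmin hq
    have h2 : vv u0 f s ^ q / 10 ≤ (vv u0 f s / 10) ^ q := by
      rw [Real.div_rpow hvs.le (by norm_num)]
      have : (10 : ℝ) ^ q ≤ 10 := by
        calc (10 : ℝ) ^ q ≤ 10 ^ (1 : ℝ) := Real.rpow_le_rpow_of_exponent_le (by norm_num) hq1
          _ = 10 := Real.rpow_one _
      exact div_le_div_of_nonneg_left (by positivity) (by positivity) this
    have h3 : vv u0 f s ^ q / 20 / s = (vv u0 f s ^ q / 10) / (2 * s) := by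
      field_simp; ring
    rw [h3]
    have h0 : 0 ≤ (min (vv u0 f y) 1) ^ q :=
      Real.rpow_nonneg (le_min (vv_pos hf hfi hu0 hy0).le zero_le_one) _
    exact div_le_div₀ h0 (h2.trans h1) hy0 hy.2
  have hI : ENNReal.ofReal (vv u0 f s ^ q / 20 / s) * volume (Ioc s (2 * s)) ≤
      ∫⁻ y in Ioc s (2 * s), ENNReal.ofReal ((min (vv u0 f y) 1) ^ q / y) := by
    rw [← setLIntegral_const]
    exact setLIntegral_mono_ae' measurableSet_Ioc (Filter.Eventually.of_forall hlow)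
  rw [Real.volume_Ioc, show 2 * s - s = s by ring, ← ENNReal.ofReal_mul (by positivity),
    div_mul_cancel₀ _ hs.ne'] at hI
  calc ENNReal.ofReal (vv u0 f s ^ q)
      = ENNReal.ofReal 20 * ENNReal.ofReal (vv u0 f s ^ q / 20) := by
        rw [← ENNReal.ofReal_mul (by norm_num)]
        congr 1
        ring
    _ ≤ _ := by gcongr

/-- the dyadic windows below `r` -/
def win (r : ℝ) (k : ℤ) : Set ℝ := if (2 : ℝ) ^ k ≤ r then Ioc ((2 : ℝ) ^ k) (2 * (2 : ℝ) ^ k) else ∅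

omit hf hfi hu0 hl in
theorem win_disjoint (r : ℝ) : Pairwise (Function.onFun Disjoint (win r)) := by
  have key : ∀ i j : ℤ, i < j → Disjoint (win r i) (win r j) := by
    intro i j hij
    unfold win
    split_ifs with h1 h2 h2
    · rw [Set.disjoint_left]
      rintro y ⟨-, hy⟩ ⟨hy2, -⟩
      have : (2 : ℝ) * 2 ^ i = 2 ^ (i + 1) := by
        rw [zpow_add₀ (by norm_num : (2 : ℝ) ≠ 0), zpow_one]; ring
      rw [this] at hy
      have h3 : (2 : ℝ) ^ (i + 1) ≤ 2 ^ j := zpow_le_zpow_right₀ (by norm_num) (by omega)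
      linarith
    · exact disjoint_bot_right
    · exact disjoint_bot_left
    · exact disjoint_bot_left
  intro i j hij
  rcases lt_or_gt_of_ne hij with h | h
  · exact key i j h
  · exact (key j i h).symm

omit hf hfi hu0 hl in
theorem win_subset (r : ℝ) (k : ℤ) : win r k ⊆ Ioc 0 (2 * r) := by
  unfold win
  split_ifs with h
  · intro y hy
    have : (0 : ℝ) < 2 ^ k := by positivity
    exact ⟨this.trans hy.1, hy.2.trans (by linarith)⟩
  · exact empty_subset _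

omit hf hfi hu0 hl in
theorem win_meas (r : ℝ) (k : ℤ) : MeasurableSet (win r k) := by
  unfold win
  split_ifs
  · exact measurableSet_Ioc
  · exact MeasurableSet.empty

include hf hfi hu0 hl in
/-- `Σ_{2^k ≤ r} v(2^k)^q ≤ 20 J(2r)` -/
theorem dyad_q {q r : ℝ} (hq : 0 ≤ q) (hq1 : q ≤ 1)
    (hv : ∀ y, 0 < y → y ≤ r → vv u0 f y ≤ 1) :
    ∑' k : ℤ, (if (2 : ℝ) ^ k ≤ r then ENNReal.ofReal (vv u0 f ((2 : ℝ) ^ k) ^ q) else 0) ≤
      ENNReal.ofReal 20 * Jv u0 q f (2 * r) := by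
  have h1 : ∀ k : ℤ, (if (2 : ℝ) ^ k ≤ r then ENNReal.ofReal (vv u0 f ((2 : ℝ) ^ k) ^ q) else 0) ≤
      ENNReal.ofReal 20 * ∫⁻ y in win r k, ENNReal.ofReal ((min (vv u0 f y) 1) ^ q / y) := by
    intro k
    unfold win
    split_ifs with h
    · exact window_le hf hfi hu0 hl hq hq1 (by positivity) (hv _ (by positivity) h)
    · exact bot_le
  calc _ ≤ ∑' k : ℤ, ENNReal.ofReal 20 *
        ∫⁻ y in win r k, ENNReal.ofReal ((min (vv u0 f y) 1) ^ q / y) := ENNReal.tsum_le_tsum h1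
    _ = ENNReal.ofReal 20 * ∫⁻ y in ⋃ k, win r k, ENNReal.ofReal ((min (vv u0 f y) 1) ^ q / y) := by
        rw [ENNReal.tsum_mul_left, lintegral_iUnion (win_meas r) (win_disjoint r)]
    _ ≤ _ := by
        unfold Jv
        gcongr
        exact iUnion_subset (win_subset r)

include hf hfi hu0 hl in
/-- `Σ_{2^k ≤ r} v(2^k)^a ≤ 20 V^{a-q} J(2r)` if `v ≤ V ≤ 1` on `(0, r]`, `q ≤ a` -/
theorem dyad {q a r V : ℝ} (hq : 0 ≤ q) (hq1 : q ≤ 1) (hqa : q ≤ a) (hV1 : V ≤ 1)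
    (hv : ∀ y, 0 < y → y ≤ r → vv u0 f y ≤ V) :
    ∑' k : ℤ, (if (2 : ℝ) ^ k ≤ r then ENNReal.ofReal (vv u0 f ((2 : ℝ) ^ k) ^ a) else 0) ≤
      ENNReal.ofReal (20 * V ^ (a - q)) * Jv u0 q f (2 * r) := by
  have h1 : ∀ k : ℤ, (if (2 : ℝ) ^ k ≤ r then ENNReal.ofReal (vv u0 f ((2 : ℝ) ^ k) ^ a) else 0) ≤
      ENNReal.ofReal (V ^ (a - q)) *
        (if (2 : ℝ) ^ k ≤ r then ENNReal.ofReal (vv u0 f ((2 : ℝ) ^ k) ^ q) else 0) := by
    intro k
    split_ifs with h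
    · have hp := vv_pos hf hfi hu0 (y := (2 : ℝ) ^ k) (by positivity)
      have hle := hv ((2 : ℝ) ^ k) (by positivity) h
      rw [← ENNReal.ofReal_mul (Real.rpow_nonneg (hp.le.trans hle) _)]
      apply ENNReal.ofReal_le_ofReal
      calc vv u0 f ((2 : ℝ) ^ k) ^ a
          = vv u0 f ((2 : ℝ) ^ k) ^ (a - q) * vv u0 f ((2 : ℝ) ^ k) ^ q := by
            rw [← Real.rpow_add hp]; congr 1; ring
        _ ≤ _ := by
            gcongr
    · simp
  calc _ ≤ ∑' k : ℤ, ENNReal.ofReal (V ^ (a - q)) *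
        (if (2 : ℝ) ^ k ≤ r then ENNReal.ofReal (vv u0 f ((2 : ℝ) ^ k) ^ q) else 0) :=
        ENNReal.tsum_le_tsum h1
    _ = ENNReal.ofReal (V ^ (a - q)) * ∑' k : ℤ,
        (if (2 : ℝ) ^ k ≤ r then ENNReal.ofReal (vv u0 f ((2 : ℝ) ^ k) ^ q) else 0) :=
        ENNReal.tsum_mul_left
    _ ≤ ENNReal.ofReal (V ^ (a - q)) * (ENNReal.ofReal 20 * Jv u0 q f (2 * r)) := by
        gcongr
        exact dyad_q hf hfi hu0 hl hq hq1 (fun y h1 h2 => (hv y h1 h2).trans hV1)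
    _ = _ := by
        rw [← mul_assoc, ← ENNReal.ofReal_mul' (by norm_num), mul_comm (V ^ (a - q))]

end

end Crest.Agent.R162.LBStep
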