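import Crest.Agent.R162.LBBook
import Crest.Agent.R162.LBStep1
import Crest.Agent.R162.LB0D
import Crest.Agent.R162.LBStepIn2
import Crest.Agent.R162.LB2h

/-!
Row 162, node STEP, part (B) (helper261): from `In2`, `In3`, `InZ` to `ZtS` and `LBrS` with all
quantifiers.
-/

set_option autoImplicit false

open MeasureTheory ProbabilityTheory Set Filter Topology Complex
open scoped NNReal ENNReal
open Crest.ProbabilityR.Loewner

namespace Crest.Agent.R162.LBBook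

open Crest.Agent.R162.LB Crest.Agent.R162.LBStep Crest.Agent.R162.LBS Crest.Agent.R162.OS

universe u

/-- the pathwise input -/
def PathIn : Prop :=
  ∀ (p : LB.Par) (f : ℂ → ℂ), State p f → 0 < p.rho1 f → ∀ W : ℝ → ℝ, ContinuousOn W (Ici 0) →
    W 0 = 0 → PathFacts p f W

theorem state_of_start {p : LB.Par} {f : ℂ → ℂ} (h : Start p f) : State p f :=
  ⟨h.univ.diff, h.univ.inj, h.v_tendsto, h.lam, h.J_ne_top⟩

theorem driving_zero' {Ω : Type*} [MeasurableSpace Ω] {P : Measure Ω}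
    {F : Filtration ℝ≥0 (inferInstance : MeasurableSpace Ω)} {B : ℝ≥0 → Ω → ℝ}
    (hB : IsBM F B P) (κ : ℝ) (ω : Ω) : driving κ B ω 0 = 0 := by
  unfold driving
  rw [Real.toNNReal_zero, hB.zero, mul_zero]

/-- choice of `θ` making the dyadic sum small -/
theorem exists_theta_sum {cs K3 K4 s : ℝ} (hcs : 0 < cs) (hK3 : 1 ≤ K3) (hK4 : 1 ≤ K4)
    (hs : 0 < s) : ∃ θ0 : ℝ, 0 < θ0 ∧ ∀ θ : ℝ, 0 < θ → θ ≤ θ0 →
      102 * K4 ^ 2 * θ ≤ 1 ∧
      20 * (102 * K4 ^ 2 * θ) ^ (cs / 8) * (K3 + Real.log (10 * K4)) ≤ s := by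
  have hlog : 0 ≤ Real.log (10 * K4) := Real.log_nonneg (by linarith)
  set L : ℝ := K3 + Real.log (10 * K4) with hL
  have hL0 : 0 < L := by positivity
  have hK : 0 < 102 * K4 ^ 2 := by positivity
  set V0 : ℝ := (s / (20 * L)) ^ (8 / cs) with hV0
  have hV0p : 0 < V0 := Real.rpow_pos_of_pos (by positivity) _
  refine ⟨min 1 V0 / (102 * K4 ^ 2), by positivity, fun θ hθ hle => ?_⟩
  have h1 : 102 * K4 ^ 2 * θ ≤ min 1 V0 := by
    rw [le_div_iff₀ hK] at hle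
    linarith
  have h0 : 0 ≤ 102 * K4 ^ 2 * θ := by positivity
  refine ⟨h1.trans (min_le_left _ _), ?_⟩
  have h2 : (102 * K4 ^ 2 * θ) ^ (cs / 8) ≤ V0 ^ (cs / 8) :=
    Real.rpow_le_rpow h0 (h1.trans (min_le_right _ _)) (by positivity)
  have h3 : V0 ^ (cs / 8) = s / (20 * L) := by
    rw [hV0, ← Real.rpow_mul (by positivity)]
    have : 8 / cs * (cs / 8) = 1 := by field_simp
    rw [this, Real.rpow_one]
  rw [h3] at h2
  calc 20 * (102 * K4 ^ 2 * θ) ^ (cs / 8) * L ≤ 20 * (s / (20 * L)) * L := by gcongr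
    _ = s := by field_simp

/-- **the windows, with quantifiers.** -/
theorem windows {κ c1 cs q η K4 K3 C2 C3 C a s : ℝ} (hpath : PathIn)
    (hcs : 0 < cs) (hq : 0 < q) (hq8 : q ≤ 1 / 8) (hqcs : 8 * q ≤ cs)
    (hK4 : 1 ≤ K4) (hK3 : 1 ≤ K3) (hC2 : 0 ≤ C2) (hC3 : 0 ≤ C3) (hC : 0 ≤ C) (ha : 0 < a)
    (hs : 0 < s)
    (h2 : ∃ θ0 : ℝ, 0 < θ0 ∧ ∀ p : LB.Par, p.κ = κ → p.cs = cs → p.q = q → p.η = η → p.K3 = K3 →
      p.K4 = K4 → 0 < p.θ → p.θ ≤ θ0 → p.Adm → ∀ f, State p f →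
      ∀ (Ω : Type u) [MeasurableSpace Ω] (P : Measure Ω) [IsProbabilityMeasure P]
      (F : Filtration ℝ≥0 (inferInstance : MeasurableSpace Ω)) (B : ℝ≥0 → Ω → ℝ)
      (_ : IsBM F B P) (k : ℤ), (2 : ℝ) ^ k ≤ p.rho1 f →
      P {ω | E2 p f (driving κ B ω) k} ≤ ENNReal.ofReal (C2 * vv p.u0 f (2 ^ k) ^ cs))
    (h3 : ∃ θ0 : ℝ, 0 < θ0 ∧ ∀ θ : ℝ, 0 < θ → θ ≤ θ0 → ∃ ε0 : ℝ, 0 < ε0 ∧
      ∀ p : LB.Par, p.κ = κ → p.c1 = c1 → p.cs = cs → p.q = q → p.η = η → p.K3 = K3 →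
      p.K4 = K4 → p.θ = θ → 0 < p.ε → p.ε ≤ ε0 → p.Adm → ∀ f, State p f →
      ∀ (Ω : Type u) [MeasurableSpace Ω] (P : Measure Ω) [IsProbabilityMeasure P]
      (F : Filtration ℝ≥0 (inferInstance : MeasurableSpace Ω)) (B : ℝ≥0 → Ω → ℝ)
      (_ : IsBM F B P) (k : ℤ), (2 : ℝ) ^ k ≤ p.rho1 f →
      P {ω | E3 p f (driving κ B ω) k} ≤ ENNReal.ofReal (C3 * vv p.u0 f (2 ^ k) ^ (cs / 2)))
    (hz : ∃ θ0 : ℝ, 0 < θ0 ∧ ∀ p : LB.Par, p.κ = κ → p.cs = cs → p.q = q → p.η = η → p.K3 = K3 →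
      p.K4 = K4 → 0 < p.θ → p.θ ≤ θ0 → p.Adm → ∀ f, State p f →
      ∀ (Ω : Type u) [MeasurableSpace Ω] (P : Measure Ω) [IsProbabilityMeasure P]
      (F : Filtration ℝ≥0 (inferInstance : MeasurableSpace Ω)) (B : ℝ≥0 → Ω → ℝ)
      (_ : IsBM F B P) (k : ℤ) (n : ℕ), (2 : ℝ) ^ k ≤ p.rho1 f →
      P {ω | EZ p f (driving κ B ω) k n} ≤ ENNReal.ofReal (C * Real.exp (-(a * n)))) :
    ForSmall κ c1 q η cs K4 K3 (fun p => ForBM.{u} p fun f _ _ P B =>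
      Windows P p f (fun ω => driving p.κ B ω) C2 C3 C a s) := by
  obtain ⟨t2, ht2, h2⟩ := h2
  obtain ⟨t3, ht3, h3⟩ := h3
  obtain ⟨tz, htz, hz⟩ := hz
  obtain ⟨tg, htg, hg⟩ := LB0.exists_theta hq (by linarith : q < 1) (by linarith : 0 < K3) hK4
  obtain ⟨ts, hts, hsm⟩ := exists_theta_sum (cs := cs) hcs hK3 hK4 hs
  refine ⟨min (min t2 t3) (min (min tz tg) (min ts (1 / 2))), by positivity, fun θ hθ hle => ?_⟩
  have l2 : θ ≤ t2 := hle.trans ((min_le_left _ _).trans (min_le_left _ _))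
  have l3 : θ ≤ t3 := hle.trans ((min_le_left _ _).trans (min_le_right _ _))
  have lz : θ ≤ tz := hle.trans ((min_le_right _ _).trans ((min_le_left _ _).trans
    (min_le_left _ _)))
  have lg : θ ≤ tg := hle.trans ((min_le_right _ _).trans ((min_le_left _ _).trans
    (min_le_right _ _)))
  have ls : θ ≤ ts := hle.trans ((min_le_right _ _).trans ((min_le_right _ _).trans
    (min_le_left _ _)))
  have lh : θ ≤ 1 / 2 := hle.trans ((min_le_right _ _).trans ((min_le_right _ _).trans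
    (min_le_right _ _)))
  obtain ⟨ε0, hε0, h3⟩ := h3 θ hθ l3
  refine ⟨ε0, hε0, fun ε hε hεle Bs u0 ok => ?_⟩
  intro Ω _ P _ F B hB f hst
  set p : LB.Par := mkP κ c1 q η cs K4 K3 θ ε Bs u0 with hp
  have hS : State p f := state_of_start hst
  have hsmall : LB0.Small p :=
    { q_pos := hq
      q_lt := by show q < 1; linarith
      η_nonneg := ok.η0.le
      θ_pos := hθ
      K3_pos := by show 0 < K3; linarith
      K4_ge := hK4
      sm1 := (hg θ hθ lg).1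
      sm2 := (hg θ hθ lg).2 }
  have hG : LB0.Geo p f := LB2h.geo_state ok.adm hsmall hS lh
  have hrho := hG.rho_pos
  obtain ⟨hV1, hVs⟩ := hsm θ hθ ls
  have hlip : ∀ w w' : ℂ, |u0 w - u0 w'| ≤ ‖w - w'‖ := fun w w' =>
    LB0.u0_sub_le ok.adm.lip w w'
  have hone : ∀ w : ℂ, 1 ≤ u0 w := ok.adm.one_le
  refine
    { rho := hrho
      cs := hcs
      hC2 := hC2
      hC3 := hC3
      hC := hC
      ha := ha
      hs := hs.le
      v_pos := fun k _ => LB0.vv_pos hS.diff hS.inj ok.adm.one_le (by positivity)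
      v_le := fun k hk => hG.vv_le_one _ (by positivity) (by linarith)
      h2 := fun k hk => h2 p rfl rfl rfl rfl rfl rfl hθ l2 ok.adm f hS Ω P F B hB k hk
      h3 := fun k hk => h3 p rfl rfl rfl rfl rfl rfl rfl rfl hε hεle ok.adm f hS Ω P F B hB k hk
      hz := fun k n hk => hz p rfl rfl rfl rfl rfl rfl hθ lz ok.adm f hS Ω P F B hB k n hk
      hsum := ?_
      path := fun ω => hpath p f hS hrho _ (LB2h.cont_driving hB p.κ ω) (driving_zero' hB p.κ ω) }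
  -- the dyadic sum
  have hq1 : q ≤ 1 := by linarith
  have hqa : q ≤ cs / 4 := by linarith
  have hVle : ∀ y, 0 < y → y ≤ p.rho1 f → LB1.vv u0 f y ≤ 102 * K4 ^ 2 * θ := fun y hy hy' =>
    hG.vv_le y hy (by linarith)
  have hd := dyad hS.diff hS.inj (u0 := u0) hone hlip (q := q) (a := cs / 4) (r := p.rho1 f)
    (V := 102 * K4 ^ 2 * θ) hq.le hq1 hqa hV1 hVle
  have hV0 : 0 < 102 * K4 ^ 2 * θ := by positivity
  have hJ : LB1.Jv u0 q f (2 * p.rho1 f) ≤ ENNReal.ofReal (K3 + Real.log (10 * K4)) := by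
    have h1 : LB1.Jv u0 q f (2 * p.rho1 f) ≤ LB1.Jv u0 q f (10 * p.rho1 f) :=
      lintegral_mono_set (Ioc_subset_Ioc_right (by linarith))
    exact h1.trans hG.Jv_le
  calc ∑' k : ℤ, (if (2 : ℝ) ^ k ≤ p.rho1 f then
        ENNReal.ofReal (vv p.u0 f ((2 : ℝ) ^ k) ^ (p.cs / 4)) else 0)
      ≤ ENNReal.ofReal (20 * (102 * K4 ^ 2 * θ) ^ (cs / 4 - q)) * LB1.Jv u0 q f (2 * p.rho1 f) := hd
    _ ≤ ENNReal.ofReal (20 * (102 * K4 ^ 2 * θ) ^ (cs / 8)) *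
          ENNReal.ofReal (K3 + Real.log (10 * K4)) := by
        refine mul_le_mul' (ENNReal.ofReal_le_ofReal ?_) hJ
        have : (102 * K4 ^ 2 * θ) ^ (cs / 4 - q) ≤ (102 * K4 ^ 2 * θ) ^ (cs / 8) :=
          Real.rpow_le_rpow_of_exponent_ge hV0 hV1 (by linarith)
        linarith
    _ ≤ ENNReal.ofReal s := by
        rw [← ENNReal.ofReal_mul (by positivity)]
        exact ENNReal.ofReal_le_ofReal hVs

/-- **(B)**: `ZtS` and `LBrS` with all quantifiers. -/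
theorem book {κ c1 : ℝ} (hpath : PathIn) (h2 : In2.{u} κ) (h3 : In3.{u} κ c1) (hz : InZ.{u} κ) :
    ∃ cs0 : ℝ, 0 < cs0 ∧ ∀ cs q : ℝ, 0 < cs → cs ≤ cs0 → 0 < q → q ≤ 1 / 8 → 8 * q ≤ cs →
      ∃ D a : ℝ, 0 ≤ D ∧ 0 < a ∧ ∀ η K4 K3 : ℝ, 0 < η → η ≤ 1 / 8 → 1 ≤ K4 → 1 ≤ K3 →
        ForSmall κ c1 q η cs K4 K3 (ZtS.{u} D a) ∧
        ∀ e : ℝ, 0 < e → ForSmall κ c1 q η cs K4 K3 (LBrS.{u} e) := by
  obtain ⟨cs2, C2, hcs2, hC2, h2⟩ := h2
  obtain ⟨cs3, C3, hcs3, hC3, h3⟩ := h3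
  refine ⟨min cs2 cs3, lt_min hcs2 hcs3, fun cs q hcs hcsle hq hq8 hqcs => ?_⟩
  obtain ⟨a, C, ha, hC, hz⟩ := hz q hq hq8
  refine ⟨Real.sqrt C * (1 + 2 * Real.sqrt (C2 + C3) * 1), a / 2, by positivity, by positivity,
    fun η K4 K3 hη hη8 hK4 hK3 => ?_⟩
  have key : ∀ s : ℝ, 0 < s → ForSmall κ c1 q η cs K4 K3 (fun p => ForBM.{u} p fun f _ _ P B =>
      Windows P p f (fun ω => driving p.κ B ω) C2 C3 C a s) := fun s hs =>
    windows hpath hcs hq hq8 hqcs hK4 hK3 hC2 hC3 hC ha hs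
      (h2 cs q η K3 K4 hcs (hcsle.trans (min_le_left _ _)) hq hq8 hη hη8 (by linarith) hK4)
      (h3 cs q η K3 K4 hcs (hcsle.trans (min_le_right _ _)) hq hq8 hη hη8 (by linarith) hK4)
      (hz cs η K3 K4 hcs hη hη8 (by linarith) hK4)
  constructor
  · obtain ⟨θ0, hθ0, h⟩ := key 1 one_pos
    refine ⟨θ0, hθ0, fun θ hθ hle => ?_⟩
    obtain ⟨ε0, hε0, h⟩ := h θ hθ hle
    refine ⟨ε0, hε0, fun ε hε hεle Bs u0 ok => ?_⟩
    intro Ω _ P _ F B hB f hst n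
    exact (h ε hε hεle Bs u0 ok Ω P F B hB f hst).tail n
  · intro e he
    obtain ⟨θ0, hθ0, h⟩ := key (e / (C2 + C3 + 1)) (by positivity)
    refine ⟨θ0, hθ0, fun θ hθ hle => ?_⟩
    obtain ⟨ε0, hε0, h⟩ := h θ hθ hle
    refine ⟨ε0, hε0, fun ε hε hεle Bs u0 ok => ?_⟩
    intro Ω _ P _ F B hB f hst
    refine ((h ε hε hεle Bs u0 ok Ω P F B hB f hst).rad_ne_le).trans
      (ENNReal.ofReal_le_ofReal ?_)
    rw [← mul_div_assoc, div_le_iff₀ (by positivity)]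
    nlinarith

end Crest.Agent.R162.LBBook
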