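import Crest.Agent.R162.LBBook2
import Crest.Agent.R162.LBStepD

/-!
Row 162, node STEP, part (B), pathwise facts (helper261): `PathIn`.
-/

set_option autoImplicit false

open MeasureTheory Set Filter Topology Complex
open scoped NNReal ENNReal

namespace Crest.Agent.R162.LBBook

open Crest.Agent.R162.LB Crest.Agent.R162.LBStep

variable {p : LB.Par} {f : ℂ → ℂ} {W : ℝ → ℝ}

theorem win_empty (hW : ContinuousOn W (Ici 0)) {t : ℝ} {j : ℤ} (h : rad W t < (2 : ℝ) ^ j) :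
    LB.win W t j = ∅ := by
  ext s
  simp only [LB.win, mem_setOf_eq, mem_empty_iff_false, iff_false]
  rintro ⟨h1, h2, h3, -⟩
  have := rad_mono hW h1.le h2
  linarith

theorem content_empty (κ ε c1 : ℝ) (f : ℂ → ℂ) (W : ℝ → ℝ) (B : Set ℂ) :
    content κ ε c1 f W ∅ B = 0 := by
  unfold content cz
  simp

theorem bad3_le (hW : ContinuousOn W (Ici 0)) {t : ℝ} {j : ℤ} (h : p.Bad3 f W t j) :
    (2 : ℝ) ^ j ≤ rad W t := by
  by_contra hlt
  have h1 : p.nearC f W (LB.win W t j) = 0 := by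
    unfold LB.Par.nearC
    rw [win_empty hW (not_le.1 hlt)]
    exact content_empty _ _ _ _ _ _
  unfold LB.Par.Bad3 at h
  rw [h1] at h
  exact absurd h not_lt_zero

theorem win_eq (hW : ContinuousOn W (Ici 0)) {t t' : ℝ} {j : ℤ} (ht' : 0 ≤ t') (htt : t' ≤ t)
    (h : (2 : ℝ) ^ (j + 1) ≤ rad W t') : LB.win W t j = LB.win W t' j := by
  ext s
  simp only [LB.win, mem_setOf_eq]
  constructor
  · rintro ⟨h1, h2, h3, h4⟩
    refine ⟨h1, ?_, h3, h4⟩
    by_contra hlt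
    have := rad_mono hW ht' (not_le.1 hlt).le
    linarith
  · rintro ⟨h1, h2, h3, h4⟩
    exact ⟨h1, h2.trans htt, h3, h4⟩

theorem e2_of {t : ℝ} (ht : 0 < t) (hb : p.Bad2 f W t) :
    ∃ k : ℤ, (2 : ℝ) ^ k ≤ rad W t ∧ E2 p f W k := by
  obtain ⟨k, hk, hk'⟩ := exists_mem_Ico_zpow (LBStepD.rad_pos (W := W) ht)
    (by norm_num : (1 : ℝ) < 2)
  exact ⟨k, hk, t, ht, hk, hk', hb⟩

theorem nb2_T (hW : ContinuousOn W (Ici 0)) (hf : DifferentiableOn ℂ f KB1.Hs)
    (hT : 0 < p.T f W) : ¬ p.Bad2 f W (p.T f W) := by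
  rintro ⟨y, hy, hy', hlt⟩
  have := LBStepD.tip_T hW hf.continuousOn hT le_rfl hy hy'
  linarith

theorem low_T (hW : ContinuousOn W (Ici 0)) (hf : DifferentiableOn ℂ f KB1.Hs)
    (hT : 0 < p.T f W) (hlt : rad W (p.T f W) < p.rho1 f) {k : ℤ}
    (hk : (2 : ℝ) ^ k ≤ rad W (p.T f W)) (hk' : rad W (p.T f W) < (2 : ℝ) ^ (k + 1)) :
    E2 p f W k ∨ E3 p f W k ∨ E3 p f W (k - 1) := by
  set T := p.T f W with hTdef
  have h1 : ∀ᶠ t in 𝓝 T, rad W t < p.rho1 f :=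
    (LBStepD.continuousAt_rad hW hT).tendsto.eventually_lt_const hlt
  have h2 : ∀ᶠ t in 𝓝 T, rad W t < (2 : ℝ) ^ (k + 1) :=
    (LBStepD.continuousAt_rad hW hT).tendsto.eventually_lt_const hk'
  obtain ⟨δ, hδ, hδ'⟩ := Metric.eventually_nhds_iff.1 (h1.and h2)
  have hnear : ∀ t, T ≤ t → t < T + δ → rad W t < p.rho1 f ∧ rad W t < (2 : ℝ) ^ (k + 1) := by
    intro t ht1 ht2
    apply hδ'
    rw [Real.dist_eq, abs_of_nonneg (by linarith)]
    linarith
  by_cases hA : ∃ t, T < t ∧ t < T + δ ∧ p.Bad2 f W t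
  · obtain ⟨t, ht1, ht2, ht3⟩ := hA
    left
    exact ⟨t, hT.trans ht1, hk.trans (rad_mono hW hT.le ht1.le), (hnear t ht1.le ht2).2, ht3⟩
  · right
    push Not at hA
    have hnb : ∀ s, 0 < s → s < T + δ → ¬ p.Bad2 f W s := by
      intro s hs hs'
      rcases lt_trichotomy s T with h | h | h
      · exact fun hb => not_bad_of_lt p hs h (Or.inr (Or.inl hb))
      · rw [h]
        exact nb2_T hW hf hT
      · exact hA s h hs'
    have hne : {t | 0 < t ∧ p.Bad f W t}.Nonempty := by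
      by_contra hne
      rw [not_nonempty_iff_eq_empty] at hne
      have : p.T f W = 0 := by unfold LB.Par.T; rw [hne, Real.sInf_empty]
      rw [← hTdef] at this
      rw [this] at hT
      exact lt_irrefl _ hT
    obtain ⟨t, ht, htlt⟩ := exists_lt_of_csInf_lt hne
      (lt_add_of_pos_right T hδ : sInf {t | 0 < t ∧ p.Bad f W t} < T + δ)
    have hTt : T ≤ t := csInf_le (T_bdd p f W) ht
    rcases ht.2 with h5 | h5 | ⟨j, h5⟩
    · exact absurd h5 (not_lt.2 (hnear t hTt htlt).1.le)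
    · exact absurd h5 (hnb t ht.1 htlt)
    · have hE : E3 p f W j := ⟨t, ht.1, fun s hs hst => hnb s hs (hst.trans htlt), h5⟩
      have hj1 : j < k + 1 := (zpow_lt_zpow_iff_right₀ (by norm_num : (1 : ℝ) < 2)).1
        ((bad3_le hW h5).trans_lt (hnear t hTt htlt).2)
      have hj2 : k - 1 ≤ j := by
        by_contra hcon
        rw [not_le] at hcon
        have hlt2 : (2 : ℝ) ^ (j + 1) < rad W T :=
          lt_of_lt_of_le (zpow_lt_zpow_right₀ (by norm_num) (by omega)) hk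
        have h6 : ∀ᶠ s in 𝓝[<] T, (2 : ℝ) ^ (j + 1) < rad W s :=
          ((LBStepD.continuousAt_rad hW hT).tendsto.mono_left
            nhdsWithin_le_nhds).eventually_const_lt hlt2
        obtain ⟨s, hs1, hs2⟩ := (h6.and (Ioo_mem_nhdsLT hT)).exists
        have h7 : LB.win W t j = LB.win W s j := win_eq hW hs2.1.le (hs2.2.le.trans hTt) hs1.le
        have h8 : p.Bad3 f W s j := by
          unfold LB.Par.Bad3 at h5 ⊢
          rw [← h7]
          exact h5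
        exact not_bad_of_lt p hs2.1 hs2.2 (Or.inr (Or.inr ⟨j, h8⟩))
      have hj : j = k ∨ j = k - 1 := by omega
      rcases hj with h | h
      · left; rw [← h]; exact hE
      · right; rw [← h]; exact hE

theorem zero_T (hW : ContinuousOn W (Ici 0)) (h0 : W 0 = 0) (hρ : 0 < p.rho1 f)
    (hT : p.T f W = 0) (K : ℤ) : ∃ k ≤ K, E2 p f W k ∨ E3 p f W k := by
  have hm : 0 < min (p.rho1 f) ((2 : ℝ) ^ K) := lt_min hρ (by positivity)
  have hc : ContinuousWithinAt (rad W) (Ici 0) 0 := LBStepD.continuousOn_rad hW 0 (by simp)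
  have h1 : ∀ᶠ t in 𝓝[Ici 0] (0 : ℝ), rad W t < min (p.rho1 f) ((2 : ℝ) ^ K) := by
    have := hc.tendsto
    rw [LBStepD.rad_zero h0] at this
    exact this.eventually_lt_const hm
  obtain ⟨δ, hδ, hδ'⟩ := Metric.mem_nhdsWithin_iff.1 h1
  have hnear : ∀ t, 0 < t → t < δ → rad W t < min (p.rho1 f) ((2 : ℝ) ^ K) := by
    intro t ht1 ht2
    refine hδ' ⟨?_, ht1.le⟩
    rw [Metric.mem_ball, Real.dist_eq, sub_zero, abs_of_pos ht1]
    exact ht2
  by_cases hA : ∃ t, 0 < t ∧ t < δ ∧ p.Bad2 f W t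
  · obtain ⟨t, ht1, ht2, ht3⟩ := hA
    obtain ⟨k, hk, hE⟩ := e2_of ht1 ht3
    refine ⟨k, ?_, Or.inl hE⟩
    have h3 := (hnear t ht1 ht2).trans_le (min_le_right _ _)
    exact ((zpow_lt_zpow_iff_right₀ (by norm_num : (1 : ℝ) < 2)).1 (hk.trans_lt h3)).le
  · push Not at hA
    have hne : {t | 0 < t ∧ p.Bad f W t}.Nonempty := by
      refine ⟨(p.rho1 f + 1) ^ 2, by positivity, Or.inl ?_⟩
      unfold LB.Par.Bad1
      have h3 := sqrt_le_rad W ((p.rho1 f + 1) ^ 2)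
      rw [Real.sqrt_sq (by positivity)] at h3
      linarith
    have hT' : sInf {t | 0 < t ∧ p.Bad f W t} < δ := by
      have : sInf {t | 0 < t ∧ p.Bad f W t} = 0 := hT
      rw [this]
      exact hδ
    obtain ⟨t, ht, htlt⟩ := exists_lt_of_csInf_lt hne hT'
    rcases ht.2 with h5 | h5 | ⟨j, h5⟩
    · exact absurd h5 (not_lt.2 ((hnear t ht.1 htlt).le.trans (min_le_left _ _)))
    · exact absurd h5 (hA t ht.1 htlt)
    · refine ⟨j, ?_, Or.inr ⟨t, ht.1, fun s hs hst => hA s hs (hst.trans htlt), h5⟩⟩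
      have h3 := (hnear t ht.1 htlt).trans_le (min_le_right _ _)
      exact ((zpow_lt_zpow_iff_right₀ (by norm_num : (1 : ℝ) < 2)).1
        ((bad3_le hW h5).trans_lt h3)).le

theorem bad_T (hW : ContinuousOn W (Ici 0)) {s : ℝ} (hs : 0 < s) (hr : rad W s ≤ p.rho1 f)
    (hb : p.Bad2 f W s ∨ ∃ k, p.Bad3 f W s k) :
    ∃ k : ℤ, (2 : ℝ) ^ k ≤ p.rho1 f ∧ (E2 p f W k ∨ E3 p f W k) := by
  by_cases hA : ∃ t, 0 < t ∧ t ≤ s ∧ p.Bad2 f W t
  · obtain ⟨t, ht1, ht2, ht3⟩ := hA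
    obtain ⟨k, hk, hE⟩ := e2_of ht1 ht3
    exact ⟨k, (hk.trans (rad_mono hW ht1.le ht2)).trans hr, Or.inl hE⟩
  · push Not at hA
    rcases hb with hb | ⟨j, hb⟩
    · exact absurd hb (hA s hs le_rfl)
    · exact ⟨j, (bad3_le hW hb).trans hr, Or.inr ⟨s, hs, fun t ht hts => hA t ht hts.le, hb⟩⟩

/-- the pathwise input of the bookkeeping -/
theorem pathFacts (hf : DifferentiableOn ℂ f KB1.Hs) (hρ : 0 < p.rho1 f)
    (hW : ContinuousOn W (Ici 0)) (h0 : W 0 = 0) : PathFacts p f W where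
  pos hT := LBStepD.rad_pos hT
  le hT := LBStepD.rad_T_le hW hT
  nb2 hT := nb2_T hW hf hT
  low hT hlt _ hk hk' := low_T hW hf hT hlt hk hk'
  zero hT K := zero_T hW h0 hρ hT K
  bad _ hs hr hb := bad_T hW hs hr hb

theorem pathIn : PathIn := fun _ _ hS hρ _ hW h0 => pathFacts hS.diff hρ hW h0

end Crest.Agent.R162.LBBook
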