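import Crest.Agent.R162.LBSkel
import Crest.Agent.R162.LBStep1
import Crest.Agent.R162.LBStepIn
import Crest.Agent.R162.LBStepIn2
import Crest.Agent.R162.LB0D

/-!
Row 162 (S0243), node STEP-(B) (helper301, insurance copy of helper261's LBBook): the per-scale
bounds `In2`, `In3`, `InZ` give `LBrS e` and the tail of the new potential `Z'`.
-/

set_option autoImplicit false

open MeasureTheory ProbabilityTheory Set Filter Topology Complex
open scoped NNReal ENNReal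
open Crest.ProbabilityR.Loewner

namespace Crest.Agent.R162.LBBookX

open Crest.Agent.R162.LB Crest.Agent.R162.FL Crest.Agent.R162.OS Crest.Agent.R162.LBStep
open Crest.Agent.R162.LBS

universe u

/-- the deterministic path facts (C1)-(C4) of helper371's LBPath -/
structure PathFacts (p : LB.Par) (f : ℂ → ℂ) (W : ℝ → ℝ) : Prop where
  c1 : rad W (p.T f W) ≠ p.rho1 f → ∃ k : ℤ, (2 : ℝ) ^ k ≤ p.rho1 f ∧ (E2 p f W k ∨ E3 p f W k)
  c1' : p.T f W = 0 → ∀ K : ℤ, ∃ k : ℤ, k ≤ K ∧ (E2 p f W k ∨ E3 p f W k)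
  c2 : 0 < p.T f W → ∀ k : ℤ, (2 : ℝ) ^ k ≤ rad W (p.T f W) → rad W (p.T f W) < (2 : ℝ) ^ (k + 1) →
    (2 : ℝ) ^ (k + 1) ≤ p.rho1 f → E2 p f W k ∨ E3 p f W k ∨ E3 p f W (k - 1)
  c3 : 0 < p.T f W → rad W (p.T f W) ≤ p.rho1 f
  c4 : 0 < p.T f W → ∀ (k : ℤ) (n : ℕ), (2 : ℝ) ^ k ≤ rad W (p.T f W) →
    rad W (p.T f W) < (2 : ℝ) ^ (k + 1) →
    ENNReal.ofReal n < Jv p.u0 p.q (LB.Par.st f W (p.T f W)) (10 * rad W (p.T f W)) → EZ p f W k n

/-- all path facts -/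
def PathS : Prop :=
  ∀ p : LB.Par, p.Adm → ∀ f, State p f → 0 < p.rho1 f → ∀ W : ℝ → ℝ, ContinuousOn W (Ici 0) →
    W 0 = 0 → PathFacts p f W

/-! ### elementary -/

theorem driving_cont {Ω : Type*} {m : MeasurableSpace Ω} {F : Filtration ℝ≥0 m} {P : Measure Ω}
    {B : ℝ≥0 → Ω → ℝ} (hB : IsBM F B P) (κ : ℝ) (ω : Ω) :
    ContinuousOn (driving κ B ω) (Ici 0) := by
  have h : Continuous fun t : ℝ => B (Real.toNNReal t) ω :=
    (hB.cont ω).comp continuous_real_toNNReal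
  exact (continuous_const.mul h).continuousOn

theorem driving_zero {Ω : Type*} {m : MeasurableSpace Ω} {F : Filtration ℝ≥0 m} {P : Measure Ω}
    {B : ℝ≥0 → Ω → ℝ} (hB : IsBM F B P) (κ : ℝ) (ω : Ω) : driving κ B ω 0 = 0 := by
  simp [driving, hB.zero ω]

theorem min_le_sqrt {A B : ℝ} (hA : 0 ≤ A) (hB : 0 ≤ B) : min A B ≤ Real.sqrt A * Real.sqrt B := by
  have hm : 0 ≤ min A B := le_min hA hB
  rw [← Real.sqrt_mul hA]
  apply Real.le_sqrt_of_sq_le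
  rw [sq]
  exact mul_le_mul (min_le_left _ _) (min_le_right _ _) hm hA

theorem sqrt_add_le {x y : ℝ} (hx : 0 ≤ x) (hy : 0 ≤ y) :
    Real.sqrt (x + y) ≤ Real.sqrt x + Real.sqrt y := by
  rw [Real.sqrt_le_left (by positivity)]
  nlinarith [Real.sq_sqrt hx, Real.sq_sqrt hy, Real.sqrt_nonneg x, Real.sqrt_nonneg y,
    mul_nonneg (Real.sqrt_nonneg x) (Real.sqrt_nonneg y)]

/-- the old geodesic facts, from `State` only -/
theorem geoS {p : LB.Par} (hA : p.Adm) (hc : LB0.Small p) {f : ℂ → ℂ} (hf : State p f) :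
    0 < p.rho1 f ∧
    (∀ y : ℝ, 0 < y → y ≤ 10 * p.rho1 f → LB.vv p.u0 f y ≤ 102 * p.K4 ^ 2 * p.θ) ∧
    LB.Jv p.u0 p.q f (10 * p.rho1 f) ≤ ENNReal.ofReal (p.K3 + Real.log (10 * p.K4)) := by
  have hK42 : 1 ≤ p.K4 ^ 2 := one_le_pow₀ hc.K4_ge
  have hθ1 : p.θ < 1 := by have := hc.sm2; have := hc.θ_pos; nlinarith
  have hne : (LB0.bad p.u0 p.q f p.θ p.K3).Nonempty := by
    have h1 : ∀ᶠ y in atTop, p.θ < vv p.u0 f y := hf.v_tendsto.eventually (lt_mem_nhds hθ1)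
    obtain ⟨y, hy, hy0⟩ := (h1.and (eventually_gt_atTop (0 : ℝ))).exists
    exact ⟨y, hy0, Or.inl hy.le⟩
  obtain ⟨g1, g2, g3, g4, g5, g6⟩ := LB0.geo (K4 := p.K4) hf.diff hf.inj hA.lip hA.one_le hc.q_pos
    hc.q_lt hc.θ_pos hc.K3_pos hc.K4_ge hc.sm1 hc.sm2 ⟨1, one_pos, (hf.J 1).lt_top⟩ hne
  have hrho : p.rho1 f = LB0.rho1 p.u0 p.q f p.θ p.K3 p.K4 := by
    unfold LB.Par.rho1 LB0.rho1
    rfl
  rw [← hrho] at g2 g5 g6
  exact ⟨g2, fun y hy hy2 => g5 y hy hy2, g6⟩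

/-! ### abstract book-keeping -/

/-- `Σ_{2^k ≤ r} v_k^a` -/
noncomputable def SS (r : ℝ) (v : ℤ → ℝ) (a : ℝ) : ℝ≥0∞ :=
  ∑' k : ℤ, if (2 : ℝ) ^ k ≤ r then ENNReal.ofReal (v k ^ a) else 0

section

variable {Ω : Type*} [MeasurableSpace Ω] {P : Measure Ω} {r : ℝ} {v : ℤ → ℝ} {A2 A3 : ℤ → Set Ω}
    {C2 C3 cs : ℝ}

theorem union_le (hC2 : 0 ≤ C2) (hC3 : 0 ≤ C3) (hcs : 0 < cs)
    (hv0 : ∀ k : ℤ, (2 : ℝ) ^ k ≤ r → 0 < v k) (hv1 : ∀ k : ℤ, (2 : ℝ) ^ k ≤ r → v k ≤ 1)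
    (h2 : ∀ k : ℤ, (2 : ℝ) ^ k ≤ r → P (A2 k) ≤ ENNReal.ofReal (C2 * v k ^ cs))
    (h3 : ∀ k : ℤ, (2 : ℝ) ^ k ≤ r → P (A3 k) ≤ ENNReal.ofReal (C3 * v k ^ (cs / 2))) :
    ∑' k : ℤ, P (if (2 : ℝ) ^ k ≤ r then A2 k ∪ A3 k else ∅) ≤
      ENNReal.ofReal (C2 + C3) * SS r v (cs / 2) := by
  unfold SS
  rw [← ENNReal.tsum_mul_left]
  refine ENNReal.tsum_le_tsum fun k => ?_
  split_ifs with h
  · have hv := hv0 k h
    have h1 : v k ^ cs ≤ v k ^ (cs / 2) :=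
      Real.rpow_le_rpow_of_exponent_ge hv (hv1 k h) (by linarith)
    have hp : 0 ≤ v k ^ (cs / 2) := Real.rpow_nonneg hv.le _
    calc P (A2 k ∪ A3 k) ≤ P (A2 k) + P (A3 k) := measure_union_le _ _
      _ ≤ ENNReal.ofReal (C2 * v k ^ cs) + ENNReal.ofReal (C3 * v k ^ (cs / 2)) :=
        add_le_add (h2 k h) (h3 k h)
      _ = ENNReal.ofReal (C2 * v k ^ cs + C3 * v k ^ (cs / 2)) := by
        rw [← ENNReal.ofReal_add]
        · exact mul_nonneg hC2 (Real.rpow_nonneg hv.le _)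
        · exact mul_nonneg hC3 hp
      _ ≤ ENNReal.ofReal ((C2 + C3) * v k ^ (cs / 2)) := by
        apply ENNReal.ofReal_le_ofReal
        rw [add_mul]
        gcongr
      _ = _ := ENNReal.ofReal_mul (by positivity)
  · simp

theorem shift_le (a : ℝ) :
    ∑' k : ℤ, (if (2 : ℝ) ^ (k + 1) ≤ r then ENNReal.ofReal (v (k - 1) ^ a) else 0) ≤ SS r v a := by
  unfold SS
  rw [← (Equiv.subRight (1 : ℤ)).tsum_eq
    (fun k : ℤ => if (2 : ℝ) ^ k ≤ r then ENNReal.ofReal (v k ^ a) else 0)]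
  refine ENNReal.tsum_le_tsum fun k => ?_
  simp only [Equiv.subRight_apply]
  split_ifs with h1 h2
  · exact le_rfl
  · exact absurd ((zpow_le_zpow_right₀ (by norm_num : (1 : ℝ) ≤ 2) (by omega)).trans h1) h2
  · exact bot_le
  · exact le_rfl

theorem shift_le' (a : ℝ) :
    ∑' k : ℤ, (if (2 : ℝ) ^ (k + 1) ≤ r then ENNReal.ofReal (v k ^ a) else 0) ≤ SS r v a := by
  unfold SS
  refine ENNReal.tsum_le_tsum fun k => ?_
  split_ifs with h1 h2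
  · exact le_rfl
  · exact absurd ((zpow_le_zpow_right₀ (by norm_num : (1 : ℝ) ≤ 2) (by omega)).trans h1) h2
  · exact bot_le
  · exact le_rfl

theorem cross_le (hC2 : 0 ≤ C2) (hC3 : 0 ≤ C3) (hcs : 0 < cs)
    (hv0 : ∀ k : ℤ, (2 : ℝ) ^ k ≤ r → 0 < v k) (hv1 : ∀ k : ℤ, (2 : ℝ) ^ k ≤ r → v k ≤ 1)
    (h2 : ∀ k : ℤ, (2 : ℝ) ^ k ≤ r → P (A2 k) ≤ ENNReal.ofReal (C2 * v k ^ cs))
    (h3 : ∀ k : ℤ, (2 : ℝ) ^ k ≤ r → P (A3 k) ≤ ENNReal.ofReal (C3 * v k ^ (cs / 2)))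
    {Z : ℤ → Set Ω} {A : ℝ} (hA : 0 ≤ A) (hZ : ∀ k : ℤ, (2 : ℝ) ^ k ≤ r → P (Z k) ≤ ENNReal.ofReal A) :
    ∑' k : ℤ, P (if (2 : ℝ) ^ (k + 1) ≤ r then Z k ∩ (A2 k ∪ (A3 k ∪ A3 (k - 1))) else ∅) ≤
      ENNReal.ofReal (Real.sqrt A * Real.sqrt (C2 + C3)) * (2 * SS r v (cs / 4)) := by
  have hle : ∀ k : ℤ, (2 : ℝ) ^ (k + 1) ≤ r → (2 : ℝ) ^ k ≤ r := fun k h =>
    (zpow_le_zpow_right₀ (by norm_num : (1 : ℝ) ≤ 2) (by omega)).trans h
  have hle' : ∀ k : ℤ, (2 : ℝ) ^ (k + 1) ≤ r → (2 : ℝ) ^ (k - 1) ≤ r := fun k h =>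
    (zpow_le_zpow_right₀ (by norm_num : (1 : ℝ) ≤ 2) (by omega)).trans h
  have hpt : ∀ k : ℤ, P (if (2 : ℝ) ^ (k + 1) ≤ r then Z k ∩ (A2 k ∪ (A3 k ∪ A3 (k - 1))) else ∅) ≤
      ENNReal.ofReal (Real.sqrt A * Real.sqrt (C2 + C3)) *
        ((if (2 : ℝ) ^ (k + 1) ≤ r then ENNReal.ofReal (v k ^ (cs / 4)) else 0) +
          (if (2 : ℝ) ^ (k + 1) ≤ r then ENNReal.ofReal (v (k - 1) ^ (cs / 4)) else 0)) := by
    intro k
    split_ifs with h
    · have hk := hle k h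
      have hk' := hle' k h
      have hv := hv0 k hk
      have hv' := hv0 _ hk'
      have h1 : v k ^ cs ≤ v k ^ (cs / 2) :=
        Real.rpow_le_rpow_of_exponent_ge hv (hv1 k hk) (by linarith)
      have hp : 0 ≤ v k ^ (cs / 2) := Real.rpow_nonneg hv.le _
      have hp' : 0 ≤ v (k - 1) ^ (cs / 2) := Real.rpow_nonneg hv'.le _
      have hp4 : 0 ≤ v k ^ (cs / 4) := Real.rpow_nonneg hv.le _
      have hp4' : 0 ≤ v (k - 1) ^ (cs / 4) := Real.rpow_nonneg hv'.le _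
      have hcs2 : 0 ≤ v k ^ cs := Real.rpow_nonneg hv.le _
      set Bk : ℝ := C2 * v k ^ cs + (C3 * v k ^ (cs / 2) + C3 * v (k - 1) ^ (cs / 2)) with hBk
      have hBk0 : 0 ≤ Bk := by positivity
      have hsq : ∀ x : ℝ, 0 < x → Real.sqrt (x ^ (cs / 2)) = x ^ (cs / 4) := by
        intro x hx
        rw [Real.sqrt_eq_rpow, ← Real.rpow_mul hx.le]
        congr 1; ring
      have hB1 : Bk ≤ (C2 + C3) * v k ^ (cs / 2) + (C2 + C3) * v (k - 1) ^ (cs / 2) := by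
        have e1 : C2 * v k ^ cs ≤ C2 * v k ^ (cs / 2) := by gcongr
        have e2 : 0 ≤ C2 * v (k - 1) ^ (cs / 2) := by positivity
        rw [hBk]; nlinarith
      have hB2 : Real.sqrt Bk ≤ Real.sqrt (C2 + C3) * (v k ^ (cs / 4) + v (k - 1) ^ (cs / 4)) := by
        calc Real.sqrt Bk ≤ Real.sqrt ((C2 + C3) * v k ^ (cs / 2) +
              (C2 + C3) * v (k - 1) ^ (cs / 2)) := Real.sqrt_le_sqrt hB1
          _ ≤ Real.sqrt ((C2 + C3) * v k ^ (cs / 2)) +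
              Real.sqrt ((C2 + C3) * v (k - 1) ^ (cs / 2)) :=
            sqrt_add_le (by positivity) (by positivity)
          _ = _ := by
            rw [Real.sqrt_mul (by positivity), Real.sqrt_mul (by positivity), hsq _ hv, hsq _ hv',
              mul_add]
      have hPB : P (A2 k ∪ (A3 k ∪ A3 (k - 1))) ≤ ENNReal.ofReal Bk := by
        calc P (A2 k ∪ (A3 k ∪ A3 (k - 1))) ≤ P (A2 k) + P (A3 k ∪ A3 (k - 1)) :=
              measure_union_le _ _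
          _ ≤ P (A2 k) + (P (A3 k) + P (A3 (k - 1))) := by gcongr; exact measure_union_le _ _
          _ ≤ ENNReal.ofReal (C2 * v k ^ cs) + (ENNReal.ofReal (C3 * v k ^ (cs / 2)) +
              ENNReal.ofReal (C3 * v (k - 1) ^ (cs / 2))) := by
            gcongr
            · exact h2 k hk
            · exact h3 k hk
            · exact h3 _ hk'
          _ = _ := by
            rw [hBk, ENNReal.ofReal_add (by positivity) (by positivity),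
              ENNReal.ofReal_add (by positivity) (by positivity)]
      have hmin : P (Z k ∩ (A2 k ∪ (A3 k ∪ A3 (k - 1)))) ≤ ENNReal.ofReal (min A Bk) := by
        rcases le_total A Bk with hAB | hAB
        · rw [min_eq_left hAB]
          exact (measure_mono inter_subset_left).trans (hZ k hk)
        · rw [min_eq_right hAB]
          exact (measure_mono inter_subset_right).trans hPB
      calc P (Z k ∩ (A2 k ∪ (A3 k ∪ A3 (k - 1)))) ≤ ENNReal.ofReal (min A Bk) := hmin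
        _ ≤ ENNReal.ofReal (Real.sqrt A * Real.sqrt Bk) :=
          ENNReal.ofReal_le_ofReal (min_le_sqrt hA hBk0)
        _ ≤ ENNReal.ofReal (Real.sqrt A * Real.sqrt (C2 + C3) *
            (v k ^ (cs / 4) + v (k - 1) ^ (cs / 4))) := by
          apply ENNReal.ofReal_le_ofReal
          rw [mul_assoc]
          gcongr
        _ = _ := by
          rw [ENNReal.ofReal_mul (by positivity), ENNReal.ofReal_add hp4 hp4']
    · simp
  calc _ ≤ ∑' k : ℤ, ENNReal.ofReal (Real.sqrt A * Real.sqrt (C2 + C3)) *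
        ((if (2 : ℝ) ^ (k + 1) ≤ r then ENNReal.ofReal (v k ^ (cs / 4)) else 0) +
          (if (2 : ℝ) ^ (k + 1) ≤ r then ENNReal.ofReal (v (k - 1) ^ (cs / 4)) else 0)) :=
        ENNReal.tsum_le_tsum hpt
    _ = ENNReal.ofReal (Real.sqrt A * Real.sqrt (C2 + C3)) *
        ((∑' k : ℤ, (if (2 : ℝ) ^ (k + 1) ≤ r then ENNReal.ofReal (v k ^ (cs / 4)) else 0)) +
          ∑' k : ℤ, (if (2 : ℝ) ^ (k + 1) ≤ r then ENNReal.ofReal (v (k - 1) ^ (cs / 4)) else 0)) := by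
        rw [ENNReal.tsum_mul_left, ENNReal.tsum_add]
    _ ≤ _ := by
        rw [two_mul]
        gcongr
        · exact shift_le' _
        · exact shift_le _

end

/-! ### one step -/

section step

variable {p : LB.Par} {f : ℂ → ℂ} {Ω : Type u} [MeasurableSpace Ω] {P : Measure Ω}
    {B : ℝ≥0 → Ω → ℝ} {C2 C3 M V : ℝ}

/-- the dyadic sums along the old geodesic -/
theorem SS_le (hA : p.Adm) (hsm : LB0.Small p) (hf : State p f) (hV : V = 102 * p.K4 ^ 2 * p.θ)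
    (hM : M = p.K3 + Real.log (10 * p.K4)) {a : ℝ} (ha : p.q ≤ a) :
    SS (p.rho1 f) (fun k => vv p.u0 f ((2 : ℝ) ^ k)) a ≤ ENNReal.ofReal (20 * V ^ (a - p.q) * M) := by
  obtain ⟨g1, g2, g3⟩ := geoS hA hsm hf
  have hV1 : V ≤ 1 := by have := hsm.sm2; rw [hV]; nlinarith
  have hV0 : 0 ≤ V := by have := hsm.θ_pos; rw [hV]; positivity
  have hl : ∀ x y : ℂ, |p.u0 x - p.u0 y| ≤ ‖x - y‖ := LB0.u0_sub_le hA.lip
  have h := dyad (f := f) (u0 := p.u0) hf.diff hf.inj hA.one_le hl (q := p.q) (a := a)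
    (r := p.rho1 f) (V := V) hsm.q_pos.le hsm.q_lt.le ha hV1
    (fun y hy hy2 => by rw [hV]; exact g2 y hy (by linarith))
  have hmono : LB1.Jv p.u0 p.q f (2 * p.rho1 f) ≤ ENNReal.ofReal M := by
    rw [hM]
    refine le_trans ?_ g3
    exact lintegral_mono_set (Ioc_subset_Ioc_right (by linarith))
  calc SS (p.rho1 f) (fun k => vv p.u0 f ((2 : ℝ) ^ k)) a
      ≤ ENNReal.ofReal (20 * V ^ (a - p.q)) * LB1.Jv p.u0 p.q f (2 * p.rho1 f) := h
    _ ≤ ENNReal.ofReal (20 * V ^ (a - p.q)) * ENNReal.ofReal M := by gcongr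
    _ = _ := by
      rw [← ENNReal.ofReal_mul]
      have := Real.rpow_nonneg hV0 (a - p.q)
      positivity

/-- events of one step -/
def a2 (p : LB.Par) (f : ℂ → ℂ) (B : ℝ≥0 → Ω → ℝ) (k : ℤ) : Set Ω :=
  {ω | E2 p f (driving p.κ B ω) k}

/-- events of one step -/
def a3 (p : LB.Par) (f : ℂ → ℂ) (B : ℝ≥0 → Ω → ℝ) (k : ℤ) : Set Ω :=
  {ω | E3 p f (driving p.κ B ω) k}

/-- events of one step -/
def aZ (p : LB.Par) (f : ℂ → ℂ) (B : ℝ≥0 → Ω → ℝ) (n : ℕ) (k : ℤ) : Set Ω :=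
  {ω | EZ p f (driving p.κ B ω) k n}

theorem v_facts (hA : p.Adm) (hsm : LB0.Small p) (hf : State p f) :
    (∀ k : ℤ, (2 : ℝ) ^ k ≤ p.rho1 f → 0 < vv p.u0 f ((2 : ℝ) ^ k)) ∧
    (∀ k : ℤ, (2 : ℝ) ^ k ≤ p.rho1 f → vv p.u0 f ((2 : ℝ) ^ k) ≤ 1) := by
  obtain ⟨g1, g2, g3⟩ := geoS hA hsm hf
  refine ⟨fun k _ => LBStep.vv_pos hf.diff hf.inj hA.one_le (by positivity), fun k hk => ?_⟩
  refine (g2 _ (by positivity) (by linarith)).trans ?_
  have := hsm.sm2; nlinarith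

variable (hA : p.Adm) (hsm : LB0.Small p) (hf : State p f) (hcs : 0 < p.cs)
  (hC2 : 0 ≤ C2) (hC3 : 0 ≤ C3)
  (h2 : ∀ k : ℤ, (2 : ℝ) ^ k ≤ p.rho1 f →
    P (a2 p f B k) ≤ ENNReal.ofReal (C2 * vv p.u0 f ((2 : ℝ) ^ k) ^ p.cs))
  (h3 : ∀ k : ℤ, (2 : ℝ) ^ k ≤ p.rho1 f →
    P (a3 p f B k) ≤ ENNReal.ofReal (C3 * vv p.u0 f ((2 : ℝ) ^ k) ^ (p.cs / 2)))
  (hpath : ∀ ω, PathFacts p f (driving p.κ B ω))
  (hV : V = 102 * p.K4 ^ 2 * p.θ) (hM : M = p.K3 + Real.log (10 * p.K4))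

include hA hsm hf hcs hC2 hC3 h2 h3 hV hM in
theorem sum_le (hq : 2 * p.q ≤ p.cs) :
    ∑' k : ℤ, P (if (2 : ℝ) ^ k ≤ p.rho1 f then a2 p f B k ∪ a3 p f B k else ∅) ≤
      ENNReal.ofReal ((C2 + C3) * (20 * V ^ (p.cs / 2 - p.q) * M)) := by
  obtain ⟨hv0, hv1⟩ := v_facts hA hsm hf
  refine (union_le hC2 hC3 hcs hv0 hv1 h2 h3).trans ?_
  rw [ENNReal.ofReal_mul (by positivity)]
  gcongr
  exact SS_le hA hsm hf hV hM (by linarith)

include hA hsm hf hcs hC2 hC3 h2 h3 hV hM hpath in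
theorem br_le (hq : 2 * p.q ≤ p.cs) :
    P {ω | rad (driving p.κ B ω) (p.T f (driving p.κ B ω)) ≠ p.rho1 f} ≤
      ENNReal.ofReal ((C2 + C3) * (20 * V ^ (p.cs / 2 - p.q) * M)) := by
  refine le_trans ?_ (sum_le hA hsm hf hcs hC2 hC3 h2 h3 hV hM hq)
  refine le_trans (measure_mono ?_) (measure_iUnion_le _)
  intro ω hω
  obtain ⟨k, hk, hE⟩ := (hpath ω).c1 hω
  rw [mem_iUnion]
  refine ⟨k, ?_⟩
  rw [if_pos hk]
  exact hE

include hA hsm hf hcs hC2 hC3 h2 h3 hV hM hpath in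
theorem T_ne_zero (hq : 2 * p.q ≤ p.cs) :
    P {ω | p.T f (driving p.κ B ω) = 0} = 0 := by
  obtain ⟨g1, g2, g3⟩ := geoS hA hsm hf
  obtain ⟨k0, hk0, -⟩ := exists_mem_Ico_zpow g1 (by norm_num : (1 : ℝ) < 2)
  have hfin : ∑' k : ℤ, P (if (2 : ℝ) ^ k ≤ p.rho1 f then a2 p f B k ∪ a3 p f B k else ∅) ≠ ⊤ :=
    ((sum_le hA hsm hf hcs hC2 hC3 h2 h3 hV hM hq).trans_lt ENNReal.ofReal_lt_top).ne
  have h0 := measure_limsup_cofinite_eq_zero hfin
  refine measure_mono_null ?_ h0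
  intro ω hω
  rw [cofinite.limsup_set_eq]
  by_contra hcon
  rw [mem_ofPred_eq, Set.not_infinite] at hcon
  obtain ⟨m, hm⟩ := hcon.bddBelow
  obtain ⟨k, hk, hE⟩ := (hpath ω).c1' hω (min (m - 1) k0)
  have hk1 : (2 : ℝ) ^ k ≤ p.rho1 f :=
    (zpow_le_zpow_right₀ (by norm_num : (1 : ℝ) ≤ 2) (hk.trans (min_le_right _ _))).trans hk0
  have hmem : k ∈ {n : ℤ | ω ∈ (if (2 : ℝ) ^ n ≤ p.rho1 f then a2 p f B n ∪ a3 p f B n else ∅)} := by
    rw [mem_ofPred_eq, if_pos hk1]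
    exact hE
  have := hm hmem
  have := hk.trans (min_le_left _ _)
  omega

include hA hsm hf hcs hC2 hC3 h2 h3 hV hM hpath in
theorem zt_le (hq : 4 * p.q ≤ p.cs) {CZ a : ℝ} (hCZ : 0 ≤ CZ) (ha : 0 < a)
    (hZ : ∀ (k : ℤ) (n : ℕ), (2 : ℝ) ^ k ≤ p.rho1 f →
      P (aZ p f B n k) ≤ ENNReal.ofReal (CZ * Real.exp (-(a * n))))
    (hsmall : Real.sqrt (C2 + C3) * (40 * V ^ (p.cs / 4 - p.q) * M) ≤ 1) (n : ℕ) :
    P {ω | ENNReal.ofReal n < Jv p.u0 p.q (LB.Par.st f (driving p.κ B ω) (p.T f (driving p.κ B ω)))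
        (10 * rad (driving p.κ B ω) (p.T f (driving p.κ B ω)))} ≤
      ENNReal.ofReal ((CZ + Real.sqrt CZ) * Real.exp (-((a / 2) * n))) := by
  obtain ⟨g1, g2, g3⟩ := geoS hA hsm hf
  obtain ⟨hv0, hv1⟩ := v_facts hA hsm hf
  obtain ⟨k1, hk1, hk1'⟩ := exists_mem_Ico_zpow g1 (by norm_num : (1 : ℝ) < 2)
  set A : ℝ := CZ * Real.exp (-(a * n)) with hAdef
  have hA0 : 0 ≤ A := by positivity
  have hM0 : 0 ≤ M := by
    rw [hM]
    have h1 := hsm.K3_pos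
    have h2 := Real.log_nonneg (x := 10 * p.K4) (by have := hsm.K4_ge; linarith)
    linarith
  have hV0 : 0 ≤ V := by have := hsm.θ_pos; rw [hV]; positivity
  have hVp := Real.rpow_nonneg hV0 (p.cs / 4 - p.q)
  have hcross := cross_le hC2 hC3 hcs hv0 hv1 h2 h3 (Z := aZ p f B n) hA0
    (fun k hk => hZ k n hk)
  have hSS := SS_le hA hsm hf hV hM (a := p.cs / 4) (by linarith)
  have hsub : {ω | ENNReal.ofReal n <
      Jv p.u0 p.q (LB.Par.st f (driving p.κ B ω) (p.T f (driving p.κ B ω)))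
        (10 * rad (driving p.κ B ω) (p.T f (driving p.κ B ω)))} ⊆
      {ω | p.T f (driving p.κ B ω) = 0} ∪ (aZ p f B n k1 ∪ ⋃ k : ℤ,
        (if (2 : ℝ) ^ (k + 1) ≤ p.rho1 f then
          aZ p f B n k ∩ (a2 p f B k ∪ (a3 p f B k ∪ a3 p f B (k - 1))) else ∅)) := by
    intro ω hω
    rw [mem_ofPred_eq] at hω
    by_cases h0 : p.T f (driving p.κ B ω) = 0
    · exact Or.inl h0
    · right
      have hT : 0 < p.T f (driving p.κ B ω) := lt_of_le_of_ne (T_nonneg p f _) (Ne.symm h0)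
      have hr0 : 0 < rad (driving p.κ B ω) (p.T f (driving p.κ B ω)) :=
        (Real.sqrt_pos.2 hT).trans_le (sqrt_le_rad _ _)
      obtain ⟨k, hk, hk'⟩ := exists_mem_Ico_zpow hr0 (by norm_num : (1 : ℝ) < 2)
      have hz := (hpath ω).c4 hT k n hk hk' hω
      have hc3 := (hpath ω).c3 hT
      by_cases hkr : (2 : ℝ) ^ (k + 1) ≤ p.rho1 f
      · right
        rw [mem_iUnion]
        refine ⟨k, ?_⟩
        rw [if_pos hkr]
        refine ⟨hz, ?_⟩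
        rcases (hpath ω).c2 hT k hk hk' hkr with h | h | h
        · exact Or.inl h
        · exact Or.inr (Or.inl h)
        · exact Or.inr (Or.inr h)
      · left
        have e1 : (2 : ℝ) ^ k1 < 2 ^ (k + 1) := hk1.trans_lt (not_le.1 hkr)
        have e2 : (2 : ℝ) ^ k < 2 ^ (k1 + 1) := (hk.trans hc3).trans_lt hk1'
        rw [zpow_lt_zpow_iff_right₀ (by norm_num : (1 : ℝ) < 2)] at e1 e2
        have : k = k1 := by omega
        subst this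
        exact hz
  have h0 := T_ne_zero hA hsm hf hcs hC2 hC3 h2 h3 hpath hV hM (by linarith [hsm.q_pos])
  calc _ ≤ P ({ω | p.T f (driving p.κ B ω) = 0} ∪ (aZ p f B n k1 ∪ ⋃ k : ℤ,
        (if (2 : ℝ) ^ (k + 1) ≤ p.rho1 f then
          aZ p f B n k ∩ (a2 p f B k ∪ (a3 p f B k ∪ a3 p f B (k - 1))) else ∅))) :=
        measure_mono hsub
    _ ≤ P {ω | p.T f (driving p.κ B ω) = 0} + P (aZ p f B n k1 ∪ ⋃ k : ℤ,
        (if (2 : ℝ) ^ (k + 1) ≤ p.rho1 f then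
          aZ p f B n k ∩ (a2 p f B k ∪ (a3 p f B k ∪ a3 p f B (k - 1))) else ∅)) :=
        measure_union_le _ _
    _ ≤ 0 + (P (aZ p f B n k1) + P (⋃ k : ℤ,
        (if (2 : ℝ) ^ (k + 1) ≤ p.rho1 f then
          aZ p f B n k ∩ (a2 p f B k ∪ (a3 p f B k ∪ a3 p f B (k - 1))) else ∅))) := by
        rw [h0]
        gcongr
        exact measure_union_le _ _
    _ ≤ ENNReal.ofReal A + ENNReal.ofReal (Real.sqrt A * Real.sqrt (C2 + C3)) *
        (2 * SS (p.rho1 f) (fun k => vv p.u0 f ((2 : ℝ) ^ k)) (p.cs / 4)) := by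
        rw [zero_add]
        gcongr
        · exact hZ k1 n hk1
        · exact (measure_iUnion_le _).trans hcross
    _ ≤ ENNReal.ofReal A + ENNReal.ofReal (Real.sqrt A * Real.sqrt (C2 + C3)) *
        (2 * ENNReal.ofReal (20 * V ^ (p.cs / 4 - p.q) * M)) := by gcongr
    _ = ENNReal.ofReal (A + Real.sqrt A * (Real.sqrt (C2 + C3) *
        (40 * V ^ (p.cs / 4 - p.q) * M))) := by
        rw [ENNReal.ofReal_add hA0 (by positivity), show (2 : ℝ≥0∞) = ENNReal.ofReal 2 by norm_num,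
          ← ENNReal.ofReal_mul (by norm_num), ← ENNReal.ofReal_mul (by positivity)]
        congr 2
        ring
    _ ≤ _ := by
        apply ENNReal.ofReal_le_ofReal
        have e1 : Real.sqrt A * (Real.sqrt (C2 + C3) * (40 * V ^ (p.cs / 4 - p.q) * M)) ≤
            Real.sqrt A * 1 := by gcongr
        have e2 : Real.sqrt A = Real.sqrt CZ * Real.exp (-((a / 2) * n)) := by
          rw [hAdef, Real.sqrt_mul hCZ, ← Real.exp_half]
          congr 2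
          ring
        have e3 : Real.exp (-(a * n)) ≤ Real.exp (-((a / 2) * n)) := by
          apply Real.exp_le_exp.2
          have : 0 ≤ a * (n : ℝ) := by positivity
          nlinarith
        have e4 : A ≤ CZ * Real.exp (-((a / 2) * n)) := by rw [hAdef]; gcongr
        rw [add_mul]
        linarith

end step

/-! ### quantifiers -/

theorem exists_small {K4 e K t : ℝ} (hK4 : 1 ≤ K4) (he : 0 < e) (hK : 0 ≤ K) (ht : 0 < t) :
    ∃ θ0 : ℝ, 0 < θ0 ∧ ∀ θ : ℝ, 0 < θ → θ ≤ θ0 → K * (102 * K4 ^ 2 * θ) ^ e ≤ t := by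
  have hK4' : 0 < K4 := by linarith
  refine ⟨(t / (K + 1)) ^ (1 / e) / (102 * K4 ^ 2), by positivity, ?_⟩
  intro θ hθ hle
  have h1 : 102 * K4 ^ 2 * θ ≤ (t / (K + 1)) ^ (1 / e) := by
    rw [le_div_iff₀ (by positivity)] at hle
    linarith
  have h2 := Real.rpow_le_rpow (by positivity) h1 he.le
  rw [← Real.rpow_mul (by positivity), one_div_mul_cancel he.ne', Real.rpow_one] at h2
  calc K * (102 * K4 ^ 2 * θ) ^ e ≤ K * (t / (K + 1)) := by gcongr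
    _ = t * (K / (K + 1)) := by ring
    _ ≤ t * 1 := by
      gcongr
      rw [div_le_one (by positivity)]
      linarith
    _ = t := mul_one t

/-- **(B)**: `In2`, `In3`, `InZ` and the path facts give `LBrS e` and `ZtS D a`. -/
theorem book {κ c1 : ℝ} (hpath : PathS) (h2 : In2.{u} κ) (h3 : In3.{u} κ c1) (hZ : InZ.{u} κ) :
    ∃ cs0 : ℝ, 0 < cs0 ∧ ∀ cs : ℝ, 0 < cs → cs ≤ cs0 → ∀ q : ℝ, 0 < q → q ≤ 1 / 8 → 8 * q ≤ cs →
      ∃ D a : ℝ, 0 ≤ D ∧ 0 < a ∧ ∀ η K4 K3 : ℝ, 0 < η → η ≤ 1 / 8 → 1 ≤ K4 → 1 ≤ K3 →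
        (∀ e : ℝ, 0 < e → ForSmall κ c1 q η cs K4 K3 (LBrS.{u} e)) ∧
          ForSmall κ c1 q η cs K4 K3 (ZtS.{u} D a) := by
  obtain ⟨cs2, C2, hcs2, hC2, h2⟩ := h2
  obtain ⟨cs3, C3, hcs3, hC3, h3⟩ := h3
  refine ⟨min cs2 cs3, lt_min hcs2 hcs3, ?_⟩
  intro cs hcs hcsle q hq hq8 hqcs
  obtain ⟨a, CZ, ha, hCZ, hZ⟩ := hZ q hq hq8
  refine ⟨CZ + Real.sqrt CZ, a / 2, by positivity, by positivity, ?_⟩
  intro η K4 K3 hη hη8 hK4 hK3
  have hK3' : 0 < K3 := by linarith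
  obtain ⟨θ2, hθ2, h2⟩ := h2 cs q η K3 K4 hcs (hcsle.trans (min_le_left _ _)) hq hq8 hη hη8 hK3' hK4
  obtain ⟨θ3, hθ3, h3⟩ := h3 cs q η K3 K4 hcs (hcsle.trans (min_le_right _ _)) hq hq8 hη hη8 hK3' hK4
  obtain ⟨θZ, hθZ, hZ⟩ := hZ cs η K3 K4 hcs hη hη8 hK3' hK4
  obtain ⟨θ0, hθ0, h0⟩ := LB0.exists_theta (q := q) hq (by linarith) hK3' hK4
  set M : ℝ := K3 + Real.log (10 * K4) with hM
  have hM0 : 0 ≤ M := by
    have := Real.log_nonneg (x := 10 * K4) (by linarith)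
    linarith
  have hSmall : ∀ θ ε B u0, 0 < θ → θ ≤ θ0 → Ok (mkP κ c1 q η cs K4 K3 θ ε B u0) →
      LB0.Small (mkP κ c1 q η cs K4 K3 θ ε B u0) := by
    intro θ ε B u0 hθ hle hok
    obtain ⟨e1, e2⟩ := h0 θ hθ hle
    exact ⟨hq, by show q < 1; linarith, hη.le, hθ, hK3', hK4, e1, e2⟩
  have hSt : ∀ (p : LB.Par) (f : ℂ → ℂ), Start p f → State p f := fun p f h =>
    ⟨h.univ.diff, h.univ.inj, h.v_tendsto, h.lam, h.J_ne_top⟩
  constructor
  · intro e he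
    obtain ⟨θs, hθs, hs⟩ := exists_small (K4 := K4) (e := cs / 2 - q) (K := (C2 + C3) * 20 * M)
      (t := e) hK4 (by linarith) (by positivity) he
    refine ⟨min θ2 (min θ3 (min θ0 θs)), by positivity, fun θ hθ hle => ?_⟩
    have l2 : θ ≤ θ2 := hle.trans (min_le_left _ _)
    have l3 : θ ≤ θ3 := hle.trans ((min_le_right _ _).trans (min_le_left _ _))
    have l0 : θ ≤ θ0 :=
      hle.trans ((min_le_right _ _).trans ((min_le_right _ _).trans (min_le_left _ _)))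
    have ls : θ ≤ θs :=
      hle.trans ((min_le_right _ _).trans ((min_le_right _ _).trans (min_le_right _ _)))
    obtain ⟨ε3, hε3, h3⟩ := h3 θ hθ l3
    refine ⟨ε3, hε3, fun ε hε hεle B u0 hok => ?_⟩
    intro Ω _ P _ F Br hBr f hst
    have hsm := hSmall θ ε B u0 hθ l0 hok
    have hf := hSt _ f hst
    obtain ⟨g1, -, -⟩ := geoS hok.adm hsm hf
    refine (br_le (V := 102 * K4 ^ 2 * θ) (M := M) hok.adm hsm hf hcs hC2 hC3
      (h2 _ rfl rfl rfl rfl rfl rfl hθ l2 hok.adm f hf Ω P F Br hBr)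
      (h3 _ rfl rfl rfl rfl rfl rfl rfl rfl hε hεle hok.adm f hf Ω P F Br hBr)
      (fun ω => hpath _ hok.adm f hf g1 _ (driving_cont hBr κ ω) (driving_zero hBr κ ω))
      rfl rfl (by show 2 * q ≤ cs; linarith)).trans ?_
    apply ENNReal.ofReal_le_ofReal
    have := hs θ hθ ls
    calc (C2 + C3) * (20 * (102 * K4 ^ 2 * θ) ^ (cs / 2 - q) * M)
        = (C2 + C3) * 20 * M * (102 * K4 ^ 2 * θ) ^ (cs / 2 - q) := by ring
      _ ≤ e := this
  · obtain ⟨θs, hθs, hs⟩ := exists_small (K4 := K4) (e := cs / 4 - q)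
      (K := Real.sqrt (C2 + C3) * 40 * M) (t := 1) hK4 (by linarith) (by positivity) one_pos
    refine ⟨min θ2 (min θ3 (min θ0 (min θs θZ))), by positivity, fun θ hθ hle => ?_⟩
    have l2 : θ ≤ θ2 := hle.trans (min_le_left _ _)
    have l3 : θ ≤ θ3 := hle.trans ((min_le_right _ _).trans (min_le_left _ _))
    have l0 : θ ≤ θ0 :=
      hle.trans ((min_le_right _ _).trans ((min_le_right _ _).trans (min_le_left _ _)))
    have ls : θ ≤ θs :=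
      hle.trans ((min_le_right _ _).trans ((min_le_right _ _).trans
        ((min_le_right _ _).trans (min_le_left _ _))))
    have lZ : θ ≤ θZ :=
      hle.trans ((min_le_right _ _).trans ((min_le_right _ _).trans
        ((min_le_right _ _).trans (min_le_right _ _))))
    obtain ⟨ε3, hε3, h3⟩ := h3 θ hθ l3
    refine ⟨ε3, hε3, fun ε hε hεle B u0 hok => ?_⟩
    intro Ω _ P _ F Br hBr f hst n
    have hsm := hSmall θ ε B u0 hθ l0 hok
    have hf := hSt _ f hst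
    obtain ⟨g1, -, -⟩ := geoS hok.adm hsm hf
    refine zt_le (V := 102 * K4 ^ 2 * θ) (M := M) hok.adm hsm hf hcs hC2 hC3
      (h2 _ rfl rfl rfl rfl rfl rfl hθ l2 hok.adm f hf Ω P F Br hBr)
      (h3 _ rfl rfl rfl rfl rfl rfl rfl rfl hε hεle hok.adm f hf Ω P F Br hBr)
      (fun ω => hpath _ hok.adm f hf g1 _ (driving_cont hBr κ ω) (driving_zero hBr κ ω))
      rfl rfl (by show 4 * q ≤ cs; linarith) hCZ ha
      (hZ _ rfl rfl rfl rfl rfl rfl hθ lZ hok.adm f hf Ω P F Br hBr) ?_ n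
    have := hs θ hθ ls
    calc Real.sqrt (C2 + C3) * (40 * (102 * K4 ^ 2 * θ) ^ (cs / 4 - q) * M)
        = Real.sqrt (C2 + C3) * 40 * M * (102 * K4 ^ 2 * θ) ^ (cs / 4 - q) := by ring
      _ ≤ 1 := this

end Crest.Agent.R162.LBBookX
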