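import Mathlib
import Crest.Agent.R162.LBDefs
import Crest.Agent.R162.FLC3
import Crest.Agent.R162.FLB

/-!
Row 162 (S0243): LOWER BOUND, bridge between the format (fixed univalent map `f`, fresh driver
`W`) of `LBDefs` and the global flow / later times (helper888).
-/

set_option autoImplicit false

open Set MeasureTheory Complex
open scoped ENNReal

namespace Crest.Agent.R162.LB

open Crest.Agent.R162.FL Crest.Agent.R162.FLC

variable {W : ℝ → ℝ} {s t : ℝ} {z : ℂ}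

/-! ### the state map -/

lemma ups_ffl' (hW : ContinuousOn W (Ici 0)) (ht : 0 ≤ t) (hz : 0 < z.im) :
    KB1.ups (ffl W t) z = OP.ups W t (ffl W t z) := by
  rw [FLC.ups_ffl hW ht hz, KB1.ups]

/-- `Υ_{f ∘ f_t}(z) = |f'(f_t z)| Υ_t(f_t z)` -/
lemma ups_comp (hW : ContinuousOn W (Ici 0)) (ht : 0 ≤ t) (hz : 0 < z.im) {f : ℂ → ℂ}
    (hf : DifferentiableOn ℂ f {z | 0 < z.im}) :
    KB1.ups (f ∘ ffl W t) z = ‖deriv f (ffl W t z)‖ * OP.ups W t (ffl W t z) := by
  have h1 := hasDerivAt_ffl hW ht hz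
  have h0 : 0 < (ffl W t z).im := ffl_im_pos hW ht hz
  have h2 : DifferentiableAt ℂ f (ffl W t z) :=
    (hf _ h0).differentiableAt ((isOpen_H).mem_nhds h0)
  rw [← ups_ffl' hW ht hz, KB1.ups, KB1.ups, deriv_comp z h2 h1.differentiableAt, norm_mul]
  ring

lemma differentiableOn_comp (hW : ContinuousOn W (Ici 0)) (ht : 0 ≤ t) {f : ℂ → ℂ}
    (hf : DifferentiableOn ℂ f {z | 0 < z.im}) :
    DifferentiableOn ℂ (f ∘ ffl W t) {z | 0 < z.im} :=
  hf.comp (differentiableOn_ffl hW ht) fun _ hz => ffl_im_pos hW ht hz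

lemma injOn_comp (hW : ContinuousOn W (Ici 0)) (ht : 0 ≤ t) {f : ℂ → ℂ}
    (hf : InjOn f {z | 0 < z.im}) : InjOn (f ∘ ffl W t) {z | 0 < z.im} :=
  hf.comp (injOn_ffl hW ht) fun _ hz => ffl_im_pos hW ht hz

/-- cocycle of the state map (on `ℍ`) -/
lemma st_add (hW : ContinuousOn W (Ici 0)) (ht : 0 ≤ t) (hs : 0 ≤ s) (f : ℂ → ℂ) :
    EqOn ((f ∘ ffl W t) ∘ ffl (shift W t) s) (f ∘ ffl W (t + s)) {z | 0 < z.im} := by
  intro z hz
  simp only [Function.comp_apply]
  rw [ffl_add hW ht hs hz]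

/-! ### the functionals only depend on `f` on `ℍ` -/

lemma deriv_congr {f g : ℂ → ℂ} (h : EqOn f g {z | 0 < z.im}) (hz : 0 < z.im) :
    deriv f z = deriv g z :=
  Filter.EventuallyEq.deriv_eq (h.eventuallyEq_of_mem (isOpen_H.mem_nhds hz))

lemma ups_congr {f g : ℂ → ℂ} (h : EqOn f g {z | 0 < z.im}) (hz : 0 < z.im) :
    KB1.ups f z = KB1.ups g z := by
  rw [KB1.ups, KB1.ups, deriv_congr h hz]

lemma im_mul_I {y : ℝ} : ((y : ℂ) * I).im = y := by simp

lemma vv_congr {u0 : ℂ → ℝ} {f g : ℂ → ℂ} (h : EqOn f g {z | 0 < z.im}) {y : ℝ} (hy : 0 < y) :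
    vv u0 f y = vv u0 g y := by
  have hy' : 0 < ((y : ℂ) * I).im := by rwa [im_mul_I]
  rw [vv, vv, ups_congr h hy', h hy']

lemma Psi_congr {u0 : ℂ → ℝ} {q η : ℝ} {f g : ℂ → ℂ} (h : EqOn f g {z | 0 < z.im})
    (hz : 0 < z.im) : Psi u0 q η f z = Psi u0 q η g z := by
  rw [Psi, Psi, mm, mm, ups_congr h hz, h hz]

lemma Lam_congr {u0 : ℂ → ℝ} {q η : ℝ} {f g : ℂ → ℂ} (h : EqOn f g {z | 0 < z.im}) :
    Lam u0 q η f = Lam u0 q η g := by
  refine setLIntegral_congr_fun measurableSet_Ioi fun y hy => ?_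
  have hy' : 0 < ((y : ℂ) * I).im := by rw [im_mul_I]; exact hy
  simp only [Psi_congr h hy']

lemma Jv_congr {u0 : ℂ → ℝ} {q : ℝ} {f g : ℂ → ℂ} (h : EqOn f g {z | 0 < z.im}) (y : ℝ) :
    Jv u0 q f y = Jv u0 q g y := by
  refine setLIntegral_congr_fun measurableSet_Ioc fun s hs => ?_
  simp only [vv_congr h hs.1]

lemma areaSet_congr {u0 : ℂ → ℝ} {θ1 : ℝ} {f g : ℂ → ℂ} (h : EqOn f g {z | 0 < z.im}) :
    areaSet u0 θ1 f = areaSet u0 θ1 g := by
  ext w
  constructor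
  · rintro ⟨z, hz, hw, hu⟩
    exact ⟨z, hz, by rw [← h hz]; exact hw, by rw [← ups_congr h hz]; exact hu⟩
  · rintro ⟨z, hz, hw, hu⟩
    exact ⟨z, hz, by rw [h hz]; exact hw, by rw [ups_congr h hz]; exact hu⟩

lemma area_congr {u0 : ℂ → ℝ} {η θ1 : ℝ} {f g : ℂ → ℂ} (h : EqOn f g {z | 0 < z.im}) :
    area u0 η θ1 f = area u0 η θ1 g := by
  rw [area, area, areaSet_congr h]

lemma yx_congr {u0 : ℂ → ℝ} {q θ K3 : ℝ} {f g : ℂ → ℂ} (h : EqOn f g {z | 0 < z.im}) :
    yx u0 q f θ K3 = yx u0 q g θ K3 := by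
  rw [yx, yx]
  congr 1
  ext y
  simp only [mem_setOf_eq]
  constructor
  · rintro ⟨hy, h1⟩
    rw [vv_congr h hy, Jv_congr h] at h1
    exact ⟨hy, h1⟩
  · rintro ⟨hy, h1⟩
    rw [← vv_congr h hy, ← Jv_congr h] at h1
    exact ⟨hy, h1⟩

lemma measurableSet_pre {f : ℂ → ℂ} {B : Set ℂ} (hf : ContinuousOn f {z | 0 < z.im})
    (hB : MeasurableSet B) : MeasurableSet {z : ℂ | 0 < z.im ∧ f z ∈ B} := by
  have h1 : Measurable (Set.restrict {z : ℂ | 0 < z.im} f) :=
    (continuousOn_iff_continuous_restrict.1 hf).measurable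
  have h2 := (MeasurableEmbedding.subtype_coe isOpen_H.measurableSet).measurableSet_image.2
    (h1 hB)
  convert h2 using 1
  ext z
  constructor
  · rintro ⟨hz, hw⟩
    exact ⟨⟨z, hz⟩, hw, rfl⟩
  · rintro ⟨⟨z', hz⟩, hw, rfl⟩
    exact ⟨hz, hw⟩

lemma content_congr {κ ε c1 : ℝ} {f g : ℂ → ℂ} (h : EqOn f g {z | 0 < z.im}) (W : ℝ → ℝ)
    (E : Set ℝ) {B : Set ℂ} (hf : DifferentiableOn ℂ f {z | 0 < z.im}) (hB : MeasurableSet B) :
    content κ ε c1 f W E B = content κ ε c1 g W E B := by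
  have hs : {z : ℂ | 0 < z.im ∧ g z ∈ B} = {z : ℂ | 0 < z.im ∧ f z ∈ B} := by
    ext z
    simp only [mem_setOf_eq]
    constructor
    · rintro ⟨hz, hw⟩; exact ⟨hz, by rw [h hz]; exact hw⟩
    · rintro ⟨hz, hw⟩; exact ⟨hz, by rw [← h hz]; exact hw⟩
  have hm := measurableSet_pre hf.continuousOn hB
  rw [content, content, hs]
  refine setLIntegral_congr_fun hm fun z hz => ?_
  simp only [deriv_congr h hz.1]

/-! ### the density -/

lemma norm_deriv_ffl (hW : ContinuousOn W (Ici 0)) (ht : 0 ≤ t) (hz : 0 < z.im) :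
    ‖deriv (ffl W t) z‖ = ‖dgfl W t (ffl W t z)‖⁻¹ := by
  have h1 := FLC.ups_ffl hW ht hz
  have h2 := FL.ups_eq hW (ffl_alive hW ht hz)
  rw [h1] at h2
  have h3 : (gfl W t (ffl W t z)).im = z.im := by rw [gfl_ffl hW ht hz]; simp
  rw [h3] at h2
  have : z.im * ‖deriv (ffl W t) z‖ = z.im * ‖dgfl W t (ffl W t z)‖⁻¹ := by
    rw [h2]; rfl
  exact mul_left_cancel₀ hz.ne' this

lemma alive_ffl_iff (hW : ContinuousOn W (Ici 0)) (ht : 0 ≤ t) (hs : 0 ≤ s) (hz : 0 < z.im) :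
    Alive W (ffl W t z) (t + s) ↔ Alive (shift W t) z s := by
  rw [alive_shift hW ht hs, Zfl_ffl hW ht hz]
  exact ⟨fun h => h.2, fun h => ⟨ffl_alive hW ht hz, h⟩⟩

lemma ups_shift_ffl (hW : ContinuousOn W (Ici 0)) (ht : 0 ≤ t) (hs : 0 ≤ s) (hz : 0 < z.im) :
    OP.ups W (t + s) (ffl W t z) = ‖deriv (ffl W t) z‖ * OP.ups (shift W t) s z := by
  by_cases h : Alive (shift W t) z s
  · have h' := (alive_ffl_iff hW ht hs hz).2 h
    rw [ups_add hW h' ht hs, Zfl_ffl hW ht hz, norm_deriv_ffl hW ht hz]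
    rw [div_eq_mul_inv, mul_comm]
  · have h' := fun h0 => h ((alive_ffl_iff hW ht hs hz).1 h0)
    rw [ups_of_dead h, ups_of_dead h', mul_zero]

/-- **BR2** the density is a cocycle -/
theorem cd_shift {κ ε c1 lam : ℝ} (hW : ContinuousOn W (Ici 0)) (ht : 0 ≤ t) (hs : 0 ≤ s)
    (hz : 0 < z.im) :
    cd κ ε c1 lam W (t + s) (ffl W t z) =
      cd κ ε c1 (lam * ‖deriv (ffl W t) z‖) (shift W t) s z := by
  by_cases h : Alive (shift W t) z s
  · have h' := (alive_ffl_iff hW ht hs hz).2 h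
    have hZ : Zfl W (t + s) (ffl W t z) = Zfl (shift W t) s z := by
      rw [Zfl_add h' ht hs, Zfl_ffl hW ht hz]
    rw [cd, cd, OP.sfl, OP.sfl, ups_shift_ffl hW ht hs hz, hZ]
    simp only [mul_assoc]
  · have h' := fun h0 => h ((alive_ffl_iff hW ht hs hz).1 h0)
    rw [cd_of_dead h, cd_of_dead h']

lemma cd_dead_later {κ ε c1 lam : ℝ} (hs : 0 ≤ s) (ht : 0 ≤ t) {w : ℂ} (h : ¬ Alive W w t) :
    cd κ ε c1 lam W (t + s) w = 0 :=
  cd_of_dead fun h' => h (h'.mono ht (by linarith))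

lemma cz_translate {κ ε c1 lam : ℝ} (W : ℝ → ℝ) (t : ℝ) (E : Set ℝ) (w : ℂ) :
    cz κ ε c1 lam W ((fun s => t + s) '' E) w =
      ∫⁻ s in E, ENNReal.ofReal (cd κ ε c1 lam W (t + s) w) := by
  have hmp : MeasurePreserving (fun s : ℝ => t + s) volume volume :=
    measurePreserving_add_left volume t
  have he : MeasurableEmbedding (fun s : ℝ => t + s) := measurableEmbedding_addLeft t
  rw [cz]
  exact hmp.setLIntegral_comp_emb he _ _ |>.symm

/-- **BR2'** -/
theorem cz_shift {κ ε c1 lam : ℝ} (hW : ContinuousOn W (Ici 0)) (ht : 0 ≤ t) {E : Set ℝ}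
    (hE : MeasurableSet E) (hE0 : E ⊆ Ici 0) (hz : 0 < z.im) :
    cz κ ε c1 lam W ((fun s => t + s) '' E) (ffl W t z) =
      cz κ ε c1 (lam * ‖deriv (ffl W t) z‖) (shift W t) E z := by
  rw [cz_translate, cz]
  refine setLIntegral_congr_fun hE fun s hs => ?_
  simp only [cd_shift hW ht (hE0 hs) hz]

lemma cz_dead {κ ε c1 lam : ℝ} (ht : 0 ≤ t) {E : Set ℝ} (hE : MeasurableSet E)
    (hE0 : E ⊆ Ici 0) {w : ℂ} (h : ¬ Alive W w t) :
    cz κ ε c1 lam W ((fun s => t + s) '' E) w = 0 := by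
  rw [cz_translate, setLIntegral_congr_fun (g := fun _ => 0) hE fun s hs => by
    simp only [cd_dead_later (hE0 hs) ht h, ENNReal.ofReal_zero]]
  simp

/-! ### change of variables -/

/-- change of variables for an injective holomorphic map -/
theorem lintegral_image_H {f : ℂ → ℂ} (hf : DifferentiableOn ℂ f {z | 0 < z.im})
    (hfi : InjOn f {z | 0 < z.im}) {E : Set ℂ} (hE : MeasurableSet E)
    (hEH : E ⊆ {z | 0 < z.im}) (F : ℂ → ℝ≥0∞) :
    ∫⁻ w in f '' E, F w = ∫⁻ z in E, ENNReal.ofReal (‖deriv f z‖ ^ 2) * F (f z) := by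
  rw [lintegral_image_eq_lintegral_abs_det_fderiv_mul volume hE
    (fun z hz => (((hf.differentiableAt (isOpen_H.mem_nhds (hEH hz))).hasDerivAt
      ).hasFDerivAt.restrictScalars ℝ).hasFDerivWithinAt) (hfi.mono hEH) F]
  apply setLIntegral_congr_fun hE
  intro z _
  simp only
  congr 2
  simp [ContinuousLinearMap.det, LinearMap.det_restrictScalars, Algebra.norm_complex_eq,
    Complex.normSq_eq_norm_sq]

/-- **BR3** content collected after time `t` = content of the new state and the shifted path -/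
theorem content_shift {κ ε c1 : ℝ} (hW : ContinuousOn W (Ici 0)) (ht : 0 ≤ t) {f : ℂ → ℂ}
    (hf : DifferentiableOn ℂ f {z | 0 < z.im}) {E : Set ℝ} (hE : MeasurableSet E)
    (hE0 : E ⊆ Ici 0) {B : Set ℂ} (hB : MeasurableSet B) :
    content κ ε c1 f W ((fun s => t + s) '' E) B =
      content κ ε c1 (f ∘ ffl W t) (shift W t) E B := by
  set G : ℂ → ℝ≥0∞ := fun z => ENNReal.ofReal (‖deriv f z‖ ^ 2) *
    cz κ ε c1 ‖deriv f z‖ W ((fun s => t + s) '' E) z with hG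
  have hD : MeasurableSet (Dom W t) := (isOpen_Dom hW t).measurableSet
  have hG0 : G = (Dom W t).indicator G := by
    ext z
    by_cases hz : z ∈ Dom W t
    · rw [indicator_of_mem hz]
    · rw [indicator_of_notMem hz]
      simp only [hG, cz_dead ht hE hE0 (fun h => hz h), mul_zero]
  set A : Set ℂ := {z : ℂ | 0 < z.im ∧ f z ∈ B}
  set A' : Set ℂ := {z : ℂ | 0 < z.im ∧ (f ∘ ffl W t) z ∈ B}
  have hAA : Dom W t ∩ A = ffl W t '' A' := by
    ext w
    constructor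
    · rintro ⟨hw, hw2⟩
      refine ⟨Zfl W t w, ⟨Zfl_im_pos hW hw, ?_⟩, ffl_Zfl hW hw⟩
      simp only [Function.comp_apply]
      rw [ffl_Zfl hW hw]
      exact hw2.2
    · rintro ⟨z, hz, rfl⟩
      exact ⟨ffl_alive hW ht hz.1, ffl_im_pos hW ht hz.1, hz.2⟩
  have hA' : MeasurableSet A' :=
    measurableSet_pre (differentiableOn_comp hW ht hf).continuousOn hB
  calc content κ ε c1 f W ((fun s => t + s) '' E) B = ∫⁻ z in A, G z := rfl
    _ = ∫⁻ z in A, (Dom W t).indicator G z := by rw [← hG0]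
    _ = ∫⁻ z in Dom W t ∩ A, G z := setLIntegral_indicator hD _
    _ = ∫⁻ z in ffl W t '' A', G z := by rw [hAA]
    _ = ∫⁻ z in A', ENNReal.ofReal (‖deriv (ffl W t) z‖ ^ 2) * G (ffl W t z) :=
        lintegral_image_H (differentiableOn_ffl hW ht) (injOn_ffl hW ht) hA'
          (fun z hz => hz.1) G
    _ = ∫⁻ z in A', ENNReal.ofReal (‖deriv (f ∘ ffl W t) z‖ ^ 2) *
          cz κ ε c1 ‖deriv (f ∘ ffl W t) z‖ (shift W t) E z := by
        refine setLIntegral_congr_fun hA' fun z hz => ?_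
        have hz0 : 0 < z.im := hz.1
        have h0 : 0 < (ffl W t z).im := ffl_im_pos hW ht hz0
        have h2 : DifferentiableAt ℂ f (ffl W t z) :=
          (hf _ h0).differentiableAt ((isOpen_H).mem_nhds h0)
        have h3 : deriv (f ∘ ffl W t) z = deriv f (ffl W t z) * deriv (ffl W t) z :=
          deriv_comp z h2 (hasDerivAt_ffl hW ht hz0).differentiableAt
        simp only [hG, h3, norm_mul]
        rw [cz_shift hW ht hE hE0 hz0, ← mul_assoc, ← ENNReal.ofReal_mul (by positivity)]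
        congr 2
        ring
    _ = _ := rfl

/-- **BR3'** global form: the content of `B` collected at the times `t + E` under the whole flow -/
theorem content_global {κ ε c1 : ℝ} (hW : ContinuousOn W (Ici 0)) (ht : 0 ≤ t)
    {E : Set ℝ} (hE : MeasurableSet E) (hE0 : E ⊆ Ici 0) {B : Set ℂ} (hB : MeasurableSet B)
    (hBH : B ⊆ {z | 0 < z.im}) :
    ∫⁻ w in B, cz κ ε c1 1 W ((fun s => t + s) '' E) w =
      content κ ε c1 (ffl W t) (shift W t) E B := by
  have h := content_shift (κ := κ) (ε := ε) (c1 := c1) hW ht (f := id)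
    differentiable_id.differentiableOn hE hE0 hB
  rw [Function.id_comp] at h
  rw [← h, content]
  have hs : {z : ℂ | 0 < z.im ∧ id z ∈ B} = B := by
    ext z
    simp only [id, mem_setOf_eq]
    exact ⟨fun h => h.2, fun h => ⟨hBH h, h⟩⟩
  rw [hs]
  refine setLIntegral_congr_fun hB fun z _ => ?_
  simp

/-- `μ_t(B)` as content of the initial state `id` -/
theorem mu_eq_content {κ ε c1 : ℝ} {B : Set ℂ} (hB : MeasurableSet B)
    (hBH : B ⊆ {z | 0 < z.im}) (W : ℝ → ℝ) (t : ℝ) :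
    mu κ ε c1 W t B = content κ ε c1 id W (Ioc 0 t) B := by
  rw [mu, withDensity_apply _ hB, content]
  have hs : {z : ℂ | 0 < z.im ∧ id z ∈ B} = B := by
    ext z
    simp only [id, mem_setOf_eq]
    exact ⟨fun h => h.2, fun h => ⟨hBH h, h⟩⟩
  rw [hs]
  refine setLIntegral_congr_fun hB fun z _ => ?_
  simp [Ct]

/-- additivity in the set of times -/
lemma content_union {κ ε c1 : ℝ} {f : ℂ → ℂ} {W : ℝ → ℝ} {E E' : Set ℝ} {B : Set ℂ}
    (hE' : MeasurableSet E') (h : Disjoint E E')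
    (hm : AEMeasurable (fun z => ENNReal.ofReal (‖deriv f z‖ ^ 2) *
      cz κ ε c1 ‖deriv f z‖ W E' z) (volume.restrict {z : ℂ | 0 < z.im ∧ f z ∈ B})) :
    content κ ε c1 f W (E ∪ E') B = content κ ε c1 f W E B + content κ ε c1 f W E' B := by
  rw [content, content, content, ← lintegral_add_right' _ hm]
  refine lintegral_congr fun z => ?_
  rw [cz_union hE' h, mul_add]

/-- additivity in the physical set (`f` continuous on `ℍ`) -/
lemma content_union_set {κ ε c1 : ℝ} {f : ℂ → ℂ} {W : ℝ → ℝ} {E : Set ℝ} {B B' : Set ℂ}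
    (hf : ContinuousOn f {z | 0 < z.im}) (hB' : MeasurableSet B') (h : Disjoint B B') :
    content κ ε c1 f W E (B ∪ B') = content κ ε c1 f W E B + content κ ε c1 f W E B' := by
  have hs : {z : ℂ | 0 < z.im ∧ f z ∈ B ∪ B'} =
      {z : ℂ | 0 < z.im ∧ f z ∈ B} ∪ {z : ℂ | 0 < z.im ∧ f z ∈ B'} := by
    ext z; simp only [mem_setOf_eq, mem_union]; tauto
  rw [content, content, content, hs]
  refine lintegral_union (measurableSet_pre hf hB') ?_
  rw [Set.disjoint_left]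
  rintro z ⟨_, h1⟩ ⟨_, h2⟩
  exact Set.disjoint_left.1 h h1 h2

/-- total content = near + far -/
lemma Par.cont_eq (p : Par) {f : ℂ → ℂ} (hf : ContinuousOn f {z | 0 < z.im})
    (hB : MeasurableSet p.B) (W : ℝ → ℝ) (E : Set ℝ) :
    p.cont f W E = p.nearC f W E + p.farC f W E := by
  have h1 : p.near f ∪ (p.B \ p.near f) = p.B := by
    rw [union_diff_cancel]; exact inter_subset_left
  have hn : MeasurableSet (p.near f) := hB.inter Metric.isOpen_ball.measurableSet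
  have h2 := content_union_set (κ := p.κ) (ε := p.ε) (c1 := p.c1) (W := W) (E := E) hf
    (hB.diff hn) (disjoint_sdiff_right : Disjoint (p.near f) (p.B \ p.near f))
  rw [h1] at h2
  exact h2

end Crest.Agent.R162.LB
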