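import Crest.Agent.R162.LBDefs
import Crest.Agent.R162.FLB

/-!
Row 162 (S0243), LOWER BOUND: deterministic density bound `C_t ≤ ε^{d-2}` for the content, and the
induced ball bound for the measure `μ^ε_t` (owner helper277).
-/

set_option autoImplicit false

open Set MeasureTheory Complex
open scoped ENNReal

namespace Crest.Agent.R162.LBInD

open Crest.Agent.R162.FL
open Crest.Agent.R162.OP (sfl)
open Crest.Agent.R162.LB

/-- an order-connected set is exhausted, up to two points, by rational compact intervals -/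
theorem lintegral_ordConnected_le {A : Set ℝ} (hA : A.OrdConnected) {f : ℝ → ℝ≥0∞} {C : ℝ≥0∞}
    (h : ∀ s ∈ A, ∀ u ∈ A, s ≤ u → ∫⁻ x in Icc s u, f x ≤ C) : ∫⁻ x in A, f x ≤ C := by
  let ι := {p : ℚ × ℚ // (p.1 : ℝ) ∈ A ∧ (p.2 : ℝ) ∈ A ∧ p.1 ≤ p.2}
  let U : ι → Set ℝ := fun p => Icc (p.1.1 : ℝ) (p.1.2 : ℝ)
  have hdir : Directed (· ⊆ ·) U := by
    intro p q
    refine ⟨⟨(min p.1.1 q.1.1, max p.1.2 q.1.2), ?_, ?_, ?_⟩, ?_, ?_⟩
    · rcases le_total p.1.1 q.1.1 with h' | h'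
      · rw [min_eq_left h']; exact p.2.1
      · rw [min_eq_right h']; exact q.2.1
    · rcases le_total p.1.2 q.1.2 with h' | h'
      · rw [max_eq_right h']; exact q.2.2.1
      · rw [max_eq_left h']; exact p.2.2.1
    · exact (min_le_left _ _).trans (p.2.2.2.trans (le_max_left _ _))
    · refine Icc_subset_Icc ?_ ?_
      · exact_mod_cast min_le_left _ _
      · exact_mod_cast le_max_left _ _
    · refine Icc_subset_Icc ?_ ?_
      · exact_mod_cast min_le_right _ _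
      · exact_mod_cast le_max_right _ _
  have hsub : A ⊆ (⋃ p, U p) ∪ ({sInf A} ∪ {sSup A}) := by
    intro x hx
    by_cases h1 : ∃ a ∈ A, a < x
    · by_cases h2 : ∃ b ∈ A, x < b
      · left
        obtain ⟨a, ha, hax⟩ := h1
        obtain ⟨b, hb, hxb⟩ := h2
        obtain ⟨p, hp1, hp2⟩ := exists_rat_btwn hax
        obtain ⟨q, hq1, hq2⟩ := exists_rat_btwn hxb
        refine mem_iUnion.2 ⟨⟨(p, q), hA.out ha hx ⟨hp1.le, hp2.le⟩,
          hA.out hx hb ⟨hq1.le, hq2.le⟩, ?_⟩, hp2.le, hq1.le⟩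
        exact_mod_cast (hp2.trans hq1).le
      · right; right
        push Not at h2
        have : IsGreatest A x := ⟨hx, h2⟩
        exact this.csSup_eq.symm
    · right; left
      push Not at h1
      have : IsLeast A x := ⟨hx, h1⟩
      exact this.csInf_eq.symm
  calc ∫⁻ x in A, f x ≤ ∫⁻ x in (⋃ p, U p) ∪ ({sInf A} ∪ {sSup A}), f x := lintegral_mono_set hsub
    _ ≤ (∫⁻ x in (⋃ p, U p), f x) + ∫⁻ x in ({sInf A} ∪ {sSup A} : Set ℝ), f x :=
        lintegral_union_le _ _ _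
    _ = ∫⁻ x in (⋃ p, U p), f x := by
        have : volume ({sInf A} ∪ {sSup A} : Set ℝ) = 0 := by
          refine measure_union_null ?_ ?_ <;> simp
        rw [setLIntegral_measure_zero _ _ this, add_zero]
    _ = ⨆ p, ∫⁻ x in U p, f x := setLIntegral_iUnion_of_directed f hdir
    _ ≤ C := iSup_le fun p => h _ p.2.1 _ p.2.2.1 (by exact_mod_cast p.2.2.2)

variable {W : ℝ → ℝ} {z : ℂ}

/-- alive times at which `ε ≤ lam Υ ≤ 2 ε` -/
def act (W : ℝ → ℝ) (ε lam : ℝ) (z : ℂ) : Set ℝ :=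
  {s | Alive W z s ∧ ε ≤ lam * OP.ups W s z ∧ lam * OP.ups W s z ≤ 2 * ε}

theorem ordConnected_act (hW : ContinuousOn W (Ici 0)) {ε lam : ℝ} (hl : 0 ≤ lam) :
    (act W ε lam z).OrdConnected := by
  refine ⟨fun s hs u hu x hx => ⟨hu.1.mono (hs.1.1.trans hx.1) hx.2, ?_, ?_⟩⟩
  · refine hu.2.1.trans (mul_le_mul_of_nonneg_left ?_ hl)
    exact ups_anti hW hu.1 (hs.1.1.trans hx.1) hx.2
  · refine le_trans (mul_le_mul_of_nonneg_left ?_ hl) hs.2.2
    exact ups_anti hW (hu.1.mono (hs.1.1.trans hx.1) hx.2) hs.1.1 hx.1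

/-- the clock spent by a point between levels `2ε` and `ε` is at most `log 2` -/
theorem clock_le (hW : ContinuousOn W (Ici 0)) {ε lam : ℝ} (hε : 0 < ε) (hl : 0 ≤ lam) :
    ∫⁻ s in act W ε lam z, ENNReal.ofReal (4 * sfl W s z ^ 2 / ‖Zfl W s z‖ ^ 2) ≤
      ENNReal.ofReal (Real.log 2) := by
  refine lintegral_ordConnected_le (ordConnected_act hW hl) fun s hs u hu hsu => ?_
  have hz := hu.1
  have hlam : 0 < lam := by
    rcases hl.eq_or_lt with h | h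
    · have := hu.2.1
      rw [← h, zero_mul] at this
      linarith
    · exact h
  have hc : ContinuousOn (fun r => 4 * (Zfl W r z).im ^ 2 / ‖Zfl W r z‖ ^ 4) (Icc 0 u) := by
    refine ContinuousOn.div ?_ ((continuousOn_Zfl hW hz).norm.pow 4) ?_
    · exact continuousOn_const.mul
        ((Complex.continuous_im.comp_continuousOn (continuousOn_Zfl hW hz)).pow 2)
    · intro r hr
      have := Zfl_ne_zero (hz.mono hr.1 hr.2)
      exact pow_ne_zero _ (norm_ne_zero_iff.2 this)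
  have hs0 : 0 ≤ s := hs.1.1
  have hc' : ContinuousOn (fun r => 4 * (Zfl W r z).im ^ 2 / ‖Zfl W r z‖ ^ 4) (Icc s u) :=
    hc.mono (Icc_subset_Icc_left hs0)
  have heq : ∀ r, 4 * sfl W r z ^ 2 / ‖Zfl W r z‖ ^ 2
      = 4 * (Zfl W r z).im ^ 2 / ‖Zfl W r z‖ ^ 4 := by
    intro r
    unfold sfl
    by_cases h0 : ‖Zfl W r z‖ = 0
    · simp [h0]
    · field_simp
  simp only [heq]
  have hint : ∫⁻ r in Icc s u, ENNReal.ofReal (4 * (Zfl W r z).im ^ 2 / ‖Zfl W r z‖ ^ 4)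
      = ENNReal.ofReal (∫ r in Icc s u, 4 * (Zfl W r z).im ^ 2 / ‖Zfl W r z‖ ^ 4) := by
    rw [ofReal_integral_eq_lintegral_ofReal]
    · exact hc'.integrableOn_Icc
    · exact Filter.Eventually.of_forall fun r => by positivity
  rw [hint, integral_Icc_eq_integral_Ioc, ← intervalIntegral.integral_of_le hsu]
  have hlog := log_ups_sub hW hz hs0 hsu le_rfl
  refine ENNReal.ofReal_le_ofReal ?_
  have hus := ups_pos hs.1
  have huu := ups_pos hu.1
  have e1 : ∫ r in s..u, 4 * (Zfl W r z).im ^ 2 / ‖Zfl W r z‖ ^ 4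
      = Real.log (lam * OP.ups W s z) - Real.log (lam * OP.ups W u z) := by
    rw [Real.log_mul hlam.ne' hus.ne', Real.log_mul hlam.ne' huu.ne']
    linarith
  rw [e1]
  have h1 : Real.log (lam * OP.ups W s z) ≤ Real.log (2 * ε) :=
    Real.log_le_log (by positivity) hs.2.2
  have h2 : Real.log ε ≤ Real.log (lam * OP.ups W u z) := Real.log_le_log hε hu.2.1
  rw [Real.log_mul two_ne_zero hε.ne'] at h1
  linarith

theorem sfl_nonneg_of_alive {s : ℝ} (h : Alive W z s) : 0 ≤ sfl W s z :=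
  div_nonneg (Zfl_im_pos h).le (norm_nonneg _)

theorem sfl_le_one (W : ℝ → ℝ) (s : ℝ) (z : ℂ) : sfl W s z ≤ 1 :=
  div_le_one_of_le₀ ((le_abs_self _).trans (Complex.abs_im_le_norm _)) (norm_nonneg _)

/-- pointwise bound of the density in time -/
theorem cd_le {κ ε c1 lam : ℝ} (hκ : 0 < κ) (hκ8 : κ < 8) (hε : 0 < ε) {s : ℝ}
    (h : s ∈ act W ε lam z) :
    cd κ ε c1 lam W s z ≤
      (Real.log 2)⁻¹ * ε ^ (κ / 8 - 1) * (4 * sfl W s z ^ 2 / ‖Zfl W s z‖ ^ 2) := by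
  have hS0 := sfl_nonneg_of_alive h.1
  have hS1 := sfl_le_one W s z
  have h1 : chi (lam * OP.ups W s z / ε) ≤ (Real.log 2)⁻¹ := chi_le _
  have h1' : 0 ≤ chi (lam * OP.ups W s z / ε) := chi_nonneg _
  have h2 : (lam * OP.ups W s z) ^ (κ / 8 - 1) ≤ ε ^ (κ / 8 - 1) :=
    Real.rpow_le_rpow_of_nonpos hε h.2.1 (by linarith)
  have h2' : 0 ≤ (lam * OP.ups W s z) ^ (κ / 8 - 1) :=
    Real.rpow_nonneg (hε.le.trans h.2.1) _
  have hb : 0 ≤ 8 / κ - 1 := by
    rw [sub_nonneg, one_le_div hκ]; exact hκ8.le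
  have h3 : sfl W s z ^ (8 / κ - 1) ≤ 1 := Real.rpow_le_one hS0 hS1 hb
  have h3' : 0 ≤ sfl W s z ^ (8 / κ - 1) := Real.rpow_nonneg hS0 _
  have h4 : (if c1 ≤ sfl W s z then (1 : ℝ) else 0) ≤ 1 := by split_ifs <;> norm_num
  have h4' : (0 : ℝ) ≤ if c1 ≤ sfl W s z then (1 : ℝ) else 0 := by split_ifs <;> norm_num
  have h5' : 0 ≤ 4 * sfl W s z ^ 2 / ‖Zfl W s z‖ ^ 2 := by positivity
  have hl := log_two_pos'
  unfold cd
  calc chi (lam * OP.ups W s z / ε) * (lam * OP.ups W s z) ^ (κ / 8 - 1) *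
        sfl W s z ^ (8 / κ - 1) * (if c1 ≤ sfl W s z then 1 else 0) *
        (4 * sfl W s z ^ 2 / ‖Zfl W s z‖ ^ 2)
      ≤ (Real.log 2)⁻¹ * ε ^ (κ / 8 - 1) * 1 * 1 * (4 * sfl W s z ^ 2 / ‖Zfl W s z‖ ^ 2) := by
        gcongr
    _ = _ := by ring

/-- **density bound**: the content of a point is at most `ε^{d-2}` -/
theorem cz_le {κ ε c1 lam : ℝ} (hκ : 0 < κ) (hκ8 : κ < 8) (hε : 0 < ε) (hl : 0 ≤ lam)
    (hW : ContinuousOn W (Ici 0)) (E : Set ℝ) (z : ℂ) :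
    cz κ ε c1 lam W E z ≤ ENNReal.ofReal (ε ^ (κ / 8 - 1)) := by
  have hl2 := log_two_pos'
  have hmeas : MeasurableSet (act W ε lam z) := (ordConnected_act hW hl).measurableSet
  have hp : ∀ s, ENNReal.ofReal (cd κ ε c1 lam W s z) ≤
      (act W ε lam z).indicator (fun s => ENNReal.ofReal
        ((Real.log 2)⁻¹ * ε ^ (κ / 8 - 1)) *
          ENNReal.ofReal (4 * sfl W s z ^ 2 / ‖Zfl W s z‖ ^ 2)) s := by
    intro s
    by_cases hs : s ∈ act W ε lam z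
    · rw [indicator_of_mem hs, ← ENNReal.ofReal_mul (by positivity)]
      exact ENNReal.ofReal_le_ofReal (cd_le hκ hκ8 hε hs)
    · rw [indicator_of_notMem hs]
      have : cd κ ε c1 lam W s z = 0 := by
        by_contra h0
        have := of_cd_ne_zero hε h0
        exact hs ⟨this.1, this.2.1, this.2.2.1⟩
      simp [this]
  calc cz κ ε c1 lam W E z
      ≤ ∫⁻ s, ENNReal.ofReal (cd κ ε c1 lam W s z) := setLIntegral_le_lintegral _ _
    _ ≤ ∫⁻ s, (act W ε lam z).indicator (fun s => ENNReal.ofReal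
        ((Real.log 2)⁻¹ * ε ^ (κ / 8 - 1)) *
          ENNReal.ofReal (4 * sfl W s z ^ 2 / ‖Zfl W s z‖ ^ 2)) s := lintegral_mono hp
    _ = ENNReal.ofReal ((Real.log 2)⁻¹ * ε ^ (κ / 8 - 1)) *
          ∫⁻ s in act W ε lam z, ENNReal.ofReal (4 * sfl W s z ^ 2 / ‖Zfl W s z‖ ^ 2) := by
        rw [lintegral_indicator hmeas, lintegral_const_mul' _ _ ENNReal.ofReal_ne_top]
    _ ≤ ENNReal.ofReal ((Real.log 2)⁻¹ * ε ^ (κ / 8 - 1)) * ENNReal.ofReal (Real.log 2) := by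
        gcongr
        exact clock_le hW hε hl
    _ = ENNReal.ofReal (ε ^ (κ / 8 - 1)) := by
        rw [← ENNReal.ofReal_mul (by positivity)]
        congr 1
        field_simp

theorem Ct_le {κ ε c1 : ℝ} (hκ : 0 < κ) (hκ8 : κ < 8) (hε : 0 < ε)
    (hW : ContinuousOn W (Ici 0)) (t : ℝ) (w : ℂ) :
    Ct κ ε c1 W t w ≤ ENNReal.ofReal (ε ^ (κ / 8 - 1)) :=
  cz_le hκ hκ8 hε zero_le_one hW _ w

/-- **ball bound** for the content measure -/
theorem mu_le {κ ε c1 : ℝ} (hκ : 0 < κ) (hκ8 : κ < 8) (hε : 0 < ε)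
    (hW : ContinuousOn W (Ici 0)) (t : ℝ) (A : Set ℂ) (hA : MeasurableSet A) :
    mu κ ε c1 W t A ≤ ENNReal.ofReal (ε ^ (κ / 8 - 1)) * volume A := by
  rw [mu, withDensity_apply _ hA]
  calc ∫⁻ w in A, Ct κ ε c1 W t w ≤ ∫⁻ w in A, ENNReal.ofReal (ε ^ (κ / 8 - 1)) :=
        lintegral_mono fun w => Ct_le hκ hκ8 hε hW t w
    _ = _ := setLIntegral_const _ _

theorem mu_closedBall_le {κ ε c1 : ℝ} (hκ : 0 < κ) (hκ8 : κ < 8) (hε : 0 < ε)
    (hW : ContinuousOn W (Ici 0)) (t : ℝ) (z : ℂ) {r : ℝ} (hr : 0 ≤ r) :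
    mu κ ε c1 W t (Metric.closedBall z r) ≤
      ENNReal.ofReal (Real.pi * ε ^ (κ / 8 - 1) * r ^ 2) := by
  refine (mu_le hκ hκ8 hε hW t _ Metric.isClosed_closedBall.measurableSet).trans ?_
  rw [Complex.volume_closedBall]
  have : (NNReal.pi : ℝ≥0∞) = ENNReal.ofReal Real.pi := by
    rw [ENNReal.ofReal, ← NNReal.coe_real_pi, Real.toNNReal_coe]
  rw [this, ← ENNReal.ofReal_pow hr, ← ENNReal.ofReal_mul (by positivity),
    ← ENNReal.ofReal_mul (by positivity)]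
  refine ENNReal.ofReal_le_ofReal (le_of_eq ?_)
  ring

/-- support of the content: a point with positive content is alive with `Υ ≤ 2ε` at some time -/
theorem exists_of_Ct_ne_zero {κ ε c1 : ℝ} (hε : 0 < ε) {t : ℝ} {w : ℂ}
    (h : Ct κ ε c1 W t w ≠ 0) :
    ∃ u ∈ Ioc 0 t, Alive W w u ∧ ε ≤ OP.ups W u w ∧ OP.ups W u w ≤ 2 * ε ∧ c1 ≤ sfl W u w := by
  by_contra hcon
  push Not at hcon
  refine h ?_
  unfold Ct cz
  rw [setLIntegral_congr_fun (g := fun _ => 0) measurableSet_Ioc]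
  · simp
  · intro s hs
    by_contra h0
    have h1 : cd κ ε c1 1 W s w ≠ 0 := fun h2 => h0 (by simp [h2])
    have h2 := of_cd_ne_zero hε h1
    rw [one_mul] at h2
    exact absurd h2.2.2.2 (not_le.2 (hcon s hs h2.1 h2.2.1 h2.2.2.1))

end Crest.Agent.R162.LBInD
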