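import Crest.Agent.R162.LBBr
import Crest.Agent.R162.LBInD

/-!
Row 162 (S0243), LOWER BOUND: bridge, second part (owner helper888).

* points with `im ≤ 0` never carry content, so `content_global`, `mu_eq_content` hold for every
  measurable `B`;
* the content density is bounded: `∫⁻ w in B, cz ... < ⊤` for bounded `B`;
* additivity over consecutive time intervals of the integrated content.
-/

set_option autoImplicit false

open Set MeasureTheory Complex
open scoped ENNReal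

namespace Crest.Agent.R162.LB

open Crest.Agent.R162.FL
open Crest.Agent.R162.FLC (isOpen_H ffl_im_pos ffl_alive)

variable {W : ℝ → ℝ} {t s : ℝ} {z : ℂ}

lemma cd_of_im_nonpos {κ ε c1 lam : ℝ} {W : ℝ → ℝ} {s : ℝ} {w : ℂ} (h : w.im ≤ 0) :
    cd κ ε c1 lam W s w = 0 :=
  cd_of_dead fun h' => absurd h'.im_pos (not_lt.2 h)

lemma cz_of_im_nonpos {κ ε c1 lam : ℝ} {W : ℝ → ℝ} {E : Set ℝ} {w : ℂ} (h : w.im ≤ 0) :
    cz κ ε c1 lam W E w = 0 := by
  simp [cz, cd_of_im_nonpos h]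

lemma setLIntegral_cz_inter {κ ε c1 lam : ℝ} {W : ℝ → ℝ} {E : Set ℝ} {B : Set ℂ}
    (_hB : MeasurableSet B) :
    ∫⁻ w in B, cz κ ε c1 lam W E w = ∫⁻ w in B ∩ {z : ℂ | 0 < z.im}, cz κ ε c1 lam W E w := by
  have hH : MeasurableSet {z : ℂ | 0 < z.im} := isOpen_H.measurableSet
  have h : (fun w => cz κ ε c1 lam W E w) =
      ({z : ℂ | 0 < z.im}).indicator (fun w => cz κ ε c1 lam W E w) := by
    ext w
    by_cases hw : 0 < w.im
    · rw [indicator_of_mem (by exact hw)]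
    · rw [indicator_of_notMem (by exact hw), cz_of_im_nonpos (not_lt.1 hw)]
  conv_lhs => rw [h]
  rw [setLIntegral_indicator hH, inter_comm]

lemma content_inter {κ ε c1 : ℝ} {f : ℂ → ℂ} {W : ℝ → ℝ} {E : Set ℝ} {B : Set ℂ}
    (hf : MapsTo f {z | 0 < z.im} {z | 0 < z.im}) :
    content κ ε c1 f W E B = content κ ε c1 f W E (B ∩ {z : ℂ | 0 < z.im}) := by
  have : {z : ℂ | 0 < z.im ∧ f z ∈ B} = {z : ℂ | 0 < z.im ∧ f z ∈ B ∩ {z : ℂ | 0 < z.im}} := by
    ext z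
    exact ⟨fun h => ⟨h.1, h.2, hf h.1⟩, fun h => ⟨h.1, h.2.1⟩⟩
  rw [content, content, this]

/-- **BR3''** `content_global` for every measurable `B` -/
theorem content_global' {κ ε c1 : ℝ} (hW : ContinuousOn W (Ici 0)) (ht : 0 ≤ t)
    {E : Set ℝ} (hE : MeasurableSet E) (hE0 : E ⊆ Ici 0) {B : Set ℂ} (hB : MeasurableSet B) :
    ∫⁻ w in B, cz κ ε c1 1 W ((fun s => t + s) '' E) w =
      content κ ε c1 (ffl W t) (shift W t) E B := by
  rw [setLIntegral_cz_inter hB, content_inter (fun z hz => ffl_im_pos hW ht hz)]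
  exact content_global hW ht hE hE0 (hB.inter isOpen_H.measurableSet) inter_subset_right

/-- interval form of `content_global'` -/
theorem content_global_Ioc {κ ε c1 : ℝ} (hW : ContinuousOn W (Ici 0)) (hs : 0 ≤ s)
    {B : Set ℂ} (hB : MeasurableSet B) (t : ℝ) :
    ∫⁻ w in B, cz κ ε c1 1 W (Ioc s (s + t)) w =
      content κ ε c1 (ffl W s) (shift W s) (Ioc 0 t) B := by
  have h := content_global' (κ := κ) (ε := ε) (c1 := c1) hW hs
    (measurableSet_Ioc : MeasurableSet (Ioc 0 t)) (fun x hx => hx.1.le) hB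
  rw [Set.image_const_add_Ioc, add_zero] at h
  exact h

/-- `content_shift`, interval form -/
theorem content_shift_Ioc {κ ε c1 : ℝ} (hW : ContinuousOn W (Ici 0)) (hs : 0 ≤ s) {f : ℂ → ℂ}
    (hf : DifferentiableOn ℂ f {z | 0 < z.im}) {B : Set ℂ} (hB : MeasurableSet B) (t : ℝ) :
    content κ ε c1 f W (Ioc s (s + t)) B =
      content κ ε c1 (f ∘ ffl W s) (shift W s) (Ioc 0 t) B := by
  have h := content_shift (κ := κ) (ε := ε) (c1 := c1) hW hs hf
    (measurableSet_Ioc : MeasurableSet (Ioc 0 t)) (fun x hx => hx.1.le) hB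
  rw [Set.image_const_add_Ioc, add_zero] at h
  exact h

/-- `μ_t(B)` as content of the initial state `id`, every measurable `B` -/
theorem mu_eq_content' {κ ε c1 : ℝ} {B : Set ℂ} (hB : MeasurableSet B) (W : ℝ → ℝ) (t : ℝ) :
    mu κ ε c1 W t B = content κ ε c1 id W (Ioc 0 t) B := by
  have h1 : mu κ ε c1 W t B = mu κ ε c1 W t (B ∩ {z : ℂ | 0 < z.im}) := by
    rw [mu, withDensity_apply _ hB, withDensity_apply _ (hB.inter isOpen_H.measurableSet)]
    exact setLIntegral_cz_inter hB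
  rw [h1, mu_eq_content (hB.inter isOpen_H.measurableSet) inter_subset_right,
    ← content_inter (f := id) (fun z hz => hz)]

/-- `μ_t(B)` as an integral of the density -/
theorem mu_eq_lintegral {κ ε c1 : ℝ} {B : Set ℂ} (hB : MeasurableSet B) (W : ℝ → ℝ) (t : ℝ) :
    mu κ ε c1 W t B = ∫⁻ w in B, cz κ ε c1 1 W (Ioc 0 t) w := by
  rw [mu, withDensity_apply _ hB]
  rfl

/-! ### finiteness -/

/-- **(c4)** integrated density bound -/
theorem setLIntegral_cz_le {κ ε c1 lam : ℝ} (hκ : 0 < κ) (hκ8 : κ < 8) (hε : 0 < ε)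
    (hl : 0 ≤ lam) (hW : ContinuousOn W (Ici 0)) (E : Set ℝ) (B : Set ℂ) :
    ∫⁻ w in B, cz κ ε c1 lam W E w ≤ ENNReal.ofReal (ε ^ (κ / 8 - 1)) * volume B :=
  (lintegral_mono fun w => LBInD.cz_le hκ hκ8 hε hl hW E w).trans (setLIntegral_const _ _).le

/-- **(c4)** -/
theorem setLIntegral_cz_ne_top {κ ε c1 lam : ℝ} (hκ : 0 < κ) (hκ8 : κ < 8) (hε : 0 < ε)
    (hl : 0 ≤ lam) (hW : ContinuousOn W (Ici 0)) (E : Set ℝ) {B : Set ℂ}
    (hB : Bornology.IsBounded B) : ∫⁻ w in B, cz κ ε c1 lam W E w ≠ ⊤ := by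
  refine ne_top_of_le_ne_top ?_ (setLIntegral_cz_le hκ hκ8 hε hl hW E B)
  exact ENNReal.mul_ne_top ENNReal.ofReal_ne_top hB.measure_lt_top.ne

/-- content bound: at most `ε^{κ/8-1}` times the area of `B` (`f` univalent on `ℍ`) -/
theorem content_le {κ ε c1 : ℝ} (hκ : 0 < κ) (hκ8 : κ < 8) (hε : 0 < ε)
    (hW : ContinuousOn W (Ici 0)) {f : ℂ → ℂ} (hf : DifferentiableOn ℂ f {z | 0 < z.im})
    (hfi : InjOn f {z | 0 < z.im}) (E : Set ℝ) {B : Set ℂ} (hB : MeasurableSet B) :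
    content κ ε c1 f W E B ≤ ENNReal.ofReal (ε ^ (κ / 8 - 1)) * volume B := by
  have hA : MeasurableSet {z : ℂ | 0 < z.im ∧ f z ∈ B} := measurableSet_pre hf.continuousOn hB
  calc content κ ε c1 f W E B
      ≤ ∫⁻ z in {z : ℂ | 0 < z.im ∧ f z ∈ B}, ENNReal.ofReal (‖deriv f z‖ ^ 2) *
          ENNReal.ofReal (ε ^ (κ / 8 - 1)) := by
        refine lintegral_mono fun z => ?_
        exact mul_le_mul' le_rfl (LBInD.cz_le hκ hκ8 hε (norm_nonneg _) hW E z)
    _ = ∫⁻ _ in f '' {z : ℂ | 0 < z.im ∧ f z ∈ B}, ENNReal.ofReal (ε ^ (κ / 8 - 1)) :=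
        (lintegral_image_H hf hfi hA (fun z hz => hz.1) fun _ =>
          ENNReal.ofReal (ε ^ (κ / 8 - 1))).symm
    _ = ENNReal.ofReal (ε ^ (κ / 8 - 1)) * volume (f '' {z : ℂ | 0 < z.im ∧ f z ∈ B}) :=
        setLIntegral_const _ _
    _ ≤ ENNReal.ofReal (ε ^ (κ / 8 - 1)) * volume B := by
        gcongr
        rintro w ⟨z, hz, rfl⟩
        exact hz.2

/-- content is finite for bounded `B` -/
theorem content_ne_top {κ ε c1 : ℝ} (hκ : 0 < κ) (hκ8 : κ < 8) (hε : 0 < ε)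
    (hW : ContinuousOn W (Ici 0)) {f : ℂ → ℂ} (hf : DifferentiableOn ℂ f {z | 0 < z.im})
    (hfi : InjOn f {z | 0 < z.im}) (E : Set ℝ) {B : Set ℂ} (hB : MeasurableSet B)
    (hBb : Bornology.IsBounded B) : content κ ε c1 f W E B ≠ ⊤ := by
  refine ne_top_of_le_ne_top ?_ (content_le hκ hκ8 hε hW hf hfi E hB)
  exact ENNReal.mul_ne_top ENNReal.ofReal_ne_top hBb.measure_lt_top.ne

end Crest.Agent.R162.LB
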