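import Mathlib
import Crest.Agent.R162.LBC4
import Crest.Agent.R162.OPM
import Crest.Agent.R162.LBSkel

/-!
Row 162, node LB-CONTENT, file 5 (helper499): unconditional upper bound `content_le'`, and the
supersolutions for the lower bound of the mass.
-/

set_option autoImplicit false
set_option linter.unusedSectionVars false

open MeasureTheory ProbabilityTheory Set Filter
open scoped NNReal ENNReal Topology

namespace Crest.Agent.R162.LBC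

open Crest.Agent.R162.GEN Crest.Agent.R162.OPGen
open FL OP OS Crest.ProbabilityR.Loewner

universe u

section

variable {Ω : Type u} {m : MeasurableSpace Ω} {P : Measure Ω} [IsProbabilityMeasure P]
  {Fl : Filtration ℝ≥0 m} {B : ℝ≥0 → Ω → ℝ} {κ : ℝ} {w : ℂ}

theorem exit_ok5 (hB : IsBM Fl B P) (κ : ℝ) (w : ℂ) : Exit Fl κ B w where
  st O hO δ hδ hOδ σ hσ T := OPTr.hit_open_isST hB hδ hO hOδ hσ T
  ev O hO δ hδ hOδ σ hσ := by
    have h := OPTr.evST_alive_mem (w := w) (κ := κ) hB hO.measurableSet hσ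
    convert h using 1
    ext ω
    simp only [mem_ofPred_eq]
    exact ⟨fun h => ⟨OPTr.aliveP_of_mem (lt_of_lt_of_le hδ (hOδ _ h)), h⟩, fun h => h.2⟩

/-- **upper bound for the content**, unconditional -/
theorem content_le' (hB : IsBM Fl B P) (hκ : 0 < κ) (hw : 0 < w.im)
    {ε : ℝ} (hε : 0 < ε) (c1 : ℝ)
    {σ τ : Ω → ℝ≥0} (hσ : IsST Fl σ)
    (hτ : IsST Fl τ) {T : ℝ≥0} (hτT : ∀ ω, τ ω ≤ T) {A : Set Ω} (hA : EvST Fl σ A)
    (hστ : ∀ ω ∈ A, σ ω ≤ τ ω) :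
    ∫⁻ ω in A, LB.cz κ ε c1 1 (driving κ B ω) (Ioc (σ ω : ℝ) (τ ω)) w ∂P
      ≤ ENNReal.ofReal 7 * ∫⁻ ω in A ∩ {ω | AliveP κ B w (σ ω) ω},
        ENNReal.ofReal (gr κ (driving κ B ω) (σ ω) w) ∂P :=
  content_le Crest.Agent.R162.OPM.opm hB hκ hw (exit_ok5 hB κ w) hε c1 hσ hτ hτT hA hστ

end

/-! ### the part with small `S` -/

/-- constants of the `S^{-q}` supersolution -/
noncomputable def cc2 (κ q : ℝ) : ℝ := κ / 2 * q * (bb κ - q)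
/-- see `cc2` -/
noncomputable def DD (κ q : ℝ) : ℝ := κ / 2 * q * (1 + bb κ - q) + 4
/-- see `cc2` -/
noncomputable def MM (κ q : ℝ) : ℝ := DD κ q * Real.sqrt (cc2 κ q / (2 * DD κ q)) ^ (-q) / 4

section consts

variable {κ q : ℝ} (hκ : 0 < κ) (hq0 : 0 < q) (hqb : q < bb κ)

include hκ hq0 hqb

lemma cc2_pos : 0 < cc2 κ q := by
  unfold cc2
  have : 0 < bb κ - q := by linarith
  positivity

lemma DD_pos : 0 < DD κ q := by
  unfold DD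
  have : 0 < 1 + bb κ - q := by linarith
  positivity

lemma MM_pos : 0 < MM κ q := by
  unfold MM
  have h1 := cc2_pos hκ hq0 hqb
  have h2 := DD_pos hκ hq0 hqb
  positivity

/-- the algebraic inequality behind `gen_F2_le` -/
lemma alg_F2 {S : ℝ} (hS : 0 < S) :
    S ^ (-q) * (DD κ q * S ^ 2 - cc2 κ q / 2) ≤ 4 * MM κ q * S ^ 2 := by
  have h1 := cc2_pos hκ hq0 hqb
  have h2 := DD_pos hκ hq0 hqb
  have h3 := MM_pos hκ hq0 hqb
  have hSq : 0 < S ^ (-q) := Real.rpow_pos_of_pos hS _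
  rcases le_or_gt (DD κ q * S ^ 2) (cc2 κ q / 2) with h | h
  · have : S ^ (-q) * (DD κ q * S ^ 2 - cc2 κ q / 2) ≤ 0 :=
      mul_nonpos_of_nonneg_of_nonpos hSq.le (by linarith)
    have h4 : 0 ≤ 4 * MM κ q * S ^ 2 := by positivity
    linarith
  · set s0 := Real.sqrt (cc2 κ q / (2 * DD κ q)) with hs0
    have hs0p : 0 < s0 := Real.sqrt_pos.2 (by positivity)
    have hle : s0 ≤ S := by
      rw [hs0]
      refine Real.sqrt_le_iff.2 ⟨hS.le, ?_⟩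
      rw [div_le_iff₀ (by positivity)]
      nlinarith
    have h5 : S ^ (-q) ≤ s0 ^ (-q) := Real.rpow_le_rpow_of_nonpos hs0p hle (by linarith)
    have h6 : 4 * MM κ q * S ^ 2 = s0 ^ (-q) * (DD κ q * S ^ 2) := by
      unfold MM; rw [← hs0]; ring
    rw [h6]
    have h7 : 0 ≤ DD κ q * S ^ 2 := by positivity
    have h8 : 0 < s0 ^ (-q) := Real.rpow_pos_of_pos hs0p _
    calc S ^ (-q) * (DD κ q * S ^ 2 - cc2 κ q / 2) ≤ S ^ (-q) * (DD κ q * S ^ 2) := by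
          gcongr; linarith
      _ ≤ s0 ^ (-q) * (DD κ q * S ^ 2) := by gcongr

end consts

/-- `G (R' S^{-q} + M R)` -/
noncomputable def F2 (κ q ε : ℝ) : ℝ × ℝ × ℝ × ℝ → ℝ :=
  pq (fun th a x => V3 κ (q - bb κ) 0 (R1 ε) th a x
    + V3 κ (-bb κ) 0 (fun L => MM κ q * R0 ε L) th a x) 0 0

/-- the rate `(c₂/2) |Z|^{-2} G R' S^{-q}` -/
noncomputable def H2 (κ q ε : ℝ) (p : ℝ × ℝ × ℝ × ℝ) : ℝ :=
  cc2 κ q / 2 * (1 / (p.1 ^ 2 + p.2.1 ^ 2) * (Gq κ p * sinq p ^ (-q) * R1 ε p.2.2.1))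

section F2

variable {κ q ε : ℝ} (hκ : 0 < κ) (hq0 : 0 < q) (hqb : q < bb κ) (hε : 0 < ε)

include hκ hq0 hqb hε

lemma F2_eq {p : ℝ × ℝ × ℝ × ℝ} (hp : 0 < p.2.1) :
    F2 κ q ε p = Gq κ p * (R1 ε p.2.2.1 * sinq p ^ (-q) + MM κ q * R0 ε p.2.2.1) := by
  have h1 := pq_V3 κ (q - bb κ) 0 (R1 ε) p
  have h2 := pq_V3 κ (-bb κ) 0 (fun L => MM κ q * R0 ε L) p
  have h3 := E3_eq hκ.ne' q 0 hp
  have h4 := E3_eq' hκ.ne' hp
  have h5 : F2 κ q ε p = pq (V3 κ (q - bb κ) 0 (R1 ε)) 0 0 p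
      + pq (V3 κ (-bb κ) 0 (fun L => MM κ q * R0 ε L)) 0 0 p := rfl
  rw [h5, h1, h2, h3, h4]
  simp only [neg_zero, zero_mul, Real.exp_zero, mul_one]
  ring

lemma jets :
    Jet (V3 κ (q - bb κ) 0 (R1 ε)) (V3t κ (q - bb κ) 0 (R1 ε) (R2 ε)) (V3a κ (q - bb κ) 0 (R1 ε))
      (V3x κ (q - bb κ) 0 (R1 ε)) (V3xx κ (q - bb κ) 0 (R1 ε)) ∧
    Jet (V3 κ (-bb κ) 0 (fun L => MM κ q * R0 ε L))
      (V3t κ (-bb κ) 0 (fun L => MM κ q * R0 ε L) (fun L => MM κ q * R1 ε L))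
      (V3a κ (-bb κ) 0 (fun L => MM κ q * R0 ε L)) (V3x κ (-bb κ) 0 (fun L => MM κ q * R0 ε L))
      (V3xx κ (-bb κ) 0 (fun L => MM κ q * R0 ε L)) :=
  ⟨jet_V3 κ _ 0 (hasDerivAt_R1 hε) (contDiff_R1 hε),
    jet_V3 κ _ 0 (fun s => (hasDerivAt_R0 hε s).const_mul _)
      (contDiff_const.mul (contDiff_R0 hε))⟩

lemma gen_F2_eq {p : ℝ × ℝ × ℝ × ℝ} (hp : 0 < p.2.1) :
    gen κ (F2 κ q ε) p = gen κ (pq (V3 κ (q - bb κ) 0 (R1 ε)) 0 0) p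
      + gen κ (pq (V3 κ (-bb κ) 0 (fun L => MM κ q * R0 ε L)) 0 0) p := by
  obtain ⟨J1, J2⟩ := jets hκ hq0 hqb hε
  exact gen_add J1 J2 hp

lemma gen_F2_le {p : ℝ × ℝ × ℝ × ℝ} (hp : 0 < p.2.1) :
    gen κ (F2 κ q ε) p ≤ - H2 κ q ε p := by
  rw [gen_F2_eq hκ hq0 hqb hε hp,
    gen_V3 hκ _ 0 (hasDerivAt_R1 hε) (contDiff_R1 hε) hp,
    gen_V3 hκ _ 0 (g' := fun L => MM κ q * R1 ε L) (fun s => (hasDerivAt_R0 hε s).const_mul _)
      (contDiff_const.mul (contDiff_R0 hε)) hp,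
    brk_b, brk_q, E3_eq hκ.ne' q 0 hp, E3_eq' hκ.ne' hp]
  simp only [neg_zero, zero_mul, Real.exp_zero, mul_one, mul_zero, zero_sub, sub_zero]
  have hG := Gq_pos κ hp
  have hS := sinq_pos' hp
  have hR := R1_nonneg hε p.2.2.1
  have hR2 := abs_R2_le hε p.2.2.1
  have hD : 0 < p.1 ^ 2 + p.2.1 ^ 2 := by positivity
  have hSq : 0 < sinq p ^ (-q) := Real.rpow_pos_of_pos hS _
  have halg := alg_F2 hκ hq0 hqb hS
  unfold H2
  set S := sinq p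
  set G := Gq κ p
  set L := p.2.2.1
  set r1 := R1 ε L
  set r2 := R2 ε L
  set X := S ^ (-q)
  have hlow : -r1 ≤ r2 := (abs_le.1 hR2).1
  have h1 : G * X * (r1 * (κ / 2 * q * (S ^ 2 - (bb κ - q) * (1 - S ^ 2))) - 4 * S ^ 2 * r2)
      + G * -(4 * S ^ 2 * (MM κ q * r1)) ≤ -(cc2 κ q / 2 * (G * X * r1)) := by
    have e1 : κ / 2 * q * (S ^ 2 - (bb κ - q) * (1 - S ^ 2))
        = (DD κ q - 4) * S ^ 2 - cc2 κ q := by unfold DD cc2; ring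
    rw [e1]
    have h2 : -(4 * S ^ 2 * r2) ≤ 4 * S ^ 2 * r1 := by nlinarith [sq_nonneg S]
    have h3 : G * X * (r1 * ((DD κ q - 4) * S ^ 2 - cc2 κ q) - 4 * S ^ 2 * r2)
        ≤ G * X * (r1 * (DD κ q * S ^ 2 - cc2 κ q)) := by
      refine mul_le_mul_of_nonneg_left ?_ (by positivity)
      nlinarith
    have h4 : G * r1 * (X * (DD κ q * S ^ 2 - cc2 κ q / 2)) ≤ G * r1 * (4 * MM κ q * S ^ 2) :=
      mul_le_mul_of_nonneg_left halg (by positivity)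
    nlinarith
  have h5 := mul_le_mul_of_nonneg_left h1 (by positivity : 0 ≤ 1 / (p.1 ^ 2 + p.2.1 ^ 2))
  calc _ = 1 / (p.1 ^ 2 + p.2.1 ^ 2) * (G * X * (r1 * (κ / 2 * q * (S ^ 2 - (bb κ - q) *
        (1 - S ^ 2))) - 4 * S ^ 2 * r2) + G * -(4 * S ^ 2 * (MM κ q * r1))) := by ring
    _ ≤ _ := h5
    _ = _ := by ring

end F2

end Crest.Agent.R162.LBC
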