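import Mathlib
import Crest.Agent.R162.LBC5

/-!
Row 162, node LB-CONTENT, file 6 (helper499): exact Dynkin on a box, the smooth profile, the
time supersolution, and the deterministic time bound.
-/

set_option autoImplicit false
set_option linter.unusedSectionVars false

open MeasureTheory ProbabilityTheory Set Filter
open scoped NNReal ENNReal Topology

namespace Crest.Agent.R162.LBC

open Crest.Agent.R162.GEN Crest.Agent.R162.OPGen
open FL OP OS Crest.ProbabilityR.Loewner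

universe u

section prob

variable {Ω : Type u} {m : MeasurableSpace Ω} {P : Measure Ω} [IsProbabilityMeasure P]
  {Fl : Filtration ℝ≥0 m} {B : ℝ≥0 → Ω → ℝ} {κ : ℝ} {w : ℂ}

/-- exact Dynkin formula in `ENNReal` form when `gen κ F = -H ≤ 0 ≤ F`. -/
theorem box_eq (hM : OPM.{u}) (hB : IsBM Fl B P) (hκ : 0 < κ) (hw : 0 < w.im)
    (hE : Exit Fl κ B w) {F : ℝ × ℝ × ℝ × ℝ → ℝ} (hF : ContDiffOn ℝ 3 F {q | 0 < q.2.1})
    (hF0 : ∀ q : ℝ × ℝ × ℝ × ℝ, 0 < q.2.1 → 0 ≤ F q)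
    (hgc : ContinuousOn (gen κ F) {q | 0 < q.2.1}) {H : ℝ × ℝ × ℝ × ℝ → ℝ}
    (hH0 : ∀ q : ℝ × ℝ × ℝ × ℝ, 0 < q.2.1 → 0 ≤ H q)
    (hgen : ∀ q : ℝ × ℝ × ℝ × ℝ, 0 < q.2.1 → gen κ F q = - H q)
    {O : Set (ℝ × ℝ × ℝ × ℝ)} (hO : IsOpen O) {r : ℝ} (hr' : 0 < r) (hOr : O ⊆ bo r)
    {σ τ : Ω → ℝ≥0} (hσ : IsST Fl σ)
    (hτ : IsST Fl τ) {T : ℝ≥0} (hτT : ∀ ω, τ ω ≤ T) {A : Set Ω} (hA : EvST Fl σ A)
    (hστ : ∀ ω ∈ A, σ ω ≤ τ ω) (hAO : ∀ ω ∈ A, stP κ B w (σ ω) ω ∈ O) :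
    ∫⁻ ω in A, ENNReal.ofReal (F (stP κ B w (σ ω) ω)) ∂P
      = ∫⁻ ω in A, (∫⁻ s in Ioc (σ ω : ℝ) (min (hit (stP κ B w) Oᶜ σ T ω) (τ ω) : ℝ≥0),
        hr H κ B w ω s) ∂P
      + ∫⁻ ω in A, ENNReal.ofReal
          (F (stP κ B w (min (hit (stP κ B w) Oᶜ σ T ω) (τ ω)) ω)) ∂P := by
  obtain ⟨key, i1, i2, i3, heq⟩ := box_step hM hB hκ hw hE hF hgc hO hr' hOr hσ hτ hτT hA hστ hAO
  set τ' : Ω → ℝ≥0 := fun ω => min (hit (stP κ B w) Oᶜ σ T ω) (τ ω) with hτ'
  have hAm : MeasurableSet A := hA.measurableSet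
  have hclO : closure O ⊆ bc r := (closure_mono hOr).trans (closure_bo_subset r)
  have hpos : ∀ ω ∈ A, ∀ s : ℝ, (σ ω : ℝ) ≤ s → s ≤ τ' ω →
      Alive (driving κ B ω) w s ∧ 0 < (stW (driving κ B ω) s w).2.1 := by
    intro ω hω s h1 h2
    have hs0 : 0 ≤ s := (σ ω).2.trans h1
    have := (key ω hω).2 ⟨s, hs0⟩ (by exact_mod_cast h1) (by exact_mod_cast h2)
    exact ⟨this.1, bc_pos' hr' (hclO this.2)⟩
  have h1 : ∀ ω ∈ A, (∫⁻ s in Ioc (σ ω : ℝ) (τ' ω), hr H κ B w ω s)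
      = ENNReal.ofReal (-(∫ s in (σ ω : ℝ)..(τ' ω : ℝ), gen κ F (stW (driving κ B ω) s w))) := by
    intro ω hω
    have hle : (σ ω : ℝ) ≤ τ' ω := by exact_mod_cast (key ω hω).1
    have ha : Alive (driving κ B ω) w (τ' ω) := (hpos ω hω _ hle le_rfl).1
    have hc : ContinuousOn (fun s => -gen κ F (stW (driving κ B ω) s w))
        (Icc (σ ω : ℝ) (τ' ω)) := by
      refine (hgc.comp ((stW_contOn (cont_driving hB κ ω) ha).mono ?_) ?_).neg
      · exact Icc_subset_Icc NNReal.zero_le_coe le_rfl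
      · intro s hs
        exact (hpos ω hω s hs.1 hs.2).2
    have hi : IntegrableOn (fun s => -gen κ F (stW (driving κ B ω) s w))
        (Ioc (σ ω : ℝ) (τ' ω)) := hc.integrableOn_Icc.mono_set Ioc_subset_Icc_self
    have hnn : ∀ s ∈ Ioc (σ ω : ℝ) (τ' ω), H (stW (driving κ B ω) s w)
        = -gen κ F (stW (driving κ B ω) s w) ∧ 0 ≤ -gen κ F (stW (driving κ B ω) s w) := by
      intro s hs
      have hp := (hpos ω hω s hs.1.le hs.2).2
      have a1 := hgen _ hp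
      have a2 := hH0 _ hp
      constructor <;> linarith
    rw [← intervalIntegral.integral_neg, intervalIntegral.integral_of_le hle,
      ofReal_integral_eq_lintegral_ofReal hi ?_]
    · refine setLIntegral_congr_fun measurableSet_Ioc fun s hs => ?_
      unfold hr
      rw [indicator_of_mem (by exact (hpos ω hω s hs.1.le hs.2).1), (hnn s hs).1]
    · filter_upwards [ae_restrict_mem measurableSet_Ioc] with s hs
      exact (hnn s hs).2
  have hJ0 : ∀ ω ∈ A, 0 ≤ -(∫ s in (σ ω : ℝ)..(τ' ω : ℝ), gen κ F (stW (driving κ B ω) s w)) := by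
    intro ω hω
    have hle : (σ ω : ℝ) ≤ τ' ω := by exact_mod_cast (key ω hω).1
    rw [← intervalIntegral.integral_neg]
    refine intervalIntegral.integral_nonneg hle fun s hs => ?_
    have hp := (hpos ω hω s hs.1 hs.2).2
    have a1 := hgen _ hp
    have a2 := hH0 _ hp
    linarith
  have h2 : ∫⁻ ω in A, (∫⁻ s in Ioc (σ ω : ℝ) (τ' ω), hr H κ B w ω s) ∂P
      = ∫⁻ ω in A, ENNReal.ofReal (-(∫ s in (σ ω : ℝ)..(τ' ω : ℝ),
        gen κ F (stW (driving κ B ω) s w))) ∂P := setLIntegral_congr_fun hAm h1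
  have e1 : ∫⁻ ω in A, ENNReal.ofReal (-(∫ s in (σ ω : ℝ)..(τ' ω : ℝ),
        gen κ F (stW (driving κ B ω) s w))) ∂P
      = ENNReal.ofReal (∫ ω in A, -(∫ s in (σ ω : ℝ)..(τ' ω : ℝ),
        gen κ F (stW (driving κ B ω) s w)) ∂P) := by
    refine (ofReal_integral_eq_lintegral_ofReal (f := fun ω => -(∫ s in (σ ω : ℝ)..(τ' ω : ℝ),
        gen κ F (stW (driving κ B ω) s w))) i3.neg ?_).symm
    filter_upwards [ae_restrict_mem hAm] with ω hω
    exact hJ0 ω hω
  have e2 : ∫⁻ ω in A, ENNReal.ofReal (F (stP κ B w (τ' ω) ω)) ∂P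
      = ENNReal.ofReal (∫ ω in A, F (stP κ B w (τ' ω) ω) ∂P) := by
    rw [ofReal_integral_eq_lintegral_ofReal i2]
    filter_upwards [ae_restrict_mem hAm] with ω hω
    refine hF0 _ ?_
    exact (hpos ω hω _ (by exact_mod_cast (key ω hω).1) le_rfl).2
  have e3 : ∫⁻ ω in A, ENNReal.ofReal (F (stP κ B w (σ ω) ω)) ∂P
      = ENNReal.ofReal (∫ ω in A, F (stP κ B w (σ ω) ω) ∂P) := by
    rw [ofReal_integral_eq_lintegral_ofReal i1]
    filter_upwards [ae_restrict_mem hAm] with ω hω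
    refine hF0 _ ?_
    exact (hpos ω hω _ le_rfl (by exact_mod_cast (key ω hω).1)).2
  change _ = ∫⁻ ω in A, (∫⁻ s in Ioc (σ ω : ℝ) (τ' ω), hr H κ B w ω s) ∂P
    + ∫⁻ ω in A, ENNReal.ofReal (F (stP κ B w (τ' ω) ω)) ∂P
  rw [h2, e1, e2, e3, ← ENNReal.ofReal_add]
  · congr 1
    rw [integral_neg]
    change ∫ ω in A, F (stP κ B w (τ' ω) ω) ∂P = _ at heq
    rw [heq]
    ring
  · exact setIntegral_nonneg hAm hJ0
  · refine setIntegral_nonneg hAm fun ω hω => hF0 _ ?_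
    exact (hpos ω hω _ (by exact_mod_cast (key ω hω).1) le_rfl).2

end prob

/-! ### the smooth profile -/

theorem exists_psi : ∃ (ψ k : ℝ → ℝ) (m : ℝ), 0 < m ∧ ContDiff ℝ (⊤ : ℕ∞) ψ ∧ Continuous k ∧
    (∀ x, HasDerivAt ψ (k x) x) ∧ (∀ x, 0 ≤ ψ x) ∧ (∀ x, ψ x ≤ 1) ∧ (∀ x, x ≤ 0 → ψ x = 0) ∧
    (∀ x, Real.log 2 ≤ x → ψ x = m) ∧ (∀ x, 0 ≤ k x) ∧ (∀ x, k x ≤ (Real.log 2)⁻¹) ∧
    (∀ x, k x ≠ 0 → 0 ≤ x ∧ x ≤ Real.log 2) := by
  have hl := LB.log_two_pos'
  have cS : ContDiff ℝ (⊤ : ℕ∞) Real.smoothTransition := Real.smoothTransition.contDiff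
  have cd : Continuous (deriv Real.smoothTransition) := cS.continuous_deriv (by simp)
  have hdz : ∀ x, x < 0 ∨ 1 < x → deriv Real.smoothTransition x = 0 := by
    intro x hx
    rcases hx with hx | hx
    · have : Real.smoothTransition =ᶠ[𝓝 x] fun _ => (0:ℝ) := by
        filter_upwards [Iio_mem_nhds hx] with y hy
        exact Real.smoothTransition.zero_of_nonpos (le_of_lt hy)
      rw [this.deriv_eq]; simp
    · have : Real.smoothTransition =ᶠ[𝓝 x] fun _ => (1:ℝ) := by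
        filter_upwards [Ioi_mem_nhds hx] with y hy
        exact Real.smoothTransition.one_of_one_le (le_of_lt hy)
      rw [this.deriv_eq]; simp
  obtain ⟨M0, hM0⟩ := isCompact_Icc.exists_bound_of_continuousOn (cd.continuousOn (s := Icc 0 1))
  set M := max M0 1 with hM
  have hM1 : 1 ≤ M := le_max_right _ _
  have hMp : 0 < M := by linarith
  have hbd : ∀ x, deriv Real.smoothTransition x ≤ M := by
    intro x
    by_cases hx : x < 0 ∨ 1 < x
    · rw [hdz x hx]; exact hMp.le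
    · push Not at hx
      exact ((le_abs_self _).trans (hM0 x ⟨hx.1, hx.2⟩)).trans (le_max_left _ _)
  have hnn : ∀ x, 0 ≤ deriv Real.smoothTransition x := fun x =>
    Real.smoothTransition.monotone.deriv_nonneg
  refine ⟨fun x => Real.smoothTransition (x / Real.log 2) / M,
    fun x => deriv Real.smoothTransition (x / Real.log 2) / Real.log 2 / M, 1 / M, by positivity,
    ?_, ?_, ?_, ?_, ?_, ?_, ?_, ?_, ?_, ?_⟩
  · exact (cS.comp (contDiff_id.div_const _)).div_const _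
  · exact ((cd.comp (continuous_id.div_const _)).div_const _).div_const _
  · intro x
    have h1 : HasDerivAt Real.smoothTransition (deriv Real.smoothTransition (x / Real.log 2))
        (x / Real.log 2) := (cS.differentiable (by simp)).differentiableAt.hasDerivAt
    have h2 : HasDerivAt (fun x : ℝ => x / Real.log 2) (1 / Real.log 2) x :=
      (hasDerivAt_id x).div_const _
    have h3 := (h1.comp x h2).div_const M
    have h4 : deriv Real.smoothTransition (x / Real.log 2) * (1 / Real.log 2) / M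
        = deriv Real.smoothTransition (x / Real.log 2) / Real.log 2 / M := by ring
    rw [h4] at h3
    exact h3
  · intro x; have := Real.smoothTransition.nonneg (x / Real.log 2); positivity
  · intro x
    have := Real.smoothTransition.le_one (x / Real.log 2)
    rw [div_le_one hMp]; linarith
  · intro x hx
    beta_reduce
    rw [Real.smoothTransition.zero_of_nonpos (div_nonpos_of_nonpos_of_nonneg hx hl.le), zero_div]
  · intro x hx
    beta_reduce
    rw [Real.smoothTransition.one_of_one_le ((one_le_div hl).2 hx)]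
  · intro x; have := hnn (x / Real.log 2); positivity
  · intro x
    have := hbd (x / Real.log 2)
    rw [div_le_iff₀ hMp, div_le_iff₀ hl]
    calc _ ≤ M := this
      _ = _ := by field_simp
  · intro x hx
    have h1 : deriv Real.smoothTransition (x / Real.log 2) ≠ 0 := fun h => hx (by simp [h])
    have h2 : ¬ (x / Real.log 2 < 0 ∨ 1 < x / Real.log 2) := fun h => h1 (hdz _ h)
    push Not at h2
    refine ⟨?_, ?_⟩
    · by_contra h; push Not at h
      exact absurd (div_neg_of_neg_of_pos h hl) (not_lt.2 h2.1)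
    · have := (div_le_one hl).1 h2.2
      exact this

/-! ### the time supersolution -/

/-- `G e^{-pa} (S^{-p} + κ/2)` -/
noncomputable def Fp (κ p : ℝ) : ℝ × ℝ × ℝ × ℝ → ℝ :=
  pq (fun th a x => V3 κ (p - bb κ) p (fun _ => 1) th a x
    + V3 κ (-bb κ) p (fun _ => κ / 2) th a x) 0 0

section Fp

variable {κ p : ℝ} (hκ : 0 < κ) (hp0 : 0 < p) (hpb : p ≤ bb κ) (hp2 : p ≤ 2)

include hκ hp0 hpb hp2

lemma E3_eqp {q : ℝ × ℝ × ℝ × ℝ} (hq : 0 < q.2.1) :
    E3 κ (-bb κ) p q = Gq κ q * Real.exp (-p * q.2.2.2) := by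
  have := E3_eq hκ.ne' 0 p hq
  simpa using this

lemma Fp_eq {q : ℝ × ℝ × ℝ × ℝ} (hq : 0 < q.2.1) :
    Fp κ p q = Gq κ q * Real.exp (-p * q.2.2.2) * (sinq q ^ (-p) + κ / 2) := by
  have h1 := pq_V3 κ (p - bb κ) p (fun _ => 1) q
  have h2 := pq_V3 κ (-bb κ) p (fun _ => κ / 2) q
  have h5 : Fp κ p q = pq (V3 κ (p - bb κ) p (fun _ => 1)) 0 0 q
      + pq (V3 κ (-bb κ) p (fun _ => κ / 2)) 0 0 q := rfl
  rw [h5, h1, h2, E3_eq hκ.ne' p p hq, E3_eqp hκ hp0 hpb hp2 hq]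
  ring

lemma jetsp :
    Jet (V3 κ (p - bb κ) p (fun _ => 1)) (V3t κ (p - bb κ) p (fun _ => 1) (fun _ => 0))
      (V3a κ (p - bb κ) p (fun _ => 1)) (V3x κ (p - bb κ) p (fun _ => 1))
      (V3xx κ (p - bb κ) p (fun _ => 1)) ∧
    Jet (V3 κ (-bb κ) p (fun _ => κ / 2)) (V3t κ (-bb κ) p (fun _ => κ / 2) (fun _ => 0))
      (V3a κ (-bb κ) p (fun _ => κ / 2)) (V3x κ (-bb κ) p (fun _ => κ / 2))
      (V3xx κ (-bb κ) p (fun _ => κ / 2)) :=
  ⟨jet_V3 κ _ p (fun s => hasDerivAt_const s _) contDiff_const,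
    jet_V3 κ _ p (fun s => hasDerivAt_const s _) contDiff_const⟩

lemma gen_Fp_eq {q : ℝ × ℝ × ℝ × ℝ} (hq : 0 < q.2.1) :
    gen κ (Fp κ p) q = gen κ (pq (V3 κ (p - bb κ) p (fun _ => 1)) 0 0) q
      + gen κ (pq (V3 κ (-bb κ) p (fun _ => κ / 2)) 0 0) q := by
  obtain ⟨J1, J2⟩ := jetsp hκ hp0 hpb hp2
  exact gen_add J1 J2 hq

lemma gen_Fp_le {q : ℝ × ℝ × ℝ × ℝ} (hq : 0 < q.2.1) : gen κ (Fp κ p) q ≤ -0 := by
  rw [gen_Fp_eq hκ hp0 hpb hp2 hq,
    gen_V3 hκ _ p (g' := fun _ => 0) (fun s => hasDerivAt_const s _) contDiff_const hq,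
    gen_V3 hκ _ p (g' := fun _ => 0) (fun s => hasDerivAt_const s _) contDiff_const hq,
    brk_q, E3_eq hκ.ne' p p hq, E3_eqp hκ hp0 hpb hp2 hq]
  have hb : brk κ (-bb κ) p (sinq q ^ 2) = -p := by unfold brk; ring
  rw [hb]
  have hG := Gq_pos κ hq
  have hS := sinq_pos' hq
  have hS1 := sinq_le_one' hq
  have hD : 0 < q.1 ^ 2 + q.2.1 ^ 2 := by positivity
  have hSq : 0 < sinq q ^ (-p) := Real.rpow_pos_of_pos hS _
  have he := Real.exp_pos (-p * q.2.2.2)
  have hSp : sinq q ^ (-p) * sinq q ^ 2 ≤ 1 := by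
    rw [← Real.rpow_natCast (sinq q) 2, ← Real.rpow_add hS]
    exact Real.rpow_le_one hS.le hS1 (by push_cast; linarith)
  set S := sinq q
  set X := S ^ (-p)
  have key : X * (κ / 2 * p * (S ^ 2 - (bb κ - p) * (1 - S ^ 2)) - p) + -(κ / 2 * p) ≤ 0 := by
    have h1 : 0 ≤ (bb κ - p) * (1 - S ^ 2) := by
      apply mul_nonneg (by linarith)
      nlinarith
    have h2 : κ / 2 * p * (X * S ^ 2) ≤ κ / 2 * p * 1 := by gcongr
    have h3 : 0 ≤ κ / 2 * p * X * ((bb κ - p) * (1 - S ^ 2)) := by positivity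
    have h4 : 0 ≤ X * p := by positivity
    nlinarith
  have h5 : 0 ≤ 1 / (q.1 ^ 2 + q.2.1 ^ 2) * (Gq κ q * Real.exp (-p * q.2.2.2)) := by positivity
  have h6 := mul_nonpos_of_nonneg_of_nonpos h5 key
  refine le_trans (le_of_eq ?_) (h6.trans (by simp))
  ring

lemma cont_gen_Fp : ContinuousOn (gen κ (Fp κ p)) {q | 0 < q.2.1} := by
  have h := (continuousOn_gen_V3 hκ (p - bb κ) p (g := fun _ => 1) (g' := fun _ => 0)
    (fun s => hasDerivAt_const s _) contDiff_const continuous_const).add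
    (continuousOn_gen_V3 hκ (-bb κ) p (g := fun _ => κ / 2) (g' := fun _ => 0)
    (fun s => hasDerivAt_const s _) contDiff_const continuous_const)
  exact h.congr fun q hq => gen_Fp_eq hκ hp0 hpb hp2 hq

lemma contDiff_Fp : ContDiffOn ℝ 3 (Fp κ p) {q | 0 < q.2.1} := by
  obtain ⟨J1, J2⟩ := jetsp hκ hp0 hpb hp2
  exact contDiffOn_pq3 (J1.add J2) 0 0

end Fp

/-! ### the deterministic time bound -/

theorem time_le {W : ℝ → ℝ} {w : ℂ} {t : ℝ} (hW : Continuous W) (h : Alive W w t) {Rr : ℝ}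
    (hR : 0 < Rr)
    (hs : ∀ s ∈ Icc 0 t, Real.exp (-(stW W s w).2.2.2) ≤ Rr * sinq (stW W s w)) :
    t ≤ (w.im * Rr) ^ 2 / 2 := by
  have hw : 0 < w.im := h.im_pos
  set c := 2 / (w.im * Rr ^ 2) with hc
  have hc0 : 0 < c := by positivity
  have hcg : ContinuousOn (fun s => (gfl W s w).im + c * s) (Icc 0 t) :=
    (Complex.continuous_im.comp_continuousOn (continuousOn_gfl h)).add
      (continuous_const.mul continuous_id).continuousOn
  have hder : ∀ s ∈ Ioo 0 t, HasDerivAt (fun s => (gfl W s w).im + c * s)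
      ((2 / (gfl W s w - W s)).im + c) s := by
    intro s hs'
    have h1 : HasDerivAt (fun s => (gfl W s w).im) ((2 / (gfl W s w - W s)).im) s :=
      (hasDerivWithinAt_im (hasDerivWithinAt_gfl h (Ioo_subset_Icc_self hs'))).hasDerivAt
        (Icc_mem_nhds hs'.1 hs'.2)
    have h2 : HasDerivAt (fun s : ℝ => c * s) c s := by
      simpa using (hasDerivAt_id s).const_mul c
    exact h1.add h2
  have hanti : AntitoneOn (fun s => (gfl W s w).im + c * s) (Icc 0 t) := by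
    refine antitoneOn_of_deriv_nonpos (convex_Icc 0 t) hcg ?_ ?_
    · intro s hs'
      rw [interior_Icc] at hs'
      exact (hder s hs').differentiableAt.differentiableWithinAt
    · intro s hs'
      rw [interior_Icc] at hs'
      rw [(hder s hs').deriv]
      have hs'' := Ioo_subset_Icc_self hs'
      have ha := h.mono hs''.1 hs''.2
      have hY := Y_pos ha
      have e1 := hs s hs''
      have e2 := Y_eq hW ha
      have hS := sinq_pos' hY
      have him : (2 / (gfl W s w - W s)).im = -(2 * (gfl W s w).im / ‖Zfl W s w‖ ^ 2) := by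
        rw [im_two_div, Complex.normSq_eq_norm_sq]; rfl
      rw [him]
      have hYg : (stW W s w).2.1 = (gfl W s w).im := by rw [stW_Y, Zfl_im]
      have hsq : sinq (stW W s w) ^ 2 = (gfl W s w).im ^ 2 / ‖Zfl W s w‖ ^ 2 := by
        rw [← sfl_eq']; unfold sfl; rw [div_pow, Zfl_im]
      have hN : 0 < ‖Zfl W s w‖ ^ 2 := by
        have := norm_pos_iff.2 (Zfl_ne_zero ha); positivity
      rw [hYg] at hY e2
      set y := (gfl W s w).im
      set N := ‖Zfl W s w‖ ^ 2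
      set a := (stW W s w).2.2.2
      have h3 : Real.exp (-a) ^ 2 ≤ Rr ^ 2 * (y ^ 2 / N) := by
        rw [← hsq, ← mul_pow]
        exact pow_le_pow_left₀ (Real.exp_pos _).le e1 2
      have h4 : Real.exp (-a) ^ 2 = y / w.im := by
        rw [e2, ← Real.exp_nat_mul]
        field_simp
        congr 1
        push_cast; ring
      rw [h4] at h3
      have h5 : c ≤ 2 * y / N := by
        rw [hc, div_le_div_iff₀ (by positivity) hN]
        rw [div_le_iff₀ hw] at h3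
        have h6 : y * N ≤ Rr ^ 2 * y ^ 2 * w.im := by
          calc y * N ≤ (Rr ^ 2 * (y ^ 2 / N) * w.im) * N := by gcongr
            _ = _ := by field_simp
        have h7 : N ≤ Rr ^ 2 * y * w.im := by
          have : y * N ≤ y * (Rr ^ 2 * y * w.im) := by
            calc _ ≤ _ := h6
              _ = _ := by ring
          exact le_of_mul_le_mul_left this hY
        nlinarith
      linarith
  have h0 := hanti ⟨le_rfl, h.1⟩ ⟨h.1, le_rfl⟩ h.1
  simp only [mul_zero, add_zero] at h0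
  have hg0 : gfl W 0 w = w := gfl_zero' h
  rw [hg0] at h0
  have hgt := gfl_im_pos h
  have h8 : c * t ≤ w.im := by linarith
  rw [hc, div_mul_eq_mul_div, div_le_iff₀ (by positivity)] at h8
  nlinarith

end Crest.Agent.R162.LBC
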