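import Mathlib
import Crest.Agent.R162.LBC6

/-!
Row 162, node LB-CONTENT, file 7 (helper499): lower bound of the mass of the content up to a fixed
time.
-/

set_option autoImplicit false
set_option linter.unusedSectionVars false

open MeasureTheory ProbabilityTheory Set Filter
open scoped NNReal ENNReal Topology

namespace Crest.Agent.R162.LBC

open Crest.Agent.R162.GEN Crest.Agent.R162.OPGen
open FL OP OS Crest.ProbabilityR.Loewner

universe u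

lemma st0_eq {W : ℝ → ℝ} {w : ℂ} (hW0 : W 0 = 0) (hw : 0 < w.im) :
    stW W 0 w = (w.re, w.im, Real.log w.im, 0) := by
  unfold stW ups ath
  simp [Zfl, gfl_zero hw, hW0]

/-- the domain of the exit time -/
def Od (r A Rr : ℝ) : Set (ℝ × ℝ × ℝ × ℝ) :=
  bo r ∩ {q | q.2.2.2 < A ∧ Real.exp (-q.2.2.2) < Rr * sinq q}

section Od

variable {r A Rr : ℝ}

lemma bo_pos (hr : 0 < r) {q : ℝ × ℝ × ℝ × ℝ} (hq : q ∈ bo r) : 0 < q.2.1 :=
  bc_pos' hr (bo_subset_bc r hq)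

lemma isOpen_Od (hr : 0 < r) : IsOpen (Od r A Rr) := by
  have h1 : ContinuousOn (fun q : ℝ × ℝ × ℝ × ℝ =>
      ((A - q.2.2.2, Rr * sinq q - Real.exp (-q.2.2.2)) : ℝ × ℝ)) (bo r) := by
    have hS := continuousOn_sinq.mono (fun q hq => bo_pos hr hq : bo r ⊆ {q | 0 < q.2.1})
    exact (by fun_prop : ContinuousOn (fun q : ℝ × ℝ × ℝ × ℝ => A - q.2.2.2) (bo r)).prodMk
      ((continuousOn_const.mul hS).sub (by fun_prop))
  have h2 := h1.isOpen_inter_preimage (isOpen_bo r) ((isOpen_Ioi (a := (0:ℝ))).prod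
    (isOpen_Ioi (a := (0:ℝ))))
  convert h2 using 1
  ext q
  simp only [Od, mem_inter_iff, mem_ofPred_eq, mem_preimage, mem_prod, mem_Ioi, sub_pos]

lemma closure_Od (hr : 0 < r) {q : ℝ × ℝ × ℝ × ℝ} (hq : q ∈ closure (Od r A Rr)) :
    q ∈ bc r ∧ q.2.2.2 ≤ A ∧ Real.exp (-q.2.2.2) ≤ Rr * sinq q := by
  have h1 : ContinuousOn (fun q : ℝ × ℝ × ℝ × ℝ =>
      ((A - q.2.2.2, Rr * sinq q - Real.exp (-q.2.2.2)) : ℝ × ℝ)) (bc r) := by
    have hS := continuousOn_sinq.mono (fun q hq => bc_pos' hr hq : bc r ⊆ {q | 0 < q.2.1})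
    exact (by fun_prop : ContinuousOn (fun q : ℝ × ℝ × ℝ × ℝ => A - q.2.2.2) (bc r)).prodMk
      ((continuousOn_const.mul hS).sub (by fun_prop))
  have h2 := h1.preimage_isClosed_of_isClosed (isCompact_bc r).isClosed
    ((isClosed_Ici (a := (0:ℝ))).prod (isClosed_Ici (a := (0:ℝ))))
  have h3 : Od r A Rr ⊆ bc r ∩ (fun q : ℝ × ℝ × ℝ × ℝ =>
      ((A - q.2.2.2, Rr * sinq q - Real.exp (-q.2.2.2)) : ℝ × ℝ)) ⁻¹' (Ici 0 ×ˢ Ici 0) := by
    intro p hp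
    refine ⟨bo_subset_bc r hp.1, ?_, ?_⟩
    · simpa using hp.2.1.le
    · simpa using hp.2.2.le
  have h4 := (closure_minimal h3 h2) hq
  refine ⟨h4.1, ?_, ?_⟩
  · have := h4.2.1; simpa using this
  · have := h4.2.2; simpa using this

end Od

/-- a radius that is certainly large enough -/
noncomputable def rr (y A Rr : ℝ) : ℝ :=
  y + y * Rr + Real.exp (2 * A) / y + |Real.log y| + 5 * A + 1

lemma rr_pos {y A Rr : ℝ} (hy : 0 < y) (hA : 0 < A) (hR : 0 < Rr) : 0 < rr y A Rr := by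
  unfold rr; have := abs_nonneg (Real.log y); positivity

lemma mem_bo_rr {W : ℝ → ℝ} {w : ℂ} {t : ℝ} (hW : Continuous W) (h : Alive W w t) {A Rr : ℝ}
    (hA : 0 < A) (hR : 0 < Rr) (ha : (stW W t w).2.2.2 ≤ A)
    (he : Real.exp (-(stW W t w).2.2.2) ≤ Rr * sinq (stW W t w)) :
    stW W t w ∈ bo (rr w.im A Rr) := by
  have hw : 0 < w.im := h.im_pos
  have hY := Y_pos h
  have e2 := Y_eq hW h
  have hL1 := L_le hW h
  have hL2 := le_L hW h
  have ha0 := a_nonneg h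
  have hYle := Y_le hW h
  have hlog := abs_nonneg (Real.log w.im)
  have hl1 := le_abs_self (Real.log w.im)
  have hl2 := neg_abs_le (Real.log w.im)
  have hexp : 0 < Real.exp (2 * A) / w.im := by positivity
  have hX : |(stW W t w).1| ≤ w.im * Rr := by
    unfold sinq at he
    set X := (stW W t w).1
    set Y := (stW W t w).2.1
    set a := (stW W t w).2.2.2
    have hN : 0 < Real.sqrt (X ^ 2 + Y ^ 2) := by positivity
    have h1 : |X| ≤ Real.sqrt (X ^ 2 + Y ^ 2) := by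
      refine Real.abs_le_sqrt ?_
      nlinarith [sq_nonneg Y]
    have h2 : Real.exp (-a) * Real.sqrt (X ^ 2 + Y ^ 2) ≤ Rr * Y := by
      calc _ ≤ (Rr * (Y / Real.sqrt (X ^ 2 + Y ^ 2))) * Real.sqrt (X ^ 2 + Y ^ 2) := by gcongr
        _ = Rr * Y := by field_simp
    have h3 : Real.sqrt (X ^ 2 + Y ^ 2) ≤ Rr * w.im * Real.exp (-a) := by
      have h4 : Real.exp (-a) * Real.sqrt (X ^ 2 + Y ^ 2)
          ≤ Real.exp (-a) * (Rr * w.im * Real.exp (-a)) := by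
        calc _ ≤ Rr * Y := h2
          _ = Real.exp (-a) * (Rr * w.im * Real.exp (-a)) := by
            rw [e2, show -2 * a = -a + -a by ring, Real.exp_add]; ring
      exact le_of_mul_le_mul_left h4 (Real.exp_pos _)
    have h5 : Real.exp (-a) ≤ 1 := Real.exp_le_one_iff.2 (by linarith)
    calc |X| ≤ _ := h1
      _ ≤ Rr * w.im * Real.exp (-a) := h3
      _ ≤ Rr * w.im * 1 := by gcongr
      _ = w.im * Rr := by ring
  have hYge : w.im * Real.exp (-2 * A) ≤ (stW W t w).2.1 := by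
    rw [e2]
    have : Real.exp (-2 * A) ≤ Real.exp (-2 * (stW W t w).2.2.2) :=
      Real.exp_le_exp.2 (by linarith)
    gcongr
  have hyR : 0 < w.im * Rr := by positivity
  refine mem_bo_of (M := w.im + w.im * Rr + |Real.log w.im| + 5 * A) (c := w.im * Real.exp (-2 * A))
    (by positivity) (by linarith) hYge ?_ ?_ ?_ ?_ ?_
  · rw [abs_of_pos hY]; linarith
  · rw [abs_le]; constructor <;> linarith
  · rw [abs_of_nonneg ha0]; linarith
  · unfold rr; linarith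
  · have : 1 / (w.im * Real.exp (-2 * A)) = Real.exp (2 * A) / w.im := by
      rw [show -2 * A = -(2 * A) by ring, Real.exp_neg]; field_simp
    rw [this]
    unfold rr; linarith

/-! ### the functions `F_b`, `H_b` -/

/-- `G ψ(L - log ε)` -/
noncomputable def Fb (κ ε : ℝ) (ψ : ℝ → ℝ) : ℝ × ℝ × ℝ × ℝ → ℝ :=
  pq (V3 κ (-bb κ) 0 (fun L => ψ (L - Real.log ε))) 0 0

/-- `k(L - log ε) G 4 S² |Z|^{-2}` -/
noncomputable def Hb (κ ε : ℝ) (k : ℝ → ℝ) (q : ℝ × ℝ × ℝ × ℝ) : ℝ :=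
  k (q.2.2.1 - Real.log ε) * (Gq κ q * (4 * sinq q ^ 2 / (q.1 ^ 2 + q.2.1 ^ 2)))

lemma Fb_eq {κ ε : ℝ} {ψ : ℝ → ℝ} (hκ : κ ≠ 0) {q : ℝ × ℝ × ℝ × ℝ} (hq : 0 < q.2.1) :
    Fb κ ε ψ q = ψ (q.2.2.1 - Real.log ε) * Gq κ q := by
  unfold Fb
  rw [pq_V3, E3_eq' hκ hq]

lemma hasDerivAt_shift' {ψ k : ℝ → ℝ} (h : ∀ x, HasDerivAt ψ (k x) x) (c s : ℝ) :
    HasDerivAt (fun L => ψ (L - c)) (k (s - c)) s := by
  have h1 : HasDerivAt (fun L : ℝ => L - c) 1 s := (hasDerivAt_id s).sub_const c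
  have h2 : HasDerivAt (fun L => ψ (L - c)) (k (s - c) * 1) s := (h (s - c)).comp s h1
  rwa [mul_one] at h2

lemma gen_Fb {κ ε : ℝ} {ψ k : ℝ → ℝ} (hκ : 0 < κ) (cψ : ContDiff ℝ (⊤ : ℕ∞) ψ)
    (hψ : ∀ x, HasDerivAt ψ (k x) x) {q : ℝ × ℝ × ℝ × ℝ} (hq : 0 < q.2.1) :
    gen κ (Fb κ ε ψ) q = - Hb κ ε k q := by
  unfold Fb
  rw [gen_V3 hκ (-bb κ) 0 (g' := fun L => k (L - Real.log ε)) (hasDerivAt_shift' hψ _)
    (cψ.comp (contDiff_id.sub contDiff_const)) hq, E3_eq' hκ.ne' hq, brk_b]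
  unfold Hb
  ring

/-- the pointwise estimate at the exit point -/
lemma exit_est {κ ε : ℝ} {ψ : ℝ → ℝ} (hκ : 0 < κ) (hκ8 : κ < 8) (hε : 0 < ε)
    (hψ1 : ∀ x, ψ x ≤ 1) (hψn : ∀ x, x ≤ 0 → ψ x = 0)
    {p c A Rr : ℝ} (hp0 : 0 < p) (hpb : p ≤ bb κ) (hp2 : p ≤ 2) (hc : 0 ≤ c) (hR : 0 < Rr)
    {q : ℝ × ℝ × ℝ × ℝ} (hq : 0 < q.2.1)
    (h : A ≤ q.2.2.2 ∨ Rr * sinq q ≤ Real.exp (-q.2.2.2)) :
    Fb κ ε ψ q ≤ (ε ^ (κ / 8 - 1) * Real.exp (-c * A)) * GEX.fS c 0 (bb κ / 2) q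
      + Rr ^ (-p) * Fp κ p q := by
  have hG := Gq_pos κ hq
  have hS := sinq_pos' hq
  have hS1 := sinq_le_one' hq
  have hb : 0 < bb κ := by
    unfold bb; have : 1 < 8 / κ := by rw [lt_div_iff₀ hκ]; linarith
    linarith
  rw [Fb_eq hκ.ne' hq, Fp_eq hκ hp0 hpb hp2 hq, GEX.fS_eq hq]
  have hSp : 0 < sinq q ^ (-p) := Real.rpow_pos_of_pos hS _
  have hSb : 0 < sinq q ^ (bb κ / 2) := Real.rpow_pos_of_pos hS _
  have hRp : 0 < Rr ^ (-p) := Real.rpow_pos_of_pos hR _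
  have n1 : 0 ≤ (ε ^ (κ / 8 - 1) * Real.exp (-c * A)) * (Real.exp (c * q.2.2.2 + 0 * q.2.2.1) *
      sinq q ^ (bb κ / 2)) := by positivity
  have n2 : 0 ≤ Rr ^ (-p) * (Gq κ q * Real.exp (-p * q.2.2.2) * (sinq q ^ (-p) + κ / 2)) := by
    positivity
  rcases h with h | h
  · -- `a ≥ A`
    have h1 : ψ (q.2.2.1 - Real.log ε) * Gq κ q ≤ ε ^ (κ / 8 - 1) * sinq q ^ (bb κ / 2) := by
      rcases le_or_gt (q.2.2.1 - Real.log ε) 0 with hL | hL
      · rw [hψn _ hL, zero_mul]; positivity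
      · have h2 : ψ (q.2.2.1 - Real.log ε) * Gq κ q ≤ Gq κ q := by
          have := hψ1 (q.2.2.1 - Real.log ε); nlinarith
        refine h2.trans ?_
        unfold Gq
        have h3 : Real.exp ((κ / 8 - 1) * q.2.2.1) ≤ ε ^ (κ / 8 - 1) := by
          rw [Real.rpow_def_of_pos hε]
          refine Real.exp_le_exp.2 ?_
          nlinarith
        have h4 : sinq q ^ (8 / κ - 1) ≤ sinq q ^ (bb κ / 2) := by
          refine Real.rpow_le_rpow_of_exponent_ge hS hS1 ?_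
          change bb κ / 2 ≤ bb κ
          linarith
        exact mul_le_mul h3 h4 (Real.rpow_nonneg hS.le _) (Real.rpow_nonneg hε.le _)
    have h5 : 1 ≤ Real.exp (-c * A) * Real.exp (c * q.2.2.2 + 0 * q.2.2.1) := by
      rw [← Real.exp_add]
      refine Real.one_le_exp ?_
      nlinarith
    have h6 : ε ^ (κ / 8 - 1) * sinq q ^ (bb κ / 2)
        ≤ (ε ^ (κ / 8 - 1) * Real.exp (-c * A)) * (Real.exp (c * q.2.2.2 + 0 * q.2.2.1) *
      sinq q ^ (bb κ / 2)) := by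
      have h7 : 0 ≤ ε ^ (κ / 8 - 1) * sinq q ^ (bb κ / 2) := by positivity
      calc _ = (ε ^ (κ / 8 - 1) * sinq q ^ (bb κ / 2)) * 1 := by ring
        _ ≤ (ε ^ (κ / 8 - 1) * sinq q ^ (bb κ / 2)) *
          (Real.exp (-c * A) * Real.exp (c * q.2.2.2 + 0 * q.2.2.1)) := by gcongr
        _ = _ := by ring
    linarith
  · -- `e^{-a} ≥ R S`
    have h2 : ψ (q.2.2.1 - Real.log ε) * Gq κ q ≤ Gq κ q := by
      have := hψ1 (q.2.2.1 - Real.log ε); nlinarith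
    have h3 : Rr ≤ Real.exp (-q.2.2.2) / sinq q := by rw [le_div_iff₀ hS]; exact h
    have h4 : Rr ^ p ≤ (Real.exp (-q.2.2.2) / sinq q) ^ p :=
      Real.rpow_le_rpow hR.le h3 hp0.le
    have h5 : (Real.exp (-q.2.2.2) / sinq q) ^ p = Real.exp (-p * q.2.2.2) * sinq q ^ (-p) := by
      rw [Real.div_rpow (Real.exp_pos _).le hS.le, ← Real.exp_mul, Real.rpow_neg hS.le,
        div_eq_mul_inv]
      congr 2
      ring
    rw [h5] at h4
    have h6 : 1 ≤ Rr ^ (-p) * (Real.exp (-p * q.2.2.2) * sinq q ^ (-p)) := by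
      calc (1:ℝ) = Rr ^ (-p) * Rr ^ p := by
            rw [← Real.rpow_add hR]; simp
        _ ≤ _ := by gcongr
    have h7 : Gq κ q ≤ Rr ^ (-p) * (Gq κ q * Real.exp (-p * q.2.2.2) * (sinq q ^ (-p) + κ / 2)) := by
      have h8 : 0 ≤ Rr ^ (-p) * (Gq κ q * Real.exp (-p * q.2.2.2) * (κ / 2)) := by positivity
      nlinarith
    linarith

end Crest.Agent.R162.LBC
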