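import Mathlib
import Crest.Agent.R162.LBC7

/-!
Row 162, node LB-CONTENT, file 8 (helper499): `MassAll`.
-/

set_option autoImplicit false
set_option linter.unusedSectionVars false

open MeasureTheory ProbabilityTheory Set Filter
open scoped NNReal ENNReal Topology

namespace Crest.Agent.R162.LBC

open Crest.Agent.R162.GEN Crest.Agent.R162.OPGen
open FL OP OS Crest.ProbabilityR.Loewner

universe u

section prob

variable {Ω : Type u} {m : MeasurableSpace Ω} {P : Measure Ω} [IsProbabilityMeasure P]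
  {Fl : Filtration ℝ≥0 m} {B : ℝ≥0 → Ω → ℝ} {κ : ℝ} {w : ℂ}

lemma driving_zero (hB : IsBM Fl B P) (κ : ℝ) (ω : Ω) : driving κ B ω 0 = 0 := by
  unfold driving
  simp [hB.zero ω]

/-- the state at time zero -/
noncomputable def s0 (w : ℂ) : ℝ × ℝ × ℝ × ℝ := (w.re, w.im, Real.log w.im, 0)

lemma stP_zero (hB : IsBM Fl B P) (hw : 0 < w.im) (ω : Ω) : stP κ B w 0 ω = s0 w := by
  unfold stP
  rw [NNReal.coe_zero]
  exact st0_eq (driving_zero hB κ ω) hw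

theorem mass_step (hB : IsBM Fl B P) (hκ : 0 < κ) (hκ8 : κ < 8) (hw : 0 < w.im)
    {ψ k : ℝ → ℝ} (cψ : ContDiff ℝ (⊤ : ℕ∞) ψ) (ck : Continuous k)
    (hψ : ∀ x, HasDerivAt ψ (k x) x) (hψ0 : ∀ x, 0 ≤ ψ x) (hψ1 : ∀ x, ψ x ≤ 1)
    (hψn : ∀ x, x ≤ 0 → ψ x = 0) (hk0 : ∀ x, 0 ≤ k x)
    {ε : ℝ} (hε : 0 < ε) {p : ℝ} (hp0 : 0 < p) (hpb : p ≤ bb κ) (hp2 : p ≤ 2)
    {Rr : ℝ} (hR : 1 < Rr * sinq (s0 w)) (hR0 : 0 < Rr) {n : ℕ} (hn : (w.im * Rr) ^ 2 / 2 < n)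
    {A : ℝ} (hA : 0 < A) {c : ℝ} (hc0 : 0 ≤ c) (hc1 : c ≤ κ * (bb κ / 2) / 2 * (bb κ / 2))
    (hc2 : c ≤ κ * (bb κ / 2) / 2) :
    ENNReal.ofReal (Fb κ ε ψ (s0 w)) ≤
      ∫⁻ ω, (∫⁻ s in Ioc (0:ℝ) n, hr (Hb κ ε k) κ B w ω s) ∂P
      + (ENNReal.ofReal (ε ^ (κ / 8 - 1) * Real.exp (-c * A))
        + ENNReal.ofReal (Rr ^ (-p) * Fp κ p (s0 w))) := by
  classical
  have hb : 0 < bb κ := by
    unfold bb; have : 1 < 8 / κ := by rw [lt_div_iff₀ hκ]; linarith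
    linarith
  set r := rr w.im A Rr with hr_def
  have hr0 : 0 < r := rr_pos hw hA hR0
  set O := Od r A Rr with hO_def
  have hO : IsOpen O := isOpen_Od hr0
  have hOr : O ⊆ bo r := inter_subset_left
  set σ : Ω → ℝ≥0 := fun _ => 0 with hσ_def
  set T : ℝ≥0 := (n : ℝ≥0) with hT
  set τ : Ω → ℝ≥0 := fun _ => T with hτ_def
  have hσ : IsST Fl σ := IsST.const 0
  have hτ : IsST Fl τ := IsST.const T
  have hE := exit_ok5 hB κ w
  have hAe : EvST Fl σ univ := EvST.univ hσ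
  have hW := fun ω => cont_driving hB κ ω
  have hal0 : ∀ ω, Alive (driving κ B ω) w (0:ℝ≥0) := fun ω => by
    rw [NNReal.coe_zero]; exact alive_zero hw
  have hs0O : ∀ ω, stP κ B w (σ ω) ω ∈ O := by
    intro ω
    have e0 : stP κ B w (σ ω) ω = s0 w := stP_zero hB hw ω
    refine ⟨?_, ?_, ?_⟩
    · have := mem_bo_rr (hW ω) (hal0 ω) hA hR0 (by
        have : stW (driving κ B ω) ((0:ℝ≥0):ℝ) w = s0 w := stP_zero (κ := κ) hB hw ω
        rw [this]; exact hA.le) (by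
        have : stW (driving κ B ω) ((0:ℝ≥0):ℝ) w = s0 w := stP_zero (κ := κ) hB hw ω
        rw [this]
        have h1 : (s0 w).2.2.2 = 0 := rfl
        rw [h1, neg_zero, Real.exp_zero]; exact hR.le)
      exact this
    · rw [e0]; exact hA
    · rw [e0]
      have h1 : (s0 w).2.2.2 = 0 := rfl
      rw [h1, neg_zero, Real.exp_zero]; exact hR
  have hg : ∀ s, HasDerivAt (fun L => ψ (L - Real.log ε)) (k (s - Real.log ε)) s :=
    hasDerivAt_shift' hψ _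
  have cg : ContDiff ℝ (⊤ : ℕ∞) (fun L => ψ (L - Real.log ε)) :=
    cψ.comp (contDiff_id.sub contDiff_const)
  have cg' : Continuous (fun L => k (L - Real.log ε)) := ck.comp (continuous_id.sub continuous_const)
  have hFb3 : ContDiffOn ℝ 3 (Fb κ ε ψ) {q | 0 < q.2.1} :=
    contDiffOn_pq3 (jet_V3 κ _ 0 hg cg) 0 0
  have hFb0 : ∀ q : ℝ × ℝ × ℝ × ℝ, 0 < q.2.1 → 0 ≤ Fb κ ε ψ q := fun q hq => by
    rw [Fb_eq hκ.ne' hq]; exact mul_nonneg (hψ0 _) (Gq_pos κ hq).le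
  have hHb0 : ∀ q : ℝ × ℝ × ℝ × ℝ, 0 < q.2.1 → 0 ≤ Hb κ ε k q := fun q hq => by
    unfold Hb
    have h1 := hk0 (q.2.2.1 - Real.log ε)
    have h2 := Gq_pos κ hq
    have h3 := sinq_pos' hq
    positivity
  have eqb := box_eq OPM.opm hB hκ hw hE hFb3 hFb0
    (continuousOn_gen_V3 hκ (-bb κ) 0 hg cg cg') hHb0 (fun q hq => gen_Fb hκ cψ hψ hq)
    hO hr0 hOr hσ hτ (T := T) (fun _ => le_rfl) hAe (fun _ _ => bot_le) (fun ω _ => hs0O ω)
  -- the two supermartingales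
  have supP := box_super (H := fun _ => 0) OPM.opm hB hκ hw hE (contDiff_Fp hκ hp0 hpb hp2)
    (fun q hq => by
      rw [Fp_eq hκ hp0 hpb hp2 hq]
      have h2 := Gq_pos κ hq
      have h3 := sinq_pos' hq
      positivity)
    (cont_gen_Fp hκ hp0 hpb hp2) (fun _ _ => le_rfl) (fun q hq => gen_Fp_le hκ hp0 hpb hp2 hq)
    hO hr0 hOr hσ hτ (T := T) (fun _ => le_rfl) hAe (fun _ _ => bot_le) (fun ω _ => hs0O ω)
  have hFs0 : ∀ q : ℝ × ℝ × ℝ × ℝ, 0 < q.2.1 → 0 ≤ GEX.fS c 0 (bb κ / 2) q := fun q hq => by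
    rw [GEX.fS_eq hq]
    have h3 := sinq_pos' hq
    positivity
  have hgS : ContinuousOn (gen κ (GEX.fS c 0 (bb κ / 2))) {q | 0 < q.2.1} := by
    have h0 : ContinuousOn (fun q : ℝ × ℝ × ℝ × ℝ =>
        GEX.fS c 0 (bb κ / 2) q / (q.1 ^ 2 + q.2.1 ^ 2) *
      (κ * (bb κ / 2) / 2 * (q.1 ^ 2 / (q.1 ^ 2 + q.2.1 ^ 2) * ((bb κ / 2) - (8 / κ - 1))
        - q.2.1 ^ 2 / (q.1 ^ 2 + q.2.1 ^ 2)) - 4 * 0 * (q.2.1 ^ 2 / (q.1 ^ 2 + q.2.1 ^ 2)) + c))
        {q | 0 < q.2.1} := by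
      have h1 : ContinuousOn (GEX.fS c 0 (bb κ / 2)) {q : ℝ × ℝ × ℝ × ℝ | 0 < q.2.1} :=
        (GEX.contDiffOn_fS c 0 (bb κ / 2) (n := 3)).continuousOn
      have hne : ∀ q ∈ {q : ℝ × ℝ × ℝ × ℝ | 0 < q.2.1}, q.1 ^ 2 + q.2.1 ^ 2 ≠ 0 := fun q hq => by
        have : (0:ℝ) < q.2.1 := hq
        positivity
      have h2 : ContinuousOn (fun q : ℝ × ℝ × ℝ × ℝ => q.1 ^ 2 / (q.1 ^ 2 + q.2.1 ^ 2))
          {q | 0 < q.2.1} := ContinuousOn.div (by fun_prop) (by fun_prop) hne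
      have h3 : ContinuousOn (fun q : ℝ × ℝ × ℝ × ℝ => q.2.1 ^ 2 / (q.1 ^ 2 + q.2.1 ^ 2))
          {q | 0 < q.2.1} := ContinuousOn.div (by fun_prop) (by fun_prop) hne
      exact (h1.div (by fun_prop) hne).mul ((((continuousOn_const.mul ((h2.mul
        continuousOn_const).sub h3)).sub (continuousOn_const.mul h3))).add continuousOn_const)
    exact h0.congr fun q hq => GEX.gen_fS hκ c 0 (bb κ / 2) hq
  have supS := box_super (H := fun _ => 0) OPM.opm hB hκ hw hE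
    (GEX.contDiffOn_fS c 0 (bb κ / 2)) hFs0 hgS (fun _ _ => le_rfl)
    (fun q hq => by
      have := GEX.gen_S_nonpos hκ (p := bb κ / 2) (la := c) (q := q) (by
        change c ≤ κ * (bb κ / 2) / 2 * (bb κ - bb κ / 2)
        linarith) hc2 hq
      simpa using this)
    hO hr0 hOr hσ hτ (T := T) (fun _ => le_rfl) hAe (fun _ _ => bot_le) (fun ω _ => hs0O ω)
  -- integrability of the terminal values
  obtain ⟨key, -, iS, -, -⟩ := box_step OPM.opm hB hκ hw hE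
    (GEX.contDiffOn_fS c 0 (bb κ / 2)) hgS hO hr0 hOr hσ hτ (T := T) (fun _ => le_rfl) hAe
    (fun _ _ => bot_le) (fun ω _ => hs0O ω)
  set τ' : Ω → ℝ≥0 := fun ω => min (hit (stP κ B w) Oᶜ σ T ω) (τ ω) with hτ'
  simp only [Measure.restrict_univ] at eqb supP supS
  have eσ : ∀ ω, stP κ B w (σ ω) ω = s0 w := fun ω => stP_zero hB hw ω
  -- pointwise estimate at the exit
  have hpt : ∀ ω, Fb κ ε ψ (stP κ B w (τ' ω) ω)
      ≤ (ε ^ (κ / 8 - 1) * Real.exp (-c * A)) * GEX.fS c 0 (bb κ / 2) (stP κ B w (τ' ω) ω)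
        + Rr ^ (-p) * Fp κ p (stP κ B w (τ' ω) ω) := by
    intro ω
    obtain ⟨h1, h2, h3⟩ := OPTr.hit_open_spec (κ := κ) (w := w) hB
      (δ := 1 / r) (by positivity) hO (fun q hq => (hOr hq).2.1.1.le) σ T (hs0O ω)
    have hcl := fun t (ht : t ≤ τ' ω) => (h1 t bot_le (ht.trans (min_le_left _ _)))
    have halt : Alive (driving κ B ω) w (τ' ω) := (hcl _ le_rfl).1
    have hbd : ∀ s ∈ Icc (0:ℝ) (τ' ω), Real.exp (-(stW (driving κ B ω) s w).2.2.2)
        ≤ Rr * sinq (stW (driving κ B ω) s w) := by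
      intro s hs
      exact (closure_Od hr0 (hcl ⟨s, hs.1⟩ (by exact_mod_cast hs.2)).2).2.2
    have htl := time_le (hW ω) halt hR0 hbd
    have hlt : hit (stP κ B w) Oᶜ σ T ω < T := by
      by_contra hc'
      push Not at hc'
      have : τ' ω = T := min_eq_right hc'
      rw [this, hT] at htl
      push_cast at htl
      linarith
    have hτ'e : τ' ω = hit (stP κ B w) Oᶜ σ T ω := min_eq_left hlt.le
    have hnot : stP κ B w (τ' ω) ω ∉ O := by
      rcases h3 with h3 | h3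
      · exfalso
        have hm : max T (σ ω) = T := max_eq_left bot_le
        rw [h3, hm] at hlt
        exact lt_irrefl _ hlt
      · rw [hτ'e]; exact h3
    have hcl' := closure_Od hr0 (hcl _ le_rfl).2
    have hY : 0 < (stP κ B w (τ' ω) ω).2.1 := bc_pos' hr0 hcl'.1
    have hbo : stP κ B w (τ' ω) ω ∈ bo r := mem_bo_rr (hW ω) halt hA hR0 hcl'.2.1 hcl'.2.2
    refine exit_est hκ hκ8 hε hψ1 hψn hp0 hpb hp2 hc0 hR0 hY ?_
    by_contra hcon
    push Not at hcon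
    exact hnot ⟨hbo, hcon.1, hcon.2⟩
  have hFbn : ∀ ω, 0 ≤ Fp κ p (stP κ B w (τ' ω) ω) ∧
      0 ≤ GEX.fS c 0 (bb κ / 2) (stP κ B w (τ' ω) ω) := by
    intro ω
    have hY : 0 < (stP κ B w (τ' ω) ω).2.1 := by
      have := ((key ω (mem_univ _)).2 (τ' ω) bot_le le_rfl).2
      exact bc_pos' hr0 ((closure_mono hOr).trans (closure_bo_subset r) this)
    refine ⟨?_, hFs0 _ hY⟩
    rw [Fp_eq hκ hp0 hpb hp2 hY]
    have h2 := Gq_pos κ hY
    have h3 := sinq_pos' hY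
    positivity
  have hterm : ∫⁻ ω, ENNReal.ofReal (Fb κ ε ψ (stP κ B w (τ' ω) ω)) ∂P
      ≤ ENNReal.ofReal (ε ^ (κ / 8 - 1) * Real.exp (-c * A))
        + ENNReal.ofReal (Rr ^ (-p) * Fp κ p (s0 w)) := by
    have hδ : 0 ≤ ε ^ (κ / 8 - 1) * Real.exp (-c * A) := by positivity
    have hRp : 0 ≤ Rr ^ (-p) := by positivity
    have iS' : AEMeasurable (fun ω => ENNReal.ofReal (ε ^ (κ / 8 - 1) * Real.exp (-c * A)) *
        ENNReal.ofReal (GEX.fS c 0 (bb κ / 2) (stP κ B w (τ' ω) ω))) P := by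
      have := iS.aestronglyMeasurable.aemeasurable
      rw [Measure.restrict_univ] at this
      exact this.ennreal_ofReal.const_mul _
    calc ∫⁻ ω, ENNReal.ofReal (Fb κ ε ψ (stP κ B w (τ' ω) ω)) ∂P
        ≤ ∫⁻ ω, (ENNReal.ofReal (ε ^ (κ / 8 - 1) * Real.exp (-c * A)) *
            ENNReal.ofReal (GEX.fS c 0 (bb κ / 2) (stP κ B w (τ' ω) ω))
          + ENNReal.ofReal (Rr ^ (-p)) * ENNReal.ofReal (Fp κ p (stP κ B w (τ' ω) ω))) ∂P := by
          refine lintegral_mono fun ω => ?_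
          rw [← ENNReal.ofReal_mul hδ, ← ENNReal.ofReal_mul hRp,
            ← ENNReal.ofReal_add (mul_nonneg hδ (hFbn ω).2) (mul_nonneg hRp (hFbn ω).1)]
          exact ENNReal.ofReal_le_ofReal (hpt ω)
      _ = ENNReal.ofReal (ε ^ (κ / 8 - 1) * Real.exp (-c * A)) *
            ∫⁻ ω, ENNReal.ofReal (GEX.fS c 0 (bb κ / 2) (stP κ B w (τ' ω) ω)) ∂P
          + ENNReal.ofReal (Rr ^ (-p)) * ∫⁻ ω, ENNReal.ofReal (Fp κ p (stP κ B w (τ' ω) ω)) ∂P := by
          rw [lintegral_add_left' iS', lintegral_const_mul' _ _ ENNReal.ofReal_ne_top,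
            lintegral_const_mul' _ _ ENNReal.ofReal_ne_top]
      _ ≤ ENNReal.ofReal (ε ^ (κ / 8 - 1) * Real.exp (-c * A)) * 1
          + ENNReal.ofReal (Rr ^ (-p)) * ENNReal.ofReal (Fp κ p (s0 w)) := by
          have a1 : ∫⁻ ω, ENNReal.ofReal (GEX.fS c 0 (bb κ / 2) (stP κ B w (τ' ω) ω)) ∂P ≤ 1 := by
            refine (le_add_self.trans supS).trans ?_
            have : ∀ ω, ENNReal.ofReal (GEX.fS c 0 (bb κ / 2) (stP κ B w (σ ω) ω)) ≤ 1 := by
              intro ω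
              rw [eσ ω, ENNReal.ofReal_le_one, GEX.fS_eq (q := s0 w) hw]
              have h1 : (s0 w).2.2.2 = 0 := rfl
              rw [h1, mul_zero, zero_mul, add_zero, Real.exp_zero, one_mul]
              exact Real.rpow_le_one (sinq_pos' (q := s0 w) hw).le (sinq_le_one' (q := s0 w) hw)
                (by positivity)
            calc _ ≤ ∫⁻ _ω, 1 ∂P := lintegral_mono this
              _ = 1 := by simp
          have a2 : ∫⁻ ω, ENNReal.ofReal (Fp κ p (stP κ B w (τ' ω) ω)) ∂P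
              ≤ ENNReal.ofReal (Fp κ p (s0 w)) := by
            refine (le_add_self.trans supP).trans ?_
            have : ∀ ω, ENNReal.ofReal (Fp κ p (stP κ B w (σ ω) ω))
                = ENNReal.ofReal (Fp κ p (s0 w)) := fun ω => by rw [eσ ω]
            rw [lintegral_congr this]
            simp
          gcongr
      _ = _ := by rw [mul_one, ENNReal.ofReal_mul hRp]
  have e1 : ENNReal.ofReal (Fb κ ε ψ (s0 w))
      = ∫⁻ ω, ENNReal.ofReal (Fb κ ε ψ (stP κ B w (σ ω) ω)) ∂P := by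
    rw [lintegral_congr fun ω => by rw [eσ ω]]
    simp
  rw [e1, eqb]
  refine add_le_add ?_ hterm
  refine lintegral_mono fun ω => lintegral_mono_set ?_
  refine Ioc_subset_Ioc ?_ ?_
  · simp [hσ_def]
  · have : τ' ω ≤ T := min_le_right _ _
    have h2 : (τ' ω : ℝ) ≤ (T : ℝ) := by exact_mod_cast this
    rw [hT] at h2
    push_cast at h2
    exact h2

end prob

end Crest.Agent.R162.LBC
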