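import Mathlib
import Crest.Agent.R162.LBC8

/-!
Row 162, node LB-CONTENT, file 9 (helper499): `MassAll`.
-/

set_option autoImplicit false
set_option linter.unusedSectionVars false

open MeasureTheory ProbabilityTheory Set Filter
open scoped NNReal ENNReal Topology

namespace Crest.Agent.R162.LBC

open Crest.Agent.R162.GEN Crest.Agent.R162.OPGen
open FL OP OS Crest.ProbabilityR.Loewner

universe u

section prob

variable {Ω : Type u} {m : MeasurableSpace Ω} {P : Measure Ω} [IsProbabilityMeasure P]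
  {Fl : Filtration ℝ≥0 m} {B : ℝ≥0 → Ω → ℝ} {κ : ℝ} {w : ℂ}

/-- the mass of the smooth content up to time `n` -/
theorem mass_lower (hB : IsBM Fl B P) (hκ : 0 < κ) (hκ8 : κ < 8) (hw : 0 < w.im)
    {ψ k : ℝ → ℝ} (cψ : ContDiff ℝ (⊤ : ℕ∞) ψ) (ck : Continuous k)
    (hψ : ∀ x, HasDerivAt ψ (k x) x) (hψ0 : ∀ x, 0 ≤ ψ x) (hψ1 : ∀ x, ψ x ≤ 1)
    (hψn : ∀ x, x ≤ 0 → ψ x = 0) (hk0 : ∀ x, 0 ≤ k x)
    {ε : ℝ} (hε : 0 < ε) {p : ℝ} (hp0 : 0 < p) (hpb : p ≤ bb κ) (hp2 : p ≤ 2)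
    {Rr : ℝ} (hR : 1 < Rr * sinq (s0 w)) (hR0 : 0 < Rr) {n : ℕ}
    (hn : (w.im * Rr) ^ 2 / 2 < n) :
    ENNReal.ofReal (Fb κ ε ψ (s0 w)) ≤
      ∫⁻ ω, (∫⁻ s in Ioc (0:ℝ) n, hr (Hb κ ε k) κ B w ω s) ∂P
      + ENNReal.ofReal (Rr ^ (-p) * Fp κ p (s0 w)) := by
  have hb : 0 < bb κ := by
    unfold bb; have : 1 < 8 / κ := by rw [lt_div_iff₀ hκ]; linarith
    linarith
  set c : ℝ := min (κ * (bb κ / 2) / 2 * (bb κ / 2)) (κ * (bb κ / 2) / 2) with hc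
  have hc0 : 0 < c := lt_min (by positivity) (by positivity)
  refine ENNReal.le_of_forall_pos_le_add fun η hη _ => ?_
  set K := ε ^ (κ / 8 - 1) with hK
  have hKp : 0 < K := Real.rpow_pos_of_pos hε _
  have hη' : (0:ℝ) < η := by exact_mod_cast hη
  set A : ℝ := |Real.log (K / η)| / c + 1 with hA
  have hA0 : 0 < A := by positivity
  have hbd : K * Real.exp (-c * A) ≤ η := by
    have h1 : Real.log (K / η) ≤ c * A := by
      have h2 : c * A = |Real.log (K / η)| + c := by rw [hA]; field_simp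
      rw [h2]
      linarith [le_abs_self (Real.log (K / η))]
    have h3 : Real.exp (-c * A) ≤ Real.exp (-Real.log (K / η)) :=
      Real.exp_le_exp.2 (by linarith)
    rw [Real.exp_neg, Real.exp_log (by positivity)] at h3
    calc K * Real.exp (-c * A) ≤ K * (K / η)⁻¹ := by gcongr
      _ = η := by field_simp
  have h := mass_step hB hκ hκ8 hw cψ ck hψ hψ0 hψ1 hψn hk0 hε hp0 hpb hp2 hR hR0 hn hA0 hc0.le
    (min_le_left _ _) (min_le_right _ _)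
  refine h.trans ?_
  have h2 : ENNReal.ofReal (ε ^ (κ / 8 - 1) * Real.exp (-c * A)) ≤ (η : ℝ≥0∞) := by
    rw [← ENNReal.ofReal_coe_nnreal]
    exact ENNReal.ofReal_le_ofReal hbd
  calc _ ≤ ∫⁻ ω, (∫⁻ s in Ioc (0:ℝ) n, hr (Hb κ ε k) κ B w ω s) ∂P
      + ((η : ℝ≥0∞) + ENNReal.ofReal (Rr ^ (-p) * Fp κ p (s0 w))) := by gcongr
    _ = _ := by ring

/-- comparison of the smooth full rate with the rate of `LBDefs` -/
lemma Hb_le {k : ℝ → ℝ} (hκ : 0 < κ) {q : ℝ} (hq0 : 0 < q) (hqb : q < bb κ)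
    (_hk0 : ∀ x, 0 ≤ k x) (hk1 : ∀ x, k x ≤ (Real.log 2)⁻¹)
    (hk2 : ∀ x, k x ≠ 0 → 0 ≤ x ∧ x ≤ Real.log 2) {ε : ℝ} (hε : 0 < ε) {c1 : ℝ}
    {s : ℝ × ℝ × ℝ × ℝ} (hs : 0 < s.2.1) :
    Hb κ ε k s ≤ Hc κ ε c1 s + 56 * c1 ^ 2 / cc2 κ q * H2 κ q ε s := by
  have hG := Gq_pos κ hs
  have hS := sinq_pos' hs
  have hS1 := sinq_le_one' hs
  have hcc := cc2_pos hκ hq0 hqb
  have hSq : 0 < sinq s ^ (-q) := Real.rpow_pos_of_pos hS _
  have hR := R1_nonneg hε s.2.2.1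
  have hN : 0 < s.1 ^ 2 + s.2.1 ^ 2 := by positivity
  have hH2 : 0 ≤ H2 κ q ε s := by unfold H2; positivity
  have hkx : k (s.2.2.1 - Real.log ε) ≤ LB.chi (Real.exp s.2.2.1 / ε) ∧
      k (s.2.2.1 - Real.log ε) ≤ 7 * R1 ε s.2.2.1 := by
    by_cases hz : k (s.2.2.1 - Real.log ε) = 0
    · rw [hz]; exact ⟨LB.chi_nonneg _, by positivity⟩
    · obtain ⟨h1, h2⟩ := hk2 _ hz
      have e1 : Real.exp (s.2.2.1 - Real.log ε) = Real.exp s.2.2.1 / ε := by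
        rw [Real.exp_sub, Real.exp_log hε]
      have w1 : 1 ≤ Real.exp s.2.2.1 / ε := by rw [← e1]; exact Real.one_le_exp h1
      have w2 : Real.exp s.2.2.1 / ε ≤ 2 := by
        rw [← e1]
        calc _ ≤ Real.exp (Real.log 2) := Real.exp_le_exp.2 h2
          _ = 2 := Real.exp_log (by norm_num)
      rw [LB.chi_of_mem ⟨w1, w2⟩]
      refine ⟨hk1 _, (hk1 _).trans ?_⟩
      have h3 := R1_ge hε w1 w2
      have h4 : (Real.log 2)⁻¹ ≤ 14 / 9 := by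
        rw [inv_le_comm₀ LB.log_two_pos' (by norm_num)]
        have := log_two_ge
        norm_num; linarith
      linarith
  rcases le_or_gt c1 (sinq s) with h | h
  · have e : Hb κ ε k s ≤ Hc κ ε c1 s := by
      unfold Hb Hc
      rw [if_pos h, mul_one, mul_assoc]
      exact mul_le_mul_of_nonneg_right hkx.1 (by positivity)
    have : 0 ≤ 56 * c1 ^ 2 / cc2 κ q * H2 κ q ε s := by positivity
    linarith
  · have hc0 : 0 < c1 := hS.trans h
    have hHc : 0 ≤ Hc κ ε c1 s := Hc_nonneg hs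
    have h1 : (1:ℝ) ≤ sinq s ^ (-q) := Real.one_le_rpow_of_pos_of_le_one_of_nonpos hS hS1
      (by linarith)
    have h2 : sinq s ^ 2 ≤ c1 ^ 2 := pow_le_pow_left₀ hS.le h.le 2
    have h3 : Hb κ ε k s ≤ 7 * R1 ε s.2.2.1 * (Gq κ s * (4 * (c1 ^ 2 * sinq s ^ (-q)) /
        (s.1 ^ 2 + s.2.1 ^ 2))) := by
      unfold Hb
      have h4 : sinq s ^ 2 ≤ c1 ^ 2 * sinq s ^ (-q) := by nlinarith [sq_nonneg c1]
      have h5 : Gq κ s * (4 * sinq s ^ 2 / (s.1 ^ 2 + s.2.1 ^ 2))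
          ≤ Gq κ s * (4 * (c1 ^ 2 * sinq s ^ (-q)) / (s.1 ^ 2 + s.2.1 ^ 2)) := by gcongr
      exact mul_le_mul hkx.2 h5 (by positivity) (by positivity)
    have h6 : 7 * R1 ε s.2.2.1 * (Gq κ s * (4 * (c1 ^ 2 * sinq s ^ (-q)) /
        (s.1 ^ 2 + s.2.1 ^ 2))) = 56 * c1 ^ 2 / cc2 κ q * H2 κ q ε s := by
      unfold H2
      field_simp
      ring
    linarith

lemma measurable_R1 (ε : ℝ) : Measurable (R1 ε) := by unfold R1; fun_prop

lemma measurable_H2 (κ q ε : ℝ) : Measurable (H2 κ q ε) := by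
  unfold H2
  refine Measurable.const_mul (Measurable.mul ?_ (Measurable.mul (Measurable.mul
    (measurable_Gq κ) (measurable_sinq.pow_const _)) ?_)) _
  · fun_prop
  · exact (measurable_R1 ε).comp (by fun_prop)

/-- the part of the content with small `S` -/
theorem small_S (hB : IsBM Fl B P) (hκ : 0 < κ) (hw : 0 < w.im) {q : ℝ} (hq0 : 0 < q)
    (hqb : q < bb κ) {ε : ℝ} (hε : 0 < ε) (n : ℕ) :
    ∫⁻ ω, (∫⁻ s in Ioc (0:ℝ) n, hr (H2 κ q ε) κ B w ω s) ∂P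
      ≤ ENNReal.ofReal (F2 κ q ε (s0 w)) := by
  obtain ⟨J1, J2⟩ := jets hκ hq0 hqb hε
  have hF3 : ContDiffOn ℝ 3 (F2 κ q ε) {q | 0 < q.2.1} := contDiffOn_pq3 (J1.add J2) 0 0
  have hcc := cc2_pos hκ hq0 hqb
  have hMM := MM_pos hκ hq0 hqb
  have hgc : ContinuousOn (gen κ (F2 κ q ε)) {q | 0 < q.2.1} := by
    have h := (continuousOn_gen_V3 hκ (q - bb κ) 0 (hasDerivAt_R1 hε) (contDiff_R1 hε)
      (continuous_R2 hε)).add
      (continuousOn_gen_V3 hκ (-bb κ) 0 (g' := fun L => MM κ q * R1 ε L)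
      (fun s => (hasDerivAt_R0 hε s).const_mul _) (contDiff_const.mul (contDiff_R0 hε))
      (continuous_const.mul (contDiff_R1 hε).continuous))
    exact h.congr fun s hs => gen_F2_eq hκ hq0 hqb hε hs
  have h := super_int (σ := fun _ => 0) (τ := fun _ => (n : ℝ≥0)) (T := (n : ℝ≥0)) (A := univ)
    OPM.opm hB hκ hw (exit_ok5 hB κ w) hF3
    (fun s hs => by
      rw [F2_eq hκ hq0 hqb hε hs]
      have h1 := Gq_pos κ hs
      have h2 := sinq_pos' hs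
      have h3 := R1_nonneg hε s.2.2.1
      have h4 := R0_nonneg hε s.2.2.1
      positivity)
    hgc (measurable_H2 κ q ε)
    (fun s hs => by
      unfold H2
      have h1 := Gq_pos κ hs
      have h2 := sinq_pos' hs
      have h3 := R1_nonneg hε s.2.2.1
      positivity)
    (fun s hs => gen_F2_le hκ hq0 hqb hε hs)
    (IsST.const 0) (IsST.const _) (fun _ => le_rfl) (EvST.univ (IsST.const 0))
    (fun _ _ => bot_le)
  simp only [Measure.restrict_univ, univ_inter, NNReal.coe_zero, NNReal.coe_natCast] at h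
  refine h.trans ?_
  calc _ ≤ ∫⁻ ω, ENNReal.ofReal (F2 κ q ε (stP κ B w 0 ω)) ∂P :=
        lintegral_mono' Measure.restrict_le_self le_rfl
    _ = ∫⁻ _ω, ENNReal.ofReal (F2 κ q ε (s0 w)) ∂P :=
        lintegral_congr fun ω => by rw [stP_zero hB hw]
    _ = _ := by simp

/-- splitting of the smooth full content -/
theorem split_le (hB : IsBM Fl B P) (hκ : 0 < κ) {q : ℝ} (hq0 : 0 < q) (hqb : q < bb κ)
    {k : ℝ → ℝ} (hk0 : ∀ x, 0 ≤ k x) (hk1 : ∀ x, k x ≤ (Real.log 2)⁻¹)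
    (hk2 : ∀ x, k x ≠ 0 → 0 ≤ x ∧ x ≤ Real.log 2) {ε : ℝ} (hε : 0 < ε) {c1 : ℝ} (n : ℕ) :
    ∫⁻ ω, (∫⁻ s in Ioc (0:ℝ) n, hr (Hb κ ε k) κ B w ω s) ∂P
      ≤ ∫⁻ ω, LB.Ct κ ε c1 (driving κ B ω) n w ∂P
        + ENNReal.ofReal (56 * c1 ^ 2 / cc2 κ q) *
          ∫⁻ ω, (∫⁻ s in Ioc (0:ℝ) n, hr (H2 κ q ε) κ B w ω s) ∂P := by
  have hcc := cc2_pos hκ hq0 hqb
  have hC0 : 0 ≤ 56 * c1 ^ 2 / cc2 κ q := by positivity
  have mHc := meas_hr (κ := κ) (w := w) hB (measurable_Hc κ ε c1)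
  have hpt : ∀ ω s, hr (Hb κ ε k) κ B w ω s ≤ hr (Hc κ ε c1) κ B w ω s
      + ENNReal.ofReal (56 * c1 ^ 2 / cc2 κ q) * hr (H2 κ q ε) κ B w ω s := by
    intro ω s
    unfold hr
    by_cases h : Alive (driving κ B ω) w s
    · have hY := Y_pos h
      rw [indicator_of_mem (s := {s | Alive (driving κ B ω) w s}) h,
        indicator_of_mem (s := {s | Alive (driving κ B ω) w s}) h,
        indicator_of_mem (s := {s | Alive (driving κ B ω) w s}) h,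
        ← ENNReal.ofReal_mul hC0, ← ENNReal.ofReal_add (Hc_nonneg hY)]
      · exact ENNReal.ofReal_le_ofReal (Hb_le hκ hq0 hqb hk0 hk1 hk2 hε hY)
      · have h1 := Gq_pos κ hY
        have h2 := sinq_pos' hY
        have h3 := R1_nonneg hε (stW (driving κ B ω) s w).2.2.1
        unfold H2
        positivity
    · rw [indicator_of_notMem (s := {s | Alive (driving κ B ω) w s}) h]
      exact bot_le
  have hin : ∀ ω, (∫⁻ s in Ioc (0:ℝ) n, hr (Hb κ ε k) κ B w ω s)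
      ≤ (∫⁻ s in Ioc (0:ℝ) n, hr (Hc κ ε c1) κ B w ω s)
        + ENNReal.ofReal (56 * c1 ^ 2 / cc2 κ q) *
          ∫⁻ s in Ioc (0:ℝ) n, hr (H2 κ q ε) κ B w ω s := by
    intro ω
    have m1 : Measurable (fun s => hr (Hc κ ε c1) κ B w ω s) := mHc.comp measurable_prodMk_left
    rw [← lintegral_const_mul' _ _ ENNReal.ofReal_ne_top, ← lintegral_add_left m1]
    exact lintegral_mono fun s => hpt ω s
  have m2 : Measurable (fun ω => ∫⁻ s in Ioc (0:ℝ) n, hr (Hc κ ε c1) κ B w ω s) :=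
    mHc.lintegral_prod_right'
  calc _ ≤ ∫⁻ ω, ((∫⁻ s in Ioc (0:ℝ) n, hr (Hc κ ε c1) κ B w ω s)
        + ENNReal.ofReal (56 * c1 ^ 2 / cc2 κ q) *
          ∫⁻ s in Ioc (0:ℝ) n, hr (H2 κ q ε) κ B w ω s) ∂P := lintegral_mono hin
    _ = _ := by
        rw [lintegral_add_left m2, lintegral_const_mul' _ _ ENNReal.ofReal_ne_top]
        congr 1
        refine lintegral_congr fun ω => ?_
        unfold LB.Ct LB.cz
        exact lintegral_congr fun s => hr_Hc ε c1 ω s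

end prob

set_option maxHeartbeats 4000000 in
/-- **mass of the content** -/
theorem massAll {κ : ℝ} (hκ : 0 < κ) (hκ8 : κ < 8) :
    ∃ c1 : ℝ, 0 < c1 ∧ c1 < 1 ∧ LBS.MassAll.{u} κ c1 := by
  have hb : 0 < bb κ := by
    unfold bb; have : 1 < 8 / κ := by rw [lt_div_iff₀ hκ]; linarith
    linarith
  obtain ⟨ψ, k, mψ, hm0, cψ, ck, hψ, hψ0, hψ1, hψn, hψm, hk0, hk1, hk2⟩ := exists_psi
  set q : ℝ := min (bb κ) 2 / 2 with hq
  have hmin : 0 < min (bb κ) 2 := lt_min hb (by norm_num)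
  have hq0 : 0 < q := by positivity
  have hqb : q < bb κ := by
    have := min_le_left (bb κ) 2
    rw [hq]; linarith
  have hq2 : q ≤ 2 := by
    have := min_le_right (bb κ) 2
    rw [hq]; linarith
  have hcc := cc2_pos hκ hq0 hqb
  have hMM := MM_pos hκ hq0 hqb
  have h2q : (0:ℝ) < 2 ^ q := by positivity
  -- the constants
  set D1 : ℝ := 4 * (2 ^ q + κ / 2) / mψ with hD1
  have hD1p : 0 < D1 := by positivity
  set Rr : ℝ := 3 + D1 ^ (1 / q) with hRr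
  have hRr3 : 3 ≤ Rr := by
    have : 0 ≤ D1 ^ (1 / q) := by positivity
    rw [hRr]; linarith
  have hRr0 : 0 < Rr := by linarith
  have hRq : Rr ^ (-q) * (2 ^ q + κ / 2) ≤ mψ / 4 := by
    have h1 : D1 ≤ Rr ^ q := by
      calc D1 = (D1 ^ (1 / q)) ^ q := by
            rw [← Real.rpow_mul hD1p.le]; field_simp; simp
        _ ≤ Rr ^ q := Real.rpow_le_rpow (by positivity) (by rw [hRr]; linarith) hq0.le
    rw [Real.rpow_neg hRr0.le, inv_mul_le_iff₀ (by positivity)]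
    calc (2:ℝ) ^ q + κ / 2 = D1 * (mψ / 4) := by rw [hD1]; field_simp
      _ ≤ Rr ^ q * (mψ / 4) := by gcongr
  obtain ⟨n, hn⟩ := exists_nat_gt ((2 * Rr) ^ 2 / 2)
  set Xc : ℝ := mψ * cc2 κ q / (224 * (2 ^ q + MM κ q)) with hXc
  have hXc0 : 0 < Xc := by positivity
  set c1 : ℝ := min (1 / 2) (Real.sqrt Xc) with hc1
  have hc10 : 0 < c1 := lt_min (by norm_num) (Real.sqrt_pos.2 hXc0)
  have hc11 : c1 < 1 := lt_of_le_of_lt (min_le_left _ _) (by norm_num)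
  have hc1X : c1 ^ 2 ≤ Xc := by
    calc c1 ^ 2 ≤ (Real.sqrt Xc) ^ 2 := pow_le_pow_left₀ hc10.le (min_le_right _ _) 2
      _ = Xc := Real.sq_sqrt hXc0.le
  have hCC : 56 * c1 ^ 2 / cc2 κ q * (2 ^ q + MM κ q) ≤ mψ / 4 := by
    calc 56 * c1 ^ 2 / cc2 κ q * (2 ^ q + MM κ q) ≤ 56 * Xc / cc2 κ q * (2 ^ q + MM κ q) := by
          gcongr
      _ = mψ / 4 := by rw [hXc]; field_simp; norm_num
  set g0 : ℝ := Real.exp ((κ / 8 - 1) * Real.log 2) * (1 / 2) ^ (8 / κ - 1) with hg0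
  have hg0p : 0 < g0 := by positivity
  refine ⟨c1, hc10, hc11, mψ / 2 * g0, 1 / 2, n, by positivity, by norm_num, ?_, ?_⟩
  · by_contra h
    have : n = 0 := by omega
    rw [this] at hn
    have h2 : 0 ≤ (2 * Rr) ^ 2 / 2 := by positivity
    push_cast at hn
    linarith
  intro ε hε hε2 z hz Ω _ P _ F B hB
  obtain ⟨hz1, hz2, hz3, hz4⟩ := hz
  have hzim : 0 < z.im := by linarith
  have hs0 : 0 < (s0 z).2.1 := hzim
  -- lower bound for the sine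
  have hS : 1 / 2 ≤ sinq (s0 z) := by
    have e : sinq (s0 z) = z.im / Real.sqrt (z.re ^ 2 + z.im ^ 2) := rfl
    rw [e, le_div_iff₀ (by positivity)]
    have : Real.sqrt (z.re ^ 2 + z.im ^ 2) ≤ 2 * z.im := by
      refine Real.sqrt_le_iff.2 ⟨by positivity, ?_⟩
      nlinarith
    linarith
  have hSp := sinq_pos' hs0
  have hS1 := sinq_le_one' hs0
  have hG := Gq_pos κ hs0
  have hSq : sinq (s0 z) ^ (-q) ≤ 2 ^ q := by
    calc sinq (s0 z) ^ (-q) ≤ (1 / 2 : ℝ) ^ (-q) :=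
          Real.rpow_le_rpow_of_nonpos (by norm_num) hS (by linarith)
      _ = 2 ^ q := by
          rw [Real.rpow_neg (by norm_num), ← Real.inv_rpow (by norm_num)]; norm_num
  have hGg : g0 ≤ Gq κ (s0 z) := by
    have e : Gq κ (s0 z) = Real.exp ((κ / 8 - 1) * Real.log z.im) * sinq (s0 z) ^ (8 / κ - 1) :=
      rfl
    rw [e, hg0]
    have h1 : Real.log z.im ≤ Real.log 2 := Real.log_le_log hzim hz4.le
    have h2 : (κ / 8 - 1) * Real.log 2 ≤ (κ / 8 - 1) * Real.log z.im := by nlinarith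
    have h3 : (0:ℝ) ≤ 8 / κ - 1 := hb.le
    have h4 : (1 / 2 : ℝ) ^ (8 / κ - 1) ≤ sinq (s0 z) ^ (8 / κ - 1) :=
      Real.rpow_le_rpow (by norm_num) hS h3
    exact mul_le_mul (Real.exp_le_exp.2 h2) h4 (by positivity) (Real.exp_pos _).le
  -- assemble
  have hRS : 1 < Rr * sinq (s0 z) := by nlinarith
  have hnz : (z.im * Rr) ^ 2 / 2 < n := by
    refine lt_of_le_of_lt ?_ hn
    have : z.im * Rr ≤ 2 * Rr := by nlinarith
    have h0 : 0 ≤ z.im * Rr := by positivity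
    gcongr
  have A1 := mass_lower (κ := κ) (w := z) hB hκ hκ8 hzim cψ ck hψ hψ0 hψ1 hψn hk0 hε hq0 hqb.le
    hq2 hRS hRr0 hnz
  have A2 := split_le (κ := κ) (w := z) hB hκ hq0 hqb hk0 hk1 hk2 hε (c1 := c1) n
  have A3 := small_S (κ := κ) (w := z) hB hκ hzim hq0 hqb hε n
  have v1 : Fb κ ε ψ (s0 z) = mψ * Gq κ (s0 z) := by
    rw [Fb_eq hκ.ne' hs0]
    congr 1
    refine hψm _ ?_
    have e : (s0 z).2.2.1 = Real.log z.im := rfl
    rw [e, ← Real.log_div hzim.ne' hε.ne']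
    refine Real.log_le_log (by norm_num) ?_
    rw [le_div_iff₀ hε]; linarith
  have v2 : F2 κ q ε (s0 z) ≤ Gq κ (s0 z) * (2 ^ q + MM κ q) := by
    rw [F2_eq hκ hq0 hqb hε hs0]
    have r0 := R0_le_one hε (s0 z).2.2.1
    have r1 : R1 ε (s0 z).2.2.1 ≤ 1 := by
      unfold R1
      have he := Real.exp_pos (s0 z).2.2.1
      rw [div_le_one (by positivity)]
      nlinarith [mul_pos hε he]
    have r1' := R1_nonneg hε (s0 z).2.2.1
    have hSqp : 0 < sinq (s0 z) ^ (-q) := Real.rpow_pos_of_pos hSp _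
    have : R1 ε (s0 z).2.2.1 * sinq (s0 z) ^ (-q) + MM κ q * R0 ε (s0 z).2.2.1
        ≤ 1 * 2 ^ q + MM κ q * 1 := by gcongr
    calc _ ≤ Gq κ (s0 z) * (1 * 2 ^ q + MM κ q * 1) := by gcongr
      _ = _ := by ring
  have v3 : Rr ^ (-q) * Fp κ q (s0 z) ≤ mψ / 4 * Gq κ (s0 z) := by
    rw [Fp_eq hκ hq0 hqb.le hq2 hs0]
    have e : (s0 z).2.2.2 = 0 := rfl
    rw [e, mul_zero, Real.exp_zero, mul_one]
    have hRp : 0 < Rr ^ (-q) := Real.rpow_pos_of_pos hRr0 _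
    calc Rr ^ (-q) * (Gq κ (s0 z) * (sinq (s0 z) ^ (-q) + κ / 2))
        ≤ Rr ^ (-q) * (Gq κ (s0 z) * (2 ^ q + κ / 2)) := by gcongr
      _ = (Rr ^ (-q) * (2 ^ q + κ / 2)) * Gq κ (s0 z) := by ring
      _ ≤ _ := by gcongr
  have v4 : ENNReal.ofReal (56 * c1 ^ 2 / cc2 κ q) * ENNReal.ofReal (F2 κ q ε (s0 z))
      ≤ ENNReal.ofReal (mψ / 4 * Gq κ (s0 z)) := by
    rw [← ENNReal.ofReal_mul (by positivity)]
    refine ENNReal.ofReal_le_ofReal ?_
    calc 56 * c1 ^ 2 / cc2 κ q * F2 κ q ε (s0 z)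
        ≤ 56 * c1 ^ 2 / cc2 κ q * (Gq κ (s0 z) * (2 ^ q + MM κ q)) := by gcongr
      _ = (56 * c1 ^ 2 / cc2 κ q * (2 ^ q + MM κ q)) * Gq κ (s0 z) := by ring
      _ ≤ _ := by gcongr
  set I : ℝ≥0∞ := ∫⁻ ω, LB.Ct κ ε c1 (driving κ B ω) n z ∂P with hI
  have tot : ENNReal.ofReal (mψ * Gq κ (s0 z))
      ≤ I + ENNReal.ofReal (mψ / 2 * Gq κ (s0 z)) := by
    rw [← v1]
    refine A1.trans ?_
    have s1 : ENNReal.ofReal (mψ / 2 * Gq κ (s0 z))
        = ENNReal.ofReal (mψ / 4 * Gq κ (s0 z)) + ENNReal.ofReal (mψ / 4 * Gq κ (s0 z)) := by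
      rw [← ENNReal.ofReal_add (by positivity) (by positivity)]; congr 1; ring
    rw [s1, ← add_assoc]
    refine add_le_add (A2.trans ?_) (ENNReal.ofReal_le_ofReal v3)
    refine add_le_add le_rfl ((mul_le_mul' le_rfl A3).trans v4)
  have split : ENNReal.ofReal (mψ * Gq κ (s0 z))
      = ENNReal.ofReal (mψ / 2 * Gq κ (s0 z)) + ENNReal.ofReal (mψ / 2 * Gq κ (s0 z)) := by
    rw [← ENNReal.ofReal_add (by positivity) (by positivity)]; congr 1; ring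
  rw [split] at tot
  have fin := (ENNReal.add_le_add_iff_right ENNReal.ofReal_ne_top).1 tot
  refine le_trans (ENNReal.ofReal_le_ofReal ?_) fin
  gcongr

end Crest.Agent.R162.LBC
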