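import Mathlib
import Crest.Agent.R162.FLDef
import Crest.Agent.R162.FL1b
import Crest.Agent.R162.FLC2
import Crest.Agent.R162.FLB
import Crest.Agent.R162.Base
import Crest.Agent.R162.U5br
import Crest.Agent.R162.LBDefs

/-!
Row 162 (S0243), node LB-EXP, input (c1) (helper351): the CONTENT COCYCLE.

* `cd_cocycle`, `cz_cocycle`: pointwise;
* `content_cocycle`: `content f W (s + E) B = content (f ∘ ffl W s) (shift W s) E B`;
* `lintegral_cz_eq_content` (c1): `∫⁻ w in B, cz 1 W (Ioc s (s+t)) w = content (ffl W s) (shift W s) (Ioc 0 t) B`.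
-/

set_option autoImplicit false

open Set MeasureTheory Complex
open scoped ENNReal

namespace Crest.Agent.R162.LBCoc

open Crest.Agent.R162.FL Crest.Agent.R162.FLC Crest.Agent.R162.LB
open Crest.Agent.R162.OP (sfl ups)

variable {W : ℝ → ℝ} {s t u : ℝ} {z w : ℂ} {κ ε c1 lam : ℝ} {E : Set ℝ} {B : Set ℂ} {f : ℂ → ℂ}

lemma isOpen_H : IsOpen {z : ℂ | 0 < z.im} := isOpen_lt continuous_const Complex.continuous_im

lemma measurableSet_H : MeasurableSet {z : ℂ | 0 < z.im} := isOpen_H.measurableSet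

lemma measurableSet_pre {g : ℂ → ℂ} (hg : ContinuousOn g {z | 0 < z.im}) (hB : MeasurableSet B) :
    MeasurableSet {z : ℂ | 0 < z.im ∧ g z ∈ B} := by
  have h1 : Measurable ({z : ℂ | 0 < z.im}.domRestrict g) :=
    (continuousOn_iff_continuous_domRestrict.1 hg).measurable
  have h2 := (measurableSet_H.subtype_image (h1 hB))
  convert h2 using 1
  ext z
  constructor
  · rintro ⟨h, h'⟩; exact ⟨⟨z, h⟩, h', rfl⟩
  · rintro ⟨⟨y, hy⟩, h', rfl⟩; exact ⟨hy, h'⟩

/-- `|g_s'(f_s z)| · |f_s'(z)| = 1` -/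
lemma norm_dgfl_mul (hW : ContinuousOn W (Ici 0)) (hs : 0 ≤ s) (hz : 0 < z.im) :
    ‖dgfl W s (ffl W s z)‖ * ‖deriv (ffl W s) z‖ = 1 := by
  rw [deriv_ffl hW hs hz, dgfl, ← norm_mul, ← Complex.exp_add]
  have e : (-∫ r in (0:ℝ)..s, 2 / (Zfl W r (ffl W s z) * Zfl W r (ffl W s z))) +
      (∫ r in (0:ℝ)..s, 2 / (Zfl W r (ffl W s z)) ^ 2) = 0 := by
    simp only [sq]; ring
  rw [e]; simp

/-- the pointwise cocycle of the density -/
theorem cd_cocycle (hW : ContinuousOn W (Ici 0)) (hs : 0 ≤ s) (hu : 0 ≤ u) (hz : 0 < z.im)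
    (lam : ℝ) :
    cd κ ε c1 lam W (s + u) (ffl W s z) =
      cd κ ε c1 (lam * ‖deriv (ffl W s) z‖) (shift W s) u z := by
  have hZ : Zfl W s (ffl W s z) = z := Zfl_ffl hW hs hz
  have hA : Alive W (ffl W s z) s := ffl_alive hW hs hz
  by_cases h : Alive W (ffl W s z) (s + u)
  · have h1 : Zfl W (s + u) (ffl W s z) = Zfl (shift W s) u z := by
      rw [Zfl_add h hs hu, hZ]
    have h2 : sfl W (s + u) (ffl W s z) = sfl (shift W s) u z := by
      rw [U5br.sfl_shift h hs hu, hZ]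
    have h3 : ups W (s + u) (ffl W s z) = ‖deriv (ffl W s) z‖ * ups (shift W s) u z := by
      rw [ups_add hW h hs hu, hZ]
      have h4 := norm_dgfl_mul hW hs hz
      have h5 : 0 < ‖dgfl W s (ffl W s z)‖ := norm_dgfl_pos W s _
      rw [div_eq_iff h5.ne']
      linear_combination (-ups (shift W s) u z) * h4
    unfold cd
    rw [h1, h2, h3]
    have h6 : lam * (‖deriv (ffl W s) z‖ * ups (shift W s) u z) =
      lam * ‖deriv (ffl W s) z‖ * ups (shift W s) u z := by ring
    rw [h6]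
  · have h' : ¬ Alive (shift W s) z u := by
      intro h''
      apply h
      rw [alive_shift hW hs hu, hZ]
      exact ⟨hA, h''⟩
    rw [cd_of_dead h, cd_of_dead h']

/-- the pointwise cocycle of the content per unit area -/
theorem cz_cocycle (hW : ContinuousOn W (Ici 0)) (hs : 0 ≤ s) (hz : 0 < z.im)
    (hE : MeasurableSet E) (hE0 : E ⊆ Ici 0) (lam : ℝ) :
    cz κ ε c1 lam W ((fun u => s + u) '' E) (ffl W s z) =
      cz κ ε c1 (lam * ‖deriv (ffl W s) z‖) (shift W s) E z := by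
  unfold cz
  have h1 := (measurePreserving_add_left (volume : Measure ℝ) s).setLIntegral_comp_emb
    (measurableEmbedding_addLeft s)
    (fun v => ENNReal.ofReal (cd κ ε c1 lam W v (ffl W s z))) E
  rw [← h1]
  refine setLIntegral_congr_fun hE (fun u hu => ?_)
  rw [← cd_cocycle hW hs (hE0 hu) hz lam]

lemma cz_of_dead (h : ∀ u ∈ E, ¬ Alive W z u) (hE : MeasurableSet E) :
    cz κ ε c1 lam W E z = 0 := by
  unfold cz
  rw [setLIntegral_congr_fun (g := fun _ => 0) hE (fun u hu => by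
    simp only; rw [cd_of_dead (h u hu)]; simp)]
  simp

/-- change of variables `w = ffl W s z` -/
theorem lintegral_ffl (hW : ContinuousOn W (Ici 0)) (hs : 0 ≤ s) (hB : MeasurableSet B)
    (F : ℂ → ℝ≥0∞) (hF : ∀ w ∈ B, ¬ Alive W w s → F w = 0) :
    ∫⁻ w in B, F w = ∫⁻ z in {z : ℂ | 0 < z.im ∧ ffl W s z ∈ B},
      ENNReal.ofReal (‖deriv (ffl W s) z‖ ^ 2) * F (ffl W s z) := by
  set S : Set ℂ := {z : ℂ | 0 < z.im ∧ ffl W s z ∈ B} with hSdef
  have hd := differentiableOn_ffl hW hs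
  have hS : MeasurableSet S := measurableSet_pre hd.continuousOn hB
  have hSH : S ⊆ {z : ℂ | 0 < z.im} := fun z hz => hz.1
  have himg : ffl W s '' S = B ∩ Dom W s := by
    ext w
    constructor
    · rintro ⟨z, hz, rfl⟩
      exact ⟨hz.2, ffl_alive hW hs hz.1⟩
    · rintro ⟨h1, h2⟩
      exact ⟨Zfl W s w, ⟨FLC.Zfl_im_pos hW h2, by rw [ffl_Zfl hW h2]; exact h1⟩, ffl_Zfl hW h2⟩
  have hder : ∀ z ∈ S, HasFDerivWithinAt (ffl W s)
      ((ContinuousLinearMap.toSpanSingleton ℂ (deriv (ffl W s) z)).restrictScalars ℝ) S z := by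
    intro z hz
    have h1 : HasDerivAt (ffl W s) (deriv (ffl W s) z) z :=
      (hd.differentiableAt (isOpen_H.mem_nhds (hSH hz))).hasDerivAt
    exact (h1.hasFDerivAt.restrictScalars ℝ).hasFDerivWithinAt
  have hDm : MeasurableSet (Dom W s) := by
    have h3 := measurable_image_of_fderivWithin measurableSet_H (f := ffl W s)
      (f' := fun z => (ContinuousLinearMap.toSpanSingleton ℂ (deriv (ffl W s) z)).restrictScalars ℝ)
      (fun z hz => by
        have h1 : HasDerivAt (ffl W s) (deriv (ffl W s) z) z :=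
          (hd.differentiableAt (isOpen_H.mem_nhds hz)).hasDerivAt
        exact (h1.hasFDerivAt.restrictScalars ℝ).hasFDerivWithinAt) (injOn_ffl hW hs)
    rwa [ffl_image hW hs] at h3
  have h0 : ∫⁻ w in B, F w = ∫⁻ w in B ∩ Dom W s, F w := by
    rw [← lintegral_inter_add_sdiff F B hDm]
    have : ∫⁻ w in B \ Dom W s, F w = 0 := by
      rw [setLIntegral_congr_fun (g := fun _ => 0) (hB.diff hDm) (fun w hw => hF w hw.1 hw.2)]
      simp
    rw [this, add_zero]
  rw [h0, ← himg, lintegral_image_eq_lintegral_abs_det_fderiv_mul volume hS hder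
    ((injOn_ffl hW hs).mono hSH) F]
  refine setLIntegral_congr_fun hS (fun z _ => ?_)
  congr 2
  simp [ContinuousLinearMap.det, LinearMap.det_restrictScalars, Algebra.norm_complex_eq,
    Complex.normSq_eq_norm_sq]

lemma dead_image (hs : 0 ≤ s) (hE0 : E ⊆ Ici 0) (h : ¬ Alive W w s) :
    ∀ v ∈ (fun u => s + u) '' E, ¬ Alive W w v := by
  rintro v ⟨u, hu, rfl⟩ hv
  have : (0:ℝ) ≤ u := hE0 hu
  exact h (hv.mono hs (by simp only; linarith))

lemma measurableSet_image_add (hE : MeasurableSet E) :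
    MeasurableSet ((fun u => s + u) '' E) :=
  (measurableEmbedding_addLeft s).measurableSet_image.2 hE

/-- **content cocycle**: `content f W (s + E) B = content (f ∘ ffl W s) (shift W s) E B` -/
theorem content_cocycle (hW : ContinuousOn W (Ici 0)) (hs : 0 ≤ s)
    (hE : MeasurableSet E) (hE0 : E ⊆ Ici 0) (hB : MeasurableSet B)
    (hf : DifferentiableOn ℂ f {z | 0 < z.im}) :
    content κ ε c1 f W ((fun u => s + u) '' E) B =
      content κ ε c1 (f ∘ ffl W s) (shift W s) E B := by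
  unfold content
  have hB' : MeasurableSet {z : ℂ | 0 < z.im ∧ f z ∈ B} := measurableSet_pre hf.continuousOn hB
  rw [lintegral_ffl hW hs hB' _ (fun w _ hw => by
    rw [cz_of_dead (dead_image hs hE0 hw) (measurableSet_image_add hE), mul_zero])]
  have hset : {z : ℂ | 0 < z.im ∧ ffl W s z ∈ {z : ℂ | 0 < z.im ∧ f z ∈ B}} =
      {z : ℂ | 0 < z.im ∧ (f ∘ ffl W s) z ∈ B} := by
    ext z
    simp only [mem_ofPred_eq, Function.comp]
    constructor
    · rintro ⟨h1, _, h3⟩; exact ⟨h1, h3⟩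
    · rintro ⟨h1, h3⟩; exact ⟨h1, ffl_im_pos hW hs h1, h3⟩
  rw [hset]
  have hm : MeasurableSet {z : ℂ | 0 < z.im ∧ (f ∘ ffl W s) z ∈ B} :=
    measurableSet_pre (hf.continuousOn.comp (differentiableOn_ffl hW hs).continuousOn
      (fun z hz => ffl_im_pos hW hs hz)) hB
  refine setLIntegral_congr_fun hm (fun z hz => ?_)
  have hz1 : 0 < z.im := hz.1
  have him := ffl_im_pos hW hs hz1
  have hdf : deriv (f ∘ ffl W s) z = deriv f (ffl W s z) * deriv (ffl W s) z :=
    deriv_comp z (hf.differentiableAt (isOpen_H.mem_nhds him))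
      ((differentiableOn_ffl hW hs).differentiableAt (isOpen_H.mem_nhds hz1))
  rw [hdf, norm_mul, mul_pow, ENNReal.ofReal_mul (by positivity), cz_cocycle hW hs hz1 hE hE0]
  ring

/-- (c1) the global content collected in `(s, s+t]` is the content of the state map -/
theorem lintegral_cz_eq_content_image (hW : ContinuousOn W (Ici 0)) (hs : 0 ≤ s)
    (hE : MeasurableSet E) (hE0 : E ⊆ Ici 0) (hB : MeasurableSet B) :
    ∫⁻ w in B, cz κ ε c1 1 W ((fun u => s + u) '' E) w =
      content κ ε c1 (ffl W s) (shift W s) E B := by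
  unfold content
  rw [lintegral_ffl hW hs hB _ (fun w _ hw =>
    cz_of_dead (dead_image hs hE0 hw) (measurableSet_image_add hE))]
  have hm : MeasurableSet {z : ℂ | 0 < z.im ∧ ffl W s z ∈ B} :=
    measurableSet_pre (differentiableOn_ffl hW hs).continuousOn hB
  refine setLIntegral_congr_fun hm (fun z hz => ?_)
  rw [cz_cocycle hW hs hz.1 hE hE0, one_mul]

lemma image_Ioc (s t : ℝ) : (fun u => s + u) '' Ioc 0 t = Ioc s (s + t) := by
  rw [Set.image_const_add_Ioc, add_zero]

lemma Ioc_subset_Ici (t : ℝ) : Ioc 0 t ⊆ Ici (0:ℝ) := fun _ h => h.1.le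

/-- (c1) -/
theorem lintegral_cz_eq_content (hW : ContinuousOn W (Ici 0)) (hs : 0 ≤ s) (t : ℝ)
    (hB : MeasurableSet B) :
    ∫⁻ w in B, cz κ ε c1 1 W (Ioc s (s + t)) w =
      content κ ε c1 (ffl W s) (shift W s) (Ioc 0 t) B := by
  rw [← image_Ioc]
  exact lintegral_cz_eq_content_image hW hs measurableSet_Ioc (Ioc_subset_Ici t) hB

/-- content cocycle on intervals, for a general state map -/
theorem content_Ioc (hW : ContinuousOn W (Ici 0)) (hs : 0 ≤ s) (t : ℝ)
    (hB : MeasurableSet B) (hf : DifferentiableOn ℂ f {z | 0 < z.im}) :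
    content κ ε c1 f W (Ioc s (s + t)) B =
      content κ ε c1 (f ∘ ffl W s) (shift W s) (Ioc 0 t) B := by
  rw [← image_Ioc]
  exact content_cocycle hW hs measurableSet_Ioc (Ioc_subset_Ici t) hB hf

end Crest.Agent.R162.LBCoc
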