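import Mathlib
import Crest.Agent.R162.LBDefs
import Crest.Agent.R162.LBBr
import Crest.Agent.R162.FLE

/-!
Row 162 (S0243), LB-EXP inputs (c2), (c3) and the extension of (c1) to arbitrary sets (helper275):
joint measurability of the content density, additivity of the content in time, and the fact that
the content collected during `(0,t]` depends only on the driving function on `[0,t]`.
-/

set_option autoImplicit false

open Set MeasureTheory Complex
open scoped ENNReal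

namespace Crest.Agent.R162.LBCoc2

open Crest.Agent.R162.FL Crest.Agent.R162.FLC Crest.Agent.R162.LB Crest.Agent.R162.FLD

/-! ### congruence in the driving function -/

section congr

variable {W W' : ℝ → ℝ} {s t : ℝ}

lemma Zfl_congr (h : EqOn W W' (Icc 0 t)) (hs : s ∈ Icc 0 t) (z : ℂ) :
    Zfl W s z = Zfl W' s z := by
  have h' : ∀ u ∈ Icc 0 s, W u = W' u := fun u hu => h ⟨hu.1, hu.2.trans hs.2⟩
  rw [Zfl, Zfl, gfl_congr h', h hs]

lemma ups_congr (h : EqOn W W' (Icc 0 t)) (hs : s ∈ Icc 0 t) (z : ℂ) :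
    OP.ups W s z = OP.ups W' s z := by
  have h' : ∀ u ∈ Icc 0 s, W u = W' u := fun u hu => h ⟨hu.1, hu.2.trans hs.2⟩
  rw [OP.ups, OP.ups, gfl_congr h']
  congr 2
  refine intervalIntegral.integral_congr fun u hu => ?_
  rw [uIcc_of_le hs.1] at hu
  show 2 * (((Zfl W u z) ^ 2)⁻¹).re = 2 * (((Zfl W' u z) ^ 2)⁻¹).re
  rw [Zfl_congr h ⟨hu.1, hu.2.trans hs.2⟩]

lemma sfl_congr (h : EqOn W W' (Icc 0 t)) (hs : s ∈ Icc 0 t) (z : ℂ) :
    OP.sfl W s z = OP.sfl W' s z := by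
  rw [OP.sfl, OP.sfl, Zfl_congr h hs]

lemma cd_congr {κ ε c1 lam : ℝ} (h : EqOn W W' (Icc 0 t)) (hs : s ∈ Icc 0 t) (z : ℂ) :
    cd κ ε c1 lam W s z = cd κ ε c1 lam W' s z := by
  rw [cd, cd, Zfl_congr h hs, ups_congr h hs, sfl_congr h hs]

lemma cz_congr {κ ε c1 lam : ℝ} (h : EqOn W W' (Icc 0 t)) {E : Set ℝ} (hE : MeasurableSet E)
    (hEt : E ⊆ Icc 0 t) (z : ℂ) : cz κ ε c1 lam W E z = cz κ ε c1 lam W' E z := by
  rw [cz, cz]
  refine setLIntegral_congr_fun hE fun s hs => ?_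
  simp only [cd_congr h (hEt hs)]

/-- **(c3)**, for all measurable sets of times in `[0,t]` -/
theorem content_congr_drive {κ ε c1 : ℝ} {f : ℂ → ℂ} (h : EqOn W W' (Icc 0 t)) {E : Set ℝ}
    (hE : MeasurableSet E) (hEt : E ⊆ Icc 0 t) (B : Set ℂ) :
    content κ ε c1 f W E B = content κ ε c1 f W' E B := by
  rw [content, content]
  refine lintegral_congr fun z => ?_
  rw [cz_congr h hE hEt]

/-- **(c3)** -/
theorem c3 {κ ε c1 : ℝ} {f : ℂ → ℂ} (h : EqOn W W' (Icc 0 t)) (B : Set ℂ) :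
    content κ ε c1 f W (Ioc 0 t) B = content κ ε c1 f W' (Ioc 0 t) B :=
  content_congr_drive h measurableSet_Ioc Ioc_subset_Icc_self B

end congr

/-! ### measurability -/

section meas

variable {Ω : Type*} {m : MeasurableSpace Ω} {W : Ω → ℝ → ℝ} {T : ℝ}

/-- the content density as a function of `(lam, Υ, Z)` -/
noncomputable def cdF (κ ε c1 : ℝ) (x : ℝ × ℝ × ℂ) : ℝ :=
  chi (x.1 * x.2.1 / ε) * (x.1 * x.2.1) ^ (κ / 8 - 1) * (x.2.2.im / ‖x.2.2‖) ^ (8 / κ - 1) *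
    (if c1 ≤ x.2.2.im / ‖x.2.2‖ then 1 else 0) *
    (4 * (x.2.2.im / ‖x.2.2‖) ^ 2 / ‖x.2.2‖ ^ 2)

lemma measurable_cdF (κ ε c1 : ℝ) : Measurable (cdF κ ε c1) := by
  unfold cdF
  have h1 : Measurable fun x : ℝ × ℝ × ℂ => chi (x.1 * x.2.1 / ε) :=
    measurable_chi.comp (by fun_prop)
  have h2 : Measurable fun x : ℝ × ℝ × ℂ => x.2.2.im / ‖x.2.2‖ := by fun_prop
  have h3 : Measurable fun x : ℝ × ℝ × ℂ =>
      (if c1 ≤ x.2.2.im / ‖x.2.2‖ then (1:ℝ) else 0) :=
    Measurable.ite (measurableSet_le measurable_const h2) measurable_const measurable_const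
  have h4 : Measurable fun x : ℝ × ℝ × ℂ => (x.1 * x.2.1) ^ (κ / 8 - 1) := by fun_prop
  have h5 : Measurable fun x : ℝ × ℝ × ℂ => (x.2.2.im / ‖x.2.2‖) ^ (8 / κ - 1) := by fun_prop
  have h6 : Measurable fun x : ℝ × ℝ × ℂ => 4 * (x.2.2.im / ‖x.2.2‖) ^ 2 / ‖x.2.2‖ ^ 2 := by
    fun_prop
  exact (((h1.mul h4).mul h5).mul h3).mul h6

lemma cd_eq_cdF (κ ε c1 lam : ℝ) (W : ℝ → ℝ) (s : ℝ) (z : ℂ) :
    cd κ ε c1 lam W s z = cdF κ ε c1 (lam, OP.ups W s z, Zfl W s z) := rfl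

theorem jm_cd (κ ε c1 : ℝ) {lam : Ω × ℂ → ℝ} (hl : Measurable lam)
    (hc : ∀ ω, ContinuousOn (W ω) (Icc 0 T)) (hm : ∀ s ∈ Icc 0 T, Measurable (fun ω => W ω s)) :
    JM (m := m) T (fun p s => cd κ ε c1 (lam p) (W p.1) s p.2) := by
  have h1 : JM (m := m) T (fun p (_ : ℝ) => lam p) :=
    JM.of_eq (F := fun x => lam x.1) (hl.comp measurable_fst) (fun x _ => rfl)
  have h2 := (jm_ups (m := m) hc hm).comp₂ (jm_Zfl hc hm) (φ := fun x : ℝ × ℂ => x) measurable_id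
  exact h1.comp₂ h2 (φ := fun x : ℝ × ℝ × ℂ => cdF κ ε c1 x) (measurable_cdF κ ε c1)

/-- joint measurability of the content density `cz` in `(ω, z)` -/
theorem measurable_cz (κ ε c1 : ℝ) {lam : Ω × ℂ → ℝ} (hl : Measurable lam)
    (hc : ∀ ω, ContinuousOn (W ω) (Icc 0 T)) (hm : ∀ s ∈ Icc 0 T, Measurable (fun ω => W ω s))
    {E : Set ℝ} (hE : MeasurableSet E) (hET : E ⊆ Icc 0 T) :
    Measurable (fun p : Ω × ℂ => cz κ ε c1 (lam p) (W p.1) E p.2) := by
  have h := jm_cd (m := m) κ ε c1 hl hc hm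
  unfold JM at h
  have h2 : Measurable (fun p : Ω × ℂ => ∫⁻ s, E.indicator (fun s => ENNReal.ofReal
      ((Icc 0 T).indicator (fun s => cd κ ε c1 (lam p) (W p.1) s p.2) s)) s) := by
    refine Measurable.lintegral_prod_right' (f := fun x : (Ω × ℂ) × ℝ =>
      E.indicator (fun s => ENNReal.ofReal
        ((Icc 0 T).indicator (fun s => cd κ ε c1 (lam x.1) (W x.1.1) s x.1.2) s)) x.2) ?_
    have h3 := h.ennreal_ofReal.indicator (measurable_snd hE)
    convert h3 using 1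
    funext x
    by_cases hx : x.2 ∈ E
    · rw [indicator_of_mem hx, indicator_of_mem (show x ∈ Prod.snd ⁻¹' E from hx)]
    · rw [indicator_of_notMem hx, indicator_of_notMem (show x ∉ Prod.snd ⁻¹' E from hx)]
  convert h2 using 1
  funext p
  rw [cz, ← lintegral_indicator hE]
  refine lintegral_congr fun s => ?_
  by_cases hs : s ∈ E
  · rw [indicator_of_mem hs, indicator_of_mem hs, indicator_of_mem (hET hs)]
  · rw [indicator_of_notMem hs, indicator_of_notMem hs]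

end meas

section fixed

variable {W : ℝ → ℝ} {s t : ℝ}

/-- measurability of `z ↦ cz`, one path -/
theorem measurable_cz_pt (κ ε c1 : ℝ) {lam : ℂ → ℝ} (hl : Measurable lam)
    (hW : ContinuousOn W (Ici 0)) {T : ℝ} {E : Set ℝ} (hE : MeasurableSet E)
    (hET : E ⊆ Icc 0 T) : Measurable (fun z : ℂ => cz κ ε c1 (lam z) W E z) := by
  have h := measurable_cz (Ω := Unit) (m := inferInstance) (W := fun _ => W) (T := T) κ ε c1
    (lam := fun p => lam p.2) (hl.comp measurable_snd)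
    (fun _ => hW.mono fun x hx => hx.1) (fun _ _ => measurable_const) hE hET
  have h2 : Measurable fun z : ℂ => (((), z) : Unit × ℂ) := measurable_const.prodMk measurable_id
  have h3 := Measurable.comp h h2
  simpa only [Function.comp_def] using h3

/-- **(c2)** -/
theorem c2 {κ ε c1 : ℝ} (hW : ContinuousOn W (Ici 0)) (hs : 0 ≤ s) (ht : 0 ≤ t) (B : Set ℂ) :
    ∫⁻ w in B, cz κ ε c1 1 W (Ioc 0 (s + t)) w =
      (∫⁻ w in B, cz κ ε c1 1 W (Ioc 0 s) w) +
        ∫⁻ w in B, cz κ ε c1 1 W (Ioc s (s + t)) w := by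
  have hu : Ioc 0 (s + t) = Ioc 0 s ∪ Ioc s (s + t) :=
    (Ioc_union_Ioc_eq_Ioc hs (by linarith)).symm
  have hd : Disjoint (Ioc 0 s) (Ioc s (s + t)) := by
    rw [Set.disjoint_left]
    intro x hx hx'
    exact absurd hx.2 (not_le.2 hx'.1)
  have hm : Measurable fun w : ℂ => cz κ ε c1 1 W (Ioc 0 s) w :=
    measurable_cz_pt κ ε c1 (lam := fun _ => 1) measurable_const hW
      measurableSet_Ioc (T := s) Ioc_subset_Icc_self
  rw [← lintegral_add_left hm]
  refine lintegral_congr fun w => ?_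
  rw [hu, cz_union measurableSet_Ioc hd]

/-- **(c2)** in 310's notation `muI κ ε c1 W s t V := ∫⁻ w in V, cz κ ε c1 1 W (Ioc s t) w`:
three times `r ≤ s ≤ t`. -/
theorem c2' {κ ε c1 : ℝ} (hW : ContinuousOn W (Ici 0)) {r : ℝ} (hr : 0 ≤ r) (hs : r ≤ s)
    (ht : s ≤ t) (B : Set ℂ) :
    ∫⁻ w in B, cz κ ε c1 1 W (Ioc r t) w =
      (∫⁻ w in B, cz κ ε c1 1 W (Ioc r s) w) + ∫⁻ w in B, cz κ ε c1 1 W (Ioc s t) w := by
  have hu : Ioc r t = Ioc r s ∪ Ioc s t := (Ioc_union_Ioc_eq_Ioc hs ht).symm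
  have hd : Disjoint (Ioc r s) (Ioc s t) := by
    rw [Set.disjoint_left]
    intro x hx hx'
    exact absurd hx.2 (not_le.2 hx'.1)
  have hm : Measurable fun w : ℂ => cz κ ε c1 1 W (Ioc r s) w :=
    measurable_cz_pt κ ε c1 (lam := fun _ => 1) measurable_const hW
      measurableSet_Ioc (T := s) (fun x hx => ⟨hr.trans hx.1.le, hx.2⟩)
  rw [← lintegral_add_left hm]
  refine lintegral_congr fun w => ?_
  rw [hu, cz_union measurableSet_Ioc hd]

/-- (c2) for a general state map: additivity of `content` in time -/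
theorem content_add {κ ε c1 : ℝ} (hW : ContinuousOn W (Ici 0)) (hs : 0 ≤ s) (ht : 0 ≤ t)
    (f : ℂ → ℂ) (B : Set ℂ) :
    content κ ε c1 f W (Ioc 0 (s + t)) B =
      content κ ε c1 f W (Ioc 0 s) B + content κ ε c1 f W (Ioc s (s + t)) B := by
  have hu : Ioc 0 (s + t) = Ioc 0 s ∪ Ioc s (s + t) :=
    (Ioc_union_Ioc_eq_Ioc hs (by linarith)).symm
  have hd : Disjoint (Ioc 0 s) (Ioc s (s + t)) := by
    rw [Set.disjoint_left]
    intro x hx hx'
    exact absurd hx.2 (not_le.2 hx'.1)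
  rw [hu]
  refine content_union measurableSet_Ioc hd ?_
  have hl : Measurable fun z : ℂ => ‖deriv f z‖ := (measurable_deriv f).norm
  refine (Measurable.mul ?_ ?_).aemeasurable
  · exact (hl.pow_const 2).ennreal_ofReal
  · exact measurable_cz_pt κ ε c1 hl hW measurableSet_Ioc (T := s + t)
      (fun x hx => ⟨hs.trans hx.1.le, hx.2⟩)

lemma not_alive_of_im_nonpos {z : ℂ} (hz : ¬ 0 < z.im) (t : ℝ) : ¬ Alive W z t := by
  rintro ⟨h0, g, hg⟩
  have := hg.im_pos 0 ⟨le_rfl, h0⟩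
  rw [hg.init] at this
  exact hz this

lemma cz_of_im_nonpos {κ ε c1 lam : ℝ} {z : ℂ} (hz : ¬ 0 < z.im) (E : Set ℝ) :
    cz κ ε c1 lam W E z = 0 := by
  rw [cz]
  have : ∀ s, ENNReal.ofReal (cd κ ε c1 lam W s z) = 0 := fun s => by
    rw [cd_of_dead (not_alive_of_im_nonpos hz s), ENNReal.ofReal_zero]
  simp [this]

lemma image_add_Ioc (s t : ℝ) : (fun u => s + u) '' Ioc 0 t = Ioc s (s + t) := by
  rw [image_const_add_Ioc]; simp

/-- **(c1)** for every measurable set -/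
theorem c1' {κ ε c1 : ℝ} (hW : ContinuousOn W (Ici 0)) (hs : 0 ≤ s) {B : Set ℂ}
    (hB : MeasurableSet B) :
    ∫⁻ w in B, cz κ ε c1 1 W (Ioc s (s + t)) w =
      content κ ε c1 (ffl W s) (shift W s) (Ioc 0 t) B := by
  have hH : MeasurableSet {z : ℂ | 0 < z.im} := isOpen_H.measurableSet
  have h0 : ∫⁻ w in B, cz κ ε c1 1 W (Ioc s (s + t)) w =
      ∫⁻ w in B ∩ {z | 0 < z.im}, cz κ ε c1 1 W (Ioc s (s + t)) w := by
    rw [← lintegral_indicator hB, ← lintegral_indicator (hB.inter hH)]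
    refine lintegral_congr fun w => ?_
    by_cases hw : w ∈ B
    · by_cases hw2 : 0 < w.im
      · have hw3 : w ∈ B ∩ {z : ℂ | 0 < z.im} := ⟨hw, hw2⟩
        rw [indicator_of_mem hw, indicator_of_mem hw3]
      · rw [indicator_of_mem hw, indicator_of_notMem (fun h => hw2 h.2), cz_of_im_nonpos hw2]
    · rw [indicator_of_notMem hw, indicator_of_notMem (fun h => hw h.1)]
  have h1 := content_global (κ := κ) (ε := ε) (c1 := c1) hW hs (E := Ioc 0 t) measurableSet_Ioc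
    (fun x hx => hx.1.le) (hB.inter hH) inter_subset_right
  rw [image_add_Ioc] at h1
  rw [h0, h1, content, content]
  congr 2
  ext z
  simp only [mem_ofPred_eq, mem_inter_iff]
  constructor
  · rintro ⟨h1, h2, _⟩; exact ⟨h1, h2⟩
  · rintro ⟨h1, h2⟩; exact ⟨h1, h2, ffl_im_pos hW hs h1⟩

end fixed

end Crest.Agent.R162.LBCoc2
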