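import Mathlib
import Crest.Agent.R162.LBCont2

/-!
Row 162 (S0243), node LB-CONTENT (a), part 3 (helper8): finiteness, additivity and time continuity
of the content functional of `LBDefs`.
-/

set_option autoImplicit false

open MeasureTheory Set Filter Topology
open scoped NNReal ENNReal

namespace Crest.Agent.R162.LBCont

open Crest.Agent.R162 Crest.Agent.R162.FL Crest.Agent.R162.OP

variable {W : ℝ → ℝ} {z : ℂ} {κ ε c1 lam : ℝ} {s t u : ℝ} {f : ℂ → ℂ} {B B' : Set ℂ}
  {E E' : Set ℝ}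

/-! ### finiteness -/

/-- **the content of `B` is at most `ε^{d-2}` times its area** -/
theorem content_le (hκ : 0 < κ) (hκ8 : κ ≤ 8) (hε : 0 < ε)
    (hf : DifferentiableOn ℂ f {z : ℂ | 0 < z.im}) (hfi : InjOn f {z : ℂ | 0 < z.im})
    (hW : ContinuousOn W (Ici 0)) (hE : E ⊆ Ioi 0) (hB : MeasurableSet B) :
    LB.content κ ε c1 f W E B ≤ ENNReal.ofReal (ε ^ (κ / 8 - 1)) * volume B := by
  have hpre : MeasurableSet {z : ℂ | 0 < z.im ∧ f z ∈ B} := measurableSet_pre hf.continuousOn hB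
  have h1 := LB3a.lintegral_image (f := f) hf hfi hpre (fun z hz => hz.1)
    (fun _ => ENNReal.ofReal (ε ^ (κ / 8 - 1)))
  calc LB.content κ ε c1 f W E B
      ≤ ∫⁻ z in {z : ℂ | 0 < z.im ∧ f z ∈ B},
          ENNReal.ofReal (‖deriv f z‖ ^ 2) * ENNReal.ofReal (ε ^ (κ / 8 - 1)) := by
        unfold LB.content
        refine lintegral_mono fun z => mul_le_mul' le_rfl ?_
        exact cz_le hκ hκ8 hε (norm_nonneg _) hW hE
    _ = ∫⁻ w in f '' {z : ℂ | 0 < z.im ∧ f z ∈ B}, ENNReal.ofReal (ε ^ (κ / 8 - 1)) := h1.symm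
    _ ≤ ∫⁻ w in B, ENNReal.ofReal (ε ^ (κ / 8 - 1)) := by
        refine lintegral_mono_set ?_
        rintro _ ⟨z, hz, rfl⟩
        exact hz.2
    _ = _ := setLIntegral_const _ _

theorem content_ne_top (hκ : 0 < κ) (hκ8 : κ ≤ 8) (hε : 0 < ε)
    (hf : DifferentiableOn ℂ f {z : ℂ | 0 < z.im}) (hfi : InjOn f {z : ℂ | 0 < z.im})
    (hW : ContinuousOn W (Ici 0)) (hE : E ⊆ Ioi 0) (hB : MeasurableSet B)
    (hBb : Bornology.IsBounded B) : LB.content κ ε c1 f W E B ≠ ⊤ :=
  ((content_le hκ hκ8 hε hf hfi hW hE hB).trans_lt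
    (ENNReal.mul_lt_top ENNReal.ofReal_lt_top hBb.measure_lt_top)).ne

/-- (c4) of 384 -/
theorem setLIntegral_cz_le (hκ : 0 < κ) (hκ8 : κ ≤ 8) (hε : 0 < ε) (hl : 0 ≤ lam)
    (hW : ContinuousOn W (Ici 0)) (hE : E ⊆ Ioi 0) (B : Set ℂ) :
    ∫⁻ w in B, LB.cz κ ε c1 lam W E w ≤ ENNReal.ofReal (ε ^ (κ / 8 - 1)) * volume B :=
  (lintegral_mono fun _ => cz_le hκ hκ8 hε hl hW hE).trans (setLIntegral_const _ _).le

theorem setLIntegral_cz_ne_top (hκ : 0 < κ) (hκ8 : κ ≤ 8) (hε : 0 < ε) (hl : 0 ≤ lam)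
    (hW : ContinuousOn W (Ici 0)) (hE : E ⊆ Ioi 0) (hBb : Bornology.IsBounded B) :
    ∫⁻ w in B, LB.cz κ ε c1 lam W E w ≠ ⊤ :=
  ((setLIntegral_cz_le hκ hκ8 hε hl hW hE B).trans_lt
    (ENNReal.mul_lt_top ENNReal.ofReal_lt_top hBb.measure_lt_top)).ne

/-! ### measurability in `z` for a fixed path -/

/-- for a fixed continuous path, `z ↦ cz … E z` is measurable (`E` bounded, `lam` measurable) -/
theorem measurable_cz_fixed (hW : ContinuousOn W (Ici 0)) {lam : ℂ → ℝ} (hl : Measurable lam)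
    (hE : MeasurableSet E) {T : ℝ} (hE' : E ⊆ Icc 0 T) :
    Measurable (fun z : ℂ => LB.cz κ ε c1 (lam z) W E z) := by
  have hE2 : MeasurableSet {x : Bool × ℝ | x.2 ∈ E} := measurable_snd hE
  have hl2 : Measurable (fun p : Bool × ℂ => lam p.2) := hl.comp measurable_snd
  have hc : ∀ _ : Bool, ContinuousOn W (Icc 0 T) := fun _ => hW.mono fun s hs => hs.1
  have hm : ∀ s ∈ Icc 0 T, Measurable (fun _ : Bool => W s) := fun s _ => measurable_const
  have h : Measurable (fun p : Bool × ℂ => LB.cz κ ε c1 (lam p.2) W E p.2) :=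
    measurable_cz (Ω := Bool) (κ := κ) (ε := ε) (c1 := c1) (W := fun _ => W) (T := T)
      hl2 hc hm (E := fun _ => E) hE2 (fun _ => hE')
  have h3 : Measurable (fun z : ℂ => (true, z)) := measurable_const.prodMk measurable_id
  have h4 := h.comp h3
  simp only [Function.comp_def] at h4
  exact h4

/-- ... for every measurable set of positive times -/
theorem measurable_cz_fixed' (hW : ContinuousOn W (Ici 0)) {lam : ℂ → ℝ} (hl : Measurable lam)
    (hE : MeasurableSet E) (hE' : E ⊆ Ici 0) :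
    Measurable (fun z : ℂ => LB.cz κ ε c1 (lam z) W E z) := by
  have hU : E = ⋃ n : ℕ, E ∩ Icc (0:ℝ) n := by
    rw [← inter_iUnion]
    refine (inter_eq_left.2 fun x hx => ?_).symm
    obtain ⟨n, hn⟩ := exists_nat_ge x
    exact mem_iUnion.2 ⟨n, hE' hx, hn⟩
  have hdir : Directed (· ⊆ ·) fun n : ℕ => E ∩ Icc (0:ℝ) n := by
    apply Monotone.directed_le
    intro i j hij
    exact inter_subset_inter_right _ (Icc_subset_Icc_right (by exact_mod_cast hij))
  have h1 : (fun z : ℂ => LB.cz κ ε c1 (lam z) W E z) =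
      fun z => ⨆ n : ℕ, LB.cz κ ε c1 (lam z) W (E ∩ Icc (0:ℝ) n) z := by
    funext z
    conv_lhs => rw [hU]
    unfold LB.cz
    exact setLIntegral_iUnion_of_directed _ hdir
  rw [h1]
  exact Measurable.iSup fun n => measurable_cz_fixed hW hl (hE.inter measurableSet_Icc)
    inter_subset_right

/-! ### additivity -/

theorem content_union_time (hW : ContinuousOn W (Ici 0)) (hE : MeasurableSet E) (hE0 : E ⊆ Ici 0)
    (hE' : MeasurableSet E') (h : Disjoint E E') :
    LB.content κ ε c1 f W (E ∪ E') B =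
      LB.content κ ε c1 f W E B + LB.content κ ε c1 f W E' B := by
  have hd : Measurable (fun z : ℂ => ‖deriv f z‖) := (measurable_deriv f).norm
  unfold LB.content
  rw [← lintegral_add_left]
  · refine lintegral_congr fun z => ?_
    rw [LB.cz_union hE' h, mul_add]
  · exact (hd.pow_const 2).ennreal_ofReal.mul (measurable_cz_fixed' hW hd hE hE0)

theorem content_union_space (hf : ContinuousOn f {z : ℂ | 0 < z.im}) (hB' : MeasurableSet B')
    (h : Disjoint B B') :
    LB.content κ ε c1 f W E (B ∪ B') =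
      LB.content κ ε c1 f W E B + LB.content κ ε c1 f W E B' := by
  unfold LB.content
  have h1 : {z : ℂ | 0 < z.im ∧ f z ∈ B ∪ B'} =
      {z : ℂ | 0 < z.im ∧ f z ∈ B} ∪ {z : ℂ | 0 < z.im ∧ f z ∈ B'} := by
    ext z
    simp only [mem_ofPred_eq, mem_union]
    tauto
  have h2 : Disjoint {z : ℂ | 0 < z.im ∧ f z ∈ B} {z : ℂ | 0 < z.im ∧ f z ∈ B'} := by
    rw [Set.disjoint_left]
    intro z hz hz'
    exact Set.disjoint_left.1 h hz.2 hz'.2
  rw [h1, lintegral_union (measurableSet_pre hf hB') h2]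

/-- `B = near ∪ far` -/
theorem content_inter_add_diff (hf : ContinuousOn f {z : ℂ | 0 < z.im}) (hB : MeasurableSet B)
    {V : Set ℂ} (hV : MeasurableSet V) :
    LB.content κ ε c1 f W E (B ∩ V) + LB.content κ ε c1 f W E (B \ (B ∩ V)) =
      LB.content κ ε c1 f W E B := by
  rw [← content_union_space hf (hB.diff (hB.inter hV)) disjoint_sdiff_right,
    union_sdiff_cancel inter_subset_left]

theorem near_add_far (p : LB.Par) (hp : p.Adm) (hf : ContinuousOn f {z : ℂ | 0 < z.im})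
    (W : ℝ → ℝ) (E : Set ℝ) : p.nearC f W E + p.farC f W E = p.cont f W E :=
  content_inter_add_diff hf hp.meas measurableSet_ball

/-! ### the content as a time integral -/

/-- content of `B` per unit time -/
noncomputable def dens (κ ε c1 : ℝ) (f : ℂ → ℂ) (W : ℝ → ℝ) (B : Set ℂ) (s : ℝ) : ℝ≥0∞ :=
  ∫⁻ z in {z : ℂ | 0 < z.im ∧ f z ∈ B},
    ENNReal.ofReal (‖deriv f z‖ ^ 2) * ENNReal.ofReal (LB.cd κ ε c1 ‖deriv f z‖ W s z)

theorem measurable_dens_aux (hW : ContinuousOn W (Ici 0)) (T : ℝ) :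
    Measurable (fun x : ℂ × ℝ => ENNReal.ofReal (‖deriv f x.1‖ ^ 2) *
      ENNReal.ofReal ((Icc 0 T).indicator
        (fun s => LB.cd κ ε c1 ‖deriv f x.1‖ W s x.1) x.2)) := by
  have hd : Measurable (fun z : ℂ => ‖deriv f z‖) := (measurable_deriv f).norm
  have h := measurable_cd_joint (Ω := Bool) (κ := κ) (ε := ε) (c1 := c1) (W := fun _ => W)
    (T := T) (lam := fun p => ‖deriv f p.2‖) (hd.comp measurable_snd)
    (fun _ => hW.mono fun s hs => hs.1) (fun s _ => measurable_const)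
  have h2 : Measurable (fun x : ℂ × ℝ => ((true, x.1), x.2)) :=
    (measurable_const.prodMk measurable_fst).prodMk measurable_snd
  have h3 := (h.comp h2).ennreal_ofReal
  simp only [Function.comp_def] at h3
  exact ((hd.comp measurable_fst).pow_const 2).ennreal_ofReal.mul h3

theorem measurable_dens (hW : ContinuousOn W (Ici 0)) (B : Set ℂ) (T : ℝ) :
    Measurable ((Icc 0 T).indicator (dens κ ε c1 f W B)) := by
  have h := (measurable_dens_aux (κ := κ) (ε := ε) (c1 := c1) (f := f) hW T).lintegral_prod_left'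
    (μ := volume.restrict {z : ℂ | 0 < z.im ∧ f z ∈ B})
  convert h using 1
  funext s
  by_cases hs : s ∈ Icc 0 T
  · rw [indicator_of_mem hs]
    unfold dens
    simp only [indicator_of_mem hs]
  · rw [indicator_of_notMem hs]
    simp only [indicator_of_notMem hs]
    simp

/-- Tonelli -/
theorem content_eq_time (hW : ContinuousOn W (Ici 0)) {T : ℝ} (hE : MeasurableSet E)
    (hE' : E ⊆ Icc 0 T) :
    LB.content κ ε c1 f W E B = ∫⁻ s in E, dens κ ε c1 f W B s := by
  have h1 := (measurable_dens_aux (κ := κ) (ε := ε) (c1 := c1) (f := f) hW T)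
  have h2 := lintegral_lintegral_swap (μ := volume.restrict {z : ℂ | 0 < z.im ∧ f z ∈ B})
    (ν := volume.restrict E) (f := fun z s => ENNReal.ofReal (‖deriv f z‖ ^ 2) *
      ENNReal.ofReal ((Icc 0 T).indicator (fun s => LB.cd κ ε c1 ‖deriv f z‖ W s z) s))
    h1.aemeasurable
  unfold LB.content dens LB.cz
  have e1 : ∀ z, ENNReal.ofReal (‖deriv f z‖ ^ 2) *
      ∫⁻ s in E, ENNReal.ofReal (LB.cd κ ε c1 ‖deriv f z‖ W s z) =
      ∫⁻ s in E, ENNReal.ofReal (‖deriv f z‖ ^ 2) *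
        ENNReal.ofReal ((Icc 0 T).indicator (fun s => LB.cd κ ε c1 ‖deriv f z‖ W s z) s) := by
    intro z
    rw [← lintegral_const_mul' _ _ ENNReal.ofReal_ne_top]
    refine setLIntegral_congr_fun hE fun s hs => ?_
    simp only [indicator_of_mem (hE' hs)]
  simp only [e1]
  rw [h2]
  refine setLIntegral_congr_fun hE fun s hs => ?_
  simp only [indicator_of_mem (hE' hs)]

/-- **continuity in time**: `t ↦ content f W (E ∩ (0,t]) B` is continuous on `[0,T]` -/
theorem continuousOn_content (hκ : 0 < κ) (hκ8 : κ ≤ 8) (hε : 0 < ε)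
    (hf : DifferentiableOn ℂ f {z : ℂ | 0 < z.im}) (hfi : InjOn f {z : ℂ | 0 < z.im})
    (hW : ContinuousOn W (Ici 0)) (hE : MeasurableSet E) (hB : MeasurableSet B)
    (hBb : Bornology.IsBounded B) (T : ℝ) :
    ContinuousOn (fun t => LB.content κ ε c1 f W (E ∩ Ioc 0 t) B) (Icc 0 T) := by
  set F : ℝ → ℝ≥0∞ := E.indicator ((Icc 0 T).indicator (dens κ ε c1 f W B)) with hF
  have hFm : Measurable F := (measurable_dens hW B T).indicator hE
  have key : ∀ t ∈ Icc 0 T, LB.content κ ε c1 f W (E ∩ Ioc 0 t) B = ∫⁻ r in Ioc 0 t, F r := by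
    intro t ht
    have hsub : E ∩ Ioc 0 t ⊆ Icc 0 T := fun x hx => ⟨hx.2.1.le, hx.2.2.trans ht.2⟩
    rw [content_eq_time hW (hE.inter measurableSet_Ioc) hsub, ← setLIntegral_indicator hE]
    refine setLIntegral_congr_fun measurableSet_Ioc fun r hr => ?_
    simp only [hF]
    by_cases hr' : r ∈ E
    · rw [indicator_of_mem hr', indicator_of_mem hr',
        indicator_of_mem (show r ∈ Icc 0 T from ⟨hr.1.le, hr.2.trans ht.2⟩)]
    · rw [indicator_of_notMem hr', indicator_of_notMem hr']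
  rcases le_or_gt 0 T with hT | hT
  · have hfin : ∫⁻ r in Ioc 0 T, F r ≠ ⊤ := by
      rw [← key T ⟨hT, le_rfl⟩]
      exact content_ne_top hκ hκ8 hε hf hfi hW (fun x hx => hx.2.1) hB hBb
    exact (continuousOn_lint hFm.aemeasurable hfin).congr key
  · rw [Icc_eq_empty (not_le.2 hT)]
    exact continuousOn_empty _

end Crest.Agent.R162.LBCont
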