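import Mathlib
import Crest.Agent.R162.FL1b
import Crest.Agent.R162.FLC3
import Crest.Agent.R162.LBDefs
import Crest.Agent.R162.LB3a

/-!
Row 162 (S0243), node LB-COV (helper549): restart / conformal covariance of the content
(vocabulary of `LBDefs`).  All statements are deterministic: `W` continuous on `[0,∞)`, `s, u ≥ 0`.

* `ups_add`, `sfl_add`, `gr_add` : the one-point functionals at time `s + u` through the flow of
  the shifted path `shift W s` started at `Zfl W s z`.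
* `cd_add`, `cz_add`, `cz_Ioc_add` : the content density.
* `content_shift` : `content f W (s + E) B = content (f ∘ ffl W s) (shift W s) E B`.
-/

set_option autoImplicit false

open Set MeasureTheory Complex
open scoped ENNReal

namespace Crest.Agent.R162.LBCov

open Crest.Agent.R162.FL
open Crest.Agent.R162.OP (sfl gr)
open Crest.Agent.R162.LB

variable {W : ℝ → ℝ} {s u t : ℝ} {z : ℂ}

/-! ### one-point functionals -/

lemma sfl_of_dead (h : ¬ Alive W z t) : sfl W t z = 0 := by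
  have : (Zfl W t z).im = 0 := by
    simp [Zfl, gfl, h]
  simp [OP.sfl, this]

/-- restart of the conformal radius, as a point in the half-plane of time `s` -/
theorem ups_add (hW : ContinuousOn W (Ici 0)) (hs : 0 ≤ s) (hu : 0 ≤ u) (h : Alive W z s) :
    OP.ups W (s + u) z =
      ‖deriv (ffl W s) (Zfl W s z)‖ * OP.ups (shift W s) u (Zfl W s z) := by
  have hsh := continuousOn_shift hW hs
  by_cases ha : Alive W z (s + u)
  · have hb : Alive (shift W s) (Zfl W s z) u := alive_shift_right ha hs hu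
    have hζ : 0 < (Zfl W (s + u) z).im := FL.Zfl_im_pos ha
    have e1 : Zfl W (s + u) z = Zfl (shift W s) u (Zfl W s z) := Zfl_add ha hs hu
    rw [FLC.ups_eq hW ha, FLC.ups_eq hsh hb, ← e1]
    have hH : IsOpen {z : ℂ | 0 < z.im} := isOpen_lt continuous_const Complex.continuous_im
    have e2 : deriv (ffl W (s + u)) (Zfl W (s + u) z) =
        deriv (fun y => ffl W s (ffl (shift W s) u y)) (Zfl W (s + u) z) := by
      apply Filter.EventuallyEq.deriv_eq
      filter_upwards [hH.mem_nhds hζ] with y hy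
      exact FLC.ffl_add hW hs hu hy
    have e3 : ffl (shift W s) u (Zfl W (s + u) z) = Zfl W s z := by
      rw [e1]; exact FLC.ffl_Zfl hsh hb
    have d1 : HasDerivAt (ffl (shift W s) u) (deriv (ffl (shift W s) u) (Zfl W (s + u) z))
        (Zfl W (s + u) z) := (FLC.hasDerivAt_ffl hsh hu hζ).differentiableAt.hasDerivAt
    have d2 : HasDerivAt (ffl W s) (deriv (ffl W s) (Zfl W s z))
        (ffl (shift W s) u (Zfl W (s + u) z)) := by
      rw [e3]
      exact (FLC.hasDerivAt_ffl hW hs (FL.Zfl_im_pos h)).differentiableAt.hasDerivAt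
    have e4 : deriv (fun y => ffl W s (ffl (shift W s) u y)) (Zfl W (s + u) z) =
        deriv (ffl W s) (Zfl W s z) * deriv (ffl (shift W s) u) (Zfl W (s + u) z) :=
      (d2.comp _ d1).deriv
    rw [e2, e4, norm_mul]
    ring
  · have hb : ¬ Alive (shift W s) (Zfl W s z) u := fun hb => ha (alive_of_shift hW h hb)
    rw [ups_of_dead ha, ups_of_dead hb, mul_zero]

theorem sfl_add (hW : ContinuousOn W (Ici 0)) (hs : 0 ≤ s) (hu : 0 ≤ u) (h : Alive W z s) :
    sfl W (s + u) z = sfl (shift W s) u (Zfl W s z) := by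
  by_cases ha : Alive W z (s + u)
  · rw [OP.sfl, OP.sfl, Zfl_add ha hs hu]
  · have hb : ¬ Alive (shift W s) (Zfl W s z) u := fun hb => ha (alive_of_shift hW h hb)
    rw [sfl_of_dead ha, sfl_of_dead hb]

theorem ups_nonneg (W : ℝ → ℝ) (t : ℝ) (z : ℂ) : 0 ≤ OP.ups W t z := by
  by_cases ha : Alive W z t
  · exact mul_nonneg (gfl_im_pos ha).le (Real.exp_pos _).le
  · rw [ups_of_dead ha]

theorem sfl_nonneg (W : ℝ → ℝ) (t : ℝ) (z : ℂ) : 0 ≤ sfl W t z := by
  by_cases ha : Alive W z t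
  · exact div_nonneg (FL.Zfl_im_pos ha).le (norm_nonneg _)
  · rw [sfl_of_dead ha]

/-- restart of the Green function -/
theorem gr_add (hW : ContinuousOn W (Ici 0)) (hs : 0 ≤ s) (hu : 0 ≤ u) (h : Alive W z s)
    (κ : ℝ) :
    gr κ W (s + u) z = ‖deriv (ffl W s) (Zfl W s z)‖ ^ (κ / 8 - 1) *
      gr κ (shift W s) u (Zfl W s z) := by
  rw [OP.gr, OP.gr, ups_add hW hs hu h, sfl_add hW hs hu h,
    Real.mul_rpow (norm_nonneg _) (ups_nonneg _ _ _), mul_assoc]

/-! ### content density -/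

/-- **restart of the content density rate** -/
theorem cd_add (hW : ContinuousOn W (Ici 0)) (hs : 0 ≤ s) (hu : 0 ≤ u) (h : Alive W z s)
    (κ ε c1 lam : ℝ) :
    cd κ ε c1 lam W (s + u) z =
      cd κ ε c1 (lam * ‖deriv (ffl W s) (Zfl W s z)‖) (shift W s) u (Zfl W s z) := by
  by_cases ha : Alive W z (s + u)
  · unfold cd
    rw [ups_add hW hs hu h, sfl_add hW hs hu h, Zfl_add ha hs hu, ← mul_assoc]
  · have hb : ¬ Alive (shift W s) (Zfl W s z) u := fun hb => ha (alive_of_shift hW h hb)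
    rw [cd_of_dead ha, cd_of_dead hb]

lemma cd_eq_zero_of_dead (hu : 0 ≤ u) (hs : 0 ≤ s) (h : ¬ Alive W z s) (κ ε c1 lam : ℝ) :
    cd κ ε c1 lam W (s + u) z = 0 :=
  cd_of_dead fun ha => h (ha.mono hs (by linarith))

/-- translation of a set integral on the line -/
lemma setLIntegral_image_add (s : ℝ) (E : Set ℝ) (F : ℝ → ℝ≥0∞) :
    ∫⁻ r in (fun u => s + u) '' E, F r = ∫⁻ u in E, F (s + u) :=
  ((measurePreserving_add_left volume s).setLIntegral_comp_emb
    (measurableEmbedding_addLeft s) F E).symm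

/-- **restart of the content density** (alive points) -/
theorem cz_add (hW : ContinuousOn W (Ici 0)) (hs : 0 ≤ s) {E : Set ℝ} (hE : MeasurableSet E)
    (hE0 : E ⊆ Ici 0) (h : Alive W z s) (κ ε c1 lam : ℝ) :
    cz κ ε c1 lam W ((fun u => s + u) '' E) z =
      cz κ ε c1 (lam * ‖deriv (ffl W s) (Zfl W s z)‖) (shift W s) E (Zfl W s z) := by
  unfold cz
  rw [setLIntegral_image_add]
  refine setLIntegral_congr_fun hE fun u hu => ?_
  rw [cd_add hW hs (hE0 hu) h]

/-- dead points collect nothing after time `s` -/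
theorem cz_add_of_dead (hs : 0 ≤ s) {E : Set ℝ} (hE : MeasurableSet E)
    (hE0 : E ⊆ Ici 0) (h : ¬ Alive W z s) (κ ε c1 lam : ℝ) :
    cz κ ε c1 lam W ((fun u => s + u) '' E) z = 0 := by
  unfold cz
  rw [setLIntegral_image_add, setLIntegral_congr_fun (g := fun _ => 0) hE fun u hu => ?_]
  · simp
  · simp only
    rw [cd_eq_zero_of_dead (hE0 hu) hs h, ENNReal.ofReal_zero]

lemma image_add_Ioc (s t : ℝ) : (fun u => s + u) '' Ioc 0 t = Ioc s (s + t) := by
  rw [Set.image_const_add_Ioc]; simp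

/-- `cz` over `(0, s+t]` = `cz` over `(0,s]` + the restarted one over `(0,t]` -/
theorem cz_Ioc_add (hW : ContinuousOn W (Ici 0)) (hs : 0 ≤ s) (ht : 0 ≤ t) (h : Alive W z s)
    (κ ε c1 lam : ℝ) :
    cz κ ε c1 lam W (Ioc 0 (s + t)) z = cz κ ε c1 lam W (Ioc 0 s) z +
      cz κ ε c1 (lam * ‖deriv (ffl W s) (Zfl W s z)‖) (shift W s) (Ioc 0 t) (Zfl W s z) := by
  have h1 : Ioc (0:ℝ) (s + t) = Ioc 0 s ∪ Ioc s (s + t) :=
    (Ioc_union_Ioc_eq_Ioc hs (by linarith)).symm
  rw [h1, cz_union measurableSet_Ioc (Ioc_disjoint_Ioc_of_le le_rfl), ← image_add_Ioc s t,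
    cz_add hW hs measurableSet_Ioc (fun x hx => hx.1.le) h]

theorem cz_Ioc_add_of_dead (hs : 0 ≤ s) (ht : 0 ≤ t) (h : ¬ Alive W z s) (κ ε c1 lam : ℝ) :
    cz κ ε c1 lam W (Ioc 0 (s + t)) z = cz κ ε c1 lam W (Ioc 0 s) z := by
  have h1 : Ioc (0:ℝ) (s + t) = Ioc 0 s ∪ Ioc s (s + t) :=
    (Ioc_union_Ioc_eq_Ioc hs (by linarith)).symm
  rw [h1, cz_union measurableSet_Ioc (Ioc_disjoint_Ioc_of_le le_rfl), ← image_add_Ioc s t,
    cz_add_of_dead hs measurableSet_Ioc (fun x hx => hx.1.le) h, add_zero]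

/-! ### content of a physical set -/

lemma isOpen_HH : IsOpen {z : ℂ | 0 < z.im} := isOpen_lt continuous_const Complex.continuous_im

/-- preimages of measurable sets under maps continuous on the half-plane -/
lemma measurableSet_pre {f : ℂ → ℂ} (hf : ContinuousOn f {z : ℂ | 0 < z.im}) {B : Set ℂ}
    (hB : MeasurableSet B) : MeasurableSet {z : ℂ | 0 < z.im ∧ f z ∈ B} := by
  have h1 : Measurable (({z : ℂ | 0 < z.im}).domRestrict f) :=
    (continuousOn_iff_continuous_domRestrict.1 hf).measurable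
  have h2 := (isOpen_HH.measurableSet).subtype_image (h1 hB)
  convert h2 using 1
  ext z
  simp only [mem_ofPred_eq, mem_image, mem_preimage, Subtype.exists,
    exists_and_right, exists_eq_right]
  tauto

lemma norm_deriv_comp {f : ℂ → ℂ} (hf : DifferentiableOn ℂ f {z : ℂ | 0 < z.im})
    (hW : ContinuousOn W (Ici 0)) (hs : 0 ≤ s) (hz : 0 < z.im) :
    ‖deriv (f ∘ ffl W s) z‖ = ‖deriv f (ffl W s z)‖ * ‖deriv (ffl W s) z‖ := by
  have d1 : HasDerivAt (ffl W s) (deriv (ffl W s) z) z :=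
    (FLC.hasDerivAt_ffl hW hs hz).differentiableAt.hasDerivAt
  have d2 : HasDerivAt f (deriv f (ffl W s z)) (ffl W s z) :=
    (hf.differentiableAt (isOpen_HH.mem_nhds (FLC.ffl_im_pos hW hs hz))).hasDerivAt
  rw [(d2.comp z d1).deriv, norm_mul]

/-- the state map after a restart is again univalent -/
theorem st_univ {f : ℂ → ℂ} (hf : DifferentiableOn ℂ f {z : ℂ | 0 < z.im})
    (hfi : InjOn f {z : ℂ | 0 < z.im}) (hW : ContinuousOn W (Ici 0)) (hs : 0 ≤ s) :
    DifferentiableOn ℂ (f ∘ ffl W s) {z : ℂ | 0 < z.im} ∧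
      InjOn (f ∘ ffl W s) {z : ℂ | 0 < z.im} := by
  have hm : MapsTo (ffl W s) {z : ℂ | 0 < z.im} {z : ℂ | 0 < z.im} :=
    fun z hz => FLC.ffl_im_pos hW hs hz
  exact ⟨hf.comp (FLC.differentiableOn_ffl hW hs) hm, hfi.comp (FLC.injOn_ffl hW hs) hm⟩

/-- the `z`-domain of the restarted content is the image of the old one -/
lemma image_pre {f : ℂ → ℂ} (hW : ContinuousOn W (Ici 0)) (hs : 0 ≤ s) (B : Set ℂ) :
    ffl W s '' {z : ℂ | 0 < z.im ∧ (f ∘ ffl W s) z ∈ B} =
      {z : ℂ | 0 < z.im ∧ f z ∈ B} ∩ Dom W s := by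
  ext w
  constructor
  · rintro ⟨z, ⟨hz, hzB⟩, rfl⟩
    exact ⟨⟨FLC.ffl_im_pos hW hs hz, hzB⟩, FLC.ffl_alive hW hs hz⟩
  · rintro ⟨⟨hw, hwB⟩, ha⟩
    refine ⟨Zfl W s w, ⟨FL.Zfl_im_pos ha, ?_⟩, FLC.ffl_Zfl hW ha⟩
    show f (ffl W s (Zfl W s w)) ∈ B
    rw [FLC.ffl_Zfl hW ha]; exact hwB

/-- **restart of the content**: what is collected at the times `s + E` by the flow of `W` with
state map `f` is what is collected at the times `E` by the flow of `shift W s` with state map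
`f ∘ ffl W s`. -/
theorem content_shift {f : ℂ → ℂ} (hf : DifferentiableOn ℂ f {z : ℂ | 0 < z.im})
    (hW : ContinuousOn W (Ici 0)) (hs : 0 ≤ s) {E : Set ℝ} (hE : MeasurableSet E)
    (hE0 : E ⊆ Ici 0) {B : Set ℂ} (hB : MeasurableSet B) (κ ε c1 : ℝ) :
    content κ ε c1 f W ((fun u => s + u) '' E) B =
      content κ ε c1 (f ∘ ffl W s) (shift W s) E B := by
  have hm : MapsTo (ffl W s) {z : ℂ | 0 < z.im} {z : ℂ | 0 < z.im} :=
    fun z hz => FLC.ffl_im_pos hW hs hz
  have hcomp : DifferentiableOn ℂ (f ∘ ffl W s) {z : ℂ | 0 < z.im} :=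
    hf.comp (FLC.differentiableOn_ffl hW hs) hm
  have hA : MeasurableSet {z : ℂ | 0 < z.im ∧ f z ∈ B} := measurableSet_pre hf.continuousOn hB
  have hA' : MeasurableSet {z : ℂ | 0 < z.im ∧ (f ∘ ffl W s) z ∈ B} :=
    measurableSet_pre hcomp.continuousOn hB
  have hD : MeasurableSet (Dom W s) := (isOpen_Dom hW s).measurableSet
  unfold content
  rw [← lintegral_inter_add_sdiff _ {z : ℂ | 0 < z.im ∧ f z ∈ B} hD]
  have h0 : ∫⁻ z in {z : ℂ | 0 < z.im ∧ f z ∈ B} \ Dom W s,
      ENNReal.ofReal (‖deriv f z‖ ^ 2) *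
        cz κ ε c1 ‖deriv f z‖ W ((fun u => s + u) '' E) z = 0 := by
    rw [setLIntegral_congr_fun (g := fun _ => 0) (hA.diff hD) fun z hz => ?_]
    · simp
    · simp only
      rw [cz_add_of_dead hs hE hE0 hz.2, mul_zero]
  rw [h0, add_zero, ← image_pre hW hs B,
    LB3a.lintegral_image (FLC.differentiableOn_ffl hW hs) (FLC.injOn_ffl hW hs) hA'
      (fun z hz => hz.1)]
  refine setLIntegral_congr_fun hA' fun z hz => ?_
  have hz' : 0 < z.im := hz.1
  have ha := FLC.ffl_alive hW hs hz'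
  rw [cz_add hW hs hE hE0 ha, FLC.Zfl_ffl hW hs hz', norm_deriv_comp hf hW hs hz', ← mul_assoc,
    ← ENNReal.ofReal_mul (by positivity)]
  congr 2
  ring

end Crest.Agent.R162.LBCov
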