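import Mathlib
import Crest.Agent.R162.LBCov
import Crest.Agent.R162.FLE

/-!
Row 162 (S0243), node LB-COV, part 2 (helper549): measurability of the content density and
additivity of the content in time; the global measure `mu` as a content.

* `jm_cd`, `measurable_cz`, `measurable_content_integrand`.
* `content_union`, `content_Ioc_add`, `content_Ioc_shift`.
* `mu_apply` : `mu W t B = content id W (0,t] B`;
  `mu_add` : `mu W (s+t) B = mu W s B + content (ffl W s) (shift W s) (0,t] B`.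
-/

set_option autoImplicit false

open Set MeasureTheory Complex
open scoped ENNReal

namespace Crest.Agent.R162.LBCov

open Crest.Agent.R162.FL Crest.Agent.R162.FLD
open Crest.Agent.R162.OP (sfl gr)
open Crest.Agent.R162.LB

/-! ### measurability -/

section meas

variable {Ω : Type*} {m : MeasurableSpace Ω} {W : Ω → ℝ → ℝ} {T : ℝ}

/-- a parameter depending on `(ω, z)` only -/
lemma jm_const {lam : Ω × ℂ → ℝ} (hl : Measurable lam) : JM (m := m) T (fun p _ => lam p) :=
  JM.of_eq (F := fun x => lam x.1) (hl.comp measurable_fst) (fun _ _ => rfl)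

/-- joint measurability of the content rate in `(ω, z, s)`, `s ∈ [0,T]`; the derivative
parameter `lam` may depend on `(ω, z)` -/
theorem jm_cd (κ ε c1 : ℝ) {lam : Ω × ℂ → ℝ} (hl : Measurable lam)
    (hc : ∀ ω, ContinuousOn (W ω) (Icc 0 T))
    (hm : ∀ s ∈ Icc 0 T, Measurable (fun ω => W ω s)) :
    JM (m := m) T (fun p s => cd κ ε c1 (lam p) (W p.1) s p.2) := by
  have h1 : JM (m := m) T (fun p s => (lam p, OP.ups (W p.1) s p.2)) :=
    (jm_const hl).comp₂ (jm_ups hc hm) (φ := fun x : ℝ × ℝ => x) measurable_id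
  have h2 : JM (m := m) T (fun p s => ((lam p, OP.ups (W p.1) s p.2), sfl (W p.1) s p.2)) :=
    h1.comp₂ (jm_sfl hc hm) (φ := fun x : (ℝ × ℝ) × ℝ => x) measurable_id
  have h3 : JM (m := m) T (fun p s =>
      (((lam p, OP.ups (W p.1) s p.2), sfl (W p.1) s p.2), Zfl (W p.1) s p.2)) :=
    h2.comp₂ (jm_Zfl hc hm) (φ := fun x : ((ℝ × ℝ) × ℝ) × ℂ => x) measurable_id
  have hφ : Measurable (fun x : ((ℝ × ℝ) × ℝ) × ℂ =>
      chi (x.1.1.1 * x.1.1.2 / ε) * (x.1.1.1 * x.1.1.2) ^ (κ / 8 - 1) * x.1.2 ^ (8 / κ - 1) *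
      (if c1 ≤ x.1.2 then (1:ℝ) else 0) * (4 * x.1.2 ^ 2 / ‖x.2‖ ^ 2)) := by
    have e1 : Measurable (fun x : ((ℝ × ℝ) × ℝ) × ℂ => chi (x.1.1.1 * x.1.1.2 / ε)) :=
      measurable_chi.comp (by fun_prop)
    have e2 : Measurable (fun x : ((ℝ × ℝ) × ℝ) × ℂ => if c1 ≤ x.1.2 then (1:ℝ) else 0) :=
      Measurable.ite (measurableSet_le measurable_const (by fun_prop)) measurable_const
        measurable_const
    exact (((e1.mul (by fun_prop)).mul (by fun_prop)).mul e2).mul (by fun_prop)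
  exact h3.comp hφ

/-- measurability of `(ω, z) ↦ cz` over a time set `E ⊆ [0,T]` -/
theorem measurable_cz_joint (κ ε c1 : ℝ) {lam : Ω × ℂ → ℝ} (hl : Measurable lam)
    (hc : ∀ ω, ContinuousOn (W ω) (Icc 0 T))
    (hm : ∀ s ∈ Icc 0 T, Measurable (fun ω => W ω s)) {E : Set ℝ} (hE : MeasurableSet E)
    (hET : E ⊆ Icc 0 T) :
    Measurable (fun p : Ω × ℂ => cz κ ε c1 (lam p) (W p.1) E p.2) := by
  have h := jm_cd (m := m) κ ε c1 hl hc hm
  have h1 : Measurable (fun x : (Ω × ℂ) × ℝ =>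
      E.indicator (fun s => ENNReal.ofReal ((Icc 0 T).indicator
        (fun s => cd κ ε c1 (lam x.1) (W x.1.1) s x.1.2) s)) x.2) := by
    have h2 : Measurable (fun x : (Ω × ℂ) × ℝ => ENNReal.ofReal ((Icc 0 T).indicator
        (fun s => cd κ ε c1 (lam x.1) (W x.1.1) s x.1.2) x.2)) :=
      ENNReal.measurable_ofReal.comp h
    have h3 := h2.indicator (measurable_snd hE)
    have e : (fun x : (Ω × ℂ) × ℝ =>
        E.indicator (fun s => ENNReal.ofReal ((Icc 0 T).indicator
          (fun s => cd κ ε c1 (lam x.1) (W x.1.1) s x.1.2) s)) x.2) =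
        (Prod.snd ⁻¹' E).indicator (fun x : (Ω × ℂ) × ℝ => ENNReal.ofReal
          ((Icc 0 T).indicator (fun s => cd κ ε c1 (lam x.1) (W x.1.1) s x.1.2) x.2)) := by
      funext x
      by_cases hx : x.2 ∈ E
      · rw [indicator_of_mem hx, indicator_of_mem (show x ∈ Prod.snd ⁻¹' E from hx)]
      · rw [indicator_of_notMem hx, indicator_of_notMem (show x ∉ Prod.snd ⁻¹' E from hx)]
    rw [e]
    exact h3
  have h4 := h1.lintegral_prod_right' (ν := volume)
  convert h4 using 1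
  funext p
  simp only
  rw [lintegral_indicator hE]
  unfold cz
  refine setLIntegral_congr_fun hE fun s hs => ?_
  rw [indicator_of_mem (hET hs)]

end meas

variable {W : ℝ → ℝ} {s u t T : ℝ} {z : ℂ}

theorem aux_slice {F : Unit → ℂ → ℝ≥0∞} (h : Measurable (fun p : Unit × ℂ => F p.1 p.2)) :
    Measurable (F ()) := by
  have h5 : Measurable (fun z : ℂ => (((), z) : Unit × ℂ)) :=
    measurable_const.prodMk measurable_id
  exact h.comp h5

/-- deterministic form: `z ↦ cz κ ε c1 (lam z) W E z` is measurable -/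
theorem measurable_cz (κ ε c1 : ℝ) {lam : ℂ → ℝ} (hl : Measurable lam)
    (hW : ContinuousOn W (Ici 0)) {E : Set ℝ} (hE : MeasurableSet E) (hET : E ⊆ Icc 0 T) :
    Measurable (fun z : ℂ => cz κ ε c1 (lam z) W E z) := by
  have hl' : Measurable (fun p : Unit × ℂ => lam p.2) := hl.comp measurable_snd
  have hm : ∀ r ∈ Icc 0 T, Measurable (fun _ : Unit => W r) := fun _ _ => measurable_const
  have hc : ∀ _ : Unit, ContinuousOn W (Icc 0 T) := fun _ => hW.mono fun x hx => hx.1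
  exact aux_slice (F := fun _ z => cz κ ε c1 (lam z) W E z)
    (measurable_cz_joint (W := fun _ : Unit => W) κ ε c1 hl' hc hm hE hET)

/-- the integrand of `content` is measurable -/
theorem measurable_content_integrand (κ ε c1 : ℝ) (f : ℂ → ℂ) (hW : ContinuousOn W (Ici 0))
    {E : Set ℝ} (hE : MeasurableSet E) (hET : E ⊆ Icc 0 T) :
    Measurable (fun z : ℂ => ENNReal.ofReal (‖deriv f z‖ ^ 2) *
      cz κ ε c1 ‖deriv f z‖ W E z) :=
  (((measurable_deriv f).norm.pow_const 2).ennreal_ofReal).mul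
    (measurable_cz κ ε c1 (measurable_deriv f).norm hW hE hET)

/-! ### additivity in time -/

theorem content_union (κ ε c1 : ℝ) (f : ℂ → ℂ) (hW : ContinuousOn W (Ici 0))
    {E E' : Set ℝ} (hE : MeasurableSet E) (hE' : MeasurableSet E') (hET : E ⊆ Icc 0 T)
    (hd : Disjoint E E') (B : Set ℂ) :
    content κ ε c1 f W (E ∪ E') B = content κ ε c1 f W E B + content κ ε c1 f W E' B := by
  unfold content
  rw [← lintegral_add_left (measurable_content_integrand κ ε c1 f hW hE hET)]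
  refine lintegral_congr fun z => ?_
  rw [cz_union hE' hd, mul_add]

/-- **content during `(s, s']` = restarted content during `(0, s' - s]`** -/
theorem content_Ioc_shift {f : ℂ → ℂ} (hf : DifferentiableOn ℂ f {z : ℂ | 0 < z.im})
    (hW : ContinuousOn W (Ici 0)) (hs : 0 ≤ s) {B : Set ℂ} (hB : MeasurableSet B)
    (κ ε c1 : ℝ) (t : ℝ) :
    content κ ε c1 f W (Ioc s (s + t)) B =
      content κ ε c1 (f ∘ ffl W s) (shift W s) (Ioc 0 t) B := by
  rw [← image_add_Ioc s t]
  exact content_shift hf hW hs measurableSet_Ioc (fun x hx => hx.1.le) hB κ ε c1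

/-- **additivity at a restart** -/
theorem content_Ioc_add {f : ℂ → ℂ} (hf : DifferentiableOn ℂ f {z : ℂ | 0 < z.im})
    (hW : ContinuousOn W (Ici 0)) (hs : 0 ≤ s) (ht : 0 ≤ t) {B : Set ℂ} (hB : MeasurableSet B)
    (κ ε c1 : ℝ) :
    content κ ε c1 f W (Ioc 0 (s + t)) B = content κ ε c1 f W (Ioc 0 s) B +
      content κ ε c1 (f ∘ ffl W s) (shift W s) (Ioc 0 t) B := by
  have h1 : Ioc (0:ℝ) (s + t) = Ioc 0 s ∪ Ioc s (s + t) :=
    (Ioc_union_Ioc_eq_Ioc hs (by linarith)).symm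
  rw [h1, content_union (T := s) κ ε c1 f hW measurableSet_Ioc measurableSet_Ioc
    (fun x hx => ⟨hx.1.le, hx.2⟩) (Ioc_disjoint_Ioc_of_le le_rfl), content_Ioc_shift hf hW hs hB]

/-! ### the global measure -/

lemma cz_of_im_nonpos (κ ε c1 lam : ℝ) {E : Set ℝ} (hz : z.im ≤ 0) :
    cz κ ε c1 lam W E z = 0 := by
  unfold cz
  have : ∀ s, cd κ ε c1 lam W s z = 0 := fun s =>
    cd_of_dead fun ha => absurd ha.im_pos (not_lt.2 hz)
  simp [this]

/-- the global measure `mu` is the content of the identity map -/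
theorem mu_apply (κ ε c1 : ℝ) (W : ℝ → ℝ) (t : ℝ) {B : Set ℂ} (hB : MeasurableSet B) :
    mu κ ε c1 W t B = content κ ε c1 id W (Ioc 0 t) B := by
  unfold mu content Ct
  rw [withDensity_apply _ hB]
  have hH : MeasurableSet {z : ℂ | 0 < z.im} := isOpen_HH.measurableSet
  rw [← lintegral_inter_add_sdiff _ B hH]
  have h0 : ∫⁻ z in B \ {z : ℂ | 0 < z.im}, cz κ ε c1 1 W (Ioc 0 t) z = 0 := by
    rw [setLIntegral_congr_fun (g := fun _ => 0) (hB.diff hH) fun z hz => ?_]
    · simp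
    · exact cz_of_im_nonpos κ ε c1 1 (not_lt.1 hz.2)
  have hset : {z : ℂ | 0 < z.im ∧ id z ∈ B} = B ∩ {z : ℂ | 0 < z.im} := by
    ext z; simp [and_comm]
  rw [h0, add_zero, hset]
  refine lintegral_congr fun z => ?_
  simp [deriv_id']

/-- general form: content of the identity state map at the times `E` -/
theorem content_id (κ ε c1 : ℝ) (W : ℝ → ℝ) (E : Set ℝ) {B : Set ℂ} (hB : MeasurableSet B) :
    content κ ε c1 id W E B = ∫⁻ w in B, cz κ ε c1 1 W E w := by
  unfold content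
  have hH : MeasurableSet {z : ℂ | 0 < z.im} := isOpen_HH.measurableSet
  rw [← lintegral_inter_add_sdiff _ B hH]
  have h0 : ∫⁻ z in B \ {z : ℂ | 0 < z.im}, cz κ ε c1 1 W E z = 0 := by
    rw [setLIntegral_congr_fun (g := fun _ => 0) (hB.diff hH) fun z hz => ?_]
    · simp
    · exact cz_of_im_nonpos κ ε c1 1 (not_lt.1 hz.2)
  have hset : {z : ℂ | 0 < z.im ∧ id z ∈ B} = B ∩ {z : ℂ | 0 < z.im} := by
    ext z; simp [and_comm]
  rw [h0, add_zero, hset]
  refine lintegral_congr fun z => ?_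
  simp [deriv_id']

/-- **restart of the global measure**: `mu_{s+t}(B) = mu_s(B) + content of the restarted flow` -/
theorem mu_add (hW : ContinuousOn W (Ici 0)) (hs : 0 ≤ s) (ht : 0 ≤ t) {B : Set ℂ}
    (hB : MeasurableSet B) (κ ε c1 : ℝ) :
    mu κ ε c1 W (s + t) B = mu κ ε c1 W s B +
      content κ ε c1 (ffl W s) (shift W s) (Ioc 0 t) B := by
  rw [mu_apply κ ε c1 W _ hB, mu_apply κ ε c1 W _ hB,
    content_Ioc_add differentiableOn_id hW hs ht hB]
  rfl

/-- physical form of a content: `∫_{B ∩ f(ℍ)} (content per unit area)` -/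
theorem content_eq_image {f g : ℂ → ℂ} (hf : DifferentiableOn ℂ f {z : ℂ | 0 < z.im})
    (hfi : InjOn f {z : ℂ | 0 < z.im}) (hg : ∀ z : ℂ, 0 < z.im → g (f z) = z) {B : Set ℂ}
    (hB : MeasurableSet B) (κ ε c1 : ℝ) (W : ℝ → ℝ) (E : Set ℝ) :
    content κ ε c1 f W E B =
      ∫⁻ w in B ∩ f '' {z : ℂ | 0 < z.im}, cz κ ε c1 ‖deriv f (g w)‖ W E (g w) := by
  have hA : MeasurableSet {z : ℂ | 0 < z.im ∧ f z ∈ B} := measurableSet_pre hf.continuousOn hB
  have hset : B ∩ f '' {z : ℂ | 0 < z.im} = f '' {z : ℂ | 0 < z.im ∧ f z ∈ B} := by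
    ext w
    constructor
    · rintro ⟨hw, z, hz, rfl⟩
      exact ⟨z, ⟨hz, hw⟩, rfl⟩
    · rintro ⟨z, ⟨hz, hw⟩, rfl⟩
      exact ⟨hw, z, hz, rfl⟩
  rw [hset, LB3a.lintegral_image hf hfi hA (fun z hz => hz.1)]
  unfold content
  refine setLIntegral_congr_fun hA fun z hz => ?_
  rw [hg z hz.1]

end Crest.Agent.R162.LBCov
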