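import Mathlib
import Crest.Prelude.Def_Loewner
import Crest.Agent.R162.FLC3
import Crest.Agent.R162.FLD
import Crest.Agent.R162.Base

/-!
Row 162 (S0243), LB-EXP part 1 (helper384): the functionals of the Loewner flow at time `t` depend
only on the driving function on `[0,t]`; concatenation of paths.
-/

set_option autoImplicit false

open MeasureTheory Set
open scoped NNReal ENNReal

namespace Crest.Agent.R162.LBDrv

open Crest.Agent.R162.FL Crest.Agent.R162.OP Crest.ProbabilityR.Loewner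

variable {W W' : ℝ → ℝ} {t : ℝ}

lemma Zfl_congr (h : EqOn W W' (Icc 0 t)) {s : ℝ} (hs : s ∈ Icc 0 t) (z : ℂ) :
    Zfl W s z = Zfl W' s z := by
  rw [Zfl, Zfl, FLD.gfl_congr (fun _ hr => h ⟨hr.1, hr.2.trans hs.2⟩), h hs]

lemma alive_congr (h : EqOn W W' (Icc 0 t)) {s : ℝ} (hs : s ≤ t) (z : ℂ) :
    Alive W z s ↔ Alive W' z s :=
  FLD.alive_congr (fun _ hr => h ⟨hr.1, hr.2.trans hs⟩)

lemma gfl_congr (h : EqOn W W' (Icc 0 t)) {s : ℝ} (hs : s ≤ t) (z : ℂ) :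
    gfl W s z = gfl W' s z :=
  FLD.gfl_congr (fun _ hr => h ⟨hr.1, hr.2.trans hs⟩)

open Classical in
private lemma pick_congr (p q : ℂ → Prop) (z : ℂ) (h : p = q) :
    (if h : ∃ w, p w then h.choose else z) = (if h : ∃ w, q w then h.choose else z) := by
  subst h
  rfl

lemma ffl_congr (h : EqOn W W' (Icc 0 t)) {s : ℝ} (hs : s ∈ Icc 0 t) :
    ffl W s = ffl W' s := by
  funext z
  have he : (fun w => Alive W w s ∧ gfl W s w = z + W s) =
      (fun w => Alive W' w s ∧ gfl W' s w = z + W' s) := by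
    funext w
    rw [alive_congr h hs.2, gfl_congr h hs.2, h hs]
  exact pick_congr _ _ z he

lemma ups_congr (h : EqOn W W' (Icc 0 t)) {s : ℝ} (hs : s ∈ Icc 0 t) (z : ℂ) :
    ups W s z = ups W' s z := by
  unfold ups
  rw [gfl_congr h hs.2]
  congr 2
  refine intervalIntegral.integral_congr fun r hr => ?_
  rw [uIcc_of_le hs.1] at hr
  rw [Zfl_congr h ⟨hr.1, hr.2.trans hs.2⟩]

lemma ath_congr (h : EqOn W W' (Icc 0 t)) {s : ℝ} (hs : s ∈ Icc 0 t) (z : ℂ) :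
    ath W s z = ath W' s z := by
  unfold ath
  refine intervalIntegral.integral_congr fun r hr => ?_
  rw [uIcc_of_le hs.1] at hr
  rw [Zfl_congr h ⟨hr.1, hr.2.trans hs.2⟩]

lemma sfl_congr (h : EqOn W W' (Icc 0 t)) {s : ℝ} (hs : s ∈ Icc 0 t) (z : ℂ) :
    sfl W s z = sfl W' s z := by
  unfold sfl
  rw [Zfl_congr h hs]

lemma xfl_congr (h : EqOn W W' (Icc 0 t)) {s : ℝ} (hs : s ∈ Icc 0 t) (z : ℂ) :
    xfl W s z = xfl W' s z := by
  unfold xfl
  rw [Zfl_congr h hs]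

lemma gr_congr (κ : ℝ) (h : EqOn W W' (Icc 0 t)) {s : ℝ} (hs : s ∈ Icc 0 t) (z : ℂ) :
    gr κ W s z = gr κ W' s z := by
  unfold gr
  rw [ups_congr h hs, sfl_congr h hs]

/-! ### driving functions of paths -/

/-- the driving function of a path -/
noncomputable def drv (κ : ℝ) (p : ℝ≥0 → ℝ) : ℝ → ℝ := fun t => Real.sqrt κ * p t.toNNReal

lemma driving_eq {Ω : Type*} (κ : ℝ) (B : ℝ≥0 → Ω → ℝ) (ω : Ω) :
    driving κ B ω = drv κ (fun t => B t ω) := rfl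

lemma continuous_drv (κ : ℝ) {p : ℝ≥0 → ℝ} (hp : Continuous p) : Continuous (drv κ p) :=
  continuous_const.mul (hp.comp continuous_real_toNNReal)

lemma drv_zero (κ : ℝ) {p : ℝ≥0 → ℝ} (hp : p 0 = 0) : drv κ p 0 = 0 := by
  simp [drv, hp]

/-- concatenation of paths at time `s` (same term as `SMK.cat`) -/
def ccat (b : ℝ≥0 → ℝ) (s : ℝ≥0) (w : ℝ≥0 → ℝ) : ℝ≥0 → ℝ := fun t => b (min t s) + w (t - s)

lemma eqOn_drv_ccat (κ : ℝ) (b : ℝ≥0 → ℝ) (s : ℝ≥0) {w : ℝ≥0 → ℝ} (hw : w 0 = 0) :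
    EqOn (drv κ (ccat b s w)) (drv κ b) (Icc 0 s) := by
  intro t ht
  have h1 : t.toNNReal ≤ s := Real.toNNReal_le_iff_le_coe.2 ht.2
  simp only [drv, ccat, min_eq_left h1, tsub_eq_zero_of_le h1, hw, add_zero]

lemma shift_drv_ccat (κ : ℝ) (b : ℝ≥0 → ℝ) (s : ℝ≥0) {w : ℝ≥0 → ℝ} (hw : w 0 = 0) :
    EqOn (shift (drv κ (ccat b s w)) s) (drv κ w) (Ici 0) := by
  intro u hu
  have hu0 : (0 : ℝ) ≤ u := hu
  have h1 : ((s : ℝ) + u).toNNReal = s + u.toNNReal := by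
    rw [Real.toNNReal_add (NNReal.coe_nonneg s) hu0, Real.toNNReal_coe]
  simp only [shift, drv, ccat, h1, Real.toNNReal_coe, min_self, tsub_self, hw, add_zero,
    add_tsub_cancel_left, min_eq_right (le_add_of_nonneg_right (zero_le : (0:ℝ≥0) ≤ u.toNNReal) : s ≤ s + u.toNNReal)]
  ring

end Crest.Agent.R162.LBDrv
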