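import Crest.Agent.R162.LBSkel

/-!
Row 162, LBSKEL part 2 (helper310): `StepAll0` = `StepAll` without `LBsS` (not needed by the
exponential bound: `Λ_n ≠ ⊤` is the only invariant of the iteration, see 384).
-/

set_option autoImplicit false

open MeasureTheory ProbabilityTheory Filter Topology Set Complex
open scoped NNReal ENNReal
open Crest.ProbabilityR.Loewner

namespace Crest.Agent.R162.LBS

open Crest.Agent.R162.FL Crest.Agent.R162.OS Crest.Agent.R162.LB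

universe u

/-- STEP THEOREM with its quantifiers, without `LBsS`. -/
def StepAll0 (κ c1 : ℝ) : Prop :=
  ∃ q η θ K3 K4 cs c0 c δ ε₀ : ℝ, 0 < q ∧ 0 < η ∧ 4 * q + 2 * η ≤ 1 / 2 ∧ 0 < θ ∧ θ < 1 / 2 ∧
    1 ≤ K3 ∧ 1 ≤ K4 ∧ 0 < cs ∧ 0 < c0 ∧ 0 < c ∧ 0 < δ ∧ δ < 1 ∧ 0 < ε₀ ∧
    ∀ (B : Set ℂ) (u0 : ℂ → ℝ) (ε : ℝ), 0 < ε → ε ≤ ε₀ →
      Ok (mkP κ c1 q η cs K4 K3 θ ε B u0) →
      StepS.{u} c0 c δ (mkP κ c1 q η cs K4 K3 θ ε B u0)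

theorem StepAll.to0 {κ c1 : ℝ} (h : StepAll.{u} κ c1) : StepAll0.{u} κ c1 := by
  obtain ⟨q, η, θ, K3, K4, cs, c0, c, δ, ε₀, h1, h2, h3, h4, h5, h6, h7, h8, h9, h10, h11, h12,
    h13, hall⟩ := h
  exact ⟨q, η, θ, K3, K4, cs, c0, c, δ, ε₀, h1, h2, h3, h4, h5, h6, h7, h8, h9, h10, h11, h12,
    h13, fun B u0 ε hε hε' hok => (hall B u0 ε hε hε' hok).1⟩

end Crest.Agent.R162.LBS
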