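import Crest.Agent.R162.TR0
import Crest.Agent.R162.FL1
import Crest.Agent.R162.FLC
import Crest.Prelude.Def_Loewner

/-!
Row 162 (S0243), node TR, part 1: a hydrodynamically normalised automorphism of the half-plane is
the identity; the surviving domain of the trace is the domain of the Loewner flow.
-/

set_option autoImplicit false

open Set Filter Metric Complex
open scoped Topology ComplexConjugate

namespace Crest.Agent.R162.TR

theorem lim_aux (w : ℂ) {e : ℝ → ℂ} (he : Tendsto e atTop (𝓝 0)) :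
    Tendsto (fun y : ℝ => ‖w - (y * I + e y)‖ ^ 2 / y ^ 2) atTop (𝓝 1) := by
  have h1 : Tendsto (fun y : ℝ => (w - e y) * ((y⁻¹ : ℝ) : ℂ) - I) atTop (𝓝 ((w - 0) * ((0 : ℝ) : ℂ) - I)) := by
    refine Tendsto.sub (Tendsto.mul (tendsto_const_nhds.sub he) ?_) tendsto_const_nhds
    exact (Complex.continuous_ofReal.tendsto 0).comp tendsto_inv_atTop_zero
  have h2 := (h1.norm).pow 2
  have h3 : ‖(w - 0) * ((0 : ℝ) : ℂ) - I‖ ^ 2 = 1 := by simp
  rw [h3] at h2
  refine h2.congr' ?_
  filter_upwards [eventually_gt_atTop 0] with y hy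
  have hy' : (y : ℂ) ≠ 0 := by exact_mod_cast hy.ne'
  have : w - (y * I + e y) = y * ((w - e y) * ((y⁻¹ : ℝ) : ℂ) - I) := by
    push_cast
    field_simp
    ring
  rw [this, norm_mul, Complex.norm_real, Real.norm_eq_abs, mul_pow, sq_abs]
  field_simp

theorem lim_im {e : ℝ → ℂ} (he : Tendsto e atTop (𝓝 0)) :
    Tendsto (fun y : ℝ => (y * I + e y).im / y) atTop (𝓝 1) := by
  have h1 : Tendsto (fun y : ℝ => 1 + (e y).im * y⁻¹) atTop (𝓝 (1 + 0 * 0)) := by
    refine tendsto_const_nhds.add (Tendsto.mul ?_ tendsto_inv_atTop_zero)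
    have := (Complex.continuous_im.tendsto 0).comp he
    rw [Complex.zero_im] at this
    exact this
  have h2 : (1 : ℝ) + 0 * 0 = 1 := by norm_num
  rw [h2] at h1
  refine h1.congr' ?_
  filter_upwards [eventually_gt_atTop 0] with y hy
  simp only [Complex.add_im, Complex.mul_im, Complex.ofReal_re, Complex.I_im, mul_one,
    Complex.ofReal_im, Complex.I_re, mul_zero, add_zero]
  field_simp

theorem im_mul_I (y : ℝ) : ((y : ℂ) * I).im = y := by simp

theorem im_eq_of_normalised {g : ℂ → ℂ} (hd : DifferentiableOn ℂ g {z | 0 < z.im})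
    (hinj : InjOn g {z : ℂ | 0 < z.im}) (him : g '' {z : ℂ | 0 < z.im} = {z : ℂ | 0 < z.im})
    (hlim : Tendsto (fun y : ℝ => g (y * I) - y * I) atTop (𝓝 0)) {z : ℂ} (hz : 0 < z.im) :
    (g z).im = z.im := by
  have hmaps : MapsTo g {z : ℂ | 0 < z.im} {z : ℂ | 0 < z.im} := by
    intro w hw
    rw [← him]
    exact mem_image_of_mem g hw
  have hopen : IsOpen {z : ℂ | 0 < z.im} := isOpen_lt continuous_const Complex.continuous_im
  set e : ℝ → ℂ := fun y => g (y * I) - y * I with he
  have hge : ∀ y : ℝ, g (y * I) = y * I + e y := fun y => by simp [he]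
  have hgz : 0 < (g z).im := hmaps hz
  -- the two limits
  have L1 : Tendsto (fun y : ℝ => ‖g z - g (y * I)‖ ^ 2 / y ^ 2 * (z.im * 1)) atTop
      (𝓝 (1 * (z.im * 1))) := by
    refine Tendsto.mul ?_ tendsto_const_nhds
    simpa only [hge] using lim_aux (g z) hlim
  have L2 : Tendsto (fun y : ℝ => ‖z - y * I‖ ^ 2 / y ^ 2 * ((g z).im * ((g (y * I)).im / y))) atTop
      (𝓝 (1 * ((g z).im * 1))) := by
    refine Tendsto.mul ?_ (tendsto_const_nhds.mul ?_)
    · simpa using lim_aux z (e := fun _ => 0) tendsto_const_nhds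
    · simpa only [hge] using lim_im hlim
  have hcube : ∀ y : ℝ, 0 < y → (‖g z - g (y * I)‖ ^ 2 / y ^ 2 * (z.im * 1)
        = (‖g z - g (y * I)‖ ^ 2 * (z.im * y)) / y ^ 3 ∧
      ‖z - y * I‖ ^ 2 / y ^ 2 * ((g z).im * ((g (y * I)).im / y))
        = (‖z - y * I‖ ^ 2 * ((g z).im * (g (y * I)).im)) / y ^ 3) := by
    intro y hy
    constructor <;> field_simp
  refine le_antisymm ?_ ?_
  · -- the inverse
    obtain ⟨f, hf, -, hfim, hfg, hgf⟩ := Lib.exists_holomorphic_inverse hopen hd hinj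
    rw [him] at hf hfim
    have hfmaps : MapsTo f {z : ℂ | 0 < z.im} {z : ℂ | 0 < z.im} := by
      intro w hw
      have : f w ∈ f '' {z : ℂ | 0 < z.im} := mem_image_of_mem f hw
      rw [hfim] at this
      exact this
    have h := le_of_tendsto_of_tendsto L2 L1 ?_
    · simpa using h
    · filter_upwards [eventually_gt_atTop 0] with y hy
      have hyI : 0 < ((y : ℂ) * I).im := by rw [im_mul_I]; exact hy
      have h := schwarz_pick hf hfmaps hgz (a := g (y * I)) (hmaps hyI)
      rw [hfg z hz, hfg _ hyI, im_mul_I] at h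
      rw [(hcube y hy).1, (hcube y hy).2]
      exact div_le_div_of_nonneg_right h (by positivity)
  · have h := le_of_tendsto_of_tendsto L1 L2 ?_
    · simpa using h
    · filter_upwards [eventually_gt_atTop 0] with y hy
      have h := schwarz_pick hd hmaps hz (a := y * I) (by rw [im_mul_I]; exact hy)
      rw [im_mul_I] at h
      rw [(hcube y hy).1, (hcube y hy).2]
      exact div_le_div_of_nonneg_right h (by positivity)

/-- A hydrodynamically normalised automorphism of the half-plane is the identity. -/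
theorem eq_id_of_normalised {g : ℂ → ℂ} (hd : DifferentiableOn ℂ g {z | 0 < z.im})
    (hinj : InjOn g {z : ℂ | 0 < z.im}) (him : g '' {z : ℂ | 0 < z.im} = {z : ℂ | 0 < z.im})
    (hlim : Tendsto (fun y : ℝ => g (y * I) - y * I) atTop (𝓝 0)) {z : ℂ} (hz : 0 < z.im) :
    g z = z := by
  have hopen : IsOpen {z : ℂ | 0 < z.im} := isOpen_lt continuous_const Complex.continuous_im
  have hconv : Convex ℝ {z : ℂ | 0 < z.im} := convex_halfSpace_im_gt 0
  have hd' : DifferentiableOn ℂ (fun z => g z - z) {z : ℂ | 0 < z.im} := hd.sub differentiableOn_id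
  have han : AnalyticOnNhd ℂ (fun z => g z - z) {z : ℂ | 0 < z.im} := hd'.analyticOnNhd hopen
  obtain ⟨c, hc⟩ : ∃ w, ∀ z ∈ {z : ℂ | 0 < z.im}, g z - z = w := by
    rcases han.is_constant_or_isOpen hconv.isPreconnected with h | h
    · exact h
    · exfalso
      have h1 := h _ subset_rfl hopen
      have h2 : (fun z => g z - z) '' {z : ℂ | 0 < z.im} ⊆ {z : ℂ | z.im = 0} := by
        rintro _ ⟨w, hw, rfl⟩
        show (g w - w).im = 0
        rw [Complex.sub_im]
        rw [im_eq_of_normalised hd hinj him hlim hw, sub_self]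
      have hIm : (I : ℂ) ∈ {z : ℂ | 0 < z.im} := by simp
      have h3 : (g I - I) ∈ (fun z => g z - z) '' {z : ℂ | 0 < z.im} := ⟨I, hIm, rfl⟩
      obtain ⟨ε, hε, hb⟩ := Metric.isOpen_iff.1 h1 _ h3
      have h4 : (g I - I) + (ε / 2 : ℝ) * I ∈ ball (g I - I) ε := by
        rw [mem_ball, dist_eq_norm, add_sub_cancel_left, norm_mul, Complex.norm_real, Complex.norm_I,
          mul_one, Real.norm_eq_abs, abs_of_pos (by linarith)]
        linarith
      have h5 := h2 (hb h4)
      have h6 := h2 h3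
      have h5' : ((g I - I) + ((ε / 2 : ℝ) : ℂ) * I).im = 0 := h5
      have h6' : (g I - I).im = 0 := h6
      rw [Complex.add_im, h6', im_mul_I] at h5'
      linarith
  have hc0 : c = 0 := by
    have h1 : Tendsto (fun y : ℝ => g (y * I) - y * I) atTop (𝓝 c) := by
      refine tendsto_const_nhds.congr' ?_
      filter_upwards [eventually_gt_atTop 0] with y hy
      exact (hc _ (by simpa using hy)).symm
    exact tendsto_nhds_unique h1 hlim
  have := hc z hz
  rw [hc0] at this
  exact sub_eq_zero.1 this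

/-! ## The surviving domain -/

open Crest.ProbabilityR.Loewner Crest.Agent.R162.FL

variable {W : ℝ → ℝ} {γ : ℝ → ℂ} {s t : ℝ} {z w : ℂ}

theorem survivingDomain_subset : survivingDomain γ t ⊆ {z : ℂ | 0 < z.im} := fun _ hz => hz.1.1

theorem survivingDomain_anti (hst : s ≤ t) : survivingDomain γ t ⊆ survivingDomain γ s := by
  rintro z ⟨hz, hb⟩
  have hsub : halfPlane \ γ '' Icc 0 t ⊆ halfPlane \ γ '' Icc 0 s :=
    sdiff_subset_sdiff_right (image_mono (Icc_subset_Icc le_rfl hst))
  exact ⟨hsub hz, fun h => hb (h.subset (connectedComponentIn_mono z hsub))⟩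

theorem not_isBounded_halfPlane : ¬ Bornology.IsBounded (halfPlane : Set ℂ) := by
  intro h
  obtain ⟨R, hR⟩ := h.subset_closedBall 0
  have h1 : ((|R| + 1 : ℝ) : ℂ) * I ∈ halfPlane := by
    show 0 < (((|R| + 1 : ℝ) : ℂ) * I).im
    rw [im_mul_I]; positivity
  have h2 := hR h1
  rw [mem_closedBall, dist_zero_right, norm_mul, Complex.norm_real, Complex.norm_I, mul_one,
    Real.norm_eq_abs, abs_of_pos (by positivity)] at h2
  have := le_abs_self R
  linarith

theorem survivingDomain_zero (h0 : γ 0 = 0) : survivingDomain γ 0 = {z : ℂ | 0 < z.im} := by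
  have h1 : halfPlane \ γ '' Icc 0 0 = halfPlane := by
    rw [Icc_self, image_singleton, h0]
    refine sdiff_singleton_eq_self ?_
    intro h
    have : (0 : ℝ) < (0 : ℂ).im := h
    simp at this
  ext z
  constructor
  · exact fun hz => hz.1.1
  · intro hz
    refine ⟨by rw [h1]; exact hz, ?_⟩
    have hp : IsPreconnected (halfPlane : Set ℂ) := (convex_halfSpace_im_gt 0).isPreconnected
    rw [h1, hp.connectedComponentIn hz]
    exact not_isBounded_halfPlane

theorem isSol_of_isFlow {g : ℝ → ℂ} (h : IsFlow W z t g) : FLC.IsSol W t g :=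
  fun s hs => ⟨h.im_pos s hs, h.deriv s hs⟩

/-- Injectivity of the flow. -/
theorem injOn_gfl (hW : ContinuousOn W (Ici 0)) (t : ℝ) : InjOn (gfl W t) (Dom W t) := by
  intro z hz w hw h
  have hz' : Alive W z t := hz
  have hw' : Alive W w t := hw
  have ht := hz'.1
  have h1 := isSol_of_isFlow hz'.isFlow
  have h2 := isSol_of_isFlow hw'.isFlow
  have := h1.unique ht (hW.mono Icc_subset_Ici_self) h2 (right_mem_Icc.2 ht) h 0
    (left_mem_Icc.2 ht)
  simpa [gfl_zero' hz', gfl_zero' hw'] using this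

/-- **TR1**, with the maps of the trace. -/
theorem maps_eq (h : IsChordalTrace W γ) (hW : ContinuousOn W (Ici 0)) :
    ∃ g : ℝ → ℂ → ℂ, (∀ t, 0 ≤ t → survivingDomain γ t = Dom W t ∧
      EqOn (g t) (gfl W t) (Dom W t) ∧ DifferentiableOn ℂ (g t) (Dom W t) ∧
      InjOn (g t) (Dom W t) ∧ g t '' Dom W t = {z : ℂ | 0 < z.im}) ∧
      ∀ t, 0 ≤ t → Tendsto (fun y : ℝ =>
        Function.invFunOn (g t) (Dom W t) (W t + y * I)) (𝓝[>] 0) (𝓝 (γ t)) := by
  obtain ⟨g, hg1, hg2, hg3⟩ := h.maps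
  -- time zero
  have hid : ∀ z : ℂ, 0 < z.im → g 0 z = z := by
    intro z hz
    obtain ⟨a1, a2, a3, a4⟩ := hg1 0 le_rfl
    rw [survivingDomain_zero h.start] at a1 a2 a3 a4
    refine eq_id_of_normalised a1 a2 a3 ?_ hz
    have hc : Tendsto (fun y : ℝ => (y : ℂ) * I) atTop
        (cocompact ℂ ⊓ 𝓟 {z : ℂ | 0 < z.im}) := by
      refine tendsto_inf.2 ⟨?_, ?_⟩
      · rw [← Metric.cobounded_eq_cocompact, ← tendsto_norm_atTop_iff_cobounded]
        have : (fun y : ℝ => ‖(y : ℂ) * I‖) = fun y : ℝ => |y| := by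
          funext y
          rw [norm_mul, Complex.norm_real, Complex.norm_I, mul_one, Real.norm_eq_abs]
        rw [this]
        exact tendsto_abs_atTop_atTop
      · rw [tendsto_principal]
        filter_upwards [eventually_gt_atTop 0] with y hy
        show 0 < ((y : ℂ) * I).im
        rw [im_mul_I]; exact hy
    exact a4.comp hc
  -- flow
  have hflow : ∀ t, 0 ≤ t → ∀ z ∈ survivingDomain γ t, IsFlow W z t (fun s => g s z) := by
    intro t ht z hz
    have hz0 : 0 < z.im := survivingDomain_subset hz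
    have hzs : ∀ s ∈ Icc 0 t, z ∈ survivingDomain γ s := fun s hs => survivingDomain_anti hs.2 hz
    refine ⟨hid z hz0, ?_, ?_⟩
    · intro s hs
      have : g s z ∈ g s '' survivingDomain γ s := mem_image_of_mem _ (hzs s hs)
      rw [(hg1 s hs.1).2.2.1] at this
      exact this
    · intro s hs
      exact (hg2 z hz0 s hs.1 (hzs s hs)).mono Icc_subset_Ici_self
  have hsub : ∀ t, 0 ≤ t → survivingDomain γ t ⊆ Dom W t :=
    fun t ht z hz => ⟨ht, _, hflow t ht z hz⟩
  have heq : ∀ t, 0 ≤ t → EqOn (g t) (gfl W t) (survivingDomain γ t) :=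
    fun t ht z hz => (hflow t ht z hz).eq_gfl ⟨ht, le_rfl⟩
  have hdom : ∀ t, 0 ≤ t → survivingDomain γ t = Dom W t := by
    intro t ht
    refine (hsub t ht).antisymm ?_
    intro w hw
    have h1 : 0 < (gfl W t w).im := gfl_im_pos hw
    have h2 : gfl W t w ∈ g t '' survivingDomain γ t := by
      rw [(hg1 t ht).2.2.1]; exact h1
    obtain ⟨z, hz, hzw⟩ := h2
    rw [heq t ht hz] at hzw
    have := injOn_gfl hW t (hsub t ht hz) hw hzw
    rw [← this]; exact hz
  refine ⟨g, ?_, ?_⟩
  · intro t ht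
    obtain ⟨a1, a2, a3, a4⟩ := hg1 t ht
    rw [hdom t ht] at a1 a2 a3
    refine ⟨hdom t ht, ?_, a1, a2, a3⟩
    rw [← hdom t ht]
    exact heq t ht
  · intro t ht
    have := hg3 t ht
    rwa [hdom t ht] at this

/-- **TR1** -/
theorem survivingDomain_eq (h : IsChordalTrace W γ) (hW : ContinuousOn W (Ici 0)) (ht : 0 ≤ t) :
    survivingDomain γ t = Dom W t := by
  obtain ⟨g, hg, -⟩ := maps_eq h hW
  exact (hg t ht).1

theorem image_gfl (h : IsChordalTrace W γ) (hW : ContinuousOn W (Ici 0)) (ht : 0 ≤ t) :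
    gfl W t '' Dom W t = {z : ℂ | 0 < z.im} := by
  obtain ⟨g, hg, -⟩ := maps_eq h hW
  obtain ⟨-, a, -, -, b⟩ := hg t ht
  rw [← b]
  exact (a.image_eq).symm

theorem differentiableOn_gfl' (h : IsChordalTrace W γ) (hW : ContinuousOn W (Ici 0))
    (ht : 0 ≤ t) : DifferentiableOn ℂ (gfl W t) (Dom W t) := by
  obtain ⟨g, hg, -⟩ := maps_eq h hW
  obtain ⟨-, a, b, -⟩ := hg t ht
  exact b.congr fun z hz => (a hz).symm

/-- **TR1**: the tip -/
theorem tendsto_tip (h : IsChordalTrace W γ) (hW : ContinuousOn W (Ici 0)) (ht : 0 ≤ t) :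
    Tendsto (fun y : ℝ => Function.invFunOn (gfl W t) (Dom W t) (W t + y * I)) (𝓝[>] 0)
      (𝓝 (γ t)) := by
  obtain ⟨g, hg, hg3⟩ := maps_eq h hW
  obtain ⟨-, a, -, c, d⟩ := hg t ht
  refine (hg3 t ht).congr' ?_
  filter_upwards [self_mem_nhdsWithin] with y hy
  have hy' : (0 : ℝ) < y := hy
  have hm : (W t + y * I : ℂ) ∈ {z : ℂ | 0 < z.im} := by
    show 0 < (W t + y * I : ℂ).im
    rw [Complex.add_im, im_mul_I, Complex.ofReal_im]; linarith
  have e1 : ∃ x ∈ Dom W t, g t x = W t + y * I := by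
    rw [← d] at hm; exact hm
  have e2 : ∃ x ∈ Dom W t, gfl W t x = W t + y * I := by
    obtain ⟨x, hx, hx2⟩ := e1
    exact ⟨x, hx, by rw [← a hx, hx2]⟩
  refine c (Function.invFunOn_mem e1) (Function.invFunOn_mem e2) ?_
  rw [Function.invFunOn_eq e1, a (Function.invFunOn_mem e2), Function.invFunOn_eq e2]

theorem eventually_mem_Dom (h : IsChordalTrace W γ) (hW : ContinuousOn W (Ici 0)) (ht : 0 ≤ t) :
    ∀ᶠ y : ℝ in 𝓝[>] 0, Function.invFunOn (gfl W t) (Dom W t) (W t + y * I) ∈ Dom W t := by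
  filter_upwards [self_mem_nhdsWithin] with y hy
  have hy' : (0 : ℝ) < y := hy
  have hm : (W t + y * I : ℂ) ∈ gfl W t '' Dom W t := by
    rw [image_gfl h hW ht]
    show 0 < (W t + y * I : ℂ).im
    rw [Complex.add_im, im_mul_I, Complex.ofReal_im]; linarith
  exact Function.invFunOn_mem hm

theorem mem_closure_Dom (h : IsChordalTrace W γ) (hW : ContinuousOn W (Ici 0)) (ht : 0 ≤ t) :
    γ t ∈ closure (Dom W t) :=
  mem_closure_of_tendsto (tendsto_tip h hW ht) (eventually_mem_Dom h hW ht)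

/-- A ball around a surviving point avoiding the trace survives. -/
theorem ball_subset_survivingDomain {r : ℝ} (hw : w ∈ survivingDomain γ t)
    (hb : ball w r ⊆ halfPlane \ γ '' Icc 0 t) : ball w r ⊆ survivingDomain γ t := by
  rcases le_or_gt r 0 with hr | hr
  · rw [ball_eq_empty.2 hr]; exact empty_subset _
  intro z hz
  have h1 : ball w r ⊆ connectedComponentIn (halfPlane \ γ '' Icc 0 t) w :=
    (convex_ball w r).isPreconnected.subset_connectedComponentIn (mem_ball_self hr) hb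
  refine ⟨hb hz, ?_⟩
  rw [← connectedComponentIn_eq (h1 hz)]
  exact hw.2

theorem ball_subset_Dom {r : ℝ} (h : IsChordalTrace W γ) (hW : ContinuousOn W (Ici 0))
    (hw : w ∈ Dom W t) (hb : ball w r ⊆ halfPlane \ γ '' Icc 0 t) : ball w r ⊆ Dom W t := by
  have ht : 0 ≤ t := hw.1
  rw [← survivingDomain_eq h hW ht] at hw ⊢
  exact ball_subset_survivingDomain hw hb

/-- If the centre of a ball avoiding the trace is swallowed, then so is the ball. -/
theorem ball_disjoint_of_not_mem {r : ℝ} (hw : w ∉ survivingDomain γ t) (hr : 0 < r)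
    (hb : ball w r ⊆ halfPlane \ γ '' Icc 0 t) : Disjoint (ball w r) (survivingDomain γ t) := by
  rw [Set.disjoint_left]
  intro z hz hzs
  refine hw ⟨hb (mem_ball_self hr), ?_⟩
  have h1 : ball w r ⊆ connectedComponentIn (halfPlane \ γ '' Icc 0 t) w :=
    (convex_ball w r).isPreconnected.subset_connectedComponentIn (mem_ball_self hr) hb
  rw [connectedComponentIn_eq (h1 hz)]
  exact hzs.2

end Crest.Agent.R162.TR
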