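import Crest.Agent.R162.TR2

/-!
Row 162 (S0243), node TR, parts 2 and 3 for surviving domains, stated for any family of
conformal maps of the surviving domains (no flow).
-/

set_option autoImplicit false

open Set Filter Metric Complex
open scoped Topology ComplexConjugate
open Crest.ProbabilityR.Loewner

namespace Crest.Agent.R162.TR

variable {γ : ℝ → ℂ}

theorem isClosed_hull (hγ : ContinuousOn γ (Ici 0)) (t : ℝ) : IsClosed (γ '' Icc 0 t) :=
  (isCompact_Icc.image_of_continuousOn (hγ.mono Icc_subset_Ici_self)).isClosed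

theorem ball_subset_surv {t : ℝ} {w : ℂ} {r : ℝ} (hw : w ∈ survivingDomain γ t)
    (hb : ball w r ⊆ halfPlane \ γ '' Icc 0 t) : ball w r ⊆ survivingDomain γ t := by
  intro z hz
  have hr : 0 < r := dist_nonneg.trans_lt (mem_ball.1 hz)
  refine ⟨hb hz, ?_⟩
  have h1 : ball w r ⊆ connectedComponentIn (halfPlane \ γ '' Icc 0 t) w :=
    (isPreconnected_ball).subset_connectedComponentIn (mem_ball_self hr) hb
  rw [← connectedComponentIn_eq (h1 hz)]
  exact hw.2

theorem isOpen_surv (hγ : ContinuousOn γ (Ici 0)) (t : ℝ) : IsOpen (survivingDomain γ t) := by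
  have ho : IsOpen (halfPlane \ γ '' Icc 0 t) := by
    have : IsOpen halfPlane := isOpen_HP
    exact this.sdiff (isClosed_hull hγ t)
  rw [Metric.isOpen_iff]
  intro w hw
  obtain ⟨ε, hε, hb⟩ := Metric.isOpen_iff.1 ho w hw.1
  exact ⟨ε, hε, ball_subset_surv hw hb⟩

theorem surv_anti {s t : ℝ} (hst : s ≤ t) : survivingDomain γ t ⊆ survivingDomain γ s := by
  intro z hz
  have hsub : halfPlane \ γ '' Icc 0 t ⊆ halfPlane \ γ '' Icc 0 s :=
    sdiff_subset_sdiff_right (image_mono (Icc_subset_Icc_right hst))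
  refine ⟨hsub hz.1, fun hbd => hz.2 ?_⟩
  exact hbd.subset (connectedComponentIn_mono z hsub)

/-- TR2: the distance to the hull and the real line is at most `2 Ups`. -/
theorem infDist_le_ups_surv (hγ : ContinuousOn γ (Ici 0)) {t : ℝ} {g : ℂ → ℂ}
    (hg : DifferentiableOn ℂ g (survivingDomain γ t)) (hinj : InjOn g (survivingDomain γ t))
    (himg : g '' survivingDomain γ t = halfPlane) {w : ℂ} (hw : w ∈ survivingDomain γ t) :
    infDist w (γ '' Icc 0 t ∪ {z : ℂ | z.im ≤ 0}) ≤ 2 * (g w).im / ‖deriv g w‖ := by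
  set r := infDist w (γ '' Icc 0 t ∪ {z : ℂ | z.im ≤ 0}) with hr
  have hmaps : ∀ z ∈ survivingDomain γ t, 0 < (g z).im := by
    intro z hz
    have : g z ∈ halfPlane := by rw [← himg]; exact mem_image_of_mem g hz
    exact this
  have hr0 : 0 ≤ r := infDist_nonneg
  rcases hr0.eq_or_lt with h0 | h0
  · have h1 : r = 0 := h0.symm
    rw [h1]
    have := hmaps w hw
    positivity
  · refine radius_le_ups (isOpen_surv hγ t) hg hinj hmaps h0 (ball_subset_surv hw ?_)
    intro z hz
    have h1 : z ∉ γ '' Icc 0 t ∪ {z : ℂ | z.im ≤ 0} := by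
      intro h
      have := infDist_le_dist_of_mem h (x := w)
      rw [dist_comm] at this
      exact absurd (mem_ball.1 hz) (not_lt.2 this)
    refine ⟨?_, fun h => h1 (Or.inl h)⟩
    by_contra h
    have h2 : z.im ≤ 0 := not_lt.1 h
    exact h1 (Or.inr h2)

/-- TR3: if the curve is in `ball w r` at time `t` then `Ups` of `w` has been `≤ 2 r` before. -/
theorem exists_ups_le_surv (hγ : ContinuousOn γ (Ici 0)) (hγ0 : γ 0 = 0) {t : ℝ} (ht : 0 ≤ t)
    {g : ℝ → ℂ → ℂ}
    (hg : ∀ s ∈ Icc 0 t, DifferentiableOn ℂ (g s) (survivingDomain γ s))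
    (hinj : ∀ s ∈ Icc 0 t, InjOn (g s) (survivingDomain γ s))
    (himg : ∀ s ∈ Icc 0 t, g s '' survivingDomain γ s = halfPlane)
    (hcl : γ t ∈ closure (survivingDomain γ t)) {w : ℂ} {r : ℝ}
    (hb : ball w r ⊆ halfPlane) (hgt : γ t ∈ ball w r) :
    ∃ s, 0 ≤ s ∧ s ≤ t ∧ w ∈ survivingDomain γ s ∧
      (g s w).im / ‖deriv (g s) w‖ ≤ 2 * r := by
  obtain ⟨r', hr'1, hr'2⟩ := exists_between (mem_ball.1 hgt)
  have hr'0 : 0 < r' := dist_nonneg.trans_lt hr'1
  -- first hitting time
  set S : Set ℝ := {u | u ∈ Icc 0 t ∧ γ u ∈ closedBall w r'} with hS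
  have hSne : S.Nonempty := ⟨t, ⟨ht, le_rfl⟩, mem_closedBall.2 hr'1.le⟩
  have hScl : IsClosed S := by
    have h1 : ContinuousOn γ (Icc 0 t) := hγ.mono Icc_subset_Ici_self
    exact h1.preimage_isClosed_of_isClosed isClosed_Icc isClosed_closedBall
  have hSbd : BddBelow S := ⟨0, fun u hu => hu.1.1⟩
  set s := sInf S with hs
  have hsS : s ∈ S := hScl.csInf_mem hSne hSbd
  have hlt : ∀ u, 0 ≤ u → u < s → r' < dist (γ u) w := by
    intro u hu0 hus
    by_contra h
    have : u ∈ S := ⟨⟨hu0, hus.le.trans hsS.1.2⟩, mem_closedBall.2 (not_lt.1 h)⟩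
    exact absurd (csInf_le hSbd this) (not_le.2 hus)
  have hs0 : 0 < s := by
    rcases hsS.1.1.eq_or_lt with h | h
    · exfalso
      have h1 := hsS.2
      rw [← h, hγ0] at h1
      have h2 : (0:ℂ) ∈ ball w r := mem_ball.2 ((mem_closedBall.1 h1).trans_lt hr'2)
      have h3 := hb h2
      simp [halfPlane] at h3
    · exact h
  have hge : r' ≤ dist (γ s) w := by
    have hcont : ContinuousWithinAt (fun u => dist (γ u) w) (Ico 0 s) s := by
      have h1 : ContinuousWithinAt γ (Ico 0 s) s :=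
        (hγ s hs0.le).mono (fun u hu => hu.1)
      exact h1.dist continuousWithinAt_const
    have hne : (𝓝[Ico 0 s] s).NeBot := by
      rw [← mem_closure_iff_nhdsWithin_neBot, closure_Ico hs0.ne]
      exact ⟨hs0.le, le_rfl⟩
    refine ge_of_tendsto hcont ?_
    filter_upwards [self_mem_nhdsWithin] with u hu
    exact (hlt u hu.1 hu.2).le
  have hdist : dist (γ s) w = r' := le_antisymm (mem_closedBall.1 hsS.2) hge
  have hball : ball w r' ⊆ halfPlane \ γ '' Icc 0 s := by
    intro z hz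
    refine ⟨hb (ball_subset_ball hr'2.le hz), ?_⟩
    rintro ⟨u, hu, rfl⟩
    rcases hu.2.eq_or_lt with h | h
    · rw [h] at hz
      exact absurd (mem_ball.1 hz) (not_lt.2 hdist.ge)
    · exact absurd (mem_ball.1 hz) (not_lt.2 (hlt u hu.1 h).le)
  have hwD : w ∈ survivingDomain γ s := by
    by_contra hw
    have hno : ∀ z ∈ ball w r', z ∉ survivingDomain γ s := by
      intro z hz hzD
      apply hw
      refine ⟨hball (mem_ball_self hr'0), ?_⟩
      have h1 : ball w r' ⊆ connectedComponentIn (halfPlane \ γ '' Icc 0 s) z :=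
        (isPreconnected_ball).subset_connectedComponentIn hz hball
      rw [← connectedComponentIn_eq (h1 (mem_ball_self hr'0))]
      exact hzD.2
    have h2 : (ball w r' ∩ survivingDomain γ t).Nonempty :=
      mem_closure_iff.1 hcl _ isOpen_ball (mem_ball.2 hr'1)
    obtain ⟨z, hz1, hz2⟩ := h2
    exact hno z hz1 (surv_anti hsS.1.2 hz2)
  refine ⟨s, hsS.1.1, hsS.1.2, hwD, ?_⟩
  have key := ball_ups_subset (isOpen_surv hγ s) (hg s hsS.1) (hinj s hsS.1) (himg s hsS.1) hwD
  have h3 : (g s w).im / ‖deriv (g s) w‖ / 2 ≤ r' := by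
    by_contra h
    have h4 : γ s ∈ ball w ((g s w).im / ‖deriv (g s) w‖ / 2) := by
      rw [mem_ball, hdist]; exact not_le.1 h
    have h5 := (key h4).1.2
    exact h5 ⟨s, ⟨hsS.1.1, le_rfl⟩, rfl⟩
  linarith

end Crest.Agent.R162.TR
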