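import Mathlib
import Crest.Prelude.Def_Loewner
import Crest.Agent.R162.Base
import Crest.Agent.R162.FL1b
import Crest.Agent.R162.FLC

/-!
Row 162, node ZO2 (= LB9a, deterministic transfer): a compact set `K` of the half-plane, near the
trace of the shifted and rescaled driving function on `[0,n]`, is mapped by the conformal map
`F = f_{s₀}(l ·)` into `γ '' Icc s₀ (s₀ + l² n)`; `F` is bi-Lipschitz on `K`.
-/

set_option autoImplicit false

open Set Metric Topology Filter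
open Crest.Agent.R162.FL Crest.Agent.R162.OP

namespace Crest.Agent.R162.ZO

/-- points of `Q` that are limits of points reached (up to `ε`) by the flow before time `n`. -/
def KK (W : ℝ → ℝ) (n : ℝ) (Q : Set ℂ) : Set ℂ :=
  {z | z ∈ Q ∧ ∀ ε > 0, ∃ z', ‖z' - z‖ < ε ∧ ∃ u ∈ Icc 0 n, Alive W z' u ∧ ups W u z' ≤ ε}

variable {U : ℝ → ℝ} {s₀ l y₀ : ℝ}

/-- the inverse conformal map exists. -/
lemma exists_inv (hU : ContinuousOn U (Ici 0)) (hs₀ : 0 ≤ s₀) (hl : 0 < l) :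
    ∃ F : ℂ → ℂ, ∀ z : ℂ, 0 < z.im → Alive U (F z) s₀ ∧ Zfl U s₀ (F z) = l * z := by
  have key : ∀ z : ℂ, ∃ w : ℂ, 0 < z.im → Alive U w s₀ ∧ Zfl U s₀ w = l * z := by
    intro z
    by_cases hz : 0 < z.im
    · have hz' : 0 < ((l : ℂ) * z + (U s₀ : ℂ)).im := by
        simp [hz, hl]
      obtain ⟨g, hg, hsol, -⟩ := FLC.exists_backward hs₀ (hU.mono Icc_subset_Ici_self) hz'
      have hfl : IsFlow U (g 0) s₀ g := ⟨rfl, fun s hs => (hsol s hs).1, fun s hs => (hsol s hs).2⟩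
      refine ⟨g 0, fun _ => ⟨⟨hs₀, g, hfl⟩, ?_⟩⟩
      rw [Zfl, ← hfl.eq_gfl ⟨hs₀, le_rfl⟩, hg]
      ring
    · exact ⟨0, fun h => absurd h hz⟩
  choose F hF using key
  exact ⟨F, hF⟩

lemma Zfl_im_ge {w z : ℂ} {s : ℝ} (hw : Alive U w s₀) (hz : Zfl U s₀ w = l * z)
    (hs : s ∈ Icc 0 s₀) : l * z.im ≤ (Zfl U s w).im := by
  have h1 := im_anti hw hs.1 hs.2
  have h2 : (Zfl U s₀ w).im = l * z.im := by rw [hz]; simp
  rw [Zfl_im] at h2 ⊢
  linarith

lemma norm_Zfl_ge {w z : ℂ} {s : ℝ} (hw : Alive U w s₀) (hz : Zfl U s₀ w = l * z)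
    (hs : s ∈ Icc 0 s₀) : l * z.im ≤ ‖Zfl U s w‖ :=
  (Zfl_im_ge hw hz hs).trans ((le_abs_self _).trans (Complex.abs_im_le_norm _))

/-- the distortion constant -/
noncomputable def MM (s₀ l y₀ : ℝ) : ℝ := 2 / (l * y₀) ^ 2 * s₀

lemma norm_integral_le {w w' z z' : ℂ} (hl : 0 < l) (hy₀ : 0 < y₀)
    (hs₀ : 0 ≤ s₀)
    (hw : Alive U w s₀) (hz : Zfl U s₀ w = l * z) (hzy : y₀ ≤ z.im)
    (hw' : Alive U w' s₀) (hz' : Zfl U s₀ w' = l * z') (hzy' : y₀ ≤ z'.im) :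
    ‖∫ s in (0 : ℝ)..s₀, 2 / (Zfl U s w * Zfl U s w')‖ ≤ MM s₀ l y₀ := by
  have h := intervalIntegral.norm_integral_le_of_norm_le_const (a := 0) (b := s₀)
    (C := 2 / (l * y₀) ^ 2) (f := fun s => 2 / (Zfl U s w * Zfl U s w')) ?_
  · rwa [sub_zero, abs_of_nonneg hs₀] at h
  · intro s hs
    rw [uIoc_of_le hs₀] at hs
    have hs' : s ∈ Icc 0 s₀ := ⟨hs.1.le, hs.2⟩
    have a1 := norm_Zfl_ge hw hz hs'
    have a2 := norm_Zfl_ge hw' hz' hs'
    have b1 : l * y₀ ≤ ‖Zfl U s w‖ := (mul_le_mul_of_nonneg_left hzy hl.le).trans a1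
    have b2 : l * y₀ ≤ ‖Zfl U s w'‖ := (mul_le_mul_of_nonneg_left hzy' hl.le).trans a2
    have hp : 0 < l * y₀ := by positivity
    rw [norm_div, norm_mul, Complex.norm_ofNat, sq]
    gcongr

/-- `F` and its inverse are Lipschitz. -/
lemma bilip {w w' z z' : ℂ} (hU : ContinuousOn U (Ici 0)) (hl : 0 < l) (hy₀ : 0 < y₀)
    (hs₀ : 0 ≤ s₀)
    (hw : Alive U w s₀) (hz : Zfl U s₀ w = l * z) (hzy : y₀ ≤ z.im)
    (hw' : Alive U w' s₀) (hz' : Zfl U s₀ w' = l * z') (hzy' : y₀ ≤ z'.im) :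
    l * ‖z - z'‖ ≤ Real.exp (MM s₀ l y₀) * ‖w - w'‖ ∧
      ‖w - w'‖ ≤ Real.exp (MM s₀ l y₀) * (l * ‖z - z'‖) := by
  have h1 := gfl_sub hU hw hw'
  have h2 : gfl U s₀ w - gfl U s₀ w' = l * (z - z') := by
    have e1 : gfl U s₀ w = l * z + U s₀ := by rw [← hz, Zfl]; ring
    have e2 : gfl U s₀ w' = l * z' + U s₀ := by rw [← hz', Zfl]; ring
    rw [e1, e2]; ring
  rw [h2] at h1
  have hI := norm_integral_le hl hy₀ hs₀ hw hz hzy hw' hz' hzy'
  set I := ∫ s in (0 : ℝ)..s₀, 2 / (Zfl U s w * Zfl U s w') with hIdef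
  have hre1 : (-I).re ≤ MM s₀ l y₀ := by
    have := Complex.abs_re_le_norm (-I)
    rw [norm_neg] at this
    exact (le_abs_self _).trans (this.trans hI)
  have hre2 : -(MM s₀ l y₀) ≤ (-I).re := by
    have := Complex.abs_re_le_norm (-I)
    rw [norm_neg] at this
    have h3 := neg_abs_le (-I).re
    linarith
  have hn : l * ‖z - z'‖ = ‖w - w'‖ * Real.exp (-I).re := by
    have := congrArg norm h1
    rw [norm_mul, norm_mul, Complex.norm_real, Real.norm_of_nonneg hl.le, Complex.norm_exp] at this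
    exact this
  constructor
  · rw [hn, mul_comm]
    gcongr
  · rw [hn]
    have h4 : Real.exp (MM s₀ l y₀) * (‖w - w'‖ * Real.exp (-I).re) =
        ‖w - w'‖ * Real.exp (MM s₀ l y₀ + (-I).re) := by
      rw [Real.exp_add]; ring
    rw [h4]
    have h5 : 1 ≤ Real.exp (MM s₀ l y₀ + (-I).re) := Real.one_le_exp (by linarith)
    exact le_mul_of_one_le_right (norm_nonneg _) h5

/-- transfer of life and of the conformal radius. -/
lemma ups_transfer {w z : ℂ} {u : ℝ} (hU : ContinuousOn U (Ici 0)) (hl : 0 < l) (hy₀ : 0 < y₀)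
    (hs₀ : 0 ≤ s₀) (hw : Alive U w s₀) (hz : Zfl U s₀ w = l * z) (hzy : y₀ ≤ z.im)
    (hu : Alive (scl l (shift U s₀)) z u) :
    Alive U w (s₀ + l ^ 2 * u) ∧
      ups U (s₀ + l ^ 2 * u) w ≤ l * Real.exp (MM s₀ l y₀) * ups (scl l (shift U s₀)) u z := by
  have hu0 : 0 ≤ u := hu.1
  have hl2 : 0 < l ^ 2 := by positivity
  have hA : Alive (shift U s₀) (l * z) (l ^ 2 * u) := (alive_scl hl).1 hu
  have hA' : Alive (shift U s₀) (Zfl U s₀ w) (l ^ 2 * u) := by rw [hz]; exact hA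
  have hB : Alive U w (s₀ + l ^ 2 * u) := alive_of_shift hU hw hA'
  refine ⟨hB, ?_⟩
  have hZ : ∀ v ∈ Icc 0 u, Zfl U (s₀ + l ^ 2 * v) w = l * Zfl (scl l (shift U s₀)) v z := by
    intro v hv
    have hv2 : l ^ 2 * v ≤ l ^ 2 * u := mul_le_mul_of_nonneg_left hv.2 hl2.le
    have hv0 : 0 ≤ l ^ 2 * v := mul_nonneg hl2.le hv.1
    rw [Zfl_add (hB.mono (by positivity) (by linarith)) hs₀ hv0, hz,
      Zfl_scl hl (hA.mono hv0 hv2), ← mul_assoc, mul_inv_cancel₀ (Complex.ofReal_ne_zero.2 hl.ne'),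
      one_mul]
  have hu2 : 0 ≤ l ^ 2 * u := by positivity
  have him : (gfl U (s₀ + l ^ 2 * u) w).im = l * (gfl (scl l (shift U s₀)) u z).im := by
    rw [← Zfl_im, hZ u ⟨hu0, le_rfl⟩, ← Zfl_im (scl l (shift U s₀))]
    simp
  set f : ℝ → ℝ := fun s => 2 * (((Zfl U s w) ^ 2)⁻¹).re with hf
  have hne : ∀ r ∈ Icc 0 (s₀ + l ^ 2 * u), (Zfl U r w) ^ 2 ≠ 0 := fun r hr =>
    pow_ne_zero 2 (Zfl_ne_zero (hB.mono hr.1 hr.2))
  have hfc : ContinuousOn f (Icc 0 (s₀ + l ^ 2 * u)) :=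
    continuousOn_const.mul (Complex.continuous_re.comp_continuousOn
      (((continuousOn_Zfl hU hB).pow 2).inv₀ hne))
  have hint : ∀ a b, 0 ≤ a → a ≤ b → b ≤ s₀ + l ^ 2 * u →
      IntervalIntegrable f MeasureTheory.volume a b := by
    intro a b ha hab hb
    apply ContinuousOn.intervalIntegrable
    rw [uIcc_of_le hab]
    exact hfc.mono (Icc_subset_Icc ha hb)
  have hadd : (∫ s in (0 : ℝ)..(s₀ + l ^ 2 * u), f s) =
      (∫ s in (0 : ℝ)..s₀, f s) + ∫ s in s₀..(s₀ + l ^ 2 * u), f s :=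
    (intervalIntegral.integral_add_adjacent_intervals (hint _ _ le_rfl hs₀ (by linarith))
      (hint _ _ hs₀ (by linarith) le_rfl)).symm
  have hsecond : (∫ s in s₀..(s₀ + l ^ 2 * u), f s) =
      ∫ v in (0 : ℝ)..u, 2 * (((Zfl (scl l (shift U s₀)) v z) ^ 2)⁻¹).re := by
    have e := intervalIntegral.mul_integral_comp_add_mul (f := f) (a := 0) (b := u) (l ^ 2) s₀
    rw [mul_zero, add_zero] at e
    rw [← e, ← intervalIntegral.integral_const_mul]
    refine intervalIntegral.integral_congr fun v hv => ?_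
    rw [uIcc_of_le hu0] at hv
    simp only [hf]
    rw [hZ v hv, mul_pow, mul_inv]
    have : ((l : ℂ) ^ 2)⁻¹ = (((l ^ 2)⁻¹ : ℝ) : ℂ) := by push_cast; ring
    rw [this, Complex.re_ofReal_mul]
    field_simp
  have hfirst : (∫ s in (0 : ℝ)..s₀, f s) ≤ MM s₀ l y₀ := by
    have h := intervalIntegral.norm_integral_le_of_norm_le_const (a := 0) (b := s₀)
      (C := 2 / (l * y₀) ^ 2) (f := f) ?_
    · rw [sub_zero, abs_of_nonneg hs₀] at h
      exact (le_abs_self _).trans h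
    · intro s hs
      rw [uIoc_of_le hs₀] at hs
      have hs' : s ∈ Icc 0 s₀ := ⟨hs.1.le, hs.2⟩
      have a1 := norm_Zfl_ge hw hz hs'
      have b1 : l * y₀ ≤ ‖Zfl U s w‖ := (mul_le_mul_of_nonneg_left hzy hl.le).trans a1
      have hp : 0 < l * y₀ := by positivity
      simp only [hf]
      rw [norm_mul, Real.norm_ofNat, div_eq_mul_inv]
      have c1 : ‖(((Zfl U s w) ^ 2)⁻¹).re‖ ≤ ‖((Zfl U s w) ^ 2)⁻¹‖ := by
        rw [Real.norm_eq_abs]; exact Complex.abs_re_le_norm _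
      rw [norm_inv, norm_pow] at c1
      refine mul_le_mul_of_nonneg_left (c1.trans ?_) (by norm_num)
      gcongr
  rw [ups, him, hadd, hsecond, ups, Real.exp_add]
  have hpos : 0 < (gfl (scl l (shift U s₀)) u z).im := gfl_im_pos hu
  set E := Real.exp (∫ v in (0 : ℝ)..u, 2 * (((Zfl (scl l (shift U s₀)) v z) ^ 2)⁻¹).re) with hE
  have hEpos : 0 < E := Real.exp_pos _
  have h1 : Real.exp (∫ s in (0 : ℝ)..s₀, f s) ≤ Real.exp (MM s₀ l y₀) := Real.exp_le_exp.2 hfirst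
  calc l * (gfl (scl l (shift U s₀)) u z).im * (Real.exp (∫ s in (0 : ℝ)..s₀, f s) * E)
      ≤ l * (gfl (scl l (shift U s₀)) u z).im * (Real.exp (MM s₀ l y₀) * E) := by gcongr
    _ = l * Real.exp (MM s₀ l y₀) * ((gfl (scl l (shift U s₀)) u z).im * E) := by ring

/-- **deterministic transfer.** -/
theorem image_subset {γ : ℝ → ℂ} {n : ℝ} {Q : Set ℂ} {F : ℂ → ℂ} (hU : ContinuousOn U (Ici 0))
    (hγ : ContinuousOn γ (Ici 0)) (hs₀ : 0 ≤ s₀) (hl : 0 < l) (hn : 0 ≤ n) (hy₀ : 0 < y₀)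
    (hQ : ∀ z ∈ Q, y₀ ≤ z.im)
    (hTR1 : ∀ w : ℂ, Alive U w s₀ → w ∉ γ '' Icc 0 s₀)
    (C : ℝ)
    (hTR2 : ∀ t : ℝ, ∀ w : ℂ, Alive U w t →
      ∃ p ∈ γ '' Icc 0 t ∪ {p : ℂ | p.im ≤ 0}, dist w p ≤ C * ups U t w)
    (hF : ∀ z : ℂ, 0 < z.im → Alive U (F z) s₀ ∧ Zfl U s₀ (F z) = l * z) :
    F '' KK (scl l (shift U s₀)) n Q ⊆ γ '' Icc s₀ (s₀ + l ^ 2 * n) := by
  rintro _ ⟨z, ⟨hzQ, hz⟩, rfl⟩
  have hzy := hQ z hzQ
  have hzpos : 0 < z.im := hy₀.trans_le hzy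
  obtain ⟨hFz, hFz2⟩ := hF z hzpos
  have hl2 : 0 ≤ l ^ 2 * n := by positivity
  -- closed set
  have hcl : IsClosed (γ '' Icc 0 (s₀ + l ^ 2 * n) ∪ {p : ℂ | p.im ≤ 0}) :=
    ((isCompact_Icc.image_of_continuousOn (hγ.mono Icc_subset_Ici_self)).isClosed).union
      (isClosed_le Complex.continuous_im continuous_const)
  set M := Real.exp (MM s₀ l (y₀ / 2)) with hM
  have hMpos : 0 < M := Real.exp_pos _
  have hmem : F z ∈ γ '' Icc 0 (s₀ + l ^ 2 * n) ∪ {p : ℂ | p.im ≤ 0} := by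
    rw [← hcl.closure_eq, Metric.mem_closure_iff]
    intro ε hε
    set D := M * l + |C| * (l * M) + 1 with hD
    have hDpos : 0 < D := by positivity
    obtain ⟨z', hz'1, u, hu, hau, hups⟩ := hz (min (y₀ / 2) (ε / (2 * D)))
      (lt_min (by positivity) (by positivity))
    have hz'd : ‖z' - z‖ < y₀ / 2 := hz'1.trans_le (min_le_left _ _)
    have hz'y : y₀ / 2 ≤ z'.im := by
      have h1 : |(z' - z).im| ≤ ‖z' - z‖ := Complex.abs_im_le_norm _
      rw [Complex.sub_im] at h1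
      have h2 := neg_abs_le (z'.im - z.im)
      linarith
    obtain ⟨hFz', hFz'2⟩ := hF z' (by linarith)
    have hb := (bilip hU hl (half_pos hy₀) hs₀ hFz hFz2 (by linarith) hFz' hFz'2 hz'y).2
    obtain ⟨hal, hupt⟩ := ups_transfer hU hl (half_pos hy₀) hs₀ hFz' hFz'2 hz'y hau
    obtain ⟨p, hp, hdp⟩ := hTR2 _ _ hal
    refine ⟨p, ?_, ?_⟩
    · rcases hp with hp | hp
      · left
        refine image_mono (Icc_subset_Icc le_rfl ?_) hp
        have := mul_le_mul_of_nonneg_left hu.2 (sq_nonneg l)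
        linarith
      · exact Or.inr hp
    · have hpos : 0 ≤ ups U (s₀ + l ^ 2 * u) (F z') :=
        mul_nonneg (gfl_im_pos hal).le (Real.exp_pos _).le
      have h1 : dist (F z) (F z') ≤ M * (l * ‖z' - z‖) := by
        rw [dist_eq_norm, norm_sub_rev z' z]; exact hb
      have h2 : dist (F z') p ≤ |C| * (l * M * ups (scl l (shift U s₀)) u z') := by
        refine hdp.trans ?_
        refine (mul_le_mul_of_nonneg_right (le_abs_self C) hpos).trans ?_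
        exact mul_le_mul_of_nonneg_left hupt (abs_nonneg _)
      have h3 : ‖z' - z‖ ≤ ε / (2 * D) := (hz'1.trans_le (min_le_right _ _)).le
      have h4 : ups (scl l (shift U s₀)) u z' ≤ ε / (2 * D) := hups.trans (min_le_right _ _)
      calc dist (F z) p ≤ dist (F z) (F z') + dist (F z') p := dist_triangle _ _ _
        _ ≤ M * (l * ‖z' - z‖) + |C| * (l * M * ups (scl l (shift U s₀)) u z') := add_le_add h1 h2
        _ ≤ M * (l * (ε / (2 * D))) + |C| * (l * M * (ε / (2 * D))) := by gcongr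
        _ = (D - 1) * (ε / (2 * D)) := by rw [hD]; ring
        _ < D * (ε / (2 * D)) := by
            apply mul_lt_mul_of_pos_right (by linarith) (by positivity)
        _ = ε / 2 := by field_simp
        _ < ε := by linarith
  rcases hmem with ⟨t, ht, hte⟩ | h
  · refine ⟨t, ⟨?_, ht.2⟩, hte⟩
    by_contra hlt
    push Not at hlt
    exact hTR1 (F z) hFz ⟨t, ⟨ht.1, hlt.le⟩, hte⟩
  · exact absurd h (not_le.2 hFz.im_pos)

end Crest.Agent.R162.ZO
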