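import Mathlib
import Crest.Agent.R162.ZO1
import Crest.Agent.R162.ZO2
import Crest.Agent.R162.FLC3
import Crest.Agent.R162.FLD
import Crest.Agent.R162.TR1
import Crest.Agent.R162.TR3
import Crest.Agent.R162.GM3
import Crest.Agent.R162.OS5

/-!
Row 162, nodes ZO3 + ZO4 (= LB9a, LB9b): positivity of the gauge measure of every piece of the trace
from one good event of positive probability for the flow of a Brownian path on `[0,n]`.
-/

set_option autoImplicit false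

open MeasureTheory ProbabilityTheory Set Metric Topology Filter
open scoped NNReal ENNReal
open Crest.Agent.R162.FL Crest.Agent.R162.OP Crest.ProbabilityR.Loewner

namespace Crest.Agent.R162.ZO

variable {U : ℝ → ℝ} {γ : ℝ → ℂ} {s₀ l y₀ : ℝ}

/-- TR2 in terms of `ups`. -/
lemma infDist_le_ups (h : IsChordalTrace U γ) (hU : ContinuousOn U (Ici 0)) {t : ℝ} {w : ℂ}
    (hw : Alive U w t) :
    infDist w (γ '' Icc 0 t ∪ {z : ℂ | z.im ≤ 0}) ≤ 2 * ups U t w := by
  have ht := hw.1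
  have hD := TR.survivingDomain_eq h hU ht
  have hdiff : DifferentiableOn ℂ (gfl U t) (Dom U t) := TR.differentiableOn_gfl' h hU ht
  have himg := TR.image_gfl h hU ht
  have key := TR.infDist_le_ups_surv (γ := γ) h.continuousOn (t := t) (g := gfl U t)
    (by rw [hD]; exact hdiff) (by rw [hD]; exact TR.injOn_gfl hU t)
    (by rw [hD]; exact himg) (w := w) (by rw [hD]; exact hw)
  refine key.trans (le_of_eq ?_)
  have hopen : Dom U t ∈ 𝓝 w := (isOpen_Dom hU t).mem_nhds hw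
  have hg : HasDerivAt (gfl U t) (deriv (gfl U t) w) w := (hdiff.differentiableAt hopen).hasDerivAt
  have hZ : HasDerivAt (fun w => Zfl U t w) (deriv (gfl U t) w) w := by
    simpa [Zfl] using hg.sub_const (U t : ℂ)
  have hZpos : 0 < (Zfl U t w).im := Zfl_im_pos hw
  have hf : HasDerivAt (ffl U t) (deriv (ffl U t) (Zfl U t w)) (Zfl U t w) :=
    (FLC.hasDerivAt_ffl hU ht hZpos).differentiableAt.hasDerivAt
  have hcomp : HasDerivAt (fun w => ffl U t (Zfl U t w))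
      (deriv (ffl U t) (Zfl U t w) * deriv (gfl U t) w) w := hf.comp w hZ
  have hid : HasDerivAt (fun w : ℂ => w) 1 w := hasDerivAt_id w
  have hid' : HasDerivAt (fun w => ffl U t (Zfl U t w)) 1 w := by
    refine hid.congr_of_eventuallyEq ?_
    filter_upwards [hopen] with v hv
    exact FLC.ffl_Zfl hU hv
  have hprod := hcomp.unique hid'
  have hnorm : ‖deriv (ffl U t) (Zfl U t w)‖ * ‖deriv (gfl U t) w‖ = 1 := by
    rw [← norm_mul, hprod, norm_one]
  have hne : ‖deriv (gfl U t) w‖ ≠ 0 := by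
    intro h0
    rw [h0, mul_zero] at hnorm
    exact zero_ne_one hnorm
  rw [FLC.ups_eq hU hw, Zfl_im]
  rw [div_eq_iff hne]
  linear_combination (-2 * (gfl U t w).im) * hnorm

lemma exists_hull_near (h : IsChordalTrace U γ) (hU : ContinuousOn U (Ici 0)) {t : ℝ} {w : ℂ}
    (hw : Alive U w t) :
    ∃ p ∈ γ '' Icc 0 t ∪ {p : ℂ | p.im ≤ 0}, dist w p ≤ 3 * ups U t w := by
  have hpos : 0 < ups U t w := mul_pos (gfl_im_pos hw) (Real.exp_pos _)
  have hne : (γ '' Icc 0 t ∪ {p : ℂ | p.im ≤ 0}).Nonempty := ⟨0, Or.inr (by simp)⟩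
  have h1 : infDist w (γ '' Icc 0 t ∪ {p : ℂ | p.im ≤ 0}) < 3 * ups U t w :=
    (infDist_le_ups h hU hw).trans_lt (by linarith)
  obtain ⟨p, hp, hd⟩ := (infDist_lt_iff hne).1 h1
  exact ⟨p, hp, hd.le⟩

/-- alive points are off the trace -/
lemma not_mem_trace (h : IsChordalTrace U γ) (hU : ContinuousOn U (Ici 0)) {t : ℝ} {w : ℂ}
    (hw : Alive U w t) : w ∉ γ '' Icc 0 t := by
  have h1 : w ∈ Dom U t := hw
  rw [← TR.survivingDomain_eq h hU hw.1] at h1
  exact h1.1.2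

/-- **LB9a.** -/
theorem gauge_pos_of_KK {κ : ℝ} (hκ : 0 < κ) (hκ8 : κ < 8) {n : ℝ} {Q : Set ℂ}
    (h : IsChordalTrace U γ) (hU : ContinuousOn U (Ici 0)) (hs₀ : 0 ≤ s₀) (hl : 0 < l)
    (hn : 0 ≤ n) (hy₀ : 0 < y₀) (hQ : ∀ z ∈ Q, y₀ ≤ z.im)
    (hpos : 0 < gaugeMeasure κ (KK (scl l (shift U s₀)) n Q)) :
    0 < gaugeMeasure κ (γ '' Icc s₀ (s₀ + l ^ 2 * n)) := by
  obtain ⟨F, hF⟩ := exists_inv (l := l) hU hs₀ hl
  have hsub := image_subset (F := F) hU h.continuousOn hs₀ hl hn hy₀ hQ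
    (fun w hw => not_mem_trace h hU hw) 3 (fun t w hw => exists_hull_near h hU hw) hF
  refine lt_of_lt_of_le ?_ (measure_mono hsub)
  set C : ℝ≥0 := Real.toNNReal (Real.exp (MM s₀ l y₀) / l) with hC
  refine GM.gaugeMeasure_image_pos hκ hκ8 (K := C) ?_ hpos
  intro x hx y hy
  have hxy := hQ x hx.1
  have hyy := hQ y hy.1
  obtain ⟨a1, a2⟩ := hF x (hy₀.trans_le hxy)
  obtain ⟨b1, b2⟩ := hF y (hy₀.trans_le hyy)
  have hb := (bilip hU hl hy₀ hs₀ a1 a2 hxy b1 b2 hyy).1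
  rw [edist_dist, edist_dist, dist_eq_norm, dist_eq_norm]
  have hCe : (C : ℝ≥0∞) = ENNReal.ofReal (Real.exp (MM s₀ l y₀) / l) := rfl
  rw [hCe, ← ENNReal.ofReal_mul (by positivity)]
  apply ENNReal.ofReal_le_ofReal
  rw [div_mul_eq_mul_div, le_div_iff₀ hl]
  linarith

/-! ### congruence in the driving function -/

lemma ups_congr {W W' : ℝ → ℝ} {T : ℝ} (hWW : ∀ s ∈ Icc 0 T, W s = W' s) {t : ℝ}
    (ht : t ∈ Icc 0 T) (z : ℂ) : ups W t z = ups W' t z := by
  have hg : ∀ s ∈ Icc 0 T, gfl W s z = gfl W' s z := fun s hs =>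
    FLD.gfl_congr fun r hr => hWW r ⟨hr.1, hr.2.trans hs.2⟩
  unfold ups
  rw [hg t ht]
  congr 2
  refine intervalIntegral.integral_congr fun s hs => ?_
  rw [uIcc_of_le ht.1] at hs
  have hs' : s ∈ Icc 0 T := ⟨hs.1, hs.2.trans ht.2⟩
  simp only [Zfl]
  rw [hg s hs', hWW s hs']

lemma KK_congr {W W' : ℝ → ℝ} {n : ℝ} (hWW : ∀ s ∈ Icc 0 n, W s = W' s) (Q : Set ℂ) :
    KK W n Q = KK W' n Q := by
  ext z
  refine and_congr_right fun _ => forall₂_congr fun ε _ => exists_congr fun z' =>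
    and_congr_right fun _ => exists_congr fun u => and_congr_right fun hu => ?_
  rw [FLD.alive_congr (W' := W') fun r hr => hWW r ⟨hr.1, hr.2.trans hu.2⟩, ups_congr hWW hu]

end Crest.Agent.R162.ZO
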