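import Mathlib
import Crest.Agent.R162.ZO3

/-!
Row 162, node ZO4 (= LB9b): horizon `n` and final assembly of the lower bound.
-/

set_option autoImplicit false
set_option linter.unusedSectionVars false

open MeasureTheory ProbabilityTheory Set Metric Topology Filter
open scoped NNReal ENNReal
open Crest.Agent.R162.FL Crest.Agent.R162.OP Crest.ProbabilityR.Loewner

namespace Crest.Agent.R162.ZO

variable {Ω : Type*} {mΩ : MeasurableSpace Ω} {P : Measure Ω} [IsProbabilityMeasure P]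
  {B : ℝ≥0 → Ω → ℝ}

lemma past_scaled_le (B : ℝ≥0 → Ω → ℝ) {n : ℝ≥0} (hn : 0 < n) :
    pastSigma (piece B 0 n⁻¹) n ≤ pastSigma B 1 := by
  unfold pastSigma
  have hu : ∀ u : Set.Iic n, 0 + n⁻¹ * (u : ℝ≥0) ≤ 1 := fun u => by
    rw [zero_add, mul_comm, ← div_eq_mul_inv, div_le_one hn]
    exact u.2
  have : (fun ω (u : Set.Iic n) => piece B 0 n⁻¹ u ω)
      = (fun (x : Set.Iic (1 : ℝ≥0) → ℝ) (u : Set.Iic n) =>
          (√((n⁻¹ : ℝ≥0) : ℝ))⁻¹ * (x ⟨0 + n⁻¹ * u, hu u⟩ - x ⟨0, Set.mem_Iic.2 zero_le⟩)) ∘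
        (fun ω (u : Set.Iic (1 : ℝ≥0)) => B u ω) := rfl
  rw [this, ← MeasurableSpace.comap_comp]
  apply MeasurableSpace.comap_mono
  rw [← measurable_iff_comap_le]
  refine measurable_pi_lambda _ fun u => ?_
  have a1 : Measurable fun c : Set.Iic (1 : ℝ≥0) → ℝ => c ⟨0 + n⁻¹ * u, hu u⟩ :=
    measurable_pi_apply _
  have a2 : Measurable fun c : Set.Iic (1 : ℝ≥0) → ℝ => c ⟨0, Set.mem_Iic.2 zero_le⟩ :=
    measurable_pi_apply _
  exact (a1.sub a2).const_mul _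

/-- **Node ZO1, horizon `n`.** -/
theorem ae_good_piece' (hB : IsBrownianReal B P) (hm : ∀ t, Measurable (B t))
    (hcont : ∀ ω, Continuous fun t => B t ω)
    {c : ℝ≥0∞} (hc : 0 < c) {n : ℝ≥0} (hn : 0 < n) (Good : (ℝ≥0 → ℝ) → Prop)
    (hmeas : ∀ B' : ℝ≥0 → Ω → ℝ, (∀ t, Measurable (B' t)) → (∀ ω, Continuous fun t => B' t ω) →
      (∀ ω, B' 0 ω = 0) → MeasurableSet[pastSigma B' n] {ω | Good fun t => B' t ω})
    (hprob : ∀ B' : ℝ≥0 → Ω → ℝ, IsBrownianReal B' P → (∀ t, Measurable (B' t)) →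
      (∀ ω, Continuous fun t => B' t ω) → (∀ ω, B' 0 ω = 0) →
      c ≤ P {ω | Good fun t => B' t ω}) :
    ∀ᵐ ω ∂P, ∀ a b : ℝ≥0, a < b → ∃ s τ : ℝ≥0, a ≤ s ∧ 0 < τ ∧ s + τ * n ≤ b ∧
      Good fun t => piece B s τ t ω := by
  have hn' : 0 < n⁻¹ := inv_pos.2 hn
  have key := ae_good_piece hB hm hcont hc
    (fun w => Good fun t => (√((n⁻¹ : ℝ≥0) : ℝ))⁻¹ * (w (0 + n⁻¹ * t) - w 0))
    (fun B' h1 h2 h3 => past_scaled_le B' hn _
      (hmeas (piece B' 0 n⁻¹) (piece_measurable h1 0 n⁻¹) (piece_continuous h2 0 n⁻¹)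
        (piece_zero B' 0 n⁻¹)))
    (fun B' h0 h1 h2 h3 => hprob (piece B' 0 n⁻¹) (piece_isBrownian h0 0 hn')
      (piece_measurable h1 0 n⁻¹) (piece_continuous h2 0 n⁻¹) (piece_zero B' 0 n⁻¹))
  filter_upwards [key] with ω hω a b hab
  obtain ⟨s, τ, h1, h2, h3, h4⟩ := hω a b hab
  refine ⟨s, τ * n⁻¹, h1, mul_pos h2 hn', ?_, ?_⟩
  · rw [mul_assoc, inv_mul_cancel₀ hn.ne', mul_one]; exact h3
  · have e : (fun t => (√((n⁻¹ : ℝ≥0) : ℝ))⁻¹ * (piece B s τ (0 + n⁻¹ * t) ω - piece B s τ 0 ω)) =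
        fun t => piece B s (τ * n⁻¹) t ω := by
      funext t
      rw [piece_zero, sub_zero, zero_add, piece, piece]
      have e2 : τ * (n⁻¹ * t) = τ * n⁻¹ * t := by ring
      have e1 : √((τ * n⁻¹ : ℝ≥0) : ℝ) = √(τ : ℝ) * √((n⁻¹ : ℝ≥0) : ℝ) := by
        rw [NNReal.coe_mul, Real.sqrt_mul (NNReal.coe_nonneg τ)]
      simp only [e1, e2, mul_inv]
      ring
    rw [← e]
    exact h4

/-- what the lower-bound analysis (LB1-LB8) has to deliver: a good path event. -/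
structure LBGood (κ : ℝ) (P : Measure Ω) (n : ℝ≥0) (Q : Set ℂ) (c : ℝ≥0∞)
    (Good : (ℝ≥0 → ℝ) → Prop) : Prop where
  meas : ∀ B' : ℝ≥0 → Ω → ℝ, (∀ t, Measurable (B' t)) → (∀ ω, Continuous fun t => B' t ω) →
    (∀ ω, B' 0 ω = 0) → MeasurableSet[pastSigma B' n] {ω | Good fun t => B' t ω}
  prob : ∀ B' : ℝ≥0 → Ω → ℝ, IsBrownianReal B' P → (∀ t, Measurable (B' t)) →
    (∀ ω, Continuous fun t => B' t ω) → (∀ ω, B' 0 ω = 0) → c ≤ P {ω | Good fun t => B' t ω}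
  pos : ∀ w : ℝ≥0 → ℝ, Continuous w → w 0 = 0 → Good w →
    0 < gaugeMeasure κ (KK (fun t => √κ * w (Real.toNNReal t)) n Q)

lemma continuous_driving {κ : ℝ} {ω : Ω} (hc : Continuous fun t => B t ω) :
    Continuous (driving κ B ω) := by
  unfold driving
  have := hc.comp continuous_real_toNNReal
  exact continuous_const.mul this

/-- **LB9b**: the lower bound. -/
theorem lower_bound {κ : ℝ} (hκ : 0 < κ) (hκ8 : κ < 8) (hB : IsBrownianReal B P)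
    {γ : Ω → ℝ → ℂ} (hγ : ∀ᵐ ω ∂P, IsChordalTrace (driving κ B ω) (γ ω))
    {n : ℝ≥0} (hn : 0 < n) {Q : Set ℂ} {y₀ : ℝ} (hy₀ : 0 < y₀) (hQ : ∀ z ∈ Q, y₀ ≤ z.im)
    {c : ℝ≥0∞} (hc : 0 < c) {Good : (ℝ≥0 → ℝ) → Prop} (hG : LBGood κ P n Q c Good) :
    ∀ᵐ ω ∂P, ∀ s t : ℝ, 0 ≤ s → s < t → 0 < gaugeMeasure κ (γ ω '' Icc s t) := by
  obtain ⟨Bc, hm, hBM, hBc, hae⟩ := OS.exists_isBM hB
  have key := ae_good_piece' hBc hm hBM.cont hc hn Good hG.meas hG.prob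
  filter_upwards [hγ, hae, key] with ω h1 h2 h3 s t hs hst
  have hdr : driving κ B ω = driving κ Bc ω := by
    funext r
    simp only [driving, h2]
  rw [hdr] at h1
  have hU : ContinuousOn (driving κ Bc ω) (Ici 0) :=
    (continuous_driving (hBM.cont ω)).continuousOn
  obtain ⟨s', τ, ha, hτ, hb, hgood⟩ := h3 (Real.toNNReal s) (Real.toNNReal t)
    ((Real.toNNReal_lt_toNNReal_iff (hs.trans_lt hst)).2 hst)
  have hτ' : (0 : ℝ) < τ := NNReal.coe_pos.2 hτ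
  have hl : 0 < √(τ : ℝ) := Real.sqrt_pos.2 hτ'
  have hl2 : √(τ : ℝ) ^ 2 = τ := Real.sq_sqrt hτ'.le
  have hpos := hG.pos (fun t => piece Bc s' τ t ω) (piece_continuous hBM.cont s' τ ω)
    (piece_zero Bc s' τ ω) hgood
  have hcongr : KK (fun t => √κ * piece Bc s' τ (Real.toNNReal t) ω) n Q =
      KK (scl (√(τ : ℝ)) (shift (driving κ Bc ω) s')) n Q := by
    refine KK_congr (fun r hr => ?_) Q
    have hr0 : 0 ≤ r := hr.1
    have e1 : Real.toNNReal ((s' : ℝ) + √(τ : ℝ) ^ 2 * r) = s' + τ * Real.toNNReal r := by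
      rw [hl2]
      ext
      rw [Real.coe_toNNReal _ (by positivity)]
      push_cast
      rw [Real.coe_toNNReal _ hr0]
    have e2 : Real.toNNReal (s' : ℝ) = s' := Real.toNNReal_coe
    simp only [scl, shift, driving, e1, e2, piece]
    ring
  rw [hcongr] at hpos
  have h := gauge_pos_of_KK hκ hκ8 h1 hU (NNReal.coe_nonneg s') hl (NNReal.coe_nonneg n) hy₀ hQ
    hpos
  refine lt_of_lt_of_le h (measure_mono (image_mono (Icc_subset_Icc ?_ ?_)))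
  · have : (Real.toNNReal s : ℝ) ≤ s' := by exact_mod_cast ha
    rwa [Real.coe_toNNReal _ hs] at this
  · rw [hl2]
    have : ((s' + τ * n : ℝ≥0) : ℝ) ≤ (Real.toNNReal t : ℝ) := by exact_mod_cast hb
    rw [Real.coe_toNNReal _ (hs.trans hst.le)] at this
    push_cast at this
    exact this

end Crest.Agent.R162.ZO
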