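import Mathlib
import Crest.Agent.R162.ZO4
import Crest.Agent.R162.LB8
import Crest.Agent.R162.LB9a
import Crest.Agent.R162.LB9g
import Crest.Agent.R162.Top
import Crest.Agent.R162.OS5b

/-!
Row 162, node LB-END: the closed end of the lower bound.  From the approximate occupation measures
(hypotheses of `LB8.frostman` + support in points of small conformal radius) to `Top.LBC`.
-/

set_option autoImplicit false
set_option linter.unusedSectionVars false

open MeasureTheory ProbabilityTheory Set Metric Topology Filter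
open scoped NNReal ENNReal
open Crest.Agent.R162.FL Crest.Agent.R162.OP Crest.ProbabilityR.Loewner

namespace Crest.Agent.R162.ZO

universe u

section

variable {Ω : Type*} {mΩ : MeasurableSpace Ω} {P : Measure Ω} [IsProbabilityMeasure P]
  {B : ℝ≥0 → Ω → ℝ}

/-- a Brownian set-up gives a Brownian motion in the sense of Mathlib. -/
theorem isBrownianReal_of_isBM {F : Filtration ℝ≥0 mΩ} (h : OS.IsBM F B P) :
    IsBrownianReal B P := by
  have hlaw : ∀ t, HasLaw (B t) (gaussianReal 0 t) P := by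
    intro t
    refine ⟨((h.adapted t).mono (F.le t) le_rfl).aemeasurable, ?_⟩
    have h1 := h.law 0 t
    have h2 : (fun ω => B (0 + t) ω - B 0 ω) = B t := by
      funext ω; rw [zero_add, h.zero, sub_zero]
    rwa [h2] at h1
  have hinc : HasIndepIncrements B P := by
    refine HasIndepIncrements.of_nat fun t ht _ => ?_
    rw [iIndepFun_iff_measure_inter_preimage_eq_mul]
    intro S sets hsets
    induction S using Finset.induction_on_max with
    | empty => simp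
    | insert a S hmax ih =>
      have haS : a ∉ S := fun h => lt_irrefl _ (hmax a h)
      rw [Finset.prod_insert haS, Finset.set_biInter_insert,
        ← ih fun i hi => hsets i (Finset.mem_insert_of_mem hi)]
      have hmeas1 : MeasurableSet[F (t a)]
          (⋂ i ∈ S, (fun ω => B (t (i + 1)) ω - B (t i) ω) ⁻¹' sets i) := by
        refine MeasurableSet.biInter S.countable_toSet fun i hi => ?_
        have hi1 : t (i + 1) ≤ t a := ht (hmax i hi)
        have hi0 : t i ≤ t a := ht (hmax i hi).le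
        have m1 : Measurable[F (t a)] (B (t (i + 1))) := (h.adapted _).mono (F.mono hi1) le_rfl
        have m0 : Measurable[F (t a)] (B (t i)) := (h.adapted _).mono (F.mono hi0) le_rfl
        exact (m1.sub m0) (hsets i (Finset.mem_insert_of_mem hi))
      have hmeas2 : MeasurableSet[MeasurableSpace.comap
          (fun ω (u : ℝ≥0) => B (t a + u) ω - B (t a) ω) MeasurableSpace.pi]
          ((fun ω => B (t (a + 1)) ω - B (t a) ω) ⁻¹' sets a) := by
        have h1 : Measurable[MeasurableSpace.comap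
            (fun ω (u : ℝ≥0) => B (t a + u) ω - B (t a) ω) MeasurableSpace.pi]
            (fun ω (u : ℝ≥0) => B (t a + u) ω - B (t a) ω) := comap_measurable _
        have h2 := (measurable_pi_apply (t (a + 1) - t a)).comp h1
        have h3 : t a + (t (a + 1) - t a) = t (a + 1) := add_tsub_cancel_of_le (ht (Nat.le_succ a))
        have h4 := h2 (hsets a (Finset.mem_insert_self a S))
        convert h4 using 2
        funext ω
        simp only [Function.comp_apply, h3]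
      exact (Indep_iff _ _ P).1 (h.indep (t a)) _ _ hmeas2 hmeas1
  exact { toIsPreBrownianReal := hinc.isPreBrownianReal_of_hasLaw hlaw,
          cont := Eventually.of_forall h.cont }

/-- block independence, event form: for every (good) Brownian motion on `(Ω,P)` there is an event of
probability `≥ c`, measurable with respect to the path up to time `n`, on which `R` holds; then
almost surely `R` holds for some rescaled piece in every interval. -/
theorem ae_piece_event (hB : IsBrownianReal B P) (hm : ∀ t, Measurable (B t))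
    (hcont : ∀ ω, Continuous fun t => B t ω)
    {c : ℝ≥0∞} (hc : 0 < c) {n : ℝ≥0} (hn : 0 < n) (R : (ℝ≥0 → ℝ) → Prop)
    (hE : ∀ B' : ℝ≥0 → Ω → ℝ, IsBrownianReal B' P → (∀ t, Measurable (B' t)) →
      (∀ ω, Continuous fun t => B' t ω) → (∀ ω, B' 0 ω = 0) →
      ∃ E : Set Ω, MeasurableSet[pastSigma B' n] E ∧ c ≤ P E ∧ ∀ ω ∈ E, R fun t => B' t ω) :
    ∀ᵐ ω ∂P, ∀ a b : ℝ≥0, a < b → ∃ s τ : ℝ≥0, a ≤ s ∧ 0 < τ ∧ s + τ * n ≤ b ∧
      R fun t => piece B s τ t ω := by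
  have hn' : 0 < n⁻¹ := inv_pos.2 hn
  have hscale : ∀ (s τ : ℝ≥0) (t : ℝ≥0) (ω : Ω),
      piece (piece B s τ) 0 n⁻¹ t ω = piece B s (τ * n⁻¹) t ω := by
    intro s τ t ω
    have e2 : τ * (n⁻¹ * t) = τ * n⁻¹ * t := by ring
    have e1 : √((τ * n⁻¹ : ℝ≥0) : ℝ) = √(τ : ℝ) * √((n⁻¹ : ℝ≥0) : ℝ) := by
      rw [NNReal.coe_mul, Real.sqrt_mul (NNReal.coe_nonneg τ)]
    have e3 : piece (piece B s τ) 0 n⁻¹ t ω =
        (√((n⁻¹ : ℝ≥0) : ℝ))⁻¹ * (piece B s τ (0 + n⁻¹ * t) ω - piece B s τ 0 ω) := rfl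
    rw [e3, piece_zero, sub_zero, zero_add, piece, piece, e1, e2, mul_inv]
    ring
  have hex : ∀ s τ : ℝ≥0, 0 < τ → ∃ E : Set Ω, MeasurableSet[incSigma B s τ] E ∧ c ≤ P E ∧
      ∀ ω ∈ E, R fun t => piece B s (τ * n⁻¹) t ω := by
    intro s τ hτ
    obtain ⟨E, h1, h2, h3⟩ := hE (piece (piece B s τ) 0 n⁻¹)
      (piece_isBrownian (piece_isBrownian hB s hτ) 0 hn')
      (piece_measurable (piece_measurable hm s τ) 0 n⁻¹)
      (piece_continuous (piece_continuous hcont s τ) 0 n⁻¹) (piece_zero (piece B s τ) 0 n⁻¹)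
    refine ⟨E, past_piece_le B s τ _ (past_scaled_le (piece B s τ) hn _ h1), h2, fun ω hω => ?_⟩
    have := h3 ω hω
    simp only [hscale] at this
    exact this
  classical
  choose! E hEm hEP hER using hex
  have h1 : ∀ᵐ ω ∂P, ∀ p q : ℚ, Real.toNNReal p < Real.toNNReal q → ∃ s τ : ℝ≥0,
      Real.toNNReal p ≤ s ∧ 0 < τ ∧ s + τ ≤ Real.toNNReal q ∧ ω ∈ E s τ := by
    rw [ae_all_iff]
    intro p
    rw [ae_all_iff]
    intro q
    by_cases h : Real.toNNReal p < Real.toNNReal q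
    · filter_upwards [ae_exists_Ico hB.toIsPreBrownianReal hm hc h E hEm hEP] with ω hω _
      exact hω
    · exact Eventually.of_forall fun ω h' => absurd h' h
  filter_upwards [h1] with ω hω a b hab
  obtain ⟨q, _, haq, hqb⟩ := (NNReal.lt_iff_exists_rat_btwn a b).mp hab
  obtain ⟨p, _, hap, hpq⟩ := (NNReal.lt_iff_exists_rat_btwn a _).mp haq
  obtain ⟨s, τ, h1, h2, h3, h4⟩ := hω p q hpq
  refine ⟨s, τ * n⁻¹, hap.le.trans h1, mul_pos h2 hn', ?_, hER s τ h2 ω h4⟩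
  rw [mul_assoc, inv_mul_cancel₀ hn.ne', mul_one]
  exact h3.trans hqb.le

/-- **LB9b**, event form, for a Brownian motion with all paths continuous. -/
theorem lower_bound_event {κ : ℝ} (hκ : 0 < κ) (hκ8 : κ < 8) (hBr : IsBrownianReal B P)
    (hm : ∀ t, Measurable (B t)) (hcont : ∀ ω, Continuous fun t => B t ω)
    {γ : Ω → ℝ → ℂ} (hγ : ∀ᵐ ω ∂P, IsChordalTrace (driving κ B ω) (γ ω))
    {n : ℝ≥0} (hn : 0 < n) {Q : Set ℂ} {y₀ : ℝ} (hy₀ : 0 < y₀) (hQ : ∀ z ∈ Q, y₀ ≤ z.im)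
    {c : ℝ≥0∞} (hc : 0 < c)
    (hE : ∀ B' : ℝ≥0 → Ω → ℝ, IsBrownianReal B' P → (∀ t, Measurable (B' t)) →
      (∀ ω, Continuous fun t => B' t ω) → (∀ ω, B' 0 ω = 0) →
      ∃ E : Set Ω, MeasurableSet[pastSigma B' n] E ∧ c ≤ P E ∧
        ∀ ω ∈ E, 0 < gaugeMeasure κ (KK (driving κ B' ω) n Q)) :
    ∀ᵐ ω ∂P, ∀ s t : ℝ, 0 ≤ s → s < t → 0 < gaugeMeasure κ (γ ω '' Icc s t) := by
  have key := ae_piece_event hBr hm hcont hc hn
    (fun w => 0 < gaugeMeasure κ (KK (fun t => √κ * w (Real.toNNReal t)) n Q)) hE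
  filter_upwards [hγ, key] with ω h1 h3 s t hs hst
  have hU : ContinuousOn (driving κ B ω) (Ici 0) :=
    (continuous_driving (hcont ω)).continuousOn
  obtain ⟨s', τ, ha, hτ, hb, hpos⟩ := h3 (Real.toNNReal s) (Real.toNNReal t)
    ((Real.toNNReal_lt_toNNReal_iff (hs.trans_lt hst)).2 hst)
  have hτ' : (0 : ℝ) < τ := NNReal.coe_pos.2 hτ
  have hl : 0 < √(τ : ℝ) := Real.sqrt_pos.2 hτ'
  have hl2 : √(τ : ℝ) ^ 2 = τ := Real.sq_sqrt hτ'.le
  have hcongr : KK (fun t => √κ * piece B s' τ (Real.toNNReal t) ω) n Q =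
      KK (scl (√(τ : ℝ)) (shift (driving κ B ω) s')) n Q := by
    refine KK_congr (fun r hr => ?_) Q
    have hr0 : 0 ≤ r := hr.1
    have e1 : Real.toNNReal ((s' : ℝ) + √(τ : ℝ) ^ 2 * r) = s' + τ * Real.toNNReal r := by
      rw [hl2]
      ext
      rw [Real.coe_toNNReal _ (by positivity)]
      push_cast
      rw [Real.coe_toNNReal _ hr0]
    have e2 : Real.toNNReal (s' : ℝ) = s' := Real.toNNReal_coe
    simp only [scl, shift, driving, e1, e2, piece]
    ring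
  have hpos' : 0 < gaugeMeasure κ (KK (scl (√(τ : ℝ)) (shift (driving κ B ω) s')) n Q) := by
    rw [← hcongr]; exact hpos
  have h := gauge_pos_of_KK hκ hκ8 h1 hU (NNReal.coe_nonneg s') hl (NNReal.coe_nonneg n) hy₀ hQ
    hpos'
  refine lt_of_lt_of_le h (measure_mono (image_mono (Icc_subset_Icc ?_ ?_)))
  · have : (Real.toNNReal s : ℝ) ≤ s' := by exact_mod_cast ha
    rwa [Real.coe_toNNReal _ hs] at this
  · rw [hl2]
    have : ((s' + τ * n : ℝ≥0) : ℝ) ≤ (Real.toNNReal t : ℝ) := by exact_mod_cast hb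
    rw [Real.coe_toNNReal _ (hs.trans hst.le)] at this
    push_cast at this
    exact this

end

/-- **Input of the end of the lower bound**: approximate occupation measures `μ ω` at the scales
`ε k → 0` (content up to time `n`), with the hypotheses of `LB8.frostman`, carried by points of
conformal radius `≤ c4 ε k` before time `n`. -/
def LBIn (κ : ℝ) : Prop :=
  ∃ (n : ℝ≥0) (a : ℝ≥0∞) (D M Cm C3 r1 c4 : ℝ) (ε : ℕ → ℝ), 0 < n ∧ a ≠ 0 ∧ a ≠ ⊤ ∧ 0 ≤ D ∧
    0 < M ∧ 0 < r1 ∧ (∀ k, 0 < ε k) ∧ Tendsto ε atTop (𝓝 0) ∧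
    ∀ (Ω : Type u) [MeasurableSpace Ω] (P : Measure Ω) [IsProbabilityMeasure P]
      (B : ℝ≥0 → Ω → ℝ) (h : ∀ t, Measurable (B t)), OS.IsBM (OS.natF B h) B P →
      ∀ k : ℕ, ∃ μ : Ω → Measure ℂ,
        (Measurable[OS.natF B h n] fun ω => μ ω LB8.Q0) ∧
        (∀ z r, Measurable[OS.natF B h n] fun ω => μ ω (closedBall z r)) ∧
        a ≤ ∫⁻ ω, μ ω LB8.Q0 ∂P ∧
        (∀ ω, ∀ z ∈ LB8.Q0, ∀ r, 0 < r → r ≤ r1 →
          μ ω (closedBall z r) ≤ ENNReal.ofReal (D * ε k ^ (dimParam κ - 2) * r ^ 2)) ∧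
        (∀ z ∈ LB8.Q0, ∀ r, 0 < r → r ≤ r1 → M * ε k * Real.sqrt (GM.L r) ≤ r →
          ∫⁻ ω in {ω | ENNReal.ofReal (Cm * gaugeReal κ r) < μ ω (closedBall z r)},
            μ ω (closedBall z r) ∂P ≤ ENNReal.ofReal (C3 * (Real.log (1 / r) ^ 2)⁻¹ * r ^ 2)) ∧
        (∀ ω, ∀ᵐ z ∂(μ ω), z ∈ LB8.Q0 → ∃ u ∈ Icc (0 : ℝ) n,
          Alive (driving κ B ω) z u ∧ ups (driving κ B ω) u z ≤ c4 * ε k)

/-- **Node LB-END.** -/
theorem lbc_of {κ : ℝ} (hκ : 0 < κ) (hκ8 : κ < 8) (h : LBIn.{u} κ) : Top.LBC.{u} κ := by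
  obtain ⟨n, a, D, M, Cm, C3, r1, c4, ε, hn, ha0, ha, hD, hM, hr1, hε0, hε, hall⟩ := h
  obtain ⟨k1, C, hC, c8, hc8, hfr⟩ := LB8.frostman hκ hκ8 ha0 ha (Cm := Cm) (C3 := C3) hD hM hr1
  have hQc : IsCompact {z : ℂ | z.re ∈ Icc (0:ℝ) 1 ∧ z.im ∈ Icc (1:ℝ) 2} := by
    have := (isCompact_Icc (a := (0:ℝ)) (b := 1)).reProdIm (isCompact_Icc (a := (1:ℝ)) (b := 2))
    exact this
  set Q : Set ℂ := {z : ℂ | z.re ∈ Icc (0:ℝ) 1 ∧ z.im ∈ Icc (1:ℝ) 2} with hQdef
  have hQ0 : LB8.Q0 ⊆ Q := fun z hz => ⟨⟨hz.1, hz.2.1.le⟩, ⟨hz.2.2.1, hz.2.2.2.le⟩⟩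
  intro Ω _ P _ F B hBM γ hγ
  have hm : ∀ t, Measurable (B t) := fun t => hBM.measurable t
  have hev : ∀ B' : ℝ≥0 → Ω → ℝ, IsBrownianReal B' P → (∀ t, Measurable (B' t)) →
      (∀ ω, Continuous fun t => B' t ω) → (∀ ω, B' 0 ω = 0) →
      ∃ E : Set Ω, MeasurableSet[pastSigma B' n] E ∧ c8 ≤ P E ∧
        ∀ ω ∈ E, 0 < gaugeMeasure κ (KK (driving κ B' ω) n Q) := by
    intro B' hB' hm' hc' h0'
    have hBM' : OS.IsBM (OS.natF B' hm') B' P :=
      OS.isBM_natF hm' hc' h0' hB'.toIsPreBrownianReal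
    have hA : ∀ k : ℕ, ∃ A : Set Ω, MeasurableSet[pastSigma B' n] A ∧ c8 ≤ P A ∧
        ∀ ω ∈ A, ∃ ν : Measure ℂ, a / 4 ≤ ν univ ∧
          (∀ᵐ z ∂ν, z ∈ LB9a.SS (driving κ B' ω) n Q (|c4| * ε k)) ∧
          ∀ (z : ℂ) (r : ℝ), 0 < r → r ≤ LB8.side k1 →
            ν (closedBall z r) ≤ ENNReal.ofReal (C * gaugeReal κ r) := by
      intro k
      obtain ⟨μ, m1, m2, m3, m4, m5, m6⟩ := hall Ω P B' hm' hBM' k
      obtain ⟨A, hAm, hAP, hA⟩ := hfr P (OS.natF B' hm' n) ((OS.natF B' hm').le n) (ε k) (hε0 k) μ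
        m1 m2 m3 m4 m5
      refine ⟨A, hAm, hAP, fun ω hω => ?_⟩
      obtain ⟨g, hgm, hgQ, hga, hgb⟩ := hA ω hω
      refine ⟨(μ ω).restrict g, by rwa [Measure.restrict_apply_univ], ?_, fun z r hr hr' => ?_⟩
      · rw [ae_restrict_iff' hgm]
        filter_upwards [m6 ω] with z hz hzg
        obtain ⟨v, hv, hal, hup⟩ := hz (hgQ hzg)
        exact ⟨hQ0 (hgQ hzg), v, hv, hal, hup.trans
          (mul_le_mul_of_nonneg_right (le_abs_self _) (hε0 k).le)⟩
      · rw [Measure.restrict_apply measurableSet_closedBall, inter_comm]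
        exact hgb z r hr hr'
    choose A hAm hAP hA using hA
    refine ⟨{ω | ∃ᶠ k in atTop, ω ∈ A k}, ?_, ?_, fun ω hω => ?_⟩
    · exact LB9a.measurableSet_frequently (m0 := pastSigma B' n) hAm
    · exact LB9a.le_measure_limsup (fun k => pastSigma_le hm' n _ (hAm k))
        (Eventually.of_forall hAP)
    · have ha4 : 0 < (a / 4).toReal :=
        ENNReal.toReal_pos (ENNReal.div_pos ha0 (by norm_num)).ne'
          (ENNReal.div_ne_top ha (by norm_num))
      have h4ne : a / 4 ≠ ⊤ := ENNReal.div_ne_top ha (by norm_num)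
      have hcε : Tendsto (fun k => |c4| * ε k + ε k) atTop (𝓝 0) := by
        simpa using (hε.const_mul |c4|).add hε
      refine LB9a.gaugeMeasure_KK_pos (W := driving κ B' ω) (n := n) hκ hκ8 hQc ha4 hC
        (LB8.side_pos k1) fun δ hδ => ?_
      obtain ⟨k, hk1, hk2⟩ :=
        ((show ∃ᶠ k in atTop, ω ∈ A k from hω).and_eventually
          (hcε.eventually (gt_mem_nhds hδ))).exists
      obtain ⟨ν, v1, v2, v3⟩ := hA k ω hk1
      refine ⟨ν, by rwa [ENNReal.ofReal_toReal h4ne], ?_, fun x r hr hr' => v3 x r (hδ.trans_le hr) hr'⟩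
      filter_upwards [v2] with z hz
      exact LB9a.SS_mono (by have := hε0 k; linarith) hz
  have hBr : IsBrownianReal B P := isBrownianReal_of_isBM hBM
  have key := lower_bound_event hκ hκ8 hBr hm hBM.cont hγ hn (y₀ := 1) one_pos
    (fun z hz => hz.2.1) (pos_iff_ne_zero.2 hc8) hev
  filter_upwards [key] with ω hω s t hs hst
  exact hω s t hs.le hst

end Crest.Agent.R162.ZO
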