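import Crest.Agent.R162.LB8t
import Crest.Agent.R162.LB8m
import Crest.Agent.R162.LB8b
import Crest.Agent.R162.LBInD
import Crest.Agent.R162.ZO5
import Crest.Agent.R162.LBSkel2

/-!
Row 162 (S0243), node LBTREE (helper310): end of the lower bound,
`Frost7 + MassAll ⟹ ZO.LBIn ⟹ Top.LBC`.
-/

set_option autoImplicit false

open MeasureTheory ProbabilityTheory Filter Topology Set Complex
open scoped NNReal ENNReal
open Crest.ProbabilityR.Loewner

namespace Crest.Agent.R162.LBTree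

open Crest.Agent.R162.FL Crest.Agent.R162.OS Crest.Agent.R162.LB Crest.Agent.R162.LBS

universe u

/-- **LB-IN**: the approximate occupation measures. -/
theorem lbIn_of {κ c1 : ℝ} (hκ : 0 < κ) (hκ8 : κ < 8) (hF : Frost7.{u} κ c1)
    (hM : MassAll.{u} κ c1) : ZO.LBIn.{u} κ := by
  obtain ⟨M, Cm, C3, r1, hM0, hr1, htail⟩ := LB8s.tail_of_frost7 hκ hκ8 hF
  obtain ⟨m0, ε₀, n, hm0, hε₀, hn, hmass⟩ := hM
  have hε : ∀ k : ℕ, 0 < ε₀ / ((k : ℝ) + 1) := fun k => by positivity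
  have hεle : ∀ k : ℕ, ε₀ / ((k : ℝ) + 1) ≤ ε₀ := fun k =>
    div_le_self hε₀.le (by linarith [Nat.cast_nonneg (α := ℝ) k])
  refine ⟨(n : ℝ≥0), ENNReal.ofReal m0 * volume LB8.Q0, Real.pi, M, Cm, C3, r1, 2,
    fun k => ε₀ / ((k : ℝ) + 1), by exact_mod_cast hn,
    mul_ne_zero (ENNReal.ofReal_pos.2 hm0).ne' LB8.volume_Q0_ne_zero,
    ENNReal.mul_ne_top ENNReal.ofReal_ne_top LB8.volume_Q0_ne_top, Real.pi_pos.le, hM0, hr1,
    hε, ?_, ?_⟩
  · have h1 : Tendsto (fun k : ℕ => ε₀ * (1 / ((k : ℝ) + 1))) atTop (𝓝 (ε₀ * 0)) :=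
      tendsto_one_div_add_atTop_nhds_zero_nat.const_mul ε₀
    rw [mul_zero] at h1
    refine h1.congr fun k => ?_
    ring
  · intro Ω _ P _ B h hB k
    have hcont : ∀ ω, ContinuousOn (driving κ B ω) (Ici 0) := fun ω =>
      (LB8s.driving_cont (hB.cont ω)).continuousOn
    set ε : ℝ := ε₀ / ((k : ℝ) + 1) with hεdef
    obtain ⟨h1, h2⟩ := LB8m.lbin_fields h hB κ κ ε c1 (n : ℝ≥0)
    refine ⟨fun ω => mu κ ε c1 (driving κ B ω) ((n : ℝ≥0) : ℝ), h1, h2, ?_, ?_, ?_, ?_⟩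
    · have e1 : ∀ ω, mu κ ε c1 (driving κ B ω) ((n : ℝ≥0) : ℝ) LB8.Q0 =
          ∫⁻ z in LB8.Q0, Ct κ ε c1 (driving κ B ω) ((n : ℝ≥0) : ℝ) z := fun ω => by
        rw [mu, withDensity_apply _ LB8.measurableSet_Q0]
      simp_rw [e1]
      rw [lintegral_lintegral_swap
        (LB8m.measurable_Ct_driving hB κ κ ε c1 ((n : ℝ≥0) : ℝ)).aemeasurable]
      calc ENNReal.ofReal m0 * volume LB8.Q0 = ∫⁻ _z in LB8.Q0, ENNReal.ofReal m0 :=
            (setLIntegral_const _ _).symm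
        _ ≤ _ := by
            refine setLIntegral_mono' LB8.measurableSet_Q0 fun z hz => ?_
            have := hmass ε (hε k) (hεle k) z hz Ω P _ B hB
            simpa using this
    · intro ω z _ r hr _
      have h3 := LBInD.mu_closedBall_le (c1 := c1) hκ hκ8 (hε k) (hcont ω)
        ((n : ℝ≥0) : ℝ) z hr.le
      have e : dimParam κ - 2 = κ / 8 - 1 := by unfold dimParam; ring
      rw [e]
      exact h3
    · intro z hz r hr hr' hM'
      exact htail Ω P _ B hB (n : ℝ≥0) ε (hε k) z hz r hr hr' hM'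
    · intro ω
      have hmeasC : Measurable fun z => Ct κ ε c1 (driving κ B ω) ((n : ℝ≥0) : ℝ) z :=
        LB8m.measurable_Ct_det κ ε c1 ((hcont ω).mono fun _ hs => hs.1)
      have h0 : ∀ᵐ z ∂(mu κ ε c1 (driving κ B ω) ((n : ℝ≥0) : ℝ)),
          Ct κ ε c1 (driving κ B ω) ((n : ℝ≥0) : ℝ) z ≠ 0 := by
        rw [mu, ae_withDensity_iff hmeasC]
        exact Eventually.of_forall fun z hz => hz
      filter_upwards [h0] with z hz _
      obtain ⟨u, hu, ha, _, hle, _⟩ := LBInD.exists_of_Ct_ne_zero (hε k) hz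
      exact ⟨u, ⟨hu.1.le, hu.2⟩, ha, hle⟩

/-- **Lower bound**, from the content tail and the mean mass. -/
theorem lbc_of {κ c1 : ℝ} (hκ : 0 < κ) (hκ8 : κ < 8) (hF : Frost7.{u} κ c1)
    (hM : MassAll.{u} κ c1) : Top.LBC.{u} κ :=
  ZO.lbc_of hκ hκ8 (lbIn_of hκ hκ8 hF hM)

end Crest.Agent.R162.LBTree
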