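import Crest.Agent.R162.LBPk744
import Crest.Agent.R162.LBTree
import Crest.Agent.R162.Frost7

/-!
Row 162 (S0243): the lower bound from the mean mass (helper744, composition of the nodes only).
-/

set_option autoImplicit false

namespace Crest.Agent.R162.LBEnd

universe u

theorem frost7 {κ c1 : ℝ} (hκ : 0 < κ) (hκ8 : κ < 8) (hc1 : 0 < c1) (hc11 : c1 < 1) :
    LBS.Frost7.{u} κ c1 :=
  Frost7.frost7_of hκ hκ8 (LBPk744.expAll hκ hκ8 hc1 hc11)

theorem lbc_of_mass {κ c1 : ℝ} (hκ : 0 < κ) (hκ8 : κ < 8) (hc1 : 0 < c1) (hc11 : c1 < 1)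
    (hM : LBS.MassAll.{u} κ c1) : Top.LBC.{u} κ :=
  LBTree.lbc_of hκ hκ8 (frost7 hκ hκ8 hc1 hc11) hM

end Crest.Agent.R162.LBEnd
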