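import Crest.Agent.R162.OSDefs
import Crest.Agent.R162.LB5
import Crest.Agent.R162.LBbc

/-!
Row 162 (S0243), LB-EXP part 2 (helper384): the path stopped at a stopping time, as an
`F_σ`-measurable map into the path space.
-/

set_option autoImplicit false

open MeasureTheory ProbabilityTheory Set
open scoped NNReal ENNReal

namespace Crest.Agent.R162.LBStop

open Crest.Agent.R162.OS Crest.Agent.R162.LBI

variable {Ω : Type*} {m : MeasurableSpace Ω} {P : Measure Ω} {F : Filtration ℝ≥0 m}
  {B : ℝ≥0 → Ω → ℝ} {σ : Ω → ℝ≥0}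

abbrev PathSp := {f : ℝ≥0 → ℝ // Continuous f}

/-- `min σ r` is `F r`-measurable -/
theorem measurable_min (hσ : IsST F σ) (r : ℝ≥0) : Measurable[F r] (fun ω => min (σ ω) r) := by
  let _ : MeasurableSpace Ω := F r
  refine measurable_of_Iic fun a => ?_
  by_cases h : r ≤ a
  · have e : (fun ω => min (σ ω) r) ⁻¹' Iic a = univ := by
      ext ω
      simp only [mem_preimage, mem_Iic, mem_univ, iff_true]
      exact (min_le_right _ _).trans h
    rw [e]
    exact MeasurableSet.univ
  · push Not at h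
    have e : (fun ω => min (σ ω) r) ⁻¹' Iic a = {ω | σ ω ≤ a} := by
      ext ω
      simp only [mem_preimage, mem_Iic, mem_ofPred_eq, min_le_iff, or_iff_left_iff_imp]
      intro h2
      exact absurd h2 (not_le.2 h)
    rw [e]
    exact F.mono h.le _ (hσ a)

/-- the value at a time `≤ r` which is `F r`-measurable -/
theorem measurable_eval (hB : IsBM F B P) (r : ℝ≥0) {τ : Ω → ℝ≥0} (hτ : Measurable[F r] τ)
    (hle : ∀ ω, τ ω ≤ r) : Measurable[F r] (fun ω => B (τ ω) ω) := by
  let _ : MeasurableSpace Ω := F r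
  have h1 : Measurable (Function.uncurry fun (s : ℝ≥0) (ω : Ω) => B (min s r) ω) := by
    refine measurable_uncurry_of_continuous_of_measurable (fun ω => ?_) (fun s => ?_)
    · exact (hB.cont ω).comp (continuous_id.min continuous_const)
    · exact (hB.adapted (min s r)).mono (F.mono (min_le_right _ _)) le_rfl
  have h2 : Measurable fun ω => (τ ω, ω) := hτ.prodMk measurable_id
  have h3 := h1.comp h2
  have e : (fun ω => B (τ ω) ω) = (Function.uncurry fun (s : ℝ≥0) (ω : Ω) => B (min s r) ω) ∘
      fun ω => (τ ω, ω) := by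
    funext ω
    simp only [Function.comp_apply, Function.uncurry_apply_pair, min_eq_left (hle ω)]
  rw [e]
  exact h3

/-- the stopped path -/
def stp (p : ℝ≥0 → ℝ) (s : ℝ≥0) : ℝ≥0 → ℝ := fun t => p (min t s)

theorem continuous_stp {p : ℝ≥0 → ℝ} (hp : Continuous p) (s : ℝ≥0) : Continuous (stp p s) :=
  hp.comp (continuous_id.min continuous_const)

theorem measurable_stSigma_iff {E : Type*} [MeasurableSpace E] (hσ : IsST F σ) {Y : Ω → E} :
    Measurable[stSigma F σ hσ] Y ↔ ∀ D, MeasurableSet D → EvST F σ (Y ⁻¹' D) := Iff.rfl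

/-- the stopping time is measurable with respect to its past -/
theorem measurable_self (hσ : IsST F σ) : Measurable[stSigma F σ hσ] σ := by
  let _ : MeasurableSpace Ω := stSigma F σ hσ
  refine measurable_of_Iic fun a => ?_
  change EvST F σ (σ ⁻¹' Iic a)
  intro t
  have e : (σ ⁻¹' Iic a) ∩ {ω | σ ω ≤ t} = {ω | σ ω ≤ min a t} := by
    ext ω
    simp only [mem_inter_iff, mem_preimage, mem_Iic, mem_ofPred_eq, le_min_iff]
  rw [e]
  exact F.mono (min_le_right _ _) _ (hσ _)

/-- the value of the stopped path at time `t` is `F_σ`-measurable -/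
theorem measurable_stp_eval (hB : IsBM F B P) (hσ : IsST F σ) (t : ℝ≥0) :
    Measurable[stSigma F σ hσ] (fun ω => B (min t (σ ω)) ω) := by
  intro D hD r
  have h1 : Measurable[F r] (fun ω => B (min t (min (σ ω) r)) ω) := by
    refine measurable_eval hB r ?_ (fun ω => (min_le_right _ _).trans (min_le_right _ _))
    have h0 := measurable_min hσ r
    let _ : MeasurableSpace Ω := F r
    exact measurable_const.min h0
  have e : ((fun ω => B (min t (σ ω)) ω) ⁻¹' D) ∩ {ω | σ ω ≤ r} =
      ((fun ω => B (min t (min (σ ω) r)) ω) ⁻¹' D) ∩ {ω | σ ω ≤ r} := by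
    ext ω
    simp only [mem_inter_iff, mem_preimage, mem_ofPred_eq]
    constructor
    · rintro ⟨h2, h3⟩
      rw [min_eq_left h3]
      exact ⟨h2, h3⟩
    · rintro ⟨h2, h3⟩
      rw [min_eq_left h3] at h2
      exact ⟨h2, h3⟩
  rw [e]
  exact @MeasurableSet.inter _ (F r) _ _ (h1 hD) (hσ r)

/-- the stopped path and the stopping time -/
def Y (hB : IsBM F B P) (σ : Ω → ℝ≥0) (ω : Ω) : PathSp × ℝ≥0 :=
  (⟨stp (fun t => B t ω) (σ ω), continuous_stp (hB.cont ω) _⟩, σ ω)

theorem measurable_Y (hB : IsBM F B P) (hσ : IsST F σ) :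
    Measurable[stSigma F σ hσ] (Y hB σ) := by
  let _ : MeasurableSpace Ω := stSigma F σ hσ
  refine Measurable.prodMk ?_ (measurable_self hσ)
  refine Measurable.subtype_mk ?_
  exact measurable_pi_lambda _ fun t => measurable_stp_eval hB hσ t

end Crest.Agent.R162.LBStop
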