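import Crest.Agent.R162.OSDefs

/-!
Row 162, node LB-SMK (helper426): resampling of Brownian motion after a stopping time.
-/

set_option autoImplicit false

open MeasureTheory ProbabilityTheory Filter Topology Set
open scoped NNReal ENNReal

noncomputable section

namespace Crest.Agent.R162.SMK

open Crest.Agent.R162.OS

variable {Ω : Type*} {m : MeasurableSpace Ω} {P : Measure Ω}
  {F : Filtration ℝ≥0 m} {B : ℝ≥0 → Ω → ℝ}

lemma meas (hB : IsBM F B P) (t : ℝ≥0) : Measurable (B t) := (hB.adapted t).mono (F.le t) le_rfl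

lemma isProb (hB : IsBM F B P) : IsProbabilityMeasure P := by
  have h := hB.law 0 0
  have h2 : (P.map (fun ω => B (0 + 0) ω - B 0 ω)) Set.univ = 1 := by
    rw [h]; exact measure_univ
  have hm : Measurable (fun ω => B (0 + 0) ω - B 0 ω) := (meas hB _).sub (meas hB _)
  rw [Measure.map_apply hm MeasurableSet.univ] at h2
  exact ⟨by simpa using h2⟩

/-- increments -/
lemma hasIndepIncrements (hB : IsBM F B P) : HasIndepIncrements B P := by
  have := isProb hB
  refine HasIndepIncrements.of_nat fun t ht _ => ?_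
  rw [iIndepFun_iff_measure_inter_preimage_eq_mul]
  intro S sets hS
  induction S using Finset.induction_on_max with
  | empty => simp
  | insert a s hlt ih =>
    have hna : a ∉ s := fun h => lt_irrefl _ (hlt a h)
    rw [Finset.prod_insert hna, Finset.set_biInter_insert]
    rw [← ih (fun i hi => hS i (Finset.mem_insert_of_mem hi))]
    have hind := hB.indep (t a)
    rw [ProbabilityTheory.Indep_iff] at hind
    refine hind _ _ ?_ ?_
    · -- measurable for the comap
      have hle : t a ≤ t (a + 1) := ht (Nat.le_succ a)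
      refine ⟨(fun x : ℝ≥0 → ℝ => x (t (a + 1) - t a)) ⁻¹' (sets a), ?_, ?_⟩
      · exact measurable_pi_apply _ (hS a (Finset.mem_insert_self _ _))
      · ext ω
        simp only [Set.mem_preimage]
        rw [add_tsub_cancel_of_le hle]
    · refine Finset.measurableSet_biInter s fun i hi => ?_
      have hi' : i + 1 ≤ a := hlt i hi
      have h1 : Measurable[F (t a)] (B (t (i + 1))) :=
        (hB.adapted _).mono (F.mono (ht hi')) le_rfl
      have h2 : Measurable[F (t a)] (B (t i)) :=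
        (hB.adapted _).mono (F.mono (ht ((Nat.le_succ i).trans hi'))) le_rfl
      exact (h1.sub h2) (hS i (Finset.mem_insert_of_mem hi))

lemma pre (hB : IsBM F B P) : IsPreBrownianReal B P := by
  have := isProb hB
  refine HasIndepIncrements.isPreBrownianReal_of_hasLaw (fun t => ?_) (hasIndepIncrements hB)
  refine ⟨(meas hB t).aemeasurable, ?_⟩
  have h := hB.law 0 t
  rw [← h]
  congr 1
  funext ω
  simp [hB.zero ω]

/-- the law of a Brownian motion on the product space -/
lemma law_pi_eq {Ω' : Type*} {m' : MeasurableSpace Ω'} {P' : Measure Ω'}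
    {X : ℝ≥0 → Ω → ℝ} {X' : ℝ≥0 → Ω' → ℝ} (hB : IsPreBrownianReal X P)
    (hB' : IsPreBrownianReal X' P') (hm : ∀ t, Measurable (X t)) (hm' : ∀ t, Measurable (X' t)) :
    P.map (fun ω t => X t ω) = P'.map (fun ω t => X' t ω) := by
  have h1 : IsProjectiveLimit (P.map (fun ω t => X t ω))
      (fun I ↦ P.map (fun ω ↦ I.restrict (X · ω))) :=
    isProjectiveLimit_map (measurable_pi_lambda _ hm).aemeasurable
  have h2 : IsProjectiveLimit (P'.map (fun ω t => X' t ω))
      (fun I ↦ P'.map (fun ω ↦ I.restrict (X' · ω))) :=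
    isProjectiveLimit_map (measurable_pi_lambda _ hm').aemeasurable
  have e : (fun I : Finset ℝ≥0 ↦ P.map (fun ω ↦ I.restrict (X · ω)))
      = (fun I ↦ P'.map (fun ω ↦ I.restrict (X' · ω))) := by
    funext I
    rw [(hB.hasLaw I).map_eq, (hB'.hasLaw I).map_eq]
  rw [e] at h1
  have : ∀ I : Finset ℝ≥0, IsFiniteMeasure (P'.map (fun ω ↦ I.restrict (X' · ω))) := by
    intro I
    rw [(hB'.hasLaw I).map_eq]
    infer_instance
  exact h1.unique h2

/-- post-`s` process -/
def post (B : ℝ≥0 → Ω → ℝ) (s : ℝ≥0) (ω : Ω) : ℝ≥0 → ℝ := fun u => B (s + u) ω - B s ω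

lemma measurable_post (hB : IsBM F B P) (s : ℝ≥0) : Measurable (post B s) :=
  measurable_pi_lambda _ fun _ => (meas hB _).sub (meas hB _)

lemma post_law {Ω' : Type*} {m' : MeasurableSpace Ω'} {P' : Measure Ω'}
    {F' : Filtration ℝ≥0 m'} {B' : ℝ≥0 → Ω' → ℝ} (hB : IsBM F B P) (hB' : IsBM F' B' P')
    (s : ℝ≥0) : P.map (post B s) = P'.map (fun ω t => B' t ω) :=
  law_pi_eq (X := fun u ω => B (s + u) ω - B s ω) ((pre hB).shift s) (pre hB')
    (fun _ => (meas hB _).sub (meas hB _)) (meas hB')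


/-- concatenation of a path before `s` with a fresh path after `s` -/
def cat (b : ℝ≥0 → ℝ) (s : ℝ≥0) (w : ℝ≥0 → ℝ) : ℝ≥0 → ℝ := fun t => b (min t s) + w (t - s)

lemma cat_post (B : ℝ≥0 → Ω → ℝ) (s : ℝ≥0) (ω : Ω) :
    cat (fun t => B t ω) s (post B s ω) = fun t => B t ω := by
  funext t
  unfold cat post
  rcases le_total t s with h | h
  · rw [min_eq_left h, tsub_eq_zero_of_le h, add_zero, sub_self, add_zero]
  · rw [min_eq_right h, add_tsub_cancel_of_le h]; ring

lemma cat_of_le {b w : ℝ≥0 → ℝ} (hw : w 0 = 0) {s t : ℝ≥0} (h : t ≤ s) : cat b s w t = b t := by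
  unfold cat
  rw [min_eq_left h, tsub_eq_zero_of_le h, hw, add_zero]

lemma cat_add {b w : ℝ≥0 → ℝ} (s u : ℝ≥0) : cat b s w (s + u) = b s + w u := by
  unfold cat
  rw [min_eq_right le_self_add, add_tsub_cancel_left]

lemma continuous_cat {b w : ℝ≥0 → ℝ} (hb : Continuous b) (hw : Continuous w) (s : ℝ≥0) :
    Continuous (cat b s w) := by
  unfold cat
  have h1 : Continuous fun t : ℝ≥0 => t - s := continuous_id.sub continuous_const
  exact (hb.comp (continuous_id.min continuous_const)).add (hw.comp h1)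

/-- the pair (time, path) as a function on `Option ℝ≥0` -/
def full (s : ℝ≥0) (b : ℝ≥0 → ℝ) : Option ℝ≥0 → ℝ := fun o => o.elim (s : ℝ) b

variable {Ω' : Type*} {m' : MeasurableSpace Ω'} {P' : Measure Ω'}
    {F' : Filtration ℝ≥0 m'} {B' : ℝ≥0 → Ω' → ℝ}

lemma fixed (hB : IsBM F B P) (hB' : IsBM F' B' P') (s : ℝ≥0) {A : Set Ω}
    (hA : MeasurableSet[F s] A) (g : (ℝ≥0 → ℝ) × (ℝ≥0 → ℝ) → ℝ≥0∞) (hg : Measurable g) :
    ∫⁻ ω in A, g (fun t => B (min t s) ω, post B s ω) ∂P =
      ∫⁻ ω in A, ∫⁻ ω', g (fun t => B (min t s) ω, fun t => B' t ω') ∂P' ∂P := by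
  have := isProb hB
  have := isProb hB'
  have hAm : MeasurableSet A := F.le s _ hA
  let W : Ω → ℝ≥0∞ × (ℝ≥0 → ℝ) := fun ω => (A.indicator (fun _ => 1) ω, fun t => B (min t s) ω)
  have hWF : Measurable[F s] W := by
    have h1 : Measurable[F s] (A.indicator fun _ => (1 : ℝ≥0∞)) :=
      Measurable.indicator (@measurable_const _ _ _ (F s) (1 : ℝ≥0∞)) hA
    have h2 : Measurable[F s] (fun ω (t : ℝ≥0) => B (min t s) ω) :=
      @measurable_pi_lambda _ _ _ (F s) _ _ fun t =>
        (hB.adapted _).mono (F.mono (min_le_right t s)) le_rfl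
    exact h1.prodMk h2
  have hW : Measurable W := hWF.mono (F.le s) le_rfl
  have hV : Measurable (post B s) := measurable_post hB s
  have hind : IndepFun W (post B s) P := by
    have h1 : Indep (F s) (MeasurableSpace.comap (post B s) MeasurableSpace.pi) P :=
      (hB.indep s).symm
    exact indep_of_indep_of_le_left h1 hWF.comap_le
  have hmap : P.map (fun ω => (W ω, post B s ω)) = (P.map W).prod (P.map (post B s)) :=
    (indepFun_iff_map_prod_eq_prod_map_map hW.aemeasurable hV.aemeasurable).1 hind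
  let G : (ℝ≥0∞ × (ℝ≥0 → ℝ)) × (ℝ≥0 → ℝ) → ℝ≥0∞ := fun p => p.1.1 * g (p.1.2, p.2)
  have hG : Measurable G := by
    refine (measurable_fst.comp measurable_fst).mul (hg.comp ?_)
    exact (measurable_snd.comp measurable_fst).prodMk measurable_snd
  have hB'm : Measurable (fun ω' (t : ℝ≥0) => B' t ω') := measurable_pi_lambda _ (meas hB')
  have e1 : ∫⁻ ω in A, g (fun t => B (min t s) ω, post B s ω) ∂P
      = ∫⁻ p, G p ∂(P.map (fun ω => (W ω, post B s ω))) := by
    rw [lintegral_map hG (hW.prodMk hV), ← lintegral_indicator hAm]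
    refine lintegral_congr fun ω => ?_
    by_cases h : ω ∈ A <;> simp [G, W, h]
  rw [e1, hmap, lintegral_prod _ hG.aemeasurable, lintegral_map (hG.lintegral_prod_right') hW,
    ← lintegral_indicator hAm]
  refine lintegral_congr fun ω => ?_
  rw [post_law hB hB' s, lintegral_map (f := fun y => G (W ω, y))
    (hG.comp measurable_prodMk_left) hB'm]
  by_cases h : ω ∈ A <;> simp [G, W, h]

lemma fixed' (hB : IsBM F B P) (hB' : IsBM F' B' P') (s : ℝ≥0) {A : Set Ω}
    (hA : MeasurableSet[F s] A) (f : (Option ℝ≥0 → ℝ) → ℝ≥0∞) (hf : Measurable f) :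
    ∫⁻ ω in A, f (full s (fun t => B t ω)) ∂P =
      ∫⁻ ω in A, ∫⁻ ω', f (full s (cat (fun t => B t ω) s (fun t => B' t ω'))) ∂P' ∂P := by
  let g : (ℝ≥0 → ℝ) × (ℝ≥0 → ℝ) → ℝ≥0∞ := fun p => f (full s (fun t => p.1 t + p.2 (t - s)))
  have hg : Measurable g := by
    refine hf.comp (measurable_pi_lambda _ fun o => ?_)
    cases o with
    | none => exact measurable_const
    | some t =>
      exact ((measurable_pi_apply t).comp measurable_fst).add
        ((measurable_pi_apply (t - s)).comp measurable_snd)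
  have h := fixed hB hB' s hA g hg
  have e1 : ∀ ω, g (fun t => B (min t s) ω, post B s ω) = f (full s (fun t => B t ω)) := by
    intro ω
    have := cat_post B s ω
    simp only [g]
    congr 2
  have e2 : ∀ ω ω', g (fun t => B (min t s) ω, fun t => B' t ω')
      = f (full s (cat (fun t => B t ω) s (fun t => B' t ω'))) := fun ω ω' => rfl
  simp only [e1, e2] at h
  exact h

lemma measurableSet_of_EvST {σ : Ω → ℝ≥0} {A : Set Ω} (hA : EvST F σ A) : MeasurableSet A := by
  have : A = ⋃ n : ℕ, A ∩ {ω | σ ω ≤ (n : ℝ≥0)} := by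
    ext ω
    simp only [mem_iUnion, mem_inter_iff, mem_ofPred_eq]
    constructor
    · intro h
      obtain ⟨n, hn⟩ := exists_nat_ge (σ ω)
      exact ⟨n, h, hn⟩
    · rintro ⟨n, h, -⟩; exact h
  rw [this]
  exact MeasurableSet.iUnion fun n => F.le _ _ (hA n)

lemma measurable_of_IsST {σ : Ω → ℝ≥0} (hσ : IsST F σ) : Measurable σ :=
  measurable_of_Iic fun t => F.le t _ (hσ t)

/-- dyadic approximation from above -/
def dn (n : ℕ) (x : ℝ≥0) : ℝ≥0 := (⌈2 ^ n * x⌉₊ : ℝ≥0) / 2 ^ n

lemma le_dn (n : ℕ) (x : ℝ≥0) : x ≤ dn n x := by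
  unfold dn
  rw [le_div_iff₀ (by positivity), mul_comm]
  exact Nat.le_ceil _

lemma dn_le (n : ℕ) (x : ℝ≥0) : dn n x ≤ x + 1 / 2 ^ n := by
  unfold dn
  rw [div_le_iff₀ (by positivity), add_mul, one_div, inv_mul_cancel₀ (by positivity), mul_comm x]
  exact (Nat.ceil_lt_add_one (by positivity)).le

lemma tendsto_dn (x : ℝ≥0) : Tendsto (fun n => dn n x) atTop (𝓝 x) := by
  have h : Tendsto (fun n : ℕ => x + 1 / 2 ^ n) atTop (𝓝 (x + 0)) := by
    refine tendsto_const_nhds.add ?_
    have := NNReal.tendsto_pow_atTop_nhds_zero_of_lt_one (r := (1 / 2 : ℝ≥0)) (by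
      rw [← NNReal.coe_lt_coe]; norm_num)
    refine this.congr fun n => ?_
    rw [one_div_pow]
  rw [add_zero] at h
  exact tendsto_of_tendsto_of_tendsto_of_le_of_le tendsto_const_nhds h (fun n => le_dn n x)
    fun n => dn_le n x

lemma dn_level {σ : Ω → ℝ≥0} {A : Set Ω} (hA : EvST F σ A) (n k : ℕ) :
    MeasurableSet[F ((k : ℝ≥0) / 2 ^ n)] (A ∩ {ω | ⌈2 ^ n * σ ω⌉₊ = k}) := by
  cases k with
  | zero =>
    have : A ∩ {ω | ⌈2 ^ n * σ ω⌉₊ = 0} = A ∩ {ω | σ ω ≤ ((0 : ℕ) : ℝ≥0) / 2 ^ n} := by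
      ext ω
      simp
    rw [this]
    exact hA _
  | succ k =>
    have hle : ((k : ℝ≥0) / 2 ^ n) ≤ ((k + 1 : ℕ) : ℝ≥0) / 2 ^ n := by
      gcongr; simp
    have : A ∩ {ω | ⌈2 ^ n * σ ω⌉₊ = k + 1} =
        (A ∩ {ω | σ ω ≤ ((k + 1 : ℕ) : ℝ≥0) / 2 ^ n}) \ (A ∩ {ω | σ ω ≤ (k : ℝ≥0) / 2 ^ n}) := by
      ext ω
      simp only [mem_inter_iff, mem_ofPred_eq, Set.mem_sdiff, not_and, not_le]
      have e1 : σ ω ≤ ((k + 1 : ℕ) : ℝ≥0) / 2 ^ n ↔ ⌈2 ^ n * σ ω⌉₊ ≤ k + 1 := by
        rw [le_div_iff₀ (by positivity), mul_comm, Nat.ceil_le]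
      have e2 : (k : ℝ≥0) / 2 ^ n < σ ω ↔ k < ⌈2 ^ n * σ ω⌉₊ := by
        rw [div_lt_iff₀ (by positivity), mul_comm, Nat.lt_ceil]
      rw [e1, e2]
      constructor
      · rintro ⟨h1, h2⟩
        exact ⟨⟨h1, h2.le⟩, fun _ => by omega⟩
      · rintro ⟨⟨h1, h2⟩, h3⟩
        exact ⟨h1, by have := h3 h1; omega⟩
    rw [this]
    exact (hA _).diff (F.mono hle _ (hA _))

lemma dyadic (hB : IsBM F B P) (hB' : IsBM F' B' P') {σ : Ω → ℝ≥0}
    {A : Set Ω} (hA : EvST F σ A) (n : ℕ) (f : (Option ℝ≥0 → ℝ) → ℝ≥0∞) (hf : Measurable f) :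
    ∫⁻ ω in A, f (full (dn n (σ ω)) (fun t => B t ω)) ∂P =
      ∫⁻ ω in A, ∫⁻ ω', f (full (dn n (σ ω))
        (cat (fun t => B t ω) (dn n (σ ω)) (fun t => B' t ω'))) ∂P' ∂P := by
  have hAU : A = ⋃ k : ℕ, A ∩ {ω | ⌈2 ^ n * σ ω⌉₊ = k} := by
    ext ω; simp
  have hmk : ∀ k : ℕ, MeasurableSet (A ∩ {ω | ⌈2 ^ n * σ ω⌉₊ = k}) := fun k =>
    F.le _ _ (dn_level hA n k)
  have hdisj : Pairwise (Function.onFun Disjoint fun k : ℕ => A ∩ {ω | ⌈2 ^ n * σ ω⌉₊ = k}) := by
    intro i j hij
    rw [Function.onFun, Set.disjoint_left]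
    rintro ω ⟨-, h1⟩ ⟨-, h2⟩
    exact hij (h1.symm.trans h2)
  rw [hAU, lintegral_iUnion hmk hdisj, lintegral_iUnion hmk hdisj]
  refine tsum_congr fun k => ?_
  have h := fixed' hB hB' ((k : ℝ≥0) / 2 ^ n) (dn_level hA n k) f hf
  rw [setLIntegral_congr_fun (hmk k) (g := fun ω => f (full ((k : ℝ≥0) / 2 ^ n) (fun t => B t ω)))
    (by rintro ω ⟨-, hω⟩; simp only [mem_ofPred_eq] at hω; simp only [dn, hω]), h]
  refine setLIntegral_congr_fun (hmk k) ?_
  rintro ω ⟨-, hω⟩
  simp only [mem_ofPred_eq] at hω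
  simp only [dn, hω]


lemma measurable_eval (hB : IsBM F B P) {α : Type*} {mα : MeasurableSpace α} {τ : α → ℝ≥0}
    {φ : α → Ω} (hτ : Measurable τ) (hφ : Measurable φ) : Measurable fun a => B (τ a) (φ a) := by
  have h : Measurable (Function.uncurry B) :=
    measurable_uncurry_of_continuous_of_measurable hB.cont (meas hB)
  exact h.comp (hτ.prodMk hφ)

lemma measurable_cat (hB : IsBM F B P) (hB' : IsBM F' B' P') {σ : Ω → ℝ≥0} (hσ : Measurable σ) :
    Measurable fun p : Ω × Ω' => cat (fun t => B t p.1) (σ p.1) (fun t => B' t p.2) := by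
  refine measurable_pi_lambda _ fun t => ?_
  unfold cat
  refine (measurable_eval hB (measurable_const.min (hσ.comp measurable_fst)) measurable_fst).add ?_
  exact measurable_eval hB' (measurable_const.sub (hσ.comp measurable_fst)) measurable_snd

lemma measurable_full {α : Type*} {mα : MeasurableSpace α} {τ : α → ℝ≥0} {X : α → ℝ≥0 → ℝ}
    (hτ : Measurable τ) (hX : Measurable X) : Measurable fun a => full (τ a) (X a) := by
  refine measurable_pi_lambda _ fun o => ?_
  cases o with
  | none => exact hτ.coe_nnreal_real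
  | some t => exact (measurable_pi_apply t).comp hX

lemma measurable_path (hB : IsBM F B P) : Measurable fun ω (t : ℝ≥0) => B t ω :=
  measurable_pi_lambda _ (meas hB)

open BoundedContinuousFunction in
lemma marginal (hB : IsBM F B P) (hB' : IsBM F' B' P') {σ : Ω → ℝ≥0} (hσ : Measurable σ)
    {A : Set Ω} (hA : EvST F σ A) (I : Finset (Option ℝ≥0)) (f : (I → ℝ) →ᵇ ℝ≥0) :
    ∫⁻ ω in A, f (I.restrict (full (σ ω) (fun t => B t ω))) ∂P =
      ∫⁻ p, f (I.restrict (full (σ p.1) (cat (fun t => B t p.1) (σ p.1) (fun t => B' t p.2))))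
        ∂((P.restrict A).prod P') := by
  have := isProb hB
  have := isProb hB'
  have hdn : ∀ n, Measurable fun ω => dn n (σ ω) := by
    intro n
    unfold dn
    refine Measurable.div_const ?_ _
    exact (measurable_from_nat (f := fun k : ℕ => (k : ℝ≥0))).comp
      (Nat.measurable_ceil.comp (hσ.const_mul _))
  have hrest : Measurable (I.restrict (π := fun _ : Option ℝ≥0 => ℝ)) :=
    measurable_pi_lambda _ fun i => measurable_pi_apply _
  have hf : Measurable fun x : I → ℝ => (f x : ℝ≥0∞) :=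
    measurable_coe_nnreal_ennreal.comp f.continuous.measurable
  have hbd : ∀ x : I → ℝ, (f x : ℝ≥0∞) ≤ ((nndist f 0 : ℝ≥0) : ℝ≥0∞) := fun x =>
    ENNReal.coe_le_coe.2 (BoundedContinuousFunction.NNReal.upper_bound f x)
  have hmcat : ∀ τ : Ω → ℝ≥0, Measurable τ → Measurable fun p : Ω × Ω' =>
      (f (I.restrict (full (τ p.1) (cat (fun t => B t p.1) (τ p.1) (fun t => B' t p.2)))) : ℝ≥0∞) :=
    fun τ hτ => hf.comp (hrest.comp
      (measurable_full (hτ.comp measurable_fst) (measurable_cat hB hB' hτ)))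
  have hmB : ∀ τ : Ω → ℝ≥0, Measurable τ → Measurable fun ω =>
      (f (I.restrict (full (τ ω) (fun t => B t ω))) : ℝ≥0∞) :=
    fun τ hτ => hf.comp (hrest.comp (measurable_full hτ (measurable_path hB)))
  -- the identity at level n
  have hn : ∀ n, ∫⁻ ω in A, f (I.restrict (full (dn n (σ ω)) (fun t => B t ω))) ∂P =
      ∫⁻ p, f (I.restrict (full (dn n (σ p.1))
        (cat (fun t => B t p.1) (dn n (σ p.1)) (fun t => B' t p.2)))) ∂((P.restrict A).prod P') := by
    intro n
    rw [lintegral_prod _ (hmcat _ (hdn n)).aemeasurable]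
    exact dyadic hB hB' hA n (fun x => (f (I.restrict x) : ℝ≥0∞)) (hf.comp hrest)
  -- limits
  have hL : Tendsto (fun n => ∫⁻ ω in A, f (I.restrict (full (dn n (σ ω)) (fun t => B t ω))) ∂P)
      atTop (𝓝 (∫⁻ ω in A, f (I.restrict (full (σ ω) (fun t => B t ω))) ∂P)) := by
    refine tendsto_lintegral_of_dominated_convergence
      (fun _ => ((nndist f 0 : ℝ≥0) : ℝ≥0∞)) (fun n => hmB _ (hdn n))
      (fun n => ae_of_all _ fun ω => hbd _) ?_ (ae_of_all _ fun ω => ?_)
    · rw [lintegral_const]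
      exact ENNReal.mul_ne_top ENNReal.coe_ne_top (measure_ne_top _ _)
    · refine (ENNReal.continuous_coe.tendsto _).comp ((f.continuous.tendsto _).comp ?_)
      rw [tendsto_pi_nhds]
      rintro ⟨o, ho⟩
      cases o with
      | none => exact (NNReal.tendsto_coe.2 (tendsto_dn (σ ω)))
      | some t => exact tendsto_const_nhds
  have hR : Tendsto (fun n => ∫⁻ p, f (I.restrict (full (dn n (σ p.1))
        (cat (fun t => B t p.1) (dn n (σ p.1)) (fun t => B' t p.2)))) ∂((P.restrict A).prod P'))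
      atTop (𝓝 (∫⁻ p, f (I.restrict (full (σ p.1)
        (cat (fun t => B t p.1) (σ p.1) (fun t => B' t p.2)))) ∂((P.restrict A).prod P'))) := by
    refine tendsto_lintegral_of_dominated_convergence
      (fun _ => ((nndist f 0 : ℝ≥0) : ℝ≥0∞)) (fun n => hmcat _ (hdn n))
      (fun n => ae_of_all _ fun p => hbd _) ?_ (ae_of_all _ fun p => ?_)
    · rw [lintegral_const]
      exact ENNReal.mul_ne_top ENNReal.coe_ne_top (measure_ne_top _ _)
    · refine (ENNReal.continuous_coe.tendsto _).comp ((f.continuous.tendsto _).comp ?_)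
      rw [tendsto_pi_nhds]
      rintro ⟨o, ho⟩
      have hd := tendsto_dn (σ p.1)
      cases o with
      | none => exact (NNReal.tendsto_coe.2 hd)
      | some t =>
        refine Tendsto.add ?_ ?_
        · exact ((hB.cont p.1).tendsto _).comp (tendsto_const_nhds.min hd)
        · exact ((hB'.cont p.2).tendsto _).comp (tendsto_const_nhds.sub hd)
  simp only [hn] at hL
  exact tendsto_nhds_unique hL hR

lemma lint_map_map (I : Finset (Option ℝ≥0)) (g : (I → ℝ) → ℝ≥0∞) (hg : Measurable g)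
    {α : Type*} {mα : MeasurableSpace α} (μ : Measure α) {X : α → Option ℝ≥0 → ℝ}
    (hX : Measurable X) :
    ∫⁻ x, g x ∂((μ.map X).map (I.restrict (π := fun _ : Option ℝ≥0 => ℝ))) =
      ∫⁻ a, g (I.restrict (X a)) ∂μ := by
  have hr : Measurable (I.restrict (π := fun _ : Option ℝ≥0 => ℝ)) :=
    measurable_pi_lambda _ fun i => measurable_pi_apply _
  rw [Measure.map_map hr hX]
  exact lintegral_map (f := g) hg (hr.comp hX)

lemma law_full (hB : IsBM F B P) (hB' : IsBM F' B' P') {σ : Ω → ℝ≥0} (hσ : Measurable σ)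
    {A : Set Ω} (hA : EvST F σ A) :
    (P.restrict A).map (fun ω => full (σ ω) (fun t => B t ω)) =
      ((P.restrict A).prod P').map (fun p => full (σ p.1)
        (cat (fun t => B t p.1) (σ p.1) (fun t => B' t p.2))) := by
  have := isProb hB
  have := isProb hB'
  have hrest : ∀ I : Finset (Option ℝ≥0), Measurable (I.restrict (π := fun _ : Option ℝ≥0 => ℝ)) :=
    fun I => measurable_pi_lambda _ fun i => measurable_pi_apply _
  have h1 : Measurable fun ω => full (σ ω) (fun t => B t ω) :=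
    measurable_full hσ (measurable_path hB)
  have h2 : Measurable fun p : Ω × Ω' => full (σ p.1)
        (cat (fun t => B t p.1) (σ p.1) (fun t => B' t p.2)) :=
    measurable_full (hσ.comp measurable_fst) (measurable_cat hB hB' hσ)
  refine IsProjectiveLimit.unique (P := fun I : Finset (Option ℝ≥0) =>
    ((P.restrict A).map (fun ω => full (σ ω) (fun t => B t ω))).map I.restrict)
    (fun I => rfl) (fun I => ?_)
  symm
  refine ext_of_forall_lintegral_eq_of_IsFiniteMeasure fun f => ?_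
  have hf : Measurable fun x : I → ℝ => (f x : ℝ≥0∞) :=
    measurable_coe_nnreal_ennreal.comp f.continuous.measurable
  have a1 := lint_map_map I (fun x : I → ℝ => (f x : ℝ≥0∞)) hf (P.restrict A) h1
  have a2 := lint_map_map I (fun x : I → ℝ => (f x : ℝ≥0∞)) hf ((P.restrict A).prod P') h2
  exact a1.trans ((marginal hB hB' hσ hA I f).trans a2.symm)

/-- **Resampling after a stopping time**, on an event of the past. -/
theorem resample_set (hB : IsBM F B P) (hB' : IsBM F' B' P') {σ : Ω → ℝ≥0} (hσ : IsST F σ)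
    {A : Set Ω} (hA : EvST F σ A) (Φ : (ℝ≥0 → ℝ) × ℝ≥0 → ℝ≥0∞) (hΦ : Measurable Φ) :
    ∫⁻ ω in A, Φ (fun t => B t ω, σ ω) ∂P =
      ∫⁻ ω in A, ∫⁻ ω', Φ (cat (fun t => B t ω) (σ ω) (fun t => B' t ω'), σ ω) ∂P' ∂P := by
  have := isProb hB
  have := isProb hB'
  have hσm := measurable_of_IsST hσ
  have h1 : Measurable fun ω => full (σ ω) (fun t => B t ω) :=
    measurable_full hσm (measurable_path hB)
  have h2 : Measurable fun p : Ω × Ω' => full (σ p.1)
        (cat (fun t => B t p.1) (σ p.1) (fun t => B' t p.2)) :=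
    measurable_full (hσm.comp measurable_fst) (measurable_cat hB hB' hσm)
  let G : (Option ℝ≥0 → ℝ) → ℝ≥0∞ := fun x => Φ (fun t => x (some t), Real.toNNReal (x none))
  have hG : Measurable G := by
    refine hΦ.comp (Measurable.prodMk (measurable_pi_lambda _ fun t => measurable_pi_apply _) ?_)
    exact (measurable_pi_apply none).real_toNNReal
  have e : ∀ (s : ℝ≥0) (b : ℝ≥0 → ℝ), G (full s b) = Φ (b, s) := by
    intro s b
    have : G (full s b) = Φ (b, Real.toNNReal s) := rfl
    rw [this, Real.toNNReal_coe]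
  have hl := law_full hB hB' hσm hA
  have hl2 : ∫⁻ x, G x ∂((P.restrict A).map (fun ω => full (σ ω) (fun t => B t ω))) =
      ∫⁻ x, G x ∂(((P.restrict A).prod P').map (fun p => full (σ p.1)
        (cat (fun t => B t p.1) (σ p.1) (fun t => B' t p.2)))) := by rw [hl]
  rw [lintegral_map hG h1, lintegral_map hG h2] at hl2
  simp only [e] at hl2
  have hm2 : Measurable fun p : Ω × Ω' =>
      Φ (cat (fun t => B t p.1) (σ p.1) (fun t => B' t p.2), σ p.1) :=
    hΦ.comp ((measurable_cat hB hB' hσm).prodMk (hσm.comp measurable_fst))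
  rw [lintegral_prod _ hm2.aemeasurable] at hl2
  exact hl2

/-- **Resampling after a stopping time**, with a random element of the past. -/
theorem resample (hB : IsBM F B P) (hB' : IsBM F' B' P') {σ : Ω → ℝ≥0} (hσ : IsST F σ)
    {E : Type*} {mE : MeasurableSpace E} (Y : Ω → E)
    (hY : ∀ D, MeasurableSet D → EvST F σ (Y ⁻¹' D))
    (Φ : (ℝ≥0 → ℝ) × ℝ≥0 × E → ℝ≥0∞) (hΦ : Measurable Φ) :
    ∫⁻ ω, Φ (fun t => B t ω, σ ω, Y ω) ∂P =
      ∫⁻ ω, ∫⁻ ω', Φ (cat (fun t => B t ω) (σ ω) (fun t => B' t ω'), σ ω, Y ω) ∂P' ∂P := by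
  have := isProb hB
  have := isProb hB'
  have hσm := measurable_of_IsST hσ
  have hYm : Measurable Y := fun D hD => measurableSet_of_EvST (hY D hD)
  let X1 : Ω → ((ℝ≥0 → ℝ) × ℝ≥0) × E := fun ω => ((fun t => B t ω, σ ω), Y ω)
  let X2 : Ω × Ω' → ((ℝ≥0 → ℝ) × ℝ≥0) × E := fun p =>
    ((cat (fun t => B t p.1) (σ p.1) (fun t => B' t p.2), σ p.1), Y p.1)
  have h1 : Measurable X1 := ((measurable_path hB).prodMk hσm).prodMk hYm
  have h2 : Measurable X2 := ((measurable_cat hB hB' hσm).prodMk (hσm.comp measurable_fst)).prodMk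
    (hYm.comp measurable_fst)
  have key : P.map X1 = (P.prod P').map X2 := by
    have : IsProbabilityMeasure (P.map X1) := Measure.isProbabilityMeasure_map h1.aemeasurable
    refine ext_of_generate_finite _ generateFrom_prod.symm isPiSystem_prod ?_ ?_
    · rintro _ ⟨C, hC, D, hD, rfl⟩
      simp only [mem_ofPred_eq] at hC hD
      have hCD : MeasurableSet (C ×ˢ D) := hC.prod hD
      have hYD : MeasurableSet (Y ⁻¹' D) := hYm hD
      rw [Measure.map_apply h1 hCD, Measure.map_apply h2 hCD]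
      have hr := resample_set hB hB' hσ (hY D hD) (C.indicator fun _ => 1)
        (measurable_const.indicator hC)
      have hm2 : Measurable fun p : Ω × Ω' =>
          (C.indicator (fun _ => (1 : ℝ≥0∞)))
            (cat (fun t => B t p.1) (σ p.1) (fun t => B' t p.2), σ p.1) :=
        (measurable_const.indicator hC).comp
          ((measurable_cat hB hB' hσm).prodMk (hσm.comp measurable_fst))
      rw [← lintegral_prod (μ := P.restrict (Y ⁻¹' D)) (ν := P') _ hm2.aemeasurable] at hr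
      have e1 : ∫⁻ ω in Y ⁻¹' D, (C.indicator (fun _ => (1 : ℝ≥0∞))) (fun t => B t ω, σ ω) ∂P
          = P (X1 ⁻¹' (C ×ˢ D)) := by
        rw [← lintegral_indicator hYD, ← lintegral_indicator_one (h1 hCD)]
        refine lintegral_congr fun ω => ?_
        by_cases a : Y ω ∈ D <;> by_cases b : ((fun t => B t ω), σ ω) ∈ C <;>
          simp [X1, a, b, Set.indicator]
      have e2 : ∫⁻ p, (C.indicator (fun _ => (1 : ℝ≥0∞)))
            (cat (fun t => B t p.1) (σ p.1) (fun t => B' t p.2), σ p.1)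
            ∂((P.restrict (Y ⁻¹' D)).prod P') = (P.prod P') (X2 ⁻¹' (C ×ˢ D)) := by
        have hpr : (P.restrict (Y ⁻¹' D)).prod P' = (P.prod P').restrict ((Y ⁻¹' D) ×ˢ univ) := by
          rw [← Measure.prod_restrict, Measure.restrict_univ]
        rw [hpr, ← lintegral_indicator (hYD.prod MeasurableSet.univ),
          ← lintegral_indicator_one (h2 hCD)]
        refine lintegral_congr fun p => ?_
        by_cases a : Y p.1 ∈ D <;>
          by_cases b : (cat (fun t => B t p.1) (σ p.1) (fun t => B' t p.2), σ p.1) ∈ C <;>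
          simp [X2, a, b, Set.indicator]
      rw [← e1, ← e2]
      exact hr
    · rw [Measure.map_apply h1 MeasurableSet.univ, Measure.map_apply h2 MeasurableSet.univ]
      simp
  let G : ((ℝ≥0 → ℝ) × ℝ≥0) × E → ℝ≥0∞ := fun q => Φ (q.1.1, q.1.2, q.2)
  have hG : Measurable G := hΦ.comp
    ((measurable_fst.comp measurable_fst).prodMk
      ((measurable_snd.comp measurable_fst).prodMk measurable_snd))
  have e1 : ∫⁻ ω, Φ (fun t => B t ω, σ ω, Y ω) ∂P = ∫⁻ q, G q ∂(P.map X1) :=
    (lintegral_map hG h1).symm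
  have hm : Measurable fun p => G (X2 p) := hG.comp h2
  rw [e1, key, lintegral_map hG h2, lintegral_prod _ hm.aemeasurable]

/-! ### Path versions -/

/-- continuous paths with the σ-algebra of the coordinates (= 969's `PathSp`) -/
abbrev PS := {f : ℝ≥0 → ℝ // Continuous f}

/-- the path of a Brownian set-up -/
def toP (hB : IsBM F B P) (ω : Ω) : PS := ⟨fun t => B t ω, hB.cont ω⟩

lemma measurable_toP (hB : IsBM F B P) : Measurable (toP hB) :=
  (measurable_path hB).subtype_mk

/-- concatenation of continuous paths -/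
def catP (b : PS) (s : ℝ≥0) (w : PS) : PS := ⟨cat b.1 s w.1, continuous_cat b.2 w.2 s⟩

/-- the path after time `s`, recentred -/
def shiftP (b : PS) (s : ℝ≥0) : PS :=
  ⟨fun u => b.1 (s + u) - b.1 s,
    (b.2.comp (continuous_const.add continuous_id)).sub continuous_const⟩

lemma measurable_evalP : Measurable fun p : PS × ℝ≥0 => p.1.1 p.2 := by
  have h : Measurable (Function.uncurry fun (t : ℝ≥0) (b : PS) => b.1 t) :=
    measurable_uncurry_of_continuous_of_measurable (fun b => b.2)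
      (fun t => (measurable_pi_apply t).comp measurable_subtype_coe)
  exact h.comp (measurable_snd.prodMk measurable_fst)

lemma measurable_shiftP : Measurable fun p : PS × ℝ≥0 => shiftP p.1 p.2 := by
  refine Measurable.subtype_mk (measurable_pi_lambda _ fun u => ?_)
  exact (measurable_evalP.comp (measurable_fst.prodMk (measurable_snd.add measurable_const))).sub
    measurable_evalP

lemma measurable_catP : Measurable fun p : PS × ℝ≥0 × PS => catP p.1 p.2.1 p.2.2 := by
  refine Measurable.subtype_mk (measurable_pi_lambda _ fun u => ?_)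
  refine Measurable.add ?_ ?_
  · exact measurable_evalP.comp (measurable_fst.prodMk
      (measurable_const.min (measurable_fst.comp measurable_snd)))
  · exact measurable_evalP.comp ((measurable_snd.comp measurable_snd).prodMk
      (measurable_const.sub (measurable_fst.comp measurable_snd)))

lemma shiftP_catP (b w : PS) (s : ℝ≥0) (hw : w.1 0 = 0) : shiftP (catP b s w) s = w := by
  apply Subtype.ext
  funext u
  have h1 : cat b.1 s w.1 (s + u) = b.1 s + w.1 u := cat_add s u
  have h2 : cat b.1 s w.1 s = b.1 s := cat_of_le hw le_rfl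
  change cat b.1 s w.1 (s + u) - cat b.1 s w.1 s = w.1 u
  rw [h1, h2]
  ring

lemma catP_shiftP (b : PS) (s : ℝ≥0) : catP b s (shiftP b s) = b := by
  apply Subtype.ext
  funext t
  change b.1 (min t s) + (b.1 (s + (t - s)) - b.1 s) = b.1 t
  rcases le_total t s with h | h
  · rw [min_eq_left h, tsub_eq_zero_of_le h, add_zero]; ring
  · rw [min_eq_right h, add_tsub_cancel_of_le h]; ring

lemma catP_agree (b w : PS) (s : ℝ≥0) (hw : w.1 0 = 0) {t : ℝ≥0} (ht : t ≤ s) :
    (catP b s w).1 t = b.1 t := cat_of_le hw ht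

/-- **Resampling after a stopping time**, continuous paths. -/
theorem resample_path (hB : IsBM F B P) (hB' : IsBM F' B' P') {σ : Ω → ℝ≥0} (hσ : IsST F σ)
    {E : Type*} {mE : MeasurableSpace E} (Y : Ω → E)
    (hY : ∀ D, MeasurableSet D → EvST F σ (Y ⁻¹' D))
    (Φ : PS × ℝ≥0 × E → ℝ≥0∞) (hΦ : Measurable Φ) :
    ∫⁻ ω, Φ (toP hB ω, σ ω, Y ω) ∂P =
      ∫⁻ ω, ∫⁻ ω', Φ (catP (toP hB ω) (σ ω) (toP hB' ω'), σ ω, Y ω) ∂P' ∂P := by
  have := isProb hB
  have := isProb hB'
  have hσm := measurable_of_IsST hσ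
  have hYm : Measurable Y := fun D hD => measurableSet_of_EvST (hY D hD)
  let X1 : Ω → PS × ℝ≥0 × E := fun ω => (toP hB ω, σ ω, Y ω)
  let X2 : Ω × Ω' → PS × ℝ≥0 × E := fun p =>
    (catP (toP hB p.1) (σ p.1) (toP hB' p.2), σ p.1, Y p.1)
  have h1 : Measurable X1 := (measurable_toP hB).prodMk (hσm.prodMk hYm)
  have h2 : Measurable X2 := by
    refine Measurable.prodMk ?_ ((hσm.comp measurable_fst).prodMk (hYm.comp measurable_fst))
    exact measurable_catP.comp (((measurable_toP hB).comp measurable_fst).prodMk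
      ((hσm.comp measurable_fst).prodMk ((measurable_toP hB').comp measurable_snd)))
  have key : P.map X1 = (P.prod P').map X2 := by
    have : IsProbabilityMeasure (P.map X1) := Measure.isProbabilityMeasure_map h1.aemeasurable
    refine ext_of_generate_finite _ generateFrom_prod.symm isPiSystem_prod ?_ ?_
    · rintro _ ⟨C, hC, D, hD, rfl⟩
      simp only [mem_ofPred_eq] at hC hD
      obtain ⟨C', hC', rfl⟩ := hC
      have hCm : MeasurableSet (Subtype.val ⁻¹' C' : Set PS) := ⟨C', hC', rfl⟩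
      have hCD : MeasurableSet ((Subtype.val ⁻¹' C' : Set PS) ×ˢ D) := hCm.prod hD
      rw [Measure.map_apply h1 hCD, Measure.map_apply h2 hCD]
      have hCD' : MeasurableSet (C' ×ˢ D) := hC'.prod hD
      have hr := resample hB hB' hσ Y hY ((C' ×ˢ D).indicator fun _ => 1)
        (measurable_const.indicator hCD')
      have hm2 : Measurable fun p : Ω × Ω' =>
          ((C' ×ˢ D).indicator (fun _ => (1 : ℝ≥0∞)))
            (cat (fun t => B t p.1) (σ p.1) (fun t => B' t p.2), σ p.1, Y p.1) :=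
        (measurable_const.indicator hCD').comp
          ((measurable_cat hB hB' hσm).prodMk
            ((hσm.comp measurable_fst).prodMk (hYm.comp measurable_fst)))
      rw [← lintegral_prod (μ := P) (ν := P') _ hm2.aemeasurable] at hr
      rw [← lintegral_indicator_one (h1 hCD), ← lintegral_indicator_one (h2 hCD)]
      exact hr
    · rw [Measure.map_apply h1 MeasurableSet.univ, Measure.map_apply h2 MeasurableSet.univ]
      simp
  have e1 : ∫⁻ ω, Φ (toP hB ω, σ ω, Y ω) ∂P = ∫⁻ q, Φ q ∂(P.map X1) :=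
    (lintegral_map hΦ h1).symm
  have hm : Measurable fun p => Φ (X2 p) := hΦ.comp h2
  rw [e1, key, lintegral_map hΦ h2, lintegral_prod _ hm.aemeasurable]

/-- **Strong Markov property**, continuous paths: the recentred path after `σ` is a fresh Brownian
path, independent of the past. -/
theorem strong_markov (hB : IsBM F B P) (hB' : IsBM F' B' P') {σ : Ω → ℝ≥0} (hσ : IsST F σ)
    {E : Type*} {mE : MeasurableSpace E} (Y : Ω → E)
    (hY : ∀ D, MeasurableSet D → EvST F σ (Y ⁻¹' D))
    (Ψ : PS × E → ℝ≥0∞) (hΨ : Measurable Ψ) :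
    ∫⁻ ω, Ψ (shiftP (toP hB ω) (σ ω), Y ω) ∂P =
      ∫⁻ ω, ∫⁻ ω', Ψ (toP hB' ω', Y ω) ∂P' ∂P := by
  have hm : Measurable fun q : PS × ℝ≥0 × E => Ψ (shiftP q.1 q.2.1, q.2.2) :=
    hΨ.comp ((measurable_shiftP.comp (measurable_fst.prodMk
      (measurable_fst.comp measurable_snd))).prodMk (measurable_snd.comp measurable_snd))
  have h := resample_path hB hB' hσ Y hY (fun q => Ψ (shiftP q.1 q.2.1, q.2.2)) hm
  refine h.trans (lintegral_congr fun ω => lintegral_congr fun ω' => ?_)
  simp only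
  rw [shiftP_catP _ _ _ (hB'.zero ω')]

/-- the σ-algebra of the past of a stopping time -/
@[instance_reducible]
def past (F : Filtration ℝ≥0 m) (σ : Ω → ℝ≥0) (hσ : IsST F σ) : MeasurableSpace Ω where
  MeasurableSet' A := EvST F σ A
  measurableSet_empty := fun t => by simp
  measurableSet_compl := fun A hA t => by
    have : Aᶜ ∩ {ω | σ ω ≤ t} = {ω | σ ω ≤ t} \ (A ∩ {ω | σ ω ≤ t}) := by
      ext ω; simp only [mem_inter_iff, mem_compl_iff, mem_ofPred_eq, Set.mem_sdiff]; tauto
    rw [this]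
    exact (hσ t).diff (hA t)
  measurableSet_iUnion := fun A hA t => by
    rw [iUnion_inter]
    exact MeasurableSet.iUnion fun i => hA i t

lemma past_le (F : Filtration ℝ≥0 m) (σ : Ω → ℝ≥0) (hσ : IsST F σ) : past F σ hσ ≤ m :=
  fun _ hA => measurableSet_of_EvST hA

lemma measurable_past_self (F : Filtration ℝ≥0 m) (σ : Ω → ℝ≥0) (hσ : IsST F σ) :
    Measurable[past F σ hσ] σ := by
  let : MeasurableSpace Ω := past F σ hσ
  refine measurable_of_Iic fun t => ?_
  intro u
  have : σ ⁻¹' Iic t ∩ {ω | σ ω ≤ u} = {ω | σ ω ≤ min t u} := by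
    ext ω; simp
  rw [this]
  exact F.mono (min_le_right _ _) _ (hσ _)

/-- **Strong Markov property** on an event of the past, for `Y` measurable with respect to the
past. -/
theorem strong_markov_set (hB : IsBM F B P) (hB' : IsBM F' B' P') {σ : Ω → ℝ≥0} (hσ : IsST F σ)
    {E : Type*} {mE : MeasurableSpace E} (Y : Ω → E) (hY : Measurable[past F σ hσ] Y)
    {A : Set Ω} (hA : EvST F σ A) (Ψ : PS × E → ℝ≥0∞) (hΨ : Measurable Ψ) :
    ∫⁻ ω in A, Ψ (shiftP (toP hB ω) (σ ω), Y ω) ∂P =
      ∫⁻ ω in A, ∫⁻ ω', Ψ (toP hB' ω', Y ω) ∂P' ∂P := by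
  have hAm : MeasurableSet A := measurableSet_of_EvST hA
  have hA' : MeasurableSet[past F σ hσ] A := hA
  let Y' : Ω → ℝ≥0∞ × E := fun ω => (A.indicator (fun _ => 1) ω, Y ω)
  have hY' : Measurable[past F σ hσ] Y' :=
    (Measurable.indicator (@measurable_const _ _ _ (past F σ hσ) (1 : ℝ≥0∞)) hA').prodMk hY
  have hm : Measurable fun q : PS × ℝ≥0∞ × E => q.2.1 * Ψ (q.1, q.2.2) :=
    (measurable_fst.comp measurable_snd).mul
      (hΨ.comp (measurable_fst.prodMk (measurable_snd.comp measurable_snd)))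
  have h := strong_markov hB hB' hσ Y' (fun D hD => hY' hD) (fun q => q.2.1 * Ψ (q.1, q.2.2)) hm
  rw [← lintegral_indicator hAm, ← lintegral_indicator hAm]
  have e1 : ∀ ω, A.indicator (fun ω => Ψ (shiftP (toP hB ω) (σ ω), Y ω)) ω =
      (Y' ω).1 * Ψ (shiftP (toP hB ω) (σ ω), (Y' ω).2) := by
    intro ω
    by_cases hω : ω ∈ A <;> simp [Y', hω]
  have e2 : ∀ ω, A.indicator (fun ω => ∫⁻ ω', Ψ (toP hB' ω', Y ω) ∂P') ω =
      ∫⁻ ω', (Y' ω).1 * Ψ (toP hB' ω', (Y' ω).2) ∂P' := by
    intro ω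
    by_cases hω : ω ∈ A <;> simp [Y', hω]
  simp only [e1, e2]
  exact h

end Crest.Agent.R162.SMK
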