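import Crest.Agent.R162.LBSkel
import Crest.Agent.R162.LB6c
import Crest.Agent.R162.LBST2
import Crest.Agent.R162.LBSTf
import Crest.Agent.R162.LBDrv
import Crest.Agent.R162.LBStop
import Crest.Agent.R162.SMK

/-!
Row 162 (S0243), node LB-EXP (helper384): the exponential bound
`E[exp (c₀ content (σ,t]) ; A] ≤ E[exp (c Λ_σ + A_σ) ; A]` from the step theorem, by iteration.
-/

set_option autoImplicit false

open MeasureTheory ProbabilityTheory Set Filter Topology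
open scoped NNReal ENNReal

namespace Crest.Agent.R162.LBExp

open Crest.Agent.R162.FL Crest.Agent.R162.OS Crest.Agent.R162.LBDrv Crest.Agent.R162.LBStop
open Crest.Agent.R162.LBI Crest.Agent.R162.LBS
open Crest.ProbabilityR.Loewner

universe u

/-! ### the exponential on `[0,∞]` -/

lemma expE_top : expE ⊤ = ⊤ := by simp [expE]

lemma expE_of_ne {x : ℝ≥0∞} (h : x ≠ ⊤) : expE x = ENNReal.ofReal (Real.exp x.toReal) := by
  simp [expE, h]

lemma expE_ne_top_iff {x : ℝ≥0∞} : expE x ≠ ⊤ ↔ x ≠ ⊤ := by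
  constructor
  · intro h hx
    exact h (by rw [hx, expE_top])
  · intro h
    rw [expE_of_ne h]
    exact ENNReal.ofReal_ne_top

lemma expE_mono : Monotone expE := by
  intro x y h
  by_cases hy : y = ⊤
  · rw [hy, expE_top]; exact le_top
  · have hx : x ≠ ⊤ := ne_top_of_le_ne_top hy h
    rw [expE_of_ne hx, expE_of_ne hy]
    exact ENNReal.ofReal_le_ofReal (Real.exp_le_exp.2 (ENNReal.toReal_mono hy h))

lemma measurable_expE : Measurable expE := expE_mono.measurable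

lemma expE_ne_zero (x : ℝ≥0∞) : expE x ≠ 0 := by
  by_cases hx : x = ⊤
  · rw [hx, expE_top]; exact ENNReal.top_ne_zero
  · rw [expE_of_ne hx]
    exact (ENNReal.ofReal_pos.2 (Real.exp_pos _)).ne'

/-! ### the step functional on `EE × PathSp` -/

/-- start data of a step: stopped path and time -/
abbrev EE := LBStop.PathSp × ℝ≥0

/-- the state map of the start data -/
noncomputable def fE (κ : ℝ) (e : EE) : ℂ → ℂ := ffl (drv κ e.1.1) e.2

/-- time of the step -/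
noncomputable def tau (p : LB.Par) (x : EE × LBStop.PathSp) : ℝ≥0 :=
  (p.T (fE p.κ x.1) (drv p.κ x.2.1)).toNNReal

/-- content of the step -/
noncomputable def Cs (p : LB.Par) (x : EE × LBStop.PathSp) : ℝ≥0∞ :=
  p.cont (fE p.κ x.1) (drv p.κ x.2.1) (Ioc 0 (p.T (fE p.κ x.1) (drv p.κ x.2.1)))

/-- potential after the step -/
noncomputable def Ls (p : LB.Par) (x : EE × LBStop.PathSp) : ℝ≥0∞ :=
  p.Λ (LB.Par.st (fE p.κ x.1) (drv p.κ x.2.1) (p.T (fE p.κ x.1) (drv p.κ x.2.1)))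

/-- area after the step -/
noncomputable def As (p : LB.Par) (x : EE × LBStop.PathSp) : ℝ≥0∞ :=
  p.A (LB.Par.st (fE p.κ x.1) (drv p.κ x.2.1) (p.T (fE p.κ x.1) (drv p.κ x.2.1)))

/-- content of `B` collected at times in `E` -/
noncomputable def tot (p : LB.Par) (W : ℝ → ℝ) (E : Set ℝ) : ℝ≥0∞ :=
  ∫⁻ w in p.B, LB.cz p.κ p.ε p.c1 1 W E w

/-- measurability input (412, 772, 332) -/
structure Meas (p : LB.Par) : Prop where
  tau : IsST (LBST.EF EE).rightCont (tau p)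
  C : Measurable (Cs p)
  L : Measurable (Ls p)
  A : Measurable (As p)
  L0 : Measurable fun e : EE => p.Λ (fE p.κ e)
  A0 : Measurable fun e : EE => p.A (fE p.κ e)
  u0 : Measurable fun e : EE => p.u0 (p.x (fE p.κ e))
  tot : Measurable fun e : EE => tot p (drv p.κ e.1.1) (Ioc 0 e.2)

/-- deterministic input: cocycle (888, 351, 275), finiteness (8, 499, 126), start (74, 797),
bound of `x` (564) -/
structure Coc (p : LB.Par) : Prop where
  c1 : ∀ W, ContinuousOn W (Ici 0) → ∀ s t, 0 ≤ s → 0 ≤ t →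
    tot p W (Ioc s (s + t)) = p.cont (ffl W s) (shift W s) (Ioc 0 t)
  c2 : ∀ W, ContinuousOn W (Ici 0) → ∀ s t, 0 ≤ s → 0 ≤ t →
    tot p W (Ioc 0 (s + t)) = tot p W (Ioc 0 s) + tot p W (Ioc s (s + t))
  c4 : ∀ W, ContinuousOn W (Ici 0) → ∀ t, tot p W (Ioc 0 t) ≠ ⊤
  c5 : ∀ f : ℂ → ℂ, Univ f → p.A f ≠ ⊤
  c6 : ∀ W, Drive W → ∀ t, 0 ≤ t → p.Λ (ffl W t) ≠ ⊤ → Start p (ffl W t)
  c7 : ∀ W, Drive W → ∀ S : ℝ, 0 ≤ S → ∃ M : ℝ, ∀ t ∈ Icc 0 S, Start p (ffl W t) →
    p.u0 (p.x (ffl W t)) ≤ M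

/-! ### congruences -/

lemma cd_congr {κ ε c1 lam : ℝ} {W W' : ℝ → ℝ} {t : ℝ} (h : EqOn W W' (Icc 0 t)) {s : ℝ}
    (hs : s ∈ Icc 0 t) (z : ℂ) : LB.cd κ ε c1 lam W s z = LB.cd κ ε c1 lam W' s z := by
  unfold LB.cd
  rw [LBDrv.ups_congr h hs, LBDrv.sfl_congr h hs, LBDrv.Zfl_congr h hs]

lemma cz_congr {κ ε c1 lam : ℝ} {W W' : ℝ → ℝ} {t : ℝ} (h : EqOn W W' (Icc 0 t)) (z : ℂ) :
    LB.cz κ ε c1 lam W (Ioc 0 t) z = LB.cz κ ε c1 lam W' (Ioc 0 t) z := by
  refine setLIntegral_congr_fun measurableSet_Ioc fun s hs => ?_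
  rw [cd_congr h ⟨hs.1.le, hs.2⟩]

lemma cont_congr {p : LB.Par} {f : ℂ → ℂ} {W W' : ℝ → ℝ} {t : ℝ} (h : EqOn W W' (Icc 0 t)) :
    p.cont f W (Ioc 0 t) = p.cont f W' (Ioc 0 t) := by
  unfold LB.Par.cont LB.content
  refine lintegral_congr fun z => ?_
  rw [cz_congr h]

lemma tot_congr {p : LB.Par} {W W' : ℝ → ℝ} {t : ℝ} (h : EqOn W W' (Icc 0 t)) :
    tot p W (Ioc 0 t) = tot p W' (Ioc 0 t) := by
  unfold tot
  refine lintegral_congr fun z => ?_
  rw [cz_congr h]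

lemma ffl_add' {W : ℝ → ℝ} (hW : ContinuousOn W (Ici 0)) {s t : ℝ} (hs : 0 ≤ s) (ht : 0 ≤ t) :
    ffl W s ∘ ffl (shift W s) t = ffl W (s + t) := by
  funext z
  by_cases hz : 0 < z.im
  · exact (FLC.ffl_add hW hs ht hz).symm
  · push Not at hz
    simp only [Function.comp_apply]
    rw [LBST.ffl_of_im_nonpos _ _ hz, LBST.ffl_of_im_nonpos _ _ hz, LBST.ffl_of_im_nonpos _ _ hz]

variable {Ω : Type u} [mΩ : MeasurableSpace Ω] {P : Measure Ω}
  {F : Filtration ℝ≥0 (inferInstance : MeasurableSpace Ω)} {B : ℝ≥0 → Ω → ℝ}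

lemma eqOn_drv_stp (κ : ℝ) (b : ℝ≥0 → ℝ) (s : ℝ≥0) :
    EqOn (drv κ (stp b s)) (drv κ b) (Icc 0 s) := by
  intro t ht
  have h1 : t.toNNReal ≤ s := Real.toNNReal_le_iff_le_coe.2 ht.2
  simp only [drv, stp, min_eq_left h1]

lemma fE_Y (κ : ℝ) (hB : IsBM F B P) (σ : Ω → ℝ≥0) (ω : Ω) :
    fE κ (Y hB σ ω) = ffl (driving κ B ω) (σ ω) := by
  have h := LBDrv.ffl_congr (eqOn_drv_stp κ (fun t => B t ω) (σ ω))
    (s := ((σ ω : ℝ≥0) : ℝ)) ⟨(σ ω).2, le_rfl⟩
  exact h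

lemma drive_driving (κ : ℝ) (hB : IsBM F B P) (ω : Ω) : Drive (driving κ B ω) :=
  ⟨(continuous_drv κ (hB.cont ω)).continuousOn,
    drv_zero κ (p := fun t => B t ω) (hB.zero ω)⟩

lemma eqOn_shift (κ : ℝ) (hB : IsBM F B P) (ω : Ω) (s : ℝ≥0) :
    EqOn (drv κ (SMK.shiftP (SMK.toP hB ω) s).1) (shift (driving κ B ω) s) (Ici 0) := by
  intro t ht
  have ht0 : (0 : ℝ) ≤ t := ht
  have h1 : ((s : ℝ) + t).toNNReal = s + t.toNNReal := by
    rw [Real.toNNReal_add (NNReal.coe_nonneg s) ht0, Real.toNNReal_coe]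
  simp only [drv, SMK.shiftP, SMK.toP, shift, driving, h1, Real.toNNReal_coe]
  ring

/-! ### the iterates -/

/-- the stopping times of the iteration -/
noncomputable def Tn (p : LB.Par) (hB : IsBM F B P) (σ : Ω → ℝ≥0) : ℕ → Ω → ℝ≥0
  | 0 => σ
  | n + 1 => fun ω => Tn p hB σ n ω +
      tau p (Y hB (Tn p hB σ n) ω, SMK.shiftP (SMK.toP hB ω) (Tn p hB σ n ω))

lemma Tn_succ (p : LB.Par) (hB : IsBM F B P) (σ : Ω → ℝ≥0) (n : ℕ) (ω : Ω) :
    Tn p hB σ (n + 1) ω = Tn p hB σ n ω +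
      tau p (Y hB (Tn p hB σ n) ω, SMK.shiftP (SMK.toP hB ω) (Tn p hB σ n ω)) := rfl

lemma Tn_mono (p : LB.Par) (hB : IsBM F B P) (σ : Ω → ℝ≥0) (ω : Ω) :
    Monotone fun n => Tn p hB σ n ω :=
  monotone_nat_of_le_succ fun n => by rw [Tn_succ]; exact le_self_add

theorem isST_Tn [F.IsRightContinuous] {p : LB.Par} (hM : Meas p) (hB : IsBM F B P)
    {σ : Ω → ℝ≥0} (hσ : IsST F σ) (n : ℕ) : IsST F (Tn p hB σ n) := by
  induction n with
  | zero => exact hσ
  | succ n ih =>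
    have h := LBST.mor_shift (F := F) (E := EE) (B := B) hB.adapted hB.cont ih
      (e := Y hB (Tn p hB σ n)) (fun D hD => (measurable_Y hB ih) hD)
    exact h.isST hM.tau

/-! ### identification of the data along the iteration -/

lemma T_coe (p : LB.Par) (f : ℂ → ℂ) (W : ℝ → ℝ) : (((p.T f W).toNNReal : ℝ≥0) : ℝ) = p.T f W :=
  Real.coe_toNNReal _ (LB.T_nonneg p f W)

/-- abbreviation: start data and fresh path after the `n`-th stopping time -/
noncomputable def dat (hB : IsBM F B P) (τ : Ω → ℝ≥0) (ω : Ω) : EE × LBStop.PathSp :=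
  (Y hB τ ω, SMK.shiftP (SMK.toP hB ω) (τ ω))

lemma st_dat {p : LB.Par} (hB : IsBM F B P) (τ : Ω → ℝ≥0) (ω : Ω) :
    LB.Par.st (fE p.κ (Y hB τ ω)) (drv p.κ (SMK.shiftP (SMK.toP hB ω) (τ ω)).1)
        (p.T (fE p.κ (Y hB τ ω)) (drv p.κ (SMK.shiftP (SMK.toP hB ω) (τ ω)).1)) =
      ffl (driving p.κ B ω) (τ ω + tau p (dat hB τ ω) : ℝ≥0) := by
  have hW := (drive_driving p.κ hB ω).cont
  have ht := LB.T_nonneg p (fE p.κ (Y hB τ ω)) (drv p.κ (SMK.shiftP (SMK.toP hB ω) (τ ω)).1)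
  have h1 : ffl (drv p.κ (SMK.shiftP (SMK.toP hB ω) (τ ω)).1)
      (p.T (fE p.κ (Y hB τ ω)) (drv p.κ (SMK.shiftP (SMK.toP hB ω) (τ ω)).1)) =
      ffl (shift (driving p.κ B ω) (τ ω))
      (p.T (fE p.κ (Y hB τ ω)) (drv p.κ (SMK.shiftP (SMK.toP hB ω) (τ ω)).1)) :=
    LBDrv.ffl_congr ((eqOn_shift p.κ hB ω (τ ω)).mono Icc_subset_Ici_self) ⟨ht, le_rfl⟩
  unfold LB.Par.st
  rw [h1]
  have h2 := ffl_add' hW (s := ((τ ω : ℝ≥0) : ℝ)) (τ ω).2 ht
  rw [fE_Y]
  rw [fE_Y] at h2 ht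
  rw [h2]
  congr 1
  have h3 : ((tau p (dat hB τ ω) : ℝ≥0) : ℝ) = p.T (ffl (driving p.κ B ω) (τ ω))
      (drv p.κ (SMK.shiftP (SMK.toP hB ω) (τ ω)).1) := by
    unfold tau dat
    rw [T_coe, fE_Y]
  rw [NNReal.coe_add, h3]

lemma Ls_dat {p : LB.Par} (hB : IsBM F B P) (τ : Ω → ℝ≥0) (ω : Ω) :
    Ls p (dat hB τ ω) = p.Λ (ffl (driving p.κ B ω) (τ ω + tau p (dat hB τ ω) : ℝ≥0)) := by
  rw [← st_dat]
  rfl

lemma As_dat {p : LB.Par} (hB : IsBM F B P) (τ : Ω → ℝ≥0) (ω : Ω) :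
    As p (dat hB τ ω) = p.A (ffl (driving p.κ B ω) (τ ω + tau p (dat hB τ ω) : ℝ≥0)) := by
  rw [← st_dat]
  rfl

lemma Cs_dat {p : LB.Par} (hC : Coc p) (hB : IsBM F B P) (τ : Ω → ℝ≥0) (ω : Ω) :
    tot p (driving p.κ B ω) (Ioc 0 (τ ω + tau p (dat hB τ ω) : ℝ≥0)) =
      tot p (driving p.κ B ω) (Ioc 0 (τ ω)) + Cs p (dat hB τ ω) := by
  have hW := (drive_driving p.κ hB ω).cont
  have h3 : ((tau p (dat hB τ ω) : ℝ≥0) : ℝ) = p.T (ffl (driving p.κ B ω) (τ ω))
      (drv p.κ (SMK.shiftP (SMK.toP hB ω) (τ ω)).1) := by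
    unfold tau dat
    rw [T_coe, fE_Y]
  have h4 : Cs p (dat hB τ ω) = p.cont (ffl (driving p.κ B ω) (τ ω))
      (drv p.κ (SMK.shiftP (SMK.toP hB ω) (τ ω)).1) (Ioc 0 (tau p (dat hB τ ω) : ℝ≥0)) := by
    rw [h3]
    unfold Cs dat
    rw [fE_Y]
  rw [NNReal.coe_add, hC.c2 _ hW _ _ (NNReal.coe_nonneg (τ ω))
      (NNReal.coe_nonneg (tau p (dat hB τ ω))),
    hC.c1 _ hW _ _ (NNReal.coe_nonneg (τ ω)) (NNReal.coe_nonneg (tau p (dat hB τ ω))), h4]
  congr 1
  exact (cont_congr ((eqOn_shift p.κ hB ω (τ ω)).mono Icc_subset_Ici_self)).symm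

/-! ### one step -/

/-- the integrand of the step -/
noncomputable def Phi (p : LB.Par) (c0 c : ℝ) (x : EE × LBStop.PathSp) : ℝ≥0∞ :=
  expE (ENNReal.ofReal c0 * Cs p x + ENNReal.ofReal c * Ls p x + As p x)

/-- the exponent before the step -/
noncomputable def V0 (p : LB.Par) (c : ℝ) (e : EE) : ℝ≥0∞ :=
  ENNReal.ofReal c * p.Λ (fE p.κ e) + p.A (fE p.κ e)

lemma measurable_Phi {p : LB.Par} (hM : Meas p) (c0 c : ℝ) : Measurable (Phi p c0 c) :=
  measurable_expE.comp (((hM.C.const_mul _).add (hM.L.const_mul _)).add hM.A)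

lemma measurable_V0 {p : LB.Par} (hM : Meas p) (c : ℝ) : Measurable (V0 p c) :=
  (hM.L0.const_mul _).add hM.A0

lemma measurable_varpi {p : LB.Par} (hM : Meas p) :
    Measurable fun e : EE => p.varpi (fE p.κ e) := hM.u0.pow_const _

/-- resampling + step theorem -/
theorem step_int [IsProbabilityMeasure P] {p : LB.Par} {c0 c δ : ℝ} (hc : 0 < c) (hδ1 : δ < 1)
    (hS : StepS.{u} c0 c δ p) (hM : Meas p) (hC : Coc p)
    (hB : IsBM F B P) {τ : Ω → ℝ≥0} (hτ : IsST F τ) {A : Set Ω} (hA : EvST F τ A) :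
    ∫⁻ ω in A, Phi p c0 c (dat hB τ ω) ∂P ≤
      ∫⁻ ω in A, ENNReal.ofReal ((1 - δ) ^ p.varpi (fE p.κ (Y hB τ ω))) *
        expE (V0 p c (Y hB τ ω)) ∂P := by
  have hY : Measurable[SMK.past F τ hτ] (Y hB τ) := measurable_Y hB hτ
  have h := SMK.strong_markov_set hB hB hτ (Y hB τ) hY hA
    (fun q : SMK.PS × EE => Phi p c0 c (q.2, q.1))
    ((measurable_Phi hM c0 c).comp (measurable_snd.prodMk measurable_fst))
  change ∫⁻ ω in A, Phi p c0 c (Y hB τ ω, SMK.shiftP (SMK.toP hB ω) (τ ω)) ∂P ≤ _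
  rw [h]
  refine lintegral_mono fun ω => ?_
  have hD := drive_driving p.κ hB ω
  have hδ : 0 < 1 - δ := by linarith
  by_cases hL : p.Λ (fE p.κ (Y hB τ ω)) = ⊤
  · have h1 : V0 p c (Y hB τ ω) = ⊤ := by
      unfold V0
      rw [hL, ENNReal.mul_top (ENNReal.ofReal_pos.2 hc).ne', top_add]
    rw [h1, expE_top, ENNReal.mul_top]
    · exact le_top
    · exact (ENNReal.ofReal_pos.2 (Real.rpow_pos_of_pos hδ _)).ne'
  · have hst : Start p (fE p.κ (Y hB τ ω)) := by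
      rw [fE_Y] at hL ⊢
      exact hC.c6 _ hD _ (τ ω).2 hL
    have h5 := hS Ω P F B hB (fE p.κ (Y hB τ ω)) hst
    refine le_trans (le_of_eq ?_) h5
    refine lintegral_congr fun ω' => ?_
    rfl

lemma measurable_dat {p : LB.Par} (hB : IsBM F B P) {τ : Ω → ℝ≥0} (hτ : IsST F τ) :
    Measurable (dat hB τ) := by
  refine Measurable.prodMk ((measurable_Y hB hτ).mono (stSigma_le hτ) le_rfl) ?_
  refine SMK.measurable_shiftP.comp ((SMK.measurable_toP hB).prodMk ?_)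
  exact (measurable_self hτ).mono (stSigma_le hτ) le_rfl

lemma univ_ffl {W : ℝ → ℝ} (hW : ContinuousOn W (Ici 0)) {t : ℝ} (ht : 0 ≤ t) :
    Univ (ffl W t) := ⟨FLC.differentiableOn_ffl hW ht, FLC.injOn_ffl hW ht⟩

lemma Phi_ne_top_iff {p : LB.Par} {c0 c : ℝ} {x : EE × LBStop.PathSp} (hc : 0 < c)
    (h : Phi p c0 c x ≠ ⊤) : Ls p x ≠ ⊤ := by
  intro hL
  apply h
  unfold Phi
  rw [hL, ENNReal.mul_top (ENNReal.ofReal_pos.2 hc).ne', add_top, top_add, expE_top]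

/-- the potential stays finite -/
theorem fin_step [IsProbabilityMeasure P] {p : LB.Par} {c0 c δ : ℝ} (hc : 0 < c) (hδ0 : 0 < δ)
    (hδ1 : δ < 1) (hη : 0 ≤ p.η) (hu : ∀ z, 1 ≤ p.u0 z)
    (hS : StepS.{u} c0 c δ p) (hM : Meas p) (hC : Coc p)
    (hB : IsBM F B P) {τ : Ω → ℝ≥0} (hτ : IsST F τ) :
    ∀ᵐ ω ∂P, p.Λ (ffl (driving p.κ B ω) (τ ω)) ≠ ⊤ → Ls p (dat hB τ ω) ≠ ⊤ := by
  have key : ∀ k : ℕ, ∀ᵐ ω ∂P, V0 p c (Y hB τ ω) ≤ k → Ls p (dat hB τ ω) ≠ ⊤ := by
    intro k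
    set D : Set Ω := {ω | V0 p c (Y hB τ ω) ≤ k} with hDdef
    have hD : EvST F τ D := by
      have h1 : Measurable[stSigma F τ hτ] fun ω => V0 p c (Y hB τ ω) :=
        (measurable_V0 hM c).comp (measurable_Y hB hτ)
      exact h1 measurableSet_Iic
    have hD0 : MeasurableSet D := stSigma_le hτ _ hD
    have h1 := step_int hc hδ1 hS hM hC hB hτ hD
    have h2 : ∫⁻ ω in D, ENNReal.ofReal ((1 - δ) ^ p.varpi (fE p.κ (Y hB τ ω))) *
        expE (V0 p c (Y hB τ ω)) ∂P ≤ expE k := by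
      calc ∫⁻ ω in D, ENNReal.ofReal ((1 - δ) ^ p.varpi (fE p.κ (Y hB τ ω))) *
            expE (V0 p c (Y hB τ ω)) ∂P
          ≤ ∫⁻ _ in D, expE k ∂P := by
            refine setLIntegral_mono' hD0 fun ω hω => ?_
            have h3 : (1 - δ) ^ p.varpi (fE p.κ (Y hB τ ω)) ≤ 1 := by
              refine Real.rpow_le_one (by linarith) (by linarith) ?_
              exact Real.rpow_nonneg (zero_le_one.trans (hu _)) _
            calc ENNReal.ofReal ((1 - δ) ^ p.varpi (fE p.κ (Y hB τ ω))) *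
                  expE (V0 p c (Y hB τ ω)) ≤ 1 * expE k := by
                  refine mul_le_mul' ?_ (expE_mono hω)
                  rw [← ENNReal.ofReal_one]
                  exact ENNReal.ofReal_le_ofReal h3
              _ = expE k := one_mul _
        _ = expE k * P D := by rw [setLIntegral_const]
        _ ≤ expE k * 1 := by gcongr; exact prob_le_one
        _ = expE k := mul_one _
    have hk : expE (k : ℝ≥0∞) ≠ ⊤ := expE_ne_top_iff.2 (ENNReal.natCast_ne_top k)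
    have h3 : ∀ᵐ ω ∂(P.restrict D), Phi p c0 c (dat hB τ ω) < ⊤ :=
      ae_lt_top ((measurable_Phi hM c0 c).comp (measurable_dat (p := p) hB hτ))
        (ne_top_of_le_ne_top hk (h1.trans h2))
    rw [ae_restrict_iff' hD0] at h3
    filter_upwards [h3] with ω h hω
    exact Phi_ne_top_iff hc (h hω).ne
  filter_upwards [ae_all_iff.2 key] with ω hω hne
  have hA : p.A (ffl (driving p.κ B ω) (τ ω)) ≠ ⊤ :=
    hC.c5 _ (univ_ffl (drive_driving p.κ hB ω).cont (τ ω).2)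
  have hV : V0 p c (Y hB τ ω) ≠ ⊤ := by
    unfold V0
    rw [fE_Y]
    exact ENNReal.add_ne_top.2 ⟨ENNReal.mul_ne_top ENNReal.ofReal_ne_top hne, hA⟩
  obtain ⟨k, hk⟩ := ENNReal.exists_nat_gt hV
  exact hω k hk.le

lemma toReal_lin {a b c : ℝ≥0∞} {x y : ℝ} (hx : 0 ≤ x) (hy : 0 ≤ y) (ha : a ≠ ⊤) (hb : b ≠ ⊤)
    (hc : c ≠ ⊤) :
    (ENNReal.ofReal x * a + ENNReal.ofReal y * b + c).toReal =
      x * a.toReal + y * b.toReal + c.toReal := by
  have h1 : ENNReal.ofReal x * a ≠ ⊤ := ENNReal.mul_ne_top ENNReal.ofReal_ne_top ha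
  have h2 : ENNReal.ofReal y * b ≠ ⊤ := ENNReal.mul_ne_top ENNReal.ofReal_ne_top hb
  rw [ENNReal.toReal_add (ENNReal.add_ne_top.2 ⟨h1, h2⟩) hc, ENNReal.toReal_add h1 h2,
    ENNReal.toReal_mul, ENNReal.toReal_mul, ENNReal.toReal_ofReal hx, ENNReal.toReal_ofReal hy]

/-- the step inequality in quotient form -/
theorem quot_step [IsProbabilityMeasure P] {p : LB.Par} {c0 c δ : ℝ} (hc0 : 0 < c0) (hc : 0 < c)
    (hδ1 : δ < 1) (hS : StepS.{u} c0 c δ p) (hM : Meas p) (hC : Coc p)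
    (hB : IsBM F B P) {τ : Ω → ℝ≥0} (hτ : IsST F τ) {D : Set Ω} (hD : EvST F τ D)
    (hDL : ∀ ω ∈ D, p.Λ (ffl (driving p.κ B ω) (τ ω)) ≠ ⊤) :
    ∫⁻ ω in D, ENNReal.ofReal (Real.exp (
        c0 * ((tot p (driving p.κ B ω) (Ioc 0 (τ ω + tau p (dat hB τ ω) : ℝ≥0))).toReal -
          (tot p (driving p.κ B ω) (Ioc 0 (τ ω))).toReal) +
        c * ((p.Λ (ffl (driving p.κ B ω) (τ ω + tau p (dat hB τ ω) : ℝ≥0))).toReal -
          (p.Λ (ffl (driving p.κ B ω) (τ ω))).toReal) +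
        ((p.A (ffl (driving p.κ B ω) (τ ω + tau p (dat hB τ ω) : ℝ≥0))).toReal -
          (p.A (ffl (driving p.κ B ω) (τ ω))).toReal))) ∂P ≤
      ∫⁻ ω in D, ENNReal.ofReal ((1 - δ) ^
        (p.u0 (p.x (ffl (driving p.κ B ω) (τ ω))) ^ (-p.η))) ∂P := by
  have hD0 : MeasurableSet D := stSigma_le hτ _ hD
  have hYm := measurable_Y hB hτ
  have hVm : Measurable[stSigma F τ hτ] fun ω => V0 p c (Y hB τ ω) :=
    (measurable_V0 hM c).comp hYm
  have hwm : Measurable[stSigma F τ hτ]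
      fun ω => D.indicator (fun ω => (expE (V0 p c (Y hB τ ω)))⁻¹) ω := by
    have h1 : Measurable[stSigma F τ hτ] fun ω => (expE (V0 p c (Y hB τ ω)))⁻¹ :=
      (measurable_expE.comp hVm).inv
    exact h1.indicator hD
  have hfm : Measurable fun ω => Phi p c0 c (dat hB τ ω) :=
    (measurable_Phi hM c0 c).comp (measurable_dat (p := p) hB hτ)
  have hgm : Measurable fun ω => ENNReal.ofReal ((1 - δ) ^ p.varpi (fE p.κ (Y hB τ ω))) *
      expE (V0 p c (Y hB τ ω)) := by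
    have h1 : Measurable fun ω => p.varpi (fE p.κ (Y hB τ ω)) :=
      ((measurable_varpi hM).comp hYm).mono (stSigma_le hτ) le_rfl
    exact (measurable_const.pow h1).ennreal_ofReal.mul
      (measurable_expE.comp (hVm.mono (stSigma_le hτ) le_rfl))
  have key := LB6.weight_transfer (μ := P) (stSigma_le hτ) hfm hgm
    (fun A hA => step_int hc hδ1 hS hM hC hB hτ hA) hwm
  have hfin : ∀ ω ∈ D, V0 p c (Y hB τ ω) ≠ ⊤ ∧
      (V0 p c (Y hB τ ω)).toReal = c * (p.Λ (ffl (driving p.κ B ω) (τ ω))).toReal +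
        (p.A (ffl (driving p.κ B ω) (τ ω))).toReal := by
    intro ω hω
    have hA : p.A (ffl (driving p.κ B ω) (τ ω)) ≠ ⊤ :=
      hC.c5 _ (univ_ffl (drive_driving p.κ hB ω).cont (τ ω).2)
    have h1 : ENNReal.ofReal c * p.Λ (ffl (driving p.κ B ω) (τ ω)) ≠ ⊤ :=
      ENNReal.mul_ne_top ENNReal.ofReal_ne_top (hDL ω hω)
    unfold V0
    rw [fE_Y]
    refine ⟨ENNReal.add_ne_top.2 ⟨h1, hA⟩, ?_⟩
    rw [ENNReal.toReal_add h1 hA, ENNReal.toReal_mul, ENNReal.toReal_ofReal hc.le]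
  calc _ ≤ ∫⁻ ω, D.indicator (fun ω => (expE (V0 p c (Y hB τ ω)))⁻¹) ω *
        Phi p c0 c (dat hB τ ω) ∂P := by
        rw [← lintegral_indicator hD0]
        refine lintegral_mono fun ω => ?_
        by_cases hω : ω ∈ D
        · simp only [indicator_of_mem hω]
          obtain ⟨hV, hVr⟩ := hfin ω hω
          have hVi : (expE (V0 p c (Y hB τ ω)))⁻¹ =
              ENNReal.ofReal (Real.exp (-(V0 p c (Y hB τ ω)).toReal)) := by
            rw [expE_of_ne hV, ← ENNReal.ofReal_inv_of_pos (Real.exp_pos _), Real.exp_neg]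
          by_cases hL : Ls p (dat hB τ ω) = ⊤
          · have h1 : Phi p c0 c (dat hB τ ω) = ⊤ := by
              unfold Phi
              rw [hL, ENNReal.mul_top (ENNReal.ofReal_pos.2 hc).ne', add_top, top_add, expE_top]
            rw [h1, ENNReal.mul_top]
            · exact le_top
            · exact ENNReal.inv_ne_zero.2 (expE_ne_top_iff.2 hV)
          · have hW := (drive_driving p.κ hB ω).cont
            have hcs := Cs_dat hC hB τ ω
            have ht1 := hC.c4 _ hW ((τ ω + tau p (dat hB τ ω) : ℝ≥0) : ℝ)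
            have ht0 := hC.c4 _ hW ((τ ω : ℝ≥0) : ℝ)
            have hCs : Cs p (dat hB τ ω) ≠ ⊤ := by
              intro h
              rw [h, add_top] at hcs
              exact ht1 hcs
            have hAs : As p (dat hB τ ω) ≠ ⊤ := by
              rw [As_dat]
              exact hC.c5 _ (univ_ffl hW (NNReal.coe_nonneg _))
            have hex : ENNReal.ofReal c0 * Cs p (dat hB τ ω) +
                ENNReal.ofReal c * Ls p (dat hB τ ω) + As p (dat hB τ ω) ≠ ⊤ :=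
              ENNReal.add_ne_top.2 ⟨ENNReal.add_ne_top.2
                ⟨ENNReal.mul_ne_top ENNReal.ofReal_ne_top hCs,
                  ENNReal.mul_ne_top ENNReal.ofReal_ne_top hL⟩, hAs⟩
            have hPhi : Phi p c0 c (dat hB τ ω) = ENNReal.ofReal (Real.exp
                (c0 * (Cs p (dat hB τ ω)).toReal + c * (Ls p (dat hB τ ω)).toReal +
                  (As p (dat hB τ ω)).toReal)) := by
              unfold Phi
              rw [expE_of_ne hex, toReal_lin hc0.le hc.le hCs hL hAs]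
            rw [hVi, hPhi, ← ENNReal.ofReal_mul (Real.exp_pos _).le, ← Real.exp_add, hVr]
            refine ENNReal.ofReal_le_ofReal (Real.exp_le_exp.2 (le_of_eq ?_))
            rw [hcs, ENNReal.toReal_add ht0 hCs, Ls_dat, As_dat]
            ring
        · simp only [indicator_of_notMem hω]
          exact bot_le
    _ ≤ ∫⁻ ω, D.indicator (fun ω => (expE (V0 p c (Y hB τ ω)))⁻¹) ω *
        (ENNReal.ofReal ((1 - δ) ^ p.varpi (fE p.κ (Y hB τ ω))) *
          expE (V0 p c (Y hB τ ω))) ∂P := key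
    _ = _ := by
        rw [← lintegral_indicator hD0]
        refine lintegral_congr fun ω => ?_
        by_cases hω : ω ∈ D
        · simp only [indicator_of_mem hω]
          obtain ⟨hV, -⟩ := hfin ω hω
          have h1 := ENNReal.inv_mul_cancel (expE_ne_zero (V0 p c (Y hB τ ω)))
            (expE_ne_top_iff.2 hV)
          rw [mul_comm (ENNReal.ofReal _) (expE _), ← mul_assoc, h1, one_mul]
          rw [fE_Y]
          rfl
        · simp only [indicator_of_notMem hω, zero_mul]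

/-! ### the exponential bound -/

lemma tot_mono {p : LB.Par} (W : ℝ → ℝ) {E E' : Set ℝ} (h : E ⊆ E') : tot p W E ≤ tot p W E' :=
  lintegral_mono fun z => LB.cz_mono h z

/-- **the exponential bound**, right-continuous filtration. -/
theorem exp_core [IsProbabilityMeasure P] [F.IsRightContinuous] {p : LB.Par} {c0 c δ : ℝ}
    (hc0 : 0 < c0) (hc : 0 < c) (hδ0 : 0 < δ) (hδ1 : δ < 1) (hη : 0 < p.η)
    (hu : ∀ z, 1 ≤ p.u0 z) (hS : StepS.{u} c0 c δ p) (hM : Meas p) (hC : Coc p)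
    (hB : IsBM F B P) {σ : Ω → ℝ≥0} (hσ : IsST F σ) {A : Set Ω} (hA : EvST F σ A) (t : ℝ≥0) :
    ∫⁻ ω in A, expE (ENNReal.ofReal c0 * tot p (driving p.κ B ω) (Ioc (σ ω) t)) ∂P ≤
      ∫⁻ ω in A, expE (ENNReal.ofReal c * p.Λ (ffl (driving p.κ B ω) (σ ω)) +
        p.A (ffl (driving p.κ B ω) (σ ω))) ∂P := by
  have hA0 : MeasurableSet A := stSigma_le hσ _ hA
  by_cases hR : ∫⁻ ω in A, expE (ENNReal.ofReal c * p.Λ (ffl (driving p.κ B ω) (σ ω)) +
        p.A (ffl (driving p.κ B ω) (σ ω))) ∂P = ⊤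
  · rw [hR]; exact le_top
  -- the potential is finite at the start
  have hV0 : ∀ ω, V0 p c (Y hB σ ω) = ENNReal.ofReal c * p.Λ (ffl (driving p.κ B ω) (σ ω)) +
        p.A (ffl (driving p.κ B ω) (σ ω)) := by
    intro ω
    unfold V0
    rw [fE_Y]
  have hstart : ∀ᵐ ω ∂P, ω ∈ A → p.Λ (ffl (driving p.κ B ω) (σ ω)) ≠ ⊤ := by
    have hm : Measurable fun ω => expE (V0 p c (Y hB σ ω)) :=
      (measurable_expE.comp ((measurable_V0 hM c).comp (measurable_Y hB hσ))).mono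
        (stSigma_le hσ) le_rfl
    have h1 : ∀ᵐ ω ∂(P.restrict A), expE (V0 p c (Y hB σ ω)) < ⊤ := by
      refine ae_lt_top hm ?_
      simp only [hV0]
      exact hR
    rw [ae_restrict_iff' hA0] at h1
    filter_upwards [h1] with ω h hω
    have h2 := expE_ne_top_iff.1 (h hω).ne
    rw [hV0] at h2
    intro hL
    rw [hL, ENNReal.mul_top (ENNReal.ofReal_pos.2 hc).ne', top_add] at h2
    exact h2 rfl
  -- the iteration
  have hT : ∀ n, IsST F (Tn p hB σ n) := isST_Tn hM hB hσ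
  have hYm : ∀ n, Measurable[stSigma F (Tn p hB σ n) (hT n)] (Y hB (Tn p hB σ n)) :=
    fun n => measurable_Y hB (hT n)
  have hCmono : ∀ ω, Monotone fun t : ℝ≥0 => (tot p (driving p.κ B ω) (Ioc 0 t)).toReal := by
    intro ω a b hab
    refine ENNReal.toReal_mono (hC.c4 _ (drive_driving p.κ hB ω).cont b) (tot_mono _ ?_)
    exact Ioc_subset_Ioc_right (by exact_mod_cast hab)
  obtain ⟨hfin, hTt, hlim, hmain⟩ := LB6.main_top (μ := P)
    (F := fun n => stSigma F (Tn p hB σ n) (hT n)) (fun n => stSigma_le (hT n))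
    (monotone_nat_of_le_succ fun n => stSigma_mono (hT n) (hT (n + 1))
      (fun ω => Tn_mono p hB σ ω (Nat.le_succ n)))
    (T := Tn p hB σ) (Tn_mono p hB σ)
    (Ct := fun t ω => (tot p (driving p.κ B ω) (Ioc 0 t)).toReal) hCmono
    (by
      intro n
      have h1 : Measurable[stSigma F (Tn p hB σ n) (hT n)]
          fun ω => (tot p (drv p.κ (Y hB (Tn p hB σ n) ω).1.1)
            (Ioc 0 (Y hB (Tn p hB σ n) ω).2)).toReal := (hM.tot.comp (hYm n)).ennreal_toReal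
      refine (congrArg (Measurable[stSigma F (Tn p hB σ n) (hT n)]) ?_).mp h1
      funext ω
      congr 1
      exact tot_congr (eqOn_drv_stp p.κ (fun t => B t ω) (Tn p hB σ n ω)))
    (Λ := fun n ω => p.Λ (ffl (driving p.κ B ω) (Tn p hB σ n ω)))
    (A := fun n ω => (p.A (ffl (driving p.κ B ω) (Tn p hB σ n ω))).toReal)
    (by
      intro n
      have h1 : Measurable[stSigma F (Tn p hB σ n) (hT n)]
          fun ω => p.Λ (fE p.κ (Y hB (Tn p hB σ n) ω)) := hM.L0.comp (hYm n)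
      simpa only [fE_Y] using h1)
    (by
      intro n
      have h1 : Measurable[stSigma F (Tn p hB σ n) (hT n)]
          fun ω => (p.A (fE p.κ (Y hB (Tn p hB σ n) ω))).toReal :=
        (hM.A0.comp (hYm n)).ennreal_toReal
      simpa only [fE_Y] using h1)
    (fun n ω => ENNReal.toReal_nonneg)
    (u := fun n ω => p.u0 (p.x (ffl (driving p.κ B ω) (Tn p hB σ n ω))))
    (fun n ω => hu _)
    (by
      intro n
      have h1 : Measurable[stSigma F (Tn p hB σ n) (hT n)]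
          fun ω => p.u0 (p.x (fE p.κ (Y hB (Tn p hB σ n) ω))) := hM.u0.comp (hYm n)
      simpa only [fE_Y] using h1)
    hη hc0 hc.le hδ0 hδ1
    (by
      intro n
      filter_upwards [fin_step hc hδ0 hδ1 hη.le hu hS hM hC hB (hT n)] with ω h hne
      have h2 := h hne
      rw [Ls_dat] at h2
      exact h2)
    (fun n D hD hDL => quot_step hc0 hc hδ1 hS hM hC hB (hT n) hD hDL)
    (B := A) hA hstart
    (by
      refine Eventually.of_forall fun ω _ hall S => ?_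
      have hD := drive_driving p.κ hB ω
      obtain ⟨M, hM'⟩ := hC.c7 _ hD S (NNReal.coe_nonneg S)
      refine ⟨M, fun n hn => hM' _ ⟨NNReal.coe_nonneg _, by exact_mod_cast hn⟩ ?_⟩
      exact hC.c6 _ hD _ (NNReal.coe_nonneg _) (hall n))
  classical
  -- the limit
  set X : Ω → ℝ := fun ω =>
    if h : ∃ L, Tendsto (fun t : ℝ≥0 => (tot p (driving p.κ B ω) (Ioc 0 t)).toReal) atTop (𝓝 L)
    then h.choose else 0 with hX
  have hXl : ∀ᵐ ω ∂P, ω ∈ A → Tendsto (fun t : ℝ≥0 =>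
      (tot p (driving p.κ B ω) (Ioc 0 t)).toReal) atTop (𝓝 (X ω)) := by
    filter_upwards [hlim] with ω h hω
    have h1 := h hω
    simp only [hX, dif_pos h1]
    exact h1.choose_spec
  have hfinal := hmain X hXl
  calc ∫⁻ ω in A, expE (ENNReal.ofReal c0 * tot p (driving p.κ B ω) (Ioc (σ ω) t)) ∂P
      ≤ ∫⁻ ω in A, ENNReal.ofReal (Real.exp (c0 * (X ω -
          (tot p (driving p.κ B ω) (Ioc 0 (Tn p hB σ 0 ω))).toReal))) ∂P := by
        refine lintegral_mono_ae ?_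
        rw [ae_restrict_iff' hA0]
        filter_upwards [hXl] with ω h hω
        have h1 := h hω
        have hW := (drive_driving p.κ hB ω).cont
        have hle : ∀ s : ℝ≥0, (tot p (driving p.κ B ω) (Ioc 0 s)).toReal ≤ X ω := fun s =>
          (hCmono ω).ge_of_tendsto h1 s
        change expE (ENNReal.ofReal c0 * tot p (driving p.κ B ω) (Ioc (σ ω) t)) ≤
          ENNReal.ofReal (Real.exp (c0 * (X ω -
            (tot p (driving p.κ B ω) (Ioc 0 (σ ω))).toReal)))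
        have hf0 := hC.c4 _ hW ((σ ω : ℝ≥0) : ℝ)
        have hft := hC.c4 _ hW ((t : ℝ≥0) : ℝ)
        rcases le_total t (σ ω) with hts | hst
        · have h2 : Ioc ((σ ω : ℝ≥0) : ℝ) (t : ℝ) = ∅ := Ioc_eq_empty (by
            rw [not_lt]; exact_mod_cast hts)
          have h3 : tot p (driving p.κ B ω) (Ioc ((σ ω : ℝ≥0) : ℝ) (t : ℝ)) = 0 := by
            rw [h2]
            simp [tot, LB.cz]
          rw [h3, mul_zero, expE_of_ne ENNReal.zero_ne_top]
          refine ENNReal.ofReal_le_ofReal (Real.exp_le_exp.2 ?_)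
          rw [ENNReal.toReal_zero]
          exact mul_nonneg hc0.le (sub_nonneg.2 (hle _))
        · have h2 : (t : ℝ) = (σ ω : ℝ) + ((t - σ ω : ℝ≥0) : ℝ) := by
            rw [NNReal.coe_sub hst]; ring
          have h3 := hC.c2 _ hW _ _ (NNReal.coe_nonneg (σ ω)) (NNReal.coe_nonneg (t - σ ω))
          rw [← h2] at h3
          have h4 : tot p (driving p.κ B ω) (Ioc ((σ ω : ℝ≥0) : ℝ) (t : ℝ)) ≠ ⊤ := by
            intro h
            rw [h, add_top] at h3
            exact hft h3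
          have h5 : ENNReal.ofReal c0 * tot p (driving p.κ B ω) (Ioc ((σ ω : ℝ≥0) : ℝ) (t : ℝ))
              ≠ ⊤ := ENNReal.mul_ne_top ENNReal.ofReal_ne_top h4
          rw [expE_of_ne h5]
          refine ENNReal.ofReal_le_ofReal (Real.exp_le_exp.2 ?_)
          rw [ENNReal.toReal_mul, ENNReal.toReal_ofReal hc0.le]
          refine mul_le_mul_of_nonneg_left ?_ hc0.le
          have h6 := hle t
          rw [h3, ENNReal.toReal_add hf0 h4] at h6
          linarith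
    _ ≤ ∫⁻ ω in A, ENNReal.ofReal (Real.exp (c * (p.Λ (ffl (driving p.κ B ω)
          (Tn p hB σ 0 ω))).toReal + (p.A (ffl (driving p.κ B ω) (Tn p hB σ 0 ω))).toReal)) ∂P :=
        hfinal
    _ = _ := by
        refine lintegral_congr_ae ?_
        rw [EventuallyEq, ae_restrict_iff' hA0]
        filter_upwards [hstart] with ω h hω
        have hA1 : p.A (ffl (driving p.κ B ω) (σ ω)) ≠ ⊤ :=
          hC.c5 _ (univ_ffl (drive_driving p.κ hB ω).cont (NNReal.coe_nonneg _))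
        have h1 : ENNReal.ofReal c * p.Λ (ffl (driving p.κ B ω) (σ ω)) ≠ ⊤ :=
          ENNReal.mul_ne_top ENNReal.ofReal_ne_top (h hω)
        rw [expE_of_ne (ENNReal.add_ne_top.2 ⟨h1, hA1⟩), ENNReal.toReal_add h1 hA1,
          ENNReal.toReal_mul, ENNReal.toReal_ofReal hc.le]
        rfl

end Crest.Agent.R162.LBExp
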