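import Mathlib
import Crest.Agent.R162.LBSkel
import Crest.Agent.R162.LBNorm
import Crest.Agent.R162.LB6b
import Crest.Agent.R162.KB2

/-!
Row 162 (S0243), LB-EXP, sub-lemma START (helper797): `Λ(ffl W t) ≠ ⊤` gives a start map.
-/

set_option autoImplicit false

open Set MeasureTheory Filter Topology Complex Metric
open scoped ENNReal

namespace Crest.Agent.R162.LBExpS

open Crest.Agent.R162.FL Crest.Agent.R162.LB Crest.Agent.R162.LBS

/-- distance to a closed ball -/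
lemma infDist_closedBall {w0 : ℂ} {R : ℝ} (hR : 0 ≤ R) (z : ℂ) :
    Metric.infDist z (Metric.closedBall w0 R) = max (‖z - w0‖ - R) 0 := by
  have hne : (Metric.closedBall w0 R).Nonempty := ⟨w0, Metric.mem_closedBall_self hR⟩
  apply le_antisymm
  · rcases le_or_gt ‖z - w0‖ R with h | h
    · have hz : z ∈ Metric.closedBall w0 R := by
        rw [Metric.mem_closedBall, dist_eq_norm]; exact h
      rw [Metric.infDist_zero_of_mem hz]
      exact le_max_right _ _
    · have hn : 0 < ‖z - w0‖ := lt_of_le_of_lt hR h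
      set p : ℂ := w0 + ((R / ‖z - w0‖ : ℝ) : ℂ) * (z - w0) with hp
      have hpm : p ∈ Metric.closedBall w0 R := by
        rw [Metric.mem_closedBall, dist_eq_norm, hp, add_sub_cancel_left, norm_mul,
          Complex.norm_real, Real.norm_eq_abs, abs_of_nonneg (by positivity)]
        exact le_of_eq (div_mul_cancel₀ _ hn.ne')
      have hd : dist z p = ‖z - w0‖ - R := by
        have e : z - p = ((1 - R / ‖z - w0‖ : ℝ) : ℂ) * (z - w0) := by
          rw [hp]; push_cast; ring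
        have h1 : R / ‖z - w0‖ ≤ 1 := (div_le_one hn).2 h.le
        rw [dist_eq_norm, e, norm_mul, Complex.norm_real, Real.norm_eq_abs,
          abs_of_nonneg (by linarith)]
        field_simp
      exact (Metric.infDist_le_dist_of_mem hpm).trans (hd.le.trans (le_max_left _ _))
  · refine max_le ?_ Metric.infDist_nonneg
    rw [Metric.le_infDist hne]
    intro y hy
    rw [Metric.mem_closedBall, dist_eq_norm] at hy
    have h1 : ‖z - w0‖ ≤ ‖z - y‖ + ‖y - w0‖ := by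
      have : z - w0 = (z - y) + (y - w0) := by ring
      rw [this]; exact norm_add_le _ _
    rw [dist_eq_norm]; linarith

lemma uB_eq {w0 : ℂ} {R : ℝ} (hR : 0 ≤ R) : uB w0 R = fun p => max 1 (‖p - w0‖ - R) := by
  funext z
  rw [uB, infDist_closedBall hR]
  rcases le_total (‖z - w0‖ - R) 0 with h | h
  · rw [max_eq_right h, max_eq_left (by norm_num : (0:ℝ) ≤ 1), max_eq_left (by linarith)]
  · rw [max_eq_left h]

/-- `vv → 1` at infinity for `u₀ = uB` -/
theorem tendsto_vv {W : ℝ → ℝ} {t : ℝ} (hW : ContinuousOn W (Ici 0)) (ht : 0 ≤ t) {w0 : ℂ} {R : ℝ}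
    (hR : 0 ≤ R) : Tendsto (vv (uB w0 R) (ffl W t)) atTop (𝓝 1) := by
  rw [uB_eq hR]
  exact (LBN.normInf_ffl hW ht).tendsto_vv w0 R

/-- conformal radius of the image is at most twice the height of the image point -/
lemma ups_le_two_im {W : ℝ → ℝ} {t : ℝ} (hW : ContinuousOn W (Ici 0)) (ht : 0 ≤ t) {z : ℂ}
    (hz : 0 < z.im) : KB1.ups (ffl W t) z ≤ 2 * (ffl W t z).im := by
  by_contra hcon
  push Not at hcon
  have hb := KB.kb2 (FLC.differentiableOn_ffl hW ht) (FLC.injOn_ffl hW ht) hz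
  have hi : 0 < (ffl W t z).im := FLC.ffl_im_pos hW ht hz
  set w : ℂ := ffl W t z with hw
  have hmem : (w - ((w.im : ℝ) : ℂ) * I) ∈ ball w (z.im * ‖deriv (ffl W t) z‖ / 2) := by
    rw [mem_ball, dist_eq_norm]
    have e : w - ((w.im : ℝ) : ℂ) * I - w = -(((w.im : ℝ) : ℂ) * I) := by ring
    rw [e, norm_neg, norm_mul, Complex.norm_I, mul_one, Complex.norm_real, Real.norm_eq_abs,
      abs_of_pos hi]
    unfold KB1.ups at hcon
    linarith
  obtain ⟨u, hu, hu'⟩ := hb hmem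
  have h2 : 0 < (ffl W t u).im := FLC.ffl_im_pos hW ht hu
  rw [hu'] at h2
  simp at h2

/-- `mm` is bounded on bounded parts of the imaginary axis -/
theorem mm_bdd {W : ℝ → ℝ} {t : ℝ} (hW : ContinuousOn W (Ici 0)) (ht : 0 ≤ t) {u0 : ℂ → ℝ}
    (hu : LipschitzWith 1 u0) (Y : ℝ) :
    ∃ M : ℝ, 0 < M ∧ ∀ y : ℝ, 0 < y → y ≤ Y → mm u0 (ffl W t) (y * I) ≤ M := by
  obtain ⟨K, hK⟩ := (isCompact_Icc (a := (0:ℝ)) (b := t)).exists_bound_of_continuousOn
    (hW.mono fun s hs => hs.1)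
  have hK' : ∀ s ∈ Icc (0 : ℝ) t, |W s| ≤ K := fun s hs => by
    have := hK s hs; rwa [Real.norm_eq_abs] at this
  have hK0 : 0 ≤ K := (abs_nonneg _).trans (hK' t ⟨ht, le_rfl⟩)
  set M0 : ℝ := |Y| + 3 * K + 9 * t + 1 with hM0
  have hM0p : 0 < M0 := by positivity
  refine ⟨2 * M0 + |u0 0|, by positivity, fun y hy hyY => ?_⟩
  have hz : 0 < ((y : ℂ) * I).im := by simpa using hy
  have h1 := LB6.norm_ffl_sq_le hW ht hz hK'
  have h2 : ‖(y : ℂ) * I + W t‖ ≤ |Y| + K := by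
    refine (norm_add_le _ _).trans ?_
    rw [norm_mul, Complex.norm_I, mul_one, Complex.norm_real, Complex.norm_real, Real.norm_eq_abs,
      Real.norm_eq_abs]
    have := hK' t ⟨ht, le_rfl⟩
    have h3 : |y| ≤ |Y| := by
      rw [abs_of_pos hy]; exact hyY.trans (le_abs_self _)
    linarith
  have h4 : ‖ffl W t (y * I)‖ ≤ M0 := by
    have h5 : ‖ffl W t (y * I)‖ ^ 2 ≤ M0 ^ 2 := by
      refine h1.trans ?_
      have h6 : max (‖(y : ℂ) * I + W t‖ ^ 2) (4 * K ^ 2) ≤ (|Y| + 2 * K) ^ 2 := by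
        refine max_le ?_ ?_
        · exact pow_le_pow_left₀ (norm_nonneg _) (by linarith) 2
        · have := abs_nonneg Y; nlinarith
      have := abs_nonneg Y
      rw [hM0]
      nlinarith
    exact (abs_le_of_sq_le_sq' h5 hM0p.le).2
  have h7 := ups_le_two_im hW ht hz
  have h8 : (ffl W t (y * I)).im ≤ ‖ffl W t (y * I)‖ := (le_abs_self _).trans (Complex.abs_im_le_norm _)
  have h9 : u0 (ffl W t (y * I)) ≤ |u0 0| + M0 := by
    have h10 := hu.dist_le_mul (ffl W t (y * I)) 0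
    rw [Real.dist_eq, dist_zero_right, NNReal.coe_one, one_mul] at h10
    have h11 := le_abs_self (u0 (ffl W t (y * I)) - u0 0)
    have h12 := le_abs_self (u0 0)
    linarith
  refine max_le ?_ ?_
  · have := abs_nonneg (u0 0)
    linarith
  · linarith


/-- `min(v,1)^q = Ψ m^η` -/
lemma min_vv_rpow {u0 : ℂ → ℝ} (h1 : ∀ z, 1 ≤ u0 z) {q η : ℝ} {f : ℂ → ℂ} {y : ℝ} (hy : 0 ≤ y) :
    (min (vv u0 f y) 1) ^ q = Psi u0 q η f (y * I) * mm u0 f (y * I) ^ η := by
  have hu : 0 ≤ KB1.ups f (y * I) := LBN.ups_nonneg f hy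
  have hm : 1 ≤ mm u0 f (y * I) := LBN.mm_ge_one h1 f (y * I)
  have hm0 : 0 < mm u0 f (y * I) := by linarith
  have h2 : 0 < u0 (f (y * I)) := by linarith [h1 (f (y * I))]
  have e : min (vv u0 f y) 1 = KB1.ups f (y * I) / mm u0 f (y * I) := by
    unfold vv mm
    rcases le_total (KB1.ups f (y * I)) (u0 (f (y * I))) with h | h
    · rw [max_eq_right h, min_eq_left ((div_le_one h2).2 h)]
    · have h3 : 0 < KB1.ups f (y * I) := lt_of_lt_of_le h2 h
      rw [max_eq_left h, min_eq_right ((one_le_div h2).2 h), div_self h3.ne']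
  rw [e, Real.div_rpow hu hm0.le, Psi, mul_assoc, ← Real.rpow_add hm0]
  have e2 : -q - η + η = -q := by ring
  rw [e2, Real.rpow_neg hm0.le, div_eq_mul_inv]

/-- `J < ∞` from `Λ < ∞` -/
theorem J_ne_top {W : ℝ → ℝ} {t : ℝ} (hW : ContinuousOn W (Ici 0)) (ht : 0 ≤ t) {u0 : ℂ → ℝ}
    (hu : LipschitzWith 1 u0) (h1 : ∀ z, 1 ≤ u0 z) {q η : ℝ} (hη : 0 ≤ η)
    (hL : Lam u0 q η (ffl W t) ≠ ⊤) (Y : ℝ) : Jv u0 q (ffl W t) Y ≠ ⊤ := by
  obtain ⟨M, hM, hb⟩ := mm_bdd hW ht hu Y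
  have hle : Jv u0 q (ffl W t) Y ≤ ENNReal.ofReal (M ^ η) * Lam u0 q η (ffl W t) := by
    unfold Jv Lam
    rw [← lintegral_const_mul' _ _ ENNReal.ofReal_ne_top]
    refine (setLIntegral_mono' measurableSet_Ioc fun s hs => ?_).trans
      (lintegral_mono_set fun s hs => hs.1)
    rw [← ENNReal.ofReal_mul (by positivity)]
    refine ENNReal.ofReal_le_ofReal ?_
    rw [min_vv_rpow (η := η) h1 hs.1.le]
    have hm1 : 1 ≤ mm u0 (ffl W t) (s * I) := LBN.mm_ge_one h1 _ _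
    have hP : 0 ≤ Psi u0 q η (ffl W t) (s * I) := by
      unfold Psi
      have := LBN.ups_nonneg (ffl W t) hs.1.le
      positivity
    have hp : mm u0 (ffl W t) (s * I) ^ η ≤ M ^ η :=
      Real.rpow_le_rpow (by linarith) (hb s hs.1 hs.2) hη
    have hs0 : 0 < s := hs.1
    rw [mul_div_assoc', div_le_div_iff_of_pos_right hs0]
    nlinarith
  exact ne_top_of_le_ne_top (ENNReal.mul_ne_top ENNReal.ofReal_ne_top hL) hle

/-- **START**: the flow map is a start map as soon as `Λ < ∞` -/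
theorem start_of_lam {p : LB.Par} (hp : LBS.Ok p) {w0 : ℂ} {R : ℝ} (hR : 0 ≤ R)
    (hu0 : p.u0 = uB w0 R) {W : ℝ → ℝ} (hW : LBS.Drive W) {t : ℝ} (ht : 0 ≤ t)
    (hL : p.Λ (ffl W t) ≠ ⊤) : LBS.Start p (ffl W t) where
  univ := ⟨FLC.differentiableOn_ffl hW.cont ht, FLC.injOn_ffl hW.cont ht⟩
  v_tendsto := by rw [hu0]; exact tendsto_vv hW.cont ht hR
  lam := hL
  J_ne_top := fun y => J_ne_top hW.cont ht hp.adm.lip hp.adm.one_le hp.η0.le hL y

end Crest.Agent.R162.LBExpS
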