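import Mathlib
import Crest.Agent.R162.LBDefs
import Crest.Agent.R162.LBMeas

/-!
Row 162 (S0243), node LB-MEAS / LB-ST (helper319): measurability of `y_x`, `x`, `u₀(x)`, `ϖ`,
case A and `ρ₁` along a measurable family `F : α → ℂ → ℂ` of state maps (`LBM.MFam`).
-/

set_option autoImplicit false

open Set MeasureTheory Filter Topology
open scoped NNReal ENNReal

namespace Crest.Agent.R162.LBMx

open Crest.Agent.R162.FL Crest.Agent.R162.FLC Crest.Agent.R162.LB Crest.Agent.R162.LBM

variable {α : Type*} [MeasurableSpace α]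

/-! ### an infimum over a closed condition -/

/-- `∃ y ∈ [b,c], θ ≤ v(y)` is measurable for `v` continuous in `y` -/
lemma measurableSet_exists_Icc {v : α → ℝ → ℝ} {θ b c : ℝ}
    (hv : ∀ y ∈ Icc b c, Measurable (fun a => v a y)) (hvc : ∀ a, ContinuousOn (v a) (Icc b c)) :
    MeasurableSet {a | ∃ y ∈ Icc b c, θ ≤ v a y} := by
  rcases (Icc b c).eq_empty_or_nonempty with he | hne
  · have : {a | ∃ y ∈ Icc b c, θ ≤ v a y} = ∅ := by
      ext a
      simp [he]
    rw [this]
    exact MeasurableSet.empty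
  have : Nonempty (Icc b c) := hne.to_subtype
  set d : ℕ → Icc b c := TopologicalSpace.denseSeq (Icc b c) with hd
  have hdense : DenseRange d := TopologicalSpace.denseRange_denseSeq _
  have e : {a | ∃ y ∈ Icc b c, θ ≤ v a y} =
      ⋂ k : ℕ, ⋃ n : ℕ, {a | θ - 1 / ((k : ℝ) + 1) < v a (d n)} := by
    ext a
    simp only [mem_iInter, mem_iUnion, mem_ofPred_eq]
    have hc : Continuous (fun y : Icc b c => v a y) := (hvc a).domRestrict
    constructor
    · rintro ⟨y, hy, hy2⟩ k
      have ho : IsOpen {z : Icc b c | θ - 1 / ((k : ℝ) + 1) < v a z} := isOpen_lt continuous_const hc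
      have hk : (0:ℝ) < 1 / ((k : ℝ) + 1) := by positivity
      obtain ⟨n, hn⟩ := hdense.exists_mem_open ho ⟨⟨y, hy⟩, by
        simp only [mem_ofPred_eq]; linarith⟩
      exact ⟨n, hn⟩
    · intro h
      obtain ⟨y0, hy0, hmax⟩ := isCompact_Icc.exists_isMaxOn hne (hvc a)
      refine ⟨y0, hy0, ?_⟩
      refine le_of_forall_pos_lt_add fun ε hε => ?_
      obtain ⟨k, hk⟩ := exists_nat_one_div_lt hε
      obtain ⟨n, hn⟩ := h k
      have h2 : v a (d n) ≤ v a y0 := hmax (d n).2
      linarith
  rw [e]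
  refine MeasurableSet.iInter fun k => MeasurableSet.iUnion fun n => ?_
  exact measurableSet_lt measurable_const (hv _ (d n).2)

/-- `inf {y > 0 : θ ≤ v(y) or K ≤ J(y)}` is measurable for `v` continuous, `J` monotone in `y` -/
theorem measurable_sInf_or {v : α → ℝ → ℝ} {J : α → ℝ → ℝ≥0∞} {θ : ℝ} {K : ℝ≥0∞}
    (hv : ∀ y, 0 < y → Measurable (fun a => v a y)) (hvc : ∀ a, ContinuousOn (v a) (Ioi 0))
    (hJ : ∀ y, 0 < y → Measurable (fun a => J a y))
    (hJm : ∀ a y y', 0 < y → y ≤ y' → J a y ≤ J a y') :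
    Measurable (fun a => sInf {y | 0 < y ∧ (θ ≤ v a y ∨ K ≤ J a y)}) := by
  have hE : ∀ c : ℝ, MeasurableSet {a | ∃ y, 0 < y ∧ y < c ∧ (θ ≤ v a y ∨ K ≤ J a y)} := by
    intro c
    rcases le_or_gt c 0 with hc | hc
    · have : {a | ∃ y, 0 < y ∧ y < c ∧ (θ ≤ v a y ∨ K ≤ J a y)} = ∅ := by
        ext a
        simp only [mem_ofPred_eq, mem_empty_iff_false, iff_false, not_exists]
        intro y hy
        linarith [hy.1, hy.2.1]
      rw [this]
      exact MeasurableSet.empty
    have e : {a | ∃ y, 0 < y ∧ y < c ∧ (θ ≤ v a y ∨ K ≤ J a y)} =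
        (⋃ n : ℕ, {a | ∃ y ∈ Icc (1 / ((n : ℝ) + 1)) (c - 1 / ((n : ℝ) + 1)), θ ≤ v a y}) ∪
        (⋃ n : ℕ, {a | K ≤ J a (c - c / ((n : ℝ) + 2))}) := by
      ext a
      simp only [mem_ofPred_eq, mem_union, mem_iUnion]
      constructor
      · rintro ⟨y, h1, h2, h3 | h3⟩
        · left
          obtain ⟨n, hn⟩ := exists_nat_one_div_lt (lt_min h1 (sub_pos.2 h2))
          refine ⟨n, y, ⟨?_, ?_⟩, h3⟩
          · exact (hn.trans_le (min_le_left _ _)).le
          · have := hn.trans_le (min_le_right _ _)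
            linarith
        · right
          have h4 : 0 < (c - y) / c := div_pos (sub_pos.2 h2) hc
          obtain ⟨n, hn⟩ := exists_nat_one_div_lt h4
          refine ⟨n, h3.trans (hJm a _ _ h1 ?_)⟩
          have h5 : (1:ℝ) / ((n : ℝ) + 2) ≤ 1 / ((n : ℝ) + 1) :=
            one_div_le_one_div_of_le (by positivity) (by linarith)
          have h6 : 1 / ((n : ℝ) + 2) * c ≤ (c - y) / c * c :=
            mul_le_mul_of_nonneg_right (h5.trans hn.le) hc.le
          rw [div_mul_cancel₀ _ hc.ne'] at h6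
          have h7 : c / ((n : ℝ) + 2) = 1 / ((n : ℝ) + 2) * c := by ring
          rw [h7]
          linarith
      · rintro (⟨n, y, h1, h2⟩ | ⟨n, hn⟩)
        · have h3 : (0:ℝ) < 1 / ((n : ℝ) + 1) := by positivity
          exact ⟨y, h3.trans_le h1.1, by linarith [h1.2], Or.inl h2⟩
        · have h3 : (0:ℝ) < c / ((n : ℝ) + 2) := by positivity
          have h4 : c / ((n : ℝ) + 2) < c := by
            rw [div_lt_iff₀ (by positivity)]
            have : (0:ℝ) ≤ (n : ℝ) := Nat.cast_nonneg n
            nlinarith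
          exact ⟨c - c / ((n : ℝ) + 2), by linarith, by linarith, Or.inr hn⟩
    rw [e]
    refine (MeasurableSet.iUnion fun n => ?_).union (MeasurableSet.iUnion fun n => ?_)
    · have h3 : (0:ℝ) < 1 / ((n : ℝ) + 1) := by positivity
      exact measurableSet_exists_Icc (fun y hy => hv y (h3.trans_le hy.1))
        (fun a => (hvc a).mono fun y hy => h3.trans_le hy.1)
    · have h4 : c / ((n : ℝ) + 2) < c := by
        rw [div_lt_iff₀ (by positivity)]
        have : (0:ℝ) ≤ (n : ℝ) := Nat.cast_nonneg n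
        nlinarith
      exact measurableSet_le measurable_const (hJ _ (by linarith))
  refine measurable_of_Iio fun c => ?_
  rcases le_or_gt c 0 with hc | hc
  · have : (fun a => sInf {y | 0 < y ∧ (θ ≤ v a y ∨ K ≤ J a y)}) ⁻¹' Iio c = ∅ := by
      ext a
      simp only [mem_preimage, mem_Iio, mem_empty_iff_false, iff_false, not_lt]
      exact hc.trans (Real.sInf_nonneg fun y hy => hy.1.le)
    rw [this]
    exact MeasurableSet.empty
  have e : (fun a => sInf {y | 0 < y ∧ (θ ≤ v a y ∨ K ≤ J a y)}) ⁻¹' Iio c =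
      {a | ∃ y, 0 < y ∧ y < c ∧ (θ ≤ v a y ∨ K ≤ J a y)} ∪
        ⋂ n : ℕ, {a | ∃ y, 0 < y ∧ y < (n : ℝ) ∧ (θ ≤ v a y ∨ K ≤ J a y)}ᶜ := by
    ext a
    simp only [mem_preimage, mem_Iio, mem_union, mem_ofPred_eq, mem_iInter, mem_compl_iff]
    have hbdd : BddBelow {y | 0 < y ∧ (θ ≤ v a y ∨ K ≤ J a y)} := ⟨0, fun y hy => hy.1.le⟩
    constructor
    · intro h
      rcases Set.eq_empty_or_nonempty {y | 0 < y ∧ (θ ≤ v a y ∨ K ≤ J a y)} with h1 | h1
      · right
        rintro n ⟨y, hy1, -, hy2⟩
        have : y ∈ (∅ : Set ℝ) := h1 ▸ (⟨hy1, hy2⟩ : y ∈ {y | 0 < y ∧ (θ ≤ v a y ∨ K ≤ J a y)})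
        exact this
      · left
        obtain ⟨y, hy, hyc⟩ := exists_lt_of_csInf_lt h1 h
        exact ⟨y, hy.1, hyc, hy.2⟩
    · rintro (⟨y, h1, h2, h3⟩ | h)
      · exact (csInf_le hbdd ⟨h1, h3⟩).trans_lt h2
      · have h1 : {y | 0 < y ∧ (θ ≤ v a y ∨ K ≤ J a y)} = ∅ := by
          ext y
          simp only [mem_ofPred_eq, mem_empty_iff_false, iff_false]
          intro hy
          obtain ⟨n, hn⟩ := exists_nat_gt y
          exact h n ⟨y, hy.1, hn, hy.2⟩
        rw [h1, Real.sInf_empty]
        exact hc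
  rw [e]
  exact (hE c).union (MeasurableSet.iInter fun n => (hE _).compl)

/-! ### the state functionals -/

variable {F : α → ℂ → ℂ} {u0 : ℂ → ℝ}

lemma mI_im (y : ℝ) : ((y : ℂ) * Complex.I).im = y := by simp

lemma measurable_mI : Measurable (fun y : ℝ => (y : ℂ) * Complex.I) := by fun_prop

/-- `vv` at a measurable positive height -/
lemma measurable_vv_at (hF : MFam F) (hu : Measurable u0) {y : α → ℝ} (hy : Measurable y)
    (h0 : ∀ a, 0 < y a) : Measurable (fun a => vv u0 (F a) (y a)) := by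
  have hζ : Measurable (fun a => ((y a : ℂ) * Complex.I)) := measurable_mI.comp hy
  have h1 : ∀ a, 0 < ((y a : ℂ) * Complex.I).im := fun a => by rw [mI_im]; exact h0 a
  have h2 := hF.deriv_at hζ h1
  have h3 := hF.at hζ h1
  unfold vv KB1.ups
  exact ((Complex.measurable_im.comp hζ).mul h2.norm).div (hu.comp h3)

lemma vv_zero (f : ℂ → ℂ) : vv u0 f 0 = 0 := by
  unfold vv KB1.ups
  simp

/-- `vv` at a measurable nonnegative height -/
lemma measurable_vv_at' (hF : MFam F) (hu : Measurable u0) {y : α → ℝ} (hy : Measurable y)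
    (h0 : ∀ a, 0 ≤ y a) : Measurable (fun a => vv u0 (F a) (y a)) := by
  classical
  have h1 : Measurable (fun a => if 0 < y a then y a else 1) :=
    Measurable.ite (measurableSet_lt measurable_const hy) hy measurable_const
  have h2 := measurable_vv_at hF hu h1 (fun a => by split_ifs with h <;> linarith)
  have h3 : Measurable (fun a => if 0 < y a then vv u0 (F a) (if 0 < y a then y a else 1) else 0) :=
    Measurable.ite (measurableSet_lt measurable_const hy) h2 measurable_const
  convert h3 using 1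
  funext a
  by_cases h : 0 < y a
  · rw [if_pos h, if_pos h]
  · rw [if_neg h]
    have : y a = 0 := le_antisymm (not_lt.1 h) (h0 a)
    rw [this, vv_zero]

/-- joint measurability of `vv` -/
lemma measurable_vv_joint (hF : MFam F) (hu : Measurable u0) :
    Measurable (fun x : α × ℝ => (Ioi (0:ℝ)).indicator (vv u0 (F x.1)) x.2) := by
  classical
  have hF2 : MFam (fun x : α × ℝ => F x.1) := hF.comp_param measurable_fst
  have h1 := measurable_vv_at' hF2 hu (y := fun x => max x.2 0) (by fun_prop)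
    (fun x => le_max_right _ _)
  have h3 := h1.indicator (measurable_snd (measurableSet_Ioi (a := (0:ℝ))))
  convert h3 using 1
  funext x
  by_cases hx : x.2 ∈ Ioi (0:ℝ)
  · rw [indicator_of_mem hx, indicator_of_mem (show x ∈ Prod.snd ⁻¹' (Ioi (0:ℝ)) from hx),
      max_eq_left (le_of_lt hx)]
  · rw [indicator_of_notMem hx, indicator_of_notMem (show x ∉ Prod.snd ⁻¹' (Ioi (0:ℝ)) from hx)]

lemma continuousOn_vv {f : ℂ → ℂ} (hf : DifferentiableOn ℂ f {z : ℂ | 0 < z.im})
    (hu : Continuous u0) (hu1 : ∀ z, 1 ≤ u0 z) : ContinuousOn (vv u0 f) (Ioi 0) := by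
  have hmap : MapsTo (fun y : ℝ => (y : ℂ) * Complex.I) (Ioi 0) {z : ℂ | 0 < z.im} := by
    intro y hy
    simpa using hy
  have hmI : ContinuousOn (fun y : ℝ => (y : ℂ) * Complex.I) (Ioi 0) := by fun_prop
  have h1 : ContinuousOn (fun y : ℝ => deriv f ((y : ℂ) * Complex.I)) (Ioi 0) :=
    ((hf.deriv isOpen_H).continuousOn).comp hmI hmap
  have h2 : ContinuousOn (fun y : ℝ => f ((y : ℂ) * Complex.I)) (Ioi 0) :=
    hf.continuousOn.comp hmI hmap
  unfold vv KB1.ups
  refine ContinuousOn.div ?_ (hu.comp_continuousOn h2) (fun y _ => by linarith [hu1 (f (y * Complex.I))])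
  refine ContinuousOn.mul ?_ h1.norm
  exact Complex.continuous_im.comp_continuousOn hmI

/-- `Jv` at a measurable height -/
lemma measurable_Jv_at (hF : MFam F) (hu : Measurable u0) (q : ℝ) {y : α → ℝ}
    (hy : Measurable y) : Measurable (fun a => Jv u0 q (F a) (y a)) := by
  have h1 := measurable_vv_joint hF hu
  have h2 : Measurable (fun x : α × ℝ => {x : α × ℝ | 0 < x.2 ∧ x.2 ≤ y x.1}.indicator
      (fun x => ENNReal.ofReal ((min ((Ioi (0:ℝ)).indicator (vv u0 (F x.1)) x.2) 1) ^ q / x.2)) x) := by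
    refine Measurable.indicator ?_ ?_
    · exact (((h1.min measurable_const).pow_const q).div measurable_snd).ennreal_ofReal
    · exact (measurableSet_lt measurable_const measurable_snd).inter
        (measurableSet_le measurable_snd (hy.comp measurable_fst))
  have h3 := h2.lintegral_prod_right' (ν := (volume : Measure ℝ))
  convert h3 using 1
  funext a
  unfold Jv
  rw [← lintegral_indicator measurableSet_Ioc]
  refine lintegral_congr fun s => ?_
  by_cases hs : s ∈ Ioc (0:ℝ) (y a)
  · rw [indicator_of_mem hs, indicator_of_mem (show (a, s) ∈ {x : α × ℝ | 0 < x.2 ∧ x.2 ≤ y x.1} from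
      ⟨hs.1, hs.2⟩)]
    simp only
    rw [indicator_of_mem (show s ∈ Ioi (0:ℝ) from hs.1)]
  · rw [indicator_of_notMem hs, indicator_of_notMem
      (show (a, s) ∉ {x : α × ℝ | 0 < x.2 ∧ x.2 ≤ y x.1} from fun h => hs ⟨h.1, h.2⟩)]

lemma Jv_mono (q : ℝ) (f : ℂ → ℂ) {y y' : ℝ} (h : y ≤ y') : Jv u0 q f y ≤ Jv u0 q f y' :=
  lintegral_mono_set (Ioc_subset_Ioc_right h)

/-- **`y_x` is measurable** -/
theorem measurable_yx (hF : MFam F) (hu : Continuous u0) (hu1 : ∀ z, 1 ≤ u0 z) (q θ K3 : ℝ) :
    Measurable (fun a => yx u0 q (F a) θ K3) := by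
  unfold yx
  refine measurable_sInf_or (v := fun a y => vv u0 (F a) y) (J := fun a y => Jv u0 q (F a) y)
    (fun y hy => ?_) (fun a => continuousOn_vv (hF.diff a) hu hu1) (fun y _ => ?_)
    (fun a y y' _ h => Jv_mono q (F a) h)
  · exact measurable_vv_at hF hu.measurable measurable_const (fun _ => hy)
  · exact measurable_Jv_at hF hu.measurable q measurable_const

lemma yx_nonneg (u0 : ℂ → ℝ) (q : ℝ) (f : ℂ → ℂ) (θ K3 : ℝ) : 0 ≤ yx u0 q f θ K3 :=
  Real.sInf_nonneg fun _ hy => hy.1.le

/-- evaluation of a family at `i y(a)`, `y ≥ 0` -/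
lemma measurable_at_axis (hF : MFam F) (h00 : Measurable (fun a => F a 0)) {y : α → ℝ}
    (hy : Measurable y) (h0 : ∀ a, 0 ≤ y a) : Measurable (fun a => F a ((y a : ℂ) * Complex.I)) := by
  classical
  have hm : Measurable (fun a => (if 0 < y a then y a else 1 : ℝ)) :=
    Measurable.ite (measurableSet_lt measurable_const hy) hy measurable_const
  have h2 := hF.at (ζ := fun a => (((if 0 < y a then y a else 1 : ℝ) : ℂ) * Complex.I))
    (measurable_mI.comp hm) (fun a => by
      rw [mI_im]
      split_ifs with h <;> linarith)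
  have h3 : Measurable (fun a => if 0 < y a then
      F a (((if 0 < y a then y a else 1 : ℝ) : ℂ) * Complex.I) else F a 0) :=
    Measurable.ite (measurableSet_lt measurable_const hy) h2 h00
  convert h3 using 1
  funext a
  by_cases h : 0 < y a
  · simp only [if_pos h]
  · simp only [if_neg h]
    have : y a = 0 := le_antisymm (not_lt.1 h) (h0 a)
    rw [this]
    simp

section par

variable {p : Par}

lemma Adm.cont (hp : p.Adm) : Continuous p.u0 := hp.lip.continuous

theorem measurable_y (hF : MFam F) (hp : p.Adm) : Measurable (fun a => p.y (F a)) :=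
  measurable_yx hF (Adm.cont hp) hp.one_le _ _ _

theorem y_nonneg (p : Par) (f : ℂ → ℂ) : 0 ≤ p.y f := yx_nonneg _ _ _ _ _

/-- **`x` is measurable** -/
theorem measurable_x (hF : MFam F) (hp : p.Adm) (h00 : Measurable (fun a => F a 0)) :
    Measurable (fun a => p.x (F a)) := by
  unfold Par.x
  exact measurable_at_axis hF h00 (measurable_y hF hp) (fun a => y_nonneg p (F a))

/-- same if the step always starts at a positive height -/
theorem measurable_x' (hF : MFam F) (hp : p.Adm) (h0 : ∀ a, 0 < p.y (F a)) :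
    Measurable (fun a => p.x (F a)) := by
  unfold Par.x
  exact hF.at (measurable_mI.comp (measurable_y hF hp)) (fun a => by
    show 0 < (((p.y (F a) : ℝ) : ℂ) * Complex.I).im
    rw [mI_im]; exact h0 a)

theorem measurable_u0x (hF : MFam F) (hp : p.Adm) (h00 : Measurable (fun a => F a 0)) :
    Measurable (fun a => p.u0 (p.x (F a))) :=
  (Adm.cont hp).measurable.comp (measurable_x hF hp h00)

theorem measurable_varpi (hF : MFam F) (hp : p.Adm) (h00 : Measurable (fun a => F a 0)) :
    Measurable (fun a => p.varpi (F a)) := by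
  unfold Par.varpi
  exact (measurable_u0x hF hp h00).pow_const _

theorem measurable_vy (hF : MFam F) (hp : p.Adm) :
    Measurable (fun a => vv p.u0 (F a) (p.y (F a))) :=
  measurable_vv_at' hF (Adm.cont hp).measurable (measurable_y hF hp) (fun a => y_nonneg p (F a))

theorem measurableSet_caseA (hF : MFam F) (hp : p.Adm) : MeasurableSet {a | p.CaseA (F a)} :=
  measurableSet_le measurable_const (measurable_vy hF hp)

/-- **`ρ₁` is measurable** -/
theorem measurable_rho1 (hF : MFam F) (hp : p.Adm) : Measurable (fun a => p.rho1 (F a)) := by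
  have h1 := ((measurable_y hF hp).const_mul p.K4).indicator (measurableSet_caseA hF hp)
  have h2 := ((measurable_y hF hp).div_const 10).indicator (measurableSet_caseA hF hp).compl
  convert h1.add h2 using 1
  funext a
  unfold Par.rho1
  by_cases hc : p.CaseA (F a)
  · rw [if_pos hc]
    simp only [Pi.add_apply]
    rw [indicator_of_mem (show a ∈ {a | p.CaseA (F a)} from hc),
      indicator_of_notMem (show a ∉ {a | p.CaseA (F a)}ᶜ from fun h => h hc), add_zero]
  · rw [if_neg hc]
    simp only [Pi.add_apply]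
    rw [indicator_of_notMem (show a ∉ {a | p.CaseA (F a)} from hc),
      indicator_of_mem (show a ∈ {a | p.CaseA (F a)}ᶜ from hc), zero_add]

/-- `{(a, w) : w ∈ near (F a)}` is measurable -/
theorem measurableSet_near (hF : MFam F) (hp : p.Adm) (h00 : Measurable (fun a => F a 0)) :
    MeasurableSet {q : α × ℂ | q.2 ∈ p.near (F q.1)} := by
  unfold Par.near
  refine (measurable_snd hp.meas).inter ?_
  have h1 : Measurable (fun q : α × ℂ => dist q.2 (p.x (F q.1))) :=
    measurable_snd.dist ((measurable_x hF hp h00).comp measurable_fst)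
  exact measurableSet_lt h1 (((measurable_u0x hF hp h00).comp measurable_fst).div_const 4)

end par

end Crest.Agent.R162.LBMx
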