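import Mathlib
import Crest.Agent.R162.LBDefs
import Crest.Agent.R162.LBbc
import Crest.Agent.R162.LBMeas
import Crest.Agent.R162.LBMeas2
import Crest.Agent.R162.LBMx

/-!
Row 162 (S0243), node LB-MEAS (helper319): the concrete instances needed by LB-EXP (384, note 15144).
`EE = PathSp × ℝ≥0` (path, time), `fE κ e = ffl (drv κ e.1.1) e.2`, `drv κ p t = √κ p(t)`;
on `EE × PathSp`: the state map `st (fE e) (drv w) τ` after a fresh path `w` up to a measurable
time `τ`. More generally everything over an arbitrary parameter space with measurable maps into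
`PathSp` and `ℝ`.
-/

set_option autoImplicit false

open Set MeasureTheory Filter Topology
open scoped NNReal ENNReal

namespace Crest.Agent.R162.LBMe

open Crest.Agent.R162.FL Crest.Agent.R162.FLC Crest.Agent.R162.LB Crest.Agent.R162.LBM
open Crest.Agent.R162.LBMx Crest.Agent.R162.LBbc

variable {α : Type*} [MeasurableSpace α]

/-- driving function of the path `p` -/
noncomputable def drv (κ : ℝ) (p : ℝ≥0 → ℝ) : ℝ → ℝ := fun t => Real.sqrt κ * p t.toNNReal

lemma continuous_drv (κ : ℝ) {p : ℝ≥0 → ℝ} (hp : Continuous p) : Continuous (drv κ p) :=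
  continuous_const.mul (hp.comp continuous_real_toNNReal)

lemma measurable_eval (t : ℝ≥0) : Measurable (fun w : PathSp => w.1 t) :=
  (measurable_pi_apply t).comp measurable_subtype_coe

/-- the driving functions form a measurable family -/
lemma pfam_drv (κ : ℝ) {π : α → PathSp} (hπ : Measurable π) :
    PFam (fun a => drv κ (π a).1) := by
  refine ⟨fun a => (continuous_drv κ (π a).2).continuousOn, fun s _ => ?_⟩
  exact ((measurable_eval s.toNNReal).comp hπ).const_mul _

/-! ### state families -/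

/-- everything the measurability of the step needs from a family of state maps -/
structure SFam (F : α → ℂ → ℂ) : Prop where
  mf : MFam F
  inj : ∀ a, InjOn (F a) {z : ℂ | 0 < z.im}
  zero : Measurable (fun a => F a 0)

lemma SFam.comp_param {β : Type*} [MeasurableSpace β] {F : α → ℂ → ℂ} (hF : SFam F) {φ : β → α}
    (hφ : Measurable φ) : SFam (fun b => F (φ b)) :=
  ⟨hF.mf.comp_param hφ, fun _ => hF.inj _, hF.zero.comp hφ⟩

lemma ffl_zero' (W : ℝ → ℝ) (t : ℝ) : ffl W t 0 = 0 := LBST.ffl_of_im_nonpos W t (by simp)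

/-- a fixed univalent map -/
lemma sfam_const {f : ℂ → ℂ} (hf : DifferentiableOn ℂ f {z : ℂ | 0 < z.im})
    (hi : InjOn f {z : ℂ | 0 < z.im}) : SFam (fun _ : α => f) :=
  ⟨MFam.const hf, fun _ => hi, measurable_const⟩

/-- the inverse flow at a measurable time -/
lemma sfam_ffl {W : α → ℝ → ℝ} (hW : PFam W) {τ : α → ℝ} (hτ : Measurable τ)
    (h0 : ∀ a, 0 ≤ τ a) : SFam (fun a => ffl (W a) (τ a)) := by
  refine ⟨hW.mfam hτ h0, fun a => injOn_ffl (hW.cont a) (h0 a), ?_⟩
  have : (fun a => ffl (W a) (τ a) 0) = fun _ => (0 : ℂ) := funext fun a => ffl_zero' _ _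
  rw [this]
  exact measurable_const

/-- the state after a fresh path -/
lemma SFam.st {F : α → ℂ → ℂ} (hF : SFam F) {W : α → ℝ → ℝ} (hW : PFam W) {τ : α → ℝ}
    (hτ : Measurable τ) (h0 : ∀ a, 0 ≤ τ a) :
    SFam (fun a => Par.st (F a) (W a) (τ a)) := by
  have hG := sfam_ffl hW hτ h0
  have hmaps : ∀ a z, 0 < z.im → 0 < (ffl (W a) (τ a) z).im := fun a z hz =>
    ffl_im_pos (hW.cont a) (h0 a) hz
  refine ⟨hF.mf.comp hG.mf hmaps, fun a z hz w hw h => ?_, ?_⟩
  · exact hG.inj a hz hw (hF.inj a (hmaps a z hz) (hmaps a w hw) h)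
  · have : (fun a => Par.st (F a) (W a) (τ a) 0) = fun a => F a 0 := funext fun a => by
      show F a (ffl (W a) (τ a) 0) = F a 0
      rw [ffl_zero']
    rw [this]
    exact hF.zero

section par

variable {p : Par} {F : α → ℂ → ℂ}

theorem SFam.lam (hF : SFam F) (hp : p.Adm) : Measurable (fun a => p.Λ (F a)) :=
  hF.mf.Lam hp.lip.continuous

theorem SFam.area (hF : SFam F) (hp : p.Adm) : Measurable (fun a => p.A (F a)) :=
  hF.mf.area hF.inj hp.lip.continuous _

lemma SFam.meas_zero (hF : SFam F) : Measurable (fun a => F a 0) := hF.zero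

theorem SFam.y (hF : SFam F) (hp : p.Adm) : Measurable (fun a => p.y (F a)) :=
  measurable_y hF.mf hp

theorem SFam.x (hF : SFam F) (hp : p.Adm) : Measurable (fun a => p.x (F a)) :=
  measurable_x hF.mf hp hF.meas_zero

theorem SFam.u0x (hF : SFam F) (hp : p.Adm) : Measurable (fun a => p.u0 (p.x (F a))) :=
  measurable_u0x hF.mf hp hF.meas_zero

theorem SFam.varpi (hF : SFam F) (hp : p.Adm) : Measurable (fun a => p.varpi (F a)) :=
  measurable_varpi hF.mf hp hF.meas_zero

theorem SFam.rho1 (hF : SFam F) (hp : p.Adm) : Measurable (fun a => p.rho1 (F a)) :=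
  measurable_rho1 hF.mf hp

theorem SFam.jv (hF : SFam F) (hp : p.Adm) {y : α → ℝ} (hy : Measurable y) :
    Measurable (fun a => Jv p.u0 p.q (F a) (y a)) :=
  measurable_Jv_at hF.mf hp.lip.continuous.measurable _ hy

/-- `{a : Λ(F a) ≠ ⊤}` is measurable -/
theorem SFam.lam_ne_top (hF : SFam F) (hp : p.Adm) : MeasurableSet {a | p.Λ (F a) ≠ ⊤} :=
  (measurableSet_eq_fun (hF.lam hp) measurable_const).compl

end par

/-! ### the space `EE` of 384 -/

/-- (path, time) -/
abbrev EE := PathSp × ℝ≥0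

/-- state map of `e = (path, time)` -/
noncomputable def fE (κ : ℝ) (e : EE) : ℂ → ℂ := ffl (drv κ e.1.1) e.2

lemma sfam_fE (κ : ℝ) : SFam (fun e : EE => fE κ e) :=
  sfam_ffl (pfam_drv κ measurable_fst) (measurable_coe_nnreal_real.comp measurable_snd)
    (fun e => e.2.2)

lemma sfam_fE' (κ : ℝ) : SFam (fun x : EE × PathSp => fE κ x.1) :=
  (sfam_fE κ).comp_param measurable_fst

lemma pfam_snd (κ : ℝ) : PFam (fun x : EE × PathSp => drv κ x.2.1) := pfam_drv κ measurable_snd

/-- state after the fresh path `x.2` up to the measurable time `τ` -/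
lemma sfam_st (κ : ℝ) {τ : EE × PathSp → ℝ} (hτ : Measurable τ) (h0 : ∀ x, 0 ≤ τ x) :
    SFam (fun x : EE × PathSp => Par.st (fE κ x.1) (drv κ x.2.1) (τ x)) :=
  (sfam_fE' κ).st (pfam_snd κ) hτ h0

/-- driving families over a probability space: `driving κ B ω` -/
lemma pfam_driving {Ω : Type*} [MeasurableSpace Ω] {B : ℝ≥0 → Ω → ℝ}
    (hm : ∀ t, Measurable (B t)) (hc : ∀ ω, Continuous fun t => B t ω) (κ : ℝ) :
    PFam (fun ω => Crest.ProbabilityR.Loewner.driving κ B ω) := by
  refine ⟨fun ω => (continuous_drv κ (hc ω)).continuousOn, fun s _ => ?_⟩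
  exact (hm s.toNNReal).const_mul _

end Crest.Agent.R162.LBMe
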