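import Mathlib
import Crest.Agent.R162.FLE
import Crest.Agent.R162.LBDefs
import Crest.Agent.R162.LBMeas

/-!
Row 162 (S0243), node LB-MEAS, content half (helper772): measurability of the radius `rad`, of the
content density `cd`, of `cz`, of `content` and of `Par.cont`, `Par.nearC`, `Par.farC`, `Par.Bad3`
along measurable families (`MFam`, `PFam` of helper412).
-/

set_option autoImplicit false

open Set MeasureTheory Filter Topology
open scoped NNReal ENNReal

namespace Crest.Agent.R162.LBM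

open Crest.Agent.R162.FL Crest.Agent.R162.FLC Crest.Agent.R162.FLD Crest.Agent.R162.LB
open Crest.Agent.R162.OP (sfl gr)

/-! ### the radius -/

/-- a countable dense set of `[0,1]` -/
abbrev Q01 : Type := {q : ℚ // 0 ≤ q ∧ q ≤ 1}

instance : Nonempty Q01 := ⟨⟨0, le_rfl, zero_le_one⟩⟩

lemma sSup_abs_eq {W : ℝ → ℝ} (hW : ContinuousOn W (Ici 0)) {t : ℝ} (ht : 0 ≤ t) :
    sSup ((fun s => |W s|) '' Icc 0 t) = ⨆ q : Q01, |W ((q.1 : ℝ) * t)| := by
  have hq0 : ∀ q : Q01, (0:ℝ) ≤ (q.1 : ℝ) := fun q => by exact_mod_cast q.2.1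
  have hq1 : ∀ q : Q01, (q.1 : ℝ) ≤ 1 := fun q => by exact_mod_cast q.2.2
  have hmem : ∀ q : Q01, (q.1 : ℝ) * t ∈ Icc 0 t := fun q =>
    ⟨mul_nonneg (hq0 q) ht, by nlinarith [hq0 q, hq1 q]⟩
  have hbd := bddAbove_abs (t := t) hW
  have hbd2 : BddAbove (range fun q : Q01 => |W ((q.1 : ℝ) * t)|) := by
    obtain ⟨M, hM⟩ := hbd
    exact ⟨M, by rintro _ ⟨q, rfl⟩; exact hM ⟨_, hmem q, rfl⟩⟩
  apply le_antisymm
  · refine csSup_le ⟨_, 0, ⟨le_rfl, ht⟩, rfl⟩ ?_
    rintro _ ⟨s, hs, rfl⟩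
    rcases ht.lt_or_eq with htp | rfl
    · set M := ⨆ q : Q01, |W ((q.1 : ℝ) * t)| with hM
      have hφ : Continuous (fun r : ℝ => |W (max 0 (min r 1) * t)|) := by
        refine continuous_abs.comp ?_
        refine hW.comp_continuous (f := fun r : ℝ => max 0 (min r 1) * t) (by fun_prop)
          (fun r => mem_Ici.2 (mul_nonneg (le_max_left _ _) ht))
      have h1 : ∀ r : ℝ, |W (max 0 (min r 1) * t)| ≤ M := by
        intro r
        refine Rat.denseRange_cast.induction_on (p := fun r : ℝ => |W (max 0 (min r 1) * t)| ≤ M) r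
          (isClosed_le hφ continuous_const) (fun a => ?_)
        have h2 : (max 0 (min (a : ℝ) 1)) = ((⟨max 0 (min a 1), le_max_left _ _,
            max_le zero_le_one (min_le_right _ _)⟩ : Q01).1 : ℝ) := by
          push_cast; rfl
        rw [h2]
        exact le_ciSup hbd2 _
      have h3 := h1 (s / t)
      have h4 : 0 ≤ s / t := div_nonneg hs.1 ht
      have h5 : s / t ≤ 1 := (div_le_one htp).2 hs.2
      rw [min_eq_left h5, max_eq_right h4, div_mul_cancel₀ _ htp.ne'] at h3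
      exact h3
    · have : s = 0 := le_antisymm hs.2 hs.1
      subst this
      have := le_ciSup hbd2 ⟨0, le_rfl, zero_le_one⟩
      simpa using this
  · exact ciSup_le fun q => le_csSup hbd ⟨_, hmem q, rfl⟩

section

variable {α : Type*} [MeasurableSpace α] {W : α → ℝ → ℝ} {F : α → ℂ → ℂ}

/-- evaluation at a measurable parameter and time -/
lemma PFam.at' (hW : PFam W) {β : Type*} [MeasurableSpace β] {φ : β → α} (hφ : Measurable φ)
    {τ : β → ℝ} (hτ : Measurable τ) (h0 : ∀ b, 0 ≤ τ b) : Measurable (fun b => W (φ b) (τ b)) :=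
  (hW.comp_param hφ).at hτ h0

/-- the radius at a measurable time -/
theorem PFam.rad_at (hW : PFam W) {β : Type*} [MeasurableSpace β] {φ : β → α}
    (hφ : Measurable φ) {τ : β → ℝ} (hτ : Measurable τ) (h0 : ∀ b, 0 ≤ τ b) :
    Measurable (fun b => rad (W (φ b)) (τ b)) := by
  unfold rad
  refine Measurable.max (by fun_prop) ?_
  have : (fun b => sSup ((fun s => |W (φ b) s|) '' Icc 0 (τ b)))
      = fun b => ⨆ q : Q01, |W (φ b) ((q.1 : ℝ) * τ b)| := by
    funext b
    exact sSup_abs_eq (hW.cont _) (h0 b)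
  rw [this]
  refine Measurable.iSup fun q => ?_
  refine Measurable.abs ?_
  exact hW.at' hφ (hτ.const_mul _)
    (fun b => mul_nonneg (by exact_mod_cast q.2.1) (h0 b))

/-- joint measurability of the radius on `[0,∞)` -/
theorem PFam.rad_joint (hW : PFam W) :
    Measurable (fun x : α × ℝ => (Ici (0:ℝ)).indicator (rad (W x.1)) x.2) := by
  have h1 := (hW.rad_at (β := α × ℝ) (φ := Prod.fst) measurable_fst
    (τ := fun x : α × ℝ => max x.2 0) (by fun_prop) (fun x => le_max_right _ _)).indicator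
    (measurable_snd (measurableSet_Ici (a := (0:ℝ))))
  convert h1 using 1
  funext x
  by_cases hx : x.2 ∈ Ici (0:ℝ)
  · rw [indicator_of_mem hx, indicator_of_mem (show x ∈ Prod.snd ⁻¹' (Ici (0:ℝ)) from hx),
      max_eq_left hx]
  · rw [indicator_of_notMem hx, indicator_of_notMem (show x ∉ Prod.snd ⁻¹' (Ici (0:ℝ)) from hx)]

/-- measurability of the time window `win` in `(parameter, time)` -/
theorem PFam.measurableSet_win (hW : PFam W) {τ : α → ℝ} (hτ : Measurable τ) (k : ℤ) :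
    MeasurableSet {x : α × ℝ | x.2 ∈ win (W x.1) (τ x.1) k} := by
  have h1 := hW.rad_joint
  have h2 : {x : α × ℝ | x.2 ∈ win (W x.1) (τ x.1) k} =
      {x : α × ℝ | 0 < x.2} ∩ {x : α × ℝ | x.2 ≤ τ x.1} ∩
      ({x : α × ℝ | (2 : ℝ) ^ k ≤ (Ici (0:ℝ)).indicator (rad (W x.1)) x.2} ∩
       {x : α × ℝ | (Ici (0:ℝ)).indicator (rad (W x.1)) x.2 < (2 : ℝ) ^ (k + 1)}) := by
    ext x
    simp only [win, mem_ofPred_eq, mem_inter_iff]
    constructor
    · rintro ⟨a, b, c, d⟩
      rw [indicator_of_mem (show x.2 ∈ Ici (0:ℝ) from a.le)]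
      exact ⟨⟨a, b⟩, c, d⟩
    · rintro ⟨⟨a, b⟩, c, d⟩
      rw [indicator_of_mem (show x.2 ∈ Ici (0:ℝ) from a.le)] at c d
      exact ⟨a, b, c, d⟩
  rw [h2]
  exact ((measurableSet_lt measurable_const measurable_snd).inter
    (measurableSet_le measurable_snd (hτ.comp measurable_fst))).inter
    ((measurableSet_le measurable_const h1).inter (measurableSet_lt h1 measurable_const))

/-! ### the density of the content -/

/-- passage from `[0,n]` for all `n` to `[0,∞)` -/
lemma joint_Ici {f : α × ℂ → ℝ → ℝ} (h : ∀ n : ℕ, JM (m := ‹MeasurableSpace α›) (n : ℝ) f) :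
    Measurable (fun x : (α × ℂ) × ℝ => (Ici (0:ℝ)).indicator (f x.1) x.2) := by
  refine measurable_of_tendsto_metrizable
    (f := fun (n : ℕ) (x : (α × ℂ) × ℝ) => (Icc (0:ℝ) n).indicator (f x.1) x.2)
    (fun n => h n) ?_
  rw [tendsto_pi_nhds]
  intro x
  refine tendsto_const_nhds.congr' ?_
  filter_upwards [eventually_ge_atTop ⌈x.2⌉₊] with n hn
  have hn' : x.2 ≤ n := (Nat.le_ceil _).trans (by exact_mod_cast hn)
  by_cases hx : x.2 ∈ Ici (0:ℝ)
  · rw [indicator_of_mem hx, indicator_of_mem (show x.2 ∈ Icc (0:ℝ) n from ⟨hx, hn'⟩)]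
  · rw [indicator_of_notMem hx,
      indicator_of_notMem (show x.2 ∉ Icc (0:ℝ) n from fun h => hx h.1)]

/-- joint measurability of the content density, `L (a, z) ≥ 0` a measurable weight -/
theorem cd_joint (κ ε c1 : ℝ) (hW : PFam W) {L : α × ℂ → ℝ} (hL : Measurable L) :
    Measurable (fun x : (α × ℂ) × ℝ =>
      (Ici (0:ℝ)).indicator (fun s => cd κ ε c1 (L x.1) (W x.1.1) s x.1.2) x.2) := by
  have hc : ∀ (n : ℕ) (a : α), ContinuousOn (W a) (Icc 0 (n:ℝ)) := fun n a =>
    (hW.cont a).mono fun s hs => hs.1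
  have hm : ∀ n : ℕ, ∀ s ∈ Icc (0:ℝ) n, Measurable (fun a => W a s) := fun n s hs =>
    hW.meas s hs.1
  have hu := joint_Ici (f := fun (p : α × ℂ) s => OP.ups (W p.1) s p.2)
    (fun n => jm_ups (hc n) (hm n))
  have hs := joint_Ici (f := fun (p : α × ℂ) s => sfl (W p.1) s p.2)
    (fun n => jm_sfl (hc n) (hm n))
  have hφ : Measurable (fun z : ℂ => ‖z‖) := by fun_prop
  have hz := joint_Ici (f := fun (p : α × ℂ) s => ‖Zfl (W p.1) s p.2‖)
    (fun n => (jm_Zfl (hc n) (hm n)).comp hφ)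
  have hΦ : Measurable (fun q : ((ℝ × ℝ) × ℝ) × ℝ =>
      chi (q.1.1.1 * q.1.1.2 / ε) * (q.1.1.1 * q.1.1.2) ^ (κ / 8 - 1) * q.1.2 ^ (8 / κ - 1) *
        (if c1 ≤ q.1.2 then 1 else 0) * (4 * q.1.2 ^ 2 / q.2 ^ 2)) := by
    have h1 : Measurable (fun q : ((ℝ × ℝ) × ℝ) × ℝ => chi (q.1.1.1 * q.1.1.2 / ε)) :=
      measurable_chi.comp (by fun_prop)
    have h2 : Measurable (fun q : ((ℝ × ℝ) × ℝ) × ℝ => (if c1 ≤ q.1.2 then (1:ℝ) else 0)) :=
      Measurable.ite (measurableSet_le measurable_const (by fun_prop)) measurable_const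
        measurable_const
    exact (((h1.mul (by fun_prop)).mul (by fun_prop)).mul h2).mul (by fun_prop)
  have h5 := (hΦ.comp ((((hL.comp measurable_fst).prodMk hu).prodMk hs).prodMk hz)).indicator
    (measurable_snd (measurableSet_Ici (a := (0:ℝ))))
  convert h5 using 1
  funext x
  by_cases hx : x.2 ∈ Ici (0:ℝ)
  · rw [indicator_of_mem hx, indicator_of_mem (show x ∈ Prod.snd ⁻¹' (Ici (0:ℝ)) from hx)]
    simp only [Function.comp, indicator_of_mem hx, cd]
  · rw [indicator_of_notMem hx, indicator_of_notMem (show x ∉ Prod.snd ⁻¹' (Ici (0:ℝ)) from hx)]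

/-- joint measurability of `cz` in `(parameter, point)` -/
theorem cz_joint (κ ε c1 : ℝ) (hW : PFam W) {L : α × ℂ → ℝ} (hL : Measurable L)
    {E : α → Set ℝ} (hE0 : ∀ a, E a ⊆ Ici 0) (hE : MeasurableSet {x : α × ℝ | x.2 ∈ E x.1}) :
    Measurable (fun p : α × ℂ => cz κ ε c1 (L p) (W p.1) (E p.1) p.2) := by
  have h1 := (cd_joint κ ε c1 hW hL).ennreal_ofReal
  have hS : MeasurableSet {x : (α × ℂ) × ℝ | x.2 ∈ E x.1.1} := by
    have : Measurable (fun x : (α × ℂ) × ℝ => (x.1.1, x.2)) :=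
      (measurable_fst.comp measurable_fst).prodMk measurable_snd
    exact this hE
  have h2 := (h1.indicator hS).lintegral_prod_right' (ν := volume)
  convert h2 using 1
  funext p
  have hEm : MeasurableSet (E p.1) := by
    have : Measurable (fun s : ℝ => (p.1, s)) := by fun_prop
    exact this hE
  unfold cz
  rw [← lintegral_indicator hEm]
  congr 1
  funext s
  by_cases hs : s ∈ E p.1
  · rw [indicator_of_mem hs,
      indicator_of_mem (show (p, s) ∈ {x : (α × ℂ) × ℝ | x.2 ∈ E x.1.1} from hs)]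
    simp only
    rw [indicator_of_mem (hE0 _ hs)]
  · rw [indicator_of_notMem hs,
      indicator_of_notMem (show (p, s) ∉ {x : (α × ℂ) × ℝ | x.2 ∈ E x.1.1} from hs)]

/-! ### the content -/

/-- CONTENT: measurability along families; `S a` = physical set, `E a` = time set. -/
theorem measurable_content (κ ε c1 : ℝ) (hF : MFam F) (hW : PFam W)
    {E : α → Set ℝ} (hE0 : ∀ a, E a ⊆ Ici 0) (hE : MeasurableSet {x : α × ℝ | x.2 ∈ E x.1})
    {S : α → Set ℂ} (hS : MeasurableSet {x : α × ℂ | x.2 ∈ S x.1}) :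
    Measurable (fun a => content κ ε c1 (F a) (W a) (E a) (S a)) := by
  set L : α × ℂ → ℝ := fun x => ‖{z : ℂ | 0 < z.im}.indicator (deriv (F x.1)) x.2‖ with hLd
  have hL : Measurable L := hF.deriv_meas.norm
  have h1 := cz_joint κ ε c1 hW hL hE0 hE
  have h2 : Measurable (fun p : α × ℂ =>
      ENNReal.ofReal (L p ^ 2) * cz κ ε c1 (L p) (W p.1) (E p.1) p.2) :=
    (hL.pow_const 2).ennreal_ofReal.mul h1
  have hD : MeasurableSet {p : α × ℂ | 0 < p.2.im ∧ F p.1 p.2 ∈ S p.1} := by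
    have h3 : {p : α × ℂ | 0 < p.2.im ∧ F p.1 p.2 ∈ S p.1} = {p : α × ℂ | 0 < p.2.im} ∩
        (fun p : α × ℂ => (p.1, {z : ℂ | 0 < z.im}.indicator (F p.1) p.2)) ⁻¹'
          {x : α × ℂ | x.2 ∈ S x.1} := by
      ext p
      simp only [mem_ofPred_eq, mem_inter_iff, mem_preimage]
      constructor
      · rintro ⟨a, b⟩
        rw [indicator_of_mem (show p.2 ∈ {z : ℂ | 0 < z.im} from a)]
        exact ⟨a, b⟩
      · rintro ⟨a, b⟩
        rw [indicator_of_mem (show p.2 ∈ {z : ℂ | 0 < z.im} from a)] at b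
        exact ⟨a, b⟩
    rw [h3]
    exact (measurableSet_lt measurable_const (Complex.measurable_im.comp measurable_snd)).inter
      ((measurable_fst.prodMk hF.meas) hS)
  have h4 := (h2.indicator hD).lintegral_prod_right' (ν := volume)
  convert h4 using 1
  funext a
  have hDa : MeasurableSet {z : ℂ | 0 < z.im ∧ F a z ∈ S a} := by
    have : Measurable (fun z : ℂ => (a, z)) := by fun_prop
    exact this hD
  unfold content
  rw [← lintegral_indicator hDa]
  congr 1
  funext z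
  by_cases hz : z ∈ {z : ℂ | 0 < z.im ∧ F a z ∈ S a}
  · rw [indicator_of_mem hz,
      indicator_of_mem (show (a, z) ∈ {p : α × ℂ | 0 < p.2.im ∧ F p.1 p.2 ∈ S p.1} from hz)]
    simp only [hLd]
    rw [indicator_of_mem (show z ∈ {z : ℂ | 0 < z.im} from hz.1)]
  · rw [indicator_of_notMem hz,
      indicator_of_notMem (show (a, z) ∉ {p : α × ℂ | 0 < p.2.im ∧ F p.1 p.2 ∈ S p.1} from hz)]

lemma measurableSet_Ioc_fam {τ : α → ℝ} (hτ : Measurable τ) :
    MeasurableSet {x : α × ℝ | x.2 ∈ Ioc 0 (τ x.1)} :=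
  (measurableSet_lt measurable_const measurable_snd).inter
    (measurableSet_le measurable_snd (hτ.comp measurable_fst))

lemma measurableSet_Ioc_fam₂ {σ τ : α → ℝ} (hσ : Measurable σ) (hτ : Measurable τ) :
    MeasurableSet {x : α × ℝ | x.2 ∈ Ioc (σ x.1) (τ x.1)} :=
  (measurableSet_lt (hσ.comp measurable_fst) measurable_snd).inter
    (measurableSet_le measurable_snd (hτ.comp measurable_fst))

/-- `∫⁻ w in S a, cz κ ε c1 1 (W a) (E a) w` is measurable -/
theorem measurable_cz_setLIntegral (κ ε c1 : ℝ) (hW : PFam W)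
    {E : α → Set ℝ} (hE0 : ∀ a, E a ⊆ Ici 0) (hE : MeasurableSet {x : α × ℝ | x.2 ∈ E x.1})
    {S : α → Set ℂ} (hS : MeasurableSet {x : α × ℂ | x.2 ∈ S x.1}) :
    Measurable (fun a => ∫⁻ w in S a, cz κ ε c1 1 (W a) (E a) w) := by
  have h1 := cz_joint κ ε c1 hW (L := fun _ => (1:ℝ)) measurable_const hE0 hE
  have h4 := (h1.indicator hS).lintegral_prod_right' (ν := volume)
  convert h4 using 1
  funext a
  have hSa : MeasurableSet (S a) := by
    have : Measurable (fun z : ℂ => (a, z)) := by fun_prop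
    exact this hS
  rw [← lintegral_indicator hSa]
  congr 1

variable (p : Par)

theorem measurable_cont (hp : MeasurableSet p.B) (hF : MFam F) (hW : PFam W) {τ : α → ℝ}
    (hτ : Measurable τ) : Measurable (fun a => p.cont (F a) (W a) (Ioc 0 (τ a))) :=
  measurable_content p.κ p.ε p.c1 hF hW (fun _ _ hs => hs.1.le) (measurableSet_Ioc_fam hτ)
    (S := fun _ => p.B) (measurable_snd hp)

lemma measurableSet_near (hp : p.Adm) (hx : Measurable (fun a => p.x (F a))) :
    MeasurableSet {y : α × ℂ | y.2 ∈ p.near (F y.1)} := by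
  have hu : Measurable p.u0 := hp.lip.continuous.measurable
  have h1 : Measurable (fun y : α × ℂ => dist y.2 (p.x (F y.1))) :=
    measurable_snd.dist (hx.comp measurable_fst)
  have h2 : Measurable (fun y : α × ℂ => p.u0 (p.x (F y.1)) / 4) :=
    (hu.comp (hx.comp measurable_fst)).div_const 4
  exact (measurable_snd hp.meas).inter (measurableSet_lt h1 h2)

theorem measurable_nearC (hp : p.Adm) (hF : MFam F) (hW : PFam W)
    (hx : Measurable (fun a => p.x (F a)))
    {E : α → Set ℝ} (hE0 : ∀ a, E a ⊆ Ici 0) (hE : MeasurableSet {x : α × ℝ | x.2 ∈ E x.1}) :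
    Measurable (fun a => p.nearC (F a) (W a) (E a)) :=
  measurable_content p.κ p.ε p.c1 hF hW hE0 hE (S := fun a => p.near (F a))
    (measurableSet_near p hp hx)

theorem measurable_farC (hp : p.Adm) (hF : MFam F) (hW : PFam W)
    (hx : Measurable (fun a => p.x (F a)))
    {E : α → Set ℝ} (hE0 : ∀ a, E a ⊆ Ici 0) (hE : MeasurableSet {x : α × ℝ | x.2 ∈ E x.1}) :
    Measurable (fun a => p.farC (F a) (W a) (E a)) :=
  measurable_content p.κ p.ε p.c1 hF hW hE0 hE (S := fun a => p.B \ p.near (F a))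
    ((measurable_snd hp.meas).diff (measurableSet_near p hp hx))

theorem measurable_nearC_win (hp : p.Adm) (hF : MFam F) (hW : PFam W)
    (hx : Measurable (fun a => p.x (F a))) {τ : α → ℝ} (hτ : Measurable τ) (k : ℤ) :
    Measurable (fun a => p.nearC (F a) (W a) (win (W a) (τ a) k)) :=
  measurable_nearC p hp hF hW hx (fun _ _ hs => hs.1.le) (hW.measurableSet_win hτ k)

/-- `vv` at a fixed `y > 0` -/
lemma measurable_vv_pt (hp : p.Adm) (hF : MFam F) {y : ℝ} (hy : 0 < y) :
    Measurable (fun a => vv p.u0 (F a) y) := by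
  have hu : Measurable p.u0 := hp.lip.continuous.measurable
  have h0 : ∀ _ : α, 0 < ((y : ℂ) * Complex.I).im := fun _ => by simpa using hy
  unfold vv KB1.ups
  exact ((hF.deriv_at measurable_const h0).norm.const_mul _).div
    (hu.comp (hF.at measurable_const h0))

/-- the set `{a | Bad3 at time τ a, scale 2^k}` -/
theorem measurableSet_Bad3 (hp : p.Adm) (hF : MFam F) (hW : PFam W)
    (hx : Measurable (fun a => p.x (F a))) {τ : α → ℝ} (hτ : Measurable τ) (k : ℤ) :
    MeasurableSet {a | p.Bad3 (F a) (W a) (τ a) k} := by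
  have h1 := measurable_nearC_win p hp hF hW hx hτ k
  have h2 := measurable_vv_pt p hp hF (y := (2:ℝ) ^ k) (by positivity)
  exact measurableSet_lt (h2.pow_const _).ennreal_ofReal h1

end

end Crest.Agent.R162.LBM
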