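import Mathlib
import Crest.Agent.R162.LBDefs
import Crest.Agent.R162.LBSTf
import Crest.Agent.R162.FLE2
import Crest.Agent.R162.LBST2

/-!
Row 162, node LB-ST (helper27): joint measurability of the radius `rad`, of the windows `win`, of
the content functionals `cd`, `cz`, `content` of `LBDefs` in the driving path and in the state map,
and of the condition `Bad3`; right-openness of `Bad3` in `t`.
Everything is stated for an arbitrary σ-algebra `m` on `Ω` (use `m := F t`), an `Ω`-dependent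
path `W ω` and an `Ω`-dependent state map `g ω`.
-/

set_option autoImplicit false

open Set MeasureTheory Filter Topology
open scoped NNReal ENNReal

namespace Crest.Agent.R162.LBST27

open Crest.Agent.R162.FL Crest.Agent.R162.LB Crest.Agent.R162.FLD

section generic

variable {Ω : Type*} {m : MeasurableSpace Ω} {W : Ω → ℝ → ℝ} {T : ℝ}

/-! ### the radius -/

lemma clampT_one_mul_mem {T s q : ℝ} (hs : s ∈ Icc 0 T) : clampT 1 q * s ∈ Icc 0 T := by
  have h := clampT_mem (T := 1) zero_le_one q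
  refine ⟨mul_nonneg h.1 hs.1, ?_⟩
  calc clampT 1 q * s ≤ 1 * s := mul_le_mul_of_nonneg_right h.2 hs.1
    _ ≤ T := by rw [one_mul]; exact hs.2

lemma sSup_abs_eq {w : ℝ → ℝ} {s : ℝ} (hs : 0 ≤ s) (hw : ContinuousOn w (Icc 0 s)) :
    sSup ((fun r => |w r|) '' Icc 0 s) = ⨆ q : ℚ, |w (clampT 1 (q : ℝ) * s)| := by
  have hbdd : BddAbove ((fun r => |w r|) '' Icc 0 s) :=
    (isCompact_Icc.image_of_continuousOn hw.abs).bddAbove
  have hmem : ∀ q : ℝ, clampT 1 q * s ∈ Icc 0 s := fun q =>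
    clampT_one_mul_mem (T := s) ⟨hs, le_rfl⟩
  have hbdd2 : BddAbove (range fun q : ℚ => |w (clampT 1 (q : ℝ) * s)|) := by
    obtain ⟨M, hM⟩ := hbdd
    refine ⟨M, ?_⟩
    rintro _ ⟨q, rfl⟩
    exact hM ⟨_, hmem q, rfl⟩
  apply le_antisymm
  · refine csSup_le ⟨_, 0, ⟨le_rfl, hs⟩, rfl⟩ ?_
    rintro _ ⟨r, hr, rfl⟩
    have hg : Continuous fun u : ℝ => |w (clampT 1 u * s)| := by
      refine Continuous.abs ?_
      refine hw.comp_continuous ?_ hmem
      exact (continuous_clampT 1).mul continuous_const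
    have hcl : IsClosed {u : ℝ | |w (clampT 1 u * s)| ≤ ⨆ q : ℚ, |w (clampT 1 (q : ℝ) * s)|} :=
      isClosed_le hg continuous_const
    have hall : ∀ u : ℝ, |w (clampT 1 u * s)| ≤ ⨆ q : ℚ, |w (clampT 1 (q : ℝ) * s)| := by
      intro u
      exact Rat.denseRange_cast.induction_on (p := fun u : ℝ =>
        |w (clampT 1 u * s)| ≤ ⨆ q : ℚ, |w (clampT 1 (q : ℝ) * s)|) u hcl
        (fun q => le_ciSup hbdd2 q)
    rcases hs.eq_or_lt with h0 | h0
    · subst h0
      have hr0 : r = 0 := le_antisymm hr.2 hr.1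
      have h5 := hall 0
      rw [mul_zero] at h5
      rw [hr0]
      exact h5
    · have := hall (r / s)
      rw [clampT_of_mem ⟨by have := hr.1; positivity, (div_le_one h0).2 hr.2⟩,
        div_mul_cancel₀ _ h0.ne'] at this
      exact this
  · refine ciSup_le fun q => ?_
    exact le_csSup hbdd ⟨_, hmem q, rfl⟩

/-- **joint measurability of the radius** in `(ω, s)`, `s` clamped to `[0,T]`. -/
theorem measurable_rad_joint (hT : 0 ≤ T) (hc : ∀ ω, ContinuousOn (W ω) (Icc 0 T))
    (hm : ∀ s ∈ Icc 0 T, Measurable (fun ω => W ω s)) :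
    Measurable (fun x : Ω × ℝ => rad (W x.1) (clampT T x.2)) := by
  have hJ := measurable_drive_joint (W := W) hc hm
  have h1 : ∀ q : ℚ, Measurable fun x : Ω × ℝ => |W x.1 (clampT 1 (q : ℝ) * clampT T x.2)| := by
    intro q
    have h2 : Measurable fun x : Ω × ℝ => (x.1, clampT 1 (q : ℝ) * clampT T x.2) :=
      measurable_fst.prodMk (measurable_const.mul
        ((continuous_clampT T).measurable.comp measurable_snd))
    have h3 := (hJ.comp h2).abs
    convert h3 using 1
    funext x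
    simp only [Function.comp]
    rw [indicator_of_mem]
    exact clampT_one_mul_mem (clampT_mem hT x.2)
  have h4 : (fun x : Ω × ℝ => rad (W x.1) (clampT T x.2)) = fun x : Ω × ℝ =>
      max (Real.sqrt (clampT T x.2)) (⨆ q : ℚ, |W x.1 (clampT 1 (q : ℝ) * clampT T x.2)|) := by
    funext x
    unfold rad
    have hmem := clampT_mem hT x.2
    rw [sSup_abs_eq hmem.1 ((hc x.1).mono (Icc_subset_Icc_right hmem.2))]
  rw [h4]
  refine Measurable.max ?_ (Measurable.iSup h1)
  exact (Real.continuous_sqrt.comp (continuous_clampT T)).measurable.comp measurable_snd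

theorem measurable_rad {s : ℝ} (hs : s ∈ Icc 0 T) (hc : ∀ ω, ContinuousOn (W ω) (Icc 0 T))
    (hm : ∀ s ∈ Icc 0 T, Measurable (fun ω => W ω s)) :
    Measurable (fun ω => rad (W ω) s) := by
  have h := (measurable_rad_joint (hs.1.trans hs.2) hc hm).comp
    (measurable_id.prodMk (measurable_const (a := s)))
  simpa only [Function.comp_def, id, clampT_of_mem hs] using h

/-- the windows are jointly measurable -/
theorem measurableSet_win {t : ℝ} (ht : t ≤ T) (hc : ∀ ω, ContinuousOn (W ω) (Icc 0 T))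
    (hm : ∀ s ∈ Icc 0 T, Measurable (fun ω => W ω s)) (k : ℤ) :
    MeasurableSet {x : Ω × ℝ | x.2 ∈ win (W x.1) t k} := by
  rcases lt_or_ge T 0 with hT | hT
  · have : {x : Ω × ℝ | x.2 ∈ win (W x.1) t k} = ∅ := by
      ext x
      simp only [win, mem_ofPred_eq, mem_empty_iff_false, iff_false, not_and]
      intro h1 h2
      linarith
    rw [this]
    exact MeasurableSet.empty
  have hr := measurable_rad_joint hT hc hm
  have ha : MeasurableSet {x : Ω × ℝ | (0:ℝ) < x.2} :=
    measurableSet_lt measurable_const measurable_snd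
  have hb : MeasurableSet {x : Ω × ℝ | x.2 ≤ t} :=
    measurableSet_le measurable_snd measurable_const
  have h := (ha.inter hb).inter
    ((measurableSet_le (measurable_const (a := (2:ℝ) ^ k)) hr).inter
      (measurableSet_lt hr (measurable_const (a := (2:ℝ) ^ (k + 1)))))
  convert h using 1
  ext x
  simp only [win, mem_ofPred_eq, mem_inter_iff]
  constructor
  · rintro ⟨h1, h2, h3, h4⟩
    rw [clampT_of_mem ⟨h1.le, h2.trans ht⟩]
    exact ⟨⟨h1, h2⟩, h3, h4⟩
  · rintro ⟨⟨h1, h2⟩, h3, h4⟩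
    rw [clampT_of_mem ⟨h1.le, h2.trans ht⟩] at h3 h4
    exact ⟨h1, h2, h3, h4⟩

/-! ### content -/

lemma JM.const' {E : Type*} [MeasurableSpace E] [Zero E] {f : Ω × ℂ → E} (hf : Measurable f) :
    JM (m := m) T (fun p _ => f p) :=
  JM.of_eq (F := fun x => f x.1) (hf.comp measurable_fst) (fun _ _ => rfl)

/-- joint measurability of the content density -/
theorem jm_cd (κ ε c1 : ℝ) {lam : Ω × ℂ → ℝ} (hl : Measurable lam)
    (hc : ∀ ω, ContinuousOn (W ω) (Icc 0 T))
    (hm : ∀ s ∈ Icc 0 T, Measurable (fun ω => W ω s)) :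
    JM (m := m) T (fun p s => cd κ ε c1 (lam p) (W p.1) s p.2) := by
  have hu : JM (m := m) T (fun p s => lam p * OP.ups (W p.1) s p.2) := by
    have hφ : Measurable (fun x : ℝ × ℝ => x.1 * x.2) := by fun_prop
    exact (JM.const' hl).comp₂ (jm_ups hc hm) hφ
  have h1 : JM (m := m) T (fun p s =>
      chi (lam p * OP.ups (W p.1) s p.2 / ε) * (lam p * OP.ups (W p.1) s p.2) ^ (κ / 8 - 1)) := by
    have hφ : Measurable (fun x : ℝ => chi (x / ε) * x ^ (κ / 8 - 1)) :=
      (measurable_chi.comp (measurable_id.div_const ε)).mul (by fun_prop)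
    exact hu.comp hφ
  have h2 : JM (m := m) T (fun p s => OP.sfl (W p.1) s p.2 ^ (8 / κ - 1) *
      (if c1 ≤ OP.sfl (W p.1) s p.2 then 1 else 0) * (4 * OP.sfl (W p.1) s p.2 ^ 2 /
        ‖Zfl (W p.1) s p.2‖ ^ 2)) := by
    have hφ : Measurable (fun x : ℝ × ℂ => x.1 ^ (8 / κ - 1) * (if c1 ≤ x.1 then (1:ℝ) else 0) *
        (4 * x.1 ^ 2 / ‖x.2‖ ^ 2)) := by
      refine Measurable.mul (Measurable.mul (by fun_prop) ?_) (by fun_prop)
      exact Measurable.ite (measurableSet_le measurable_const measurable_fst) measurable_const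
        measurable_const
    exact (jm_sfl hc hm).comp₂ (jm_Zfl hc hm) hφ
  have h3 : Measurable (fun x : ℝ × ℝ => x.1 * x.2) := by fun_prop
  have h4 := h1.comp₂ h2 h3
  convert h4 using 3
  unfold cd
  ring

/-- joint measurability of `cz` in `(ω, z)` for a jointly measurable time set -/
theorem measurable_cz (κ ε c1 : ℝ) {lam : Ω × ℂ → ℝ} (hl : Measurable lam)
    (hc : ∀ ω, ContinuousOn (W ω) (Icc 0 T))
    (hm : ∀ s ∈ Icc 0 T, Measurable (fun ω => W ω s))
    {E : Ω → Set ℝ} (hE : MeasurableSet {x : Ω × ℝ | x.2 ∈ E x.1})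
    (hET : ∀ ω, E ω ⊆ Icc 0 T) :
    Measurable (fun p : Ω × ℂ => cz κ ε c1 (lam p) (W p.1) (E p.1) p.2) := by
  have h1 := (jm_cd κ ε c1 hl hc hm)
  unfold JM at h1
  have hS : MeasurableSet {x : (Ω × ℂ) × ℝ | x.2 ∈ E x.1.1} := by
    have h2 : Measurable (fun x : (Ω × ℂ) × ℝ => (x.1.1, x.2)) :=
      (measurable_fst.comp measurable_fst).prodMk measurable_snd
    exact h2 hE
  have h2 := (h1.ennreal_ofReal.indicator hS).lintegral_prod_right' (ν := (volume : Measure ℝ))
  convert h2 using 1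
  funext p
  have hsec : MeasurableSet (E p.1) := by
    have h3 : Measurable (fun s : ℝ => (p.1, s)) := measurable_const.prodMk measurable_id
    exact h3 hE
  unfold cz
  rw [← lintegral_indicator hsec]
  refine lintegral_congr fun s => ?_
  by_cases hs : s ∈ E p.1
  · rw [indicator_of_mem hs, indicator_of_mem (show ((p, s) : (Ω × ℂ) × ℝ) ∈
      {x : (Ω × ℂ) × ℝ | x.2 ∈ E x.1.1} from hs), indicator_of_mem (hET _ hs)]
  · rw [indicator_of_notMem hs, indicator_of_notMem (show ((p, s) : (Ω × ℂ) × ℝ) ∉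
      {x : (Ω × ℂ) × ℝ | x.2 ∈ E x.1.1} from hs)]

/-- **measurability of the content** in `ω`, for a state map `g ω`, path `W ω`, time set `E ω`,
physical set `Bs ω`. -/
theorem measurable_content (κ ε c1 : ℝ) {g : Ω → ℂ → ℂ}
    (hg : Measurable (fun p : Ω × ℂ => if 0 < p.2.im then g p.1 p.2 else 0))
    (hd : Measurable (fun p : Ω × ℂ => if 0 < p.2.im then deriv (g p.1) p.2 else 0))
    (hc : ∀ ω, ContinuousOn (W ω) (Icc 0 T))
    (hm : ∀ s ∈ Icc 0 T, Measurable (fun ω => W ω s))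
    {E : Ω → Set ℝ} (hE : MeasurableSet {x : Ω × ℝ | x.2 ∈ E x.1})
    (hET : ∀ ω, E ω ⊆ Icc 0 T)
    {Bs : Ω → Set ℂ} (hB : MeasurableSet {x : Ω × ℂ | x.2 ∈ Bs x.1}) :
    Measurable (fun ω => content κ ε c1 (g ω) (W ω) (E ω) (Bs ω)) := by
  set lam : Ω × ℂ → ℝ := fun p => ‖if 0 < p.2.im then deriv (g p.1) p.2 else 0‖ with hlam
  have hl : Measurable lam := hd.norm
  have hz := measurable_cz κ ε c1 hl hc hm hE hET
  have him : MeasurableSet {p : Ω × ℂ | 0 < p.2.im} :=
    measurableSet_lt measurable_const (Complex.measurable_im.comp measurable_snd)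
  have hS : MeasurableSet {p : Ω × ℂ | 0 < p.2.im ∧ g p.1 p.2 ∈ Bs p.1} := by
    have h1 : Measurable (fun p : Ω × ℂ => (p.1, if 0 < p.2.im then g p.1 p.2 else 0)) :=
      measurable_fst.prodMk hg
    have h2 := him.inter (h1 hB)
    convert h2 using 1
    ext p
    simp only [mem_ofPred_eq, mem_inter_iff, mem_preimage]
    constructor
    · rintro ⟨h3, h4⟩
      rw [if_pos h3]; exact ⟨h3, h4⟩
    · rintro ⟨h3, h4⟩
      rw [if_pos h3] at h4; exact ⟨h3, h4⟩
  have h1 : Measurable (fun p : Ω × ℂ => ENNReal.ofReal (lam p ^ 2) *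
      cz κ ε c1 (lam p) (W p.1) (E p.1) p.2) := (hl.pow_const 2).ennreal_ofReal.mul hz
  have h2 := (h1.indicator hS).lintegral_prod_right' (ν := (volume : Measure ℂ))
  convert h2 using 1
  funext ω
  have hsec : MeasurableSet {z : ℂ | 0 < z.im ∧ g ω z ∈ Bs ω} := by
    have h3 : Measurable (fun z : ℂ => (ω, z)) := measurable_const.prodMk measurable_id
    exact h3 hS
  unfold content
  rw [← lintegral_indicator hsec]
  refine lintegral_congr fun z => ?_
  by_cases hz : z ∈ {z : ℂ | 0 < z.im ∧ g ω z ∈ Bs ω}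
  · rw [indicator_of_mem hz, indicator_of_mem (show ((ω, z) : Ω × ℂ) ∈
      {p : Ω × ℂ | 0 < p.2.im ∧ g p.1 p.2 ∈ Bs p.1} from hz)]
    simp only [hlam, if_pos hz.1]
  · rw [indicator_of_notMem hz, indicator_of_notMem (show ((ω, z) : Ω × ℂ) ∉
      {p : Ω × ℂ | 0 < p.2.im ∧ g p.1 p.2 ∈ Bs p.1} from hz)]

/-! ### `Bad3` -/

lemma I_im_pos {y : ℝ} (hy : 0 < y) : 0 < ((y : ℂ) * Complex.I).im := by simp [hy]

lemma measurable_at_pt {g : Ω → ℂ → ℂ}
    (hg : Measurable (fun p : Ω × ℂ => if 0 < p.2.im then g p.1 p.2 else 0)) {z : ℂ}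
    (hz : 0 < z.im) : Measurable (fun ω => g ω z) := by
  have h := hg.comp (measurable_id.prodMk (measurable_const (a := z)))
  simpa only [Function.comp_def, id, if_pos hz] using h

lemma measurable_deriv_at {g : Ω → ℂ → ℂ}
    (hd : Measurable (fun p : Ω × ℂ => if 0 < p.2.im then deriv (g p.1) p.2 else 0)) {z : ℂ}
    (hz : 0 < z.im) : Measurable (fun ω => deriv (g ω) z) := by
  have h := hd.comp (measurable_id.prodMk (measurable_const (a := z)))
  simpa only [Function.comp_def, id, if_pos hz] using h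

/-- `v(y)` is measurable in the state -/
theorem measurable_vv {u0 : ℂ → ℝ} (hu : Measurable u0) {g : Ω → ℂ → ℂ}
    (hg : Measurable (fun p : Ω × ℂ => if 0 < p.2.im then g p.1 p.2 else 0))
    (hd : Measurable (fun p : Ω × ℂ => if 0 < p.2.im then deriv (g p.1) p.2 else 0))
    {y : ℝ} (hy : 0 < y) : Measurable (fun ω => vv u0 (g ω) y) := by
  unfold vv KB1.ups
  refine Measurable.div ?_ (hu.comp (measurable_at_pt hg (I_im_pos hy)))
  exact measurable_const.mul (measurable_deriv_at hd (I_im_pos hy)).norm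

/-- the near content in the window `win W t k` is measurable -/
theorem measurable_nearC {p : Par} (hp : p.Adm) {g : Ω → ℂ → ℂ}
    (hg : Measurable (fun q : Ω × ℂ => if 0 < q.2.im then g q.1 q.2 else 0))
    (hd : Measurable (fun q : Ω × ℂ => if 0 < q.2.im then deriv (g q.1) q.2 else 0))
    (hx : Measurable (fun ω => p.x (g ω)))
    (hc : ∀ ω, ContinuousOn (W ω) (Icc 0 T))
    (hm : ∀ s ∈ Icc 0 T, Measurable (fun ω => W ω s))
    {E : Ω → Set ℝ} (hE : MeasurableSet {x : Ω × ℝ | x.2 ∈ E x.1})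
    (hET : ∀ ω, E ω ⊆ Icc 0 T) :
    Measurable (fun ω => p.nearC (g ω) (W ω) (E ω)) := by
  have hu : Measurable p.u0 := hp.lip.continuous.measurable
  refine measurable_content p.κ p.ε p.c1 hg hd hc hm hE hET ?_
  have h1 : MeasurableSet {q : Ω × ℂ | dist q.2 (p.x (g q.1)) < p.u0 (p.x (g q.1)) / 4} := by
    have hx' : Measurable (fun q : Ω × ℂ => p.x (g q.1)) := hx.comp measurable_fst
    exact measurableSet_lt (measurable_snd.dist hx') ((hu.comp hx').div_const 4)
  have h2 : MeasurableSet {q : Ω × ℂ | q.2 ∈ p.B} := measurable_snd hp.meas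
  exact h2.inter h1

/-- `{Bad3 (g ω) (W ω) t k}` is measurable -/
theorem measurableSet_bad3 {p : Par} (hp : p.Adm) {g : Ω → ℂ → ℂ}
    (hg : Measurable (fun q : Ω × ℂ => if 0 < q.2.im then g q.1 q.2 else 0))
    (hd : Measurable (fun q : Ω × ℂ => if 0 < q.2.im then deriv (g q.1) q.2 else 0))
    (hx : Measurable (fun ω => p.x (g ω)))
    (hc : ∀ ω, ContinuousOn (W ω) (Icc 0 T))
    (hm : ∀ s ∈ Icc 0 T, Measurable (fun ω => W ω s)) {t : ℝ} (ht : t ≤ T) (k : ℤ) :
    MeasurableSet {ω | p.Bad3 (g ω) (W ω) t k} := by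
  have hu : Measurable p.u0 := hp.lip.continuous.measurable
  unfold Par.Bad3
  refine measurableSet_lt ?_ ?_
  · have h2 : (0:ℝ) < 2 ^ k := by positivity
    exact ((measurable_vv hu hg hd h2).pow_const _).ennreal_ofReal
  · exact measurable_nearC hp hg hd hx hc hm (measurableSet_win ht hc hm k)
      (fun ω s hs => ⟨hs.1.le, hs.2.1.trans ht⟩)

end generic

/-! ### fixed state map, filtration form -/

section fixed

open Crest.ProbabilityR.Loewner Crest.Agent.R162.OS

variable {Ω : Type*} {m : MeasurableSpace Ω} {F : Filtration ℝ≥0 m} {B : ℝ≥0 → Ω → ℝ}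

lemma cont_driving (hBc : ∀ ω, Continuous fun t => B t ω) (κ : ℝ) (ω : Ω) :
    Continuous (driving κ B ω) := by
  unfold driving
  exact continuous_const.mul ((hBc ω).comp continuous_real_toNNReal)

lemma meas_driving (hBa : ∀ t, Measurable[F t] (B t)) (κ : ℝ) {t : ℝ≥0} {s : ℝ}
    (hs : s ∈ Icc 0 (t : ℝ)) : Measurable[F t] (fun ω => driving κ B ω s) := by
  have h1 : Measurable[F t] (B s.toNNReal) := by
    refine (hBa s.toNNReal).mono (F.mono ?_) le_rfl
    rw [Real.toNNReal_le_iff_le_coe]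
    exact hs.2
  exact h1.const_mul _

lemma isOpen_im_pos' : IsOpen {z : ℂ | 0 < z.im} :=
  isOpen_lt continuous_const Complex.continuous_im

lemma measurable_fixed {m' : MeasurableSpace Ω} {E : Type*} [TopologicalSpace E]
    [MeasurableSpace E] [BorelSpace E] [Zero E] {f : ℂ → E}
    (hf : ContinuousOn f {z | 0 < z.im}) :
    Measurable (fun q : Ω × ℂ => if 0 < q.2.im then f q.2 else 0) :=
  (LBST.measurable_ite_im hf).comp measurable_snd

/-- **(i)** for a fixed state map `f`: `{Bad3 f W t k} ∈ F t`. -/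
theorem bad3_mem {p : Par} (hp : p.Adm) {f : ℂ → ℂ} (hf : DifferentiableOn ℂ f {z | 0 < z.im})
    (hBc : ∀ ω, Continuous fun t => B t ω) (hBa : ∀ t, Measurable[F t] (B t)) (κ : ℝ) (t : ℝ≥0)
    (k : ℤ) : MeasurableSet[F t] {ω | p.Bad3 f (driving κ B ω) t k} :=
  measurableSet_bad3 (m := F t) (T := (t : ℝ)) hp (g := fun _ => f)
    (measurable_fixed (m' := F t) hf.continuousOn)
    (measurable_fixed (m' := F t) (hf.deriv isOpen_im_pos').continuousOn)
    (@measurable_const _ _ _ (F t) _) (fun ω => (cont_driving hBc κ ω).continuousOn)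
    (fun _ hs => meas_driving hBa κ hs) le_rfl k

theorem exists_bad3_mem {p : Par} (hp : p.Adm) {f : ℂ → ℂ}
    (hf : DifferentiableOn ℂ f {z | 0 < z.im})
    (hBc : ∀ ω, Continuous fun t => B t ω) (hBa : ∀ t, Measurable[F t] (B t)) (κ : ℝ) (t : ℝ≥0) :
    MeasurableSet[F t] {ω | ∃ k, p.Bad3 f (driving κ B ω) t k} := by
  have h : {ω | ∃ k, p.Bad3 f (driving κ B ω) t k} = ⋃ k : ℤ, {ω | p.Bad3 f (driving κ B ω) t k} := by
    ext ω; simp
  rw [h]
  exact @MeasurableSet.iUnion _ _ (F t) _ _ fun k => bad3_mem hp hf hBc hBa κ t k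

end fixed

/-! ### parametrised form on `E × PathSp` -/

section param

open Crest.ProbabilityR.Loewner Crest.Agent.R162.OS Crest.Agent.R162.LBbc Crest.Agent.R162.LBST

variable {E : Type*} [mE : MeasurableSpace E]

lemma measurable_EF_fst' {G : Type*} [MeasurableSpace G] {f : E × ℂ → G} (hf : Measurable f)
    (t : ℝ≥0) : Measurable[(EF E t).prod (borel ℂ)]
      (fun q : (E × PathSp) × ℂ => f (q.1.1, q.2)) := by
  have h1 : Measurable[(EF E t).prod (borel ℂ), mE.prod (borel ℂ)]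
      (fun q : (E × PathSp) × ℂ => (q.1.1, q.2)) :=
    (((measurable_fst_EF (E := E) t)).comp (@measurable_fst _ _ (EF E t) (borel ℂ))).prodMk
      (@measurable_snd _ _ (EF E t) (borel ℂ))
  exact hf.comp h1

/-- **(i), parametrised**: on `E × PathSp` with a state map `g e`, measurable in `e`. -/
theorem bad3_memE {p : Par} (hp : p.Adm) {g : E → ℂ → ℂ}
    (hg : Measurable (fun q : E × ℂ => if 0 < q.2.im then g q.1 q.2 else 0))
    (hd : Measurable (fun q : E × ℂ => if 0 < q.2.im then deriv (g q.1) q.2 else 0))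
    (hx : Measurable (fun e => p.x (g e))) (κ : ℝ) (t : ℝ≥0) (k : ℤ) :
    MeasurableSet[EF E t] {y : E × PathSp | p.Bad3 (g y.1) (driving κ (cop E) y) t k} :=
  measurableSet_bad3 (m := EF E t) (T := (t : ℝ)) hp (g := fun y => g y.1)
    (measurable_EF_fst' hg t) (measurable_EF_fst' hd t)
    (hx.comp (measurable_fst_EF t)) (fun y => (cont_driving continuous_cop κ y).continuousOn)
    (fun _ hs => meas_driving (fun s => measurable_cop le_rfl) κ hs) le_rfl k

theorem exists_bad3_memE {p : Par} (hp : p.Adm) {g : E → ℂ → ℂ}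
    (hg : Measurable (fun q : E × ℂ => if 0 < q.2.im then g q.1 q.2 else 0))
    (hd : Measurable (fun q : E × ℂ => if 0 < q.2.im then deriv (g q.1) q.2 else 0))
    (hx : Measurable (fun e => p.x (g e))) (κ : ℝ) (t : ℝ≥0) :
    MeasurableSet[EF E t] {y : E × PathSp | ∃ k, p.Bad3 (g y.1) (driving κ (cop E) y) t k} := by
  have h : {y : E × PathSp | ∃ k, p.Bad3 (g y.1) (driving κ (cop E) y) t k} =
      ⋃ k : ℤ, {y | p.Bad3 (g y.1) (driving κ (cop E) y) t k} := by
    ext ω; simp
  rw [h]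
  exact @MeasurableSet.iUnion _ _ (EF E t) _ _ fun k => bad3_memE hp hg hd hx κ t k

end param

/-! ### monotonicity / right-openness -/

lemma win_mono (w : ℝ → ℝ) {s t : ℝ} (h : s ≤ t) (k : ℤ) : win w s k ⊆ win w t k :=
  fun _ hr => ⟨hr.1, hr.2.1.trans h, hr.2.2⟩

/-- `Bad3` is monotone in time -/
theorem bad3_mono (p : Par) (f : ℂ → ℂ) (w : ℝ → ℝ) {s t : ℝ} (h : s ≤ t) {k : ℤ}
    (hb : p.Bad3 f w s k) : p.Bad3 f w t k :=
  lt_of_lt_of_le hb (content_mono (win_mono w h k) le_rfl)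

theorem bad3_right_open (p : Par) (f : ℂ → ℂ) (w : ℝ → ℝ) {t : ℝ}
    (hb : ∃ k, p.Bad3 f w t k) : ∀ᶠ s in 𝓝[>] t, ∃ k, p.Bad3 f w s k := by
  obtain ⟨k, hk⟩ := hb
  filter_upwards [self_mem_nhdsWithin] with s hs
  exact ⟨k, bad3_mono p f w (le_of_lt hs) hk⟩

end Crest.Agent.R162.LBST27
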