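import Mathlib
import Crest.Agent.R162.LBST27
import Crest.Agent.R162.LBST3
import Crest.Agent.R162.LBMeas2

/-!
Row 162, node LB-ST (helper27): `Bad3` for the families `CFam` (helper332) and `MFam` (helper412).
-/

set_option autoImplicit false

open Set MeasureTheory Filter Topology
open scoped NNReal ENNReal

namespace Crest.Agent.R162.LBST27

open Crest.Agent.R162.FL Crest.Agent.R162.LB Crest.Agent.R162.LBM Crest.Agent.R162.LBST

variable {Ω : Type*}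

lemma hg_of_mfam {m' : MeasurableSpace Ω} {g : Ω → ℂ → ℂ} (hF : MFam g) :
    Measurable (fun q : Ω × ℂ => if 0 < q.2.im then g q.1 q.2 else 0) := by
  have h := hF.meas
  convert h using 1
  funext q
  by_cases hq : 0 < q.2.im
  · rw [if_pos hq, indicator_of_mem (show q.2 ∈ {z : ℂ | 0 < z.im} from hq)]
  · rw [if_neg hq, indicator_of_notMem (show q.2 ∉ {z : ℂ | 0 < z.im} from hq)]

lemma hd_of_mfam {m' : MeasurableSpace Ω} {g : Ω → ℂ → ℂ} (hF : MFam g) :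
    Measurable (fun q : Ω × ℂ => if 0 < q.2.im then deriv (g q.1) q.2 else 0) := by
  have h := hF.deriv_meas
  convert h using 1
  funext q
  by_cases hq : 0 < q.2.im
  · rw [if_pos hq, indicator_of_mem (show q.2 ∈ {z : ℂ | 0 < z.im} from hq)]
  · rw [if_neg hq, indicator_of_notMem (show q.2 ∉ {z : ℂ | 0 < z.im} from hq)]

lemma mfam_of_cfam {m' : MeasurableSpace Ω} {g : Ω → ℂ → ℂ} (h : CFam m' g)
    (hd : ∀ ω, DifferentiableOn ℂ (g ω) {z | 0 < z.im}) : MFam g := by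
  refine ⟨?_, hd⟩
  have h1 := h.joint
  convert h1 using 1
  funext q
  by_cases hq : 0 < q.2.im
  · rw [if_pos hq, indicator_of_mem (show q.2 ∈ {z : ℂ | 0 < z.im} from hq)]
  · rw [if_neg hq, indicator_of_notMem (show q.2 ∉ {z : ℂ | 0 < z.im} from hq)]

/-- **`Bad3`, form of 412** -/
theorem measurableSet_bad3_mfam {m' : MeasurableSpace Ω} {p : Par} (hp : p.Adm)
    {g : Ω → ℂ → ℂ} (hF : MFam g) (hx : Measurable (fun ω => p.x (g ω)))
    {W : Ω → ℝ → ℝ} {t : ℝ} (hc : ∀ ω, ContinuousOn (W ω) (Icc 0 t))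
    (hm : ∀ s ∈ Icc 0 t, Measurable (fun ω => W ω s)) (k : ℤ) :
    MeasurableSet {ω | p.Bad3 (g ω) (W ω) t k} :=
  measurableSet_bad3 hp (hg_of_mfam hF) (hd_of_mfam hF) hx hc hm le_rfl k

theorem measurableSet_exists_bad3_mfam {m' : MeasurableSpace Ω} {p : Par} (hp : p.Adm)
    {g : Ω → ℂ → ℂ} (hF : MFam g) (hx : Measurable (fun ω => p.x (g ω)))
    {W : Ω → ℝ → ℝ} {t : ℝ} (hc : ∀ ω, ContinuousOn (W ω) (Icc 0 t))
    (hm : ∀ s ∈ Icc 0 t, Measurable (fun ω => W ω s)) :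
    MeasurableSet {ω | ∃ k, p.Bad3 (g ω) (W ω) t k} := by
  have h : {ω | ∃ k, p.Bad3 (g ω) (W ω) t k} = ⋃ k : ℤ, {ω | p.Bad3 (g ω) (W ω) t k} := by
    ext ω; simp
  rw [h]
  exact MeasurableSet.iUnion fun k => measurableSet_bad3_mfam hp hF hx hc hm k

/-- **`Bad3`, form of 332** (`m'` arbitrary, e.g. `F t`) -/
theorem measurableSet_bad3_cfam {m' : MeasurableSpace Ω} {p : Par} (hp : p.Adm)
    {g : Ω → ℂ → ℂ} (hF : CFam m' g) (hd : ∀ ω, DifferentiableOn ℂ (g ω) {z | 0 < z.im})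
    (hx : Measurable[m'] (fun ω => p.x (g ω)))
    {W : Ω → ℝ → ℝ} {t : ℝ} (hc : ∀ ω, ContinuousOn (W ω) (Icc 0 t))
    (hm : ∀ s ∈ Icc 0 t, Measurable[m'] (fun ω => W ω s)) (k : ℤ) :
    MeasurableSet[m'] {ω | p.Bad3 (g ω) (W ω) t k} :=
  measurableSet_bad3_mfam hp (mfam_of_cfam hF hd) hx hc hm k

theorem measurableSet_exists_bad3_cfam {m' : MeasurableSpace Ω} {p : Par} (hp : p.Adm)
    {g : Ω → ℂ → ℂ} (hF : CFam m' g) (hd : ∀ ω, DifferentiableOn ℂ (g ω) {z | 0 < z.im})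
    (hx : Measurable[m'] (fun ω => p.x (g ω)))
    {W : Ω → ℝ → ℝ} {t : ℝ} (hc : ∀ ω, ContinuousOn (W ω) (Icc 0 t))
    (hm : ∀ s ∈ Icc 0 t, Measurable[m'] (fun ω => W ω s)) :
    MeasurableSet[m'] {ω | ∃ k, p.Bad3 (g ω) (W ω) t k} :=
  measurableSet_exists_bad3_mfam hp (mfam_of_cfam hF hd) hx hc hm

/-- measurability of the content for the family `MFam` -/
theorem measurable_content_mfam {m' : MeasurableSpace Ω} (κ ε c1 : ℝ) {g : Ω → ℂ → ℂ}
    (hF : MFam g) {W : Ω → ℝ → ℝ} {T : ℝ} (hc : ∀ ω, ContinuousOn (W ω) (Icc 0 T))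
    (hm : ∀ s ∈ Icc 0 T, Measurable (fun ω => W ω s))
    {E : Ω → Set ℝ} (hE : MeasurableSet {x : Ω × ℝ | x.2 ∈ E x.1})
    (hET : ∀ ω, E ω ⊆ Icc 0 T)
    {Bs : Ω → Set ℂ} (hB : MeasurableSet {x : Ω × ℂ | x.2 ∈ Bs x.1}) :
    Measurable (fun ω => content κ ε c1 (g ω) (W ω) (E ω) (Bs ω)) :=
  measurable_content κ ε c1 (hg_of_mfam hF) (hd_of_mfam hF) hc hm hE hET hB

/-- measurability of the content up to a measurable (unbounded) time `τ ω` -/
theorem measurable_content_Ioc {m' : MeasurableSpace Ω} (κ ε c1 : ℝ) {g : Ω → ℂ → ℂ}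
    (hF : MFam g) {W : Ω → ℝ → ℝ} (hc : ∀ ω, ContinuousOn (W ω) (Ici 0))
    (hm : ∀ s, 0 ≤ s → Measurable (fun ω => W ω s))
    {τ : Ω → ℝ} (hτ : Measurable τ)
    {Bs : Ω → Set ℂ} (hB : MeasurableSet {x : Ω × ℂ | x.2 ∈ Bs x.1}) :
    Measurable (fun ω => content κ ε c1 (g ω) (W ω) (Ioc 0 (τ ω)) (Bs ω)) := by
  have h1 : ∀ n : ℕ, Measurable (fun ω => content κ ε c1 (g ω) (W ω)
      (Ioc 0 (min (τ ω) n)) (Bs ω)) := by
    intro n
    refine measurable_content_mfam (T := (n : ℝ)) κ ε c1 hF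
      (fun ω => (hc ω).mono fun s hs => hs.1) (fun s hs => hm s hs.1) ?_ ?_ hB
    · have ha : MeasurableSet {x : Ω × ℝ | (0:ℝ) < x.2} :=
        measurableSet_lt measurable_const measurable_snd
      have hb : MeasurableSet {x : Ω × ℝ | x.2 ≤ min (τ x.1) n} :=
        measurableSet_le measurable_snd ((hτ.comp measurable_fst).min measurable_const)
      exact ha.inter hb
    · intro ω s hs
      exact ⟨hs.1.le, hs.2.trans (min_le_right _ _)⟩
  refine measurable_of_tendsto_metrizable (f := fun (n : ℕ) ω => content κ ε c1 (g ω) (W ω)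
      (Ioc 0 (min (τ ω) n)) (Bs ω)) h1 ?_
  rw [tendsto_pi_nhds]
  intro ω
  obtain ⟨n, hn⟩ := exists_nat_ge (τ ω)
  refine tendsto_const_nhds.congr' ?_
  filter_upwards [eventually_ge_atTop n] with k hk
  have : τ ω ≤ (k : ℝ) := hn.trans (by exact_mod_cast hk)
  rw [min_eq_left this]

end Crest.Agent.R162.LBST27
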