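import Mathlib
import Crest.Agent.R162.LBST3
import Crest.Agent.R162.LBBr

set_option autoImplicit false

/-!
Row 162, node LB-ST, part 4 (helper332): the step time `T` of `LBDefs`: `T < t` iff a bad condition
holds at a rational time `< t`; dependence of everything on the driver before `t` only;
`T` is a stopping time of the right-continuous filtration and is measurable.
-/

open MeasureTheory ProbabilityTheory Filter Topology
open scoped NNReal ENNReal

namespace Crest.Agent.R162.LBST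

open Crest.Agent.R162.OS Crest.Agent.R162.LBbc Crest.Agent.R162.FL

variable {Ω : Type*} {p : LB.Par} {g g' : ℂ → ℂ} {V V' : ℝ → ℝ} {t : ℝ}

/-! ### the step time -/

/-- the step time as a nonnegative real -/
noncomputable def Tn (p : LB.Par) (g : ℂ → ℂ) (V : ℝ → ℝ) : ℝ≥0 := (p.T g V).toNNReal

lemma coe_Tn (p : LB.Par) (g : ℂ → ℂ) (V : ℝ → ℝ) : ((Tn p g V : ℝ≥0) : ℝ) = p.T g V :=
  Real.coe_toNNReal _ (LB.T_nonneg p g V)

lemma bad_nonempty (p : LB.Par) (g : ℂ → ℂ) (V : ℝ → ℝ) :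
    {t | 0 < t ∧ p.Bad g V t}.Nonempty := by
  refine ⟨(max (p.rho1 g) 0) ^ 2 + 1, by positivity, Or.inl ?_⟩
  unfold LB.Par.Bad1
  refine lt_of_lt_of_le ?_ (LB.sqrt_le_rad V _)
  calc p.rho1 g ≤ max (p.rho1 g) 0 := le_max_left _ _
    _ = Real.sqrt ((max (p.rho1 g) 0) ^ 2) := (Real.sqrt_sq (le_max_right _ _)).symm
    _ < _ := Real.sqrt_lt_sqrt (by positivity) (by linarith)

theorem T_lt_iff (hg : ContinuousOn g {z | 0 < z.im}) (hV : ContinuousOn V (Set.Ici 0)) :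
    p.T g V < t ↔ ∃ q : ℚ, (0 : ℝ) < q ∧ (q : ℝ) < t ∧ p.Bad g V q := by
  unfold LB.Par.T
  rw [csInf_lt_iff (LB.T_bdd p g V) (bad_nonempty p g V)]
  constructor
  · rintro ⟨s, ⟨hs0, hs⟩, hst⟩
    have h1 := bad_right hg hV hs0 hs
    have h2 : ∀ᶠ r in 𝓝[>] s, r < t := eventually_nhdsWithin_of_eventually_nhds (Iio_mem_nhds hst)
    obtain ⟨u, hu, hus⟩ := mem_nhdsGT_iff_exists_Ioo_subset.1 (h1.and h2)
    obtain ⟨q, hq1, hq2⟩ := exists_rat_btwn (show s < u from hu)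
    have h3 := hus ⟨hq1, hq2⟩
    exact ⟨q, hs0.trans hq1, h3.2, h3.1⟩
  · rintro ⟨q, h0, h1, h2⟩
    exact ⟨q, ⟨h0, h2⟩, h1⟩

/-- there are bad times arbitrarily close to `T` from above -/
theorem exists_bad_lt {s : ℝ} (hs : p.T g V < s) :
    ∃ t, 0 < t ∧ p.T g V ≤ t ∧ t < s ∧ p.Bad g V t := by
  obtain ⟨t, ⟨h0, h1⟩, h2⟩ := (csInf_lt_iff (LB.T_bdd p g V) (bad_nonempty p g V)).1 hs
  exact ⟨t, h0, csInf_le (LB.T_bdd p g V) ⟨h0, h1⟩, h2, h1⟩

/-! ### measurability -/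

section meas

variable {f : Ω → ℂ → ℂ} {W : Ω → ℝ → ℝ}

theorem measurableSet_bad {m' : MeasurableSpace Ω} (ht : 0 < t) (hf : CFam m' f)
    (hu0 : Continuous p.u0)
    (hρ : Measurable[m'] fun ω => p.rho1 (f ω)) (hx : Measurable[m'] fun ω => p.x (f ω))
    (hc : ∀ ω, ContinuousOn (W ω) (Set.Icc 0 t))
    (hm : ∀ s ∈ Set.Icc 0 t, Measurable[m'] (fun ω => W ω s))
    (h3 : ∀ k : ℤ, MeasurableSet[m'] {ω | p.Bad3 (f ω) (W ω) t k}) :
    MeasurableSet[m'] {ω | p.Bad (f ω) (W ω) t} := by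
  have e : {ω | p.Bad (f ω) (W ω) t} = {ω | p.Bad1 (f ω) (W ω) t} ∪
      ({ω | p.Bad2 (f ω) (W ω) t} ∪ ⋃ k : ℤ, {ω | p.Bad3 (f ω) (W ω) t k}) := by
    ext ω
    simp only [LB.Par.Bad, Set.mem_ofPred_eq, Set.mem_union, Set.mem_iUnion]
  rw [e]
  exact (measurableSet_bad1 ht.le hρ hc hm).union
    ((measurableSet_bad2 ht hf hu0 hx hc hm).union (MeasurableSet.iUnion h3))

/-- **`T` is a stopping time** of the right-continuous filtration; `f ω` known at time `0`. -/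
theorem isST_T {m : MeasurableSpace Ω} {F : Filtration ℝ≥0 m} (hf : CFam (F 0) f)
    (hu0 : Continuous p.u0)
    (hρ : Measurable[F 0] fun ω => p.rho1 (f ω)) (hx : Measurable[F 0] fun ω => p.x (f ω))
    (hc : ∀ ω, ContinuousOn (W ω) (Set.Ici 0))
    (hm : ∀ t : ℝ≥0, ∀ s ∈ Set.Icc 0 (t : ℝ), Measurable[F t] (fun ω => W ω s))
    (h3 : ∀ t : ℝ≥0, ∀ q : ℝ, 0 < q → q ≤ t → ∀ k : ℤ,
      MeasurableSet[F t] {ω | p.Bad3 (f ω) (W ω) q k}) :
    IsST F.rightCont (fun ω => Tn p (f ω) (W ω)) := by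
  refine isST_rc_of_lt fun t => ?_
  have e : {ω | Tn p (f ω) (W ω) < t} =
      ⋃ q : {q : ℚ // (0 : ℝ) < q ∧ (q : ℝ) < t}, {ω | p.Bad (f ω) (W ω) ((q.1 : ℚ) : ℝ)} := by
    ext ω
    simp only [Set.mem_ofPred_eq, Set.mem_iUnion, Subtype.exists, exists_prop]
    rw [← NNReal.coe_lt_coe, coe_Tn, T_lt_iff (hf.cont ω) (hc ω)]
    simp only [and_assoc]
  rw [e]
  refine MeasurableSet.iUnion fun q => ?_
  have h0t : F 0 ≤ F t := F.mono zero_le
  refine measurableSet_bad q.2.1 (hf.mono h0t) hu0 (hρ.mono h0t le_rfl) (hx.mono h0t le_rfl)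
    (fun ω => (hc ω).mono fun s hs => hs.1) (fun s hs => ?_) (fun k => ?_)
  · exact hm t s ⟨hs.1, hs.2.trans q.2.2.le⟩
  · exact h3 t _ q.2.1 q.2.2.le k

/-- `T` is measurable -/
theorem measurable_T {m' : MeasurableSpace Ω} (hf : CFam m' f)
    (hu0 : Continuous p.u0)
    (hρ : Measurable[m'] fun ω => p.rho1 (f ω)) (hx : Measurable[m'] fun ω => p.x (f ω))
    (hc : ∀ ω, ContinuousOn (W ω) (Set.Ici 0))
    (hm : ∀ s : ℝ, 0 ≤ s → Measurable[m'] (fun ω => W ω s))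
    (h3 : ∀ q : ℝ, 0 < q → ∀ k : ℤ, MeasurableSet[m'] {ω | p.Bad3 (f ω) (W ω) q k}) :
    Measurable[m'] (fun ω => p.T (f ω) (W ω)) := by
  refine measurable_of_Iio fun t => ?_
  have e : (fun ω => p.T (f ω) (W ω)) ⁻¹' Set.Iio t =
      ⋃ q : {q : ℚ // (0 : ℝ) < q ∧ (q : ℝ) < t}, {ω | p.Bad (f ω) (W ω) ((q.1 : ℚ) : ℝ)} := by
    ext ω
    simp only [Set.mem_preimage, Set.mem_Iio, Set.mem_ofPred_eq, Set.mem_iUnion, Subtype.exists,
      exists_prop]
    rw [T_lt_iff (hf.cont ω) (hc ω)]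
    simp only [and_assoc]
  rw [e]
  refine MeasurableSet.iUnion fun q => ?_
  exact measurableSet_bad q.2.1 hf hu0 hρ hx (fun ω => (hc ω).mono fun s hs => hs.1)
    (fun s hs => hm s hs.1) (fun k => h3 _ q.2.1 k)

end meas

/-! ### dependence on the driver before `t` only, and on `g` on the half-plane only -/

theorem rad_congr (h : ∀ s ∈ Set.Icc 0 t, V s = V' s) : LB.rad V t = LB.rad V' t := by
  unfold LB.rad
  rw [Set.image_congr (g := fun s => |V' s|) fun s hs => by rw [h s hs]]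

theorem win_congr (h : ∀ s ∈ Set.Icc 0 t, V s = V' s) (k : ℤ) :
    LB.win V t k = LB.win V' t k := by
  ext s
  simp only [LB.win, Set.mem_ofPred_eq]
  refine and_congr_right fun h0 => and_congr_right fun h1 => ?_
  rw [rad_congr fun r hr => h r ⟨hr.1, hr.2.trans h1⟩]

theorem cd_congr {κ ε c1 lam : ℝ} {z : ℂ} (ht : 0 ≤ t) (h : ∀ s ∈ Set.Icc 0 t, V s = V' s) :
    LB.cd κ ε c1 lam V t z = LB.cd κ ε c1 lam V' t z := by
  have hg : ∀ v ∈ Set.Icc 0 t, gfl V v z = gfl V' v z := fun v hv =>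
    FLD.gfl_congr fun x hx => h x ⟨hx.1, hx.2.trans hv.2⟩
  have hZ : ∀ v ∈ Set.Icc 0 t, Zfl V v z = Zfl V' v z := fun v hv => by
    unfold Zfl; rw [hg v hv, h v hv]
  have htm : t ∈ Set.Icc 0 t := ⟨ht, le_rfl⟩
  have hS : OP.sfl V t z = OP.sfl V' t z := by unfold OP.sfl; rw [hZ t htm]
  have hU : OP.ups V t z = OP.ups V' t z := by
    unfold OP.ups
    rw [hg t htm]
    congr 2
    refine intervalIntegral.integral_congr fun v hv => ?_
    rw [Set.uIcc_of_le ht] at hv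
    rw [hZ v hv]
  simp only [LB.cd, hS, hU, hZ t htm]

theorem cz_congr {κ ε c1 lam : ℝ} {z : ℂ} {E : Set ℝ} (hE : E ⊆ Set.Icc 0 t)
    (h : ∀ s ∈ Set.Icc 0 t, V s = V' s) :
    LB.cz κ ε c1 lam V E z = LB.cz κ ε c1 lam V' E z := by
  unfold LB.cz
  refine lintegral_congr_ae ?_
  have h1 : ∀ᵐ s ∂(volume.restrict (Set.Icc 0 t)),
      ENNReal.ofReal (LB.cd κ ε c1 lam V s z) = ENNReal.ofReal (LB.cd κ ε c1 lam V' s z) := by
    refine (ae_restrict_iff' measurableSet_Icc).2 (Eventually.of_forall fun s hs => ?_)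
    rw [cd_congr hs.1 fun r hr => h r ⟨hr.1, hr.2.trans hs.2⟩]
  exact ae_mono (Measure.restrict_mono_set volume hE) h1

theorem content_congr_drive {κ ε c1 : ℝ} {E : Set ℝ} {B : Set ℂ} (hE : E ⊆ Set.Icc 0 t)
    (h : ∀ s ∈ Set.Icc 0 t, V s = V' s) :
    LB.content κ ε c1 g V E B = LB.content κ ε c1 g V' E B := by
  unfold LB.content
  refine lintegral_congr fun z => ?_
  rw [cz_congr hE h]

theorem bad_congr_drive (ht : 0 ≤ t) (h : ∀ s ∈ Set.Icc 0 t, V s = V' s) :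
    p.Bad g V t ↔ p.Bad g V' t := by
  unfold LB.Par.Bad LB.Par.Bad1 LB.Par.Bad2 LB.Par.Bad3 LB.Par.nearC
  rw [rad_congr h]
  refine or_congr Iff.rfl (or_congr ?_ ?_)
  · refine exists_congr fun y => ?_
    rw [ffl_congr ht h]
  · refine exists_congr fun k => ?_
    rw [win_congr h, content_congr_drive (t := t) ?_ h]
    intro s hs
    exact ⟨hs.1.le, hs.2.1⟩

theorem T_congr_drive (h : ∀ s, 0 ≤ s → V s = V' s) : p.T g V = p.T g V' := by
  unfold LB.Par.T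
  congr 1
  ext t
  simp only [Set.mem_ofPred_eq]
  exact and_congr_right fun h0 => bad_congr_drive h0.le fun s hs => h s hs.1

/-- dependence on the state map on `ℍ` only (`p.B` measurable) -/
theorem T_congr_map (hB : MeasurableSet p.B) (hg : DifferentiableOn ℂ g {z | 0 < z.im})
    (h : Set.EqOn g g' {z | 0 < z.im}) (hy : 0 < p.y g) (hV : ContinuousOn V (Set.Ici 0)) :
    p.T g V = p.T g' V := by
  have him : ∀ y : ℝ, ((y : ℂ) * Complex.I).im = y := by intro y; simp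
  have hI : ∀ y : ℝ, 0 < y → g ((y : ℂ) * Complex.I) = g' ((y : ℂ) * Complex.I) := fun y hy0 =>
    h (show 0 < ((y : ℂ) * Complex.I).im by rw [him]; exact hy0)
  have hyx : p.y g = p.y g' := LB.yx_congr h
  have hx : p.x g = p.x g' := by
    unfold LB.Par.x
    rw [← hyx]
    exact hI _ hy
  have hA : p.CaseA g ↔ p.CaseA g' := by
    unfold LB.Par.CaseA
    rw [← hyx, LB.vv_congr h hy]
  have hρ : p.rho1 g = p.rho1 g' := by
    unfold LB.Par.rho1
    rw [← hyx]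
    by_cases hc : p.CaseA g
    · rw [if_pos hc, if_pos (hA.1 hc)]
    · rw [if_neg hc, if_neg fun h' => hc (hA.2 h')]
  have hnear : p.near g = p.near g' := by
    unfold LB.Par.near
    rw [hx]
  have hnm : MeasurableSet (p.near g) := hB.inter measurableSet_ball
  unfold LB.Par.T
  congr 1
  ext t
  simp only [Set.mem_ofPred_eq]
  refine and_congr_right fun h0 => ?_
  unfold LB.Par.Bad LB.Par.Bad1 LB.Par.Bad2 LB.Par.Bad3 LB.Par.nearC
  rw [hρ, hx]
  refine or_congr Iff.rfl (or_congr ?_ ?_)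
  · refine exists_congr fun y => and_congr_right fun hy0 => and_congr_right fun _ => ?_
    rw [hI _ (mul_pos (by norm_num) (rad_pos h0)), h (FLC.ffl_im_pos hV h0.le
      (show 0 < ((y : ℂ) * Complex.I).im by rw [him]; exact hy0))]
  · refine exists_congr fun k => ?_
    rw [LB.vv_congr h (by positivity : (0 : ℝ) < 2 ^ k), LB.content_congr h V _ hg hnm, hnear]

end Crest.Agent.R162.LBST
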