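import Mathlib
import Crest.Agent.R162.LBMe
import Crest.Agent.R162.LBMeasC
import Crest.Agent.R162.LBST5
import Crest.Agent.R162.LBST27
import Crest.Agent.R162.LBST27b

/-!
Row 162 (S0243), node LB-MEAS (helper319), part 2: the step time `T` and everything at `T`, for an
arbitrary family (`SFam`, `PFam`) and on `EE × PathSp`; `T` is a stopping time of `EF E`.
-/

set_option autoImplicit false

open Set MeasureTheory Filter Topology
open scoped NNReal ENNReal

namespace Crest.Agent.R162.LBMe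

open Crest.Agent.R162.FL Crest.Agent.R162.FLC Crest.Agent.R162.LB Crest.Agent.R162.LBM
open Crest.Agent.R162.LBMx Crest.Agent.R162.LBbc Crest.Agent.R162.LBST Crest.Agent.R162.OS
open Crest.ProbabilityR.Loewner

section gen

variable {α : Type*} [MeasurableSpace α] {p : Par} {F : α → ℂ → ℂ} {W : α → ℝ → ℝ}

lemma SFam.cfam (hF : SFam F) : CFam (inferInstance : MeasurableSpace α) F :=
  ⟨fun _ hz => hF.mf.at measurable_const (fun _ => hz), fun a => (hF.mf.diff a).continuousOn⟩

/-- **`T` is measurable** -/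
theorem SFam.T (hF : SFam F) (hp : p.Adm) (hW : PFam W) :
    Measurable (fun a => p.T (F a) (W a)) :=
  measurable_T hF.cfam hp.lip.continuous (hF.rho1 hp) (hF.x hp) hW.cont hW.meas
    (fun _ _ k => measurableSet_Bad3 p hp hF.mf hW (hF.x hp) measurable_const k)

theorem SFam.Tn (hF : SFam F) (hp : p.Adm) (hW : PFam W) :
    Measurable (fun a => LBST.Tn p (F a) (W a)) := (hF.T hp hW).real_toNNReal

/-- the new state -/
theorem SFam.st_T (hF : SFam F) (hp : p.Adm) (hW : PFam W) :
    SFam (fun a => Par.st (F a) (W a) (p.T (F a) (W a))) :=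
  hF.st hW (hF.T hp hW) (fun a => T_nonneg p (F a) (W a))

/-- content of the step -/
theorem SFam.cont_T (hF : SFam F) (hp : p.Adm) (hW : PFam W) :
    Measurable (fun a => p.cont (F a) (W a) (Ioc 0 (p.T (F a) (W a)))) :=
  measurable_cont p hp.meas hF.mf hW (hF.T hp hW)

theorem SFam.rad_T (hF : SFam F) (hp : p.Adm) (hW : PFam W) :
    Measurable (fun a => rad (W a) (p.T (F a) (W a))) :=
  hW.rad_at measurable_id (hF.T hp hW) (fun a => T_nonneg p (F a) (W a))

end gen

/-! ### a fixed state map and a Brownian driving function -/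

section fixed

variable {Ω : Type*} [MeasurableSpace Ω] {B : ℝ≥0 → Ω → ℝ} {f : ℂ → ℂ} {p : Par}

theorem measurable_T_fixed (hf : DifferentiableOn ℂ f {z : ℂ | 0 < z.im})
    (hi : InjOn f {z : ℂ | 0 < z.im}) (hp : p.Adm) (hm : ∀ t, Measurable (B t))
    (hc : ∀ ω, Continuous fun t => B t ω) (κ : ℝ) :
    Measurable (fun ω => p.T f (driving κ B ω)) :=
  (sfam_const hf hi).T hp (pfam_driving hm hc κ)

theorem sfam_st_fixed (hf : DifferentiableOn ℂ f {z : ℂ | 0 < z.im})
    (hi : InjOn f {z : ℂ | 0 < z.im}) (hp : p.Adm) (hm : ∀ t, Measurable (B t))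
    (hc : ∀ ω, Continuous fun t => B t ω) (κ : ℝ) :
    SFam (fun ω => Par.st f (driving κ B ω) (p.T f (driving κ B ω))) :=
  (sfam_const hf hi).st_T hp (pfam_driving hm hc κ)

theorem measurable_cont_fixed (hf : DifferentiableOn ℂ f {z : ℂ | 0 < z.im})
    (hi : InjOn f {z : ℂ | 0 < z.im}) (hp : p.Adm) (hm : ∀ t, Measurable (B t))
    (hc : ∀ ω, Continuous fun t => B t ω) (κ : ℝ) :
    Measurable (fun ω => p.cont f (driving κ B ω) (Ioc 0 (p.T f (driving κ B ω)))) :=
  (sfam_const hf hi).cont_T hp (pfam_driving hm hc κ)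

end fixed

/-! ### on `E × PathSp` -/

section EP

variable {E : Type*} [MeasurableSpace E] {g : E → ℂ → ℂ} {p : Par}

lemma pfam_EP (κ : ℝ) : PFam (fun x : E × PathSp => drv κ x.2.1) := pfam_drv κ measurable_snd

lemma sfam_EP (hg : SFam g) : SFam (fun x : E × PathSp => g x.1) := hg.comp_param measurable_fst

/-- **`T` is a stopping time of `EF E`** (right-continuous version) -/
theorem isST_EP (hg : SFam g) (hp : p.Adm) (κ : ℝ) :
    IsST (EF E).rightCont (fun x : E × PathSp => LBST.Tn p (g x.1) (drv κ x.2.1)) := by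
  refine isST_T (F := EF E) (f := fun x : E × PathSp => g x.1) (W := fun x => drv κ x.2.1)
    ⟨fun z hz => ?_, fun x => (hg.mf.diff x.1).continuousOn⟩ hp.lip.continuous ?_ ?_
    (fun x => (continuous_drv κ x.2.2).continuousOn) (fun t s hs => ?_) (fun t q hq hqt k => ?_)
  · have h : Measurable (fun e => g e z) := hg.mf.at measurable_const (fun _ => hz)
    exact h.comp (measurable_fst_EF 0)
  · exact (hg.rho1 hp).comp (measurable_fst_EF 0)
  · exact (hg.x hp).comp (measurable_fst_EF 0)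
  · have h1 : Measurable[EF E t] (cop E s.toNNReal) :=
      measurable_cop (Real.toNNReal_le_iff_le_coe.2 hs.2)
    exact h1.const_mul _
  · have h := LBST27.bad3_memE (E := E) hp (g := g) (LBST27.hg_of_mfam hg.mf)
      (LBST27.hd_of_mfam hg.mf) (hg.x hp) κ ⟨q, hq.le⟩ k
    exact (EF E).mono (show (⟨q, hq.le⟩ : ℝ≥0) ≤ t from NNReal.coe_le_coe.1 hqt) _ h

theorem isST_EP' (hg : SFam g) (hp : p.Adm) (κ : ℝ) :
    IsST (EF E).rightCont (fun x : E × PathSp => (p.T (g x.1) (drv κ x.2.1)).toNNReal) :=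
  isST_EP hg hp κ

end EP

/-! ### 384's inputs on `EE` and `EE × PathSp` -/

section EEin

variable {p : Par} (κ : ℝ)

theorem isST_EE (hp : p.Adm) :
    IsST (EF EE).rightCont (fun x => (p.T (fE κ x.1) (drv κ x.2.1)).toNNReal) :=
  isST_EP (sfam_fE κ) hp κ

theorem measurable_T_EE (hp : p.Adm) :
    Measurable (fun x : EE × PathSp => p.T (fE κ x.1) (drv κ x.2.1)) :=
  (sfam_fE' κ).T hp (pfam_snd κ)

theorem measurable_lam_EE (hp : p.Adm) : Measurable (fun e : EE => p.Λ (fE κ e)) :=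
  (sfam_fE κ).lam hp

theorem measurable_area_EE (hp : p.Adm) : Measurable (fun e : EE => p.A (fE κ e)) :=
  (sfam_fE κ).area hp

theorem measurable_u0x_EE (hp : p.Adm) : Measurable (fun e : EE => p.u0 (p.x (fE κ e))) :=
  (sfam_fE κ).u0x hp

theorem measurable_varpi_EE (hp : p.Adm) : Measurable (fun e : EE => p.varpi (fE κ e)) :=
  (sfam_fE κ).varpi hp

/-- content collected up to time `e.2` -/
theorem measurable_cz_EE {B : Set ℂ} (hB : MeasurableSet B) (κ' ε c1 : ℝ) :
    Measurable (fun e : EE => ∫⁻ w in B, cz κ' ε c1 1 (drv κ e.1.1) (Ioc 0 (e.2 : ℝ)) w) :=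
  measurable_cz_setLIntegral κ' ε c1 (pfam_drv κ measurable_fst) (fun _ _ hs => hs.1.le)
    (measurableSet_Ioc_fam (measurable_coe_nnreal_real.comp measurable_snd)) (S := fun _ => B)
    (measurable_snd hB)

theorem measurable_cont_EE (hp : p.Adm) : Measurable (fun x : EE × PathSp =>
    p.cont (fE κ x.1) (drv κ x.2.1) (Ioc 0 (p.T (fE κ x.1) (drv κ x.2.1)))) :=
  (sfam_fE' κ).cont_T hp (pfam_snd κ)

theorem sfam_st_EE (hp : p.Adm) : SFam (fun x : EE × PathSp =>
    Par.st (fE κ x.1) (drv κ x.2.1) (p.T (fE κ x.1) (drv κ x.2.1))) :=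
  (sfam_fE' κ).st_T hp (pfam_snd κ)

theorem measurable_lam_st_EE (hp : p.Adm) : Measurable (fun x : EE × PathSp =>
    p.Λ (Par.st (fE κ x.1) (drv κ x.2.1) (p.T (fE κ x.1) (drv κ x.2.1)))) :=
  (sfam_st_EE κ hp).lam hp

theorem measurable_area_st_EE (hp : p.Adm) : Measurable (fun x : EE × PathSp =>
    p.A (Par.st (fE κ x.1) (drv κ x.2.1) (p.T (fE κ x.1) (drv κ x.2.1)))) :=
  (sfam_st_EE κ hp).area hp

end EEin

end Crest.Agent.R162.LBMe
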