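import Mathlib
import Crest.Agent.R162.LBNorm
import Crest.Agent.R162.LBSkel

/-!
Row 162 (S0243), node LB-NORM, second part (helper917): from `LBNorm` to the frozen `Start` / `Ok`
of `LBSkel` (310) for `f = ffl W t`, `u₀ = uB w₀ R`.
-/

set_option autoImplicit false

open Set MeasureTheory Complex Filter Topology
open scoped ENNReal

namespace Crest.Agent.R162.LBN

open Crest.Agent.R162.FL
open Crest.Agent.R162.LB
open Crest.Agent.R162.LBS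

/-! ### `uB` -/

lemma infDist_closedBall_eq (w0 : ℂ) {R : ℝ} (hR : 0 ≤ R) (z : ℂ) :
    Metric.infDist z (Metric.closedBall w0 R) = max 0 (‖z - w0‖ - R) := by
  have hne : (Metric.closedBall w0 R).Nonempty := ⟨w0, Metric.mem_closedBall_self hR⟩
  apply le_antisymm
  · rcases le_or_gt ‖z - w0‖ R with h | h
    · have hz : z ∈ Metric.closedBall w0 R := by rwa [mem_closedBall_iff_norm]
      rw [Metric.infDist_zero_of_mem hz]
      exact le_max_left _ _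
    · refine le_trans ?_ (le_max_right _ _)
      have hpos : 0 < ‖z - w0‖ := lt_of_le_of_lt hR h
      set y : ℂ := w0 + (R / ‖z - w0‖) • (z - w0) with hy
      have hyB : y ∈ Metric.closedBall w0 R := by
        rw [mem_closedBall_iff_norm, hy, add_sub_cancel_left, norm_smul, Real.norm_eq_abs,
          abs_of_nonneg (by positivity)]
        exact le_of_eq (by field_simp)
      refine (Metric.infDist_le_dist_of_mem hyB).trans (le_of_eq ?_)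
      have e : z - y = (1 - R / ‖z - w0‖) • (z - w0) := by
        rw [hy, sub_smul, one_smul]; ring
      have h1 : 0 ≤ 1 - R / ‖z - w0‖ := by
        rw [sub_nonneg, div_le_one hpos]; exact h.le
      rw [dist_eq_norm, e, norm_smul, Real.norm_eq_abs, abs_of_nonneg h1]
      field_simp
  · rw [Metric.le_infDist hne]
    intro y hy
    rw [Metric.mem_closedBall] at hy
    refine max_le dist_nonneg ?_
    have := dist_triangle z y w0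
    rw [← dist_eq_norm]
    linarith

lemma uB_eq (w0 : ℂ) {R : ℝ} (hR : 0 ≤ R) (z : ℂ) : uB w0 R z = max 1 (‖z - w0‖ - R) := by
  rw [uB, infDist_closedBall_eq w0 hR, ← max_assoc, max_eq_left (zero_le_one' ℝ)]

lemma uB_eq' (w0 : ℂ) {R : ℝ} (hR : 0 ≤ R) : uB w0 R = fun z => max 1 (‖z - w0‖ - R) :=
  funext fun z => uB_eq w0 hR z

lemma one_le_uB (w0 : ℂ) (R : ℝ) (z : ℂ) : 1 ≤ uB w0 R z := le_max_left _ _

lemma uB_lip (w0 : ℂ) {R : ℝ} (hR : 0 ≤ R) : LipschitzWith 1 (uB w0 R) := by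
  rw [uB_eq' w0 hR]; exact u0_lip w0 R

lemma uB_le_dist (w0 : ℂ) {R : ℝ} (hR : 0 ≤ R) {w : ℂ} (hw : w ∈ Metric.closedBall w0 R) (z : ℂ) :
    uB w0 R z ≤ max 1 (dist z w) := by
  rw [uB_eq w0 hR]; exact u0_le_dist w0 hw z

lemma adm_mkP {κ c1 q η cs K4 K3 θ ε : ℝ} (w0 : ℂ) {R : ℝ} (hR : 0 ≤ R) :
    (mkP κ c1 q η cs K4 K3 θ ε (Metric.closedBall w0 R) (uB w0 R)).Adm where
  lip := uB_lip w0 hR
  one_le := one_le_uB w0 R
  meas := measurableSet_closedBall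
  le_dist := fun _ hw z => uB_le_dist w0 hR hw z

/-- `Ok` for the concrete `u₀`, `B` -/
lemma ok_mkP {κ c1 q η cs K4 K3 θ ε : ℝ} (w0 : ℂ) {R : ℝ} (hR : 0 ≤ R) (κ0 : 0 < κ) (κ8 : κ < 8)
    (ε0 : 0 < ε) (c10 : 0 < c1) (c11 : c1 < 1) (q0 : 0 < q) (η0 : 0 < η)
    (qη : 4 * q + 2 * η ≤ 1 / 2) (θ0 : 0 < θ) (θ1 : θ < 1 / 2) (h3 : 1 ≤ K3) (h4 : 1 ≤ K4)
    (hcs : 0 < cs) : Ok (mkP κ c1 q η cs K4 K3 θ ε (Metric.closedBall w0 R) (uB w0 R)) where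
  adm := adm_mkP w0 hR
  bdd := Metric.isBounded_closedBall
  κ0 := κ0
  κ8 := κ8
  ε0 := ε0
  c10 := c10
  c11 := c11
  q0 := q0
  η0 := η0
  qη := qη
  θ0 := θ0
  θ1 := θ1
  K3 := h3
  K4 := h4
  cs0 := hcs

/-! ### `Jv` and `Lam` -/

lemma vv_nonneg {u0 : ℂ → ℝ} (h1 : ∀ z, 1 ≤ u0 z) (f : ℂ → ℂ) {y : ℝ} (hy : 0 ≤ y) :
    0 ≤ vv u0 f y :=
  div_nonneg (ups_nonneg f hy) (zero_le_one.trans (h1 _))

/-- `Ψ(iy) ≤ min(v(y),1)^q` -/
lemma Psi_le_min_vv {u0 : ℂ → ℝ} (h1 : ∀ z, 1 ≤ u0 z) {q η : ℝ} (hq : 0 ≤ q) (hη : 0 ≤ η)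
    (f : ℂ → ℂ) {y : ℝ} (hy : 0 ≤ y) :
    Psi u0 q η f (y * I) ≤ (min (vv u0 f y) 1) ^ q := by
  have hm := mm_ge_one h1 f (y * I)
  have hm0 : 0 < mm u0 f (y * I) := by linarith
  have hu := ups_nonneg f hy
  have hu0 : 0 < u0 (f (y * I)) := by linarith [h1 (f (y * I))]
  have h2 : KB1.ups f (y * I) / mm u0 f (y * I) ≤ min (vv u0 f y) 1 := by
    refine le_min ?_ ?_
    · exact div_le_div_of_nonneg_left hu hu0 (le_max_right _ _)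
    · exact (div_le_one hm0).2 (le_max_left _ _)
  calc Psi u0 q η f (y * I)
      = KB1.ups f (y * I) ^ q * mm u0 f (y * I) ^ (-q - η) := rfl
    _ ≤ KB1.ups f (y * I) ^ q * mm u0 f (y * I) ^ (-q) := by
        refine mul_le_mul_of_nonneg_left ?_ (Real.rpow_nonneg hu _)
        exact Real.rpow_le_rpow_of_exponent_le hm (by linarith)
    _ = (KB1.ups f (y * I) / mm u0 f (y * I)) ^ q := by
        rw [Real.div_rpow hu hm0.le, Real.rpow_neg hm0.le]; rfl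
    _ ≤ _ := Real.rpow_le_rpow (div_nonneg hu hm0.le) h2 hq

lemma lintegral_Psi_le_Jv {u0 : ℂ → ℝ} (h1 : ∀ z, 1 ≤ u0 z) {q η : ℝ} (hq : 0 ≤ q) (hη : 0 ≤ η)
    (f : ℂ → ℂ) (a : ℝ) :
    ∫⁻ y in Ioc 0 a, ENNReal.ofReal (Psi u0 q η f (y * I) / y) ≤ Jv u0 q f a := by
  refine lintegral_mono_ae ?_
  filter_upwards [ae_restrict_mem measurableSet_Ioc] with y hy
  exact ENNReal.ofReal_le_ofReal
    (div_le_div_of_nonneg_right (Psi_le_min_vv h1 hq hη f hy.1.le) hy.1.le)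

/-- `J(b) ≤ J(a) + (b-a)/a` -/
lemma Jv_le_add {u0 : ℂ → ℝ} (h1 : ∀ z, 1 ≤ u0 z) {q : ℝ} (hq : 0 ≤ q) (f : ℂ → ℂ) {a : ℝ}
    (ha : 0 < a) (b : ℝ) : Jv u0 q f b ≤ Jv u0 q f a + ENNReal.ofReal ((b - a) / a) := by
  have hsub : Ioc 0 b ⊆ Ioc 0 a ∪ Ioc a b := by
    intro y hy
    rcases le_or_gt y a with h | h
    · exact Or.inl ⟨hy.1, h⟩
    · exact Or.inr ⟨h, hy.2⟩
  refine (lintegral_mono_set hsub).trans ((lintegral_union_le _ _ _).trans ?_)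
  refine add_le_add le_rfl ?_
  calc ∫⁻ s in Ioc a b, ENNReal.ofReal ((min (vv u0 f s) 1) ^ q / s)
      ≤ ∫⁻ _ in Ioc a b, ENNReal.ofReal (1 / a) := by
        refine setLIntegral_mono measurable_const fun y hy => ?_
        apply ENNReal.ofReal_le_ofReal
        have hy0 : 0 < y := ha.trans hy.1
        have h2 : (min (vv u0 f y) 1) ^ q ≤ 1 :=
          Real.rpow_le_one (le_min (vv_nonneg h1 f hy0.le) zero_le_one) (min_le_right _ _) hq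
        exact div_le_div₀ zero_le_one h2 ha hy.1.le
    _ = ENNReal.ofReal ((b - a) / a) := by
        rw [setLIntegral_const, Real.volume_Ioc, ← ENNReal.ofReal_mul (by positivity)]
        congr 1; ring

lemma Jv_ne_top_all {u0 : ℂ → ℝ} (h1 : ∀ z, 1 ≤ u0 z) {q : ℝ} (hq : 0 ≤ q) {f : ℂ → ℂ} {a : ℝ}
    (ha : 0 < a) (h : Jv u0 q f a ≠ ⊤) (b : ℝ) : Jv u0 q f b ≠ ⊤ :=
  ne_top_of_le_ne_top (ENNReal.add_ne_top.2 ⟨h, ENNReal.ofReal_ne_top⟩) (Jv_le_add h1 hq f ha b)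

/-- `Λ(f) < ∞` from `J(a) < ∞` for one `a > 0` -/
theorem NormInf.Lam_ne_top_of_Jv {f : ℂ → ℂ} (hf : NormInf f) {u0 : ℂ → ℝ}
    (h1 : ∀ z, 1 ≤ u0 z) {q η : ℝ} (hq : 0 ≤ q) (hη : 0 < η) {a : ℝ} (ha : 0 < a)
    (h : Jv u0 q f a ≠ ⊤) : Lam u0 q η f ≠ ⊤ :=
  (hf.Lam_lt_top h1 hq hη ha
    ((lintegral_Psi_le_Jv h1 hq hη.le f a).trans_lt (lt_top_iff_ne_top.2 h))).ne

/-! ### `Start` -/

/-- `Start` for every normalised univalent map -/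
theorem NormInf.start {p : Par} {f : ℂ → ℂ} (hf : NormInf f) (hu : Univ f) {w0 : ℂ} {R : ℝ}
    (hR : 0 ≤ R) (hu0 : p.u0 = uB w0 R) (hq : 0 ≤ p.q) (hη : 0 < p.η) {a : ℝ} (ha : 0 < a)
    (h : Jv p.u0 p.q f a ≠ ⊤) : Start p f where
  univ := hu
  v_tendsto := by
    rw [hu0, uB_eq' w0 hR]; exact hf.tendsto_vv w0 R
  lam := hf.Lam_ne_top_of_Jv (by rw [hu0]; exact one_le_uB w0 R) hq hη ha h
  J_ne_top := Jv_ne_top_all (by rw [hu0]; exact one_le_uB w0 R) hq ha h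

lemma univ_ffl {W : ℝ → ℝ} {t : ℝ} (hW : ContinuousOn W (Ici 0)) (ht : 0 ≤ t) :
    Univ (ffl W t) :=
  ⟨FLC.differentiableOn_ffl hW ht, FLC.injOn_ffl hW ht⟩

/-- LBS0: `Start` for `ffl W t` -/
theorem start_ffl {p : Par} {W : ℝ → ℝ} {t : ℝ} (hW : ContinuousOn W (Ici 0)) (ht : 0 ≤ t)
    {w0 : ℂ} {R : ℝ} (hR : 0 ≤ R) (hu0 : p.u0 = uB w0 R) (hq : 0 ≤ p.q) (hη : 0 < p.η) {a : ℝ}
    (ha : 0 < a) (h : Jv p.u0 p.q (ffl W t) a ≠ ⊤) : Start p (ffl W t) :=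
  (normInf_ffl hW ht).start (univ_ffl hW ht) hR hu0 hq hη ha h

/-- area bound for `uB`: one constant for all centres, radii `≥ 1`, state maps -/
theorem exists_area_uB_le {η : ℝ} (hη : 0 < η) :
    ∃ C : ℝ, 0 < C ∧ ∀ (R : ℝ) (w0 : ℂ) (θ1 : ℝ) (f : ℂ → ℂ), 1 ≤ R →
      area (uB w0 R) η θ1 f ≤ ENNReal.ofReal (C * R ^ 2) := by
  obtain ⟨C, hC, h⟩ := exists_area_le hη
  refine ⟨C, hC, fun R w0 θ1 f hR => ?_⟩
  refine h (R ^ 2) w0 (uB w0 R) θ1 f (by nlinarith) ?_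
  intro p
  rw [Real.sqrt_sq (by linarith)]
  exact uB_eq w0 (by linarith) p

/-- the identity is a start map with `Λ(id) ≤ 1/q + 1/η` -/
theorem Lam_id_uB_le (w0 : ℂ) (R : ℝ) {q η : ℝ} (hq : 0 < q) (hη : 0 < η) :
    Lam (uB w0 R) q η (fun z => z) ≤ ENNReal.ofReal (1 / q + 1 / η) :=
  Lam_id_le (one_le_uB w0 R) hq hη

end Crest.Agent.R162.LBN
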