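import Crest.Agent.R162.LBExp
import Crest.Agent.R162.LBMe2
import Crest.Agent.R162.LBSkel2
import Crest.Agent.R162.LBNorm2
import Crest.Agent.R162.LBExpS
import Crest.Agent.R162.LBBr2
import Crest.Agent.R162.LBCoc2
import Crest.Agent.R162.LB6d
import Crest.Agent.R162.LB0

/-!
Row 162 (S0243), node LB-EXP (helper384), final part: `StepAll0 κ c1 → ExpAll κ c1`.
-/

set_option autoImplicit false

open MeasureTheory ProbabilityTheory Set Filter Topology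
open scoped NNReal ENNReal

namespace Crest.Agent.R162.LBExp

open Crest.Agent.R162.FL Crest.Agent.R162.OS Crest.Agent.R162.LBDrv Crest.Agent.R162.LBStop
open Crest.Agent.R162.LBI Crest.Agent.R162.LBS
open Crest.ProbabilityR.Loewner

universe u

/-- all measurability inputs (helper319) -/
theorem meas_of {p : LB.Par} (hp : p.Adm) : Meas p where
  tau := LBMe.isST_EE p.κ hp
  C := LBMe.measurable_cont_EE p.κ hp
  L := LBMe.measurable_lam_st_EE p.κ hp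
  A := LBMe.measurable_area_st_EE p.κ hp
  L0 := LBMe.measurable_lam_EE p.κ hp
  A0 := LBMe.measurable_area_EE p.κ hp
  u0 := LBMe.measurable_u0x_EE p.κ hp
  tot := LBMe.measurable_cz_EE p.κ hp.meas p.κ p.ε p.c1

/-- all deterministic inputs -/
theorem coc_of {p : LB.Par} (hp : Ok p) {w0 : ℂ} {R : ℝ} (hR : 0 ≤ R)
    (hu0 : p.u0 = uB w0 R) : Coc p where
  c1 := fun W hW s t hs ht => LB.content_global_Ioc hW hs hp.adm.meas t
  c2 := fun W hW s t hs ht => LBCoc2.c2 hW hs ht p.B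
  c4 := fun W hW t => LB.setLIntegral_cz_ne_top hp.κ0 hp.κ8 hp.ε0 zero_le_one hW _ hp.bdd
  c5 := by
    intro f _
    refine ne_top_of_le_ne_top ?_ (LBN.area_le w0 (u0 := p.u0) (η := p.η) hR hp.η0.le (fun z => ?_)
      (p.θ / 10) f)
    · exact ENNReal.mul_ne_top (LBN.Carea_lt_top hp.η0).ne ENNReal.ofReal_ne_top
    · rw [hu0, LBN.uB_eq w0 hR]
  c6 := fun W hW t ht hL => LBExpS.start_of_lam hp hR hu0 hW ht hL
  c7 := by
    intro W hW S hS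
    obtain ⟨M, hM⟩ := LB6.u0_x_bdd hp.adm hp.θ0.le (by linarith [hp.θ1]) hW.cont hS
    refine ⟨M, fun t ht hst => hM t ht ?_⟩
    have hne : (LB0.bad p.u0 p.q (ffl W t) p.θ p.K3).Nonempty := by
      have h1 : ∀ᶠ y in atTop, p.θ < LB.vv p.u0 (ffl W t) y :=
        hst.v_tendsto.eventually_const_lt (by linarith [hp.θ1])
      obtain ⟨y, hy1, hy2⟩ := (h1.and (eventually_gt_atTop 0)).exists
      exact ⟨y, hy2, Or.inl hy1.le⟩
    exact LB0.yx_pos (f := ffl W t) (u0 := p.u0) (q := p.q) (θ := p.θ) (K3 := p.K3)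
      hst.univ.diff hst.univ.inj hp.adm.lip hp.adm.one_le hp.q0 hp.θ0 (by linarith [hp.θ1])
      (by linarith [hp.K3]) ⟨1, one_pos, (hst.J_ne_top 1).lt_top⟩ hne

/-- **the exponential bound**, any filtration. -/
theorem exp_bound {Ω : Type u} [MeasurableSpace Ω] (P : Measure Ω) [IsProbabilityMeasure P]
    (F : Filtration ℝ≥0 (inferInstance : MeasurableSpace Ω)) (B : ℝ≥0 → Ω → ℝ)
    (hB : IsBM F B P) {p : LB.Par} (hp : Ok p) {w0 : ℂ} {R : ℝ} (hR : 0 ≤ R)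
    (hu0 : p.u0 = uB w0 R) {c0 c δ : ℝ} (hc0 : 0 < c0) (hc : 0 < c) (hδ0 : 0 < δ) (hδ1 : δ < 1)
    (hS : StepS.{u} c0 c δ p) {σ : Ω → ℝ≥0} (hσ : IsST F σ) {A : Set Ω} (hA : EvST F σ A)
    (t : ℝ≥0) :
    ∫⁻ ω in A, expE (ENNReal.ofReal c0 * muI p.κ p.ε p.c1 (driving p.κ B ω) (σ ω) t p.B) ∂P ≤
      ∫⁻ ω in A, expE (ENNReal.ofReal c * p.Λ (ffl (driving p.κ B ω) (σ ω)) +
        p.A (ffl (driving p.κ B ω) (σ ω))) ∂P :=
  exp_core (F := F.rightCont) hc0 hc hδ0 hδ1 hp.η0 hp.adm.one_le hS (meas_of hp.adm)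
    (coc_of hp hR hu0) (LBST.isBM_rightCont hB) (LBST.IsST.rc hσ) (LBST.EvST.rc hA) t

/-- **`StepAll0 → ExpAll`** -/
theorem expAll_of {κ c1 : ℝ} (hκ : 0 < κ) (hκ8 : κ < 8) (hc1 : 0 < c1) (hc11 : c1 < 1)
    (h : StepAll0.{u} κ c1) : ExpAll.{u} κ c1 := by
  obtain ⟨q, η, θ, K3, K4, cs, c0, c, δ, ε₀, hq, hη, hqη, hθ, hθ1, hK3, hK4, hcs, hc0, hc, hδ,
    hδ1, hε₀, hall⟩ := h
  refine ⟨q, η, θ, c0, c, ε₀, hq, hη, hqη, hθ, hθ1, hc0, hc, hε₀, ?_⟩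
  intro w0 R ε hR hε hεε Ω _ P _ F B hB σ hσ A hA t
  have hok := LBN.ok_mkP (κ := κ) (c1 := c1) (q := q) (η := η) (cs := cs) (K4 := K4) (K3 := K3)
    (θ := θ) (ε := ε) w0 (R := R) (by linarith) hκ hκ8 hε hc1 hc11 hq hη hqη hθ hθ1 hK3 hK4 hcs
  exact exp_bound P F B hB hok (w0 := w0) (R := R) (by linarith) rfl hc0 hc hδ hδ1
    (hall _ _ ε hε hεε hok) hσ hA t

end Crest.Agent.R162.LBExp
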