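import Mathlib
import Crest.Agent.R162.LB6c
import Crest.Agent.R162.LBSkel2

/-!
Row 162 (S0243), node LB6, fifth part: `LB6.main_top` in the `expE` form of `LBSkel`
(helper564).  From the one-step inequality in product form to the exponential bound.
-/

set_option autoImplicit false

open Set MeasureTheory Filter Topology
open scoped NNReal ENNReal

namespace Crest.Agent.R162.LBExpF

open LBS LB6

/-! ### `expE` -/

lemma expE_top : expE ⊤ = ⊤ := if_pos rfl

lemma expE_of_ne_top {x : ℝ≥0∞} (h : x ≠ ⊤) : expE x = ENNReal.ofReal (Real.exp x.toReal) :=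
  if_neg h

lemma expE_zero : expE 0 = 1 := by
  rw [expE_of_ne_top ENNReal.zero_ne_top]; simp

lemma expE_ne_top {x : ℝ≥0∞} (h : x ≠ ⊤) : expE x ≠ ⊤ := by
  rw [expE_of_ne_top h]; exact ENNReal.ofReal_ne_top

lemma ne_top_of_expE {x : ℝ≥0∞} (h : expE x ≠ ⊤) : x ≠ ⊤ := by
  rintro rfl
  exact h expE_top

lemma expE_mono {x y : ℝ≥0∞} (h : x ≤ y) : expE x ≤ expE y := by
  by_cases hy : y = ⊤
  · subst hy; rw [expE_top]; exact le_top
  · have hx : x ≠ ⊤ := ne_top_of_le_ne_top hy h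
    rw [expE_of_ne_top hx, expE_of_ne_top hy]
    exact ENNReal.ofReal_le_ofReal (Real.exp_le_exp.2 (ENNReal.toReal_mono hy h))

lemma expE_monotone : Monotone expE := fun _ _ h => expE_mono h

lemma measurable_expE : Measurable expE := expE_monotone.measurable

variable {Ω : Type*} {m0 : MeasurableSpace Ω}

/-- **LB6 in the `expE` form.** -/
theorem expE_main {μ : Measure Ω} [IsFiniteMeasure μ] {F : ℕ → MeasurableSpace Ω}
    (hF : ∀ n, F n ≤ m0) (hmono : Monotone F)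
    {T : ℕ → Ω → ℝ≥0} (hT : ∀ ω, Monotone fun n => T n ω)
    {M : ℝ≥0 → ℝ≥0 → Ω → ℝ≥0∞}
    (hM0 : ∀ ω s t, t ≤ s → M s t ω = 0)
    (hMadd : ∀ ω s t r, s ≤ t → t ≤ r → M s r ω = M s t ω + M t r ω)
    (hMfin : ∀ ω s t, M s t ω ≠ ⊤)
    (hMm : ∀ n, Measurable[F n] fun ω => M 0 (T n ω) ω)
    {Λ A : ℕ → Ω → ℝ≥0∞} (hΛ : ∀ n, Measurable[F n] (Λ n))
    (hA : ∀ n, Measurable[F n] (A n)) (hAfin : ∀ n ω, A n ω ≠ ⊤)
    {u : ℕ → Ω → ℝ} (hu1 : ∀ n ω, 1 ≤ u n ω)
    (hum : ∀ n, Measurable[F n] (u n)) {η : ℝ} (hη : 0 < η)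
    {c0 c δ : ℝ} (hc0 : 0 < c0) (hc : 0 < c) (hδ0 : 0 < δ) (hδ1 : δ < 1)
    (step : ∀ n D, MeasurableSet[F n] D → (∀ ω ∈ D, Λ n ω ≠ ⊤) →
      ∫⁻ ω in D, expE (ENNReal.ofReal c0 * M (T n ω) (T (n + 1) ω) ω
          + ENNReal.ofReal c * Λ (n + 1) ω + A (n + 1) ω) ∂μ
        ≤ ∫⁻ ω in D, ENNReal.ofReal ((1 - δ) ^ (u n ω ^ (-η)))
            * expE (ENNReal.ofReal c * Λ n ω + A n ω) ∂μ)
    {D : Set Ω} (hD : MeasurableSet[F 0] D)
    (hxb : ∀ᵐ ω ∂μ, ω ∈ D → (∀ n, Λ n ω ≠ ⊤) → ∀ S : ℝ≥0, ∃ K : ℝ, ∀ n, T n ω ≤ S → u n ω ≤ K)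
    (t : ℝ≥0) :
    ∫⁻ ω in D, expE (ENNReal.ofReal c0 * M (T 0 ω) t ω) ∂μ
      ≤ ∫⁻ ω in D, expE (ENNReal.ofReal c * Λ 0 ω + A 0 ω) ∂μ := by
  classical
  have hD0 : MeasurableSet[m0] D := hF 0 D hD
  have hcpos : ENNReal.ofReal c ≠ 0 := (ENNReal.ofReal_pos.2 hc).ne'
  -- where the potential is finite
  have hV_ne : ∀ n ω, Λ n ω ≠ ⊤ → ENNReal.ofReal c * Λ n ω + A n ω ≠ ⊤ := fun n ω h =>
    ENNReal.add_ne_top.2 ⟨ENNReal.mul_ne_top ENNReal.ofReal_ne_top h, hAfin n ω⟩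
  have hV_top : ∀ n ω, Λ n ω = ⊤ → ENNReal.ofReal c * Λ n ω + A n ω = ⊤ := fun n ω h => by
    rw [h, ENNReal.mul_top hcpos, top_add]
  -- the trivial case
  by_cases hRHS : ∫⁻ ω in D, expE (ENNReal.ofReal c * Λ 0 ω + A 0 ω) ∂μ = ⊤
  · rw [hRHS]; exact le_top
  have hmV : ∀ n, Measurable[F n] fun ω => expE (ENNReal.ofReal c * Λ n ω + A n ω) := fun n =>
    measurable_expE.comp (((hΛ n).const_mul _).add (hA n))
  have hDΛ : ∀ᵐ ω ∂μ, ω ∈ D → Λ 0 ω ≠ ⊤ := by
    have h1 := ae_lt_top ((hmV 0).mono (hF 0) le_rfl) hRHS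
    rw [ae_restrict_iff' hD0] at h1
    filter_upwards [h1] with ω hω hωD hΛt
    have := hω hωD
    rw [hV_top 0 ω hΛt, expE_top] at this
    exact lt_irrefl _ this
  -- the content as a real function
  set Ct : ℝ≥0 → Ω → ℝ := fun t ω => (M 0 t ω).toReal with hCt
  have hadd : ∀ ω s t, s ≤ t → Ct t ω - Ct s ω = (M s t ω).toReal := by
    intro ω s t hst
    have := hMadd ω 0 s t zero_le hst
    simp only [hCt]
    rw [this, ENNReal.toReal_add (hMfin _ _ _) (hMfin _ _ _)]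
    ring
  have hCmono : ∀ ω, Monotone fun t => Ct t ω := by
    intro ω s t hst
    have h1 := hadd ω s t hst
    have h2 : 0 ≤ (M s t ω).toReal := ENNReal.toReal_nonneg
    show Ct s ω ≤ Ct t ω
    linarith
  have hMT : ∀ n, Measurable[m0] fun ω => M (T n ω) (T (n + 1) ω) ω := by
    intro n
    have h1 : Measurable[m0] fun ω => M 0 (T n ω) ω := (hMm n).mono (hF n) le_rfl
    have h2 : Measurable[m0] fun ω => M 0 (T (n + 1) ω) ω := (hMm (n + 1)).mono (hF (n + 1)) le_rfl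
    have h3 : (fun ω => M (T n ω) (T (n + 1) ω) ω)
        = fun ω => M 0 (T (n + 1) ω) ω - M 0 (T n ω) ω := by
      funext ω
      rw [hMadd ω 0 (T n ω) (T (n + 1) ω) zero_le (hT ω (Nat.le_succ n)),
        ENNReal.add_sub_cancel_left (hMfin _ _ _)]
    rw [h3]
    exact h2.sub h1
  have hmL : ∀ n, Measurable[m0] fun ω => expE (ENNReal.ofReal c0 * M (T n ω) (T (n + 1) ω) ω
          + ENNReal.ofReal c * Λ (n + 1) ω + A (n + 1) ω) := by
    intro n
    have h1 : Measurable[m0] (Λ (n + 1)) := (hΛ (n + 1)).mono (hF _) le_rfl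
    have h2 : Measurable[m0] (A (n + 1)) := (hA (n + 1)).mono (hF _) le_rfl
    exact measurable_expE.comp ((((hMT n).const_mul _).add (h1.const_mul _)).add h2)
  have hb1 : ∀ n ω, (1 - δ) ^ (u n ω ^ (-η)) ≤ 1 := by
    intro n ω
    apply Real.rpow_le_one (by linarith) (by linarith)
    exact Real.rpow_nonneg (zero_le_one.trans (hu1 n ω)) _
  have hb0 : ∀ n ω, 0 ≤ (1 - δ) ^ (u n ω ^ (-η)) := fun n ω => Real.rpow_nonneg (by linarith) _
  -- s1
  have s1 : ∀ n, ∀ᵐ ω ∂μ, Λ n ω ≠ ⊤ → Λ (n + 1) ω ≠ ⊤ := by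
    intro n
    have hk : ∀ k : ℕ, ∀ᵐ ω ∂μ, Λ n ω ≤ k ∧ A n ω ≤ k → Λ (n + 1) ω ≠ ⊤ := by
      intro k
      set E : Set Ω := {ω | Λ n ω ≤ k ∧ A n ω ≤ k} with hE
      have hEm : MeasurableSet[F n] E := by
        have h1 : MeasurableSet[F n] {ω | Λ n ω ≤ k} := (hΛ n) measurableSet_Iic
        have h2 : MeasurableSet[F n] {ω | A n ω ≤ k} := (hA n) measurableSet_Iic
        exact h1.inter h2
      have hEf : ∀ ω ∈ E, Λ n ω ≠ ⊤ := fun ω hω =>
        ne_top_of_le_ne_top (ENNReal.natCast_ne_top k) hω.1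
      have h1 := step n E hEm hEf
      have h2 : ∫⁻ ω in E, ENNReal.ofReal ((1 - δ) ^ (u n ω ^ (-η)))
            * expE (ENNReal.ofReal c * Λ n ω + A n ω) ∂μ
          ≤ ∫⁻ _ in E, expE (ENNReal.ofReal c * k + k) ∂μ := by
        refine setLIntegral_mono' (hF n E hEm) fun ω hω => ?_
        calc ENNReal.ofReal ((1 - δ) ^ (u n ω ^ (-η)))
            * expE (ENNReal.ofReal c * Λ n ω + A n ω)
            ≤ 1 * expE (ENNReal.ofReal c * k + k) := by
              gcongr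
              · exact ENNReal.ofReal_le_one.2 (hb1 n ω)
              · exact expE_mono (by gcongr; exacts [hω.1, hω.2])
          _ = _ := one_mul _
      have h3 : ∫⁻ _ in E, expE (ENNReal.ofReal c * k + k) ∂μ ≠ ⊤ := by
        rw [lintegral_const]
        refine ENNReal.mul_ne_top (expE_ne_top ?_) (measure_ne_top _ _)
        exact ENNReal.add_ne_top.2 ⟨ENNReal.mul_ne_top ENNReal.ofReal_ne_top
          (ENNReal.natCast_ne_top k), ENNReal.natCast_ne_top k⟩
      have h4 := ae_lt_top (hmL n) (ne_top_of_le_ne_top h3 (h1.trans h2))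
      rw [ae_restrict_iff' (hF n E hEm)] at h4
      filter_upwards [h4] with ω hω hωE hΛt
      have := hω hωE
      rw [hΛt, ENNReal.mul_top hcpos, add_top, top_add, expE_top] at this
      exact lt_irrefl _ this
    filter_upwards [ae_all_iff.2 hk] with ω hω hne
    obtain ⟨k1, hk1⟩ := exists_nat_ge (Λ n ω).toReal
    obtain ⟨k2, hk2⟩ := exists_nat_ge (A n ω).toReal
    refine hω (max k1 k2) ⟨?_, ?_⟩
    · rw [← ENNReal.ofReal_toReal hne]
      refine (ENNReal.ofReal_le_ofReal hk1).trans ?_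
      rw [ENNReal.ofReal_natCast]
      exact_mod_cast le_max_left _ _
    · rw [← ENNReal.ofReal_toReal (hAfin n ω)]
      refine (ENNReal.ofReal_le_ofReal hk2).trans ?_
      rw [ENNReal.ofReal_natCast]
      exact_mod_cast le_max_right _ _
  -- s2
  have s2 : ∀ n B, MeasurableSet[F n] B → (∀ ω ∈ B, Λ n ω ≠ ⊤) →
      ∫⁻ ω in B, ENNReal.ofReal (Real.exp (c0 * (Ct (T (n + 1) ω) ω - Ct (T n ω) ω)
          + c * ((Λ (n + 1) ω).toReal - (Λ n ω).toReal)
          + ((A (n + 1) ω).toReal - (A n ω).toReal))) ∂μ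
        ≤ ∫⁻ ω in B, ENNReal.ofReal ((1 - δ) ^ (u n ω ^ (-η))) ∂μ := by
    intro n B hB hBf
    have hB0 : MeasurableSet[m0] B := hF n B hB
    set f : Ω → ℝ := fun ω => c0 * (M (T n ω) (T (n + 1) ω) ω).toReal
      + c * (Λ (n + 1) ω).toReal + (A (n + 1) ω).toReal with hf
    set V : Ω → ℝ := fun ω => c * (Λ n ω).toReal + (A n ω).toReal with hV
    have hfm : Measurable[m0] f := by
      have h1 : Measurable[m0] (Λ (n + 1)) := (hΛ (n + 1)).mono (hF _) le_rfl
      have h2 : Measurable[m0] (A (n + 1)) := (hA (n + 1)).mono (hF _) le_rfl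
      exact (((hMT n).ennreal_toReal.const_mul _).add (h1.ennreal_toReal.const_mul _)).add
        h2.ennreal_toReal
    have hVm : Measurable[F n] V := ((hΛ n).ennreal_toReal.const_mul _).add (hA n).ennreal_toReal
    have hbm : Measurable[F n] fun ω => (1 - δ) ^ (u n ω ^ (-η)) := by
      have h1 : Measurable[F n] fun ω => u n ω ^ (-η) := (hum n).pow_const _
      exact Measurable.pow measurable_const h1
    have hprod : ∀ B', MeasurableSet[F n] B' →
        ∫⁻ ω in B', ENNReal.ofReal (Real.exp (f ω)) ∂(μ.restrict B)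
          ≤ ∫⁻ ω in B', ENNReal.ofReal ((1 - δ) ^ (u n ω ^ (-η)) * Real.exp (V ω))
              ∂(μ.restrict B) := by
      intro B' hB'
      have hB'0 : MeasurableSet[m0] B' := hF n B' hB'
      rw [Measure.restrict_restrict hB'0]
      have hI : MeasurableSet[F n] (B' ∩ B) := hB'.inter hB
      have hI0 : MeasurableSet[m0] (B' ∩ B) := hF n _ hI
      have hs := step n (B' ∩ B) hI (fun ω hω => hBf ω hω.2)
      calc ∫⁻ ω in B' ∩ B, ENNReal.ofReal (Real.exp (f ω)) ∂μ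
          ≤ ∫⁻ ω in B' ∩ B, expE (ENNReal.ofReal c0 * M (T n ω) (T (n + 1) ω) ω
              + ENNReal.ofReal c * Λ (n + 1) ω + A (n + 1) ω) ∂μ := by
            refine lintegral_mono fun ω => ?_
            by_cases h : Λ (n + 1) ω = ⊤
            · rw [h, ENNReal.mul_top hcpos, add_top, top_add, expE_top]; exact le_top
            · have h1 : ENNReal.ofReal c0 * M (T n ω) (T (n + 1) ω) ω ≠ ⊤ :=
                ENNReal.mul_ne_top ENNReal.ofReal_ne_top (hMfin _ _ _)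
              have h2 : ENNReal.ofReal c * Λ (n + 1) ω ≠ ⊤ :=
                ENNReal.mul_ne_top ENNReal.ofReal_ne_top h
              rw [expE_of_ne_top (ENNReal.add_ne_top.2
                ⟨ENNReal.add_ne_top.2 ⟨h1, h2⟩, hAfin _ _⟩),
                ENNReal.toReal_add (ENNReal.add_ne_top.2 ⟨h1, h2⟩) (hAfin _ _),
                ENNReal.toReal_add h1 h2, ENNReal.toReal_mul, ENNReal.toReal_mul,
                ENNReal.toReal_ofReal hc0.le, ENNReal.toReal_ofReal hc.le]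
        _ ≤ _ := hs
        _ = ∫⁻ ω in B' ∩ B, ENNReal.ofReal ((1 - δ) ^ (u n ω ^ (-η)) * Real.exp (V ω)) ∂μ := by
            refine setLIntegral_congr_fun hI0 fun ω hω => ?_
            have h := hBf ω hω.2
            have h2 : ENNReal.ofReal c * Λ n ω ≠ ⊤ :=
                ENNReal.mul_ne_top ENNReal.ofReal_ne_top h
            rw [expE_of_ne_top (hV_ne n ω h), ENNReal.toReal_add h2 (hAfin _ _),
              ENNReal.toReal_mul, ENNReal.toReal_ofReal hc.le,
              ENNReal.ofReal_mul (hb0 n ω)]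
    have h5 := step_of_prod (μ := μ.restrict B) (hF n) hfm hVm hbm hprod (hb0 n)
      (MeasurableSet.univ : MeasurableSet[F n] Set.univ)
    rw [Measure.restrict_univ] at h5
    refine le_trans (le_of_eq ?_) h5
    refine lintegral_congr fun ω => ?_
    rw [hadd ω (T n ω) (T (n + 1) ω) (hT ω (Nat.le_succ n))]
    congr 2
    simp only [hf, hV]
    ring
  obtain ⟨-, -, r3, r4⟩ := main_top (μ := μ) hF hmono hT hCmono
    (fun n => (hMm n).ennreal_toReal) hΛ (A := fun n ω => (A n ω).toReal)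
    (fun n => (hA n).ennreal_toReal) (fun n ω => ENNReal.toReal_nonneg) hu1 hum hη hc0 hc.le
    hδ0 hδ1 s1 s2 hD hDΛ hxb
  -- the limit
  have hlim : ∀ᵐ ω ∂μ, ω ∈ D →
      Tendsto (fun t => Ct t ω) atTop (𝓝 (limUnder atTop fun t => Ct t ω)) := by
    filter_upwards [r3] with ω hω hωD
    exact tendsto_nhds_limUnder (hω hωD)
  have hfinal := r4 (fun ω => limUnder atTop fun t => Ct t ω) hlim
  calc ∫⁻ ω in D, expE (ENNReal.ofReal c0 * M (T 0 ω) t ω) ∂μ
      ≤ ∫⁻ ω in D, ENNReal.ofReal (Real.exp (c0 * ((limUnder atTop fun t => Ct t ω)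
          - Ct (T 0 ω) ω))) ∂μ := by
        refine lintegral_mono_ae ?_
        rw [ae_restrict_iff' hD0]
        filter_upwards [hlim] with ω hω hωD
        have hL := hω hωD
        have hge : ∀ s, Ct s ω ≤ limUnder atTop fun t => Ct t ω := fun s =>
          (hCmono ω).ge_of_tendsto hL s
        have h1 : ENNReal.ofReal c0 * M (T 0 ω) t ω ≠ ⊤ :=
          ENNReal.mul_ne_top ENNReal.ofReal_ne_top (hMfin _ _ _)
        rw [expE_of_ne_top h1, ENNReal.toReal_mul, ENNReal.toReal_ofReal hc0.le]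
        refine ENNReal.ofReal_le_ofReal (Real.exp_le_exp.2 (mul_le_mul_of_nonneg_left ?_ hc0.le))
        rcases le_total (T 0 ω) t with h | h
        · rw [← hadd ω _ _ h]
          linarith [hge t]
        · rw [hM0 ω _ _ h]
          have := hge (T 0 ω)
          simp only [ENNReal.toReal_zero]
          linarith
    _ ≤ ∫⁻ ω in D, ENNReal.ofReal (Real.exp (c * (Λ 0 ω).toReal + (A 0 ω).toReal)) ∂μ := hfinal
    _ = ∫⁻ ω in D, expE (ENNReal.ofReal c * Λ 0 ω + A 0 ω) ∂μ := by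
        refine setLIntegral_congr_fun_ae hD0 ?_
        filter_upwards [hDΛ] with ω hω hωD
        have h := hω hωD
        have h2 : ENNReal.ofReal c * Λ 0 ω ≠ ⊤ :=
            ENNReal.mul_ne_top ENNReal.ofReal_ne_top h
        rw [expE_of_ne_top (hV_ne 0 ω h), ENNReal.toReal_add h2 (hAfin _ _),
          ENNReal.toReal_mul, ENNReal.toReal_ofReal hc.le]

end Crest.Agent.R162.LBExpF
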