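import Crest.Agent.R162.LBSkel

/-!
Row 162, node LB-EXP, last step (helper426 for helper384): from the limit form of LB6
(`LB6.main_top`) to a fixed time, in `expE` form.
-/

set_option autoImplicit false

open MeasureTheory Filter Topology Set
open scoped NNReal ENNReal

namespace Crest.Agent.R162.LBExpL

open Crest.Agent.R162.LBS

variable {Ω : Type*} {m0 : MeasurableSpace Ω} {μ : Measure Ω}

lemma expE_of_ne_top {x : ℝ≥0∞} (h : x ≠ ⊤) : expE x = ENNReal.ofReal (Real.exp x.toReal) := if_neg h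

lemma expE_mono {x y : ℝ≥0∞} (h : x ≤ y) : expE x ≤ expE y := by
  unfold expE
  by_cases hy : y = ⊤
  · rw [if_pos hy]; exact le_top
  · have hx : x ≠ ⊤ := ne_top_of_le_ne_top hy h
    rw [if_neg hx, if_neg hy]
    exact ENNReal.ofReal_le_ofReal (Real.exp_le_exp.2 ((ENNReal.toReal_le_toReal hx hy).2 h))

/-- the last step of LB-EXP -/
theorem expE_limit {B : Set Ω} (hB : MeasurableSet B) {T0 : Ω → ℝ≥0} {Ctt : ℝ≥0 → Ω → ℝ≥0∞}
    (hfin : ∀ t ω, Ctt t ω ≠ ⊤) (hmono : ∀ ω, Monotone fun t => Ctt t ω) {c0 : ℝ} (hc0 : 0 ≤ c0)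
    {R : ℝ≥0∞}
    (hlim : ∀ᵐ ω ∂μ, ω ∈ B → ∃ L, Tendsto (fun t => (Ctt t ω).toReal) atTop (𝓝 L))
    (hX : ∀ X : Ω → ℝ,
      (∀ᵐ ω ∂μ, ω ∈ B → Tendsto (fun t => (Ctt t ω).toReal) atTop (𝓝 (X ω))) →
      ∫⁻ ω in B, ENNReal.ofReal (Real.exp (c0 * (X ω - (Ctt (T0 ω) ω).toReal))) ∂μ ≤ R)
    {D : Ω → ℝ≥0∞} (hD : ∀ ω ∈ B, ∃ t', Ctt (T0 ω) ω + D ω ≤ Ctt t' ω) :
    ∫⁻ ω in B, expE (ENNReal.ofReal c0 * D ω) ∂μ ≤ R := by
  classical
  let X : Ω → ℝ := fun ω =>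
    if h : ∃ L, Tendsto (fun t => (Ctt t ω).toReal) atTop (𝓝 L) then h.choose else 0
  have hXt : ∀ᵐ ω ∂μ, ω ∈ B → Tendsto (fun t => (Ctt t ω).toReal) atTop (𝓝 (X ω)) := by
    filter_upwards [hlim] with ω h hω
    have h' := h hω
    simp only [X, dif_pos h']
    exact h'.choose_spec
  refine le_trans ?_ (hX X hXt)
  refine lintegral_mono_ae ?_
  rw [ae_restrict_iff' hB]
  filter_upwards [hXt] with ω h hω
  obtain ⟨t', ht'⟩ := hD ω hω
  have hDt : D ω ≠ ⊤ := ne_top_of_le_ne_top (hfin t' ω) (le_add_self.trans ht')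
  have h1 : (Ctt (T0 ω) ω).toReal + (D ω).toReal ≤ (Ctt t' ω).toReal := by
    rw [← ENNReal.toReal_add (hfin _ _) hDt]
    exact (ENNReal.toReal_le_toReal (ENNReal.add_ne_top.2 ⟨hfin _ _, hDt⟩) (hfin _ _)).2 ht'
  have hm : Monotone fun t => (Ctt t ω).toReal := fun a b hab =>
    (ENNReal.toReal_le_toReal (hfin _ _) (hfin _ _)).2 (hmono ω hab)
  have h2 : (Ctt t' ω).toReal ≤ X ω := hm.ge_of_tendsto (h hω) t'
  rw [expE_of_ne_top (ENNReal.mul_ne_top ENNReal.ofReal_ne_top hDt)]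
  refine ENNReal.ofReal_le_ofReal (Real.exp_le_exp.2 ?_)
  rw [ENNReal.toReal_mul, ENNReal.toReal_ofReal hc0]
  gcongr
  linarith

end Crest.Agent.R162.LBExpL
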