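import Mathlib
import Crest.Agent.R162.LBSkel
import Crest.Agent.R162.LB2d
import Crest.Agent.R162.LB2w
import Crest.Agent.R162.LB6b
import Crest.Agent.R162.LB1F
import Crest.Agent.R162.FLF
import Crest.Agent.R162.OPd
import Crest.Agent.R162.OPM

/-!
Row 162, node LBJ0 (helper685): almost surely, for ALL times `t ≥ 0`, all `y`, all `q > 0` and all
`u₀ ≥ 1`: `J_y(f_t) < ∞`, `f_t = ffl W t`.
-/

set_option autoImplicit false

open MeasureTheory ProbabilityTheory Filter Topology Set Complex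
open scoped NNReal ENNReal
open Crest.ProbabilityR.Loewner

namespace Crest.Agent.R162.LBJ0

open Crest.Agent.R162.FL Crest.Agent.R162.OS Crest.Agent.R162.LB Crest.Agent.R162.FLC
open Crest.Agent.R162.OP (sfl)
open Crest.Agent.R162.KB1 (Hs)

universe u

variable {Ω : Type u} [mΩ : MeasurableSpace Ω] {P : Measure Ω} [IsProbabilityMeasure P]
  {F : Filtration ℝ≥0 mΩ} {B : ℝ≥0 → Ω → ℝ} {κ : ℝ}

omit [IsProbabilityMeasure P] in
lemma driving_zero (hB : IsBM F B P) (ω : Ω) : driving κ B ω 0 = 0 := by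
  simp [driving, hB.zero ω]

/-- OP3 for `R = rad` -/
theorem op3_rad (hκ : 0 < κ) (hκ8 : κ < 8) (hB : IsBM F B P) :
    ∀ z : ℂ, 0 < z.im → ∀ lam : ℝ, 0 < lam →
      P {ω | ∃ t, 0 ≤ t ∧ Alive (driving κ B ω) z t ∧ 1 / 2 ≤ sfl (driving κ B ω) t z
        ∧ ‖Zfl (driving κ B ω) t z‖ ≤ lam * rad (driving κ B ω) t} ≤
      ENNReal.ofReal (OP.C3' κ (1 / 2) * lam ^ OP.c3' κ) := by
  intro z hz lam hlam
  have hσ : IsST F (fun _ : Ω => (0 : ℝ≥0)) := by
    intro t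
    have : {ω : Ω | (0 : ℝ≥0) ≤ t} = univ := by ext; simp
    rw [this]; exact MeasurableSet.univ
  have hA : EvST F (fun _ : Ω => (0 : ℝ≥0)) univ := by
    intro t
    have : (univ ∩ {ω : Ω | (0 : ℝ≥0) ≤ t}) = univ := by ext; simp
    rw [this]; exact MeasurableSet.univ
  have h := OP.OP3' (w := z) OPM.opm hB hκ hκ8 hz hσ hA (c₀ := 1 / 2) (by norm_num)
    (R := fun ω t => rad (driving κ B ω) t) (by
      intro ω _ t ht C hC
      have ht0 : (0 : ℝ) ≤ t := by simpa using ht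
      refine max_le ?_ ?_
      · have := (hC t ⟨by simpa using ht0, le_rfl⟩).1
        simpa using this
      · refine csSup_le ⟨_, 0, ⟨le_rfl, ht0⟩, rfl⟩ ?_
        rintro _ ⟨s, hs, rfl⟩
        have := (hC s ⟨by simpa using hs.1, hs.2⟩).2
        have h0 := driving_zero (κ := κ) hB ω
        simpa [h0] using this) hlam
  have h2 : {ω ∈ (univ : Set Ω) | ∃ t : ℝ, (((0 : ℝ≥0) : ℝ)) ≤ t ∧ Alive (driving κ B ω) z t ∧
      1 / 2 ≤ sfl (driving κ B ω) t z ∧ ‖Zfl (driving κ B ω) t z‖ ≤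
        lam * rad (driving κ B ω) t} = {ω | ∃ t, 0 ≤ t ∧ Alive (driving κ B ω) z t ∧
          1 / 2 ≤ sfl (driving κ B ω) t z
        ∧ ‖Zfl (driving κ B ω) t z‖ ≤ lam * rad (driving κ B ω) t} := by
    ext ω; simp
  rw [h2] at h
  rw [probReal_univ, mul_one, measureReal_def] at h
  exact (ENNReal.ofReal_toReal (measure_ne_top P _)).symm.le.trans (ENNReal.ofReal_le_ofReal h)

/-- the bad event at scale `e^{-k}` -/
def Ev (κ : ℝ) (B : ℝ≥0 → Ω → ℝ) (c : ℝ) (m : ℕ) (k : ℕ) : Set Ω :=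
  {ω | ∃ t, 0 ≤ t ∧ ((m : ℝ) + 1)⁻¹ ≤ rad (driving κ B ω) t ∧
    ‖(id ∘ ffl (driving κ B ω) t) ((Real.exp (-(k : ℝ)) : ℝ) * Complex.I) - 0‖ ≤ ((8 * (m + 1) : ℝ)) / 8
    ∧ Real.exp (-(c * k)) / (8 * (m + 1)) * (8 * (m + 1)) ≤
      KB1.ups (id ∘ ffl (driving κ B ω) t) ((Real.exp (-(k : ℝ)) : ℝ) * Complex.I)}

theorem prob_Ev_le (hκ : 0 < κ) (hκ8 : κ < 8) (hB : IsBM F B P) (m k : ℕ) :
    P (Ev κ B (OP.c3' κ / 4) m k) ≤ ENNReal.ofReal
      ((49 * OP.C3' κ (1 / 2) * (8 * ((m : ℝ) + 1)) ^ 2 * (2 * ((m : ℝ) + 1)) ^ OP.c3' κ) *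
        Real.exp (-(OP.c3' κ / 2)) ^ k) := by
  set c' := OP.c3' κ with hc'
  have hc'0 : 0 < c' := OP.c3'_pos hκ hκ8
  have hC : 0 ≤ OP.C3' κ (1 / 2) := (OP.C3'_pos (by norm_num)).le
  have hm : (0 : ℝ) < (m : ℝ) + 1 := by positivity
  have hm1 : (1 : ℝ) ≤ (m : ℝ) + 1 := by
    have : (0 : ℝ) ≤ m := Nat.cast_nonneg m
    linarith
  have ha1 : Real.exp (-(c' / 4 * k)) / (8 * ((m : ℝ) + 1)) ≤ 1 := by
    rw [div_le_one (by positivity)]
    have : Real.exp (-(c' / 4 * k)) ≤ 1 := Real.exp_le_one_iff.2 (by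
      have : 0 ≤ c' / 4 * k := by positivity
      linarith)
    linarith
  have h := LB2d.key P (fun ω => driving κ B ω)
    (fun ω => (OPTr.driving_cont hB κ ω).continuousOn) (fun ω t => rad (driving κ B ω) t)
    (C := OP.C3' κ (1 / 2)) (c' := c') hC (op3_rad hκ hκ8 hB) (f := id)
    differentiableOn_id (injOn_id _) 0 (U := 8 * ((m : ℝ) + 1))
    (a := Real.exp (-(c' / 4 * k)) / (8 * ((m : ℝ) + 1))) (y := Real.exp (-(k : ℝ)))
    (ρ := ((m : ℝ) + 1)⁻¹) (by positivity) (by positivity) ha1 (Real.exp_pos _) (by positivity)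
  refine (le_trans (le_of_eq rfl) h).trans (ENNReal.ofReal_le_ofReal (le_of_eq ?_))
  have e1 : (2 * Real.exp (-(k : ℝ)) / ((m : ℝ) + 1)⁻¹) ^ c' =
      (2 * ((m : ℝ) + 1)) ^ c' * Real.exp (-(c' * k)) := by
    have : 2 * Real.exp (-(k : ℝ)) / ((m : ℝ) + 1)⁻¹ =
        (2 * ((m : ℝ) + 1)) * Real.exp (-(k : ℝ)) := by field_simp
    rw [this, Real.mul_rpow (by positivity) (Real.exp_pos _).le, ← Real.exp_mul]
    congr 2; ring
  have e2 : Real.exp (-(c' * k)) =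
      Real.exp (-(c' / 4 * k)) ^ 2 * Real.exp (-(c' / 2)) ^ k := by
    rw [← Real.exp_nat_mul, ← Real.exp_nat_mul, ← Real.exp_add]
    congr 1; push_cast; ring
  rw [e1, e2]
  have h3 : Real.exp (-(c' / 4 * k)) ≠ 0 := (Real.exp_pos _).ne'
  field_simp

theorem ae_ev (hκ : 0 < κ) (hκ8 : κ < 8) (hB : IsBM F B P) :
    ∀ᵐ ω ∂P, ∀ m : ℕ, ∀ᶠ k in atTop, ω ∉ Ev κ B (OP.c3' κ / 4) m k := by
  rw [ae_all_iff]
  intro m
  refine ae_eventually_notMem (ne_top_of_le_ne_top ?_ (ENNReal.tsum_le_tsum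
    (fun k => prob_Ev_le hκ hκ8 hB m k)))
  have hc'0 : 0 < OP.c3' κ := OP.c3'_pos hκ hκ8
  have hC : 0 ≤ OP.C3' κ (1 / 2) := (OP.C3'_pos (by norm_num)).le
  have h1 : Real.exp (-(OP.c3' κ / 2)) < 1 := Real.exp_lt_one_iff.2 (by linarith)
  rw [← ENNReal.ofReal_tsum_of_nonneg (fun k => by positivity)
    ((summable_geometric_of_lt_one (Real.exp_pos _).le h1).mul_left _)]
  exact ENNReal.ofReal_ne_top

/-- finite content of `(1/s) ds` away from `0` -/
lemma jv_tail_ne_top {u0 : ℂ → ℝ} (hu : ∀ z, 1 ≤ u0 z) {q : ℝ} (hq : 0 < q) {f : ℂ → ℂ}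
    {a b : ℝ} (ha : 0 < a) (hab : a ≤ b) :
    ∫⁻ s in Ioc a b, ENNReal.ofReal ((min (vv u0 f s) 1) ^ q / s) ≠ ⊤ := by
  refine ne_top_of_le_ne_top (b := ENNReal.ofReal (1 * Real.log (b / a))) ENNReal.ofReal_ne_top ?_
  rw [← LB2w.lintegral_div_Ioc ha hab zero_le_one]
  refine setLIntegral_mono' measurableSet_Ioc fun s hs => ENNReal.ofReal_le_ofReal ?_
  have hs0 : 0 < s := ha.trans hs.1
  refine div_le_div_of_nonneg_right ?_ hs0.le
  rcases le_or_gt 0 (min (vv u0 f s) 1) with h0 | h0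
  · exact Real.rpow_le_one h0 (min_le_right _ _) hq.le
  · have hv : 0 ≤ vv u0 f s := by
      unfold vv KB1.ups
      have := hu (f (s * I))
      have h1 : 0 ≤ ((s : ℂ) * I).im := by simp [hs0.le]
      positivity
    exact absurd (le_min hv zero_le_one) (not_le.2 h0)

/-- deterministic: polynomial decay of `Υ_{f_t}(iy)` along `y = e^{-k}` gives `J_y(f_t) < ∞` -/
theorem jv_ne_top_of {W : ℝ → ℝ} (hW : ContinuousOn W (Ici 0)) {t : ℝ} (ht : 0 ≤ t) {c K : ℝ}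
    (hc : 0 < c) {k0 : ℕ} (hk : ∀ k : ℕ, k0 ≤ k →
      KB1.ups (ffl W t) ((Real.exp (-(k : ℝ)) : ℝ) * Complex.I) ≤ Real.exp (-(c * k)) * K)
    {u0 : ℂ → ℝ} (hu : ∀ z, 1 ≤ u0 z) {q : ℝ} (hq : 0 < q) (y : ℝ) :
    Jv u0 q (ffl W t) y ≠ ⊤ := by
  obtain ⟨y1, hy1, M, hM⟩ := LB6.tip_bounds hW ht (θ := 0) (C := 0) le_rfl zero_lt_one le_rfl
  have hM' := (hM t ⟨ht, le_rfl⟩).2
  set U : ℝ := max (8 * M) (max K 1) with hU
  have hU1 : 1 ≤ U := (le_max_right _ _).trans (le_max_right _ _)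
  have hUK : K ≤ U := (le_max_left _ _).trans (le_max_right _ _)
  have hUM : 8 * M ≤ U := le_max_left _ _
  have hU0 : 0 < U := zero_lt_one.trans_le hU1
  -- a scale
  obtain ⟨j1, hj1⟩ := exists_nat_gt (-Real.log y1)
  set j : ℕ := max j1 k0 with hj
  have hjy : Real.exp (-(j : ℝ)) ≤ y1 := by
    rw [← Real.le_log_iff_exp_le hy1]
    have : (j1 : ℝ) ≤ j := by exact_mod_cast le_max_left _ _
    linarith
  have hjk : k0 ≤ j := le_max_right _ _
  set a : ℝ := Real.exp (-(j : ℝ)) with ha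
  have ha0 : 0 < a := Real.exp_pos _
  have hdiff : DifferentiableOn ℂ (ffl W t) Hs := differentiableOn_ffl hW ht
  have hinj : InjOn (ffl W t) Hs := injOn_ffl hW ht
  have h1 := LB2w.Jv_le hdiff hinj (u0 := fun _ => U) (fun _ => hU1)
    (LipschitzWith.const' U |>.weaken zero_le_one) (x := 0) (q := q) (c := c) (r := a / 10)
    (rho := a / 10) hq hc (by positivity) le_rfl (by linarith) (by
      intro s hs hs1
      rw [sub_zero]
      have : s ≤ y1 := by linarith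
      have := hM' s hs this
      linarith) 0 (by
      intro k _
      have e : (10 * (a / 10) * Real.exp (-(k : ℝ)) : ℝ) = Real.exp (-((j + k : ℕ) : ℝ)) := by
        rw [ha, mul_div_cancel₀ _ (by norm_num : (10 : ℝ) ≠ 0), ← Real.exp_add]
        congr 1; push_cast; ring
      rw [e]
      refine (hk (j + k) (hjk.trans (Nat.le_add_right _ _))).trans ?_
      have h3 : Real.exp (-(c * ((j + k : ℕ) : ℝ))) ≤ Real.exp (-(c * k)) := by
        apply Real.exp_le_exp.2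
        push_cast
        have : 0 ≤ c * j := by positivity
        linarith
      calc Real.exp (-(c * ((j + k : ℕ) : ℝ))) * K ≤ Real.exp (-(c * ((j + k : ℕ) : ℝ))) * U :=
            mul_le_mul_of_nonneg_left hUK (Real.exp_pos _).le
        _ ≤ Real.exp (-(c * k)) * U := mul_le_mul_of_nonneg_right h3 hU0.le)
  have e10 : 10 * (a / 10) = a := by ring
  rw [e10] at h1
  have h2 : ∫⁻ s in Ioc 0 a, ENNReal.ofReal ((min (vv u0 (ffl W t) s) 1) ^ q / s) ≠ ⊤ := by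
    refine ne_top_of_le_ne_top (b := ENNReal.ofReal (U ^ q) * ENNReal.ofReal _)
      (ENNReal.mul_ne_top ENNReal.ofReal_ne_top ENNReal.ofReal_ne_top)
      (le_trans ?_ (mul_le_mul_right h1 _))
    rw [← lintegral_const_mul' _ _ ENNReal.ofReal_ne_top]
    refine setLIntegral_mono' measurableSet_Ioc fun s hs => ?_
    rw [← ENNReal.ofReal_mul (by positivity)]
    refine ENNReal.ofReal_le_ofReal ?_
    have hs0 : 0 < s := hs.1
    have hups : 0 < KB1.ups (ffl W t) (s * Complex.I) :=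
      KB1.ups_pos hdiff hinj (by simpa using hs0)
    have hv0 : 0 ≤ vv u0 (ffl W t) s := div_nonneg hups.le (zero_le_one.trans (hu _))
    have hv1 : vv u0 (ffl W t) s ≤ KB1.ups (ffl W t) (s * Complex.I) := div_le_self hups.le (hu _)
    rw [← mul_div_assoc, ← Real.mul_rpow hU0.le
      (le_min (div_nonneg hups.le hU0.le) zero_le_one)]
    refine div_le_div_of_nonneg_right (Real.rpow_le_rpow (le_min hv0 zero_le_one) ?_ hq.le) hs0.le
    rcases le_total (KB1.ups (ffl W t) (s * Complex.I) / U) 1 with h | h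
    · rw [min_eq_left h, mul_div_cancel₀ _ hU0.ne']
      exact (min_le_left _ _).trans hv1
    · rw [min_eq_right h, mul_one]
      exact (min_le_right _ _).trans hU1
  unfold Jv
  rcases le_total y a with h | h
  · exact ne_top_of_le_ne_top h2 (lintegral_mono_set (Ioc_subset_Ioc_right h))
  · rw [← Ioc_union_Ioc_eq_Ioc ha0.le h]
    exact ne_top_of_le_ne_top (ENNReal.add_ne_top.2 ⟨h2, jv_tail_ne_top hu hq ha0 h⟩)
      (lintegral_union_le _ _ _)

/-- **node LBJ0** -/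
theorem ae_jv (hκ : 0 < κ) (hκ8 : κ < 8) (hB : IsBM F B P) :
    ∀ᵐ ω ∂P, ∀ t : ℝ, 0 ≤ t → ∀ u0 : ℂ → ℝ, (∀ z, 1 ≤ u0 z) → ∀ q : ℝ, 0 < q → ∀ y : ℝ,
      Jv u0 q (ffl (driving κ B ω) t) y ≠ ⊤ := by
  filter_upwards [ae_ev hκ hκ8 hB] with ω hω t ht u0 hu q hq y
  have hW : ContinuousOn (driving κ B ω) (Ici 0) := (OPTr.driving_cont hB κ ω).continuousOn
  rcases ht.eq_or_lt with h0 | h0
  · subst h0
    refine jv_ne_top_of hW le_rfl (c := 1) (K := 1) zero_lt_one (k0 := 0) (fun k _ => ?_) hu hq y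
    have haxis : ∀ r : ℝ, ((r : ℂ) * Complex.I).im = r := fun r => by simp
    have him : 0 < (((Real.exp (-(k : ℝ)) : ℝ) : ℂ) * Complex.I).im := by
      rw [haxis]; exact Real.exp_pos _
    have he : EqOn (ffl (driving κ B ω) 0) id Hs := fun z hz => by
      rw [FLF.ffl_zero_time hW hz, driving_zero hB ω]
      simp
    rw [LB1.ups_congr he him]
    unfold KB1.ups
    rw [deriv_id, haxis]
    simp
  · obtain ⟨y1, hy1, M, hM⟩ := LB6.tip_bounds hW ht (θ := 0) (C := 0) le_rfl zero_lt_one le_rfl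
    have hM' := (hM t ⟨ht, le_rfl⟩).2
    obtain ⟨m, hm⟩ := exists_nat_gt (max M (Real.sqrt t)⁻¹)
    have hmM : M ≤ (m : ℝ) + 1 := ((le_max_left _ _).trans hm.le).trans (by linarith)
    have hst : 0 < Real.sqrt t := Real.sqrt_pos.2 h0
    have hmt : ((m : ℝ) + 1)⁻¹ ≤ rad (driving κ B ω) t := by
      refine le_trans ?_ (sqrt_le_rad _ _)
      have h1 : (Real.sqrt t)⁻¹ ≤ (m : ℝ) + 1 := ((le_max_right _ _).trans hm.le).trans (by linarith)
      rw [inv_le_comm₀ (by positivity) hst]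
      exact h1
    obtain ⟨k1, hk1⟩ := eventually_atTop.1 (hω m)
    obtain ⟨k2, hk2⟩ := exists_nat_gt (-Real.log y1)
    refine jv_ne_top_of hW ht (c := OP.c3' κ / 4) (K := 1)
      (div_pos (OP.c3'_pos hκ hκ8) (by norm_num)) (k0 := max k1 k2) (fun k hk => ?_) hu hq y
    have hky : Real.exp (-(k : ℝ)) ≤ y1 := by
      rw [← Real.le_log_iff_exp_le hy1]
      have : (k2 : ℝ) ≤ k := by exact_mod_cast (le_max_right _ _).trans hk
      linarith
    have hnot := hk1 k ((le_max_left _ _).trans hk)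
    by_contra hcon
    apply hnot
    refine ⟨t, ht, hmt, ?_, ?_⟩
    · have := hM' _ (Real.exp_pos _) hky
      simp only [Function.comp, id, sub_zero]
      linarith
    · rw [mul_one] at hcon
      have hm0 : (8 * ((m : ℝ) + 1)) ≠ 0 := by positivity
      rw [div_mul_cancel₀ _ hm0]
      exact (not_le.1 hcon).le

end Crest.Agent.R162.LBJ0
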