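import Crest.Agent.R162.TR1
import Crest.Agent.R162.TR3
import Crest.Agent.R162.FLC2
import Crest.Agent.R162.UBDefs

/-!
Row 162 (S0243), node TR: the forms on the Loewner flow (`Dom`, `gfl`, `ups`) of TR2 and TR3.
-/

set_option autoImplicit false

open Set Filter Metric Complex MeasureTheory
open scoped Topology ComplexConjugate

namespace Crest.Agent.R162.TR

open Crest.ProbabilityR.Loewner Crest.Agent.R162.FL Crest.Agent.R162.OP

variable {W : ℝ → ℝ} {γ : ℝ → ℂ} {s t r : ℝ} {z w : ℂ}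

theorem gfl_eq_Zfl_add (W : ℝ → ℝ) (t : ℝ) (z : ℂ) : gfl W t z = Zfl W t z + W t := by
  simp [Zfl]

theorem Zfl_im (W : ℝ → ℝ) (t : ℝ) (z : ℂ) : (Zfl W t z).im = (gfl W t z).im := by
  simp [Zfl]

theorem differentiableOn_Zfl (hW : ContinuousOn W (Ici 0)) (ht : 0 ≤ t) :
    DifferentiableOn ℂ (Zfl W t) (Dom W t) := by
  have h := Crest.Agent.Lib.differentiableOn_inverse_of_injOn (U := HP) (f := ffl W t)
    (g := Zfl W t) isOpen_HP (FLC.differentiableOn_ffl hW ht) (FLC.injOn_ffl hW ht)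
    (fun z hz => FLC.Zfl_ffl hW ht hz)
  have h2 : ffl W t '' HP = Dom W t := FLC.ffl_image hW ht
  rwa [h2] at h

theorem differentiableOn_gfl (hW : ContinuousOn W (Ici 0)) (ht : 0 ≤ t) :
    DifferentiableOn ℂ (gfl W t) (Dom W t) := by
  have h1 : gfl W t = fun z => Zfl W t z + W t := by
    funext z; exact gfl_eq_Zfl_add W t z
  rw [h1]
  exact (differentiableOn_Zfl hW ht).add_const _

theorem deriv_ffl_mul_deriv_gfl (hW : ContinuousOn W (Ici 0)) (h : Alive W w t) :
    deriv (ffl W t) (Zfl W t w) * deriv (gfl W t) w = 1 := by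
  have ht := h.1
  have hz : 0 < (Zfl W t w).im := FLC.Zfl_im_pos hW h
  have hopen := isOpen_Dom hW t
  have hwD : w ∈ Dom W t := h
  have hg : HasDerivAt (gfl W t) (deriv (gfl W t) w) w :=
    ((differentiableOn_gfl hW ht).differentiableAt (hopen.mem_nhds hwD)).hasDerivAt
  have hZ : HasDerivAt (Zfl W t) (deriv (gfl W t) w) w := hg.sub_const _
  have hf : HasDerivAt (ffl W t) (deriv (ffl W t) (Zfl W t w)) (Zfl W t w) :=
    (FLC.hasDerivAt_ffl hW ht hz).differentiableAt.hasDerivAt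
  have h1 : HasDerivAt (fun z => ffl W t (Zfl W t z))
      (deriv (ffl W t) (Zfl W t w) * deriv (gfl W t) w) w := hf.comp w hZ
  have h2 : HasDerivAt (fun z => ffl W t (Zfl W t z)) 1 w := by
    refine (hasDerivAt_id w).congr_of_eventuallyEq ?_
    filter_upwards [hopen.mem_nhds hwD] with z hz
    exact FLC.ffl_Zfl hW hz
  exact h1.unique h2

theorem ups_eq_ffl (hW : ContinuousOn W (Ici 0)) (h : Alive W w t) :
    ups W t w = (Zfl W t w).im * ‖deriv (ffl W t) (Zfl W t w)‖ := by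
  have ht := h.1
  have hz : 0 < (Zfl W t w).im := FLC.Zfl_im_pos hW h
  rw [FLC.deriv_ffl hW ht hz, FLC.ffl_Zfl hW h, Complex.norm_exp, ups, Zfl_im]
  congr 2
  have hsol := FLC.isSol_of_alive hW h
  have hint : IntervalIntegrable (fun r => 2 / (Zfl W r w) ^ 2) volume 0 t := by
    refine ContinuousOn.intervalIntegrable ?_
    rw [uIcc_of_le ht]
    have hk := FLC.continuousOn_ker (FLC.contOn_Icc hW t) hsol hsol
    refine hk.congr fun r _ => ?_
    simp only [FLC.ker, Zfl, sq]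
  have h1 := Complex.reCLM.intervalIntegral_comp_comm hint
  simp only [Complex.reCLM_apply] at h1
  rw [← h1]
  congr 1
  funext r
  rw [div_eq_mul_inv]
  simp [Complex.mul_re]

theorem ups_eq_div (hW : ContinuousOn W (Ici 0)) (h : Alive W w t) :
    ups W t w = (gfl W t w).im / ‖deriv (gfl W t) w‖ := by
  rw [ups_eq_ffl hW h, Zfl_im]
  have h1 := deriv_ffl_mul_deriv_gfl hW h
  have h2 : ‖deriv (ffl W t) (Zfl W t w)‖ * ‖deriv (gfl W t) w‖ = 1 := by
    rw [← norm_mul, h1, norm_one]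
  have h3 : ‖deriv (gfl W t) w‖ ≠ 0 := by
    intro h0; rw [h0, mul_zero] at h2; exact zero_ne_one h2
  rw [eq_div_iff h3, mul_assoc, h2, mul_one]

theorem ups_pos (hW : ContinuousOn W (Ici 0)) (h : Alive W w t) : 0 < ups W t w := by
  rw [ups, ← Zfl_im]
  have := FLC.Zfl_im_pos hW h
  positivity

/-- Koebe: the ball of radius `Ups/2` is alive. -/
theorem ball_ups_subset_Dom (hW : ContinuousOn W (Ici 0)) (h : Alive W w t) :
    ball w (ups W t w / 2) ⊆ Dom W t := by
  have ht := h.1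
  rw [ups_eq_div hW h]
  exact ball_ups_subset (isOpen_Dom hW t) (differentiableOn_gfl hW ht) (injOn_gfl hW t)
    (FLC.gfl_image hW ht) h

/-- Schwarz: the radius of an alive ball is at most `2 Ups`. -/
theorem radius_le_of_ball_subset (hW : ContinuousOn W (Ici 0)) (ht : 0 ≤ t) (hr : 0 < r)
    (hb : ball w r ⊆ Dom W t) : r ≤ 2 * ups W t w := by
  have hw : Alive W w t := hb (mem_ball_self hr)
  have h1 := radius_le_ups (isOpen_Dom hW t) (differentiableOn_gfl hW ht) (injOn_gfl hW t)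
    (fun z hz => gfl_im_pos hz) hr hb
  rw [ups_eq_div hW hw]
  calc r ≤ 2 * (gfl W t w).im / ‖deriv (gfl W t) w‖ := h1
    _ = 2 * ((gfl W t w).im / ‖deriv (gfl W t) w‖) := by ring

/-- TR2. -/
theorem infDist_le_two_ups (h : IsChordalTrace W γ) (hW : ContinuousOn W (Ici 0))
    (hw : Alive W w t) :
    infDist w (γ '' Icc 0 t ∪ {z : ℂ | z.im ≤ 0}) ≤ 2 * ups W t w := by
  have ht := hw.1
  have hw' : w ∈ survivingDomain γ t := by rw [survivingDomain_eq h hW ht]; exact hw
  have h1 := infDist_le_ups_surv (γ := γ) (t := t) (g := gfl W t) h.continuousOn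
    (by rw [survivingDomain_eq h hW ht]; exact differentiableOn_gfl hW ht)
    (by rw [survivingDomain_eq h hW ht]; exact injOn_gfl hW t)
    (by rw [survivingDomain_eq h hW ht]; exact FLC.gfl_image hW ht) hw'
  rw [ups_eq_div hW hw]
  calc _ ≤ 2 * (gfl W t w).im / ‖deriv (gfl W t) w‖ := h1
    _ = 2 * ((gfl W t w).im / ‖deriv (gfl W t) w‖) := by ring

/-- TR2, lower bound: `Ups/2` is at most the distance to the hull and the real line. -/
theorem half_ups_le_dist (h : IsChordalTrace W γ) (hW : ContinuousOn W (Ici 0))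
    (hw : Alive W w t) {p : ℂ} (hp : p ∈ γ '' Icc 0 t ∪ {z : ℂ | z.im ≤ 0}) :
    ups W t w / 2 ≤ dist p w := by
  have ht := hw.1
  by_contra hcon
  have h1 : p ∈ ball w (ups W t w / 2) := not_le.1 hcon
  have h2 : p ∈ Dom W t := ball_ups_subset_Dom hW hw h1
  rw [← survivingDomain_eq h hW ht] at h2
  rcases hp with hp | hp
  · exact h2.1.2 hp
  · have h3 : 0 < p.im := h2.1.1
    have h4 : p.im ≤ 0 := hp
    linarith

/-- TR3. -/
theorem exists_ups_le (h : IsChordalTrace W γ) (hW : ContinuousOn W (Ici 0)) (ht : 0 ≤ t)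
    (hb : ball w r ⊆ halfPlane) (hgt : γ t ∈ ball w r) :
    ∃ s, 0 ≤ s ∧ s ≤ t ∧ Alive W w s ∧ ups W s w ≤ 2 * r := by
  obtain ⟨s, hs0, hst, hs, hle⟩ := exists_ups_le_surv (γ := γ) (g := fun s => gfl W s)
    h.continuousOn h.start ht
    (fun s hs => by
      rw [survivingDomain_eq h hW hs.1]; exact differentiableOn_gfl hW hs.1)
    (fun s hs => by
      rw [survivingDomain_eq h hW hs.1]; exact injOn_gfl hW s)
    (fun s hs => by
      rw [survivingDomain_eq h hW hs.1]; exact FLC.gfl_image hW hs.1)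
    (by rw [survivingDomain_eq h hW ht]; exact mem_closure_Dom h hW ht) hb hgt
  rw [survivingDomain_eq h hW hs0] at hs
  refine ⟨s, hs0, hst, hs, ?_⟩
  rw [ups_eq_div hW hs]
  exact hle

/-- TR3 in the frozen form of `UBDefs`. -/
theorem tr3Stmt : UB.TR3Stmt := by
  intro W γ w r t hW h ht _ hb hgt
  obtain ⟨s, hs0, _, hs, hle⟩ := exists_ups_le h hW ht hb hgt
  exact ⟨s, hs0, hs, hle⟩

end Crest.Agent.R162.TR
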