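import Mathlib
import Crest.Agent.R162.Base
import Crest.Agent.R162.KB1H
import Crest.Agent.R162.KB2
import Crest.Agent.R162.TRF
import Crest.Agent.R162.FLB
import Crest.Agent.R162.FL3
import Crest.Agent.R162.FLC3
import Crest.Agent.R162.LBDefs

/-!
Row 162 (S0243), node LB-CONTENT (d): LOCALITY of the content (helper624).
A point `w` collects content at time `s` only if `Υ_s(w) ∈ [ε, 2ε]` and `S_s(w) ≥ c₁`; then it is
within hyperbolic distance `log (2/c₁)` of `i|Z_s(w)|`, hence `‖w - f_s(i|Z_s(w)|)‖ ≤ (2/c₁²) Υ`,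
and `w` is within `2 Υ` of the hull.
-/

set_option autoImplicit false

namespace Crest.Agent.R162.LBLoc

open Complex Set Metric Filter Topology MeasureTheory
open Crest.ProbabilityR.Loewner Crest.Agent.R162.FL Crest.Agent.R162.KB1
open scoped ComplexConjugate

/-! ### the axis point -/

theorem axis_im (r : ℝ) : ((r : ℂ) * I).im = r := by simp

theorem norm_pos_of_im {z : ℂ} (hz : 0 < z.im) : 0 < ‖z‖ :=
  hz.trans_le ((le_abs_self _).trans (Complex.abs_im_le_norm z))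

theorem axis_im_pos {z : ℂ} (hz : 0 < z.im) : 0 < ((‖z‖ : ℂ) * I).im := by
  rw [axis_im]; exact norm_pos_of_im hz

theorem im_le_norm (z : ℂ) : z.im ≤ ‖z‖ := (le_abs_self _).trans (Complex.abs_im_le_norm z)

theorem norm_sq_eq' (z : ℂ) : ‖z‖ ^ 2 = z.re ^ 2 + z.im ^ 2 := by
  rw [Complex.sq_norm, Complex.normSq_apply]; ring

/-- `phd² = (1 - S)/(1 + S)` -/
theorem phd_axis_sq {z : ℂ} (hz : 0 < z.im) :
    phd z ((‖z‖ : ℂ) * I) ^ 2 = (‖z‖ - z.im) / (‖z‖ + z.im) := by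
  have hr := norm_pos_of_im hz
  have h2 := norm_sq_eq' z
  have e1 : ‖(‖z‖ : ℂ) * I - z‖ ^ 2 = 2 * ‖z‖ * (‖z‖ - z.im) := by
    rw [norm_sq_eq']
    simp only [Complex.sub_re, Complex.sub_im, Complex.mul_re, Complex.mul_im, Complex.ofReal_re,
      Complex.ofReal_im, Complex.I_re, Complex.I_im]
    nlinarith
  have e2 : ‖(‖z‖ : ℂ) * I - conj z‖ ^ 2 = 2 * ‖z‖ * (‖z‖ + z.im) := by
    rw [norm_sq_eq']
    simp only [Complex.sub_re, Complex.sub_im, Complex.mul_re, Complex.mul_im, Complex.ofReal_re,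
      Complex.ofReal_im, Complex.I_re, Complex.I_im, Complex.conj_re, Complex.conj_im]
    nlinarith
  have h3 : 0 < ‖z‖ + z.im := by linarith
  rw [phd, div_pow, e1, e2]
  field_simp

/-- `exp (dist_hyp (z, i|z|)) ≤ 2/S` -/
theorem exp_hd_axis_le {z : ℂ} (hz : 0 < z.im) :
    Real.exp (hd z ((‖z‖ : ℂ) * I)) ≤ 2 * (‖z‖ / z.im) := by
  have hr := norm_pos_of_im hz
  have hw := axis_im_pos hz
  rw [exp_hd hz hw]
  set p := phd z ((‖z‖ : ℂ) * I) with hp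
  have hp0 : 0 ≤ p := phd_nonneg _ _
  have hp1 : p < 1 := phd_lt_one hz hw
  have h2 : p ^ 2 = (‖z‖ - z.im) / (‖z‖ + z.im) := phd_axis_sq hz
  have h3 : 0 < ‖z‖ + z.im := by linarith
  have h4 : p ^ 2 * (‖z‖ + z.im) = ‖z‖ - z.im := by rw [h2]; field_simp
  have h5 : 0 < 1 - p := by linarith
  rw [div_le_iff₀ h5, mul_div_assoc', div_mul_eq_mul_div, le_div_iff₀ hz]
  -- (1 + p) y ≤ 2 r (1 - p)
  have h6 : (1 + p) * ((1 + p) * z.im) ≤ (1 + p) * (2 * ‖z‖ * (1 - p)) := by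
    have e1 : (1 + p) * (2 * ‖z‖ * (1 - p)) = 2 * ‖z‖ * (1 - p ^ 2) := by ring
    rw [e1]
    have e2 : (1 - p ^ 2) * (‖z‖ + z.im) = 2 * z.im := by nlinarith
    have e3 : (1 + p) ^ 2 * (‖z‖ + z.im) ≤ 4 * ‖z‖ := by nlinarith [sq_nonneg (1 - p)]
    have e4 : ((1 + p) * ((1 + p) * z.im)) * (‖z‖ + z.im) ≤
        (2 * ‖z‖ * (1 - p ^ 2)) * (‖z‖ + z.im) := by
      calc ((1 + p) * ((1 + p) * z.im)) * (‖z‖ + z.im) = ((1 + p) ^ 2 * (‖z‖ + z.im)) * z.im := by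
            ring
        _ ≤ (4 * ‖z‖) * z.im := by gcongr
        _ = (2 * ‖z‖) * ((1 - p ^ 2) * (‖z‖ + z.im)) := by rw [e2]; ring
        _ = _ := by ring
    exact le_of_mul_le_mul_right e4 h3
  exact le_of_mul_le_mul_left h6 (by linarith)

/-- the hyperbolic distance of `z` to `i|z|` is at most `log (2/S)` -/
theorem hd_axis_le {z : ℂ} (hz : 0 < z.im) :
    hd z ((‖z‖ : ℂ) * I) ≤ Real.log (2 * (‖z‖ / z.im)) := by
  have hr := norm_pos_of_im hz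
  rw [Real.le_log_iff_exp_le (by positivity)]
  exact exp_hd_axis_le hz

theorem exp_two_hd_axis_le {z : ℂ} (hz : 0 < z.im) :
    Real.exp (2 * hd z ((‖z‖ : ℂ) * I)) ≤ 4 * (‖z‖ / z.im) ^ 2 := by
  have h := exp_hd_axis_le hz
  rw [two_mul, Real.exp_add]
  have h0 := (Real.exp_pos (hd z ((‖z‖ : ℂ) * I))).le
  nlinarith

/-- `‖f z - f(i|z|)‖ ≤ 2 S⁻² Υ_f(z)` -/
theorem norm_sub_axis_le {f : ℂ → ℂ} (hf : DifferentiableOn ℂ f Hs) (hfi : InjOn f Hs) {z : ℂ}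
    (hz : 0 < z.im) :
    ‖f z - f ((‖z‖ : ℂ) * I)‖ ≤ 2 * (‖z‖ / z.im) ^ 2 * ups f z := by
  have h := norm_sub_le_exp hf hfi hz (axis_im_pos hz)
  rw [norm_sub_rev] at h
  have h1 := exp_two_hd_axis_le hz
  have h2 : 0 < ups f z := ups_pos hf hfi hz
  calc _ ≤ _ := h
    _ ≤ ups f z * ((4 * (‖z‖ / z.im) ^ 2) / 2) := by
        refine mul_le_mul_of_nonneg_left ?_ h2.le
        linarith
    _ = _ := by ring

theorem ups_axis_le {f : ℂ → ℂ} (hf : DifferentiableOn ℂ f Hs) (hfi : InjOn f Hs) {z : ℂ}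
    (hz : 0 < z.im) : ups f ((‖z‖ : ℂ) * I) ≤ 4 * (‖z‖ / z.im) ^ 2 * ups f z := by
  have h := ups_le_exp hf hfi hz (axis_im_pos hz)
  have h1 := exp_two_hd_axis_le hz
  have h2 : 0 < ups f z := ups_pos hf hfi hz
  calc _ ≤ _ := h
    _ ≤ ups f z * (4 * (‖z‖ / z.im) ^ 2) := by gcongr
    _ = _ := by ring

theorem ups_le_axis {f : ℂ → ℂ} (hf : DifferentiableOn ℂ f Hs) (hfi : InjOn f Hs) {z : ℂ}
    (hz : 0 < z.im) : ups f z ≤ 4 * (‖z‖ / z.im) ^ 2 * ups f ((‖z‖ : ℂ) * I) := by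
  have h := ups_le_exp hf hfi (axis_im_pos hz) hz
  rw [hd_comm] at h
  have h1 := exp_two_hd_axis_le hz
  have h2 : 0 < ups f ((‖z‖ : ℂ) * I) := ups_pos hf hfi (axis_im_pos hz)
  calc _ ≤ _ := h
    _ ≤ ups f ((‖z‖ : ℂ) * I) * (4 * (‖z‖ / z.im) ^ 2) := by gcongr
    _ = _ := by ring

section cut
variable {f : ℂ → ℂ} (hf : DifferentiableOn ℂ f Hs) (hfi : InjOn f Hs) {z : ℂ} (hz : 0 < z.im)
  {c : ℝ} (hc : 0 < c) (hS : c ≤ z.im / ‖z‖)
include hz hc hS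

theorem ratio_le : (‖z‖ / z.im) ^ 2 ≤ 1 / c ^ 2 := by
  have hr := norm_pos_of_im hz
  have h1 : ‖z‖ / z.im ≤ 1 / c := by
    rw [div_le_div_iff₀ hz hc]
    rw [le_div_iff₀ hr] at hS
    linarith
  calc (‖z‖ / z.im) ^ 2 ≤ (1 / c) ^ 2 := by gcongr
    _ = _ := by ring

include hf hfi

/-- `S ≥ c ⇒ ‖f z - f(i|z|)‖ ≤ (2/c²) Υ_f(z)` -/
theorem norm_sub_axis_le_cut : ‖f z - f ((‖z‖ : ℂ) * I)‖ ≤ 2 / c ^ 2 * ups f z := by
  refine (norm_sub_axis_le hf hfi hz).trans ?_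
  have h1 := ratio_le hz hc hS
  have h2 : 0 < ups f z := ups_pos hf hfi hz
  calc 2 * (‖z‖ / z.im) ^ 2 * ups f z ≤ 2 * (1 / c ^ 2) * ups f z := by gcongr
    _ = _ := by ring

theorem ups_axis_le_cut : ups f ((‖z‖ : ℂ) * I) ≤ 4 / c ^ 2 * ups f z := by
  refine (ups_axis_le hf hfi hz).trans ?_
  have h1 := ratio_le hz hc hS
  have h2 : 0 < ups f z := ups_pos hf hfi hz
  calc 4 * (‖z‖ / z.im) ^ 2 * ups f z ≤ 4 * (1 / c ^ 2) * ups f z := by gcongr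
    _ = _ := by ring

theorem ups_le_axis_cut : ups f z ≤ 4 / c ^ 2 * ups f ((‖z‖ : ℂ) * I) := by
  refine (ups_le_axis hf hfi hz).trans ?_
  have h1 := ratio_le hz hc hS
  have h2 : 0 < ups f ((‖z‖ : ℂ) * I) := ups_pos hf hfi (axis_im_pos hz)
  calc 4 * (‖z‖ / z.im) ^ 2 * ups f ((‖z‖ : ℂ) * I)
      ≤ 4 * (1 / c ^ 2) * ups f ((‖z‖ : ℂ) * I) := by gcongr
    _ = _ := by ring

end cut

/-! ### the flow -/

section flow
variable {W : ℝ → ℝ} {t : ℝ} {w : ℂ}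

theorem mapsTo_ffl (hW : ContinuousOn W (Ici 0)) (ht : 0 ≤ t) : MapsTo (ffl W t) Hs Hs :=
  fun _ hz => FLC.ffl_im_pos hW ht hz

theorem differentiableOn_comp {f : ℂ → ℂ} (hf : DifferentiableOn ℂ f Hs)
    (hW : ContinuousOn W (Ici 0)) (ht : 0 ≤ t) : DifferentiableOn ℂ (f ∘ ffl W t) Hs :=
  hf.comp (FLC.differentiableOn_ffl hW ht) (mapsTo_ffl hW ht)

theorem injOn_comp {f : ℂ → ℂ} (hfi : InjOn f Hs)
    (hW : ContinuousOn W (Ici 0)) (ht : 0 ≤ t) : InjOn (f ∘ ffl W t) Hs :=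
  hfi.comp (FLC.injOn_ffl hW ht) (mapsTo_ffl hW ht)

/-- `Υ` of the composition at `Z_t(w)` is `|f'(w)| Υ_t(w)` -/
theorem ups_comp_Zfl {f : ℂ → ℂ} (hf : DifferentiableOn ℂ f Hs)
    (hW : ContinuousOn W (Ici 0)) (h : Alive W w t) :
    ups (f ∘ ffl W t) (Zfl W t w) = ‖deriv f w‖ * OP.ups W t w := by
  have ht := h.1
  have hz : 0 < (Zfl W t w).im := Zfl_im_pos h
  have hw : 0 < w.im := h.im_pos
  have h1 : HasDerivAt (ffl W t) (deriv (ffl W t) (Zfl W t w)) (Zfl W t w) :=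
    ((FLC.differentiableOn_ffl hW ht).differentiableAt (isOpen_Hs.mem_nhds hz)).hasDerivAt
  have e : ffl W t (Zfl W t w) = w := FLC.ffl_Zfl hW h
  have h2 : HasDerivAt f (deriv f w) (ffl W t (Zfl W t w)) := by
    rw [e]
    exact (hf.differentiableAt (isOpen_Hs.mem_nhds hw)).hasDerivAt
  rw [ups, (h2.comp _ h1).deriv, norm_mul, TR.ups_eq_ffl hW h]
  ring

theorem comp_Zfl {f : ℂ → ℂ} (hW : ContinuousOn W (Ici 0)) (h : Alive W w t) :
    (f ∘ ffl W t) (Zfl W t w) = f w := by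
  rw [Function.comp_apply, FLC.ffl_Zfl hW h]

/-- **LOCALITY** for a fixed univalent `f` and a fresh driving function: if `w` is alive at time
`t` and `S_t(w) ≥ c` then `f w` is within `(2/c²) |f'(w)| Υ_t(w)` of the old geodesic point
`f_t(i|Z_t(w)|)`. -/
theorem norm_sub_ffl_axis_le {f : ℂ → ℂ} (hf : DifferentiableOn ℂ f Hs) (hfi : InjOn f Hs)
    (hW : ContinuousOn W (Ici 0)) (h : Alive W w t) {c : ℝ} (hc : 0 < c) (hS : c ≤ OP.sfl W t w) :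
    ‖f w - f (ffl W t ((‖Zfl W t w‖ : ℂ) * I))‖ ≤ 2 / c ^ 2 * (‖deriv f w‖ * OP.ups W t w) := by
  have ht := h.1
  have hz : 0 < (Zfl W t w).im := Zfl_im_pos h
  have := norm_sub_axis_le_cut (differentiableOn_comp hf hW ht) (injOn_comp hfi hW ht) hz hc hS
  rwa [ups_comp_Zfl hf hW h, comp_Zfl hW h] at this

/-- locality without a fixed map -/
theorem norm_sub_ffl_axis_le' (hW : ContinuousOn W (Ici 0)) (h : Alive W w t) {c : ℝ} (hc : 0 < c)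
    (hS : c ≤ OP.sfl W t w) :
    ‖w - ffl W t ((‖Zfl W t w‖ : ℂ) * I)‖ ≤ 2 / c ^ 2 * OP.ups W t w := by
  have := norm_sub_ffl_axis_le (f := id) differentiableOn_id (injOn_id _) hW h hc hS
  simpa using this

/-- the conformal radius at the geodesic point is comparable -/
theorem ups_ffl_axis_le {f : ℂ → ℂ} (hf : DifferentiableOn ℂ f Hs) (hfi : InjOn f Hs)
    (hW : ContinuousOn W (Ici 0)) (h : Alive W w t) {c : ℝ} (hc : 0 < c) (hS : c ≤ OP.sfl W t w) :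
    ups (f ∘ ffl W t) ((‖Zfl W t w‖ : ℂ) * I) ≤ 4 / c ^ 2 * (‖deriv f w‖ * OP.ups W t w) := by
  have ht := h.1
  have hz : 0 < (Zfl W t w).im := Zfl_im_pos h
  have := ups_axis_le_cut (differentiableOn_comp hf hW ht) (injOn_comp hfi hW ht) hz hc hS
  rwa [ups_comp_Zfl hf hW h] at this

theorem ups_le_ffl_axis {f : ℂ → ℂ} (hf : DifferentiableOn ℂ f Hs) (hfi : InjOn f Hs)
    (hW : ContinuousOn W (Ici 0)) (h : Alive W w t) {c : ℝ} (hc : 0 < c) (hS : c ≤ OP.sfl W t w) :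
    ‖deriv f w‖ * OP.ups W t w ≤ 4 / c ^ 2 * ups (f ∘ ffl W t) ((‖Zfl W t w‖ : ℂ) * I) := by
  have ht := h.1
  have hz : 0 < (Zfl W t w).im := Zfl_im_pos h
  have := ups_le_axis_cut (differentiableOn_comp hf hW ht) (injOn_comp hfi hW ht) hz hc hS
  rwa [ups_comp_Zfl hf hW h] at this

/-- if `w` collects content at a time `s ≤ t` (`Υ_s(w) ≤ 2ε`) then it is `4ε`-close to the trace up
to time `t` or to the real line. -/
theorem infDist_le_of_ups {γ : ℝ → ℂ} (hγ : IsChordalTrace W γ) (hW : ContinuousOn W (Ici 0))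
    {s ε : ℝ} (hs : Alive W w s) (hst : s ≤ t) (h : OP.ups W s w ≤ 2 * ε) :
    infDist w (γ '' Icc 0 t ∪ {z : ℂ | z.im ≤ 0}) ≤ 4 * ε := by
  have h1 := TR.infDist_le_two_ups hγ hW hs
  have hsub : γ '' Icc 0 s ∪ {z : ℂ | z.im ≤ 0} ⊆ γ '' Icc 0 t ∪ {z : ℂ | z.im ≤ 0} :=
    union_subset_union_left _ (image_mono (Icc_subset_Icc_right hst))
  have hne : (γ '' Icc 0 s ∪ {z : ℂ | z.im ≤ 0}).Nonempty := ⟨0, Or.inr (by simp)⟩
  have h2 := infDist_le_infDist_of_subset (x := w) hsub hne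
  linarith

/-- in the upper half-plane, far from the real line, the trace itself is close. -/
theorem exists_trace_close {γ : ℝ → ℂ} (hγ : IsChordalTrace W γ) (hW : ContinuousOn W (Ici 0))
    {s ε : ℝ} (hs : Alive W w s) (hst : s ≤ t) (h : OP.ups W s w ≤ 2 * ε) (hε : 0 < ε)
    (him : 5 * ε < w.im) : ∃ u ∈ Icc 0 t, ‖w - γ u‖ ≤ 5 * ε := by
  have h1 := infDist_le_of_ups hγ hW hs hst h
  have hne : (γ '' Icc 0 t ∪ {z : ℂ | z.im ≤ 0}).Nonempty := ⟨0, Or.inr (by simp)⟩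
  obtain ⟨p, hp, hlt⟩ := (infDist_lt_iff hne).1 (lt_of_le_of_lt h1 (by linarith : 4 * ε < 5 * ε))
  rcases hp with ⟨u, hu, rfl⟩ | hp
  · exact ⟨u, hu, by rw [← dist_eq_norm]; exact hlt.le⟩
  · exfalso
    have h2 : |(w - p).im| ≤ ‖w - p‖ := Complex.abs_im_le_norm _
    rw [dist_eq_norm] at hlt
    have h3 : (w - p).im = w.im - p.im := by simp
    rw [h3] at h2
    have h4 := le_abs_self (w.im - p.im)
    have hp' : p.im ≤ 0 := hp
    linarith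

end flow

/-! ### in the vocabulary of `LBDefs` -/

section defs
open scoped ENNReal
variable {κ ε c1 : ℝ} {f : ℂ → ℂ} {W : ℝ → ℝ} {s t : ℝ} {z w : ℂ}

/-- everything about a point which collects content at time `s` (state map `f`, fresh path `W`):
it is alive, `Υ ∈ [ε,2ε]`, `S ≥ c₁`, its image is within `4ε/c₁²` of the geodesic point
`f_s(i|Z_s|)`, whose conformal radius is comparable with `ε`. -/
theorem loc_of_cd_ne_zero (hε : 0 < ε) (hc1 : 0 < c1) (hf : DifferentiableOn ℂ f Hs)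
    (hfi : InjOn f Hs) (hW : ContinuousOn W (Ici 0)) (h : LB.cd κ ε c1 ‖deriv f z‖ W s z ≠ 0) :
    Alive W z s ∧ ε ≤ ‖deriv f z‖ * OP.ups W s z ∧ ‖deriv f z‖ * OP.ups W s z ≤ 2 * ε ∧
      c1 ≤ OP.sfl W s z ∧
      ‖f z - f (ffl W s ((‖Zfl W s z‖ : ℂ) * I))‖ ≤ 4 / c1 ^ 2 * ε ∧
      ups (f ∘ ffl W s) ((‖Zfl W s z‖ : ℂ) * I) ≤ 8 / c1 ^ 2 * ε ∧
      c1 ^ 2 / 4 * ε ≤ ups (f ∘ ffl W s) ((‖Zfl W s z‖ : ℂ) * I) := by
  obtain ⟨ha, h1, h2, h3⟩ := LB.of_cd_ne_zero hε h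
  have h4 := norm_sub_ffl_axis_le hf hfi hW ha hc1 h3
  have h5 := ups_ffl_axis_le hf hfi hW ha hc1 h3
  have h6 := ups_le_ffl_axis hf hfi hW ha hc1 h3
  refine ⟨ha, h1, h2, h3, ?_, ?_, ?_⟩
  · calc _ ≤ _ := h4
      _ ≤ 2 / c1 ^ 2 * (2 * ε) := by gcongr
      _ = _ := by ring
  · calc _ ≤ _ := h5
      _ ≤ 4 / c1 ^ 2 * (2 * ε) := by gcongr
      _ = _ := by ring
  · have h7 := h1.trans h6
    rw [div_mul_eq_mul_div, div_le_iff₀ (by norm_num)]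
    rw [div_mul_eq_mul_div, le_div_iff₀ (by positivity)] at h7
    linarith

/-- a point with positive content collects at some time. -/
theorem exists_cd_ne_zero {lam : ℝ} {E : Set ℝ} (hE : MeasurableSet E)
    (h : LB.cz κ ε c1 lam W E z ≠ 0) : ∃ s ∈ E, LB.cd κ ε c1 lam W s z ≠ 0 := by
  by_contra hcon
  push Not at hcon
  apply h
  unfold LB.cz
  have : ∀ s ∈ E, ENNReal.ofReal (LB.cd κ ε c1 lam W s z) = 0 := by
    intro s hs; rw [hcon s hs]; simp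
  rw [setLIntegral_congr_fun hE this]; simp

/-- the global content is supported in the closed `4ε`-neighbourhood of the trace and the line. -/
theorem infDist_le_of_Ct_ne_zero {γ : ℝ → ℂ} (hγ : IsChordalTrace W γ)
    (hW : ContinuousOn W (Ici 0)) (hε : 0 < ε) (h : LB.Ct κ ε c1 W t w ≠ 0) :
    infDist w (γ '' Icc 0 t ∪ {z : ℂ | z.im ≤ 0}) ≤ 4 * ε := by
  obtain ⟨s, hs, h1⟩ := exists_cd_ne_zero measurableSet_Ioc h
  obtain ⟨ha, -, h2, -⟩ := LB.of_cd_ne_zero hε h1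
  rw [one_mul] at h2
  exact infDist_le_of_ups hγ hW ha hs.2 h2

theorem exists_trace_close_of_Ct_ne_zero {γ : ℝ → ℂ} (hγ : IsChordalTrace W γ)
    (hW : ContinuousOn W (Ici 0)) (hε : 0 < ε) (h : LB.Ct κ ε c1 W t w ≠ 0)
    (him : 5 * ε < w.im) : ∃ u ∈ Icc 0 t, ‖w - γ u‖ ≤ 5 * ε := by
  obtain ⟨s, hs, h1⟩ := exists_cd_ne_zero measurableSet_Ioc h
  obtain ⟨ha, -, h2, -⟩ := LB.of_cd_ne_zero hε h1
  rw [one_mul] at h2
  exact exists_trace_close hγ hW ha hs.2 h2 hε him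

/-- support of `μ^ε_t` -/
theorem mu_far_eq_zero {γ : ℝ → ℂ} (hγ : IsChordalTrace W γ)
    (hW : ContinuousOn W (Ici 0)) (hε : 0 < ε) :
    LB.mu κ ε c1 W t {w | 4 * ε < infDist w (γ '' Icc 0 t ∪ {z : ℂ | z.im ≤ 0})} = 0 := by
  have hopen : IsOpen {w : ℂ | 4 * ε < infDist w (γ '' Icc 0 t ∪ {z : ℂ | z.im ≤ 0})} :=
    isOpen_lt continuous_const (continuous_infDist_pt _)
  rw [LB.mu, withDensity_apply _ hopen.measurableSet]
  have : ∀ w ∈ {w : ℂ | 4 * ε < infDist w (γ '' Icc 0 t ∪ {z : ℂ | z.im ≤ 0})},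
      LB.Ct κ ε c1 W t w = 0 := by
    intro w hw
    by_contra h0
    exact absurd (infDist_le_of_Ct_ne_zero hγ hW hε h0) (not_le.2 hw)
  rw [setLIntegral_congr_fun hopen.measurableSet this]; simp

end defs

end Crest.Agent.R162.LBLoc
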