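import Mathlib
import Crest.Agent.R162.LBLoc

/-!
Row 162 (S0243), node LB-CONTENT (d), second part (helper624): comparison of `|Z|`, `Im Z`, `Υ` along
a time window for points which are far from the tip (`‖Z‖ ≥ 5 r`, `|W_s - W_τ| ≤ r`, length `≤ r²`).
-/

set_option autoImplicit false

namespace Crest.Agent.R162.LBLoc

open Complex Set Metric Filter Topology MeasureTheory
open Crest.ProbabilityR.Loewner Crest.Agent.R162.FL Crest.Agent.R162.KB1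
open scoped ComplexConjugate

variable {W : ℝ → ℝ} {z : ℂ} {σ T r : ℝ}

theorem continuousOn_norm_Zfl (hW : ContinuousOn W (Ici 0)) (hz : Alive W z T) :
    ContinuousOn (fun s => ‖Zfl W s z‖) (Icc 0 T) := (continuousOn_Zfl hW hz).norm

/-- one step of the comparison: if `|Z| ≥ ‖Z_τ‖/2` between `s` and `τ` then `‖Z_s - Z_τ‖ ≤ 1.8 r`. -/
theorem step_aux (hW : ContinuousOn W (Ici 0)) {τ s a b : ℝ} (hz : Alive W z T)
    (ha : 0 ≤ a) (hab : a ≤ b) (hbT : b ≤ T) (hr : 0 < r) (hlen : b - a ≤ r ^ 2)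
    (hτ : (s = a ∧ τ = b) ∨ (s = b ∧ τ = a)) (hWr : |W s - W τ| ≤ r)
    (hfar : 5 * r ≤ ‖Zfl W τ z‖) (hm : ∀ u ∈ Icc a b, ‖Zfl W τ z‖ / 2 ≤ ‖Zfl W u z‖) :
    ‖gfl W s z - gfl W τ z‖ ≤ 4 / 5 * r ∧ ‖Zfl W s z - Zfl W τ z‖ ≤ 9 / 5 * r ∧
      16 / 25 * ‖Zfl W τ z‖ ≤ ‖Zfl W s z‖ ∧ ‖Zfl W s z‖ ≤ 34 / 25 * ‖Zfl W τ z‖ := by
  have hN : 0 < ‖Zfl W τ z‖ := by linarith
  have h1 := norm_gfl_sub_le' hW hz ha hab hbT (half_pos hN) hm
  have h2 : ‖gfl W s z - gfl W τ z‖ ≤ 4 / 5 * r := by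
    have h3 : ‖gfl W s z - gfl W τ z‖ = ‖gfl W b z - gfl W a z‖ := by
      rcases hτ with ⟨rfl, rfl⟩ | ⟨rfl, rfl⟩
      · exact norm_sub_rev _ _
      · rfl
    rw [h3]
    refine h1.trans ?_
    rw [div_le_iff₀ (half_pos hN)]
    nlinarith
  have h4 : Zfl W s z - Zfl W τ z = (gfl W s z - gfl W τ z) - ((W s - W τ : ℝ) : ℂ) := by
    unfold Zfl; push_cast; ring
  have h5 : ‖Zfl W s z - Zfl W τ z‖ ≤ 9 / 5 * r := by
    rw [h4]
    refine (norm_sub_le _ _).trans ?_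
    rw [Complex.norm_real, Real.norm_eq_abs]
    linarith
  have h6 := abs_le.1 (abs_norm_sub_norm_le (Zfl W s z) (Zfl W τ z))
  refine ⟨h2, h5, ?_, ?_⟩ <;> linarith [h6.1, h6.2]

/-- forward: `|Z| ≥ ‖Z_σ‖/2` on the window. -/
theorem forward_half (hW : ContinuousOn W (Ici 0)) (hσ : 0 ≤ σ) (hz : Alive W z T)
    (hr : 0 < r) (hWr : ∀ s ∈ Icc σ T, |W s - W σ| ≤ r) (hlen : T - σ ≤ r ^ 2)
    (hfar : 5 * r ≤ ‖Zfl W σ z‖) : ∀ s ∈ Icc σ T, ‖Zfl W σ z‖ / 2 ≤ ‖Zfl W s z‖ := by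
  have hN : 0 < ‖Zfl W σ z‖ := by linarith
  set f : ℝ → ℝ := fun s => ‖Zfl W s z‖ with hf
  have hc : ContinuousOn f (Icc σ T) :=
    (continuousOn_norm_Zfl hW hz).mono (Icc_subset_Icc hσ le_rfl)
  by_contra hcon
  push Not at hcon
  obtain ⟨s1, hs1, hlt⟩ := hcon
  set A := {s | s ∈ Icc σ T ∧ f s ≤ f σ / 2} with hA
  have hAc : IsCompact A := by
    have hcl : IsClosed A := hc.preimage_isClosed_of_isClosed isClosed_Icc isClosed_Iic
    exact isCompact_Icc.of_isClosed_subset hcl fun s hs => hs.1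
  have hne : A.Nonempty := ⟨s1, hs1, hlt.le⟩
  have hmem := hAc.sInf_mem hne
  set s' := sInf A with hs'
  have hlow : ∀ u ∈ A, s' ≤ u := fun u hu => csInf_le hAc.bddBelow hu
  have hσs' : σ ≤ s' := hmem.1.1
  have hsub : Icc σ s' ⊆ Icc σ T := Icc_subset_Icc le_rfl hmem.1.2
  -- the value at `s'` is exactly the half
  have hval : f s' = f σ / 2 := by
    have hiv := intermediate_value_Icc' hσs' (hc.mono hsub)
    have : f σ / 2 ∈ Icc (f s') (f σ) := ⟨hmem.2, by simp only [hf]; linarith⟩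
    obtain ⟨u, hu, hfu⟩ := hiv this
    have hle : s' ≤ u := hlow u ⟨hsub hu, hfu.le⟩
    have : u = s' := le_antisymm hu.2 hle
    rw [← this]; exact hfu
  have hm : ∀ u ∈ Icc σ s', f σ / 2 ≤ f u := by
    intro u hu
    by_contra hc'
    push Not at hc'
    have h1 : s' ≤ u := hlow u ⟨hsub hu, hc'.le⟩
    have h2 : u = s' := le_antisymm hu.2 h1
    rw [h2, hval] at hc'
    exact lt_irrefl _ hc'
  have h3 := step_aux hW hz hσ hσs' hmem.1.2 hr (by linarith [hmem.1.2]) (Or.inr ⟨rfl, rfl⟩)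
    (hWr s' hmem.1) hfar hm
  have h4 : 16 / 25 * f σ ≤ f s' := h3.2.2.1
  have hN' : 0 < f σ := hN
  linarith

/-- backward: `|Z| ≥ ‖Z_T‖/2` on the window. -/
theorem backward_half (hW : ContinuousOn W (Ici 0)) (hσ : 0 ≤ σ) (hz : Alive W z T)
    (hr : 0 < r) (hWr : ∀ s ∈ Icc σ T, |W s - W T| ≤ r) (hlen : T - σ ≤ r ^ 2)
    (hfar : 5 * r ≤ ‖Zfl W T z‖) : ∀ s ∈ Icc σ T, ‖Zfl W T z‖ / 2 ≤ ‖Zfl W s z‖ := by
  have hN : 0 < ‖Zfl W T z‖ := by linarith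
  set f : ℝ → ℝ := fun s => ‖Zfl W s z‖ with hf
  have hc : ContinuousOn f (Icc σ T) :=
    (continuousOn_norm_Zfl hW hz).mono (Icc_subset_Icc hσ le_rfl)
  by_contra hcon
  push Not at hcon
  obtain ⟨s1, hs1, hlt⟩ := hcon
  set A := {s | s ∈ Icc σ T ∧ f s ≤ f T / 2} with hA
  have hAc : IsCompact A := by
    have hcl : IsClosed A := hc.preimage_isClosed_of_isClosed isClosed_Icc isClosed_Iic
    exact isCompact_Icc.of_isClosed_subset hcl fun s hs => hs.1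
  have hne : A.Nonempty := ⟨s1, hs1, hlt.le⟩
  have hmem := hAc.sSup_mem hne
  set s' := sSup A with hs'
  have hup : ∀ u ∈ A, u ≤ s' := fun u hu => le_csSup hAc.bddAbove hu
  have hσs' : s' ≤ T := hmem.1.2
  have hsub : Icc s' T ⊆ Icc σ T := Icc_subset_Icc hmem.1.1 le_rfl
  have hval : f s' = f T / 2 := by
    have hiv := intermediate_value_Icc hσs' (hc.mono hsub)
    have : f T / 2 ∈ Icc (f s') (f T) := ⟨hmem.2, by simp only [hf]; linarith⟩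
    obtain ⟨u, hu, hfu⟩ := hiv this
    have hle : u ≤ s' := hup u ⟨hsub hu, hfu.le⟩
    have : u = s' := le_antisymm hle hu.1
    rw [← this]; exact hfu
  have hm : ∀ u ∈ Icc s' T, f T / 2 ≤ f u := by
    intro u hu
    by_contra hc'
    push Not at hc'
    have h1 : u ≤ s' := hup u ⟨hsub hu, hc'.le⟩
    have h2 : u = s' := le_antisymm h1 hu.1
    rw [h2, hval] at hc'
    exact lt_irrefl _ hc'
  have h3 := step_aux hW hz (hσ.trans hmem.1.1) hσs' le_rfl hr (by linarith [hmem.1.1])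
    (Or.inl ⟨rfl, rfl⟩) (hWr s' hmem.1) hfar hm
  have h4 : 16 / 25 * f T ≤ f s' := h3.2.2.1
  have hN' : 0 < f T := hN
  linarith

/-- forward comparison, all estimates. -/
theorem forward_cmp (hW : ContinuousOn W (Ici 0)) (hσ : 0 ≤ σ) (hz : Alive W z T)
    (hr : 0 < r) (hWr : ∀ s ∈ Icc σ T, |W s - W σ| ≤ r) (hlen : T - σ ≤ r ^ 2)
    (hfar : 5 * r ≤ ‖Zfl W σ z‖) {s : ℝ} (hs : s ∈ Icc σ T) :
    ‖gfl W s z - gfl W σ z‖ ≤ 4 / 5 * r ∧ ‖Zfl W s z - Zfl W σ z‖ ≤ 9 / 5 * r ∧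
      16 / 25 * ‖Zfl W σ z‖ ≤ ‖Zfl W s z‖ ∧ ‖Zfl W s z‖ ≤ 34 / 25 * ‖Zfl W σ z‖ :=
  step_aux hW hz hσ hs.1 hs.2 hr (by linarith [hs.2]) (Or.inr ⟨rfl, rfl⟩) (hWr s hs) hfar
    fun u hu => forward_half hW hσ hz hr hWr hlen hfar u ⟨hu.1, hu.2.trans hs.2⟩

/-- backward comparison, all estimates. -/
theorem backward_cmp (hW : ContinuousOn W (Ici 0)) (hσ : 0 ≤ σ) (hz : Alive W z T)
    (hr : 0 < r) (hWr : ∀ s ∈ Icc σ T, |W s - W T| ≤ r) (hlen : T - σ ≤ r ^ 2)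
    (hfar : 5 * r ≤ ‖Zfl W T z‖) {s : ℝ} (hs : s ∈ Icc σ T) :
    ‖gfl W s z - gfl W T z‖ ≤ 4 / 5 * r ∧ ‖Zfl W s z - Zfl W T z‖ ≤ 9 / 5 * r ∧
      16 / 25 * ‖Zfl W T z‖ ≤ ‖Zfl W s z‖ ∧ ‖Zfl W s z‖ ≤ 34 / 25 * ‖Zfl W T z‖ :=
  step_aux hW hz (hσ.trans hs.1) hs.2 le_rfl hr (by linarith [hs.1]) (Or.inl ⟨rfl, rfl⟩)
    (hWr s hs) hfar
    fun u hu => backward_half hW hσ hz hr hWr hlen hfar u ⟨hs.1.trans hu.1, hu.2⟩

/-- a far point survives the window. -/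
theorem alive_forward (hW : ContinuousOn W (Ici 0)) (hz : Alive W z σ) (hσT : σ ≤ T)
    (hr : 0 < r) (hWr : ∀ s ∈ Icc σ T, |W s - W σ| ≤ r) (hlen : T - σ ≤ r ^ 2)
    (hfar : 5 * r ≤ ‖Zfl W σ z‖) : Alive W z T := by
  have hσ := hz.1
  have hN : 0 < ‖Zfl W σ z‖ := by linarith
  have hI : 0 < (gfl W σ z).im := gfl_im_pos hz
  set δ := (gfl W σ z).im * Real.exp (-(2 * ((T - σ) / (‖Zfl W σ z‖ / 2) ^ 2))) with hδ
  have hδ0 : 0 < δ := by positivity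
  refine alive_of_apriori hW hz.im_pos (hσ.trans hσT) hδ0 fun s hs hst ha => ?_
  have hq : 0 ≤ (T - σ) / (‖Zfl W σ z‖ / 2) ^ 2 := by
    have : 0 ≤ T - σ := by linarith
    positivity
  rcases le_or_gt s σ with hsσ | hsσ
  · have h1 : (gfl W σ z).im ≤ (gfl W s z).im := im_anti hz hs hsσ
    refine le_trans ?_ h1
    rw [hδ]
    refine mul_le_of_le_one_right hI.le ?_
    rw [Real.exp_le_one_iff]; linarith
  · have hm := forward_half hW hσ ha hr (fun u hu => hWr u ⟨hu.1, hu.2.trans hst.le⟩)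
      (by linarith) hfar
    have h2 := ath_sub_le hW ha hσ hsσ.le le_rfl (half_pos hN) hm
    have h3 := im_eq_exp_ath hW ha
    have h4 := im_eq_exp_ath hW hz
    rw [h3]
    have h5 : δ = z.im * Real.exp (-2 * OP.ath W σ z +
        -(2 * ((T - σ) / (‖Zfl W σ z‖ / 2) ^ 2))) := by
      rw [hδ, h4, Real.exp_add]; ring
    rw [h5]
    have hz0 : 0 < z.im := hz.im_pos
    refine mul_le_mul_of_nonneg_left (Real.exp_le_exp.2 ?_) hz0.le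
    have h6 : (s - σ) / (‖Zfl W σ z‖ / 2) ^ 2 ≤ (T - σ) / (‖Zfl W σ z‖ / 2) ^ 2 := by
      gcongr
    linarith

end Crest.Agent.R162.LBLoc
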