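import Crest.Agent.R162.LBC5
import Crest.Agent.R162.GEX
import Crest.Agent.R162.LB7q
import Crest.Agent.R162.LBSkel

/-!
Row 162 (S0243), node MASS (helper19, second of helper499): `MassAll κ c1` for small `c1`.
-/

set_option autoImplicit false

open MeasureTheory ProbabilityTheory Filter Set
open scoped NNReal ENNReal Topology
open Crest.ProbabilityR.Loewner

namespace Crest.Agent.R162.LBMX

open FL OP OS Rad OPTr GEX
open Crest.Agent.R162.GEN Crest.Agent.R162.OPGen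

universe u

/-! ### the smooth step -/

/-- bounds of the derivative of the smooth step -/
lemma exists_K : ∃ K : ℝ, 0 < K ∧ (∀ x, |deriv Real.smoothTransition x| ≤ K) ∧
    (∀ x, 0 ≤ deriv Real.smoothTransition x) ∧
    ∀ x, x ∉ Icc (0:ℝ) 1 → deriv Real.smoothTransition x = 0 := by
  have hcd : ContDiff ℝ 1 Real.smoothTransition := Real.smoothTransition.contDiff (n := 1)
  have hc : Continuous (deriv Real.smoothTransition) := hcd.continuous_deriv le_rfl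
  obtain ⟨K, hK⟩ := isCompact_Icc.exists_bound_of_continuousOn (s := Icc (0:ℝ) 1) hc.continuousOn
  have hz : ∀ x, x ∉ Icc (0:ℝ) 1 → deriv Real.smoothTransition x = 0 := by
    intro x hx
    have : x < 0 ∨ 1 < x := by
      by_contra h
      push Not at h
      exact hx ⟨h.1, h.2⟩
    rcases this with h | h
    · have : Real.smoothTransition =ᶠ[𝓝 x] fun _ => 0 := by
        filter_upwards [gt_mem_nhds h] with y hy
        exact Real.smoothTransition.zero_of_nonpos hy.le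
      rw [this.deriv_eq, deriv_const]
    · have : Real.smoothTransition =ᶠ[𝓝 x] fun _ => 1 := by
        filter_upwards [lt_mem_nhds h] with y hy
        exact Real.smoothTransition.one_of_one_le hy.le
      rw [this.deriv_eq, deriv_const]
  refine ⟨max K 1, by positivity, fun x => ?_, fun x => ?_, hz⟩
  · by_cases hx : x ∈ Icc (0:ℝ) 1
    · exact (hK x hx).trans (le_max_left _ _)
    · rw [hz x hx, abs_zero]; positivity
  · exact Monotone.deriv_nonneg Real.smoothTransition.monotone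

/-- the smooth cutoff in `L = log Υ` -/
noncomputable def s0 (ε L : ℝ) : ℝ := Real.smoothTransition ((L - Real.log ε) / Real.log 2)
/-- its derivative -/
noncomputable def s1 (ε L : ℝ) : ℝ :=
  deriv Real.smoothTransition ((L - Real.log ε) / Real.log 2) / Real.log 2

lemma hasDerivAt_s0 (ε L : ℝ) : HasDerivAt (s0 ε) (s1 ε L) L := by
  have hd : Differentiable ℝ Real.smoothTransition :=
    (Real.smoothTransition.contDiff (n := 1)).differentiable (by norm_num)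
  have h1 := (hd ((L - Real.log ε) / Real.log 2)).hasDerivAt
  have h2 : HasDerivAt (fun L : ℝ => (L - Real.log ε) / Real.log 2) (1 / Real.log 2) L :=
    ((hasDerivAt_id L).sub_const _).div_const _
  have := h1.comp L h2
  exact this.congr_deriv (by unfold s1; ring)

lemma contDiff_s0 (ε : ℝ) : ContDiff ℝ (⊤ : ℕ∞) (s0 ε) :=
  (Real.smoothTransition.contDiff (n := ⊤)).comp ((contDiff_id.sub contDiff_const).div_const _)

lemma continuous_s1 (ε : ℝ) : Continuous (s1 ε) := by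
  have hcd : ContDiff ℝ 1 Real.smoothTransition := Real.smoothTransition.contDiff (n := 1)
  have hc : Continuous (deriv Real.smoothTransition) := hcd.continuous_deriv le_rfl
  exact (hc.comp (by fun_prop)).div_const _

lemma s0_nonneg (ε L : ℝ) : 0 ≤ s0 ε L := Real.smoothTransition.nonneg _
lemma s0_le_one (ε L : ℝ) : s0 ε L ≤ 1 := Real.smoothTransition.le_one _
lemma s0_low {ε L : ℝ} (h : L ≤ Real.log ε) : s0 ε L = 0 :=
  Real.smoothTransition.zero_of_nonpos (div_nonpos_of_nonpos_of_nonneg (by linarith)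
    LB.log_two_pos'.le)
lemma s0_high {ε L : ℝ} (h : Real.log ε + Real.log 2 ≤ L) : s0 ε L = 1 :=
  Real.smoothTransition.one_of_one_le ((one_le_div LB.log_two_pos').2 (by linarith))

lemma s1_nonneg (ε L : ℝ) : 0 ≤ s1 ε L := by
  obtain ⟨K, _, _, h, _⟩ := exists_K
  exact div_nonneg (h _) LB.log_two_pos'.le

lemma s1_le {K : ℝ} (hK : ∀ x, |deriv Real.smoothTransition x| ≤ K)
    (hz : ∀ x, x ∉ Icc (0:ℝ) 1 → deriv Real.smoothTransition x = 0) {ε : ℝ} (hε : 0 < ε) (L : ℝ) :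
    s1 ε L ≤ K * LB.chi (Real.exp L / ε) := by
  have hl := LB.log_two_pos'
  by_cases hx : (L - Real.log ε) / Real.log 2 ∈ Icc (0:ℝ) 1
  · have h1 : Real.exp L / ε ∈ Icc (1:ℝ) 2 := by
      have h3 : Real.exp L / ε = Real.exp (L - Real.log ε) := by
        rw [Real.exp_sub, Real.exp_log hε]
      rw [h3]
      have h4 := (div_nonneg_iff.1 hx.1).resolve_right (fun h => absurd h.2 (not_le.2 hl))
      have h5 := (div_le_one hl).1 hx.2
      refine ⟨Real.one_le_exp h4.1, ?_⟩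
      calc Real.exp (L - Real.log ε) ≤ Real.exp (Real.log 2) := Real.exp_le_exp.2 h5
        _ = 2 := Real.exp_log two_pos
    rw [LB.chi_of_mem h1]
    unfold s1
    rw [← div_eq_mul_inv]
    exact div_le_div_of_nonneg_right ((le_abs_self _).trans (hK _)) hl.le
  · unfold s1
    rw [hz _ hx, zero_div]
    have h2 : 0 ≤ K := (abs_nonneg _).trans (hK 0)
    exact mul_nonneg h2 (LB.chi_nonneg _)


/-! ### the two functions -/

/-- `G s0(L)` -/
noncomputable def Fm (κ ε : ℝ) : ℝ × ℝ × ℝ × ℝ → ℝ := pq (LBC.V3 κ (-bb κ) 0 (s0 ε)) 0 0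

/-- the rate `4 S²/|Z|² G s1(L)` -/
noncomputable def Hm (κ ε : ℝ) (q : ℝ × ℝ × ℝ × ℝ) : ℝ :=
  Gq κ q * s1 ε q.2.2.1 * (4 * sinq q ^ 2 / (q.1 ^ 2 + q.2.1 ^ 2))

lemma Fm_eq {κ ε : ℝ} (hκ : 0 < κ) {q : ℝ × ℝ × ℝ × ℝ} (hq : 0 < q.2.1) :
    Fm κ ε q = s0 ε q.2.2.1 * Gq κ q := by
  unfold Fm
  rw [LBC.pq_V3, LBC.E3_eq' hκ.ne' hq]

lemma gen_Fm {κ ε : ℝ} (hκ : 0 < κ) {q : ℝ × ℝ × ℝ × ℝ} (hq : 0 < q.2.1) :
    gen κ (Fm κ ε) q = - Hm κ ε q := by
  have h := LBC.gen_V3 hκ (-bb κ) 0 (hasDerivAt_s0 ε) (contDiff_s0 ε) hq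
  unfold Fm
  rw [h, LBC.E3_eq' hκ.ne' hq, LBC.brk_b, mul_zero, zero_sub]
  unfold Hm
  ring

lemma contDiffOn_Fm (κ ε : ℝ) : ContDiffOn ℝ 3 (Fm κ ε) {q | 0 < q.2.1} :=
  contDiffOn_pq3 (LBC.jet_V3 κ _ 0 (hasDerivAt_s0 ε) (contDiff_s0 ε)) 0 0

lemma Hm_nonneg {κ ε : ℝ} {q : ℝ × ℝ × ℝ × ℝ} (hq : 0 < q.2.1) : 0 ≤ Hm κ ε q := by
  unfold Hm
  have h1 := LBC.Gq_pos κ hq
  have h2 := s1_nonneg ε q.2.2.1
  positivity

lemma measurable_Hm (κ ε : ℝ) : Measurable (Hm κ ε) := by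
  unfold Hm
  refine Measurable.mul (Measurable.mul (LBC.measurable_Gq κ) ?_) ?_
  · exact (continuous_s1 ε).measurable.comp (by fun_prop)
  · exact ((LBC.measurable_sinq.pow_const 2).const_mul 4).div (by fun_prop)

section prob

variable {Ω : Type u} {m : MeasurableSpace Ω} {P : Measure Ω} [IsProbabilityMeasure P]
  {Fl : Filtration ℝ≥0 m} {B : ℝ≥0 → Ω → ℝ} {κ : ℝ} {w : ℂ}

lemma evST_univ' {Ω : Type*} {m : MeasurableSpace Ω} (Fl : Filtration ℝ≥0 m) (c : ℝ≥0) :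
    EvST Fl (fun _ : Ω => c) (univ : Set Ω) := fun t => by
  rw [univ_inter]
  exact MeasurableSet.const _

/-- one box: Dynkin for `G s0(L)` up to the exit of `OO w t M n`, `-t = log ε` -/
lemma mass_box (hB : IsBM Fl B P) (hκ : 0 < κ) (hκ8 : κ < 8) (hw : 0 < w.im)
    {la be : ℝ} (hbe0 : 0 < be) (hbe : be ≤ 8 / κ - 1)
    (h1 : la ≤ κ * be / 2 * (8 / κ - 1 - be)) (h2 : la ≤ κ * be / 2)
    {ε : ℝ} (hε : 0 < ε) (hεw : 2 * ε ≤ w.im) {M n : ℝ} (hM0 : |w.re| < M) (hn : 0 < n) {T : ℝ≥0}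
    (hT : n * (M ^ 2 + w.im ^ 2) < T) :
    ENNReal.ofReal (Gq κ (LB7p.q0 w) - (ε ^ (κ / 8 - 1) * (w.im / M) ^ (8 / κ - 1) +
        ε ^ (κ / 8 - 1) * Real.exp (-la * n))) ≤
      ∫⁻ ω, (∫⁻ s in Ioc (0 : ℝ) T, LBC.hr (Hm κ ε) κ B w ω s) ∂P := by
  have hM : OPM.{u} := Crest.Agent.R162.OPM.opm
  set t : ℝ := - Real.log ε with ht
  have het : Real.exp ((1 - κ / 8) * t) = ε ^ (κ / 8 - 1) := by
    rw [Real.rpow_def_of_pos hε, ht]; congr 1; ring
  have hδ : 0 < w.im / 2 * Real.exp (-2 * n) := by positivity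
  have hMp : 0 < M := (abs_nonneg _).trans_lt hM0
  set σ : Ω → ℝ≥0 := fun _ => 0 with hσdef
  have hσ : IsST Fl σ := LB7p.isST_const 0
  set τ : Ω → ℝ≥0 := hit (stP κ B w) (OO w t M n)ᶜ σ T with hτdef
  have hτ : IsST Fl τ := hit_open_isST hB hδ (isOpen_OO w t M n) (fun q hq => hq.2.1.le) hσ T
  have hτT : ∀ ω, τ ω ≤ T := fun ω => hit_le (zero_le)
  have hle : ∀ ω, σ ω ≤ τ ω := fun ω => le_hit
  have hq0 : ∀ ω, stP κ B w (σ ω) ω = LB7p.q0 w := fun ω => LB7p.stP_zero hB hw ω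
  have hL0 : Real.log ε + Real.log 2 ≤ Real.log w.im := by
    rw [← Real.log_mul hε.ne' two_ne_zero]
    exact Real.log_le_log (by positivity) (by linarith)
  have hq0O : LB7p.q0 w ∈ OO w t M n := by
    refine ⟨hM0, ?_, ?_, hn⟩
    · change w.im / 2 * Real.exp (-2 * n) < w.im
      have : Real.exp (-2 * n) < 1 := by
        rw [← Real.exp_zero]; exact Real.exp_lt_exp.2 (by linarith)
      nlinarith
    · change -t < Real.log w.im
      have := LB.log_two_pos'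
      rw [ht]; linarith
  have hin : ∀ ω, stP κ B w (σ ω) ω ∈ OO w t M n := fun ω => by rw [hq0 ω]; exact hq0O
  have hA : EvST Fl σ (univ : Set Ω) := evST_univ' Fl 0
  have hmem : ∀ ω ∈ (univ : Set Ω), ∀ u : ℝ≥0, σ ω ≤ u → u ≤ τ ω →
      AliveP κ B w u ω ∧ stP κ B w u ω ∈ KB w t M n := fun ω _ u h3 h4 =>
    mem_KB hB hw (hin ω) h3 h4
  have hKp : ∀ q ∈ KB w t M n, 0 < q.2.1 := fun q hq => KB_pos hw hq
  have hD := hM hB hκ hw isOpen_up (fun q hq => hq) (contDiffOn_Fm κ ε) (isCompact_KB w t M n)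
    (fun q hq => hKp q hq) hσ hτ hτT hA (fun ω _ => hle ω) hmem
  have hS := dyn_le hM hB hκ hw h1 h2 hσ hτ hτT hA (fun ω _ => hle ω) (isCompact_KB w t M n)
    hKp hmem
  simp only [Measure.restrict_univ] at hD hS
  -- initial value
  have hi : ∫ ω, Fm κ ε (stP κ B w (σ ω) ω) ∂P = Gq κ (LB7p.q0 w) := by
    have : ∀ ω, Fm κ ε (stP κ B w (σ ω) ω) = Gq κ (LB7p.q0 w) := fun ω => by
      rw [hq0 ω, Fm_eq hκ (show 0 < (LB7p.q0 w).2.1 from hw)]
      rw [s0_high (show Real.log ε + Real.log 2 ≤ (LB7p.q0 w).2.2.1 from hL0), one_mul]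
    simp [this]
  -- final value
  have hSc := conv_int (la := la) (mu := 0) (p := be) hM hB hκ hw MeasurableSet.univ hτ
    (isCompact_KB w t M n) hKp (fun ω hω => hmem ω hω _ (hle ω) le_rfl)
  simp only [Measure.restrict_univ] at hSc
  obtain ⟨hSc1, hSc2, hSc3⟩ := hSc
  have hS1 : ∫ ω, fS la 0 be (stP κ B w (τ ω) ω) ∂P ≤ 1 := by
    have h3 : ENNReal.ofReal (∫ ω, fS la 0 be (stP κ B w (τ ω) ω) ∂P) ≤ 1 := by
      rw [hSc1]
      refine hS.trans ?_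
      calc ∫⁻ ω, ENNReal.ofReal (fS la 0 be (stP κ B w (σ ω) ω)) ∂P ≤ ∫⁻ _ω, 1 ∂P := by
            refine lintegral_mono fun ω => ?_
            have hY : 0 < (LB7p.q0 w).2.1 := hw
            rw [hq0 ω, fS_eq hY]
            have h4 : sinq (LB7p.q0 w) ^ be ≤ 1 :=
              Real.rpow_le_one (sinq_pos hY).le (sinq_le_one hY) hbe0.le
            have h5 : la * (LB7p.q0 w).2.2.2 + 0 * (LB7p.q0 w).2.2.1 = 0 := by
              simp [LB7p.q0]
            rw [h5, Real.exp_zero, one_mul]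
            exact ENNReal.ofReal_le_one.2 h4
        _ = 1 := by simp
    by_contra hcon
    push Not at hcon
    have := ENNReal.ofReal_le_ofReal_iff (p := ∫ ω, fS la 0 be (stP κ B w (τ ω) ω) ∂P)
      (q := 1) zero_le_one
    rw [ENNReal.ofReal_one] at this
    exact absurd (this.1 h3) (not_le.2 hcon)
  have hF : ∫ ω, Fm κ ε (stP κ B w (τ ω) ω) ∂P ≤ ε ^ (κ / 8 - 1) * (w.im / M) ^ (8 / κ - 1) +
        ε ^ (κ / 8 - 1) * Real.exp (-la * n) := by
    have hpt : ∀ ω, Fm κ ε (stP κ B w (τ ω) ω) ≤ ε ^ (κ / 8 - 1) * (w.im / M) ^ (8 / κ - 1) +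
        (ε ^ (κ / 8 - 1) * Real.exp (-la * n)) * fS la 0 be (stP κ B w (τ ω) ω) := by
      intro ω
      obtain ⟨hal, hK⟩ := hmem ω (mem_univ _) _ (hle ω) le_rfl
      have hY := hKp _ hK
      obtain ⟨f1, f2, f3, f4, f5⟩ := st_facts hB hal
      have hLt : -t ≤ (stP κ B w (τ ω) ω).2.2.1 := hK.2.2.1.1
      have hG0 : 0 ≤ Gq κ (stP κ B w (τ ω) ω) := GEX.Gq_nonneg hY
      have hfS : 0 ≤ fS la 0 be (stP κ B w (τ ω) ω) := by
        rw [fS_eq hY]
        exact mul_nonneg (Real.exp_pos _).le (Real.rpow_nonneg (sinq_pos hY).le _)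
      have hX1 : 0 ≤ ε ^ (κ / 8 - 1) * (w.im / M) ^ (8 / κ - 1) := by positivity
      have hX2 : 0 ≤ (ε ^ (κ / 8 - 1) * Real.exp (-la * n)) * fS la 0 be (stP κ B w (τ ω) ω) := by
        positivity
      have hFG : Fm κ ε (stP κ B w (τ ω) ω) ≤ Gq κ (stP κ B w (τ ω) ω) := by
        rw [Fm_eq hκ hY]
        have := s0_le_one ε (stP κ B w (τ ω) ω).2.2.1
        nlinarith
      rcases classify hB hw (T₁ := 0) le_rfl (by simpa using hT) (hin ω) with h6 | h6 | h6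
      · have h7 : Fm κ ε (stP κ B w (τ ω) ω) = 0 := by
          rw [Fm_eq hκ hY, s0_low (by
            have : (stP κ B w (τ ω) ω).2.2.1 = -t := h6
            rw [this, ht, neg_neg]), zero_mul]
        rw [h7]; linarith
      · have := Gq_le_X hκ hκ8 hMp hY f2 hLt h6
        rw [het] at this
        linarith
      · have := Gq_le_a (la := la) hκ8 hbe hY hLt h6
        rw [het] at this
        linarith
    calc ∫ ω, Fm κ ε (stP κ B w (τ ω) ω) ∂P
        ≤ ∫ ω, (ε ^ (κ / 8 - 1) * (w.im / M) ^ (8 / κ - 1) +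
          (ε ^ (κ / 8 - 1) * Real.exp (-la * n)) * fS la 0 be (stP κ B w (τ ω) ω)) ∂P := by
          refine integral_mono_of_nonneg ?_ ((integrable_const _).add (hSc3.const_mul _))
            (Eventually.of_forall hpt)
          refine Eventually.of_forall fun ω => ?_
          have hY := hKp _ (hmem ω (mem_univ _) _ (hle ω) le_rfl).2
          change 0 ≤ Fm κ ε (stP κ B w (τ ω) ω)
          rw [Fm_eq hκ hY]
          exact mul_nonneg (s0_nonneg _ _) (GEX.Gq_nonneg hY)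
      _ = ε ^ (κ / 8 - 1) * (w.im / M) ^ (8 / κ - 1) +
          (ε ^ (κ / 8 - 1) * Real.exp (-la * n)) * ∫ ω, fS la 0 be (stP κ B w (τ ω) ω) ∂P := by
          have e1 : ∫ ω, (ε ^ (κ / 8 - 1) * Real.exp (-la * n)) *
              fS la 0 be (stP κ B w (τ ω) ω) ∂P = (ε ^ (κ / 8 - 1) * Real.exp (-la * n)) *
              ∫ ω, fS la 0 be (stP κ B w (τ ω) ω) ∂P := integral_const_mul _ _
          rw [integral_add (integrable_const _) (hSc3.const_mul _), e1, integral_const]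
          simp
      _ ≤ _ := by
          have h7 : 0 ≤ ε ^ (κ / 8 - 1) * Real.exp (-la * n) := by positivity
          nlinarith
  -- the rate
  have hg : ∫ ω, (∫ s in (σ ω : ℝ)..(τ ω : ℝ), gen κ (Fm κ ε) (stW (driving κ B ω) s w)) ∂P =
      - ∫ ω, (∫ s in (0 : ℝ)..(τ ω : ℝ), Hm κ ε (stW (driving κ B ω) s w)) ∂P := by
    rw [← integral_neg]
    refine integral_congr_ae (Eventually.of_forall fun ω => ?_)
    change (∫ s in ((0 : ℝ≥0) : ℝ)..(τ ω : ℝ), gen κ (Fm κ ε) (stW (driving κ B ω) s w)) =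
      - ∫ s in (0 : ℝ)..(τ ω : ℝ), Hm κ ε (stW (driving κ B ω) s w)
    rw [← intervalIntegral.integral_neg, NNReal.coe_zero]
    refine intervalIntegral.integral_congr fun s hs => ?_
    have hle' : (0 : ℝ) ≤ τ ω := (τ ω).2
    rw [Set.uIcc_of_le hle'] at hs
    have h3 := hmem ω (mem_univ _) ⟨s, hs.1⟩ (zero_le) (by exact_mod_cast hs.2)
    exact gen_Fm hκ (hKp _ h3.2)
  have hlow : Gq κ (LB7p.q0 w) - (ε ^ (κ / 8 - 1) * (w.im / M) ^ (8 / κ - 1) +
        ε ^ (κ / 8 - 1) * Real.exp (-la * n)) ≤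
      ∫ ω, (∫ s in (0 : ℝ)..(τ ω : ℝ), Hm κ ε (stW (driving κ B ω) s w)) ∂P := by
    rw [hi, hg] at hD
    linarith
  refine (ENNReal.ofReal_le_ofReal hlow).trans ?_
  refine (Real.ofReal_le_enorm _).trans ((enorm_integral_le_lintegral_enorm _).trans ?_)
  refine lintegral_mono fun ω => ?_
  have hle' : (0 : ℝ) ≤ τ ω := (τ ω).2
  rw [intervalIntegral.integral_of_le hle']
  refine (enorm_integral_le_lintegral_enorm _).trans ?_
  have h4 : ∫⁻ s in Ioc (0:ℝ) (τ ω), ‖Hm κ ε (stW (driving κ B ω) s w)‖ₑ =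
      ∫⁻ s in Ioc (0:ℝ) (τ ω), LBC.hr (Hm κ ε) κ B w ω s := by
    refine setLIntegral_congr_fun measurableSet_Ioc fun s hs => ?_
    have h3 := hmem ω (mem_univ _) ⟨s, hs.1.le⟩ (zero_le) (by exact_mod_cast hs.2)
    have hal : Alive (driving κ B ω) w s := h3.1
    have h5 : 0 ≤ Hm κ ε (stW (driving κ B ω) s w) := Hm_nonneg (hKp _ h3.2)
    change ‖Hm κ ε (stW (driving κ B ω) s w)‖ₑ = _
    rw [LBC.hr, indicator_of_mem (s := {s | Alive (driving κ B ω) w s}) hal]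
    exact Real.enorm_of_nonneg h5
  rw [h4]
  refine lintegral_mono_set (Ioc_subset_Ioc_right ?_)
  exact_mod_cast hτT ω

/-- the mass with the smooth cutoff up to a large time -/
lemma mass_large (hB : IsBM Fl B P) (hκ : 0 < κ) (hκ8 : κ < 8) (hw : 0 < w.im)
    {ε : ℝ} (hε : 0 < ε) (hεw : 2 * ε ≤ w.im) {δ : ℝ} (hδ : 0 < δ) :
    ∃ T₀ : ℝ≥0, ∀ T : ℝ≥0, T₀ ≤ T → ENNReal.ofReal (Gq κ (LB7p.q0 w) - δ) ≤
      ∫⁻ ω, (∫⁻ s in Ioc (0 : ℝ) T, LBC.hr (Hm κ ε) κ B w ω s) ∂P := by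
  have hb : 0 < 8 / κ - 1 := by
    rw [sub_pos, lt_div_iff₀ hκ]; linarith
  set b := 8 / κ - 1 with hbdef
  set be := b / 2 with hbe
  have hbe0 : 0 < be := by positivity
  set la := κ * be / 2 * min (b - be) 1 with hla
  have hbbe : 0 < b - be := by rw [hbe]; linarith
  have hmin : 0 < min (b - be) 1 := lt_min hbbe one_pos
  have hkb : 0 < κ * be / 2 := by positivity
  have hla0 : 0 < la := mul_pos hkb hmin
  have h1 : la ≤ κ * be / 2 * (b - be) := mul_le_mul_of_nonneg_left (min_le_left _ _) hkb.le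
  have h2 : la ≤ κ * be / 2 := by
    have := mul_le_mul_of_nonneg_left (min_le_right (b - be) 1) hkb.le
    rwa [mul_one] at this
  have hlim : Tendsto (fun k : ℕ => ε ^ (κ / 8 - 1) * (w.im / (k + 1)) ^ b +
        ε ^ (κ / 8 - 1) * Real.exp (-la * (k + 1))) atTop
      (𝓝 (ε ^ (κ / 8 - 1) * 0 ^ b + ε ^ (κ / 8 - 1) * 0)) := by
    have hk1 : Tendsto (fun k : ℕ => (k:ℝ) + 1) atTop atTop :=
      tendsto_atTop_add_const_right _ _ tendsto_natCast_atTop_atTop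
    refine Tendsto.add (Tendsto.const_mul _ ?_) (Tendsto.const_mul _ ?_)
    · refine Tendsto.rpow_const ?_ (Or.inr hb.le)
      exact Tendsto.const_div_atTop hk1 _
    · refine Real.tendsto_exp_atBot.comp ?_
      exact Tendsto.const_mul_atTop_of_neg (by linarith) hk1
  rw [Real.zero_rpow hb.ne', mul_zero, zero_add] at hlim
  obtain ⟨k₀, hk₀⟩ := exists_nat_ge |w.re|
  obtain ⟨k, hk1, hk2⟩ := ((hlim.eventually (gt_mem_nhds hδ)).and (eventually_ge_atTop k₀)).exists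
  have hk' : (k₀:ℝ) ≤ k := by exact_mod_cast hk2
  refine ⟨Real.toNNReal (((k:ℝ) + 1) * (((k:ℝ) + 1) ^ 2 + w.im ^ 2) + 1), fun T hT => ?_⟩
  have h3 := Real.toNNReal_le_iff_le_coe.1 hT
  have h4 := mass_box (M := (k:ℝ) + 1) (n := (k:ℝ) + 1) (T := T) hB hκ hκ8 hw hbe0 (by linarith)
    h1 h2 hε hεw (by linarith) (by positivity) (by linarith)
  refine (ENNReal.ofReal_le_ofReal ?_).trans h4
  linarith

/-! ### the integrated rates -/

/-- the integrated rate -/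
noncomputable def II (H : ℝ × ℝ × ℝ × ℝ → ℝ) (κ : ℝ) (B : ℝ≥0 → Ω → ℝ) (w : ℂ) (P : Measure Ω)
    (T : ℝ≥0) : ℝ≥0∞ := ∫⁻ ω, (∫⁻ s in Ioc (0 : ℝ) T, LBC.hr H κ B w ω s) ∂P

lemma II_le_add (hB : IsBM Fl B P) {H H1 H2 : ℝ × ℝ × ℝ × ℝ → ℝ} (hH1 : Measurable H1)
    (hH2 : Measurable H2) {K : ℝ} (hK : 0 ≤ K)
    (h1 : ∀ q : ℝ × ℝ × ℝ × ℝ, 0 < q.2.1 → 0 ≤ H1 q)
    (h2 : ∀ q : ℝ × ℝ × ℝ × ℝ, 0 < q.2.1 → 0 ≤ H2 q)
    (h : ∀ q : ℝ × ℝ × ℝ × ℝ, 0 < q.2.1 → H q ≤ K * (H1 q + H2 q)) (T : ℝ≥0) :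
    II H κ B w P T ≤ ENNReal.ofReal K * (II H1 κ B w P T + II H2 κ B w P T) := by
  have m1 := LBC.meas_hr (κ := κ) (w := w) hB hH1
  have m2 := LBC.meas_hr (κ := κ) (w := w) hB hH2
  have m1' : ∀ ω, Measurable fun s => LBC.hr H1 κ B w ω s := fun ω =>
    m1.comp measurable_prodMk_left
  have m3 : Measurable fun ω => ∫⁻ s in Ioc (0 : ℝ) T, LBC.hr H1 κ B w ω s :=
    m1.lintegral_prod_right'
  unfold II
  calc ∫⁻ ω, (∫⁻ s in Ioc (0 : ℝ) T, LBC.hr H κ B w ω s) ∂P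
      ≤ ∫⁻ ω, (∫⁻ s in Ioc (0 : ℝ) T, ENNReal.ofReal K *
        (LBC.hr H1 κ B w ω s + LBC.hr H2 κ B w ω s)) ∂P := by
        refine lintegral_mono fun ω => lintegral_mono fun s => ?_
        by_cases ha : Alive (driving κ B ω) w s
        · have hY : 0 < (stW (driving κ B ω) s w).2.1 := Zfl_im_pos ha
          unfold LBC.hr
          rw [indicator_of_mem (s := {s | Alive (driving κ B ω) w s}) ha,
            indicator_of_mem (s := {s | Alive (driving κ B ω) w s}) ha,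
            indicator_of_mem (s := {s | Alive (driving κ B ω) w s}) ha,
            ← ENNReal.ofReal_add (h1 _ hY) (h2 _ hY), ← ENNReal.ofReal_mul hK]
          exact ENNReal.ofReal_le_ofReal (h _ hY)
        · unfold LBC.hr
          rw [indicator_of_notMem (s := {s | Alive (driving κ B ω) w s}) ha]
          exact bot_le
    _ = ENNReal.ofReal K * (∫⁻ ω, (∫⁻ s in Ioc (0 : ℝ) T, LBC.hr H1 κ B w ω s) ∂P +
        ∫⁻ ω, (∫⁻ s in Ioc (0 : ℝ) T, LBC.hr H2 κ B w ω s) ∂P) := by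
        rw [← lintegral_add_left m3, ← lintegral_const_mul' _ _ ENNReal.ofReal_ne_top]
        refine lintegral_congr fun ω => ?_
        rw [lintegral_const_mul' _ _ ENNReal.ofReal_ne_top, lintegral_add_left (m1' ω)]

/-- content with small `S` -/
noncomputable def Hs (κ ε c1 : ℝ) (q : ℝ × ℝ × ℝ × ℝ) : ℝ :=
  LB.chi (Real.exp q.2.2.1 / ε) * Gq κ q * (if c1 ≤ sinq q then 0 else 1) *
    (4 * sinq q ^ 2 / (q.1 ^ 2 + q.2.1 ^ 2))

lemma Hs_nonneg {κ ε c1 : ℝ} {q : ℝ × ℝ × ℝ × ℝ} (hq : 0 < q.2.1) : 0 ≤ Hs κ ε c1 q := by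
  unfold Hs
  have h1 := LB.chi_nonneg (Real.exp q.2.2.1 / ε)
  have h2 := LBC.Gq_pos κ hq
  have h3 : (0:ℝ) ≤ if c1 ≤ sinq q then (0:ℝ) else 1 := by split_ifs <;> norm_num
  positivity

lemma measurable_Hs (κ ε c1 : ℝ) : Measurable (Hs κ ε c1) := by
  unfold Hs
  refine Measurable.mul (Measurable.mul (Measurable.mul ?_ (LBC.measurable_Gq κ)) ?_) ?_
  · exact LB.measurable_chi.comp (by fun_prop)
  · exact Measurable.ite (measurableSet_le measurable_const LBC.measurable_sinq) measurable_const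
      measurable_const
  · exact ((LBC.measurable_sinq.pow_const 2).const_mul 4).div (by fun_prop)

lemma Hm_le {K : ℝ} (hK : ∀ x, |deriv Real.smoothTransition x| ≤ K)
    (hz : ∀ x, x ∉ Icc (0:ℝ) 1 → deriv Real.smoothTransition x = 0) {ε : ℝ} (hε : 0 < ε)
    (c1 : ℝ) {q : ℝ × ℝ × ℝ × ℝ} (hq : 0 < q.2.1) :
    Hm κ ε q ≤ K * (LBC.Hc κ ε c1 q + Hs κ ε c1 q) := by
  have h1 := s1_le hK hz hε q.2.2.1
  have h2 := LBC.Gq_pos κ hq
  have h3 : 0 ≤ 4 * sinq q ^ 2 / (q.1 ^ 2 + q.2.1 ^ 2) := by positivity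
  have h4 : LBC.Hc κ ε c1 q + Hs κ ε c1 q = LB.chi (Real.exp q.2.2.1 / ε) * Gq κ q *
      (4 * sinq q ^ 2 / (q.1 ^ 2 + q.2.1 ^ 2)) := by
    unfold LBC.Hc Hs
    split_ifs <;> ring
  rw [h4]
  unfold Hm
  calc Gq κ q * s1 ε q.2.2.1 * (4 * sinq q ^ 2 / (q.1 ^ 2 + q.2.1 ^ 2))
      ≤ Gq κ q * (K * LB.chi (Real.exp q.2.2.1 / ε)) *
        (4 * sinq q ^ 2 / (q.1 ^ 2 + q.2.1 ^ 2)) := by gcongr
    _ = _ := by ring

lemma Hs_le {q' : ℝ} (hκ : 0 < κ) (hq0 : 0 < q') (hqb : q' < bb κ) {ε : ℝ} (hε : 0 < ε)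
    {c1 : ℝ} (hc0 : 0 ≤ c1) {q : ℝ × ℝ × ℝ × ℝ} (hq : 0 < q.2.1) :
    Hs κ ε c1 q ≤ 56 / LBC.cc2 κ q' * c1 * LBC.H2 κ q' ε q := by
  have hcc := LBC.cc2_pos hκ hq0 hqb
  have hG := LBC.Gq_pos κ hq
  have hS := sinq_pos hq
  have hS1 := sinq_le_one hq
  have hD : 0 < q.1 ^ 2 + q.2.1 ^ 2 := by positivity
  have hR := LBC.R1_nonneg hε q.2.2.1
  have hSq : 1 ≤ sinq q ^ (-q') := Real.one_le_rpow_of_pos_of_le_one_of_nonpos hS hS1 (by linarith)
  have e1 : 56 / LBC.cc2 κ q' * c1 * LBC.H2 κ q' ε q =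
      28 * c1 * (1 / (q.1 ^ 2 + q.2.1 ^ 2) * (Gq κ q * sinq q ^ (-q') * LBC.R1 ε q.2.2.1)) := by
    unfold LBC.H2
    field_simp
    ring
  rw [e1]
  unfold Hs
  by_cases hc : c1 ≤ sinq q
  · rw [if_pos hc, mul_zero, zero_mul]
    positivity
  · rw [if_neg hc, mul_one]
    push Not at hc
    have hchi : LB.chi (Real.exp q.2.2.1 / ε) ≤ 7 * LBC.R1 ε q.2.2.1 := by
      by_cases hv : Real.exp q.2.2.1 / ε ∈ Icc (1:ℝ) 2
      · have h3 := LBC.R1_ge hε hv.1 hv.2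
        rw [LB.chi_of_mem hv]
        have h4 : (Real.log 2)⁻¹ ≤ 14 / 9 := by
          rw [inv_le_comm₀ LB.log_two_pos' (by norm_num)]
          have := LBC.log_two_ge
          norm_num; linarith
        linarith
      · rw [LB.chi_of_not_mem hv]; positivity
    have hS2 : sinq q ^ 2 ≤ c1 := by nlinarith
    calc LB.chi (Real.exp q.2.2.1 / ε) * Gq κ q * (4 * sinq q ^ 2 / (q.1 ^ 2 + q.2.1 ^ 2))
        ≤ (7 * LBC.R1 ε q.2.2.1) * Gq κ q * (4 * c1 / (q.1 ^ 2 + q.2.1 ^ 2)) := by gcongr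
      _ = 28 * c1 * (1 / (q.1 ^ 2 + q.2.1 ^ 2) * (Gq κ q * 1 * LBC.R1 ε q.2.2.1)) := by ring
      _ ≤ _ := by gcongr

/-- the part with small `S` -/
lemma small_part (hB : IsBM Fl B P) (hκ : 0 < κ) (hw : 0 < w.im) {q' : ℝ} (hq0 : 0 < q')
    (hqb : q' < bb κ) {ε : ℝ} (hε : 0 < ε) (hεw : ε ≤ w.im) (hS0 : 1 / 2 ≤ sinq (LB7p.q0 w))
    {c1 : ℝ} (hc0 : 0 ≤ c1) (T : ℝ≥0) :
    II (Hs κ ε c1) κ B w P T ≤ ENNReal.ofReal (56 / LBC.cc2 κ q' * c1 *
      (Gq κ (LB7p.q0 w) * ((1 / 2) ^ (-q') + LBC.MM κ q'))) := by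
  have hcc := LBC.cc2_pos hκ hq0 hqb
  have hMM := LBC.MM_pos hκ hq0 hqb
  have hM : OPM.{u} := Crest.Agent.R162.OPM.opm
  obtain ⟨J1, J2⟩ := LBC.jets hκ hq0 hqb hε
  have hH2m : Measurable (LBC.H2 κ q' ε) := by
    unfold LBC.H2
    refine Measurable.const_mul (Measurable.mul (by fun_prop) (Measurable.mul (Measurable.mul
      (LBC.measurable_Gq κ) (LBC.measurable_sinq.pow_const _)) ?_)) _
    exact (LBC.contDiff_R1 hε).continuous.measurable.comp (by fun_prop)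
  have hH20 : ∀ q : ℝ × ℝ × ℝ × ℝ, 0 < q.2.1 → 0 ≤ LBC.H2 κ q' ε q := fun q hq => by
    unfold LBC.H2
    have hG := LBC.Gq_pos κ hq
    have hS := sinq_pos hq
    have hR := LBC.R1_nonneg hε q.2.2.1
    positivity
  have hgc : ContinuousOn (gen κ (LBC.F2 κ q' ε)) {q | 0 < q.2.1} := by
    have c1' := LBC.continuousOn_gen_V3 hκ (q' - bb κ) 0 (LBC.hasDerivAt_R1 hε)
      (LBC.contDiff_R1 hε) (LBC.continuous_R2 hε)
    have c2' := LBC.continuousOn_gen_V3 hκ (-bb κ) 0 (g' := fun L => LBC.MM κ q' * LBC.R1 ε L)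
      (fun s => (LBC.hasDerivAt_R0 hε s).const_mul _)
      (contDiff_const.mul (LBC.contDiff_R0 hε))
      (continuous_const.mul (LBC.contDiff_R1 hε).continuous)
    exact (c1'.add c2').congr fun q hq => LBC.gen_F2_eq hκ hq0 hqb hε hq
  have h := LBC.super_int hM hB hκ hw (LBC.exit_ok5 hB κ w) (F := LBC.F2 κ q' ε)
    (contDiffOn_pq3 (J1.add J2) 0 0)
    (fun q hq => by
      rw [LBC.F2_eq hκ hq0 hqb hε hq]
      have hG := LBC.Gq_pos κ hq
      have hS := sinq_pos hq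
      have hR := LBC.R1_nonneg hε q.2.2.1
      have hR0 := LBC.R0_nonneg hε q.2.2.1
      positivity)
    hgc hH2m hH20 (fun q hq => LBC.gen_F2_le hκ hq0 hqb hε hq)
    (LB7p.isST_const (Fl := Fl) 0) (LB7p.isST_const (Fl := Fl) T) (T := T) (fun _ => le_rfl)
    (evST_univ' Fl 0) (fun _ _ => zero_le)
  have hstart : ∫⁻ ω in univ ∩ {ω | AliveP κ B w ((fun _ : Ω => (0 : ℝ≥0)) ω) ω},
      ENNReal.ofReal (LBC.F2 κ q' ε (stP κ B w ((fun _ : Ω => (0 : ℝ≥0)) ω) ω)) ∂P ≤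
      ENNReal.ofReal (Gq κ (LB7p.q0 w) * ((1 / 2) ^ (-q') + LBC.MM κ q')) := by
    refine (setLIntegral_le_lintegral _ _).trans ?_
    have hval : ∀ ω, stP κ B w ((fun _ : Ω => (0 : ℝ≥0)) ω) ω = LB7p.q0 w :=
      fun ω => LB7p.stP_zero hB hw ω
    have hY : 0 < (LB7p.q0 w).2.1 := hw
    calc ∫⁻ ω, ENNReal.ofReal (LBC.F2 κ q' ε (stP κ B w ((fun _ : Ω => (0 : ℝ≥0)) ω) ω)) ∂P
        = ∫⁻ _ω : Ω, ENNReal.ofReal (LBC.F2 κ q' ε (LB7p.q0 w)) ∂P := by
          refine lintegral_congr fun ω => ?_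
          rw [hval ω]
      _ = ENNReal.ofReal (LBC.F2 κ q' ε (LB7p.q0 w)) := by simp
      _ ≤ _ := by
          refine ENNReal.ofReal_le_ofReal ?_
          rw [LBC.F2_eq hκ hq0 hqb hε hY]
          have hG := LBC.Gq_pos κ hY
          have hS := sinq_pos hY
          have hR := LBC.R1_nonneg hε (LB7p.q0 w).2.2.1
          have hR1 : LBC.R1 ε (LB7p.q0 w).2.2.1 ≤ 1 := by
            refine (LBC.R1_le hε _).trans ?_
            change ε * Real.exp (-Real.log w.im) ≤ 1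
            rw [Real.exp_neg, Real.exp_log hw, ← div_eq_mul_inv, div_le_one hw]
            exact hεw
          have hR0 := LBC.R0_le_one hε (LB7p.q0 w).2.2.1
          have hSq : sinq (LB7p.q0 w) ^ (-q') ≤ (1 / 2) ^ (-q') :=
            Real.rpow_le_rpow_of_nonpos (by norm_num) hS0 (by linarith)
          have hSq0 : 0 < sinq (LB7p.q0 w) ^ (-q') := Real.rpow_pos_of_pos hS _
          gcongr
          · calc LBC.R1 ε (LB7p.q0 w).2.2.1 * sinq (LB7p.q0 w) ^ (-q')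
                ≤ 1 * sinq (LB7p.q0 w) ^ (-q') := by gcongr
              _ ≤ _ := by rw [one_mul]; exact hSq
          · calc LBC.MM κ q' * LBC.R0 ε (LB7p.q0 w).2.2.1 ≤ LBC.MM κ q' * 1 := by gcongr
              _ = _ := mul_one _
  have h0c : 0 ≤ 56 / LBC.cc2 κ q' * c1 := by positivity
  have hle : II (Hs κ ε c1) κ B w P T ≤ ENNReal.ofReal (56 / LBC.cc2 κ q' * c1) *
      II (LBC.H2 κ q' ε) κ B w P T := by
    unfold II
    rw [← lintegral_const_mul' _ _ ENNReal.ofReal_ne_top]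
    refine lintegral_mono fun ω => ?_
    rw [← lintegral_const_mul' _ _ ENNReal.ofReal_ne_top]
    refine lintegral_mono fun s => ?_
    by_cases ha : Alive (driving κ B ω) w s
    · have hY : 0 < (stW (driving κ B ω) s w).2.1 := Zfl_im_pos ha
      unfold LBC.hr
      rw [indicator_of_mem (s := {s | Alive (driving κ B ω) w s}) ha,
        indicator_of_mem (s := {s | Alive (driving κ B ω) w s}) ha,
        ← ENNReal.ofReal_mul h0c]
      exact ENNReal.ofReal_le_ofReal (Hs_le hκ hq0 hqb hε hc0 hY)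
    · unfold LBC.hr
      rw [indicator_of_notMem (s := {s | Alive (driving κ B ω) w s}) ha]
      exact bot_le
  rw [ENNReal.ofReal_mul h0c]
  refine hle.trans (mul_le_mul_right ?_ _)
  refine le_trans (le_of_eq ?_) (h.trans hstart)
  unfold II
  rw [Measure.restrict_univ]
  rfl

end prob

/-! ### assembly -/

lemma g0_le {κ : ℝ} (hκ : 0 < κ) (hκ8 : κ < 8) {z : ℂ} (hz : z ∈ LBS.Qsq) :
    (2:ℝ) ^ (κ / 8 - 1) * (1 / 2) ^ (8 / κ - 1) ≤ Gq κ (LB7p.q0 z) ∧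
      1 / 2 ≤ sinq (LB7p.q0 z) := by
  obtain ⟨h1, h2, h3, h4⟩ := hz
  have him : 0 < z.im := by linarith
  have hb : 0 < 8 / κ - 1 := by
    rw [sub_pos, lt_div_iff₀ hκ]; linarith
  have hs : 1 / 2 ≤ sinq (LB7p.q0 z) := by
    change 1 / 2 ≤ z.im / Real.sqrt (z.re ^ 2 + z.im ^ 2)
    rw [div_le_div_iff₀ two_pos (by positivity)]
    have : Real.sqrt (z.re ^ 2 + z.im ^ 2) ≤ z.im * 2 := by
      rw [Real.sqrt_le_iff]
      exact ⟨by positivity, by nlinarith⟩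
    linarith
  refine ⟨?_, hs⟩
  unfold Gq
  have e1 : Real.exp ((κ / 8 - 1) * (LB7p.q0 z).2.2.1) = z.im ^ (κ / 8 - 1) := by
    rw [Real.rpow_def_of_pos him]
    change Real.exp ((κ / 8 - 1) * Real.log z.im) = _
    rw [mul_comm]
  rw [e1]
  have h5 : (2:ℝ) ^ (κ / 8 - 1) ≤ z.im ^ (κ / 8 - 1) :=
    Real.rpow_le_rpow_of_nonpos him h4.le (by linarith)
  have h6 : ((1:ℝ) / 2) ^ (8 / κ - 1) ≤ sinq (LB7p.q0 z) ^ (8 / κ - 1) :=
    Real.rpow_le_rpow (by norm_num) hs hb.le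
  have h7 : (0:ℝ) < 2 ^ (κ / 8 - 1) := by positivity
  gcongr

/-- **MASS**: the mean content up to a fixed time is bounded below. -/
theorem massAll {κ : ℝ} (hκ : 0 < κ) (hκ8 : κ < 8) :
    ∃ c0 : ℝ, 0 < c0 ∧ c0 < 1 ∧ ∀ c1 : ℝ, 0 < c1 → c1 ≤ c0 → LBS.MassAll.{u} κ c1 := by
  obtain ⟨K, hK0, hK, -, hKz⟩ := exists_K
  have hb : 0 < 8 / κ - 1 := by
    rw [sub_pos, lt_div_iff₀ hκ]; linarith
  have hbb : 0 < bb κ := hb
  set q' := bb κ / 2 with hq'
  have hq0 : 0 < q' := by positivity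
  have hqb : q' < bb κ := by rw [hq']; linarith
  have hcc := LBC.cc2_pos hκ hq0 hqb
  have hMM := LBC.MM_pos hκ hq0 hqb
  set X := ((1:ℝ) / 2) ^ (-q') + LBC.MM κ q' with hX
  have hX0 : 0 < X := by positivity
  refine ⟨min (1 / 2) (LBC.cc2 κ q' / (56 * 8 * K * X)), lt_min (by norm_num) (by positivity),
    (min_le_left _ _).trans_lt (by norm_num), fun c1 hc0 hc1 => ?_⟩
  have hc2 : c1 ≤ LBC.cc2 κ q' / (56 * 8 * K * X) := hc1.trans (min_le_right _ _)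
  have hc3 : 56 / LBC.cc2 κ q' * c1 * X ≤ 1 / (8 * K) := by
    calc 56 / LBC.cc2 κ q' * c1 * X ≤
        56 / LBC.cc2 κ q' * (LBC.cc2 κ q' / (56 * 8 * K * X)) * X := by gcongr
      _ = 1 / (8 * K) := by field_simp
  obtain ⟨t₀, ht₀, hlb⟩ := LB7p.lb7_small.{u} hκ hκ8 4 (1 / (56 * K)) (by positivity)
  set g0 := (2:ℝ) ^ (κ / 8 - 1) * (1 / 2) ^ (8 / κ - 1) with hg0
  have hg0p : 0 < g0 := by positivity
  obtain ⟨n₀, hn₀⟩ := exists_nat_ge (t₀ : ℝ)
  refine ⟨g0 / (4 * K), 1 / 2, n₀ + 1, by positivity, by norm_num, Nat.succ_pos _, ?_⟩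
  intro ε hε hε2 z hz Ω mΩ P hP F B hB
  obtain ⟨hg, hs⟩ := g0_le hκ hκ8 hz
  have hw : 0 < z.im := lt_of_lt_of_le one_pos hz.2.2.1
  set G := Gq κ (LB7p.q0 z) with hG
  have hGp : 0 < G := hg0p.trans_le hg
  obtain ⟨T₀, hT₀⟩ := mass_large (w := z) hB hκ hκ8 hw hε (by linarith [hz.2.2.1])
    (δ := G / 2) (by positivity)
  set T : ℝ≥0 := max T₀ ((n₀ + 1 : ℕ) : ℝ≥0) with hT
  have h1 := hT₀ T (le_max_left _ _)
  have hnT : (((n₀ + 1 : ℕ) : ℝ≥0)) ≤ T := le_max_right _ _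
  have h2 := II_le_add (P := P) (κ := κ) (w := z) hB (LBC.measurable_Hc κ ε c1) (measurable_Hs κ ε c1)
    hK0.le (fun q hq => LBC.Hc_nonneg hq) (fun q hq => Hs_nonneg hq)
    (fun q hq => Hm_le hK hKz hε c1 hq) T
  have h3 := small_part (w := z) hB hκ hw hq0 hqb hε (by linarith [hz.2.2.1]) hs hc0.le T
  have h3' : II (Hs κ ε c1) κ B z P T ≤ ENNReal.ofReal (G / (8 * K)) := by
    refine h3.trans (ENNReal.ofReal_le_ofReal ?_)
    calc 56 / LBC.cc2 κ q' * c1 * (G * X) = G * (56 / LBC.cc2 κ q' * c1 * X) := by ring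
      _ ≤ G * (1 / (8 * K)) := by gcongr
      _ = G / (8 * K) := by ring
  -- the split of the content
  have hmeas := LBC.meas_hr (κ := κ) (w := z) hB (LBC.measurable_Hc κ ε c1)
  have hcz : ∀ (ω : Ω) (E : Set ℝ), LB.cz κ ε c1 1 (driving κ B ω) E z =
      ∫⁻ s in E, LBC.hr (LBC.Hc κ ε c1) κ B z ω s := fun ω E => by
    unfold LB.cz
    refine lintegral_congr fun s => ?_
    rw [LBC.hr_Hc]
  have hm1 : Measurable fun ω => ∫⁻ s in Ioc (0 : ℝ) ((n₀ + 1 : ℕ) : ℝ),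
      LBC.hr (LBC.Hc κ ε c1) κ B z ω s := hmeas.lintegral_prod_right'
  have h4 : II (LBC.Hc κ ε c1) κ B z P T ≤
      ∫⁻ ω, LB.Ct κ ε c1 (driving κ B ω) ((n₀ + 1 : ℕ) : ℝ) z ∂P +
      ∫⁻ ω, LB.cz κ ε c1 1 (driving κ B ω) (Ioc (((n₀ + 1 : ℕ) : ℝ≥0) : ℝ) T) z ∂P := by
    unfold II LB.Ct
    simp_rw [hcz]
    rw [← lintegral_add_left hm1]
    refine lintegral_mono fun ω => ?_
    have hsub : Ioc (0:ℝ) T ⊆ Ioc (0:ℝ) ((n₀ + 1 : ℕ) : ℝ) ∪
        Ioc (((n₀ + 1 : ℕ) : ℝ≥0) : ℝ) (T : ℝ) := by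
      intro s hs
      rcases le_or_gt s ((n₀ + 1 : ℕ) : ℝ) with h | h
      · exact Or.inl ⟨hs.1, h⟩
      · exact Or.inr ⟨by simpa using h, hs.2⟩
    exact (lintegral_mono_set hsub).trans (lintegral_union_le _ _ _)
  have h5 : ∫⁻ ω, LB.cz κ ε c1 1 (driving κ B ω) (Ioc (((n₀ + 1 : ℕ) : ℝ≥0) : ℝ) T) z ∂P ≤
      ENNReal.ofReal (G / (8 * K)) := by
    have h6 := LBC.content_le' (w := z) hB hκ hw hε c1
      (LB7p.isST_const (Fl := F) ((n₀ + 1 : ℕ) : ℝ≥0)) (LB7p.isST_const (Fl := F) T) (T := T)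
      (fun _ => le_rfl) (evST_univ' F _) (fun _ _ => hnT)
    rw [Measure.restrict_univ] at h6
    refine h6.trans ?_
    have h7 := hlb Crest.Agent.R162.OPM.opm hB z hw (by
      refine (Complex.norm_le_abs_re_add_abs_im z).trans ?_
      rw [abs_of_nonneg hz.1, abs_of_pos hw]
      linarith [hz.2.1, hz.2.2.2]) ((n₀ + 1 : ℕ) : ℝ≥0) (by
        rw [← NNReal.coe_le_coe]
        push_cast
        linarith)
    rw [LB7p.green_eq_Gq hw] at h7
    calc _ ≤ ENNReal.ofReal 7 * ENNReal.ofReal (1 / (56 * K) * G) := by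
          refine mul_le_mul_right ((setLIntegral_le_lintegral _ _).trans h7) _
      _ = ENNReal.ofReal (G / (8 * K)) := by
          rw [← ENNReal.ofReal_mul (by norm_num)]
          congr 1
          field_simp
          norm_num
  -- conclusion
  set Y := ∫⁻ ω, LB.Ct κ ε c1 (driving κ B ω) ((n₀ + 1 : ℕ) : ℝ) z ∂P with hY
  have h8 : ENNReal.ofReal (G / 2) ≤ ENNReal.ofReal K *
      (Y + ENNReal.ofReal (G / (8 * K)) + ENNReal.ofReal (G / (8 * K))) := by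
    calc ENNReal.ofReal (G / 2) = ENNReal.ofReal (G - G / 2) := by congr 1; ring
      _ ≤ II (Hm κ ε) κ B z P T := h1
      _ ≤ _ := h2.trans (by gcongr; exact h4.trans (by gcongr))
  by_cases hYt : Y = ⊤
  · rw [hYt]; exact le_top
  · lift Y to ℝ≥0 using hYt with y
    have h9 : G / 2 ≤ K * (y + G / (8 * K) + G / (8 * K)) := by
      have e : ENNReal.ofReal K * ((y : ℝ≥0∞) + ENNReal.ofReal (G / (8 * K)) +
          ENNReal.ofReal (G / (8 * K))) = ENNReal.ofReal (K * (y + G / (8 * K) + G / (8 * K))) := by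
        rw [ENNReal.ofReal_mul hK0.le, ENNReal.ofReal_add (by positivity) (by positivity),
          ENNReal.ofReal_add (by positivity) (by positivity), ENNReal.ofReal_coe_nnreal]
      rw [e] at h8
      exact (ENNReal.ofReal_le_ofReal_iff (by positivity)).1 h8
    have h10 : K * (y + G / (8 * K) + G / (8 * K)) = K * y + G / 4 := by
      field_simp; ring
    rw [h10] at h9
    have h11 : g0 / (4 * K) ≤ y := by
      rw [div_le_iff₀ (by positivity)]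
      linarith
    calc ENNReal.ofReal (g0 / (4 * K)) ≤ ENNReal.ofReal (y : ℝ) := ENNReal.ofReal_le_ofReal h11
      _ = y := ENNReal.ofReal_coe_nnreal

end Crest.Agent.R162.LBMX
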