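import Mathlib
import Crest.Agent.R162.FLE2
import Crest.Agent.R162.LBMeas
import Crest.Agent.R162.LBDefs
import Crest.Agent.R162.LBSkel

/-!
Row 162 (S0243), node LB-MEAS, content part (helper899): joint measurability of the content density
`cd`, of `cz`, `content`, `Ct`, `mu`, `rad`, `win`, `cont`, `nearC`, `farC` (definitions of `LBDefs`)
along measurable families of driving paths and of holomorphic maps, over an arbitrary parameter
space; finite horizon (`I = [0,T]`, for adaptedness) and infinite horizon (`I = [0,∞)`).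
-/

set_option autoImplicit false

open Set MeasureTheory Filter Topology
open scoped NNReal ENNReal

namespace Crest.Agent.R162.LBMc

open Crest.Agent.R162.FL Crest.Agent.R162.FLD Crest.Agent.R162.LBM Crest.Agent.R162.LB
open Crest.Agent.R162.OP (ups sfl gr)

variable {α : Type*} {m : MeasurableSpace α} {I : Set ℝ}

/-- joint measurability in (parameter, point, time), times in `I` -/
def JI {α : Type*} {m : MeasurableSpace α} {E : Type*} [MeasurableSpace E] [Zero E] (I : Set ℝ)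
    (f : α × ℂ → ℝ → E) : Prop :=
  Measurable (fun x : (α × ℂ) × ℝ => I.indicator (f x.1) x.2)

lemma JI.of_eq {E : Type*} [MeasurableSpace E] [Zero E] (hI : MeasurableSet I) {f : α × ℂ → ℝ → E}
    {F : (α × ℂ) × ℝ → E} (hF : Measurable F)
    (h : ∀ x : (α × ℂ) × ℝ, x.2 ∈ I → f x.1 x.2 = F x) : JI (m := m) I f := by
  have h2 := hF.indicator (measurable_snd hI)
  unfold JI
  convert h2 using 1
  funext x
  by_cases hx : x.2 ∈ I
  · rw [indicator_of_mem hx, indicator_of_mem (show x ∈ Prod.snd ⁻¹' I from hx), h x hx]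
  · rw [indicator_of_notMem hx, indicator_of_notMem (show x ∉ Prod.snd ⁻¹' I from hx)]

lemma JI.comp {E E' : Type*} [MeasurableSpace E] [Zero E] [MeasurableSpace E'] [Zero E']
    (hI : MeasurableSet I) {f : α × ℂ → ℝ → E} (hf : JI (m := m) I f) {φ : E → E'}
    (hφ : Measurable φ) : JI (m := m) I (fun p s => φ (f p s)) :=
  JI.of_eq hI (hφ.comp hf) (fun x hx => by
    simp only [Function.comp]
    rw [indicator_of_mem hx])

lemma JI.comp₂ {E E' E'' : Type*} [MeasurableSpace E] [Zero E] [MeasurableSpace E'] [Zero E']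
    [MeasurableSpace E''] [Zero E''] (hI : MeasurableSet I)
    {f : α × ℂ → ℝ → E} {g : α × ℂ → ℝ → E'} (hf : JI (m := m) I f) (hg : JI (m := m) I g)
    {φ : E × E' → E''} (hφ : Measurable φ) :
    JI (m := m) I (fun p s => φ (f p s, g p s)) :=
  JI.of_eq hI (hφ.comp (Measurable.prodMk hf hg)) (fun x hx => by
    simp only [Function.comp]
    rw [indicator_of_mem hx, indicator_of_mem hx])

lemma JI.const {E : Type*} [MeasurableSpace E] [Zero E] (hI : MeasurableSet I) {lam : α × ℂ → E}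
    (hl : Measurable lam) : JI (m := m) I (fun p _ => lam p) :=
  JI.of_eq hI (hl.comp measurable_fst) (fun _ _ => rfl)

lemma JI.of_nat {E : Type*} [MeasurableSpace E] [Zero E] {f : α × ℂ → ℝ → E}
    (h : ∀ n : ℕ, JM (m := m) (n : ℝ) f) : JI (m := m) (Ici 0) f := by
  unfold JI
  refine measurable_of_cover (fun n : ℕ => {x : (α × ℂ) × ℝ | x.2 ≤ n})
    (fun n x => (Icc 0 (n : ℝ)).indicator (f x.1) x.2) ?_ ?_ ?_ ?_
  · intro n
    exact measurableSet_le measurable_snd measurable_const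
  · intro x
    obtain ⟨n, hn⟩ := exists_nat_ge x.2
    exact ⟨n, hn⟩
  · intro n
    exact h n
  · intro n x hx
    by_cases h0 : x.2 ∈ Ici (0:ℝ)
    · rw [indicator_of_mem h0, indicator_of_mem (show x.2 ∈ Icc 0 (n:ℝ) from ⟨h0, hx⟩)]
    · rw [indicator_of_notMem h0, indicator_of_notMem (fun h' => h0 h'.1)]

/-- measurable family of driving paths, times in `I` (`I = [0,T]` or `[0,∞)`) with its flow -/
structure Drv {α : Type*} {m : MeasurableSpace α} (I : Set ℝ) (W : α → ℝ → ℝ) : Prop where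
  mI : MeasurableSet I
  nonneg : ∀ t ∈ I, (0:ℝ) ≤ t
  star : ∀ t ∈ I, ∀ u ∈ Icc (0:ℝ) 1, t * u ∈ I
  cont : ∀ a, ∀ t ∈ I, ContinuousOn (W a) (Icc 0 t)
  path : JI (m := m) I (fun p s => W p.1 s)
  g : JI (m := m) I (fun p s => gfl (W p.1) s p.2)
  Z : JI (m := m) I (fun p s => Zfl (W p.1) s p.2)
  ups : JI (m := m) I (fun p s => OP.ups (W p.1) s p.2)
  sfl : JI (m := m) I (fun p s => OP.sfl (W p.1) s p.2)
  ath : JI (m := m) I (fun p s => OP.ath (W p.1) s p.2)

/-- finite horizon -/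
theorem Drv.of_Icc {W : α → ℝ → ℝ} {T : ℝ} (hc : ∀ a, ContinuousOn (W a) (Icc 0 T))
    (hm : ∀ s ∈ Icc 0 T, Measurable (fun a => W a s)) : Drv (m := m) (Icc 0 T) W where
  mI := measurableSet_Icc
  nonneg := fun _ h => h.1
  star := fun _ ht _ hu => ⟨mul_nonneg ht.1 hu.1, (mul_le_of_le_one_right ht.1 hu.2).trans ht.2⟩
  cont := fun a _ ht => (hc a).mono (Icc_subset_Icc_right ht.2)
  path := jm_drive hc hm
  g := jm_gfl hc hm
  Z := jm_Zfl hc hm
  ups := jm_ups hc hm
  sfl := jm_sfl hc hm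
  ath := jm_ath hc hm

/-- infinite horizon -/
theorem Drv.of_PFam {W : α → ℝ → ℝ} (hW : PFam W) : Drv (m := m) (Ici 0) W := by
  have hc : ∀ n : ℕ, ∀ a, ContinuousOn (W a) (Icc 0 (n:ℝ)) := fun n a =>
    (hW.cont a).mono Icc_subset_Ici_self
  have hm : ∀ n : ℕ, ∀ s ∈ Icc 0 (n:ℝ), Measurable (fun a => W a s) := fun n s hs =>
    hW.meas s hs.1
  exact
  { mI := measurableSet_Ici
    nonneg := fun _ h => h
    star := fun _ ht _ hu => mul_nonneg ht hu.1
    cont := fun a _ _ => (hW.cont a).mono Icc_subset_Ici_self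
    path := JI.of_nat fun n => jm_drive (hc n) (hm n)
    g := JI.of_nat fun n => jm_gfl (hc n) (hm n)
    Z := JI.of_nat fun n => jm_Zfl (hc n) (hm n)
    ups := JI.of_nat fun n => jm_ups (hc n) (hm n)
    sfl := JI.of_nat fun n => jm_sfl (hc n) (hm n)
    ath := JI.of_nat fun n => jm_ath (hc n) (hm n) }

section

variable {W : α → ℝ → ℝ} {κ ε c1 : ℝ}

lemma Drv.mem_of_le (h : Drv (m := m) I W) {s t : ℝ} (ht : t ∈ I) (hs : 0 ≤ s) (hst : s ≤ t) :
    s ∈ I := by
  rcases (h.nonneg t ht).eq_or_lt with h0 | h0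
  · have : s = t := le_antisymm hst (by rw [← h0]; exact hs)
    rwa [this]
  · have := h.star t ht (s / t) ⟨by positivity, (div_le_one h0).2 hst⟩
    rwa [mul_div_cancel₀ _ h0.ne'] at this

/-- (1) the content density -/
theorem Drv.cd (h : Drv (m := m) I W) {lam : α × ℂ → ℝ} (hl : Measurable lam) :
    JI (m := m) I (fun p s => LB.cd κ ε c1 (lam p) (W p.1) s p.2) := by
  have h1 : JI (m := m) I (fun p s => (lam p, OP.ups (W p.1) s p.2)) :=
    JI.comp₂ h.mI (JI.const h.mI hl) h.ups (φ := fun x : ℝ × ℝ => x) measurable_id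
  have h2 : JI (m := m) I (fun p s => (OP.sfl (W p.1) s p.2, Zfl (W p.1) s p.2)) :=
    JI.comp₂ h.mI h.sfl h.Z (φ := fun x : ℝ × ℂ => x) measurable_id
  have hφ : Measurable (fun x : (ℝ × ℝ) × (ℝ × ℂ) =>
      LB.chi (x.1.1 * x.1.2 / ε) * (x.1.1 * x.1.2) ^ (κ / 8 - 1) * x.2.1 ^ (8 / κ - 1) *
        (if c1 ≤ x.2.1 then 1 else 0) * (4 * x.2.1 ^ 2 / ‖x.2.2‖ ^ 2)) := by
    have e1 : Measurable (fun x : (ℝ × ℝ) × (ℝ × ℂ) => LB.chi (x.1.1 * x.1.2 / ε)) :=
      LB.measurable_chi.comp (by fun_prop)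
    have e2 : Measurable (fun x : (ℝ × ℝ) × (ℝ × ℂ) => (x.1.1 * x.1.2) ^ (κ / 8 - 1)) := by
      fun_prop
    have e3 : Measurable (fun x : (ℝ × ℝ) × (ℝ × ℂ) => x.2.1 ^ (8 / κ - 1)) := by
      fun_prop
    have e4 : Measurable (fun x : (ℝ × ℝ) × (ℝ × ℂ) => if c1 ≤ x.2.1 then (1:ℝ) else 0) :=
      Measurable.ite (measurableSet_le measurable_const (by fun_prop)) measurable_const
        measurable_const
    have e5 : Measurable (fun x : (ℝ × ℝ) × (ℝ × ℂ) => 4 * x.2.1 ^ 2 / ‖x.2.2‖ ^ 2) := by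
      fun_prop
    exact (((e1.mul e2).mul e3).mul e4).mul e5
  exact JI.comp₂ h.mI h1 h2 hφ

/-- (2) content per unit area -/
theorem Drv.cz (h : Drv (m := m) I W) {lam : α × ℂ → ℝ} (hl : Measurable lam)
    {E : Set ((α × ℂ) × ℝ)} (hE : MeasurableSet E) (hEI : ∀ x ∈ E, x.2 ∈ I) :
    Measurable (fun p : α × ℂ => LB.cz κ ε c1 (lam p) (W p.1) {s | (p, s) ∈ E} p.2) := by
  have h1 : Measurable (fun x : (α × ℂ) × ℝ => E.indicator (fun x : (α × ℂ) × ℝ =>
      ENNReal.ofReal (I.indicator (fun s => LB.cd κ ε c1 (lam x.1) (W x.1.1) s x.1.2) x.2)) x) :=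
    (ENNReal.measurable_ofReal.comp (h.cd hl)).indicator hE
  have h2 := h1.lintegral_prod_right' (ν := (volume : Measure ℝ))
  convert h2 using 1
  funext p
  have hm : MeasurableSet {s | (p, s) ∈ E} := measurable_prodMk_left hE
  rw [LB.cz, ← lintegral_indicator hm]
  refine lintegral_congr fun s => ?_
  by_cases hs : (p, s) ∈ E
  · rw [indicator_of_mem (show s ∈ {s | (p, s) ∈ E} from hs), indicator_of_mem hs]
    simp only
    rw [indicator_of_mem (hEI _ hs)]
  · rw [indicator_of_notMem (show s ∉ {s | (p, s) ∈ E} from hs), indicator_of_notMem hs]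

/-- (3) content -/
theorem Drv.content (h : Drv (m := m) I W) {F : α → ℂ → ℂ} (hF : MFam F) {E : Set (α × ℝ)}
    (hE : MeasurableSet E) (hEI : ∀ x ∈ E, x.2 ∈ I) {BB : Set (α × ℂ)} (hBB : MeasurableSet BB) :
    Measurable (fun a => LB.content κ ε c1 (F a) (W a) {s | (a, s) ∈ E} {w | (a, w) ∈ BB}) := by
  have hlam : Measurable (fun p : α × ℂ => ‖{z : ℂ | 0 < z.im}.indicator (deriv (F p.1)) p.2‖) :=
    hF.deriv_meas.norm
  have hE' : MeasurableSet {x : (α × ℂ) × ℝ | (x.1.1, x.2) ∈ E} :=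
    ((measurable_fst.comp measurable_fst).prodMk measurable_snd) hE
  have h1 := h.cz (κ := κ) (ε := ε) (c1 := c1) hlam hE' (fun x hx => hEI _ hx)
  have hS1 : MeasurableSet {p : α × ℂ | (p.1, {z : ℂ | 0 < z.im}.indicator (F p.1) p.2) ∈ BB} :=
    (measurable_fst.prodMk hF.meas) hBB
  have hS : MeasurableSet {p : α × ℂ | 0 < p.2.im ∧
      (p.1, {z : ℂ | 0 < z.im}.indicator (F p.1) p.2) ∈ BB} :=
    (measurableSet_lt measurable_const (Complex.measurable_im.comp measurable_snd)).inter hS1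
  have h2 : Measurable (fun p : α × ℂ => {p : α × ℂ | 0 < p.2.im ∧
      (p.1, {z : ℂ | 0 < z.im}.indicator (F p.1) p.2) ∈ BB}.indicator (fun p =>
        ENNReal.ofReal (‖{z : ℂ | 0 < z.im}.indicator (deriv (F p.1)) p.2‖ ^ 2) *
          LB.cz κ ε c1 ‖{z : ℂ | 0 < z.im}.indicator (deriv (F p.1)) p.2‖ (W p.1)
            {s | (p.1, s) ∈ E} p.2) p) :=
    ((ENNReal.measurable_ofReal.comp (hlam.pow_const 2)).mul h1).indicator hS
  have h3 := h2.lintegral_prod_right' (ν := (volume : Measure ℂ))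
  convert h3 using 1
  funext a
  have hset : {z : ℂ | 0 < z.im ∧ F a z ∈ {w | (a, w) ∈ BB}} =
      Prod.mk a ⁻¹' {p : α × ℂ | 0 < p.2.im ∧
        (p.1, {z : ℂ | 0 < z.im}.indicator (F p.1) p.2) ∈ BB} := by
    ext z
    simp only [mem_ofPred_eq, mem_preimage]
    constructor
    · rintro ⟨h4, h5⟩
      exact ⟨h4, by rwa [indicator_of_mem (show z ∈ {z : ℂ | 0 < z.im} from h4)]⟩
    · rintro ⟨h4, h5⟩
      exact ⟨h4, by rwa [indicator_of_mem (show z ∈ {z : ℂ | 0 < z.im} from h4)] at h5⟩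
  have hm : MeasurableSet {z : ℂ | 0 < z.im ∧ F a z ∈ {w | (a, w) ∈ BB}} := by
    rw [hset]
    exact measurable_prodMk_left hS
  rw [LB.content, ← lintegral_indicator hm]
  refine lintegral_congr fun z => ?_
  by_cases hz : z ∈ {z : ℂ | 0 < z.im ∧ F a z ∈ {w | (a, w) ∈ BB}}
  · rw [indicator_of_mem hz, indicator_of_mem (by rw [hset] at hz; exact hz)]
    simp only
    rw [indicator_of_mem (show z ∈ {z : ℂ | 0 < z.im} from hz.1)]
  · rw [indicator_of_notMem hz, indicator_of_notMem (by rw [hset] at hz; exact hz)]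

/-! ### radius -/

lemma sSup_abs_eq {w : ℝ → ℝ} {t : ℝ} (ht : 0 ≤ t) (hw : ContinuousOn w (Icc 0 t)) :
    sSup ((fun s => |w s|) '' Icc 0 t) =
      ⨆ n : ℕ, |w (t * (TopologicalSpace.denseSeq unitInterval n : ℝ))| := by
  set g : unitInterval → ℝ := fun u => |w (t * u)| with hg
  have hmem : ∀ u : unitInterval, t * (u : ℝ) ∈ Icc 0 t := fun u =>
    ⟨mul_nonneg ht u.2.1, mul_le_of_le_one_right ht u.2.2⟩
  have hgc : Continuous g := (hw.comp_continuous (by fun_prop) hmem).abs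
  have hb : BddAbove (range g) := (isCompact_range hgc).bddAbove
  have hb2 : BddAbove (range fun n : ℕ => g (TopologicalSpace.denseSeq unitInterval n)) := by
    refine hb.mono ?_
    rintro _ ⟨n, rfl⟩
    exact ⟨_, rfl⟩
  have hle : ∀ u, g u ≤ ⨆ n : ℕ, g (TopologicalSpace.denseSeq unitInterval n) := by
    intro u
    refine (TopologicalSpace.denseRange_denseSeq unitInterval).induction_on
      (p := fun u => g u ≤ ⨆ n : ℕ, g (TopologicalSpace.denseSeq unitInterval n)) u ?_ ?_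
    · exact isClosed_le hgc continuous_const
    · intro n
      exact le_ciSup hb2 n
  have himg : (fun s => |w s|) '' Icc 0 t = range g := by
    ext x
    constructor
    · rintro ⟨s, hs, rfl⟩
      rcases ht.eq_or_lt with h0 | h0
      · refine ⟨0, ?_⟩
        have : s = 0 := le_antisymm (by rw [h0]; exact hs.2) hs.1
        simp [hg, this]
      · refine ⟨⟨s / t, div_nonneg hs.1 ht, (div_le_one h0).2 hs.2⟩, ?_⟩
        simp only [hg]
        rw [mul_div_cancel₀ _ h0.ne']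
    · rintro ⟨u, rfl⟩
      exact ⟨t * u, hmem u, rfl⟩
  rw [himg]
  refine le_antisymm ?_ ?_
  · refine csSup_le (range_nonempty g) ?_
    rintro _ ⟨u, rfl⟩
    exact hle u
  · refine ciSup_le fun n => ?_
    exact le_csSup hb ⟨_, rfl⟩

lemma Drv.path' (h : Drv (m := m) I W) :
    Measurable (fun x : α × ℝ => I.indicator (W x.1) x.2) := by
  have h1 := h.path
  unfold JI at h1
  exact h1.comp ((measurable_fst.prodMk (measurable_const (a := (0:ℂ)))).prodMk measurable_snd)

/-- (4) joint measurability of the radius -/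
theorem Drv.rad (h : Drv (m := m) I W) :
    Measurable (fun x : α × ℝ => I.indicator (LB.rad (W x.1)) x.2) := by
  have h1 : ∀ n : ℕ, Measurable (fun x : α × ℝ => |I.indicator (W x.1)
      (x.2 * (TopologicalSpace.denseSeq unitInterval n : ℝ))|) := by
    intro n
    exact (h.path'.comp (measurable_fst.prodMk (measurable_snd.mul_const _))).abs
  have h2 : Measurable (fun x : α × ℝ => max (Real.sqrt x.2) (⨆ n : ℕ, |I.indicator (W x.1)
      (x.2 * (TopologicalSpace.denseSeq unitInterval n : ℝ))|)) :=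
    (Real.continuous_sqrt.measurable.comp measurable_snd).max (Measurable.iSup h1)
  have h3 := h2.indicator (measurable_snd h.mI)
  convert h3 using 1
  funext x
  by_cases hx : x.2 ∈ I
  · rw [indicator_of_mem hx, indicator_of_mem (show x ∈ Prod.snd ⁻¹' I from hx), LB.rad,
      sSup_abs_eq (h.nonneg _ hx) (h.cont x.1 _ hx)]
    congr 1
    refine iSup_congr fun n => ?_
    rw [indicator_of_mem (h.star _ hx _ (TopologicalSpace.denseSeq unitInterval n).2)]
  · rw [indicator_of_notMem hx, indicator_of_notMem (show x ∉ Prod.snd ⁻¹' I from hx)]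

lemma Drv.rad_at (h : Drv (m := m) I W) {τ : α → ℝ} (hτ : Measurable τ) (hτI : ∀ a, τ a ∈ I) :
    Measurable (fun a => LB.rad (W a) (τ a)) := by
  have := h.rad.comp (measurable_id.prodMk hτ)
  convert this using 1
  funext a
  simp only [Function.comp, id]
  rw [indicator_of_mem (hτI a)]

/-- the set of pairs (parameter, time) of a window -/
def winSet (W : α → ℝ → ℝ) (τ : α → ℝ) (k : ℤ) : Set (α × ℝ) := {x | x.2 ∈ win (W x.1) (τ x.1) k}

lemma Drv.measurableSet_win (h : Drv (m := m) I W) {τ : α → ℝ} (hτ : Measurable τ)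
    (hτI : ∀ a, τ a ∈ I) (k : ℤ) : MeasurableSet (winSet W τ k) := by
  have hI : MeasurableSet {x : α × ℝ | x.2 ∈ I} := measurable_snd h.mI
  have h1 : MeasurableSet {x : α × ℝ | 0 < x.2} := measurableSet_lt measurable_const measurable_snd
  have h2 : MeasurableSet {x : α × ℝ | x.2 ≤ τ x.1} :=
    measurableSet_le measurable_snd (hτ.comp measurable_fst)
  have h3 : MeasurableSet {x : α × ℝ | (2:ℝ) ^ k ≤ I.indicator (LB.rad (W x.1)) x.2} :=
    measurableSet_le measurable_const h.rad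
  have h4 : MeasurableSet {x : α × ℝ | I.indicator (LB.rad (W x.1)) x.2 < (2:ℝ) ^ (k + 1)} :=
    measurableSet_lt h.rad measurable_const
  have h5 := ((h1.inter h2).inter (h3.inter h4)).inter hI
  convert h5 using 1
  ext x
  simp only [winSet, win, mem_ofPred_eq, mem_inter_iff]
  constructor
  · rintro ⟨a1, a2, a3, a4⟩
    have hx : x.2 ∈ I := h.mem_of_le (hτI x.1) a1.le a2
    rw [indicator_of_mem hx]
    exact ⟨⟨⟨a1, a2⟩, a3, a4⟩, hx⟩
  · rintro ⟨⟨⟨a1, a2⟩, a3, a4⟩, hx⟩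
    rw [indicator_of_mem hx] at a3 a4
    exact ⟨a1, a2, a3, a4⟩

/-! ### content of the step -/

/-- content on `(σ, τ]` -/
theorem Drv.content_Ioc (h : Drv (m := m) I W) {F : α → ℂ → ℂ} (hF : MFam F) {σ τ : α → ℝ}
    (hσ : Measurable σ) (hτ : Measurable τ) (hσ0 : ∀ a, 0 ≤ σ a) (hτI : ∀ a, τ a ∈ I)
    {BB : Set (α × ℂ)} (hBB : MeasurableSet BB) :
    Measurable (fun a => LB.content κ ε c1 (F a) (W a) (Ioc (σ a) (τ a)) {w | (a, w) ∈ BB}) := by
  have hE : MeasurableSet {x : α × ℝ | x.2 ∈ Ioc (σ x.1) (τ x.1)} :=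
    (measurableSet_lt (hσ.comp measurable_fst) measurable_snd).inter
      (measurableSet_le measurable_snd (hτ.comp measurable_fst))
  exact h.content hF hE (fun x hx => h.mem_of_le (hτI x.1) ((hσ0 x.1).trans hx.1.le) hx.2) hBB

/-- content on a window -/
theorem Drv.content_win (h : Drv (m := m) I W) {F : α → ℂ → ℂ} (hF : MFam F) {τ : α → ℝ}
    (hτ : Measurable τ) (hτI : ∀ a, τ a ∈ I) (k : ℤ) {BB : Set (α × ℂ)} (hBB : MeasurableSet BB) :
    Measurable (fun a => LB.content κ ε c1 (F a) (W a) (win (W a) (τ a) k) {w | (a, w) ∈ BB}) :=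
  h.content hF (h.measurableSet_win hτ hτI k)
    (fun x hx => h.mem_of_le (hτI x.1) hx.1.le hx.2.1) hBB

section par

variable {p : Par} {F : α → ℂ → ℂ}

lemma measurableSet_near (hB : MeasurableSet p.B) (hu : Continuous p.u0)
    (hx : Measurable (fun a => p.x (F a))) :
    MeasurableSet {q : α × ℂ | q.2 ∈ p.near (F q.1)} := by
  have h1 : MeasurableSet {q : α × ℂ | q.2 ∈ p.B} := measurable_snd hB
  have h2 : MeasurableSet {q : α × ℂ | dist q.2 (p.x (F q.1)) < p.u0 (p.x (F q.1)) / 4} :=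
    measurableSet_lt (measurable_snd.dist (hx.comp measurable_fst))
      ((hu.measurable.comp (hx.comp measurable_fst)).div_const 4)
  exact h1.inter h2

/-- (5) total content of a step -/
theorem Drv.cont_Ioc (h : Drv (m := m) I W) (hF : MFam F) (hB : MeasurableSet p.B) {τ : α → ℝ}
    (hτ : Measurable τ) (hτI : ∀ a, τ a ∈ I) :
    Measurable (fun a => p.cont (F a) (W a) (Ioc 0 (τ a))) :=
  h.content_Ioc hF measurable_const hτ (fun _ => le_rfl) hτI (BB := {q : α × ℂ | q.2 ∈ p.B})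
    (measurable_snd hB)

theorem Drv.nearC_Ioc (h : Drv (m := m) I W) (hF : MFam F) (hB : MeasurableSet p.B)
    (hu : Continuous p.u0) (hx : Measurable (fun a => p.x (F a))) {τ : α → ℝ}
    (hτ : Measurable τ) (hτI : ∀ a, τ a ∈ I) :
    Measurable (fun a => p.nearC (F a) (W a) (Ioc 0 (τ a))) :=
  h.content_Ioc hF measurable_const hτ (fun _ => le_rfl) hτI
    (BB := {q : α × ℂ | q.2 ∈ p.near (F q.1)}) (measurableSet_near hB hu hx)

theorem Drv.nearC_win (h : Drv (m := m) I W) (hF : MFam F) (hB : MeasurableSet p.B)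
    (hu : Continuous p.u0) (hx : Measurable (fun a => p.x (F a))) {τ : α → ℝ}
    (hτ : Measurable τ) (hτI : ∀ a, τ a ∈ I) (k : ℤ) :
    Measurable (fun a => p.nearC (F a) (W a) (win (W a) (τ a) k)) :=
  h.content_win hF hτ hτI k
    (BB := {q : α × ℂ | q.2 ∈ p.near (F q.1)}) (measurableSet_near hB hu hx)

theorem Drv.farC_Ioc (h : Drv (m := m) I W) (hF : MFam F) (hB : MeasurableSet p.B)
    (hu : Continuous p.u0) (hx : Measurable (fun a => p.x (F a))) {τ : α → ℝ}
    (hτ : Measurable τ) (hτI : ∀ a, τ a ∈ I) :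
    Measurable (fun a => p.farC (F a) (W a) (Ioc 0 (τ a))) :=
  h.content_Ioc hF measurable_const hτ (fun _ => le_rfl) hτI
    (BB := {q : α × ℂ | q.2 ∈ p.B \ p.near (F q.1)})
    ((measurable_snd hB).diff (measurableSet_near hB hu hx))

theorem Drv.farC_win (h : Drv (m := m) I W) (hF : MFam F) (hB : MeasurableSet p.B)
    (hu : Continuous p.u0) (hx : Measurable (fun a => p.x (F a))) {τ : α → ℝ}
    (hτ : Measurable τ) (hτI : ∀ a, τ a ∈ I) (k : ℤ) :
    Measurable (fun a => p.farC (F a) (W a) (win (W a) (τ a) k)) :=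
  h.content_win hF hτ hτI k
    (BB := {q : α × ℂ | q.2 ∈ p.B \ p.near (F q.1)})
    ((measurable_snd hB).diff (measurableSet_near hB hu hx))

end par

/-! ### global content -/

/-- `(a,w) ↦ cz κ ε c1 1 (W a) (Ioc (σ a) (τ a)) w` -/
theorem Drv.cz_Ioc (h : Drv (m := m) I W) {σ τ : α → ℝ} (hσ : Measurable σ) (hτ : Measurable τ)
    (hσ0 : ∀ a, 0 ≤ σ a) (hτI : ∀ a, τ a ∈ I) :
    Measurable (fun q : α × ℂ => LB.cz κ ε c1 1 (W q.1) (Ioc (σ q.1) (τ q.1)) q.2) := by
  have hE : MeasurableSet {x : (α × ℂ) × ℝ | x.2 ∈ Ioc (σ x.1.1) (τ x.1.1)} :=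
    (measurableSet_lt (hσ.comp (measurable_fst.comp measurable_fst)) measurable_snd).inter
      (measurableSet_le measurable_snd (hτ.comp (measurable_fst.comp measurable_fst)))
  exact h.cz (lam := fun _ => 1) measurable_const hE
    (fun x hx => h.mem_of_le (hτI x.1.1) ((hσ0 x.1.1).trans hx.1.le) hx.2)

/-- (6) joint measurability of `Ct` -/
theorem Drv.Ct (h : Drv (m := m) I W) {τ : α → ℝ} (hτ : Measurable τ) (hτI : ∀ a, τ a ∈ I) :
    Measurable (fun q : α × ℂ => LB.Ct κ ε c1 (W q.1) (τ q.1) q.2) :=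
  h.cz_Ioc measurable_const hτ (fun _ => le_rfl) hτI

/-- for one path: `Ct κ ε c1 w t` is a measurable function of the point -/
theorem measurable_Ct {w : ℝ → ℝ} {t : ℝ} (ht : 0 ≤ t) (hw : ContinuousOn w (Icc 0 t)) :
    Measurable (fun z : ℂ => LB.Ct κ ε c1 w t z) := by
  have h : Drv (α := PUnit.{1}) (m := ⊤) (Icc 0 t) (fun _ => w) :=
    Drv.of_Icc (fun _ => hw) (fun s _ => measurable_const)
  have h2 : Measurable[(⊤ : MeasurableSpace PUnit.{1}).prod (borel ℂ)]
      (fun q : PUnit.{1} × ℂ => LB.Ct κ ε c1 w t q.2) :=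
    h.Ct (τ := fun _ => t) measurable_const (fun _ => ⟨ht, le_rfl⟩)
  have h3 : @Measurable _ _ _ ((⊤ : MeasurableSpace PUnit.{1}).prod (borel ℂ))
      (fun z : ℂ => (PUnit.unit.{1}, z)) := measurable_prodMk_left
  have h4 := @Measurable.comp _ _ _ _ ((⊤ : MeasurableSpace PUnit.{1}).prod (borel ℂ)) _ _ _ h2 h3
  exact h4

/-- (7) content mass of a measurable (parameter-dependent) set -/
theorem Drv.muI (h : Drv (m := m) I W) {σ τ : α → ℝ} (hσ : Measurable σ) (hτ : Measurable τ)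
    (hσ0 : ∀ a, 0 ≤ σ a) (hτI : ∀ a, τ a ∈ I) {V : Set (α × ℂ)} (hV : MeasurableSet V) :
    Measurable (fun a => LBS.muI κ ε c1 (W a) (σ a) (τ a) {w | (a, w) ∈ V}) := by
  have h1 := ((h.cz_Ioc (κ := κ) (ε := ε) (c1 := c1) hσ hτ hσ0 hτI).indicator
    hV).lintegral_prod_right' (ν := (volume : Measure ℂ))
  convert h1 using 1
  funext a
  have hm : MeasurableSet {w | (a, w) ∈ V} := measurable_prodMk_left hV
  rw [LBS.muI, ← lintegral_indicator hm]
  refine lintegral_congr fun z => ?_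
  by_cases hz : (a, z) ∈ V
  · rw [indicator_of_mem hz, indicator_of_mem (show z ∈ {w | (a, w) ∈ V} from hz)]
  · rw [indicator_of_notMem hz, indicator_of_notMem (show z ∉ {w | (a, w) ∈ V} from hz)]

theorem Drv.mu (h : Drv (m := m) I W) {τ : α → ℝ} (hτ : Measurable τ) (hτI : ∀ a, τ a ∈ I)
    {V : Set ℂ} (hV : MeasurableSet V) :
    Measurable (fun a => LB.mu κ ε c1 (W a) (τ a) V) := by
  have h1 := h.muI (κ := κ) (ε := ε) (c1 := c1) (σ := fun _ => 0) measurable_const hτ
    (fun _ => le_rfl) hτI (V := {q : α × ℂ | q.2 ∈ V}) (measurable_snd hV)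
  convert h1 using 1
  funext a
  rw [LB.mu, withDensity_apply _ hV]
  rfl

end

end Crest.Agent.R162.LBMc
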