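import Mathlib
import Crest.Agent.R162.LBMe2
import Crest.Agent.R162.LBExp

/-!
Row 162 (S0243), node LB-EXP (helper319): 384's measurability input `LBExp.Meas p`.
-/

set_option autoImplicit false

open Set MeasureTheory Filter Topology
open scoped NNReal ENNReal

namespace Crest.Agent.R162.LBMe

/-- **the measurability input of LB-EXP** -/
theorem meas {p : LB.Par} (hp : p.Adm) : LBExp.Meas p where
  tau := isST_EE p.κ hp
  C := measurable_cont_EE p.κ hp
  L := measurable_lam_st_EE p.κ hp
  A := measurable_area_st_EE p.κ hp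
  L0 := measurable_lam_EE p.κ hp
  A0 := measurable_area_EE p.κ hp
  u0 := measurable_u0x_EE p.κ hp
  tot := measurable_cz_EE p.κ hp.meas p.κ p.ε p.c1

theorem meas_of_ok {p : LB.Par} (h : LBS.Ok p) : LBExp.Meas p := meas h.adm

end Crest.Agent.R162.LBMe
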