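import Mathlib
import Crest.Agent.R162.LBMeas2
import Crest.Agent.R162.LBMeasC

/-!
Row 162 (S0243), node LB-MEAS (helper412), part 3: the running radius, composed state maps, the
step conditions `Bad1`, `Bad2` along measurable families.
-/

set_option autoImplicit false

open Set MeasureTheory Filter Topology Complex
open scoped NNReal ENNReal

namespace Crest.Agent.R162.LBM3

open Crest.Agent.R162.FL Crest.Agent.R162.FLC Crest.Agent.R162.FLD Crest.Agent.R162.LBM

section fam

variable {α β : Type*} [MeasurableSpace α] [MeasurableSpace β] {W : α → ℝ → ℝ}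
  {F G : α → ℂ → ℂ}

/-- the new state maps form a measurable family -/
theorem mfam_st (hF : MFam F) (hW : PFam W) {τ : α → ℝ} (hτ : Measurable τ)
    (h0 : ∀ a, 0 ≤ τ a) : MFam (fun a => LB.Par.st (F a) (W a) (τ a)) :=
  hF.comp (hW.mfam hτ h0) (fun a _ hz => ffl_im_pos (hW.cont a) (h0 a) hz)

theorem injOn_st {f : ℂ → ℂ} {V : ℝ → ℝ} (hi : InjOn f {z : ℂ | 0 < z.im})
    (hV : ContinuousOn V (Ici 0)) {t : ℝ} (ht : 0 ≤ t) :
    InjOn (LB.Par.st f V t) {z : ℂ | 0 < z.im} :=
  hi.comp (injOn_ffl hV ht) (fun _ hz => ffl_im_pos hV ht hz)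

variable {p : LB.Par}

theorem measurableSet_bad1 (hW : PFam W) (hρ : Measurable (fun a => p.rho1 (F a))) :
    MeasurableSet {x : α × ℝ | 0 ≤ x.2 ∧ p.Bad1 (F x.1) (W x.1) x.2} := by
  have h1 : MeasurableSet {x : α × ℝ | 0 ≤ x.2} := measurableSet_le measurable_const measurable_snd
  have h2 := measurableSet_lt (hρ.comp measurable_fst) hW.rad_joint
  convert h1.inter h2 using 1
  ext x
  simp only [mem_ofPred_eq, mem_inter_iff, Function.comp]
  constructor
  · rintro ⟨a, b⟩
    refine ⟨a, ?_⟩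
    rw [indicator_of_mem (show x.2 ∈ Ici (0:ℝ) from a)]
    exact b
  · rintro ⟨a, b⟩
    refine ⟨a, ?_⟩
    rw [indicator_of_mem (show x.2 ∈ Ici (0:ℝ) from a)] at b
    exact b

/-- `Bad2` through rational multiples of `10 ρ_t` -/
theorem bad2_iff {f : ℂ → ℂ} {V : ℝ → ℝ} {t : ℝ} (hf : DifferentiableOn ℂ f {z : ℂ | 0 < z.im})
    (hV : ContinuousOn V (Ici 0)) (ht : 0 ≤ t) :
    p.Bad2 f V t ↔ 0 < LB.rad V t ∧ ∃ r : Q01, 0 < (r : ℚ) ∧ p.u0 (p.x f) / 16 <
      ‖f (ffl V t (((r : ℚ) * (10 * LB.rad V t) : ℝ) * I)) - f ((10 * LB.rad V t : ℝ) * I)‖ := by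
  constructor
  · rintro ⟨y, hy, hy1, hy2⟩
    have hr : 0 < LB.rad V t := by linarith
    refine ⟨hr, ?_⟩
    by_contra hcon
    push Not at hcon
    have hR : 0 < 10 * LB.rad V t := by linarith
    set c : ℝ := y / (10 * LB.rad V t) with hc
    have hc0 : 0 < c := div_pos hy hR
    have hc1 : c ≤ 1 := (div_le_one hR).2 hy1
    -- rescale `[0,1]` to `[c/2... ]`: use a continuous function on `(0,1]`
    have hcont : ContinuousOn (fun s : ℝ => ‖f (ffl V t ((s * (10 * LB.rad V t) : ℝ) * I)) -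
        f ((10 * LB.rad V t : ℝ) * I)‖) (Ioi 0) := by
      refine (ContinuousOn.sub ?_ continuousOn_const).norm
      refine (hf.continuousOn.comp (differentiableOn_ffl hV ht).continuousOn
        (fun z hz => ffl_im_pos hV ht hz)).comp (by fun_prop) ?_
      intro s hs
      have : 0 < s * (10 * LB.rad V t) := mul_pos hs hR
      simpa using this
    have hopen : IsOpen {s : ℝ | s ∈ Ioi (0:ℝ) ∧ p.u0 (p.x f) / 16 <
        ‖f (ffl V t ((s * (10 * LB.rad V t) : ℝ) * I)) - f ((10 * LB.rad V t : ℝ) * I)‖} := by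
      have := hcont.isOpen_inter_preimage isOpen_Ioi (isOpen_Ioi (a := p.u0 (p.x f) / 16))
      exact this
    have hcS : c ∈ {s : ℝ | s ∈ Ioi (0:ℝ) ∧ p.u0 (p.x f) / 16 <
        ‖f (ffl V t ((s * (10 * LB.rad V t) : ℝ) * I)) - f ((10 * LB.rad V t : ℝ) * I)‖} := by
      refine ⟨hc0, ?_⟩
      rw [hc, div_mul_cancel₀ _ hR.ne']
      exact hy2
    obtain ⟨δ, hδ, hball⟩ := Metric.isOpen_iff.1 hopen c hcS
    obtain ⟨r, hr1, hr2⟩ := exists_rat_btwn (show max (c - δ) (c / 2) < c by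
      exact max_lt (by linarith) (by linarith))
    have hr0 : 0 < (r : ℝ) := lt_of_le_of_lt (by positivity) ((le_max_right _ _).trans_lt hr1)
    have hr0' : 0 < r := by exact_mod_cast hr0
    have hr1' : r ≤ 1 := by exact_mod_cast (hr2.le.trans hc1)
    have hmem : (r : ℝ) ∈ Metric.ball c δ := by
      rw [Metric.mem_ball, Real.dist_eq, abs_lt]
      constructor
      · linarith [(le_max_left (c - δ) (c / 2)).trans_lt hr1]
      · linarith
    exact absurd (hball hmem).2 (not_lt.2 (hcon ⟨r, hr0'.le, hr1'⟩ hr0'))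
  · rintro ⟨hr, r, hr0, h⟩
    have hr0' : 0 < ((r : ℚ) : ℝ) := by exact_mod_cast hr0
    have hr1' : ((r : ℚ) : ℝ) ≤ 1 := by exact_mod_cast r.2.2
    exact ⟨(r : ℚ) * (10 * LB.rad V t), by positivity,
      mul_le_of_le_one_left (by positivity) hr1', h⟩

/-- joint measurability of condition `Bad2` -/
theorem measurableSet_bad2 (hp : p.Adm) (hF : MFam F) (hW : PFam W)
    (hx : Measurable (fun a => p.x (F a))) :
    MeasurableSet {x : α × ℝ | 0 ≤ x.2 ∧ p.Bad2 (F x.1) (W x.1) x.2} := by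
  have hum := hp.lip.continuous.measurable
  have ht0 : Measurable (fun x : α × ℝ => max x.2 0) := by fun_prop
  have h00 : ∀ x : α × ℝ, 0 ≤ max x.2 0 := fun x => le_max_right _ _
  have hW2 : PFam (fun x : α × ℝ => W x.1) := hW.comp_param measurable_fst
  have hF2 : MFam (fun x : α × ℝ => F x.1) := hF.comp_param measurable_fst
  have hρ : Measurable (fun x : α × ℝ => LB.rad (W x.1) (max x.2 0)) := hW2.rad_at measurable_id ht0 h00
  have hst : MFam (fun x : α × ℝ => LB.Par.st (F x.1) (W x.1) (max x.2 0)) := mfam_st hF2 hW2 ht0 h00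
  -- positive radius, replaced by `1` where it vanishes
  have hR : Measurable (fun x : α × ℝ => if 0 < LB.rad (W x.1) (max x.2 0) then
      10 * LB.rad (W x.1) (max x.2 0) else 1) :=
    Measurable.ite (measurableSet_lt measurable_const hρ) (hρ.const_mul 10) measurable_const
  have hR0 : ∀ x : α × ℝ, 0 < (if 0 < LB.rad (W x.1) (max x.2 0) then
      10 * LB.rad (W x.1) (max x.2 0) else 1) := by
    intro x; split_ifs with h
    · linarith
    · norm_num
  have hmain : ∀ r : Q01, 0 < (r : ℚ) → Measurable (fun x : α × ℝ =>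
      ‖LB.Par.st (F x.1) (W x.1) (max x.2 0) (((r : ℚ) * (if 0 < LB.rad (W x.1) (max x.2 0) then
      10 * LB.rad (W x.1) (max x.2 0) else 1) : ℝ) * I) -
      F x.1 (((if 0 < LB.rad (W x.1) (max x.2 0) then
      10 * LB.rad (W x.1) (max x.2 0) else 1 : ℝ)) * I)‖) := by
    intro r hr
    have hr0' : 0 < ((r : ℚ) : ℝ) := by exact_mod_cast hr
    refine Measurable.norm (Measurable.sub ?_ ?_)
    · refine hst.at (((hR.const_mul ((r : ℚ) : ℝ)).complex_ofReal).mul_const I) (fun x => ?_)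
      have := mul_pos hr0' (hR0 x)
      rw [im_mul_I']
      exact this
    · refine hF2.at ((hR.complex_ofReal).mul_const I) (fun x => ?_)
      rw [im_mul_I']
      exact hR0 x
  have hu1 : Measurable (fun x : α × ℝ => p.u0 (p.x (F x.1)) / 16) :=
    (hum.comp (hx.comp measurable_fst)).div_const 16
  have hS : MeasurableSet ({x : α × ℝ | 0 ≤ x.2} ∩ ({x : α × ℝ | 0 < LB.rad (W x.1) (max x.2 0)} ∩
      ⋃ r : {r : Q01 // 0 < (r : ℚ)}, {x : α × ℝ | p.u0 (p.x (F x.1)) / 16 <
        ‖LB.Par.st (F x.1) (W x.1) (max x.2 0)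
          (((r.1 : ℚ) * (if 0 < LB.rad (W x.1) (max x.2 0) then
          10 * LB.rad (W x.1) (max x.2 0) else 1) : ℝ) * I) -
        F x.1 (((if 0 < LB.rad (W x.1) (max x.2 0) then
          10 * LB.rad (W x.1) (max x.2 0) else 1 : ℝ)) * I)‖})) :=
    (measurableSet_le measurable_const measurable_snd).inter
      ((measurableSet_lt measurable_const hρ).inter
        (MeasurableSet.iUnion fun r => measurableSet_lt hu1 (hmain r.1 r.2)))
  convert hS using 1
  ext x
  simp only [mem_ofPred_eq, mem_inter_iff, mem_iUnion]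
  constructor
  · rintro ⟨h0, h1⟩
    rw [bad2_iff (hF.diff _) (hW.cont _) h0] at h1
    obtain ⟨h2, r, hr, h3⟩ := h1
    refine ⟨h0, by rwa [max_eq_left h0], ⟨r, hr⟩, ?_⟩
    rw [max_eq_left h0, if_pos h2]
    exact h3
  · rintro ⟨h0, h2, ⟨r, hr⟩, h3⟩
    refine ⟨h0, ?_⟩
    rw [bad2_iff (hF.diff _) (hW.cont _) h0]
    rw [max_eq_left h0] at h2 h3
    rw [if_pos h2] at h3
    exact ⟨h2, r, hr, h3⟩

end fam

end Crest.Agent.R162.LBM3
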