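import Crest.Agent.R162.LBSkel
import Crest.Agent.R162.LB0D
import Crest.Agent.R162.LB3cF
import Crest.Agent.R162.LB3cJ
import Crest.Agent.R162.LBStep1
import Crest.Agent.R162.LBCont2
import Crest.Agent.R162.LBST3

/-!
Row 162 (S0243), node LBcSF (helper661): the total content of one step is `≤ K₅ ϖ`
(`LBS.LBcS` with its quantifiers), from the near windows (T₃) and the far content (868).
-/

set_option autoImplicit false

open MeasureTheory Set Filter Topology
open scoped ENNReal NNReal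

namespace Crest.Agent.R162.LBcSF

open Crest.Agent.R162.KB1
open Crest.Agent.R162
open Crest.Agent.R162.LB (win)

/-- `geoP` with `J < ∞` as a hypothesis. -/
theorem geoJ {p : LB.Par} (hA : p.Adm) (hc : LB0.Small p) {f : ℂ → ℂ}
    (hf : DifferentiableOn ℂ f Hs) (hfi : InjOn f Hs)
    (hJ : ∀ y, LB0.Jv p.u0 p.q f y < ⊤)
    (hv : ∃ y : ℝ, 0 < y ∧ p.θ ≤ LB.vv p.u0 f y) : LB0.Geo p f := by
  obtain ⟨y0, hy0, hvy0⟩ := hv
  have hK42 : 1 ≤ p.K4 ^ 2 := one_le_pow₀ hc.K4_ge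
  have hθ1 : p.θ ≤ 1 := by have := hc.sm2; have := hc.θ_pos; nlinarith
  have hne : (LB0.bad p.u0 p.q f p.θ p.K3).Nonempty := ⟨y0, hy0, Or.inl hvy0⟩
  obtain ⟨g1, g2, g3, g4, g5, g6⟩ := LB0.geo (K4 := p.K4) hf hfi hA.lip hA.one_le hc.q_pos hc.q_lt
    hc.θ_pos hc.K3_pos hc.K4_ge hc.sm1 hc.sm2 ⟨1, one_pos, hJ 1⟩ hne
  have hrho : p.rho1 f = LB0.rho1 p.u0 p.q f p.θ p.K3 p.K4 := by
    unfold LB.Par.rho1 LB0.rho1
    rfl
  rw [← hrho] at g2 g3 g4 g5 g6
  have hvy : LB.vv p.u0 f (p.y f) ≤ p.θ := LB0.vv_yx_le hf hA.lip hA.one_le g1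
  have hJy : LB.Jv p.u0 p.q f (p.y f) ≤ ENNReal.ofReal p.K3 :=
    LB0.Jv_yx_le hf hfi hA.one_le hc.q_pos g1
  have hnear : ∀ y : ℝ, 0 < y → y ≤ 10 * p.rho1 f →
      ‖f (y * Complex.I) - p.x f‖ ≤ p.u0 (p.x f) / 64 := fun y hy hy2 => g4 y hy hy2
  refine
    { y_pos := g1
      rho_pos := g2
      y_le := g3
      near := hnear
      vv_le := fun y hy hy2 => g5 y hy hy2
      vv_le_one := fun y hy hy2 => (g5 y hy hy2).trans (by have := hc.sm2; nlinarith)
      Jv_le := g6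
      Jv_lt_top := hJ
      lt_y := fun y hy hy2 => LB0.good_of_lt hy hy2
      vv_y_le := hvy
      Jv_y_le := hJy
      caseA := fun h => ⟨le_antisymm hvy h, by unfold LB.Par.rho1; rw [if_pos h]⟩
      caseB := fun h => ?_
      u0_near := fun y hy hy2 => LB0.u0_comparable hA.lip (hnear y hy hy2)
      norm_sub := fun y y' hy hy2 hy' hy2' => ?_ }
  · refine ⟨by unfold LB.Par.rho1; rw [if_neg h]; ring, le_antisymm hJy ?_⟩
    exact LB0.le_Jv_yx hf hfi hA.lip hA.one_le hc.q_pos hne g1 (not_le.1 h)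
  · have h3 := hnear y hy hy2
    have h4 := hnear y' hy' hy2'
    calc ‖f (y * Complex.I) - f (y' * Complex.I)‖
        = ‖(f (y * Complex.I) - p.x f) - (f (y' * Complex.I) - p.x f)‖ := by ring_nf
      _ ≤ ‖f (y * Complex.I) - p.x f‖ + ‖f (y' * Complex.I) - p.x f‖ := norm_sub_le _ _
      _ ≤ _ := by linarith

/-- the geometry of a step from `Start`. -/
theorem geo_start {p : LB.Par} (hA : p.Adm) (hc : LB0.Small p) (hθ : p.θ < 1 / 2) {f : ℂ → ℂ}
    (hs : LBS.Start p f) : LB0.Geo p f := by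
  refine geoJ hA hc hs.univ.diff hs.univ.inj (fun y => (hs.J_ne_top y).lt_top) ?_
  have h1 := hs.v_tendsto.eventually (lt_mem_nhds (show p.θ < 1 by linarith))
  obtain ⟨y, hy1, hy2⟩ := (h1.and (eventually_gt_atTop 0)).exists
  exact ⟨y, hy2, hy1.le⟩

variable {κ ε c1 : ℝ} {f : ℂ → ℂ} {W : ℝ → ℝ} {B : Set ℂ}

/-- measurability in `z` of the density of the content, deterministic path -/
theorem measurable_cz_z (hW : ContinuousOn W (Ici 0)) {E : Set ℝ} {T : ℝ} (hE : MeasurableSet E)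
    (hET : E ⊆ Icc 0 T) (f : ℂ → ℂ) :
    Measurable (fun z : ℂ => LB.cz κ ε c1 ‖deriv f z‖ W E z) := by
  have hl : Measurable (fun p : Unit × ℂ => ‖deriv f p.2‖) :=
    (measurable_deriv f).norm.comp measurable_snd
  have hE2 : MeasurableSet {x : Unit × ℝ | x.2 ∈ (fun _ : Unit => E) x.1} := measurable_snd hE
  have hg : Measurable (fun z : ℂ => (((), z) : Unit × ℂ)) := measurable_const.prodMk measurable_id
  have hc : ∀ ω : Unit, ContinuousOn ((fun _ : Unit => W) ω) (Icc 0 T) :=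
    fun _ => hW.mono Icc_subset_Ici_self
  have hm : ∀ s ∈ Icc 0 T, Measurable (fun ω : Unit => (fun _ : Unit => W) ω s) :=
    fun _ _ => measurable_const
  have h := LBCont.measurable_cz (κ := κ) (ε := ε) (c1 := c1) (Ω := Unit) (W := fun _ => W) (T := T)
    hl hc hm hE2 (fun _ => hET)
  have h2 := h.comp hg
  simpa only [Function.comp_def] using h2

/-- continuity from the left of the content in the time -/
theorem content_limit (hW : ContinuousOn W (Ici 0)) {T : ℝ} {K : ℝ≥0∞}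
    (h : ∀ t, 0 < t → t < T → LB.content κ ε c1 f W (Ioc 0 t) B ≤ K) :
    LB.content κ ε c1 f W (Ioc 0 T) B ≤ K := by
  rcases le_or_gt T 0 with hT | hT
  · unfold LB.content LB.cz
    rw [Ioc_eq_empty (by linarith)]
    simp
  set u : ℕ → ℝ := fun n => T * (1 - 1 / ((n : ℝ) + 2)) with hu
  have hu0 : ∀ n, 0 < u n := by
    intro n
    have h2 : (1:ℝ) / ((n : ℝ) + 2) ≤ 1 / 2 := by
      apply one_div_le_one_div_of_le (by norm_num)
      have : (0:ℝ) ≤ n := Nat.cast_nonneg n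
      linarith
    have : 0 < 1 - 1 / ((n : ℝ) + 2) := by linarith
    exact mul_pos hT this
  have huT : ∀ n, u n < T := by
    intro n
    have : (0:ℝ) < 1 / ((n : ℝ) + 2) := by positivity
    calc u n < T * 1 := mul_lt_mul_of_pos_left (by linarith) hT
      _ = T := mul_one T
  have humono : Monotone u := by
    intro a b hab
    have hab' : (a : ℝ) ≤ b := Nat.cast_le.2 hab
    have : (1:ℝ) / ((b : ℝ) + 2) ≤ 1 / ((a : ℝ) + 2) := by
      apply one_div_le_one_div_of_le (by positivity)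
      linarith
    exact mul_le_mul_of_nonneg_left (by linarith) hT.le
  have hulim : Tendsto u atTop (𝓝 T) := by
    have h1 : Tendsto (fun n : ℕ => (1:ℝ) / ((n : ℝ) + 2)) atTop (𝓝 0) := by
      have h2 : Tendsto (fun n : ℕ => (n : ℝ) + 2) atTop atTop :=
        tendsto_atTop_add_const_right _ _ tendsto_natCast_atTop_atTop
      have h4 := tendsto_inv_atTop_zero.comp h2
      refine h4.congr fun n => ?_
      simp [Function.comp]
    have h3 := (tendsto_const_nhds (x := T)).mul ((tendsto_const_nhds (x := (1:ℝ))).sub h1)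
    rw [sub_zero, mul_one] at h3
    exact h3
  have hcov : Ioo 0 T = ⋃ n, Ioc 0 (u n) := by
    ext s
    rw [mem_iUnion]
    constructor
    · intro hs
      have h1 := hulim.eventually (lt_mem_nhds hs.2)
      obtain ⟨n, hn⟩ := h1.exists
      exact ⟨n, hs.1, hn.le⟩
    · rintro ⟨n, hn⟩
      exact ⟨hn.1, hn.2.trans_lt (huT n)⟩
  have hmono : Monotone (fun n => Ioc 0 (u n)) := fun a b hab => Ioc_subset_Ioc_right (humono hab)
  have hcz : ∀ z, LB.cz κ ε c1 ‖deriv f z‖ W (Ioc 0 T) z =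
      ⨆ n, LB.cz κ ε c1 ‖deriv f z‖ W (Ioc 0 (u n)) z := by
    intro z
    unfold LB.cz
    rw [setLIntegral_congr Ioo_ae_eq_Ioc.symm, hcov,
      setLIntegral_iUnion_of_directed _ (directed_of_isDirected_le hmono)]
  have hm : ∀ n, Measurable (fun z : ℂ => LB.cz κ ε c1 ‖deriv f z‖ W (Ioc 0 (u n)) z) :=
    fun n => measurable_cz_z (T := u n) hW measurableSet_Ioc Ioc_subset_Icc_self f
  have hmain : LB.content κ ε c1 f W (Ioc 0 T) B =
      ⨆ n, LB.content κ ε c1 f W (Ioc 0 (u n)) B := by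
    unfold LB.content
    rw [← lintegral_iSup]
    · apply lintegral_congr
      intro z
      rw [hcz z, ENNReal.mul_iSup]
    · intro n
      exact ((measurable_deriv f).norm.pow_const 2).ennreal_ofReal.mul (hm n)
    · intro a b hab z
      exact mul_le_mul' le_rfl (LB.cz_mono (hmono hab) z)
  rw [hmain]
  exact iSup_le fun n => h (u n) (hu0 n) (huT n)

/-- countable subadditivity of the content in the time set -/
theorem content_le_tsum {E : ℤ → Set ℝ} {S : Set ℝ}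
    (hm : ∀ k, Measurable (fun z : ℂ => LB.cz κ ε c1 ‖deriv f z‖ W (E k) z))
    (hsub : S ⊆ ⋃ k, E k) :
    LB.content κ ε c1 f W S B ≤ ∑' k, LB.content κ ε c1 f W (E k) B := by
  unfold LB.content
  rw [← lintegral_tsum]
  · apply lintegral_mono
    intro z
    simp only
    rw [ENNReal.tsum_mul_left]
    refine mul_le_mul' le_rfl ?_
    refine (LB.cz_mono hsub z).trans ?_
    exact lintegral_iUnion_le _ _
  · intro k
    exact (((measurable_deriv f).norm.pow_const 2).ennreal_ofReal.mul (hm k)).aemeasurable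

/-- subadditivity of the content in the physical set -/
theorem content_union_le (B B' : Set ℂ) (E : Set ℝ) :
    LB.content κ ε c1 f W E (B ∪ B') ≤ LB.content κ ε c1 f W E B + LB.content κ ε c1 f W E B' := by
  unfold LB.content
  have : {z : ℂ | 0 < z.im ∧ f z ∈ B ∪ B'} = {z : ℂ | 0 < z.im ∧ f z ∈ B} ∪
      {z : ℂ | 0 < z.im ∧ f z ∈ B'} := by
    ext z
    simp only [mem_ofPred_eq, mem_union]
    tauto
  rw [this]
  exact lintegral_union_le _ _ _

/-- the windows are measurable -/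
theorem measurableSet_win (hW : ContinuousOn W (Ici 0)) (t : ℝ) (k : ℤ) :
    MeasurableSet (win W t k) := by
  have hr : Continuous (fun s : ℝ => LB.rad W (max s 0)) :=
    (LBST.continuousOn_rad hW).comp_continuous (by fun_prop) (fun s => le_max_right s 0)
  have h1 : MeasurableSet {s : ℝ | 0 < s ∧ s ≤ t ∧ (2 : ℝ) ^ k ≤ LB.rad W (max s 0) ∧
      LB.rad W (max s 0) < (2 : ℝ) ^ (k + 1)} := by
    refine (measurableSet_lt measurable_const measurable_id).inter
      ((measurableSet_le measurable_id measurable_const).inter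
      ((measurableSet_le measurable_const hr.measurable).inter
        (measurableSet_lt hr.measurable measurable_const)))
  convert h1 using 1
  ext s
  simp only [win, mem_ofPred_eq]
  constructor
  · rintro ⟨h0, h1, h2, h3⟩
    rw [max_eq_left h0.le]
    exact ⟨h0, h1, h2, h3⟩
  · rintro ⟨h0, h1, h2, h3⟩
    rw [max_eq_left h0.le] at h2 h3
    exact ⟨h0, h1, h2, h3⟩

/-- the windows below `r` cover `(0,t]` -/
theorem cover (hW : ContinuousOn W (Ici 0)) {t r : ℝ} (hr : LB.rad W t ≤ r) :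
    Ioc 0 t ⊆ ⋃ k : ℤ, (if (2 : ℝ) ^ k ≤ r then win W t k else ∅) := by
  intro s hs
  have h0 : 0 < LB.rad W s := lt_of_lt_of_le (Real.sqrt_pos.2 hs.1) (LB.sqrt_le_rad W s)
  obtain ⟨k, hk1, hk2⟩ := exists_mem_Ico_zpow h0 (one_lt_two : (1:ℝ) < 2)
  rw [mem_iUnion]
  refine ⟨k, ?_⟩
  have : (2 : ℝ) ^ k ≤ r := hk1.trans ((LB.rad_mono hW hs.1.le hs.2).trans hr)
  rw [if_pos this]
  exact ⟨hs.1, hs.2, hk1, hk2⟩

/-- `near = ∅` if `u₀(x) > 1` -/
theorem near_eq_empty {p : LB.Par} (hA : p.Adm) {f : ℂ → ℂ} (h : 1 < p.u0 (p.x f)) :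
    p.near f = ∅ := by
  ext w
  simp only [LB.Par.near, mem_inter_iff, Metric.mem_ball, mem_empty_iff_false, iff_false, not_and,
    not_lt]
  intro hw
  have h1 := hA.le_dist w hw (p.x f)
  rcases le_max_iff.1 h1 with h2 | h2
  · linarith
  · rw [dist_comm] at h2
    linarith

/-- near content of a step, from the `T₃` windows -/
theorem nearC_le {p : LB.Par} (hA : p.Adm) {f : ℂ → ℂ} {W : ℝ → ℝ} {t : ℝ} (hg : LB0.Geo p f)
    (hf : DifferentiableOn ℂ f Hs) (hfi : InjOn f Hs)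
    (hq0 : 0 ≤ p.q) (hq1 : p.q ≤ 1) (hqcs : p.q ≤ p.cs / 2)
    (hW : ContinuousOn W (Ici 0)) (hr : LB.rad W t ≤ p.rho1 f)
    (h3 : ∀ k : ℤ, p.nearC f W (win W t k) ≤
      ENNReal.ofReal (LB.vv p.u0 f ((2 : ℝ) ^ k) ^ (p.cs / 2))) :
    p.nearC f W (Ioc 0 t) ≤
      ENNReal.ofReal (20 * (p.K3 + Real.log (10 * p.K4)) * p.varpi f) := by
  rcases lt_or_ge 1 (p.u0 (p.x f)) with hx | hx
  · have : p.nearC f W (Ioc 0 t) = 0 := by
      unfold LB.Par.nearC LB.content
      rw [near_eq_empty hA hx]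
      simp
    rw [this]
    exact bot_le
  have hx1 : p.u0 (p.x f) = 1 := le_antisymm hx (hA.one_le _)
  have hvarpi : p.varpi f = 1 := by
    unfold LB.Par.varpi
    rw [hx1, Real.one_rpow]
  rw [hvarpi, mul_one]
  have hl : ∀ a b : ℂ, |p.u0 a - p.u0 b| ≤ ‖a - b‖ := by
    intro a b
    have := hA.lip.dist_le_mul a b
    rw [Real.dist_eq, dist_eq_norm] at this
    simpa using this
  set E : ℤ → Set ℝ := fun k => if (2 : ℝ) ^ k ≤ p.rho1 f then win W t k else ∅ with hE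
  have hEm : ∀ k, Measurable (fun z : ℂ => LB.cz p.κ p.ε p.c1 ‖deriv f z‖ W (E k) z) := by
    intro k
    refine measurable_cz_z (T := t) hW ?_ ?_ f
    · simp only [hE]
      split_ifs
      · exact measurableSet_win hW t k
      · exact MeasurableSet.empty
    · simp only [hE]
      split_ifs
      · intro s hs
        exact ⟨hs.1.le, hs.2.1⟩
      · exact empty_subset _
  have h1 := content_le_tsum (B := p.near f) hEm (cover hW hr)
  have h2 : ∀ k, LB.content p.κ p.ε p.c1 f W (E k) (p.near f) ≤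
      (if (2 : ℝ) ^ k ≤ p.rho1 f then
        ENNReal.ofReal (LB.vv p.u0 f ((2 : ℝ) ^ k) ^ (p.cs / 2)) else 0) := by
    intro k
    simp only [hE]
    split_ifs
    · exact h3 k
    · unfold LB.content LB.cz
      simp
  have hd := LBStep.dyad hf hfi hA.one_le hl (q := p.q) (a := p.cs / 2) (r := p.rho1 f) (V := 1)
    hq0 hq1 hqcs le_rfl (fun y hy hy2 => hg.vv_le_one y hy (by have := hg.rho_pos; linarith))
  rw [Real.one_rpow, mul_one] at hd
  calc p.nearC f W (Ioc 0 t) ≤ ∑' k, LB.content p.κ p.ε p.c1 f W (E k) (p.near f) := h1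
    _ ≤ _ := ENNReal.tsum_le_tsum h2
    _ ≤ ENNReal.ofReal 20 * LB.Jv p.u0 p.q f (2 * p.rho1 f) := hd
    _ ≤ ENNReal.ofReal 20 * LB.Jv p.u0 p.q f (10 * p.rho1 f) := by
        refine mul_le_mul' le_rfl (LB0.Jv_mono ?_)
        have := hg.rho_pos
        linarith
    _ ≤ ENNReal.ofReal 20 * ENNReal.ofReal (p.K3 + Real.log (10 * p.K4)) :=
        mul_le_mul' le_rfl hg.Jv_le
    _ = _ := (ENNReal.ofReal_mul (by norm_num)).symm

/-- **LBcS**, explicit form. -/
theorem lbcS {p : LB.Par} (hok : LBS.Ok p) (hqcs : p.q ≤ p.cs / 2)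
    (hθ : 6400 * p.K4 ^ 2 * p.θ ≤ 1) (hθ2 : p.K3 * p.θ ^ (1 - p.q) ≤ 1 / 130)
    (hε : p.ε ≤ LB3cF.eps0 p.c1) :
    LBS.LBcS (20 * (p.K3 + Real.log (10 * p.K4)) + LB3cF.C6 p.c1 p.q p.η) p := by
  intro f hS W hW
  have hA := hok.adm
  have hη := hok.η0
  have hqη := hok.qη
  have hθ0 := hok.θ0
  have hq0 := hok.q0
  have hK4 := hok.K4
  have hK3 := hok.K3
  have hK42 : (1 : ℝ) ≤ p.K4 ^ 2 := one_le_pow₀ hK4
  have hlog : 0 ≤ Real.log (10 * p.K4) := Real.log_nonneg (by linarith)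
  have hc : LB0.Small p :=
    { q_pos := hq0, q_lt := by linarith, η_nonneg := hη.le, θ_pos := hθ0,
      K3_pos := by linarith, K4_ge := hK4, sm1 := hθ2, sm2 := by nlinarith }
  have hG := geo_start hA hc hok.θ1 hS
  have hv0 : 0 ≤ p.varpi f := Real.rpow_nonneg (by linarith [hA.one_le (p.x f)]) _
  have hnear : p.nearC f W (Ioc 0 (p.T f W)) ≤
      ENNReal.ofReal (20 * (p.K3 + Real.log (10 * p.K4)) * p.varpi f) := by
    refine content_limit hW.cont fun t ht htT => ?_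
    have hb := LB.not_bad_of_lt p ht htT
    refine nearC_le hA hG hS.univ.diff hS.univ.inj hq0.le (by linarith) hqcs hW.cont ?_ ?_
    · exact not_lt.1 fun h => hb (Or.inl h)
    · exact fun k => not_lt.1 fun h => hb (Or.inr (Or.inr ⟨k, h⟩))
  have hfar := LB3cF.farC_skel hok hθ hθ2 hε hS hW
  have hB : p.B = p.near f ∪ (p.B \ p.near f) := by
    rw [union_sdiff_cancel]
    exact inter_subset_left
  calc p.cont f W (Ioc 0 (p.T f W))
      ≤ p.nearC f W (Ioc 0 (p.T f W)) + p.farC f W (Ioc 0 (p.T f W)) := by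
        unfold LB.Par.cont LB.Par.nearC LB.Par.farC
        conv_lhs => rw [hB]
        exact content_union_le _ _ _
    _ ≤ _ := add_le_add hnear hfar
    _ = _ := by
        rw [← ENNReal.ofReal_add]
        · congr 1
          ring
        · positivity
        · exact mul_nonneg (LB3cF.C6_nonneg hok.c10) hv0

/-- **LBcS** with the quantifiers of `LBS.StepIn`. -/
theorem lbcS_all {κ c1 q η cs K4 K3 : ℝ} (hc1 : 0 < c1) (hq : 0 < q) (hη : 0 < η)
    (hqη : 4 * q + 2 * η ≤ 1 / 2) (hqcs : q ≤ cs / 2) (hK4 : 1 ≤ K4) (hK3 : 1 ≤ K3) :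
    ∃ θ₀ > 0, ∀ θ, 0 < θ → θ ≤ θ₀ → ∃ K5 ≥ 0, ∃ ε₀ > 0, ∀ ε, 0 < ε → ε ≤ ε₀ → ∀ B u0,
      LBS.Ok (LBS.mkP κ c1 q η cs K4 K3 θ ε B u0) →
        LBS.LBcS K5 (LBS.mkP κ c1 q η cs K4 K3 θ ε B u0) := by
  obtain ⟨θ0, hθ0, -, hθs⟩ := LB3cF.exists_theta hq (by linarith) (by linarith : 0 < K3) hK4
  have hlog : 0 ≤ Real.log (10 * K4) := Real.log_nonneg (by linarith)
  have hC6 : 0 ≤ LB3cF.C6 c1 q η := LB3cF.C6_nonneg hc1
  refine ⟨θ0, hθ0, fun θ hθ hle => ⟨20 * (K3 + Real.log (10 * K4)) + LB3cF.C6 c1 q η, by positivity,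
    LB3cF.eps0 c1, LB3cF.eps0_pos c1, fun ε _ hεle B u0 hok => ?_⟩⟩
  obtain ⟨s1, -, s3⟩ := hθs θ hθ hle
  exact lbcS hok hqcs s3 s1 hεle

end Crest.Agent.R162.LBcSF
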