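import Crest.Agent.R162.LBStep2
import Crest.Agent.R162.LBBook2
import Crest.Agent.R162.LBcSF
import Crest.Agent.R162.LB4W
import Crest.Agent.R162.LB2z
import Crest.Agent.R162.OPf

/-!
Row 162 (S0243), node STEP packaging (helper301): `StepIn3 κ c1` from the landed nodes, and the
three open inputs `In3 κ c1`, `PathIn`, `LB1S`.
-/

set_option autoImplicit false

open MeasureTheory ProbabilityTheory Filter Topology Set Complex
open scoped NNReal ENNReal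
open Crest.ProbabilityR.Loewner

namespace Crest.Agent.R162.LBPk

open Crest.Agent.R162.LB Crest.Agent.R162.LBS Crest.Agent.R162.LBStep

universe u

/-- LB1 with its quantifiers (helper791). -/
def LB1All (κ c1 : ℝ) : Prop :=
  ∀ q η : ℝ, 0 < q → 0 < η → 4 * q + 2 * η ≤ 1 / 2 → ∃ CV cJ : ℝ, 0 ≤ CV ∧ 0 < cJ ∧
    ∀ cs K4 K3 : ℝ, 0 < cs → 1 ≤ K4 → 1 ≤ K3 → ForSmall κ c1 q η cs K4 K3 (LB1S CV cJ)

/-- **StepIn3** from the open inputs. -/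
theorem stepIn3_of {κ c1 : ℝ} (hκ : 0 < κ) (hκ8 : κ < 8) (hc1 : 0 < c1)
    (hpath : LBBook.PathIn) (h3 : In3.{u} κ c1) (h1 : LB1All κ c1) : StepIn3.{u} κ c1 := by
  obtain ⟨cs0, hcs0, hbook⟩ :=
    LBBook.book (κ := κ) (c1 := c1) hpath (OPf.in2 hκ hκ8) h3 (LB2z.inZ hκ hκ8)
  obtain ⟨p0, hp0, hp1, h4⟩ := LB4W.clause4 (κ := κ) (OPf.in4 hκ)
  set q : ℝ := min (cs0 / 8) (1 / 16) with hqdef
  have hq : 0 < q := lt_min (by linarith) (by norm_num)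
  have hq1 : 8 * q ≤ cs0 := by
    have : q ≤ cs0 / 8 := min_le_left _ _
    linarith
  have hq2 : q ≤ 1 / 16 := min_le_right _ _
  have hqη : 4 * q + 2 * (1 / 8 : ℝ) ≤ 1 / 2 := by linarith
  obtain ⟨D, a, hD, ha, hbook⟩ := hbook cs0 q hcs0 le_rfl hq (by linarith) hq1
  obtain ⟨CV, cJ, hCV, hcJ, h1⟩ := h1 q (1 / 8) hq (by norm_num) hqη
  refine ⟨p0, 17, cs0, q, 1 / 8, hp0, hp1, by norm_num, hcs0, hq, by norm_num, hqη,
    CV, cJ, D, a, hCV, hcJ, hD, ha, fun K3 hK3 => ?_⟩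
  obtain ⟨hz, hr⟩ := hbook (1 / 8) 17 K3 (by norm_num) le_rfl (by norm_num) hK3
  exact ⟨h1 cs0 17 K3 hcs0 (by norm_num) hK3, hz, hr,
    h4 c1 q (1 / 8) cs0 17 K3 (by norm_num),
    LBcSF.lbcS_all hc1 hq (by norm_num) hqη (by linarith) (by norm_num) hK3,
    LB4W.clauseA, LB4W.clauseJ⟩

/-- **STEP THEOREM** from the open inputs. -/
theorem stepAll0_of' {κ c1 : ℝ} (hκ : 0 < κ) (hκ8 : κ < 8) (hc1 : 0 < c1)
    (hpath : LBBook.PathIn) (h3 : In3.{u} κ c1) (h1 : LB1All κ c1) : StepAll0.{u} κ c1 :=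
  stepAll0_of (stepIn3_of hκ hκ8 hc1 hpath h3 h1)

end Crest.Agent.R162.LBPk
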