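import Crest.Agent.R162.LBStep2
import Crest.Agent.R162.LBBookP
import Crest.Agent.R162.LB3b5
import Crest.Agent.R162.LB3bCB
import Crest.Agent.R162.LB3bIn3
import Crest.Agent.R162.OPf
import Crest.Agent.R162.LB1SX
import Crest.Agent.R162.LBcSF
import Crest.Agent.R162.LB4F
import Crest.Agent.R162.LB4W
import Crest.Agent.R162.LBJB
import Crest.Agent.R162.LBExp2

/-!
Row 162 (S0243): packaging of the step theorem, `StepIn3`, `StepAll0`, `ExpAll` (helper744,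
composition of the nodes only).
-/

set_option autoImplicit false

open MeasureTheory ProbabilityTheory Filter Topology Set Complex
open scoped NNReal ENNReal

namespace Crest.Agent.R162.LBPk744

open Crest.Agent.R162.FL Crest.Agent.R162.OS Crest.Agent.R162.LB Crest.Agent.R162.LBS
open Crest.Agent.R162.LBStep

universe u

theorem winMean {κ : ℝ} (hκ : 0 < κ) (hκ8 : κ < 8) : LB3b.WinMean.{u} κ :=
  LB3b.window_mean hκ hκ8 (by norm_num) (LB3b.contB.{u} hκ hκ8) (OPf.op3K.{u} hκ hκ8)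

theorem in3 {κ c1 : ℝ} (hκ : 0 < κ) (hκ8 : κ < 8) : In3.{u} κ c1 :=
  LB3b.in3_of (winMean hκ hκ8)

theorem stepIn3 {κ c1 : ℝ} (hκ : 0 < κ) (hκ8 : κ < 8) (hc1 : 0 < c1) : StepIn3.{u} κ c1 := by
  obtain ⟨cs0, hcs0, hb⟩ := LBBook.book LBBook.pathIn (OPf.in2.{u} hκ hκ8)
    (in3.{u} (c1 := c1) hκ hκ8) (OPf.inZ.{u} hκ hκ8)
  set cs : ℝ := min cs0 1 with hcs
  have hcs1 : 0 < cs := lt_min hcs0 one_pos
  have hcsle : cs ≤ cs0 := min_le_left _ _
  have hcs1' : cs ≤ 1 := min_le_right _ _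
  set q : ℝ := cs / 16 with hq
  have hq0 : 0 < q := by positivity
  obtain ⟨D, a, hD, ha, hb⟩ := hb cs q hcs1 hcsle hq0 (by linarith) (by linarith)
  refine ⟨LB4.pT κ, 17, cs, q, 1 / 8, LB4.pT_pos κ, LB4.pT_le_one hκ, by norm_num, hcs1, hq0,
    by norm_num, by linarith, 5, 1 / 2, D, a, by norm_num, by norm_num, hD, ha, fun K3 hK3 => ?_⟩
  obtain ⟨b1, b2⟩ := hb (1 / 8) 17 K3 (by norm_num) le_rfl (by norm_num) hK3
  refine ⟨LB1SX.forSmall_lb1S _ _ _ _ _ _ _, b1, b2, ?_, ?_, LB4W.clauseA, LBJB.forSmall_jbs _ _ _ _ _ _ _⟩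
  · exact LB4.clause4M (by norm_num) (LB4.tubeSet hκ hκ8)
  · exact LBcSF.lbcS_all hc1 hq0 (by norm_num) (by linarith) (by linarith) (by norm_num) hK3

theorem expAll {κ c1 : ℝ} (hκ : 0 < κ) (hκ8 : κ < 8) (hc1 : 0 < c1) (hc11 : c1 < 1) :
    ExpAll.{u} κ c1 :=
  LBExp.expAll_of hκ hκ8 hc1 hc11 (stepAll0_of (stepIn3 hκ hκ8 hc1))

end Crest.Agent.R162.LBPk744
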