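import Crest.Agent.R162.LBPk
import Crest.Agent.R162.LB1SX
import Crest.Agent.R162.LBBookP
import Crest.Agent.R162.LB3b7

/-!
Row 162 (S0243), node STEP packaging (helper301), final: the step theorem `StepAll0 κ c1` is
unconditional.
-/

set_option autoImplicit false

open MeasureTheory ProbabilityTheory Filter Topology Set Complex
open scoped NNReal ENNReal

namespace Crest.Agent.R162.LBPk

open Crest.Agent.R162.LB Crest.Agent.R162.LBS Crest.Agent.R162.LBStep

universe u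

theorem lb1All (κ c1 : ℝ) : LB1All κ c1 := fun q η _ _ _ =>
  ⟨5, 1 / 2, by norm_num, by norm_num, fun cs K4 K3 _ _ _ => LB1SX.forSmall_lb1S κ c1 q η cs K4 K3⟩

/-- `StepIn3`, unconditional. -/
theorem stepIn3 {κ c1 : ℝ} (hκ : 0 < κ) (hκ8 : κ < 8) (hc1 : 0 < c1) : StepIn3.{u} κ c1 :=
  stepIn3_of hκ hκ8 hc1 LBBook.pathIn (LB3b.in3 c1 hκ hκ8) (lb1All κ c1)

/-- **STEP THEOREM**, unconditional. -/
theorem stepAll0 {κ c1 : ℝ} (hκ : 0 < κ) (hκ8 : κ < 8) (hc1 : 0 < c1) : StepAll0.{u} κ c1 :=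
  stepAll0_of (stepIn3 hκ hκ8 hc1)

end Crest.Agent.R162.LBPk
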