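import Mathlib
import Crest.Agent.R162.LBSkel
import Crest.Agent.R162.LBNorm
import Crest.Agent.R162.LB0
import Crest.Agent.R162.LB6b

/-!
Row 162 (S0243), lower bound, node LBS0 (helper411): the deterministic `Start` fields of the global
flow map `ffl W t`.
-/

set_option autoImplicit false

open MeasureTheory Filter Topology Set Complex
open scoped NNReal ENNReal

namespace Crest.Agent.R162.LBS0

open Crest.Agent.R162.FL Crest.Agent.R162.LB Crest.Agent.R162.LBS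

/-- `uB w0 R = max 1 (‖· - w0‖ - R)` -/
theorem uB_eq (w0 : ℂ) {R : ℝ} (hR : 0 ≤ R) (z : ℂ) : uB w0 R z = max 1 (‖z - w0‖ - R) := by
  have hw0 : w0 ∈ Metric.closedBall w0 R := Metric.mem_closedBall_self hR
  have hlow : ‖z - w0‖ - R ≤ Metric.infDist z (Metric.closedBall w0 R) := by
    rw [Metric.le_infDist ⟨w0, hw0⟩]
    intro y hy
    have h1 := dist_triangle z y w0
    rw [Metric.mem_closedBall] at hy
    rw [← dist_eq_norm]
    linarith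
  unfold uB
  rcases le_or_gt ‖z - w0‖ R with h | h
  · have hz : z ∈ Metric.closedBall w0 R := by
      rw [Metric.mem_closedBall, dist_eq_norm]; exact h
    rw [Metric.infDist_zero_of_mem hz, max_eq_left (by norm_num), max_eq_left (by linarith)]
  · congr 1
    refine le_antisymm ?_ hlow
    have hpos : 0 < ‖z - w0‖ := lt_of_le_of_lt hR h
    set y : ℂ := w0 + ((R / ‖z - w0‖ : ℝ) : ℂ) * (z - w0) with hy
    have hym : y ∈ Metric.closedBall w0 R := by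
      rw [Metric.mem_closedBall, dist_eq_norm, hy, add_sub_cancel_left, norm_mul,
        Complex.norm_real, Real.norm_eq_abs, abs_of_nonneg (by positivity),
        div_mul_cancel₀ _ hpos.ne']
    refine (Metric.infDist_le_dist_of_mem hym).trans (le_of_eq ?_)
    have h3 : z - y = ((1 - R / ‖z - w0‖ : ℝ) : ℂ) * (z - w0) := by
      rw [hy]; push_cast; ring
    have h4 : 0 ≤ 1 - R / ‖z - w0‖ := by
      rw [sub_nonneg, div_le_one hpos]; exact h.le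
    rw [dist_eq_norm, h3, norm_mul, Complex.norm_real, Real.norm_eq_abs, abs_of_nonneg h4]
    field_simp

theorem uB_fun_eq (w0 : ℂ) {R : ℝ} (hR : 0 ≤ R) : uB w0 R = fun z => max 1 (‖z - w0‖ - R) :=
  funext (uB_eq w0 hR)

theorem one_le_uB (w0 : ℂ) (R : ℝ) (z : ℂ) : 1 ≤ uB w0 R z := le_max_left _ _

/-- `Ψ(iy) ≤ min(v,1)^q` -/
theorem Psi_le_min {u0 : ℂ → ℝ} (h1 : ∀ z, 1 ≤ u0 z) {q η : ℝ} (hη : 0 ≤ η)
    {f : ℂ → ℂ} (hf : Univ f) {y : ℝ} (hy : 0 < y) :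
    Psi u0 q η f (y * I) ≤ (min (vv u0 f y) 1) ^ q := by
  have h := LB0.min_rpow_eq (q := q) (eta := η) hf.diff hf.inj h1 hy
  have h' : (min (vv u0 f y) 1) ^ q = Psi u0 q η f (y * I) * mm u0 f (y * I) ^ η := h
  rw [h']
  have hm : 1 ≤ mm u0 f (y * I) := LBN.mm_ge_one h1 f _
  have hP : 0 ≤ Psi u0 q η f (y * I) := by
    have h2 : 0 ≤ KB1.ups f (y * I) := LBN.ups_nonneg f hy.le
    have h3 : 0 < mm u0 f (y * I) := by linarith
    unfold Psi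
    positivity
  exact le_mul_of_one_le_right hP (Real.one_le_rpow hm hη)

/-- `Λ(f) < ∞` from `J(f) < ∞` and the normalisation at infinity. -/
theorem Lam_lt_top {u0 : ℂ → ℝ} (h1 : ∀ z, 1 ≤ u0 z) {q η : ℝ} (hq : 0 ≤ q) (hη : 0 < η)
    {f : ℂ → ℂ} (hf : Univ f) (hn : LBN.NormInf f) {a : ℝ} (ha : 0 < a)
    (hJ : Jv u0 q f a ≠ ⊤) : Lam u0 q η f < ⊤ := by
  refine LBN.NormInf.Lam_lt_top hn h1 hq hη ha (lt_of_le_of_lt ?_ hJ.lt_top)
  unfold Jv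
  refine setLIntegral_mono' measurableSet_Ioc fun y hy => ENNReal.ofReal_le_ofReal ?_
  have hy0 : 0 < y := hy.1
  have := Psi_le_min (q := q) h1 hη.le hf hy0
  gcongr

theorem univ_ffl {W : ℝ → ℝ} (hW : ContinuousOn W (Ici 0)) {t : ℝ} (ht : 0 ≤ t) :
    Univ (ffl W t) where
  diff := FLC.differentiableOn_ffl hW ht
  inj := FLC.injOn_ffl hW ht

theorem tendsto_vv_uB {f : ℂ → ℂ} (hn : LBN.NormInf f) (w0 : ℂ) {R : ℝ} (hR : 0 ≤ R) :
    Tendsto (vv (uB w0 R) f) atTop (𝓝 1) := by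
  rw [uB_fun_eq w0 hR]
  exact hn.tendsto_vv w0 R

/-- **LBS0**: `ffl W t` is a start map as soon as `J < ∞`. -/
theorem start_ffl {p : Par} (hq : 0 < p.q) (hη : 0 < p.η) {w0 : ℂ} {R : ℝ} (hR : 0 ≤ R)
    (hu : p.u0 = uB w0 R) {W : ℝ → ℝ} (hW : ContinuousOn W (Ici 0)) {t : ℝ} (ht : 0 ≤ t)
    (hJ : ∀ y, Jv p.u0 p.q (ffl W t) y ≠ ⊤) : Start p (ffl W t) where
  univ := univ_ffl hW ht
  v_tendsto := by
    rw [hu]
    exact tendsto_vv_uB (LBN.normInf_ffl hW ht) w0 hR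
  lam := by
    have h1 : ∀ z, 1 ≤ p.u0 z := by rw [hu]; exact one_le_uB w0 R
    exact (Lam_lt_top h1 hq.le hη (univ_ffl hW ht) (LBN.normInf_ffl hW ht) one_pos (hJ 1)).ne
  J_ne_top := hJ

/-- the old geodesic of `ffl W t` is bounded near the tip -/
theorem ray_bdd {W : ℝ → ℝ} (hW : ContinuousOn W (Ici 0)) {t : ℝ} (ht : 0 ≤ t) :
    ∃ M : ℝ, ∀ y : ℝ, 0 < y → y ≤ 1 → ‖ffl W t (y * I)‖ ≤ M := by
  obtain ⟨K, hK⟩ : ∃ K : ℝ, ∀ s ∈ Icc (0 : ℝ) t, |W s| ≤ K := by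
    obtain ⟨K, hK⟩ := isCompact_Icc.exists_bound_of_continuousOn
      (hW.mono (fun s (hs : s ∈ Icc (0 : ℝ) t) => hs.1))
    exact ⟨K, fun s hs => by simpa using hK s hs⟩
  have hK0 : 0 ≤ K := (abs_nonneg _).trans (hK 0 ⟨le_rfl, ht⟩)
  refine ⟨Real.sqrt ((1 + K) ^ 2 + 4 * K ^ 2 + 9 * t), fun y hy0 hyy => ?_⟩
  have hz : 0 < ((y : ℂ) * I).im := by simpa using hy0
  have h1 := LB6.norm_ffl_sq_le hW ht hz (K := K) hK
  have h2 : ‖(y : ℂ) * I + W t‖ ≤ 1 + K := by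
    refine (norm_add_le _ _).trans (add_le_add ?_ ?_)
    · simpa [abs_of_pos hy0] using hyy
    · simpa using hK t ⟨ht, le_rfl⟩
  have h3 : ‖(y : ℂ) * I + W t‖ ^ 2 ≤ (1 + K) ^ 2 := pow_le_pow_left₀ (norm_nonneg _) h2 2
  refine Real.le_sqrt_of_sq_le ?_
  refine h1.trans ?_
  have h4 : max (‖(y : ℂ) * I + W t‖ ^ 2) (4 * K ^ 2) ≤ (1 + K) ^ 2 + 4 * K ^ 2 :=
    max_le (by nlinarith) (by nlinarith [sq_nonneg (1 + K)])
  linarith

/-- `Λ(ffl W t) < ∞` implies `J(ffl W t) < ∞`. -/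
theorem Jv_ne_top_of_lam {u0 : ℂ → ℝ} (hl : LipschitzWith 1 u0) (h1 : ∀ z, 1 ≤ u0 z) {q η : ℝ}
    (hq : 0 < q) (hη : 0 ≤ η) {W : ℝ → ℝ} (hW : ContinuousOn W (Ici 0)) {t : ℝ} (ht : 0 ≤ t)
    (hΛ : Lam u0 q η (ffl W t) ≠ ⊤) (y : ℝ) : Jv u0 q (ffl W t) y ≠ ⊤ := by
  obtain ⟨M, hM⟩ := ray_bdd hW ht
  have hf := univ_ffl hW ht
  exact (LB0.Jv_lt_top (M := M) hf.diff hf.inj hl h1 hq hη hM (lt_top_iff_ne_top.2 hΛ) y).ne

/-- **LBS0'**: `ffl W t` is a start map as soon as `Λ < ∞`. -/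
theorem start_ffl_of_lam {p : Par} (hq : 0 < p.q) (hη : 0 < p.η) {w0 : ℂ} {R : ℝ} (hR : 0 ≤ R)
    (hu : p.u0 = uB w0 R) {W : ℝ → ℝ} (hW : ContinuousOn W (Ici 0)) {t : ℝ} (ht : 0 ≤ t)
    (hΛ : p.Λ (ffl W t) ≠ ⊤) : Start p (ffl W t) := by
  refine start_ffl hq hη hR hu hW ht ?_
  have h1 : ∀ z, 1 ≤ p.u0 z := by rw [hu]; exact one_le_uB w0 R
  have hl : LipschitzWith 1 p.u0 := by
    rw [hu, uB_fun_eq w0 hR]
    exact LBN.u0_lip w0 R
  exact Jv_ne_top_of_lam hl h1 hq hη.le hW ht hΛ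

/-- `Adm` for the ball. -/
theorem adm_uB {p : Par} {w0 : ℂ} {R : ℝ} (hR : 0 ≤ R) (hu : p.u0 = uB w0 R)
    (hB : p.B = Metric.closedBall w0 R) : p.Adm where
  lip := by
    rw [hu, uB_fun_eq w0 hR]
    exact LBN.u0_lip w0 R
  one_le := by rw [hu]; exact one_le_uB w0 R
  meas := by rw [hB]; exact measurableSet_closedBall
  le_dist := by
    intro w hw z
    rw [hB] at hw
    rw [hu, uB_eq w0 hR]
    exact LBN.u0_le_dist w0 hw z

end Crest.Agent.R162.LBS0
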