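import Crest.Agent.R162.LBSTf

/-! Row 162, node LB-ST: alias file; the content is in `R162/LBSTf.lean` (helper183). -/
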