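import Mathlib
import Crest.Agent.R162.LBST5
import Crest.Agent.R162.LBST27b
import Crest.Agent.R162.LBMx

set_option autoImplicit false

/-!
Row 162, node LB-ST, part 5 (helper332): final forms. `T(f_ω, W_ω)` is a stopping time of
`F.rightCont` for a measurable family; the instance on `(PathSp × ℝ≥0) × PathSp`; and
`σ + T(ffl W σ, shift W σ)` is a stopping time of `F` for a stopping time `σ` (`F` right
continuous).
-/

open MeasureTheory ProbabilityTheory Filter Topology
open scoped NNReal ENNReal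
open Crest.ProbabilityR.Loewner

namespace Crest.Agent.R162.LBST

open Crest.Agent.R162.OS Crest.Agent.R162.LBbc Crest.Agent.R162.FL

variable {Ω : Type*} {p : LB.Par}

lemma cfam_of_mfam {m' : MeasurableSpace Ω} {f : Ω → ℂ → ℂ} (h : LBM.MFam f) : CFam m' f := by
  refine ⟨fun z hz => ?_, fun ω => (h.diff ω).continuousOn⟩
  have h1 := h.meas.comp (measurable_id.prodMk (measurable_const (a := z)))
  convert h1 using 1
  funext ω
  simp only [Function.comp_apply, id]
  rw [Set.indicator_of_mem (show z ∈ {z : ℂ | 0 < z.im} from hz)]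

/-- **`T(f_ω, W_ω)` is a stopping time** (`f_ω` known at time `0`, `W` adapted). -/
theorem isST_T_fam {m : MeasurableSpace Ω} {F : Filtration ℝ≥0 m} (hp : p.Adm)
    {f : Ω → ℂ → ℂ} (hF : @LBM.MFam Ω (F 0) f) (h00 : Measurable[F 0] fun ω => f ω 0)
    {W : Ω → ℝ → ℝ} (hc : ∀ ω, ContinuousOn (W ω) (Set.Ici 0))
    (hm : ∀ t : ℝ≥0, ∀ s ∈ Set.Icc 0 (t : ℝ), Measurable[F t] (fun ω => W ω s)) :
    IsST F.rightCont (fun ω => Tn p (f ω) (W ω)) := by
  have hx : Measurable[F 0] fun ω => p.x (f ω) := @LBMx.measurable_x Ω (F 0) f p hF hp h00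
  have hρ : Measurable[F 0] fun ω => p.rho1 (f ω) := @LBMx.measurable_rho1 Ω (F 0) f p hF hp
  have hcf : CFam (F 0) f := cfam_of_mfam (m' := F 0) hF
  refine isST_T hcf hp.lip.continuous hρ hx hc hm ?_
  intro t q hq hqt k
  have h0t : F 0 ≤ F t := F.mono zero_le
  exact LBST27.measurableSet_bad3_cfam (m' := F t) hp (hcf.mono h0t)
    (@LBM.MFam.diff Ω (F 0) f hF) (hx.mono h0t le_rfl)
    (fun ω => (hc ω).mono fun s hs => hs.1) (fun s hs => hm t s ⟨hs.1, hs.2.trans hqt⟩) k

/-- **`T(f_a, W_a)` is measurable** in the parameter `a`. -/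
theorem measurable_T_fam {α : Type*} [MeasurableSpace α] (hp : p.Adm)
    {f : α → ℂ → ℂ} (hF : LBM.MFam f) (h00 : Measurable fun a => f a 0)
    {W : α → ℝ → ℝ} (hW : LBM.PFam W) : Measurable fun a => p.T (f a) (W a) := by
  have hx : Measurable fun a => p.x (f a) := LBMx.measurable_x hF hp h00
  have hρ : Measurable fun a => p.rho1 (f a) := LBMx.measurable_rho1 hF hp
  have hcf := cfam_of_mfam hF
  refine measurable_T hcf hp.lip.continuous hρ hx hW.cont hW.meas ?_
  intro q hq k
  exact LBST27.measurableSet_bad3_cfam hp hcf hF.diff hx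
    (fun ω => (hW.cont ω).mono fun s hs => hs.1) (fun s hs => hW.meas s hs.1) k

/-- fixed univalent map, Brownian driver -/
theorem measurable_T_fixed {m : MeasurableSpace Ω} {F : Filtration ℝ≥0 m} {P : Measure Ω}
    {B : ℝ≥0 → Ω → ℝ} (hB : IsBM F B P) (hp : p.Adm) {κ : ℝ} {f : ℂ → ℂ}
    (hf : DifferentiableOn ℂ f {z | 0 < z.im}) :
    Measurable fun ω => p.T f (driving κ B ω) := by
  refine measurable_T_fam hp (LBM.MFam.const hf) measurable_const ⟨fun ω => ?_, fun s hs => ?_⟩
  · have h1 : Continuous (driving κ B ω) := by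
      unfold driving
      exact continuous_const.mul ((hB.cont ω).comp continuous_real_toNNReal)
    exact h1.continuousOn
  · unfold driving
    exact measurable_const.mul ((hB.adapted _).mono (F.le _) le_rfl)

theorem isST_T_fixed {m : MeasurableSpace Ω} {F : Filtration ℝ≥0 m} {P : Measure Ω}
    {B : ℝ≥0 → Ω → ℝ} (hB : IsBM F B P) (hp : p.Adm) {κ : ℝ} {f : ℂ → ℂ}
    (hf : DifferentiableOn ℂ f {z | 0 < z.im}) :
    IsST F.rightCont fun ω => Tn p f (driving κ B ω) := by
  refine isST_T_fam hp (@LBM.MFam.const Ω (F 0) f hf) measurable_const (fun ω => ?_)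
    (fun t s hs => ?_)
  · have h1 : Continuous (driving κ B ω) := by
      unfold driving
      exact continuous_const.mul ((hB.cont ω).comp continuous_real_toNNReal)
    exact h1.continuousOn
  · unfold driving
    refine measurable_const.mul ((hB.adapted _).mono (F.mono ?_) le_rfl)
    exact Real.toNNReal_le_iff_le_coe.2 hs.2

/-! ### the canonical space `(PathSp × ℝ≥0) × PathSp` -/

/-- the driver of a path -/
noncomputable def drw (κ : ℝ) (w : ℝ≥0 → ℝ) : ℝ → ℝ := fun t => Real.sqrt κ * w t.toNNReal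

lemma continuous_drw (κ : ℝ) {w : ℝ≥0 → ℝ} (hw : Continuous w) : Continuous (drw κ w) :=
  continuous_const.mul (hw.comp continuous_real_toNNReal)

lemma drw_toPath {κ : ℝ} (B : ℝ≥0 → Ω → ℝ) (ω : Ω) :
    drw κ (fun t => B t ω) = driving κ B ω := rfl

/-- the state map known at time `0`: (path, time) -/
noncomputable def fEE (κ : ℝ) (e : PathSp × ℝ≥0) : ℂ → ℂ := ffl (drw κ e.1.1) e.2

theorem pfam_path {α : Type*} [MeasurableSpace α] (κ : ℝ) {w : α → PathSp} (hw : Measurable w) :
    LBM.PFam fun a => drw κ (w a).1 := by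
  refine ⟨fun a => (continuous_drw κ (w a).2).continuousOn, fun s _ => ?_⟩
  unfold drw
  refine measurable_const.mul ?_
  exact (measurable_pi_apply _).comp (measurable_subtype_coe.comp hw)

theorem mfam_EE {α : Type*} [MeasurableSpace α] (κ : ℝ) {e : α → PathSp × ℝ≥0}
    (he : Measurable e) : LBM.MFam fun a => fEE κ (e a) := by
  have h1 : LBM.PFam fun a => drw κ (e a).1.1 := pfam_path κ (measurable_fst.comp he)
  exact h1.mfam (τ := fun a => ((e a).2 : ℝ)) (measurable_snd.comp he).coe_nnreal_real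
    (fun a => (e a).2.2)

lemma fEE_zero (κ : ℝ) (e : PathSp × ℝ≥0) : fEE κ e 0 = 0 :=
  ffl_of_im_nonpos _ _ (by simp)

/-- **form of 384**: the step time on `EE × PathSp`. -/
theorem isST_T_EE (hp : p.Adm) (κ : ℝ) :
    IsST (EF (PathSp × ℝ≥0)).rightCont
      (fun x : (PathSp × ℝ≥0) × PathSp => (p.T (fEE κ x.1) (drw κ x.2.1)).toNNReal) := by
  refine isST_T_fam (F := EF (PathSp × ℝ≥0)) hp (f := fun x => fEE κ x.1)
    (W := fun x => drw κ x.2.1) ?_ ?_ ?_ ?_
  · exact @mfam_EE _ (EF (PathSp × ℝ≥0) 0) κ _ (measurable_fst_EF 0)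
  · simp only [fEE_zero]
    exact measurable_const
  · intro x
    exact (continuous_drw κ x.2.2).continuousOn
  · intro t s hs
    unfold drw
    refine measurable_const.mul ?_
    exact measurable_cop (E := PathSp × ℝ≥0) (Real.toNNReal_le_iff_le_coe.2 hs.2)

theorem measurable_T_EE (hp : p.Adm) (κ : ℝ) :
    Measurable (fun x : (PathSp × ℝ≥0) × PathSp => p.T (fEE κ x.1) (drw κ x.2.1)) := by
  refine measurable_T_fam hp (mfam_EE κ measurable_fst) ?_ (pfam_path κ measurable_snd)
  simp only [fEE_zero]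
  exact measurable_const

/-! ### the next stopping time -/

section step

variable {m : MeasurableSpace Ω} {F : Filtration ℝ≥0 m} {P : Measure Ω} {B : ℝ≥0 → Ω → ℝ}
  {σ : Ω → ℝ≥0}

/-- the path stopped at `σ` -/
def stopPath (B : ℝ≥0 → Ω → ℝ) (hc : ∀ ω, Continuous fun t => B t ω) (σ : Ω → ℝ≥0) (ω : Ω) :
    PathSp :=
  ⟨fun u => B (min u (σ ω)) ω, (hc ω).comp (continuous_id.min continuous_const)⟩

/-- (stopped path, time) is `F_σ`-measurable. -/
theorem evST_stop (hB : ∀ t, Measurable[F t] (B t)) (hc : ∀ ω, Continuous fun t => B t ω)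
    (hσ : IsST F σ) {D : Set (PathSp × ℝ≥0)} (hD : MeasurableSet D) :
    EvST F σ ((fun ω => (stopPath B hc σ ω, σ ω)) ⁻¹' D) := by
  have hsa : StronglyAdapted F B := fun t => (hB t).stronglyMeasurable
  have key : Measurable[LBI.stSigma F σ hσ] (fun ω => (stopPath B hc σ ω, σ ω)) := by
    have k1 : Measurable[LBI.stSigma F σ hσ] (fun ω => stopPath B hc σ ω) := by
      refine Measurable.subtype_mk ?_
      refine @measurable_pi_lambda _ _ _ (LBI.stSigma F σ hσ) _ _ fun u => ?_
      intro A hA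
      have h1 : EvST F (fun ω => min u (σ ω)) {ω | B (min u (σ ω)) ω ∈ A} :=
        EvST.preimage hsa hc (IsST.min (IsST.const u) hσ) hA
      exact EvST.mono hσ (fun ω => min_le_right _ _) h1
    have k2 : Measurable[LBI.stSigma F σ hσ] (fun ω => σ ω) := by
      refine measurable_of_Iic fun a => ?_
      intro t
      have e : σ ⁻¹' Set.Iic a ∩ {ω | σ ω ≤ t} = {ω | σ ω ≤ min a t} := by
        ext ω
        simp only [Set.mem_inter_iff, Set.mem_preimage, Set.mem_Iic, Set.mem_ofPred_eq, le_min_iff]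
      rw [e]
      exact F.mono (min_le_right _ _) _ (hσ _)
    exact k1.prodMk k2
  exact key hD

/-- the restarted driver and the driver of the restarted path agree on `[0,∞)`. -/
lemma shift_driving (hc : ∀ ω, Continuous fun t => B t ω) (κ : ℝ) (ω : Ω) {s : ℝ} (hs : 0 ≤ s) :
    FL.shift (driving κ B ω) (σ ω) s = drw κ (shiftPath B hc σ ω).1 s := by
  unfold FL.shift driving drw shiftPath
  rw [Real.toNNReal_add (NNReal.coe_nonneg (σ ω)) hs]
  simp only [Real.toNNReal_coe]
  ring

lemma ffl_stop (hc : ∀ ω, Continuous fun t => B t ω) (κ : ℝ) (ω : Ω) :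
    ffl (driving κ B ω) (σ ω) = fEE κ (stopPath B hc σ ω, σ ω) := by
  unfold fEE
  refine funext fun z => ffl_congr (σ ω).2 (fun s hs => ?_) z
  unfold driving drw stopPath
  have : s.toNNReal ≤ σ ω := Real.toNNReal_le_iff_le_coe.2 hs.2
  simp only [min_eq_left this]

/-- **the step time after `σ` is a stopping time** (`F` right-continuous, e.g. `F.rightCont`). -/
theorem isST_step [F.IsRightContinuous] (hB : ∀ t, Measurable[F t] (B t))
    (hc : ∀ ω, Continuous fun t => B t ω) (hσ : IsST F σ) (hp : p.Adm) (κ : ℝ) :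
    IsST F (fun ω => σ ω + Tn p (ffl (driving κ B ω) (σ ω)) (FL.shift (driving κ B ω) (σ ω))) := by
  have h1 : Mor F σ (EF (PathSp × ℝ≥0))
      (fun ω => ((stopPath B hc σ ω, σ ω), shiftPath B hc σ ω)) :=
    mor_shift hB hc hσ fun D hD => evST_stop hB hc hσ hD
  have h2 := h1.isST (isST_T_EE hp κ)
  refine (show (fun ω => σ ω + Tn p (ffl (driving κ B ω) (σ ω))
    (FL.shift (driving κ B ω) (σ ω))) = _ from ?_) ▸ h2
  funext ω
  have h3 : p.T (ffl (driving κ B ω) (σ ω)) (FL.shift (driving κ B ω) (σ ω)) =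
      p.T (fEE κ (stopPath B hc σ ω, σ ω)) (drw κ (shiftPath B hc σ ω).1) := by
    rw [ffl_stop hc κ ω]
    exact T_congr_drive fun s hs => shift_driving hc κ ω hs
  simp only [Tn, h3]

end step

end Crest.Agent.R162.LBST
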