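import Crest.Agent.R162.LBDefs
import Crest.Agent.R162.OS2

/-!
Row 162, node LB-ST (part M, for helper332): joint measurability of the state functionals
`vv, Psi, Lam, Jv, yx, x, rho1, varpi, area` when the state map `f = f e` depends measurably on a
parameter `e`.
-/

set_option autoImplicit false

open Set MeasureTheory Complex Filter Topology
open scoped ENNReal

namespace Crest.Agent.R162.LBST

section abstract

variable {E : Type*} [MeasurableSpace E]

/-- (1) Caratheodory on `(0,∞)`. -/
theorem measurable_joint_pos {β : Type*} [TopologicalSpace β] [TopologicalSpace.PseudoMetrizableSpace β]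
    [MeasurableSpace β] [BorelSpace β] {v : E → ℝ → β}
    (hm : ∀ y, 0 < y → Measurable fun e => v e y) (hc : ∀ e, ContinuousOn (v e) (Ioi 0)) (b : β) :
    Measurable fun p : E × ℝ => if 0 < p.2 then v p.1 p.2 else b := by
  have hw : Measurable (Function.uncurry fun (s : ℝ) (e : E) => v e (Real.exp s)) := by
    apply measurable_uncurry_of_continuous_of_measurable
    · intro e
      exact (hc e).comp_continuous Real.continuous_exp (fun s => Real.exp_pos s)
    · intro s
      exact hm _ (Real.exp_pos s)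
  have hcomp : Measurable fun p : E × ℝ => v p.1 (Real.exp (Real.log p.2)) :=
    hw.comp (f := fun p : E × ℝ => (Real.log p.2, p.1))
      ((Real.measurable_log.comp measurable_snd).prodMk measurable_fst)
  have hset : MeasurableSet {p : E × ℝ | 0 < p.2} := measurableSet_lt measurable_const measurable_snd
  have key : (fun p : E × ℝ => if 0 < p.2 then v p.1 p.2 else b) =
      fun p : E × ℝ => if 0 < p.2 then v p.1 (Real.exp (Real.log p.2)) else b := by
    funext p
    by_cases hp : 0 < p.2
    · simp only [hp, if_true]; rw [Real.exp_log hp]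
    · simp only [hp, if_false]
  rw [key]
  exact Measurable.ite hset hcomp measurable_const

/-- (1') Caratheodory on the half-plane. -/
theorem measurable_joint_half {β : Type*} [TopologicalSpace β] [TopologicalSpace.PseudoMetrizableSpace β]
    [MeasurableSpace β] [BorelSpace β] {v : E → ℂ → β}
    (hm : ∀ z : ℂ, 0 < z.im → Measurable fun e => v e z)
    (hc : ∀ e, ContinuousOn (v e) {z : ℂ | 0 < z.im}) (b : β) :
    Measurable fun p : E × ℂ => if 0 < p.2.im then v p.1 p.2 else b := by
  have him : ∀ z : ℂ, 0 < ((z.re : ℂ) + (Real.exp z.im : ℝ) * I).im := by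
    intro z; simp [-ofReal_exp, Real.exp_pos]
  have hw : Measurable (Function.uncurry fun (z : ℂ) (e : E) =>
      v e ((z.re : ℂ) + (Real.exp z.im : ℝ) * I)) := by
    apply measurable_uncurry_of_continuous_of_measurable
    · intro e
      refine (hc e).comp_continuous ?_ him
      fun_prop
    · intro z
      exact hm _ (him z)
  have hcomp : Measurable fun p : E × ℂ =>
      v p.1 ((((p.2.re : ℂ) + (Real.log p.2.im : ℝ) * I).re : ℂ) +
        (Real.exp ((p.2.re : ℂ) + (Real.log p.2.im : ℝ) * I).im : ℝ) * I) := by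
    refine hw.comp (f := fun p : E × ℂ => ((p.2.re : ℂ) + (Real.log p.2.im : ℝ) * I, p.1)) ?_
    refine Measurable.prodMk ?_ measurable_fst
    fun_prop
  have hset : MeasurableSet {p : E × ℂ | 0 < p.2.im} :=
    measurableSet_lt measurable_const (measurable_im.comp measurable_snd)
  have key : (fun p : E × ℂ => if 0 < p.2.im then v p.1 p.2 else b) =
      fun p : E × ℂ => if 0 < p.2.im then
        v p.1 ((((p.2.re : ℂ) + (Real.log p.2.im : ℝ) * I).re : ℂ) +
        (Real.exp ((p.2.re : ℂ) + (Real.log p.2.im : ℝ) * I).im : ℝ) * I) else b := by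
    funext p
    by_cases hp : 0 < p.2.im
    · simp only [hp, if_true]
      congr 1
      apply Complex.ext <;> simp [-ofReal_exp, Real.exp_log hp]
    · simp only [hp, if_false]
  rw [key]
  exact Measurable.ite hset hcomp measurable_const

/-- existence on a compact interval of a point above a level is a measurable event. -/
theorem measurableSet_exists_Icc {v : E → ℝ → ℝ} (hm : ∀ y, 0 < y → Measurable fun e => v e y)
    (hc : ∀ e, ContinuousOn (v e) (Ioi 0)) (θ : ℝ) {a b : ℝ} (ha : 0 < a) (hab : a ≤ b) :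
    MeasurableSet {e | ∃ y ∈ Icc a b, θ ≤ v e y} := by
  have h := OS.measurableSet_exists_mem (Ω := E) (E := ℝ) (K := Ici θ) isClosed_Ici
    (Real.toNNReal b) (Y := fun q e => v e (max a q))
    (fun q _ => (hm _ (lt_max_of_lt_left ha)).stronglyMeasurable)
    (fun e => (hc e).comp_continuous (by fun_prop) (fun q => lt_max_of_lt_left ha))
  convert h using 1
  ext e
  simp only [mem_ofPred_eq, mem_Ici]
  constructor
  · rintro ⟨y, ⟨h1, h2⟩, h3⟩
    refine ⟨Real.toNNReal y, Real.toNNReal_le_toNNReal h2, ?_⟩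
    rw [Real.coe_toNNReal _ (ha.le.trans h1), max_eq_right h1]
    exact h3
  · rintro ⟨q, hq, h3⟩
    refine ⟨max a q, ⟨le_max_left _ _, max_le hab ?_⟩, h3⟩
    have : (q : ℝ) ≤ (Real.toNNReal b : ℝ) := by exact_mod_cast hq
    rwa [Real.coe_toNNReal _ (ha.le.trans hab)] at this

/-- `∃ y ∈ (0,r)` above a level is a measurable event. -/
theorem measurableSet_exists_Ioo {v : E → ℝ → ℝ} (hm : ∀ y, 0 < y → Measurable fun e => v e y)
    (hc : ∀ e, ContinuousOn (v e) (Ioi 0)) (θ r : ℝ) :
    MeasurableSet {e | ∃ y, 0 < y ∧ y < r ∧ θ ≤ v e y} := by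
  have he : {e | ∃ y, 0 < y ∧ y < r ∧ θ ≤ v e y} =
      ⋃ n : ℕ, {e | 1 / ((n : ℝ) + 1) ≤ r - 1 / ((n : ℝ) + 1) ∧
        ∃ y ∈ Icc (1 / ((n : ℝ) + 1)) (r - 1 / ((n : ℝ) + 1)), θ ≤ v e y} := by
    ext e
    simp only [mem_ofPred_eq, mem_iUnion]
    constructor
    · rintro ⟨y, h0, h1, h2⟩
      obtain ⟨n, hn⟩ := exists_nat_one_div_lt (lt_min h0 (sub_pos.2 h1))
      have h3 := hn.trans_le (min_le_left _ _)
      have h4 := hn.trans_le (min_le_right _ _)
      exact ⟨n, by linarith, y, ⟨h3.le, by linarith⟩, h2⟩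
    · rintro ⟨n, _, y, ⟨h1, h2⟩, h3⟩
      have hp : (0:ℝ) < 1 / ((n : ℝ) + 1) := by positivity
      exact ⟨y, hp.trans_le h1, by linarith, h3⟩
  rw [he]
  refine MeasurableSet.iUnion fun n => ?_
  by_cases hn : 1 / ((n : ℝ) + 1) ≤ r - 1 / ((n : ℝ) + 1)
  · simp only [hn, true_and]
    exact measurableSet_exists_Icc hm hc θ (by positivity) hn
  · simp only [hn, false_and, ofPred_false, MeasurableSet.empty]

/-- (3) the infimum of a level set of a continuous family or of a monotone family is measurable. -/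
theorem measurable_sInf_level {v : E → ℝ → ℝ} (hm : ∀ y, 0 < y → Measurable fun e => v e y)
    (hc : ∀ e, ContinuousOn (v e) (Ioi 0)) {J : E → ℝ → ℝ≥0∞}
    (hJm : ∀ y, 0 < y → Measurable fun e => J e y)
    (hJ : ∀ e y y', 0 < y → y ≤ y' → J e y ≤ J e y') (θ : ℝ) (K : ℝ≥0∞) :
    Measurable fun e => sInf {y | 0 < y ∧ (θ ≤ v e y ∨ K ≤ J e y)} := by
  set A : E → Set ℝ := fun e => {y | 0 < y ∧ (θ ≤ v e y ∨ K ≤ J e y)} with hA
  have hbdd : ∀ e, BddBelow (A e) := fun e => ⟨0, fun y hy => hy.1.le⟩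
  have hC : ∀ r : ℝ, MeasurableSet {e | ∃ y ∈ A e, y < r} := by
    intro r
    have he : {e | ∃ y ∈ A e, y < r} = {e | ∃ y, 0 < y ∧ y < r ∧ θ ≤ v e y} ∪
        ⋃ q : ℚ, {e | (0:ℝ) < q ∧ (q:ℝ) < r ∧ K ≤ J e q} := by
      ext e
      simp only [mem_ofPred_eq, mem_union, mem_iUnion, hA]
      constructor
      · rintro ⟨y, ⟨h0, h1 | h1⟩, h2⟩
        · exact Or.inl ⟨y, h0, h2, h1⟩
        · obtain ⟨q, hq1, hq2⟩ := exists_rat_btwn h2
          exact Or.inr ⟨q, h0.trans hq1, hq2, h1.trans (hJ e y q h0 hq1.le)⟩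
      · rintro (⟨y, h0, h1, h2⟩ | ⟨q, h0, h1, h2⟩)
        · exact ⟨y, ⟨h0, Or.inl h2⟩, h1⟩
        · exact ⟨q, ⟨h0, Or.inr h2⟩, h1⟩
    rw [he]
    refine (measurableSet_exists_Ioo hm hc θ r).union (MeasurableSet.iUnion fun q => ?_)
    by_cases hq : (0:ℝ) < q ∧ (q:ℝ) < r
    · simp only [hq, true_and]
      exact measurableSet_le measurable_const (hJm _ hq.1)
    · have : {e | (0:ℝ) < q ∧ (q:ℝ) < r ∧ K ≤ J e q} = ∅ := by
        ext e; simp only [mem_ofPred_eq, mem_empty_iff_false, iff_false]
        exact fun h => hq ⟨h.1, h.2.1⟩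
      rw [this]; exact MeasurableSet.empty
  have hne : MeasurableSet {e | (A e).Nonempty} := by
    have he : {e | (A e).Nonempty} = ⋃ n : ℕ, {e | ∃ y ∈ A e, y < n} := by
      ext e
      simp only [mem_ofPred_eq, mem_iUnion]
      constructor
      · rintro ⟨y, hy⟩
        obtain ⟨n, hn⟩ := exists_nat_gt y
        exact ⟨n, y, hy, hn⟩
      · rintro ⟨n, y, hy, _⟩
        exact ⟨y, hy⟩
    rw [he]
    exact MeasurableSet.iUnion fun n => hC n
  refine measurable_of_Iio fun r => ?_
  have he : (fun e => sInf (A e)) ⁻¹' Iio r =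
      {e | ∃ y ∈ A e, y < r} ∪ ({e | (A e).Nonempty}ᶜ ∩ {_e | 0 < r}) := by
    ext e
    simp only [mem_preimage, mem_Iio, mem_union, mem_inter_iff, mem_compl_iff, mem_ofPred_eq]
    rcases (A e).eq_empty_or_nonempty with h | h
    · rw [h, Real.sInf_empty]
      simp
    · rw [csInf_lt_iff (hbdd e) h]
      simp [h]
  rw [he]
  exact (hC r).union (hne.compl.inter (MeasurableSet.const _))

/-- (5) wrapper: parameter integrals. -/
theorem measurable_lintegral_param {F : Type*} [MeasurableSpace F] {g : E × F → ℝ≥0∞}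
    (hg : Measurable g) (μ : Measure F) [SFinite μ] : Measurable fun e => ∫⁻ w, g (e, w) ∂μ :=
  hg.lintegral_prod_right'

/-- (5') parameter integral over a measurable, parameter dependent set. -/
theorem measurable_setLIntegral_param {F : Type*} [MeasurableSpace F] {g : E × F → ℝ≥0∞}
    (hg : Measurable g) {S : E → Set F} (hS : MeasurableSet {p : E × F | p.2 ∈ S p.1})
    (μ : Measure F) [SFinite μ] : Measurable fun e => ∫⁻ w in S e, g (e, w) ∂μ := by
  have hS' : ∀ e, MeasurableSet (S e) := fun e => measurable_prodMk_left hS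
  have h : Measurable fun e => ∫⁻ w, ({p : E × F | p.2 ∈ S p.1}.indicator g) (e, w) ∂μ :=
    (hg.indicator hS).lintegral_prod_right'
  convert h using 1
  funext e
  rw [← lintegral_indicator (hS' e)]
  rfl

end abstract

end Crest.Agent.R162.LBST
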