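import Crest.Agent.R162.LBST_M

/-!
Row 162, node LB-ST (part M2, for helper332): measurability in a parameter `e` of the state
functionals of 888's LBDefs for a measurable family `f e` of univalent maps.
-/

set_option autoImplicit false

open Set MeasureTheory Complex Filter Topology
open scoped ENNReal

namespace Crest.Agent.R162.LBST

open Crest.Agent.R162 Crest.Agent.R162.LB

variable {E : Type*} [MeasurableSpace E]

/-- a measurable family of holomorphic maps on the half-plane -/
structure MF (f : E → ℂ → ℂ) : Prop where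
  meas : ∀ z : ℂ, 0 < z.im → Measurable fun e => f e z
  diff : ∀ e, DifferentiableOn ℂ (f e) {z : ℂ | 0 < z.im}

theorem isOpenH : IsOpen {z : ℂ | 0 < z.im} := isOpen_lt continuous_const Complex.continuous_im

namespace MF

variable {f : E → ℂ → ℂ}

theorem cont (h : MF f) (e : E) : ContinuousOn (f e) {z : ℂ | 0 < z.im} := (h.diff e).continuousOn

theorem cont_deriv (h : MF f) (e : E) : ContinuousOn (deriv (f e)) {z : ℂ | 0 < z.im} :=
  ((h.diff e).deriv isOpenH).continuousOn

/-- the derivative is measurable in the parameter -/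
theorem meas_deriv (h : MF f) {z : ℂ} (hz : 0 < z.im) : Measurable fun e => deriv (f e) z := by
  have hlim : ∀ e, Tendsto (fun n : ℕ => ((n : ℂ) + 1) * (f e (z + 1 / ((n : ℂ) + 1)) - f e z))
      atTop (𝓝 (deriv (f e) z)) := by
    intro e
    have hd : HasDerivAt (f e) (deriv (f e) z) z :=
      ((h.diff e).differentiableAt (isOpenH.mem_nhds hz)).hasDerivAt
    rw [hasDerivAt_iff_tendsto_slope_zero] at hd
    have hu : Tendsto (fun n : ℕ => (1 / ((n : ℂ) + 1))) atTop (𝓝[≠] 0) := by
      refine tendsto_nhdsWithin_iff.2 ⟨tendsto_one_div_add_atTop_nhds_zero_nat, ?_⟩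
      refine Eventually.of_forall fun n => ?_
      have : ((n : ℂ) + 1) ≠ 0 := Nat.cast_add_one_ne_zero n
      simp [this]
    have := hd.comp hu
    refine this.congr fun n => ?_
    simp [Function.comp]
  refine measurable_of_tendsto_metrizable (f := fun (n : ℕ) e =>
    ((n : ℂ) + 1) * (f e (z + 1 / ((n : ℂ) + 1)) - f e z)) ?_ (tendsto_pi_nhds.2 hlim)
  intro n
  have him : (z + 1 / ((n : ℂ) + 1)).im = z.im := by
    have : (1 / ((n : ℂ) + 1)) = ((1 / ((n : ℝ) + 1) : ℝ) : ℂ) := by push_cast; ring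
    rw [this, Complex.add_im, Complex.ofReal_im, add_zero]
  exact ((h.meas _ (by rw [him]; exact hz)).sub (h.meas z hz)).const_mul _

theorem joint (h : MF f) : Measurable fun p : E × ℂ => if 0 < p.2.im then f p.1 p.2 else 0 :=
  measurable_joint_half h.meas h.cont 0

theorem joint_deriv (h : MF f) :
    Measurable fun p : E × ℂ => if 0 < p.2.im then deriv (f p.1) p.2 else 0 :=
  measurable_joint_half (fun _ hz => h.meas_deriv hz) h.cont_deriv 0

theorem measurableSet_H' : MeasurableSet {p : E × ℂ | 0 < p.2.im} :=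
  measurableSet_lt measurable_const (measurable_im.comp measurable_snd)

theorem joint_ups (h : MF f) :
    Measurable fun p : E × ℂ => if 0 < p.2.im then KB1.ups (f p.1) p.2 else 0 := by
  have h1 : Measurable fun p : E × ℂ =>
      p.2.im * ‖if 0 < p.2.im then deriv (f p.1) p.2 else 0‖ :=
    (measurable_im.comp measurable_snd).mul h.joint_deriv.norm
  have key : (fun p : E × ℂ => if 0 < p.2.im then KB1.ups (f p.1) p.2 else 0) =
      fun p : E × ℂ => p.2.im * ‖if 0 < p.2.im then deriv (f p.1) p.2 else 0‖ := by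
    funext p
    by_cases hp : 0 < p.2.im
    · simp only [hp, if_true, KB1.ups]
    · simp only [hp, if_false, norm_zero, mul_zero]
  rw [key]; exact h1

theorem yI_im {y : ℝ} : ((y : ℂ) * I).im = y := by simp

/-- evaluation along the imaginary axis -/
theorem joint_axis {β : Type*} [MeasurableSpace β] {g : E × ℂ → β} (hg : Measurable g) :
    Measurable fun p : E × ℝ => g (p.1, (p.2 : ℂ) * I) := by
  refine hg.comp (measurable_fst.prodMk ?_)
  fun_prop

variable {u0 : ℂ → ℝ}

theorem joint_vv (h : MF f) (hu : Continuous u0) :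
    Measurable fun p : E × ℝ => if 0 < p.2 then vv u0 (f p.1) p.2 else 0 := by
  have h1 := joint_axis h.joint_ups
  have h2 := joint_axis h.joint
  have h3 : Measurable fun p : E × ℝ =>
      (if 0 < ((p.2 : ℂ) * I).im then KB1.ups (f p.1) ((p.2 : ℂ) * I) else 0) /
        u0 (if 0 < ((p.2 : ℂ) * I).im then f p.1 ((p.2 : ℂ) * I) else 0) :=
    h1.div (hu.measurable.comp h2)
  have hs : MeasurableSet {p : E × ℝ | 0 < p.2} := measurableSet_lt measurable_const measurable_snd
  have key : (fun p : E × ℝ => if 0 < p.2 then vv u0 (f p.1) p.2 else 0) = fun p : E × ℝ =>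
      if 0 < p.2 then (if 0 < ((p.2 : ℂ) * I).im then KB1.ups (f p.1) ((p.2 : ℂ) * I) else 0) /
        u0 (if 0 < ((p.2 : ℂ) * I).im then f p.1 ((p.2 : ℂ) * I) else 0) else 0 := by
    funext p
    by_cases hp : 0 < p.2
    · simp only [hp, if_true, yI_im, vv]
    · simp only [hp, if_false]
  rw [key]
  exact Measurable.ite hs h3 measurable_const

theorem meas_vv (h : MF f) (hu : Continuous u0) {y : ℝ} (hy : 0 < y) :
    Measurable fun e => vv u0 (f e) y := by
  have := (h.joint_vv hu).comp (measurable_id.prodMk (measurable_const (a := y)) :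
    Measurable fun e : E => (e, y))
  simpa [Function.comp_def, hy] using this

theorem cont_vv (h : MF f) (hu : Continuous u0) (hu1 : ∀ z, 1 ≤ u0 z) (e : E) :
    ContinuousOn (fun y => vv u0 (f e) y) (Ioi 0) := by
  have hmap : MapsTo (fun y : ℝ => (y : ℂ) * I) (Ioi 0) {z : ℂ | 0 < z.im} := by
    intro y hy
    show 0 < ((y : ℂ) * I).im
    rw [yI_im]; exact hy
  have haxis : ContinuousOn (fun y : ℝ => (y : ℂ) * I) (Ioi 0) := by fun_prop
  have h1 : ContinuousOn (fun y : ℝ => deriv (f e) ((y : ℂ) * I)) (Ioi 0) :=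
    (h.cont_deriv e).comp haxis hmap
  have h2 : ContinuousOn (fun y : ℝ => f e ((y : ℂ) * I)) (Ioi 0) := (h.cont e).comp haxis hmap
  have h3 : ContinuousOn (fun y : ℝ => u0 (f e ((y : ℂ) * I))) (Ioi 0) :=
    hu.comp_continuousOn h2
  unfold vv KB1.ups
  refine ContinuousOn.div ?_ h3 (fun y _ => by have := hu1 (f e ((y : ℂ) * I)); linarith)
  refine ContinuousOn.mul ?_ h1.norm
  exact (Complex.continuous_im.comp_continuousOn haxis)

/-- `(e,y) ↦ J` is jointly measurable -/
theorem joint_Jv (h : MF f) (hu : Continuous u0) (q : ℝ) :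
    Measurable fun p : E × ℝ => Jv u0 q (f p.1) p.2 := by
  have hg : Measurable fun r : (E × ℝ) × ℝ =>
      ENNReal.ofReal ((min (if 0 < r.2 then vv u0 (f r.1.1) r.2 else 0) 1) ^ q / r.2) := by
    have h1 : Measurable fun r : (E × ℝ) × ℝ => if 0 < r.2 then vv u0 (f r.1.1) r.2 else 0 :=
      (h.joint_vv hu).comp ((measurable_fst.comp measurable_fst).prodMk measurable_snd)
    exact (((h1.min measurable_const).pow_const q).div measurable_snd).ennreal_ofReal
  have hS : MeasurableSet {r : (E × ℝ) × ℝ | r.2 ∈ Ioc (0:ℝ) r.1.2} :=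
    (measurableSet_lt measurable_const measurable_snd).inter
      (measurableSet_le measurable_snd (measurable_snd.comp measurable_fst))
  have h2 := measurable_setLIntegral_param hg (S := fun p : E × ℝ => Ioc (0:ℝ) p.2) hS volume
  convert h2 using 1
  funext p
  unfold Jv
  refine setLIntegral_congr_fun measurableSet_Ioc fun s hs => ?_
  simp only [hs.1, if_true]

theorem meas_Jv (h : MF f) (hu : Continuous u0) (q y : ℝ) :
    Measurable fun e => Jv u0 q (f e) y :=
  (h.joint_Jv hu q).comp (measurable_id.prodMk (measurable_const (a := y)) :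
    Measurable fun e : E => (e, y))

theorem Jv_mono (u0 : ℂ → ℝ) (q : ℝ) (g : ℂ → ℂ) {y y' : ℝ} (h : y ≤ y') :
    Jv u0 q g y ≤ Jv u0 q g y' := lintegral_mono_set (Ioc_subset_Ioc_right h)

/-- `e ↦ y_x` is measurable -/
theorem meas_yx (h : MF f) (hu : Continuous u0) (hu1 : ∀ z, 1 ≤ u0 z) (q θ K3 : ℝ) :
    Measurable fun e => yx u0 q (f e) θ K3 :=
  measurable_sInf_level (v := fun e y => vv u0 (f e) y) (J := fun e y => Jv u0 q (f e) y)
    (fun _ hy => h.meas_vv hu hy) (h.cont_vv hu hu1) (fun y _ => h.meas_Jv hu q y)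
    (fun _ _ _ _ hyy => Jv_mono u0 q _ hyy) θ (ENNReal.ofReal K3)

/-- composition with a measurable height -/
theorem meas_at (h : MF f) {y : E → ℝ} (hy : Measurable y) (hy0 : ∀ e, 0 < y e) :
    Measurable fun e => f e ((y e : ℂ) * I) := by
  have h1 : Measurable fun e => if 0 < ((y e : ℂ) * I).im then f e ((y e : ℂ) * I) else 0 :=
    h.joint.comp (measurable_id.prodMk (by fun_prop) : Measurable fun e => (e, (y e : ℂ) * I))
  convert h1 using 1
  funext e
  simp only [yI_im, hy0 e, if_true]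

theorem meas_vv_at (h : MF f) (hu : Continuous u0) {y : E → ℝ} (hy : Measurable y)
    (hy0 : ∀ e, 0 < y e) : Measurable fun e => vv u0 (f e) (y e) := by
  have h1 : Measurable fun e => if 0 < y e then vv u0 (f e) (y e) else 0 :=
    (h.joint_vv hu).comp (measurable_id.prodMk hy)
  convert h1 using 1
  funext e
  simp only [hy0 e, if_true]

/-- `Ψ` along the axis is jointly measurable -/
theorem joint_Psi (h : MF f) (hu : Continuous u0) (q η : ℝ) :
    Measurable fun p : E × ℝ => if 0 < p.2 then Psi u0 q η (f p.1) ((p.2 : ℂ) * I) else 0 := by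
  have h1 := joint_axis h.joint_ups
  have h2 := joint_axis h.joint
  have h4 := hu.measurable.comp h2
  have h3 : Measurable fun p : E × ℝ =>
      (if 0 < ((p.2 : ℂ) * I).im then KB1.ups (f p.1) ((p.2 : ℂ) * I) else 0) ^ q *
      (max (if 0 < ((p.2 : ℂ) * I).im then KB1.ups (f p.1) ((p.2 : ℂ) * I) else 0)
        (u0 (if 0 < ((p.2 : ℂ) * I).im then f p.1 ((p.2 : ℂ) * I) else 0))) ^ (-q - η) :=
    (h1.pow_const q).mul ((h1.max h4).pow_const _)
  have hs : MeasurableSet {p : E × ℝ | 0 < p.2} := measurableSet_lt measurable_const measurable_snd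
  have key : (fun p : E × ℝ => if 0 < p.2 then Psi u0 q η (f p.1) ((p.2 : ℂ) * I) else 0) =
      fun p : E × ℝ => if 0 < p.2 then
      (if 0 < ((p.2 : ℂ) * I).im then KB1.ups (f p.1) ((p.2 : ℂ) * I) else 0) ^ q *
      (max (if 0 < ((p.2 : ℂ) * I).im then KB1.ups (f p.1) ((p.2 : ℂ) * I) else 0)
        (u0 (if 0 < ((p.2 : ℂ) * I).im then f p.1 ((p.2 : ℂ) * I) else 0))) ^ (-q - η) else 0 := by
    funext p
    by_cases hp : 0 < p.2
    · simp only [hp, if_true, yI_im, Psi, mm]
    · simp only [hp, if_false]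
  rw [key]
  exact Measurable.ite hs h3 measurable_const

/-- `e ↦ Λ(f_e)` is measurable -/
theorem meas_Lam (h : MF f) (hu : Continuous u0) (q η : ℝ) :
    Measurable fun e => Lam u0 q η (f e) := by
  have hg : Measurable fun p : E × ℝ =>
      ENNReal.ofReal ((if 0 < p.2 then Psi u0 q η (f p.1) ((p.2 : ℂ) * I) else 0) / p.2) :=
    ((h.joint_Psi hu q η).div measurable_snd).ennreal_ofReal
  have h2 := measurable_lintegral_param hg (volume.restrict (Ioi (0:ℝ)))
  convert h2 using 1
  funext e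
  unfold Lam
  refine setLIntegral_congr_fun measurableSet_Ioi fun s hs => ?_
  have hs' : 0 < s := hs
  simp only [hs', if_true]

/-- change of variables (same as LB3b.lintegral_image_H) -/
theorem lintegral_image_H {f : ℂ → ℂ} (hf : DifferentiableOn ℂ f {z | 0 < z.im})
    (hinj : InjOn f {z | 0 < z.im}) {s : Set ℂ} (hs : MeasurableSet s) (hsH : s ⊆ {z | 0 < z.im})
    (g : ℂ → ℝ≥0∞) :
    ∫⁻ w in f '' s, g w = ∫⁻ z in s, ENNReal.ofReal (‖deriv f z‖ ^ 2) * g (f z) := by
  have hder : ∀ z ∈ s, HasFDerivWithinAt f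
      ((ContinuousLinearMap.toSpanSingleton ℂ (deriv f z)).restrictScalars ℝ) s z := by
    intro z hz
    have h1 : HasDerivAt f (deriv f z) z :=
      (hf.differentiableAt (isOpenH.mem_nhds (hsH hz))).hasDerivAt
    exact (h1.hasFDerivAt.restrictScalars ℝ).hasFDerivWithinAt
  rw [lintegral_image_eq_lintegral_abs_det_fderiv_mul volume hs hder (hinj.mono hsH) g]
  refine setLIntegral_congr_fun hs (fun z _ => ?_)
  congr 2
  simp [ContinuousLinearMap.det, LinearMap.det_restrictScalars, Algebra.norm_complex_eq,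
    Complex.normSq_eq_norm_sq]

/-- the area in `z`-coordinates -/
theorem area_eq {g : ℂ → ℂ} (hg : DifferentiableOn ℂ g {z | 0 < z.im})
    (hinj : InjOn g {z | 0 < z.im}) (u0 : ℂ → ℝ) (η θ1 : ℝ)
    (hm : MeasurableSet {z : ℂ | 0 < z.im ∧ θ1 * u0 (g z) ≤ KB1.ups g z}) :
    area u0 η θ1 g = ∫⁻ z in {z : ℂ | 0 < z.im ∧ θ1 * u0 (g z) ≤ KB1.ups g z},
      ENNReal.ofReal (‖deriv g z‖ ^ 2) * ENNReal.ofReal (u0 (g z) ^ (-2 - η)) := by
  have himg : areaSet u0 θ1 g = g '' {z : ℂ | 0 < z.im ∧ θ1 * u0 (g z) ≤ KB1.ups g z} := by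
    ext w
    constructor
    · rintro ⟨z, hz, rfl, h⟩; exact ⟨z, ⟨hz, h⟩, rfl⟩
    · rintro ⟨z, ⟨hz, h⟩, rfl⟩; exact ⟨z, hz, rfl, h⟩
  unfold area
  rw [himg, lintegral_image_H hg hinj hm (fun z hz => hz.1)]

/-- `e ↦ A(f_e)` is measurable -/
theorem meas_area (h : MF f) (hinj : ∀ e, InjOn (f e) {z : ℂ | 0 < z.im}) (hu : Continuous u0)
    (η θ1 : ℝ) : Measurable fun e => area u0 η θ1 (f e) := by
  have hu0 := hu.measurable.comp h.joint
  have hS : MeasurableSet {p : E × ℂ | p.2 ∈ {z : ℂ | 0 < z.im ∧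
      θ1 * u0 (f p.1 z) ≤ KB1.ups (f p.1) z}} := by
    have h1 : MeasurableSet {p : E × ℂ | 0 < p.2.im ∧
        θ1 * u0 (if 0 < p.2.im then f p.1 p.2 else 0) ≤
          (if 0 < p.2.im then KB1.ups (f p.1) p.2 else 0)} :=
      measurableSet_H'.inter (measurableSet_le (hu0.const_mul θ1) h.joint_ups)
    convert h1 using 1
    ext p
    simp only [mem_ofPred_eq]
    constructor
    · rintro ⟨h0, h1⟩
      exact ⟨h0, by simpa only [h0, if_true] using h1⟩
    · rintro ⟨h0, h1⟩
      exact ⟨h0, by simpa only [h0, if_true] using h1⟩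
  have hg : Measurable fun p : E × ℂ =>
      ENNReal.ofReal (‖if 0 < p.2.im then deriv (f p.1) p.2 else 0‖ ^ 2) *
        ENNReal.ofReal (u0 (if 0 < p.2.im then f p.1 p.2 else 0) ^ (-2 - η)) :=
    ((h.joint_deriv.norm.pow_const 2).ennreal_ofReal).mul ((hu0.pow_const _).ennreal_ofReal)
  have h2 := measurable_setLIntegral_param hg (S := fun e => {z : ℂ | 0 < z.im ∧
      θ1 * u0 (f e z) ≤ KB1.ups (f e) z}) hS volume
  convert h2 using 1
  funext e
  have hSe : MeasurableSet {z : ℂ | 0 < z.im ∧ θ1 * u0 (f e z) ≤ KB1.ups (f e) z} :=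
    measurable_prodMk_left hS
  rw [area_eq (h.diff e) (hinj e) u0 η θ1 hSe]
  refine setLIntegral_congr_fun hSe fun z hz => ?_
  simp only [hz.1, if_true]

/-! ### the functionals of `Par` -/

variable {p : Par}

theorem meas_y (h : MF f) (hp : p.Adm) : Measurable fun e => p.y (f e) :=
  h.meas_yx hp.lip.continuous hp.one_le _ _ _

theorem meas_x (h : MF f) (hp : p.Adm) (hy : ∀ e, 0 < p.y (f e)) : Measurable fun e => p.x (f e) :=
  h.meas_at (h.meas_y hp) hy

theorem measurableSet_CaseA (h : MF f) (hp : p.Adm) (hy : ∀ e, 0 < p.y (f e)) :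
    MeasurableSet {e | p.CaseA (f e)} :=
  measurableSet_le measurable_const (h.meas_vv_at hp.lip.continuous (h.meas_y hp) hy)

theorem meas_rho1 (h : MF f) (hp : p.Adm) (hy : ∀ e, 0 < p.y (f e)) :
    Measurable fun e => p.rho1 (f e) := by
  unfold Par.rho1
  exact Measurable.ite (h.measurableSet_CaseA hp hy) ((h.meas_y hp).const_mul p.K4)
    ((h.meas_y hp).div_const 10)

theorem meas_varpi (h : MF f) (hp : p.Adm) (hy : ∀ e, 0 < p.y (f e)) :
    Measurable fun e => p.varpi (f e) :=
  (hp.lip.continuous.measurable.comp (h.meas_x hp hy)).pow_const _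

theorem meas_Λ (h : MF f) (hp : p.Adm) : Measurable fun e => p.Λ (f e) :=
  h.meas_Lam hp.lip.continuous _ _

theorem meas_A (h : MF f) (hinj : ∀ e, InjOn (f e) {z : ℂ | 0 < z.im}) (hp : p.Adm) :
    Measurable fun e => p.A (f e) :=
  h.meas_area hinj hp.lip.continuous _ _

end MF

end Crest.Agent.R162.LBST
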