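import Mathlib
import Crest.Agent.R162.LBDefs
import Crest.Agent.R162.LBSTf

/-!
Row 162, node LB-ST (helper183): the running radius `LB.rad W t = max √t (sup_{s ≤ t} |W_s|)`:
continuity, monotonicity, measurability.
-/

set_option autoImplicit false

open Set MeasureTheory Filter Topology
open scoped NNReal

namespace Crest.Agent.R162.LBSTS

open Crest.Agent.R162.FL Crest.Agent.R162.LB Crest.Agent.R162.LBST

variable {W : ℝ → ℝ}

/-- the running maximum `sup_{s ≤ t} |W_s|` -/
noncomputable def runM (W : ℝ → ℝ) (t : ℝ) : ℝ := sSup ((fun s => |W s|) '' Icc 0 t)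

lemma rad_eq (W : ℝ → ℝ) (t : ℝ) : rad W t = max (Real.sqrt t) (runM W t) := rfl

lemma runM_mono (hW : ContinuousOn W (Ici 0)) {s t : ℝ} (hs : 0 ≤ s) (hst : s ≤ t) :
    runM W s ≤ runM W t :=
  csSup_le_csSup (bddAbove_abs hW) ⟨_, 0, ⟨le_rfl, hs⟩, rfl⟩
    (image_mono (Icc_subset_Icc_right hst))

lemma le_runM (hW : ContinuousOn W (Ici 0)) {s t : ℝ} (hs : 0 ≤ s) (hst : s ≤ t) :
    |W s| ≤ runM W t := le_csSup (bddAbove_abs hW) ⟨s, ⟨hs, hst⟩, rfl⟩

lemma runM_nonneg (W : ℝ → ℝ) (t : ℝ) : 0 ≤ runM W t :=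
  Real.sSup_nonneg (by rintro _ ⟨s, -, rfl⟩; exact abs_nonneg _)

/-- the running maximum is attained -/
lemma exists_runM_eq (hW : ContinuousOn W (Ici 0)) {t : ℝ} (ht : 0 ≤ t) :
    ∃ s ∈ Icc 0 t, runM W t = |W s| := by
  have hc : ContinuousOn (fun s => |W s|) (Icc 0 t) := (hW.mono fun s hs => hs.1).abs
  obtain ⟨s, hs, hmax⟩ := isCompact_Icc.exists_sSup_image_eq (nonempty_Icc.2 ht) hc
  exact ⟨s, hs, hmax⟩

lemma runM_zero (W : ℝ → ℝ) : runM W 0 = |W 0| := by
  simp [runM]

lemma rad_zero (W : ℝ → ℝ) : rad W 0 = |W 0| := by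
  rw [rad_eq, runM_zero, Real.sqrt_zero, max_eq_right (abs_nonneg _)]

lemma runM_le_iff (hW : ContinuousOn W (Ici 0)) {t c : ℝ} (ht : 0 ≤ t) :
    runM W t ≤ c ↔ ∀ s ∈ Icc 0 t, |W s| ≤ c := by
  constructor
  · intro h s hs
    exact (le_runM hW hs.1 hs.2).trans h
  · intro h
    obtain ⟨s, hs, e⟩ := exists_runM_eq hW ht
    rw [e]; exact h s hs

lemma rad_le_iff (hW : ContinuousOn W (Ici 0)) {t c : ℝ} (ht : 0 ≤ t) :
    rad W t ≤ c ↔ Real.sqrt t ≤ c ∧ ∀ s ∈ Icc 0 t, |W s| ≤ c := by
  rw [rad_eq, max_le_iff, runM_le_iff hW ht]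

lemma continuousOn_runM (hW : ContinuousOn W (Ici 0)) : ContinuousOn (runM W) (Ici 0) := by
  intro t ht
  have ht' : 0 ≤ t := ht
  rw [Metric.continuousWithinAt_iff]
  intro ε hε
  have hWt := Metric.continuousWithinAt_iff.1 (hW t ht) (ε / 2) (by positivity)
  obtain ⟨δ, hδ, hd⟩ := hWt
  refine ⟨δ, hδ, ?_⟩
  intro u hu hut
  have hu' : 0 ≤ u := hu
  -- points between `t` and `u` have `|W|` within `ε` of each other
  have hclose : ∀ r, r ∈ uIcc t u → |W r - W t| < ε / 2 := by
    intro r hr
    have h0 : 0 ≤ r := (le_min ht' hu').trans hr.1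
    have h1 : dist r t < δ := by
      refine lt_of_le_of_lt ?_ hut
      rw [Real.dist_eq, Real.dist_eq, abs_sub_comm u t]
      rw [abs_sub_comm t u]
      exact Set.abs_sub_left_of_mem_uIcc hr
    have := hd h0 h1
    rwa [Real.dist_eq] at this
  rw [Real.dist_eq]
  rcases le_total t u with h | h
  · have h1 := runM_mono hW ht' h
    rw [abs_of_nonneg (sub_nonneg.2 h1)]
    have h2 : runM W u ≤ runM W t + ε / 2 := by
      rw [runM_le_iff hW hu']
      intro s hs
      rcases le_total s t with hst | hst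
      · linarith [le_runM hW hs.1 hst]
      · have h3 := hclose s (by rw [uIcc_of_le h]; exact ⟨hst, hs.2⟩)
        have h4 := le_runM hW ht' (le_refl t)
        have h5 : |W s| ≤ |W t| + |W s - W t| := by
          have := abs_add_le (W t) (W s - W t)
          simpa using this
        linarith
    linarith
  · have h1 := runM_mono hW hu' h
    rw [abs_sub_comm, abs_of_nonneg (sub_nonneg.2 h1)]
    have h2 : runM W t ≤ runM W u + ε * (3 / 4 + 1 / 4) := by
      rw [runM_le_iff hW ht']
      intro s hs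
      rcases le_total s u with hsu | hsu
      · linarith [le_runM hW hs.1 hsu]
      · have h3 := hclose s (by rw [uIcc_of_ge h]; exact ⟨hsu, hs.2⟩)
        have h3' := hclose u (by rw [uIcc_of_ge h]; exact ⟨le_rfl, h⟩)
        have h4 := le_runM hW hu' (le_refl u)
        have h5 : |W s| ≤ |W u| + |W s - W u| := by
          have := abs_add_le (W u) (W s - W u)
          simpa using this
        have h6 : |W s - W u| ≤ |W s - W t| + |W u - W t| := by
          have := abs_sub_le (W s) (W t) (W u)
          rwa [abs_sub_comm (W t) (W u)] at this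
        linarith
    have h7 : runM W t < runM W u + ε ∨ runM W t = runM W u + ε := by
      rcases lt_or_eq_of_le (by linarith : runM W t ≤ runM W u + ε) with h | h
      · exact Or.inl h
      · exact Or.inr h
    rcases h7 with h7 | h7
    · linarith
    · -- strict version: use attained maximum
      obtain ⟨s, hs, e⟩ := exists_runM_eq hW ht'
      rcases le_total s u with hsu | hsu
      · have := le_runM hW hs.1 hsu
        linarith
      · have h3 := hclose s (by rw [uIcc_of_ge h]; exact ⟨hsu, hs.2⟩)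
        have h3' := hclose u (by rw [uIcc_of_ge h]; exact ⟨le_rfl, h⟩)
        have h4 := le_runM hW hu' (le_refl u)
        have h5 : |W s| ≤ |W u| + |W s - W u| := by
          have := abs_add_le (W u) (W s - W u)
          simpa using this
        have h6 : |W s - W u| ≤ |W s - W t| + |W u - W t| := by
          have := abs_sub_le (W s) (W t) (W u)
          rwa [abs_sub_comm (W t) (W u)] at this
        linarith

/-- the radius is continuous in `t` -/
theorem continuousOn_rad (hW : ContinuousOn W (Ici 0)) : ContinuousOn (rad W) (Ici 0) := by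
  have : rad W = fun t => max (Real.sqrt t) (runM W t) := rfl
  rw [this]
  exact ContinuousOn.sup Real.continuous_sqrt.continuousOn (continuousOn_runM hW)

lemma rad_pos {t : ℝ} (W : ℝ → ℝ) (ht : 0 < t) : 0 < rad W t :=
  (Real.sqrt_pos.2 ht).trans_le (sqrt_le_rad W t)

/-- `rad W t` only depends on `W` on `[0,t]` -/
lemma rad_congr {V : ℝ → ℝ} {t : ℝ} (h : ∀ s ∈ Icc 0 t, W s = V s) : rad W t = rad V t := by
  have : (fun s => |W s|) '' Icc 0 t = (fun s => |V s|) '' Icc 0 t :=
    image_congr fun s hs => by rw [h s hs]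
  simp only [rad, this]

/-- the running maximum as a countable supremum -/
lemma runM_eq_iSup (hW : ContinuousOn W (Ici 0)) {t : ℝ} (ht : 0 ≤ t) :
    runM W t = ⨆ n : ℕ, |W (t * (TopologicalSpace.denseSeq unitInterval n : ℝ))| := by
  set q : ℕ → unitInterval := TopologicalSpace.denseSeq unitInterval with hq
  have hmem : ∀ u : unitInterval, t * (u : ℝ) ∈ Icc 0 t := fun u =>
    ⟨mul_nonneg ht u.2.1, mul_le_of_le_one_right ht u.2.2⟩
  have hbdd : BddAbove (range fun n : ℕ => |W (t * (q n : ℝ))|) := by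
    refine ⟨runM W t, ?_⟩
    rintro _ ⟨n, rfl⟩
    exact le_runM hW (hmem (q n)).1 (hmem (q n)).2
  apply le_antisymm
  · rw [runM_le_iff hW ht]
    set c := ⨆ n : ℕ, |W (t * (q n : ℝ))| with hc
    have hcl : IsClosed {u : unitInterval | |W (t * (u : ℝ))| ≤ c} := by
      have h1 : Continuous fun u : unitInterval => |W (t * (u : ℝ))| := by
        have h2 : Continuous fun u : unitInterval => W (t * (u : ℝ)) :=
          hW.comp_continuous (by fun_prop) fun u => (hmem u).1
        exact h2.abs
      exact isClosed_le h1 continuous_const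
    have hall : ∀ u : unitInterval, |W (t * (u : ℝ))| ≤ c := by
      have hd : DenseRange q := TopologicalSpace.denseRange_denseSeq _
      intro u
      have : closure (range q) ⊆ {u : unitInterval | |W (t * (u : ℝ))| ≤ c} :=
        closure_minimal (by rintro _ ⟨n, rfl⟩; exact le_ciSup hbdd n) hcl
      exact this (hd u)
    intro s hs
    rcases ht.eq_or_lt with h0 | h0
    · have : s = t * ((0 : unitInterval) : ℝ) := by
        have h1 : s = 0 := le_antisymm (hs.2.trans h0.ge) hs.1
        simp [h1]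
      rw [this]; exact hall 0
    · have h1 : s / t ∈ unitInterval := ⟨div_nonneg hs.1 ht, (div_le_one h0).2 hs.2⟩
      have h2 := hall ⟨s / t, h1⟩
      have h3 : t * (s / t) = s := by field_simp
      simpa only [h3] using h2
  · exact ciSup_le fun n => le_runM hW (hmem (q n)).1 (hmem (q n)).2

section meas

variable {Ω : Type*} {m : MeasurableSpace Ω} {T : ℝ} {W : Ω → ℝ → ℝ}

/-- joint measurability of the radius, time clamped to `[0,T]` -/
theorem measurable_rad_joint (hT : 0 ≤ T) (hc : ∀ ω, ContinuousOn (W ω) (Ici 0))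
    (hm : ∀ s ∈ Icc 0 T, Measurable (fun ω => W ω s)) :
    Measurable (fun x : Ω × ℝ => rad (W x.1) (FLD.clampT T x.2)) := by
  have hc' : ∀ ω, ContinuousOn (W ω) (Icc 0 T) := fun ω => (hc ω).mono fun s hs => hs.1
  have hJ := FLD.measurable_drive_joint hc' hm
  have hcl : Measurable (fun x : Ω × ℝ => FLD.clampT T x.2) :=
    (FLD.continuous_clampT T).measurable.comp measurable_snd
  have h1 : ∀ n : ℕ, Measurable (fun x : Ω × ℝ =>
      |W x.1 (FLD.clampT T x.2 * (TopologicalSpace.denseSeq unitInterval n : ℝ))|) := by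
    intro n
    set u := TopologicalSpace.denseSeq unitInterval n with hu
    have h2 : Measurable (fun x : Ω × ℝ => ((x.1, FLD.clampT T x.2 * (u : ℝ)) : Ω × ℝ)) :=
      measurable_fst.prodMk (hcl.mul_const _)
    have h3 := (hJ.comp h2)
    have h4 : Measurable (fun x : Ω × ℝ => W x.1 (FLD.clampT T x.2 * (u : ℝ))) := by
      convert h3 using 1
      funext x
      have hmem := FLD.clampT_mem hT x.2
      have : FLD.clampT T x.2 * (u : ℝ) ∈ Icc 0 T :=
        ⟨mul_nonneg hmem.1 u.2.1, (mul_le_of_le_one_right hmem.1 u.2.2).trans hmem.2⟩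
      simp only [Function.comp]
      rw [indicator_of_mem this]
    exact h4.abs
  have h5 : Measurable (fun x : Ω × ℝ => runM (W x.1) (FLD.clampT T x.2)) := by
    have := Measurable.iSup h1
    convert this using 1
    funext x
    exact runM_eq_iSup (hc x.1) (FLD.clampT_mem hT x.2).1
  exact (Real.continuous_sqrt.measurable.comp hcl).max h5

/-- `ω ↦ rad (W ω) t` is measurable (use with `m := F T`) -/
theorem measurable_rad {t : ℝ} (ht : t ∈ Icc 0 T) (hc : ∀ ω, ContinuousOn (W ω) (Ici 0))
    (hm : ∀ s ∈ Icc 0 T, Measurable (fun ω => W ω s)) :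
    Measurable (fun ω => rad (W ω) t) := by
  have h := (measurable_rad_joint (ht.1.trans ht.2) hc hm).comp
    (measurable_id.prodMk (measurable_const (a := t)))
  simpa only [Function.comp_def, id, FLD.clampT_of_mem ht] using h

end meas

/-- exit of the radius above a level is a right-open condition -/
theorem rad_gt_open (hW : ContinuousOn W (Ici 0)) {t c : ℝ} (ht : 0 ≤ t) (h : c < rad W t) :
    ∀ᶠ s in 𝓝[≥] t, c < rad W s := by
  filter_upwards [self_mem_nhdsWithin] with s hs
  exact h.trans_le (rad_mono hW ht hs)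

end Crest.Agent.R162.LBSTS
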