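import Mathlib
import Crest.Agent.R162.LBSkel
import Crest.Agent.R162.LBBr
import Crest.Agent.R162.KB1H

/-!
Row 162 (S0243), nodes LBS0 / LBsS (helper603): the fields of `LBS.Start` for the new state map
`f ∘ ffl W t`.
-/

set_option autoImplicit false

open MeasureTheory ProbabilityTheory Filter Topology Set Complex
open scoped NNReal ENNReal
open Crest.ProbabilityR.Loewner

namespace Crest.Agent.R162.LBStartF

open Crest.Agent.R162.FL Crest.Agent.R162.FLC Crest.Agent.R162.OS Crest.Agent.R162.LB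
open Crest.Agent.R162.LBS

universe u

variable {W : ℝ → ℝ} {t : ℝ} {f : ℂ → ℂ} {u0 : ℂ → ℝ}

/-! ### normalisation at infinity along the axis -/

lemma im_yI (y : ℝ) : ((y : ℂ) * I).im = y := by simp

/-- radius -/
noncomputable def r0 (W : ℝ → ℝ) (t : ℝ) : ℝ := max (Real.sqrt t) |W t|

lemma hd_axis_le (hW : ContinuousOn W (Ici 0)) (ht : 0 ≤ t) {y : ℝ} (hy : 0 < y)
    (h : 10 * r0 W t ≤ y) : KB1.hd (y * I) (ffl W t (y * I)) ≤ 3 * r0 W t / y := by
  have hz : 0 < ((y : ℂ) * I).im := by rwa [im_yI]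
  have hTr : t ≤ r0 W t ^ 2 := by
    have h1 : Real.sqrt t ≤ r0 W t := le_max_left _ _
    calc t = Real.sqrt t ^ 2 := (Real.sq_sqrt ht).symm
      _ ≤ r0 W t ^ 2 := pow_le_pow_left₀ (Real.sqrt_nonneg _) h1 2
  have h1 := norm_ffl_I_sub_le hW ht hTr (le_max_right _ _) hy h
  have h2 := im_le_ffl hW ht hz
  rw [im_yI] at h2
  refine (KB1.hd_le_div hz (ffl_im_pos hW ht hz)).trans ?_
  rw [norm_sub_rev, im_yI]
  have h3 : y ≤ Real.sqrt (y * (ffl W t (y * I)).im) := by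
    apply Real.le_sqrt_of_sq_le
    nlinarith
  have hr : 0 ≤ r0 W t := (abs_nonneg _).trans (le_max_right _ _)
  gcongr

lemma tendsto_hd_axis (hW : ContinuousOn W (Ici 0)) (ht : 0 ≤ t) :
    Tendsto (fun y : ℝ => KB1.hd (y * I) (ffl W t (y * I))) atTop (𝓝 0) := by
  have h1 : Tendsto (fun y : ℝ => 3 * r0 W t / y) atTop (𝓝 0) :=
    tendsto_const_nhds.div_atTop tendsto_id
  refine squeeze_zero' (Eventually.of_forall fun y => KB1.hd_nonneg _ _) ?_ h1
  filter_upwards [eventually_gt_atTop 0, eventually_ge_atTop (10 * r0 W t)] with y hy h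
  exact hd_axis_le hW ht hy h

lemma tendsto_norm_deriv_axis (hW : ContinuousOn W (Ici 0)) (ht : 0 ≤ t) :
    Tendsto (fun y : ℝ => ‖deriv (ffl W t) (y * I)‖) atTop (𝓝 1) := by
  have hTr : t ≤ r0 W t ^ 2 := by
    have h1 : Real.sqrt t ≤ r0 W t := le_max_left _ _
    calc t = Real.sqrt t ^ 2 := (Real.sq_sqrt ht).symm
      _ ≤ r0 W t ^ 2 := pow_le_pow_left₀ (Real.sqrt_nonneg _) h1 2
  have h1 : Tendsto (fun y : ℝ => Real.exp (2 * r0 W t ^ 2 / y ^ 2) - 1) atTop (𝓝 0) := by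
    have h2 : Tendsto (fun y : ℝ => 2 * r0 W t ^ 2 / y ^ 2) atTop (𝓝 0) :=
      tendsto_const_nhds.div_atTop (tendsto_pow_atTop two_ne_zero)
    have h3 := (Real.continuous_exp.tendsto 0).comp h2
    rw [Real.exp_zero] at h3
    simpa using h3.sub_const 1
  have h4 : Tendsto (fun y : ℝ => deriv (ffl W t) (y * I) - 1) atTop (𝓝 0) := by
    refine squeeze_zero_norm' ?_ h1
    filter_upwards [eventually_gt_atTop 0] with y hy
    exact norm_deriv_ffl_I_sub_one_le hW ht hTr hy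
  have h5 : Tendsto (fun y : ℝ => deriv (ffl W t) (y * I)) atTop (𝓝 1) := by
    simpa using h4.add_const 1
  simpa using h5.norm

lemma tendsto_im_axis (hW : ContinuousOn W (Ici 0)) (ht : 0 ≤ t) :
    Tendsto (fun y : ℝ => y / (ffl W t (y * I)).im) atTop (𝓝 1) := by
  have h1 := tendsto_hd_axis hW ht
  have h2 : Tendsto (fun y : ℝ => Real.log y - Real.log (ffl W t (y * I)).im) atTop (𝓝 0) := by
    refine squeeze_zero_norm' ?_ h1
    filter_upwards [eventually_gt_atTop 0] with y hy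
    have hz : 0 < ((y : ℂ) * I).im := by rwa [im_yI]
    have := KB1.abs_log_im_le_hd hz (ffl_im_pos hW ht hz)
    rwa [im_yI] at this
  have h3 := (Real.continuous_exp.tendsto 0).comp h2
  rw [Real.exp_zero] at h3
  refine h3.congr' ?_
  filter_upwards [eventually_gt_atTop 0] with y hy
  have hz : 0 < ((y : ℂ) * I).im := by rwa [im_yI]
  have h4 := ffl_im_pos hW ht hz
  simp only [Function.comp_apply]
  rw [← Real.log_div hy.ne' h4.ne', Real.exp_log (by positivity)]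

/-- the normalisation `v → 1` at infinity is preserved by `f ↦ f ∘ ffl W t` -/
theorem tendsto_vv_comp (hW : ContinuousOn W (Ici 0)) (ht : 0 ≤ t)
    (hf : DifferentiableOn ℂ f {z : ℂ | 0 < z.im}) (hfi : InjOn f {z : ℂ | 0 < z.im})
    (hu : LipschitzWith 1 u0) (hu1 : ∀ z, 1 ≤ u0 z) (hv : Tendsto (vv u0 f) atTop (𝓝 1)) :
    Tendsto (vv u0 (f ∘ ffl W t)) atTop (𝓝 1) := by
  have hd0 := tendsto_hd_axis hW ht
  have hup : ∀ z, 0 < u0 z := fun z => lt_of_lt_of_le one_pos (hu1 z)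
  -- ratio of ups
  have hA : Tendsto (fun y : ℝ => KB1.ups f (ffl W t (y * I)) / KB1.ups f (y * I)) atTop (𝓝 1) := by
    have h2 : Tendsto (fun y : ℝ => Real.log (KB1.ups f (ffl W t (y * I))) -
        Real.log (KB1.ups f (y * I))) atTop (𝓝 0) := by
      have h1 : Tendsto (fun y : ℝ => 2 * KB1.hd (y * I) (ffl W t (y * I))) atTop (𝓝 0) := by
        simpa using hd0.const_mul 2
      refine squeeze_zero_norm' ?_ h1
      filter_upwards [eventually_gt_atTop 0] with y hy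
      have hz : 0 < ((y : ℂ) * I).im := by rwa [im_yI]
      exact KB1.abs_log_ups_sub_le hf hfi hz (ffl_im_pos hW ht hz)
    have h3 := (Real.continuous_exp.tendsto 0).comp h2
    rw [Real.exp_zero] at h3
    refine h3.congr' ?_
    filter_upwards [eventually_gt_atTop 0] with y hy
    have hz : 0 < ((y : ℂ) * I).im := by rwa [im_yI]
    have h4 := KB1.ups_pos hf hfi hz
    have h5 := KB1.ups_pos hf hfi (ffl_im_pos hW ht hz)
    simp only [Function.comp_apply]
    rw [← Real.log_div h5.ne' h4.ne', Real.exp_log (by positivity)]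
  -- ratio of u0
  have hB : Tendsto (fun y : ℝ => u0 (f (ffl W t (y * I))) / u0 (f (y * I))) atTop (𝓝 1) := by
    have h1 : Tendsto (fun y : ℝ => vv u0 f y *
        ((Real.exp (2 * KB1.hd (y * I) (ffl W t (y * I))) - 1) / 2)) atTop (𝓝 0) := by
      have h2 : Tendsto (fun y : ℝ => 2 * KB1.hd (y * I) (ffl W t (y * I))) atTop (𝓝 0) := by
        simpa using hd0.const_mul 2
      have h3 := (Real.continuous_exp.tendsto 0).comp h2
      rw [Real.exp_zero] at h3
      have h4 := (h3.sub_const 1).div_const 2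
      have h5 := hv.mul h4
      simpa using h5
    have h2 : Tendsto (fun y : ℝ => u0 (f (ffl W t (y * I))) / u0 (f (y * I)) - 1) atTop
        (𝓝 0) := by
      refine squeeze_zero_norm' ?_ h1
      filter_upwards [eventually_gt_atTop 0] with y hy
      have hz : 0 < ((y : ℂ) * I).im := by rwa [im_yI]
      have h3 := KB1.norm_sub_le_exp hf hfi hz (ffl_im_pos hW ht hz)
      have h4 : |u0 (f (ffl W t (y * I))) - u0 (f (y * I))| ≤
          ‖f (ffl W t (y * I)) - f (y * I)‖ := by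
        have := hu.dist_le_mul (f (ffl W t (y * I))) (f (y * I))
        rw [Real.dist_eq, dist_eq_norm] at this
        simpa using this
      have h5 := hup (f (y * I))
      rw [Real.norm_eq_abs, div_sub_one h5.ne', abs_div, abs_of_pos h5, vv, div_mul_eq_mul_div]
      exact div_le_div_of_nonneg_right (h4.trans h3) h5.le
    simpa using h2.add_const 1
  have hC := tendsto_norm_deriv_axis hW ht
  have hD := tendsto_im_axis hW ht
  have hE := ((hA.mul (hC.mul hD)).mul (hv.div hB one_ne_zero))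
  simp only [mul_one, div_one] at hE
  refine hE.congr' ?_
  filter_upwards [eventually_gt_atTop 0] with y hy
  have hz : 0 < ((y : ℂ) * I).im := by rwa [im_yI]
  have h4 := KB1.ups_pos hf hfi hz
  have h6 := ffl_im_pos hW ht hz
  have h7 := hup (f (y * I))
  have h8 := hup (f (ffl W t (y * I)))
  have h1 := hasDerivAt_ffl hW ht hz
  have h2 : DifferentiableAt ℂ f (ffl W t (y * I)) :=
    (hf _ h6).differentiableAt ((isOpen_H).mem_nhds h6)
  have e1 : KB1.ups (f ∘ ffl W t) (y * I) =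
      y * (‖deriv f (ffl W t (y * I))‖ * ‖deriv (ffl W t) (y * I)‖) := by
    rw [KB1.ups, deriv_comp _ h2 h1.differentiableAt, norm_mul, im_yI]
  have e2 : KB1.ups f (ffl W t (y * I)) =
      (ffl W t (y * I)).im * ‖deriv f (ffl W t (y * I))‖ := rfl
  simp only [vv, Pi.div_apply, Function.comp_apply] at *
  rw [e1, e2]
  field_simp

/-! ### finiteness of `J` and `Λ` -/

lemma vv_nonneg (hu1 : ∀ z, 1 ≤ u0 z) (g : ℂ → ℂ) {y : ℝ} (hy : 0 ≤ y) : 0 ≤ vv u0 g y := by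
  unfold vv KB1.ups
  rw [im_yI]
  have := hu1 (g (y * I))
  positivity

/-- `J(y₀) < ∞` for one `y₀ > 0` gives `J(y) < ∞` for all `y` -/
theorem Jv_ne_top_of {q : ℝ} (hq : 0 ≤ q) (hu1 : ∀ z, 1 ≤ u0 z) {g : ℂ → ℂ} {y₀ : ℝ}
    (hy₀ : 0 < y₀) (h : Jv u0 q g y₀ ≠ ⊤) (y : ℝ) : Jv u0 q g y ≠ ⊤ := by
  rcases le_total y y₀ with hle | hle
  · exact ne_top_of_le_ne_top h (lintegral_mono_set (Ioc_subset_Ioc_right hle))
  · have h1 : Jv u0 q g y ≤ Jv u0 q g y₀ +
        ∫⁻ s in Ioc y₀ y, ENNReal.ofReal ((min (vv u0 g s) 1) ^ q / s) := by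
      unfold Jv
      rw [← Ioc_union_Ioc_eq_Ioc hy₀.le hle]
      exact lintegral_union_le _ _ _
    refine ne_top_of_le_ne_top ?_ h1
    refine ENNReal.add_ne_top.2 ⟨h, ?_⟩
    have h2 : ∫⁻ s in Ioc y₀ y, ENNReal.ofReal ((min (vv u0 g s) 1) ^ q / s) ≤
        ∫⁻ _ in Ioc y₀ y, ENNReal.ofReal (1 / y₀) := by
      refine setLIntegral_mono' measurableSet_Ioc fun s hs => ENNReal.ofReal_le_ofReal ?_
      have hs0 : 0 < s := hy₀.trans hs.1
      have h3 : 0 ≤ min (vv u0 g s) 1 := le_min (vv_nonneg hu1 g hs0.le) zero_le_one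
      have h4 : (min (vv u0 g s) 1) ^ q ≤ 1 := Real.rpow_le_one h3 (min_le_right _ _) hq
      exact div_le_div₀ zero_le_one h4 hy₀ hs.1.le
    refine ne_top_of_le_ne_top ?_ h2
    rw [setLIntegral_const]
    exact ENNReal.mul_ne_top ENNReal.ofReal_ne_top (by simp)

/-- `Ψ ≤ (min v 1)^q m^{-η}` -/
lemma Psi_le {q η : ℝ} (hu1 : ∀ z, 1 ≤ u0 z) {g : ℂ → ℂ} {y : ℝ} (hy : 0 < y) :
    Psi u0 q η g (y * I) = (min (vv u0 g y) 1) ^ q * mm u0 g (y * I) ^ (-η) := by
  have hu : 0 < u0 (g (y * I)) := lt_of_lt_of_le one_pos (hu1 _)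
  have hups : 0 ≤ KB1.ups g (y * I) := by
    unfold KB1.ups
    rw [im_yI]
    positivity
  have hm : 0 < mm u0 g (y * I) := lt_of_lt_of_le hu (le_max_right _ _)
  have hmin : min (vv u0 g y) 1 = KB1.ups g (y * I) / mm u0 g (y * I) := by
    unfold vv mm
    rcases le_total (KB1.ups g (y * I)) (u0 (g (y * I))) with h | h
    · rw [max_eq_right h, min_eq_left (div_le_one_of_le₀ h hu.le)]
    · rw [max_eq_left h, min_eq_right ((one_le_div hu).2 h), div_self (hu.trans_le h).ne']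
  rw [hmin, Real.div_rpow hups hm.le, Psi, sub_eq_add_neg, Real.rpow_add hm, Real.rpow_neg hm.le q]
  field_simp

/-- `Λ < ∞` from `J < ∞` and linear growth of `m` at infinity -/
theorem Lam_ne_top_of {q η : ℝ} (hq : 0 ≤ q) (hη : 0 < η) (hu1 : ∀ z, 1 ≤ u0 z) {g : ℂ → ℂ}
    (h : ∀ y, Jv u0 q g y ≠ ⊤) {c Y : ℝ} (hc : 0 < c) (hY : 0 < Y)
    (hm : ∀ y, Y ≤ y → c * y ≤ mm u0 g (y * I)) : Lam u0 q η g ≠ ⊤ := by
  have h1 : Lam u0 q η g ≤ (∫⁻ y in Ioc (0:ℝ) Y, ENNReal.ofReal (Psi u0 q η g (y * I) / y)) +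
      ∫⁻ y in Ioi Y, ENNReal.ofReal (Psi u0 q η g (y * I) / y) := by
    unfold Lam
    rw [← Ioc_union_Ioi_eq_Ioi hY.le]
    exact lintegral_union_le _ _ _
  refine ne_top_of_le_ne_top (ENNReal.add_ne_top.2 ⟨?_, ?_⟩) h1
  · refine ne_top_of_le_ne_top (h Y) ?_
    refine setLIntegral_mono' measurableSet_Ioc fun y hy => ENNReal.ofReal_le_ofReal ?_
    have hy0 : 0 < y := hy.1
    rw [Psi_le hu1 hy0]
    have hm1 : 1 ≤ mm u0 g (y * I) := (hu1 _).trans (le_max_right _ _)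
    have h2 : mm u0 g (y * I) ^ (-η) ≤ 1 := Real.rpow_le_one_of_one_le_of_nonpos hm1 (by linarith)
    have h3 : 0 ≤ (min (vv u0 g y) 1) ^ q :=
      Real.rpow_nonneg (le_min (vv_nonneg hu1 g hy0.le) zero_le_one) _
    have h4 : (min (vv u0 g y) 1) ^ q * mm u0 g (y * I) ^ (-η) ≤ (min (vv u0 g y) 1) ^ q :=
      mul_le_of_le_one_right h3 h2
    gcongr
  · have h2 : ∫⁻ y in Ioi Y, ENNReal.ofReal (Psi u0 q η g (y * I) / y) ≤
        ∫⁻ y in Ioi Y, ENNReal.ofReal (c ^ (-η) * y ^ (-η - 1)) := by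
      refine setLIntegral_mono' measurableSet_Ioi fun y hy => ENNReal.ofReal_le_ofReal ?_
      have hy0 : 0 < y := hY.trans hy
      rw [Psi_le hu1 hy0]
      have hcy : 0 < c * y := by positivity
      have h3 : 0 ≤ min (vv u0 g y) 1 := le_min (vv_nonneg hu1 g hy0.le) zero_le_one
      have h4 : (min (vv u0 g y) 1) ^ q ≤ 1 := Real.rpow_le_one h3 (min_le_right _ _) hq
      have h5 : mm u0 g (y * I) ^ (-η) ≤ (c * y) ^ (-η) :=
        Real.rpow_le_rpow_of_nonpos hcy (hm y (le_of_lt hy)) (by linarith)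
      have hmp : 0 < mm u0 g (y * I) := hcy.trans_le (hm y (le_of_lt hy))
      rw [Real.rpow_sub_one hy0.ne', ← mul_div_assoc, ← Real.mul_rpow hc.le hy0.le]
      gcongr
      calc (min (vv u0 g y) 1) ^ q * mm u0 g (y * I) ^ (-η) ≤ 1 * mm u0 g (y * I) ^ (-η) := by
            gcongr
        _ ≤ (c * y) ^ (-η) := by rw [one_mul]; exact h5
    refine ne_top_of_le_ne_top ?_ h2
    have h3 : IntegrableOn (fun y : ℝ => c ^ (-η) * y ^ (-η - 1)) (Ioi Y) :=
      (integrableOn_Ioi_rpow_of_lt (by linarith) hY).const_mul _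
    exact h3.lintegral_lt_top.ne

/-! ### the start maps -/

lemma tendsto_vv_congr {g : ℂ → ℂ} (h : EqOn f g {z : ℂ | 0 < z.im})
    (hv : Tendsto (vv u0 f) atTop (𝓝 1)) : Tendsto (vv u0 g) atTop (𝓝 1) := by
  refine hv.congr' ?_
  filter_upwards [eventually_gt_atTop 0] with y hy
  exact vv_congr h hy

/-- deterministic form of `LBsS` -/
theorem start_comp {p : Par} {CV cJ : ℝ} (hp : Ok p) (h1 : LB1S CV cJ p) (hf : Start p f)
    (hW : Drive W) (hJ : Jv p.u0 p.q (Par.st f W (p.T f W)) (10 * rad W (p.T f W)) ≠ ⊤) :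
    Start p (Par.st f W (p.T f W)) := by
  have hT := T_nonneg p f W
  have hu1 := hp.adm.one_le
  have hJ' : ∀ y, Jv p.u0 p.q (Par.st f W (p.T f W)) y ≠ ⊤ := by
    rcases hT.eq_or_lt with h0 | h0
    · have hE : EqOn f (Par.st f W (p.T f W)) {z : ℂ | 0 < z.im} := by
        intro z hz
        have h3 := norm_ffl_sub_le hW.cont le_rfl hz
        simp only [mul_zero, zero_div, hW.zero, Complex.ofReal_zero, add_zero] at h3
        have h4 : ffl W 0 z = z := sub_eq_zero.1 (norm_le_zero_iff.1 h3)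
        rw [← h0, Par.st, Function.comp_apply, h4]
      intro y
      rw [← Jv_congr hE]
      exact hf.J_ne_top y
    · refine Jv_ne_top_of hp.q0.le hu1 ?_ hJ
      have := sqrt_le_rad W (p.T f W)
      have := Real.sqrt_pos.2 h0
      linarith
  refine ⟨⟨differentiableOn_comp hW.cont hT hf.univ.diff, injOn_comp hW.cont hT hf.univ.inj⟩,
    tendsto_vv_comp hW.cont hT hf.univ.diff hf.univ.inj hp.adm.lip hu1 hf.v_tendsto, ?_, hJ'⟩
  have h2 := h1 f hf W hW
  refine ne_top_of_le_ne_top ?_ (le_self_add.trans h2)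
  refine ENNReal.add_ne_top.2 ⟨hf.lam, ENNReal.mul_ne_top ENNReal.ofReal_ne_top ?_⟩
  exact ENNReal.add_ne_top.2 ⟨ENNReal.one_ne_top, hJ⟩

lemma measurable_expE : Measurable expE := by
  unfold expE
  refine Measurable.ite (measurableSet_singleton _) measurable_const ?_
  exact (Real.measurable_exp.comp ENNReal.measurable_toReal).ennreal_ofReal

lemma ne_top_of_expE {x : ℝ≥0∞} (h : expE x < ⊤) : x ≠ ⊤ := by
  rintro rfl
  simp [expE] at h

lemma drive_driving {Ω : Type*} {m : MeasurableSpace Ω} {F : Filtration ℝ≥0 m}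
    {B : ℝ≥0 → Ω → ℝ} {P : Measure Ω} (hB : IsBM F B P) (κ : ℝ) (ω : Ω) :
    Drive (driving κ B ω) := by
  refine ⟨?_, ?_⟩
  · refine Continuous.continuousOn ?_
    exact continuous_const.mul ((hB.cont ω).comp continuous_real_toNNReal)
  · simp [driving, hB.zero]

/-- `LBsS` from LB1, LB2c and measurability of `ω ↦ J_T(10 ρ_T)` -/
theorem lbsS {p : Par} {CV cJ CZ cmax : ℝ} (hp : Ok p) (h1 : LB1S CV cJ p)
    (h2 : LB2cS.{u} CZ cmax p) (hc : 0 < cmax)
    (hm : ForBM.{u} p fun f _ _ P B => AEMeasurable (fun ω =>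
      Jv p.u0 p.q (Par.st f (driving p.κ B ω) (p.T f (driving p.κ B ω)))
        (10 * rad (driving p.κ B ω) (p.T f (driving p.κ B ω)))) P) : LBsS.{u} p := by
  intro Ω _ P _ F B hB f hf
  have h3 := h2 Ω P F B hB f hf cmax hc le_rfl
  have h4 := hm Ω P F B hB f hf
  have h5 : AEMeasurable (fun ω => expE (ENNReal.ofReal cmax *
      Jv p.u0 p.q (Par.st f (driving p.κ B ω) (p.T f (driving p.κ B ω)))
        (10 * rad (driving p.κ B ω) (p.T f (driving p.κ B ω))))) P :=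
    measurable_expE.comp_aemeasurable (h4.const_mul _)
  have h6 := ae_lt_top' h5 (ne_top_of_le_ne_top ENNReal.ofReal_ne_top h3)
  filter_upwards [h6] with ω hω
  refine start_comp hp h1 hf (drive_driving hB p.κ ω) ?_
  intro htop
  have := ne_top_of_expE hω
  rw [htop, ENNReal.mul_top (by simpa using hc)] at this
  exact this rfl

/-! ### LBS0: the flow map itself -/

lemma uB_lip (w0 : ℂ) (R : ℝ) : LipschitzWith 1 (uB w0 R) := by
  unfold uB
  have h := (Metric.lipschitz_infDist_pt (Metric.closedBall w0 R)).const_max 1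
  simpa using h

lemma uB_one_le (w0 : ℂ) (R : ℝ) (z : ℂ) : 1 ≤ uB w0 R z := le_max_left _ _

lemma le_uB {w0 : ℂ} {R : ℝ} (hR : 0 ≤ R) (z : ℂ) : ‖z‖ - ‖w0‖ - R ≤ uB w0 R z := by
  refine le_trans ?_ (le_max_right _ _)
  rw [Metric.le_infDist (Metric.nonempty_closedBall.2 hR)]
  intro v hv
  have h1 : ‖z‖ ≤ ‖z - v‖ + ‖v - w0‖ + ‖w0‖ := by
    calc ‖z‖ = ‖(z - v) + (v - w0) + w0‖ := by ring_nf
      _ ≤ _ := norm_add₃_le
  rw [Metric.mem_closedBall, dist_eq_norm] at hv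
  rw [dist_eq_norm]
  linarith

lemma uB_le {w0 : ℂ} {R : ℝ} (hR : 0 ≤ R) (z : ℂ) : uB w0 R z ≤ ‖z‖ + ‖w0‖ + 1 := by
  refine max_le (by have := norm_nonneg z; have := norm_nonneg w0; linarith) ?_
  refine (Metric.infDist_le_dist_of_mem (Metric.mem_closedBall_self hR)).trans ?_
  rw [dist_eq_norm]
  have := norm_sub_le z w0
  linarith

lemma tendsto_vv_id {w0 : ℂ} {R : ℝ} (hR : 0 ≤ R) : Tendsto (vv (uB w0 R) id) atTop (𝓝 1) := by
  have e : ∀ y : ℝ, vv (uB w0 R) id y = y / uB w0 R (y * I) := by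
    intro y
    simp [vv, KB1.ups]
  have h1 : Tendsto (fun y : ℝ => uB w0 R (y * I) / y) atTop (𝓝 1) := by
    have h2 : Tendsto (fun y : ℝ => 1 - (‖w0‖ + R) / y) atTop (𝓝 1) := by
      simpa using (tendsto_const_nhds (x := (1:ℝ))).sub
        ((tendsto_const_nhds (x := ‖w0‖ + R)).div_atTop tendsto_id)
    have h3 : Tendsto (fun y : ℝ => 1 + (‖w0‖ + 1) / y) atTop (𝓝 1) := by
      simpa using (tendsto_const_nhds (x := (1:ℝ))).add
        ((tendsto_const_nhds (x := ‖w0‖ + 1)).div_atTop tendsto_id)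
    refine tendsto_of_tendsto_of_tendsto_of_le_of_le' h2 h3 ?_ ?_
    · filter_upwards [eventually_gt_atTop 0] with y hy
      have h4 := le_uB (w0 := w0) hR ((y : ℂ) * I)
      have h5 : ‖(y : ℂ) * I‖ = y := by simp [abs_of_pos hy]
      rw [h5] at h4
      rw [le_div_iff₀ hy, sub_mul, div_mul_cancel₀ _ hy.ne']
      linarith
    · filter_upwards [eventually_gt_atTop 0] with y hy
      have h4 := uB_le (w0 := w0) hR ((y : ℂ) * I)
      have h5 : ‖(y : ℂ) * I‖ = y := by simp [abs_of_pos hy]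
      rw [h5] at h4
      rw [div_le_iff₀ hy, add_mul, div_mul_cancel₀ _ hy.ne']
      linarith
  have h2 := h1.inv₀ one_ne_zero
  rw [inv_one] at h2
  refine h2.congr fun y => ?_
  rw [e, inv_div]

/-- `v → 1` for the flow map -/
theorem tendsto_vv_ffl {w0 : ℂ} {R : ℝ} (hR : 0 ≤ R) (hW : ContinuousOn W (Ici 0)) (ht : 0 ≤ t) :
    Tendsto (vv (uB w0 R) (ffl W t)) atTop (𝓝 1) := by
  have := tendsto_vv_comp (f := id) hW ht differentiableOn_id (injOn_id _) (uB_lip w0 R)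
    (uB_one_le w0 R) (tendsto_vv_id hR)
  rwa [Function.id_comp] at this

/-- `Λ(f_t) < ∞` from `J < ∞` -/
theorem Lam_ffl_ne_top {w0 : ℂ} {R q η : ℝ} (hq : 0 ≤ q) (hη : 0 < η)
    (hW : ContinuousOn W (Ici 0)) (ht : 0 ≤ t)
    (hJ : ∀ y, Jv (uB w0 R) q (ffl W t) y ≠ ⊤) : Lam (uB w0 R) q η (ffl W t) ≠ ⊤ := by
  have h1 := tendsto_norm_deriv_axis hW ht
  have h2 : ∀ᶠ y : ℝ in atTop, (1:ℝ) / 2 < ‖deriv (ffl W t) (y * I)‖ :=
    h1.eventually (lt_mem_nhds (by norm_num))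
  obtain ⟨Y, hY⟩ := eventually_atTop.1 h2
  refine Lam_ne_top_of hq hη (uB_one_le w0 R) hJ (c := 1 / 2) (Y := max Y 1) (by norm_num)
    (lt_of_lt_of_le one_pos (le_max_right _ _)) ?_
  intro y hy
  have hy1 : 1 ≤ y := (le_max_right _ _).trans hy
  have h3 := hY y ((le_max_left _ _).trans hy)
  refine le_trans ?_ (le_max_left _ _)
  rw [KB1.ups, im_yI]
  nlinarith

/-- LBS0 -/
theorem start_ffl {p : Par} {w0 : ℂ} {R : ℝ} (hR : 0 ≤ R) (hu : p.u0 = uB w0 R) (hq : 0 ≤ p.q)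
    (hη : 0 < p.η) (hW : ContinuousOn W (Ici 0)) (ht : 0 ≤ t)
    (hJ : ∀ y, Jv (uB w0 R) p.q (ffl W t) y ≠ ⊤) : Start p (ffl W t) := by
  refine ⟨⟨differentiableOn_ffl hW ht, injOn_ffl hW ht⟩, ?_, ?_, ?_⟩
  · rw [hu]; exact tendsto_vv_ffl hR hW ht
  · show Lam p.u0 p.q p.η (ffl W t) ≠ ⊤
    rw [hu]; exact Lam_ffl_ne_top hq hη hW ht hJ
  · rw [hu]; exact hJ

end Crest.Agent.R162.LBStartF
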