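import Crest.Agent.R162.LBStepIn2
import Crest.Agent.R162.LB5b
import Crest.Agent.R162.LB2c

/-!
Row 162, node STEP (helper561): the STEP THEOREM `StepIn2 → StepAll`.
-/

set_option autoImplicit false

open MeasureTheory ProbabilityTheory Filter Topology Set Complex
open scoped NNReal ENNReal
open Crest.ProbabilityR.Loewner

namespace Crest.Agent.R162.LBStep

open Crest.Agent.R162.FL Crest.Agent.R162.OS Crest.Agent.R162.LB Crest.Agent.R162.LBS
open Crest.Agent.R162.LBI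

universe u

/-- a measurable majorant of a `[0,∞]`-valued function with exponential (outer) tails -/
theorem exists_majorant {Ω : Type*} [MeasurableSpace Ω] (P : Measure Ω) [IsProbabilityMeasure P]
    (Z : Ω → ℝ≥0∞) {a D : ℝ} (ha : 0 < a) (hD : 0 ≤ D)
    (htail : ∀ n : ℕ, P {ω | ENNReal.ofReal n < Z ω} ≤ ENNReal.ofReal (D * Real.exp (-(a * n)))) :
    ∃ Zb : Ω → ℝ, Measurable Zb ∧ (∀ᵐ ω ∂P, Z ω ≤ ENNReal.ofReal (Zb ω)) ∧ (∀ ω, 0 ≤ Zb ω) ∧
      ∀ c : ℝ, 0 ≤ c → c ≤ a / 2 → ∫⁻ ω, ENNReal.ofReal (Real.exp (c * Zb ω)) ∂P ≤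
        ENNReal.ofReal (1 + Real.exp (a / 2) * D / (1 - Real.exp (-(a / 2))) * c) := by
  classical
  set M : ℕ → Set Ω := fun n => ⋂ m ∈ Finset.range (n + 1),
    toMeasurable P {ω | ENNReal.ofReal m < Z ω} with hM
  have hMm : ∀ n, MeasurableSet (M n) := fun n =>
    Finset.measurableSet_biInter _ fun m _ => measurableSet_toMeasurable _ _
  have hMsub : ∀ n : ℕ, {ω | ENNReal.ofReal (n : ℝ) < Z ω} ⊆ M n := by
    intro n ω hω
    simp only [hM, mem_iInter, Finset.mem_range]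
    intro m hm
    apply subset_toMeasurable
    have h1 : ENNReal.ofReal (m : ℝ) ≤ ENNReal.ofReal (n : ℝ) := by
      apply ENNReal.ofReal_le_ofReal
      exact_mod_cast Nat.lt_succ_iff.1 hm
    exact lt_of_le_of_lt h1 hω
  have hMP : ∀ n, P (M n) ≤ ENNReal.ofReal (D * Real.exp (-(a * n))) := by
    intro n
    refine le_trans (measure_mono ?_) ((measure_toMeasurable _).trans_le (htail n))
    intro ω hω
    simp only [hM, mem_iInter, Finset.mem_range] at hω
    exact hω n (Nat.lt_succ_self n)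
  have hMant : ∀ m n, m ≤ n → M n ⊆ M m := by
    intro m n hmn ω hω
    simp only [hM, mem_iInter, Finset.mem_range] at hω ⊢
    intro k hk
    exact hω k (by omega)
  set T : Ω → ℝ≥0∞ := fun ω => ∑' n : ℕ, (M n).indicator (fun _ => (1 : ℝ≥0∞)) ω with hT
  have hTm : Measurable T :=
    Measurable.tsum fun n => measurable_const.indicator (hMm n)
  -- `T ω > n → ω ∈ M n`
  have hTn : ∀ (n : ℕ) (ω : Ω), (n : ℝ≥0∞) < T ω → ω ∈ M n := by
    intro n ω h
    by_contra hn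
    have hz : ∀ k, k ∉ Finset.range n → (M k).indicator (fun _ => (1 : ℝ≥0∞)) ω = 0 := by
      intro k hk
      rw [Finset.mem_range, not_lt] at hk
      exact indicator_of_notMem (fun h' => hn (hMant n k hk h')) _
    have hle : T ω ≤ n := by
      simp only [hT]
      rw [tsum_eq_sum hz]
      calc ∑ k ∈ Finset.range n, (M k).indicator (fun _ => (1 : ℝ≥0∞)) ω
          ≤ ∑ k ∈ Finset.range n, (1 : ℝ≥0∞) :=
            Finset.sum_le_sum fun k _ => indicator_le_self' (fun _ _ => zero_le_one) _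
        _ = n := by simp
    exact absurd h (not_lt.2 hle)
  have hZT : ∀ ω, Z ω ≤ T ω := by
    intro ω
    by_contra hcon
    rw [not_le] at hcon
    -- T ω < Z ω, T ω finite
    have hfin : T ω ≠ ⊤ := ne_top_of_lt hcon
    set N := ⌊(T ω).toReal⌋₊ with hN
    have h1 : ∀ k ≤ N, ω ∈ M k := by
      intro k hk
      apply hMsub
      show ENNReal.ofReal (k : ℝ) < Z ω
      refine lt_of_le_of_lt ?_ hcon
      rw [← ENNReal.ofReal_toReal hfin]
      apply ENNReal.ofReal_le_ofReal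
      calc (k : ℝ) ≤ N := by exact_mod_cast hk
        _ ≤ _ := Nat.floor_le ENNReal.toReal_nonneg
    have h2 : ((N + 1 : ℕ) : ℝ≥0∞) ≤ T ω := by
      simp only [hT]
      calc ((N + 1 : ℕ) : ℝ≥0∞) = ∑ k ∈ Finset.range (N + 1), (1 : ℝ≥0∞) := by simp
        _ = ∑ k ∈ Finset.range (N + 1), (M k).indicator (fun _ => (1 : ℝ≥0∞)) ω := by
            refine Finset.sum_congr rfl fun k hk => ?_
            rw [indicator_of_mem (h1 k (Nat.lt_succ_iff.1 (Finset.mem_range.1 hk)))]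
        _ ≤ _ := ENNReal.sum_le_tsum _
    have h3 : ((N + 1 : ℕ) : ℝ) ≤ (T ω).toReal := by
      have := ENNReal.toReal_mono hfin h2
      rwa [ENNReal.toReal_natCast] at this
    have h4 := Nat.lt_floor_add_one (T ω).toReal
    rw [← hN] at h4
    push_cast at h3
    linarith
  have hTtop : ∀ᵐ ω ∂P, T ω ≠ ⊤ := by
    rw [ae_iff]
    simp only [not_not]
    have hle : ∀ n : ℕ, P {ω | T ω = ⊤} ≤ ENNReal.ofReal (D * Real.exp (-(a * n))) := by
      intro n
      refine le_trans (measure_mono ?_) (hMP n)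
      intro ω hω
      apply hTn
      rw [mem_ofPred_eq] at hω
      rw [hω]
      exact ENNReal.natCast_lt_top n
    have hlim : Tendsto (fun n : ℕ => ENNReal.ofReal (D * Real.exp (-(a * n)))) atTop (𝓝 0) := by
      rw [← ENNReal.ofReal_zero]
      apply ENNReal.tendsto_ofReal
      have h1 : Tendsto (fun n : ℕ => a * (n : ℝ)) atTop atTop :=
        tendsto_natCast_atTop_atTop.const_mul_atTop ha
      have h2 := (Real.tendsto_exp_neg_atTop_nhds_zero.comp h1).const_mul D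
      simpa using h2
    exact le_antisymm (ge_of_tendsto' hlim hle) bot_le
  refine ⟨fun ω => (T ω).toReal, hTm.ennreal_toReal, ?_, fun ω => ENNReal.toReal_nonneg, ?_⟩
  · filter_upwards [hTtop] with ω h
    rw [ENNReal.ofReal_toReal h]
    exact hZT ω
  · intro c hc hca
    refine LB2c.exp_moment_tail P (fun ω => (T ω).toReal) ha hD (fun n => ?_) hc hca
    refine le_trans (measure_mono ?_) (hMP n)
    intro ω hω
    rw [mem_ofPred_eq] at hω
    apply hTn
    by_contra hcon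
    rw [not_lt] at hcon
    have := ENNReal.toReal_mono (by simp) hcon
    simp only [ENNReal.toReal_natCast] at this
    linarith

theorem varpi_pos {p : Par} (hA : p.Adm) (f : ℂ → ℂ) : 0 < p.varpi f := by
  unfold Par.varpi
  have := hA.one_le (p.x f)
  positivity

theorem varpi_le_one {p : Par} (hA : p.Adm) (hη : 0 ≤ p.η) (f : ℂ → ℂ) : p.varpi f ≤ 1 := by
  unfold Par.varpi
  exact Real.rpow_le_one_of_one_le_of_nonpos (hA.one_le _) (by linarith)

theorem driving_drive {Ω : Type*} {m : MeasurableSpace Ω} {P : Measure Ω}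
    {F : Filtration ℝ≥0 m} {B : ℝ≥0 → Ω → ℝ} (hB : IsBM F B P) (κ : ℝ) (ω : Ω) :
    Drive (driving κ B ω) := by
  constructor
  · have h := hB.cont ω
    have : Continuous (driving κ B ω) := by
      unfold driving
      exact continuous_const.mul (h.comp continuous_real_toNNReal)
    exact this.continuousOn
  · unfold driving
    simp [hB.zero ω]

/-- complement of the measurable hull of a set of small outer measure -/
theorem hull_compl {Ω : Type*} [MeasurableSpace Ω] {P : Measure Ω} [IsProbabilityMeasure P]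
    {S : Set Ω} {e : ℝ} (he : P S ≤ ENNReal.ofReal e) (he0 : 0 ≤ e) :
    MeasurableSet (toMeasurable P S)ᶜ ∧ ENNReal.ofReal (1 - e) ≤ P (toMeasurable P S)ᶜ ∧
      ∀ ω ∈ (toMeasurable P S)ᶜ, ω ∉ S := by
  have hm := measurableSet_toMeasurable P S
  refine ⟨hm.compl, ?_, fun ω hω h => hω (subset_toMeasurable P S h)⟩
  rw [prob_compl_eq_one_sub hm, measure_toMeasurable, ENNReal.ofReal_sub _ he0, ENNReal.ofReal_one]
  exact tsub_le_tsub_left he 1

theorem lin_toReal {A B : ℝ≥0∞} {r : ℝ} (hr : 0 ≤ r) (h : A + ENNReal.ofReal r ≤ B)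
    (hB : B ≠ ⊤) : A.toReal + r ≤ B.toReal := by
  have hA : A ≠ ⊤ := ne_top_of_le_ne_top hB (le_self_add.trans h)
  have := ENNReal.toReal_mono hB h
  rwa [ENNReal.toReal_add hA ENNReal.ofReal_ne_top, ENNReal.toReal_ofReal hr] at this

/-- the step inequality for one admissible parameter set -/
theorem step_one {p : Par} (hOk : Ok p) {p0 CV cJ D a cθ K5 e c c0 δ : ℝ}
    (hp0 : 0 < p0) (hp1 : p0 ≤ 1) (hCV : 0 ≤ CV) (hcJ : 0 < cJ) (hD : 0 ≤ D) (ha : 0 < a)
    (hcθ : 0 < cθ) (hK5 : 0 ≤ K5) (he : 0 < e) (he8 : e ≤ 1 / 8) (hep : e ≤ p0 / 2)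
    (hgood : Good p0 CV (Real.exp (a / 2) * D / (1 - Real.exp (-(a / 2))) * CV) cJ p.K3 cθ K5 c c0 δ)
    (hcmax : 2 * c * (CV + 1) ≤ a / 2)
    (h1 : LB1S CV cJ p) (hZ : ZtS.{u} D a p) (hr : LBrS.{u} e p) (h4 : LB4M.{u} p0 cθ p)
    (hc : LBcS K5 p) (hA : AmonoS p) (hJ : JBS p) : StepS.{u} c0 c δ p := by
  classical
  intro Ω _ P _ F B hB f hf
  set W : Ω → ℝ → ℝ := fun ω => driving p.κ B ω with hWdef
  set T : Ω → ℝ := fun ω => p.T f (W ω) with hTdef
  have hdrive : ∀ ω, Drive (W ω) := fun ω => driving_drive hB p.κ ω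
  have hw0 := varpi_pos hOk.adm f
  have hw1 := varpi_le_one hOk.adm hOk.η0.le f
  set w : ℝ := p.varpi f with hwdef
  -- trivial case
  have hpow : 0 < (1 - δ) ^ w := Real.rpow_pos_of_pos (by linarith [hgood.hδ1]) _
  by_cases hAf : p.A f = ⊤
  · have : ENNReal.ofReal ((1 - δ) ^ w) * expE (ENNReal.ofReal c * p.Λ f + p.A f) = ⊤ := by
      rw [hAf, add_top]
      unfold expE
      rw [if_pos rfl, ENNReal.mul_top]
      exact (ENNReal.ofReal_pos.2 hpow).ne'
    rw [this]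
    exact le_top
  have hΛf : p.Λ f ≠ ⊤ := hf.lam
  obtain ⟨Zb, hZbm, hZb, hZb0, hZbexp⟩ := exists_majorant P
    (fun ω => Jv p.u0 p.q (Par.st f (W ω) (T ω)) (10 * rad (W ω) (T ω))) ha hD
    (hZ Ω P F B hB f hf)
  set ΛT : Ω → ℝ≥0∞ := fun ω => p.Λ (Par.st f (W ω) (T ω)) with hΛT
  set AT : Ω → ℝ≥0∞ := fun ω => p.A (Par.st f (W ω) (T ω)) with hAT
  set CT : Ω → ℝ≥0∞ := fun ω => p.cont f (W ω) (Ioc 0 (T ω)) with hCT
  set dL : Ω → ℝ := fun ω => (ΛT ω).toReal - (p.Λ f).toReal with hdL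
  set dA : Ω → ℝ := fun ω => (AT ω).toReal - (p.A f).toReal with hdA
  have hATfin : ∀ ω, AT ω ≠ ⊤ := fun ω => ne_top_of_le_ne_top hAf (hA f hf (W ω) (hdrive ω))
  have hCTle : ∀ ω, CT ω ≤ ENNReal.ofReal (K5 * w) := fun ω => hc f hf (W ω) (hdrive ω)
  have hCTfin : ∀ ω, CT ω ≠ ⊤ := fun ω => ne_top_of_le_ne_top ENNReal.ofReal_ne_top (hCTle ω)
  -- LB1 in real form
  have hL : ∀ᵐ ω ∂P, ΛT ω ≠ ⊤ ∧ ∀ r : ℝ, 0 ≤ r → ENNReal.ofReal r ≤
      Jv p.u0 p.q f (10 * rad (W ω) (T ω)) → dL ω ≤ w * (CV + CV * Zb ω - cJ * r) := by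
    filter_upwards [hZb] with ω hω
    have hb := h1 f hf (W ω) (hdrive ω)
    have hR : p.Λ f + ENNReal.ofReal (CV * w) *
        (1 + Jv p.u0 p.q (Par.st f (W ω) (T ω)) (10 * rad (W ω) (T ω))) ≤
        p.Λ f + ENNReal.ofReal (w * (CV + CV * Zb ω)) := by
      gcongr
      calc ENNReal.ofReal (CV * w) *
            (1 + Jv p.u0 p.q (Par.st f (W ω) (T ω)) (10 * rad (W ω) (T ω)))
          ≤ ENNReal.ofReal (CV * w) * (1 + ENNReal.ofReal (Zb ω)) := by gcongr
        _ = ENNReal.ofReal (CV * w) * ENNReal.ofReal (1 + Zb ω) := by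
            rw [ENNReal.ofReal_add zero_le_one (hZb0 ω), ENNReal.ofReal_one]
        _ = ENNReal.ofReal (w * (CV + CV * Zb ω)) := by
            rw [← ENNReal.ofReal_mul (by positivity)]
            congr 1; ring
    have hfin : p.Λ f + ENNReal.ofReal (w * (CV + CV * Zb ω)) ≠ ⊤ :=
      ENNReal.add_ne_top.2 ⟨hΛf, ENNReal.ofReal_ne_top⟩
    have hΛTfin : ΛT ω ≠ ⊤ := ne_top_of_le_ne_top hfin ((le_self_add.trans hb).trans hR)
    refine ⟨hΛTfin, fun r hr0 hrJ => ?_⟩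
    have h2 : ΛT ω + ENNReal.ofReal (cJ * w * r) ≤
        p.Λ f + ENNReal.ofReal (w * (CV + CV * Zb ω)) := by
      refine le_trans ?_ (hb.trans hR)
      gcongr
      rw [ENNReal.ofReal_mul (by positivity : 0 ≤ cJ * w)]
      gcongr
    have h3 := lin_toReal (by positivity : 0 ≤ cJ * w * r) h2 hfin
    have hZ0 := hZb0 ω
    rw [ENNReal.toReal_add hΛf ENNReal.ofReal_ne_top,
      ENNReal.toReal_ofReal (by positivity)] at h3
    simp only [hdL]
    nlinarith [h3]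
  -- the exceptional set
  obtain ⟨hE1, hE2, hE3⟩ := hull_compl (hr Ω P F B hB f hf) he.le
  set G : Set Ω := (toMeasurable P {ω | rad (driving p.κ B ω) (p.T f (driving p.κ B ω)) ≠ p.rho1 f})ᶜ
    with hG
  have hGrad : ∀ ω ∈ G, rad (W ω) (T ω) = p.rho1 f := by
    intro ω hω
    have := hE3 ω hω
    simpa using this
  have hden : 0 < 1 - Real.exp (-(a / 2)) := by
    have : Real.exp (-(a / 2)) < 1 := by rw [Real.exp_lt_one_iff]; linarith
    linarith
  have hstep := step_det (P := P) (p := p0) (CV := CV)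
    (CZ := Real.exp (a / 2) * D / (1 - Real.exp (-(a / 2))) * CV) (cJ := cJ) (K3 := p.K3)
    (cth := cθ) (K5 := K5) (c := c) (c0 := c0) (δ := δ) (cmax := 2 * c) hgood le_rfl hp0 hp1
    (by positivity) hcJ (by linarith [hOk.K3]) hcθ hw0 hw1
    (cont := fun ω => (CT ω).toReal) (Z := fun ω => CV * Zb ω) (dA := dA) (dL := dL)
    (hZbm.const_mul CV).aemeasurable
    (Eventually.of_forall fun ω => by
      have := ENNReal.toReal_mono ENNReal.ofReal_ne_top (hCTle ω)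
      rwa [ENNReal.toReal_ofReal (by positivity)] at this)
    (by
      filter_upwards [hL] with ω hω
      have := hω.2 0 le_rfl (by simp)
      linarith)
    (Eventually.of_forall fun ω => by
      have := ENNReal.toReal_mono hAf (hA f hf (W ω) (hdrive ω))
      simp only [hdA]
      linarith)
    (by
      intro c' hc' hc'2
      have h5 := hZbexp (c' * CV) (by positivity) (by
        have : c' * CV ≤ 2 * c * (CV + 1) := by nlinarith
        linarith)
      refine le_trans (le_of_eq ?_) (h5.trans (le_of_eq ?_))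
      · refine lintegral_congr fun ω => ?_
        congr 2; ring
      · congr 1; ring)
    (by
      by_cases hca : p.CaseA f
      · left
        obtain ⟨A, hAm, hAp, hAc⟩ := h4 Ω P F B hB f hf hca
        refine ⟨A ∩ G, hAm.inter hE1, ?_, ?_⟩
        · have h6 : P A ≤ P (A ∩ G) + P Gᶜ := by
            calc P A ≤ P ((A ∩ G) ∪ Gᶜ) := measure_mono fun ω hω => by
                  by_cases h : ω ∈ G
                  · exact Or.inl ⟨hω, h⟩
                  · exact Or.inr h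
              _ ≤ _ := measure_union_le _ _
          have h7 : P Gᶜ ≤ ENNReal.ofReal (p0 / 2) := by
            rw [hG, compl_compl, measure_toMeasurable]
            exact (hr Ω P F B hB f hf).trans (ENNReal.ofReal_le_ofReal hep)
          have h8 : ENNReal.ofReal p0 = ENNReal.ofReal (p0 / 2) + ENNReal.ofReal (p0 / 2) := by
            rw [← ENNReal.ofReal_add (by positivity) (by positivity)]; congr 1; ring
          have h9 : ENNReal.ofReal (p0 / 2) + ENNReal.ofReal (p0 / 2) ≤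
              P (A ∩ G) + ENNReal.ofReal (p0 / 2) := by
            rw [← h8]
            exact hAp.trans (h6.trans (by gcongr))
          exact (ENNReal.add_le_add_iff_right ENNReal.ofReal_ne_top).1 h9
        · refine Eventually.of_forall fun ω hω => ?_
          have h10 := hAc ω hω.1 (hGrad ω hω.2)
          have h11 := lin_toReal (by positivity : 0 ≤ cθ * w) h10 hAf
          simp only [hdA, hAT]
          linarith
      · right
        refine ⟨G, hE1, le_trans (ENNReal.ofReal_le_ofReal (by linarith)) hE2, ?_⟩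
        filter_upwards [hL] with ω hω hωG
        refine hω.2 p.K3 (by linarith [hOk.K3]) ?_
        rw [hGrad ω hωG]
        exact hJ f hf hca)
  -- conclusion
  set K : ℝ := c * (p.Λ f).toReal + (p.A f).toReal with hK
  have hexpE : expE (ENNReal.ofReal c * p.Λ f + p.A f) = ENNReal.ofReal (Real.exp K) := by
    have hne : ENNReal.ofReal c * p.Λ f + p.A f ≠ ⊤ :=
      ENNReal.add_ne_top.2 ⟨ENNReal.mul_ne_top ENNReal.ofReal_ne_top hΛf, hAf⟩
    unfold expE
    rw [if_neg hne, ENNReal.toReal_add (ENNReal.mul_ne_top ENNReal.ofReal_ne_top hΛf) hAf,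
      ENNReal.toReal_mul, ENNReal.toReal_ofReal hgood.hc.le]
  rw [hexpE]
  calc ∫⁻ ω, expE (ENNReal.ofReal c0 * CT ω + ENNReal.ofReal c * ΛT ω + AT ω) ∂P
      = ∫⁻ ω, ENNReal.ofReal (Real.exp (c0 * (CT ω).toReal + c * dL ω + dA ω)) *
          ENNReal.ofReal (Real.exp K) ∂P := by
        refine lintegral_congr_ae ?_
        filter_upwards [hL] with ω hω
        have hne : ENNReal.ofReal c0 * CT ω + ENNReal.ofReal c * ΛT ω + AT ω ≠ ⊤ := by
          refine ENNReal.add_ne_top.2 ⟨ENNReal.add_ne_top.2 ⟨?_, ?_⟩, hATfin ω⟩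
          · exact ENNReal.mul_ne_top ENNReal.ofReal_ne_top (hCTfin ω)
          · exact ENNReal.mul_ne_top ENNReal.ofReal_ne_top hω.1
        unfold expE
        rw [if_neg hne, ← ENNReal.ofReal_mul (Real.exp_pos _).le, ← Real.exp_add,
          ENNReal.toReal_add (ENNReal.add_ne_top.2
            ⟨ENNReal.mul_ne_top ENNReal.ofReal_ne_top (hCTfin ω),
              ENNReal.mul_ne_top ENNReal.ofReal_ne_top hω.1⟩) (hATfin ω),
          ENNReal.toReal_add (ENNReal.mul_ne_top ENNReal.ofReal_ne_top (hCTfin ω))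
            (ENNReal.mul_ne_top ENNReal.ofReal_ne_top hω.1),
          ENNReal.toReal_mul, ENNReal.toReal_mul, ENNReal.toReal_ofReal hgood.hc0.le,
          ENNReal.toReal_ofReal hgood.hc.le]
        congr 2
        simp only [hdL, hdA, hK]
        ring
    _ = (∫⁻ ω, ENNReal.ofReal (Real.exp (c0 * (CT ω).toReal + c * dL ω + dA ω)) ∂P) *
          ENNReal.ofReal (Real.exp K) := lintegral_mul_const' _ _ ENNReal.ofReal_ne_top
    _ ≤ _ := by gcongr

/-- **STEP THEOREM**: all constants. -/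
theorem stepAll_of {κ c1 : ℝ} (h : StepIn2.{u} κ c1) : StepAll.{u} κ c1 := by
  obtain ⟨p0, K4, cs, q, η, hp0, hp1, hK4, hcs, hq, hη, hqη, CV, cJ, D, a, hCV, hcJ, hD, ha, h⟩ := h
  have hden : 0 < 1 - Real.exp (-(a / 2)) := by
    have : Real.exp (-(a / 2)) < 1 := by rw [Real.exp_lt_one_iff]; linarith
    linarith
  set CZ : ℝ := Real.exp (a / 2) * D / (1 - Real.exp (-(a / 2))) * CV with hCZ
  have hCZ0 : 0 ≤ CZ := by positivity
  obtain ⟨K30, hK30, hcon⟩ := consts hp0 hp1 hCV hCZ0 hcJ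
    (by positivity : 0 < a / (2 * (CV + 1)))
  set K3 : ℝ := max K30 1 with hK3
  obtain ⟨⟨θ1, hθ1, g1⟩, ⟨θ2, hθ2, g2⟩, g3, ⟨θ4, hθ4, g4⟩, ⟨θ5, hθ5, g5⟩, ⟨θ6, hθ6, g6⟩,
    ⟨θ7, hθ7, g7⟩, ⟨θ8, hθ8, g8⟩⟩ := h K3 (le_max_right _ _)
  set e : ℝ := min (1 / 8) (p0 / 2) with hedef
  have he : 0 < e := lt_min (by norm_num) (by linarith)
  obtain ⟨θ3, hθ3, g3⟩ := g3 e he
  set θ : ℝ := min (1 / 4) (min θ1 (min θ2 (min θ3 (min θ4 (min θ5 (min θ6 (min θ7 θ8)))))))
    with hθdef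
  have hθ : 0 < θ := by
    simp only [hθdef, lt_min_iff]
    exact ⟨by norm_num, hθ1, hθ2, hθ3, hθ4, hθ5, hθ6, hθ7, hθ8⟩
  have hall : θ ≤ 1 / 4 ∧ θ ≤ θ1 ∧ θ ≤ θ2 ∧ θ ≤ θ3 ∧ θ ≤ θ4 ∧ θ ≤ θ5 ∧ θ ≤ θ6 ∧ θ ≤ θ7 ∧ θ ≤ θ8 := by
    have : θ ≤ min (1 / 4) (min θ1 (min θ2 (min θ3 (min θ4 (min θ5 (min θ6 (min θ7 θ8))))))) :=
      le_rfl
    simpa only [le_min_iff] using this
  obtain ⟨l0, l1, l2, l3, l4, l5, l6, l7, l8⟩ := hall
  obtain ⟨ε1, hε1, g1⟩ := g1 θ hθ l1
  obtain ⟨ε2, hε2, g2⟩ := g2 θ hθ l2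
  obtain ⟨ε3, hε3, g3⟩ := g3 θ hθ l3
  obtain ⟨cθ, hcθ, ε4, hε4, g4⟩ := g4 θ hθ l4
  obtain ⟨K5, hK5, ε5, hε5, g5⟩ := g5 θ hθ l5
  obtain ⟨ε6, hε6, g6⟩ := g6 θ hθ l6
  obtain ⟨ε7, hε7, g7⟩ := g7 θ hθ l7
  obtain ⟨ε8, hε8, g8⟩ := g8 θ hθ l8
  obtain ⟨c, c0, δ, hcmax, hgood⟩ := hcon K3 (le_max_left _ _) cθ hcθ K5 hK5
  set ε₀ : ℝ := min ε1 (min ε2 (min ε3 (min ε4 (min ε5 (min ε6 (min ε7 ε8)))))) with hε₀
  have hε₀pos : 0 < ε₀ := by
    simp only [hε₀, lt_min_iff]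
    exact ⟨hε1, hε2, hε3, hε4, hε5, hε6, hε7, hε8⟩
  have heall : ε₀ ≤ ε1 ∧ ε₀ ≤ ε2 ∧ ε₀ ≤ ε3 ∧ ε₀ ≤ ε4 ∧ ε₀ ≤ ε5 ∧ ε₀ ≤ ε6 ∧ ε₀ ≤ ε7 ∧ ε₀ ≤ ε8 := by
    have : ε₀ ≤ min ε1 (min ε2 (min ε3 (min ε4 (min ε5 (min ε6 (min ε7 ε8)))))) := le_rfl
    simpa only [le_min_iff] using this
  obtain ⟨e1, e2, e3, e4, e5, e6, e7, e8⟩ := heall
  refine ⟨q, η, θ, K3, K4, cs, c0, c, δ, ε₀, hq, hη, hqη, hθ, by linarith, le_max_right _ _, hK4,
    hcs, hgood.hc0, hgood.hc, hgood.hδ0, hgood.hδ1, hε₀pos, ?_⟩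
  intro B u0 ε hε hεle hOk
  refine ⟨?_, g6 ε hε (hεle.trans e6) B u0 hOk⟩
  have hcm : 2 * c * (CV + 1) ≤ a / 2 := by
    rw [le_div_iff₀ (by positivity)] at hcmax
    linarith
  exact step_one hOk hp0 hp1 hCV hcJ hD ha hcθ hK5 he (min_le_left _ _) (min_le_right _ _)
    hgood hcm (g1 ε hε (hεle.trans e1) B u0 hOk) (g2 ε hε (hεle.trans e2) B u0 hOk)
    (g3 ε hε (hεle.trans e3) B u0 hOk) (g4 ε hε (hεle.trans e4) B u0 hOk)
    (g5 ε hε (hεle.trans e5) B u0 hOk) (g7 ε hε (hεle.trans e7) B u0 hOk)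
    (g8 ε hε (hεle.trans e8) B u0 hOk)

end Crest.Agent.R162.LBStep
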