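import Crest.Agent.R162.LB5

/-!
Row 162, node LB-STEPGLUE (helper561), part 0: the step inequality `LBI.step` for the trivial
sigma-algebra (a FIXED map `f`, fresh path), with almost-sure hypotheses.
-/

set_option autoImplicit false

open MeasureTheory ProbabilityTheory Set
open scoped NNReal ENNReal

namespace Crest.Agent.R162.LBStep

open Crest.Agent.R162.LBI

theorem step_fixed {Ω : Type*} {m : MeasurableSpace Ω} {P : Measure Ω}
    [IsProbabilityMeasure P] {p CV CZ cJ K3 cth K5 c c0 δ cmax w : ℝ}
    (hgood : Good p CV CZ cJ K3 cth K5 c c0 δ) (hcmax : 2 * c ≤ cmax)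
    (hp : 0 < p) (hp1 : p ≤ 1) (hCZ : 0 ≤ CZ) (hcJ : 0 < cJ) (hK3 : 0 ≤ K3) (hcth : 0 < cth)
    (hw0 : 0 < w) (hw1 : w ≤ 1)
    {cont Z J dA dL : Ω → ℝ} 
    (hZm : AEMeasurable Z P) (hJm : AEMeasurable J P) (hdAm : AEMeasurable dA P)
    (hcont : ∀ᵐ ω ∂P, cont ω ≤ K5 * w)
    (hdL : ∀ᵐ ω ∂P, dL ω ≤ w * (CV + Z ω - cJ * J ω))
    (hJ0 : ∀ᵐ ω ∂P, 0 ≤ J ω) (hdA0 : ∀ᵐ ω ∂P, dA ω ≤ 0)
    (hZ : ∀ c', 0 < c' → c' ≤ cmax →
      ∫⁻ ω, ENNReal.ofReal (Real.exp (c' * Z ω)) ∂P ≤ ENNReal.ofReal (1 + CZ * c'))
    (caseA : Prop)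
    (hA : caseA → ENNReal.ofReal (p / 2) ≤ P {ω | dA ω ≤ -(cth * w)})
    (hB : ¬ caseA → ENNReal.ofReal (7 / 8) ≤ P {ω | K3 ≤ J ω}) :
    ∫⁻ ω, ENNReal.ofReal (Real.exp (c0 * cont ω + c * dL ω + dA ω)) ∂P ≤
      ENNReal.ofReal ((1 - δ) ^ w) := by
  classical
  -- measurable modifications
  set Z' : Ω → ℝ := hZm.mk Z with hZ'
  set J' : Ω → ℝ := fun ω => max (hJm.mk J ω) 0 with hJ'
  set A' : Ω → ℝ := fun ω => min (hdAm.mk dA ω) 0 with hA'
  have hZe : Z =ᵐ[P] Z' := hZm.ae_eq_mk
  have hJe : J =ᵐ[P] J' := by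
    filter_upwards [hJm.ae_eq_mk, hJ0] with ω h1 h2
    simp only [hJ']
    rw [← h1, max_eq_left h2]
  have hAe : dA =ᵐ[P] A' := by
    filter_upwards [hdAm.ae_eq_mk, hdA0] with ω h1 h2
    simp only [hA']
    rw [← h1, min_eq_left h2]
  set cont' : Ω → ℝ := fun ω => min (cont ω) (K5 * w) with hc'
  set dL' : Ω → ℝ := fun ω => min (dL ω) (w * (CV + Z' ω - cJ * J' ω)) with hL'
  have hce : cont =ᵐ[P] cont' := by
    filter_upwards [hcont] with ω h
    simp only [hc']
    rw [min_eq_left h]
  have hLe : dL =ᵐ[P] dL' := by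
    filter_upwards [hdL, hZe, hJe] with ω h h1 h2
    simp only [hL']
    rw [← h1, ← h2, min_eq_left h]
  have hGm : (⊥ : MeasurableSpace Ω) ≤ m := bot_le
  -- sets of the trivial sigma-algebra
  have hbot : ∀ A : Set Ω, MeasurableSet[(⊥ : MeasurableSpace Ω)] A → A = ∅ ∨ A = univ := by
    intro A hAm
    rcases (MeasurableSpace.measurableSet_bot_iff).1 hAm with h | h
    · exact Or.inl h
    · exact Or.inr h
  have key := step (G := (⊥ : MeasurableSpace Ω)) (m := m) hGm (P := P) hgood hcmax hp hp1 hCZ hcJ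
    hK3 hcth (w := fun _ => w) (cont := cont') (Z := Z') (J := J') (dA := A') (dL := dL')
    measurable_const hZm.measurable_mk (hJm.measurable_mk.max measurable_const)
    (hdAm.measurable_mk.min measurable_const) (fun _ => hw0) (fun _ => hw1)
    (fun ω => min_le_right _ _) (fun ω => min_le_right _ _) (fun ω => le_max_right _ _)
    (fun ω => min_le_right _ _)
    (by
      intro c' h0 h1 A hAm
      rcases hbot A hAm with h | h
      · subst h; simp
      · subst h
        rw [Measure.restrict_univ, measure_univ, mul_one]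
        refine le_trans (le_of_eq (lintegral_congr_ae ?_)) (hZ c' h0 h1)
        filter_upwards [hZe] with ω h
        rw [h])
    (caseA := {_ω : Ω | caseA})
    (by
      by_cases h : caseA
      · simp [h]
      · simp [h])
    (by
      intro A hAm hsub
      rcases hbot A hAm with h | h
      · subst h; simp
      · subst h
        rw [measure_univ, mul_one, univ_inter]
        have hne : Nonempty Ω := by
          by_contra hne
          rw [not_nonempty_iff] at hne
          have := measure_univ (μ := P)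
          rw [Set.univ_eq_empty_iff.2 hne, measure_empty] at this
          exact zero_ne_one this
        have hca : caseA := hsub (mem_univ hne.some)
        refine (hA hca).trans (le_of_eq (measure_congr ?_))
        filter_upwards [hAe] with ω h
        apply propext
        show dA ω ≤ -(cth * w) ↔ A' ω ≤ -(cth * w)
        rw [h])
    (by
      intro A hAm hsub
      rcases hbot A hAm with h | h
      · subst h; simp
      · subst h
        rw [measure_univ, mul_one, univ_inter]
        have hne : Nonempty Ω := by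
          by_contra hne
          rw [not_nonempty_iff] at hne
          have := measure_univ (μ := P)
          rw [Set.univ_eq_empty_iff.2 hne, measure_empty] at this
          exact zero_ne_one this
        have hca : ¬ caseA := hsub (mem_univ hne.some)
        refine (hB hca).trans (le_of_eq (measure_congr ?_))
        filter_upwards [hJe] with ω h
        apply propext
        show K3 ≤ J ω ↔ K3 ≤ J' ω
        rw [h])
    (A := univ) MeasurableSet.univ
  rw [Measure.restrict_univ] at key
  calc ∫⁻ ω, ENNReal.ofReal (Real.exp (c0 * cont ω + c * dL ω + dA ω)) ∂P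
      = ∫⁻ ω, ENNReal.ofReal (Real.exp (c0 * cont' ω + c * dL' ω + A' ω)) ∂P := by
        refine lintegral_congr_ae ?_
        filter_upwards [hce, hLe, hAe] with ω h1 h2 h3
        rw [h1, h2, h3]
    _ ≤ _ := key
    _ = _ := by simp

end Crest.Agent.R162.LBStep
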