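import Crest.Agent.R162.LBStep
import Crest.Agent.R162.LBSkel2

/-!
Row 162, node STEP (helper561): `StepAll0` (without `LBsS`).
-/

set_option autoImplicit false

open MeasureTheory ProbabilityTheory Filter Topology Set Complex
open scoped NNReal ENNReal
open Crest.ProbabilityR.Loewner

namespace Crest.Agent.R162.LBStep

open Crest.Agent.R162.FL Crest.Agent.R162.OS Crest.Agent.R162.LB Crest.Agent.R162.LBS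
open Crest.Agent.R162.LBI

universe u

/-- the inputs of the step theorem with their quantifiers, without `LBsS` -/
def StepIn3 (κ c1 : ℝ) : Prop :=
  ∃ p0 K4 cs q η : ℝ, 0 < p0 ∧ p0 ≤ 1 ∧ 1 ≤ K4 ∧ 0 < cs ∧ 0 < q ∧ 0 < η ∧ 4 * q + 2 * η ≤ 1 / 2 ∧
    ∃ CV cJ D a : ℝ, 0 ≤ CV ∧ 0 < cJ ∧ 0 ≤ D ∧ 0 < a ∧ ∀ K3 : ℝ, 1 ≤ K3 →
      ForSmall κ c1 q η cs K4 K3 (LB1S CV cJ) ∧
      ForSmall κ c1 q η cs K4 K3 (ZtS.{u} D a) ∧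
      (∀ e : ℝ, 0 < e → ForSmall κ c1 q η cs K4 K3 (LBrS.{u} e)) ∧
      (∃ θ₀ > 0, ∀ θ, 0 < θ → θ ≤ θ₀ → ∃ cθ > 0, ∃ ε₀ > 0, ∀ ε, 0 < ε → ε ≤ ε₀ → ∀ B u0,
        Ok (mkP κ c1 q η cs K4 K3 θ ε B u0) → LB4M.{u} p0 cθ (mkP κ c1 q η cs K4 K3 θ ε B u0)) ∧
      (∃ θ₀ > 0, ∀ θ, 0 < θ → θ ≤ θ₀ → ∃ K5 ≥ 0, ∃ ε₀ > 0, ∀ ε, 0 < ε → ε ≤ ε₀ → ∀ B u0,
        Ok (mkP κ c1 q η cs K4 K3 θ ε B u0) → LBcS K5 (mkP κ c1 q η cs K4 K3 θ ε B u0)) ∧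
      ForSmall κ c1 q η cs K4 K3 AmonoS ∧
      ForSmall κ c1 q η cs K4 K3 JBS

/-- **STEP THEOREM**: all constants. -/
theorem stepAll0_of {κ c1 : ℝ} (h : StepIn3.{u} κ c1) : StepAll0.{u} κ c1 := by
  obtain ⟨p0, K4, cs, q, η, hp0, hp1, hK4, hcs, hq, hη, hqη, CV, cJ, D, a, hCV, hcJ, hD, ha, h⟩ := h
  have hden : 0 < 1 - Real.exp (-(a / 2)) := by
    have : Real.exp (-(a / 2)) < 1 := by rw [Real.exp_lt_one_iff]; linarith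
    linarith
  set CZ : ℝ := Real.exp (a / 2) * D / (1 - Real.exp (-(a / 2))) * CV with hCZ
  have hCZ0 : 0 ≤ CZ := by positivity
  obtain ⟨K30, hK30, hcon⟩ := consts hp0 hp1 hCV hCZ0 hcJ
    (by positivity : 0 < a / (2 * (CV + 1)))
  set K3 : ℝ := max K30 1 with hK3
  obtain ⟨⟨θ1, hθ1, g1⟩, ⟨θ2, hθ2, g2⟩, g3, ⟨θ4, hθ4, g4⟩, ⟨θ5, hθ5, g5⟩,
    ⟨θ7, hθ7, g7⟩, ⟨θ8, hθ8, g8⟩⟩ := h K3 (le_max_right _ _)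
  set e : ℝ := min (1 / 8) (p0 / 2) with hedef
  have he : 0 < e := lt_min (by norm_num) (by linarith)
  obtain ⟨θ3, hθ3, g3⟩ := g3 e he
  set θ : ℝ := min (1 / 4) (min θ1 (min θ2 (min θ3 (min θ4 (min θ5 (min θ7 θ8))))))
    with hθdef
  have hθ : 0 < θ := by
    simp only [hθdef, lt_min_iff]
    exact ⟨by norm_num, hθ1, hθ2, hθ3, hθ4, hθ5, hθ7, hθ8⟩
  have hall : θ ≤ 1 / 4 ∧ θ ≤ θ1 ∧ θ ≤ θ2 ∧ θ ≤ θ3 ∧ θ ≤ θ4 ∧ θ ≤ θ5 ∧ θ ≤ θ7 ∧ θ ≤ θ8 := by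
    have : θ ≤ min (1 / 4) (min θ1 (min θ2 (min θ3 (min θ4 (min θ5 (min θ7 θ8)))))) :=
      le_rfl
    simpa only [le_min_iff] using this
  obtain ⟨l0, l1, l2, l3, l4, l5, l7, l8⟩ := hall
  obtain ⟨ε1, hε1, g1⟩ := g1 θ hθ l1
  obtain ⟨ε2, hε2, g2⟩ := g2 θ hθ l2
  obtain ⟨ε3, hε3, g3⟩ := g3 θ hθ l3
  obtain ⟨cθ, hcθ, ε4, hε4, g4⟩ := g4 θ hθ l4
  obtain ⟨K5, hK5, ε5, hε5, g5⟩ := g5 θ hθ l5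
  obtain ⟨ε7, hε7, g7⟩ := g7 θ hθ l7
  obtain ⟨ε8, hε8, g8⟩ := g8 θ hθ l8
  obtain ⟨c, c0, δ, hcmax, hgood⟩ := hcon K3 (le_max_left _ _) cθ hcθ K5 hK5
  set ε₀ : ℝ := min ε1 (min ε2 (min ε3 (min ε4 (min ε5 (min ε7 ε8))))) with hε₀
  have hε₀pos : 0 < ε₀ := by
    simp only [hε₀, lt_min_iff]
    exact ⟨hε1, hε2, hε3, hε4, hε5, hε7, hε8⟩
  have heall : ε₀ ≤ ε1 ∧ ε₀ ≤ ε2 ∧ ε₀ ≤ ε3 ∧ ε₀ ≤ ε4 ∧ ε₀ ≤ ε5 ∧ ε₀ ≤ ε7 ∧ ε₀ ≤ ε8 := by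
    have : ε₀ ≤ min ε1 (min ε2 (min ε3 (min ε4 (min ε5 (min ε7 ε8))))) := le_rfl
    simpa only [le_min_iff] using this
  obtain ⟨e1, e2, e3, e4, e5, e7, e8⟩ := heall
  refine ⟨q, η, θ, K3, K4, cs, c0, c, δ, ε₀, hq, hη, hqη, hθ, by linarith, le_max_right _ _, hK4,
    hcs, hgood.hc0, hgood.hc, hgood.hδ0, hgood.hδ1, hε₀pos, ?_⟩
  intro B u0 ε hε hεle hOk
  have hcm : 2 * c * (CV + 1) ≤ a / 2 := by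
    rw [le_div_iff₀ (by positivity)] at hcmax
    linarith
  exact step_one hOk hp0 hp1 hCV hcJ hD ha hcθ hK5 he (min_le_left _ _) (min_le_right _ _)
    hgood hcm (g1 ε hε (hεle.trans e1) B u0 hOk) (g2 ε hε (hεle.trans e2) B u0 hOk)
    (g3 ε hε (hεle.trans e3) B u0 hOk) (g4 ε hε (hεle.trans e4) B u0 hOk)
    (g5 ε hε (hεle.trans e5) B u0 hOk) (g7 ε hε (hεle.trans e7) B u0 hOk)
    (g8 ε hε (hεle.trans e8) B u0 hOk)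

theorem StepIn2.to3 {κ c1 : ℝ} (h : StepIn2.{u} κ c1) : StepIn3.{u} κ c1 := by
  obtain ⟨p0, K4, cs, q, η, h1, h2, h3, h4, h5, h6, h7, CV, cJ, D, a, k1, k2, k3, k4, h⟩ := h
  refine ⟨p0, K4, cs, q, η, h1, h2, h3, h4, h5, h6, h7, CV, cJ, D, a, k1, k2, k3, k4,
    fun K3 hK3 => ?_⟩
  obtain ⟨g1, g2, g3, g4, g5, -, g7, g8⟩ := h K3 hK3
  exact ⟨g1, g2, g3, g4, g5, g7, g8⟩

end Crest.Agent.R162.LBStep
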