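import Mathlib
import Crest.Agent.R162.LBStepD
import Crest.Agent.R162.LBSkel
import Crest.Agent.R162.LBStepIn2
import Crest.Agent.R162.LB0D
import Crest.Agent.R162.LB4

/-!
# Row 162, node LB-STEPD part 3 (helper791): `LB1S`, `AmonoS`, `JBS` of the step theorem
-/

set_option autoImplicit false
set_option maxHeartbeats 400000

open Set MeasureTheory Complex Filter Topology
open scoped ENNReal

namespace Crest.Agent.R162.LBStepD

open Crest.Agent.R162.FL Crest.Agent.R162.FLC Crest.Agent.R162.LB Crest.Agent.R162.LBS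

variable {p : Par} {f : ℂ → ℂ} {W : ℝ → ℝ}

/-- the old-geodesic facts from the finiteness of `J` (variant of `LB0.geoP`) -/
theorem geo_of_J (hA : p.Adm) (hc : LB0.Small p)
    (hf : DifferentiableOn ℂ f KB1.Hs) (hfi : InjOn f KB1.Hs)
    (hv : ∃ y : ℝ, 0 < y ∧ p.θ ≤ LB.vv p.u0 f y) (hJ : ∀ y, LB.Jv p.u0 p.q f y < ⊤) :
    LB0.Geo p f := by
  obtain ⟨y0, hy0, hvy0⟩ := hv
  have hK42 : 1 ≤ p.K4 ^ 2 := one_le_pow₀ hc.K4_ge
  have hθ1 : p.θ ≤ 1 := by have := hc.sm2; have := hc.θ_pos; nlinarith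
  have hne : (LB0.bad p.u0 p.q f p.θ p.K3).Nonempty := ⟨y0, hy0, Or.inl hvy0⟩
  obtain ⟨g1, g2, g3, g4, g5, g6⟩ := LB0.geo (K4 := p.K4) hf hfi hA.lip hA.one_le hc.q_pos
    hc.q_lt hc.θ_pos hc.K3_pos hc.K4_ge hc.sm1 hc.sm2 ⟨1, one_pos, hJ 1⟩ hne
  have hrho : p.rho1 f = LB0.rho1 p.u0 p.q f p.θ p.K3 p.K4 := by
    unfold LB.Par.rho1 LB0.rho1
    rfl
  rw [← hrho] at g2 g3 g4 g5 g6
  have hyx : p.y f = LB0.yx p.u0 p.q f p.θ p.K3 := rfl
  have hx : p.x f = f ((LB0.yx p.u0 p.q f p.θ p.K3 : ℂ) * Complex.I) := rfl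
  have hvy : LB.vv p.u0 f (p.y f) ≤ p.θ := LB0.vv_yx_le hf hA.lip hA.one_le g1
  have hJy : LB.Jv p.u0 p.q f (p.y f) ≤ ENNReal.ofReal p.K3 :=
    LB0.Jv_yx_le hf hfi hA.one_le hc.q_pos g1
  have hnear : ∀ y : ℝ, 0 < y → y ≤ 10 * p.rho1 f →
      ‖f (y * Complex.I) - p.x f‖ ≤ p.u0 (p.x f) / 64 := fun y hy hy2 => g4 y hy hy2
  refine
    { y_pos := g1
      rho_pos := g2
      y_le := g3
      near := hnear
      vv_le := fun y hy hy2 => g5 y hy hy2
      vv_le_one := fun y hy hy2 => (g5 y hy hy2).trans (by have := hc.sm2; nlinarith)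
      Jv_le := g6
      Jv_lt_top := hJ
      lt_y := fun y hy hy2 => LB0.good_of_lt hy hy2
      vv_y_le := hvy
      Jv_y_le := hJy
      caseA := fun h => ⟨le_antisymm hvy h, by unfold LB.Par.rho1; rw [if_pos h]⟩
      caseB := fun h => ?_
      u0_near := fun y hy hy2 => LB0.u0_comparable hA.lip (hnear y hy hy2)
      norm_sub := fun y y' hy hy2 hy' hy2' => ?_ }
  · refine ⟨by unfold LB.Par.rho1; rw [if_neg h]; ring, le_antisymm hJy ?_⟩
    exact LB0.le_Jv_yx hf hfi hA.lip hA.one_le hc.q_pos hne g1 (not_le.1 h)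
  · have h3 := hnear y hy hy2
    have h4 := hnear y' hy' hy2'
    calc ‖f (y * Complex.I) - f (y' * Complex.I)‖
        = ‖(f (y * Complex.I) - p.x f) - (f (y' * Complex.I) - p.x f)‖ := by ring_nf
      _ ≤ ‖f (y * Complex.I) - p.x f‖ + ‖f (y' * Complex.I) - p.x f‖ := norm_sub_le _ _
      _ ≤ _ := by linarith

/-- the old-geodesic facts for a start map -/
theorem geo_start (hok : Ok p) (hc : LB0.Small p) (hs : Start p f) : LB0.Geo p f := by
  refine geo_of_J hok.adm hc hs.univ.diff hs.univ.inj ?_ fun y => lt_top_iff_ne_top.2 (hs.J_ne_top y)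
  have h1 : ∀ᶠ y in atTop, p.θ < LB.vv p.u0 f y :=
    hs.v_tendsto.eventually_const_lt (by linarith [hok.θ1])
  obtain ⟨y, hy, hy0⟩ := (h1.and (eventually_gt_atTop 0)).exists
  exact ⟨y, hy0, hy.le⟩

theorem old_of_geo (hg : LB0.Geo p f) (hadm : p.Adm) : Old p f where
  near := fun y hy hy' => (hg.near y hy hy').trans (by
    have := hadm.one_le (p.x f)
    linarith)
  v_le := hg.vv_le_one

theorem ffl_zero (hW : ContinuousOn W (Ici 0)) {z : ℂ} (hz : 0 < z.im) (h0 : W 0 = 0) :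
    ffl W 0 z = z := by
  have h := gfl_ffl hW le_rfl hz
  rw [gfl_zero_ffl hW le_rfl hz, h0] at h
  simpa using h

theorem eqOn_st_zero (hW : ContinuousOn W (Ici 0)) (h0 : W 0 = 0) :
    EqOn (Par.st f W 0) f KB1.Hs := fun z hz => by
  simp only [Par.st, Function.comp_apply, ffl_zero hW hz h0]

/-- **LB1S** -/
theorem lb1S (hok : Ok p) (hc : LB0.Small p) : LB1S 5 (1 / 2) p := by
  intro f hs W hW
  have hvp : 0 < p.varpi f := by
    unfold Par.varpi
    have := hok.adm.one_le (p.x f)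
    positivity
  have h1 : ENNReal.ofReal (2 * p.varpi f) ≤ ENNReal.ofReal (5 * p.varpi f) :=
    ENNReal.ofReal_le_ofReal (by linarith)
  rcases lt_or_eq_of_le (T_nonneg p f W) with hT | hT
  · have hold := old_of_geo (geo_start hok hc hs) hok.adm
    have h := dL_le hok.adm hok.q0.le hok.η0.le hok.qη hs.univ.diff hs.univ.inj hold hW.cont hT
    refine h.trans ?_
    rw [mul_add, mul_one, add_assoc, add_comm (ENNReal.ofReal (5 * p.varpi f))
      (ENNReal.ofReal (5 * p.varpi f) * _)]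
    gcongr
  · rw [← hT, rad_zero hW.zero, mul_zero]
    have h2 : p.Λ (Par.st f W 0) = p.Λ f := by
      show Lam p.u0 p.q p.η (Par.st f W 0) = Lam p.u0 p.q p.η f
      rw [Lam_eq, Lam_eq, LB1.Lam_congr (eqOn_st_zero hW.cont hW.zero)]
    have h3 : ∀ g : ℂ → ℂ, Jv p.u0 p.q g 0 = 0 := by
      intro g
      unfold Jv
      simp
    rw [h2, h3, h3, mul_zero, add_zero, add_zero, mul_one]
    exact le_self_add

/-- the area functional decreases -/
theorem amonoS (hok : Ok p) : LBStep.AmonoS p := by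
  intro f hs W hW
  exact LB4.area_mono (f := f) (u0 := p.u0) hW.cont (T_nonneg p f W) hs.univ.diff

/-- case B -/
theorem jbS (hok : Ok p) (hc : LB0.Small p) : LBStep.JBS p := by
  intro f hs hB
  have hg := geo_start hok hc hs
  obtain ⟨h1, h2⟩ := hg.caseB hB
  rw [h1, h2]

/-! ### `ForSmall` versions -/

theorem forSmall_of {κ c1 q η cs K4 K3 : ℝ} {S : Par → Prop} (hq : 0 < q) (hη : 0 < η)
    (hqη : 4 * q + 2 * η ≤ 1 / 2) (hK3 : 1 ≤ K3) (hK4 : 1 ≤ K4)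
    (h : ∀ p : Par, Ok p → LB0.Small p → S p) : ForSmall κ c1 q η cs K4 K3 S := by
  obtain ⟨θ0, hθ0, H⟩ := LB0.exists_theta (q := q) (K3 := K3) (K4 := K4) hq (by linarith)
    (by linarith) hK4
  refine ⟨θ0, hθ0, fun θ hθ hθle => ⟨1, one_pos, fun ε _ _ B u0 hok => h _ hok ?_⟩⟩
  obtain ⟨h1, h2⟩ := H θ hθ hθle
  exact
    { q_pos := hq
      q_lt := by show q < 1; linarith
      η_nonneg := hη.le
      θ_pos := hθ
      K3_pos := by show 0 < K3; linarith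
      K4_ge := hK4
      sm1 := h1
      sm2 := h2 }

theorem forSmall_LB1S {κ c1 q η cs K4 K3 : ℝ} (hq : 0 < q) (hη : 0 < η)
    (hqη : 4 * q + 2 * η ≤ 1 / 2) (hK3 : 1 ≤ K3) (hK4 : 1 ≤ K4) :
    ForSmall κ c1 q η cs K4 K3 (LB1S 5 (1 / 2)) :=
  forSmall_of hq hη hqη hK3 hK4 fun _ h1 h2 => lb1S h1 h2

theorem forSmall_AmonoS {κ c1 q η cs K4 K3 : ℝ} (hq : 0 < q) (hη : 0 < η)
    (hqη : 4 * q + 2 * η ≤ 1 / 2) (hK3 : 1 ≤ K3) (hK4 : 1 ≤ K4) :
    ForSmall κ c1 q η cs K4 K3 LBStep.AmonoS :=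
  forSmall_of hq hη hqη hK3 hK4 fun _ h1 _ => amonoS h1

theorem forSmall_JBS {κ c1 q η cs K4 K3 : ℝ} (hq : 0 < q) (hη : 0 < η)
    (hqη : 4 * q + 2 * η ≤ 1 / 2) (hK3 : 1 ≤ K3) (hK4 : 1 ≤ K4) :
    ForSmall κ c1 q η cs K4 K3 LBStep.JBS :=
  forSmall_of hq hη hqη hK3 hK4 fun _ h1 h2 => jbS h1 h2

end Crest.Agent.R162.LBStepD
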