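import Crest.Agent.R162.LBStepPk
import Crest.Agent.R162.LBStepE
import Crest.Agent.R162.LBBookP
import Crest.Agent.R162.LB3b7

/-!
Row 162, node STEP (helper561): the step theorem, unconditional.
-/

set_option autoImplicit false

namespace Crest.Agent.R162.LBStepPk

open Crest.Agent.R162.LBS Crest.Agent.R162.LBStep

universe u

/-- **STEP THEOREM, unconditional.** -/
theorem stepAll0' {κ c1 : ℝ} (hκ : 0 < κ) (hκ8 : κ < 8) (hc1 : 0 < c1) :
    StepAll0.{u} κ c1 :=
  stepAll0 (CV := 5) (cJ := 1 / 2) hκ hκ8 hc1 LBBook.pathIn (LB3b.in3 c1 hκ hκ8) (by norm_num)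
    (by norm_num) (fun _ _ _ _ _ _ _ hq _ hη _ hqη _ hK4 hK3 =>
      LBStepD.forSmall_LB1S hq hη hqη hK3 hK4)

end Crest.Agent.R162.LBStepPk
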