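import Mathlib
import Crest.Agent.R162.LBStepD
import Crest.Agent.R162.LBCont2

/-!
# Row 162, node LB-STEPD part 2 (helper791): the closed `T₃` bound at time `T` and partition of the
step into windows
-/

set_option autoImplicit false
set_option maxHeartbeats 400000

open Set MeasureTheory Complex Filter Topology
open scoped ENNReal

namespace Crest.Agent.R162.LBStepD

open Crest.Agent.R162.FL Crest.Agent.R162.FLC Crest.Agent.R162.LB

variable {p : Par} {f : ℂ → ℂ} {W : ℝ → ℝ}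

theorem win_eq (W : ℝ → ℝ) (t : ℝ) (k : ℤ) :
    win W t k = Ioc 0 t ∩ (fun s => rad W (max 0 s)) ⁻¹' Ico ((2:ℝ) ^ k) ((2:ℝ) ^ (k + 1)) := by
  ext s
  simp only [win, mem_ofPred_eq, mem_inter_iff, mem_Ioc, mem_preimage, mem_Ico]
  constructor
  · rintro ⟨h1, h2, h3, h4⟩
    rw [max_eq_right h1.le]
    exact ⟨⟨h1, h2⟩, h3, h4⟩
  · rintro ⟨⟨h1, h2⟩, h3, h4⟩
    rw [max_eq_right h1.le] at h3 h4
    exact ⟨h1, h2, h3, h4⟩

theorem measurableSet_win (hW : ContinuousOn W (Ici 0)) (t : ℝ) (k : ℤ) :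
    MeasurableSet (win W t k) := by
  rw [win_eq]
  have h1 : Continuous fun s : ℝ => rad W (max 0 s) :=
    (continuousOn_rad hW).comp_continuous (by fun_prop) fun s => mem_Ici.2 (le_max_left _ _)
  exact measurableSet_Ioc.inter (h1.measurable measurableSet_Ico)

theorem win_mono (W : ℝ → ℝ) {s t : ℝ} (h : s ≤ t) (k : ℤ) : win W s k ⊆ win W t k :=
  fun _ hx => ⟨hx.1, hx.2.1.trans h, hx.2.2⟩

theorem win_subset (W : ℝ → ℝ) (t : ℝ) (k : ℤ) : win W t k ⊆ Ioc 0 t := fun _ hx => ⟨hx.1, hx.2.1⟩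

theorem win_disjoint (W : ℝ → ℝ) (t : ℝ) {k l : ℤ} (h : k ≠ l) :
    Disjoint (win W t k) (win W t l) := by
  rw [Set.disjoint_left]
  rintro s hs hs'
  have key : ∀ {k l : ℤ}, k < l → s ∈ win W t k → s ∈ win W t l → False := by
    intro k l hkl h1 h2
    have h3 : (2:ℝ) ^ (k + 1) ≤ 2 ^ l := zpow_le_zpow_right₀ (by norm_num) (by omega)
    linarith [h1.2.2.2, h2.2.2.1]
  rcases lt_or_gt_of_ne h with h | h
  · exact key h hs hs'
  · exact key h hs' hs

/-- the windows cover the step -/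
theorem Ioc_eq_iUnion_win (W : ℝ → ℝ) (t : ℝ) : Ioc 0 t = ⋃ k : ℤ, win W t k := by
  ext s
  rw [mem_iUnion]
  constructor
  · intro hs
    obtain ⟨k, hk⟩ := exists_mem_Ico_zpow (rad_pos (W := W) hs.1) (by norm_num : (1:ℝ) < 2)
    exact ⟨k, hs.1, hs.2, hk.1, hk.2⟩
  · rintro ⟨k, hk⟩
    exact win_subset W t k hk

/-- a nonempty window has `2^k ≤ ρ_t` -/
theorem le_rad_of_mem_win (hW : ContinuousOn W (Ici 0)) {t s : ℝ} {k : ℤ} (hs : s ∈ win W t k) :
    (2:ℝ) ^ k ≤ rad W t :=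
  hs.2.2.1.trans (rad_mono hW hs.1.le hs.2.1)

theorem win_eq_empty (hW : ContinuousOn W (Ici 0)) {t : ℝ} {k : ℤ} (h : rad W t < (2:ℝ) ^ k) :
    win W t k = ∅ := by
  rw [eq_empty_iff_forall_notMem]
  intro s hs
  exact absurd (le_rad_of_mem_win hW hs) (not_le.2 h)

theorem content_empty (κ ε c1 : ℝ) (f : ℂ → ℂ) (W : ℝ → ℝ) (B : Set ℂ) :
    content κ ε c1 f W ∅ B = 0 := by
  unfold content cz
  simp

theorem measurable_unit_section {G : Unit × ℂ → ℝ≥0∞} (h : Measurable G) :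
    Measurable (fun z : ℂ => G ((), z)) := by
  have h2 : Measurable (fun z : ℂ => (((), z) : Unit × ℂ)) := measurable_const.prodMk measurable_id
  exact h.comp h2

/-- measurability of the density in `z` -/
theorem measurable_cz_z (κ ε c1 : ℝ) (hW : ContinuousOn W (Ici 0)) {E : Set ℝ}
    (hE : MeasurableSet E) {T : ℝ} (hET : E ⊆ Icc 0 T) {lam : ℂ → ℝ} (hlam : Measurable lam) :
    Measurable fun z : ℂ => cz κ ε c1 (lam z) W E z := by
  have hE1 : MeasurableSet {x : Unit × ℝ | x.2 ∈ (fun _ : Unit => E) x.1} := by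
    have : {x : Unit × ℝ | x.2 ∈ (fun _ : Unit => E) x.1} = Prod.snd ⁻¹' E := rfl
    rw [this]
    exact measurable_snd hE
  have hl : Measurable fun q : Unit × ℂ => lam q.2 := hlam.comp measurable_snd
  have hc : ∀ _ : Unit, ContinuousOn W (Icc 0 T) := fun _ => hW.mono fun s hs => hs.1
  have hm : ∀ s ∈ Icc 0 T, Measurable (fun _ : Unit => W s) := fun s _ => measurable_const
  have h1 : Measurable fun q : Unit × ℂ => cz κ ε c1 (lam q.2) W E q.2 :=
    LBCont.measurable_cz (κ := κ) (ε := ε) (c1 := c1) (Ω := Unit) (W := fun _ => W)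
      (T := T) (lam := fun q => lam q.2) hl hc hm (E := fun _ => E) hE1 (fun _ => hET)
  have h2 := measurable_unit_section h1
  exact h2

/-- left continuity of the content in time -/
theorem content_win_iSup (κ ε c1 : ℝ) (f : ℂ → ℂ) (hW : ContinuousOn W (Ici 0)) (B : Set ℂ)
    {t0 : ℝ} (ht0 : 0 < t0) (k : ℤ) :
    content κ ε c1 f W (win W t0 k) B =
      ⨆ n : ℕ, content κ ε c1 f W (win W (t0 - t0 / (n + 2)) k) B := by
  set t : ℕ → ℝ := fun n => t0 - t0 / (n + 2) with ht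
  have htlt : ∀ n, t n < t0 := fun n => by
    have : 0 < t0 / (n + 2 : ℝ) := by positivity
    simp only [ht]; linarith
  have htmono : Monotone t := by
    intro n m hnm
    have h1 : (n : ℝ) ≤ m := by exact_mod_cast hnm
    have h2 : t0 / (m + 2 : ℝ) ≤ t0 / (n + 2) := by gcongr
    simp only [ht]; linarith
  have hun : ⋃ n, win W (t n) k = win W t0 k \ {t0} := by
    ext s
    simp only [mem_iUnion, Set.mem_sdiff, mem_singleton_iff]
    constructor
    · rintro ⟨n, hn⟩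
      exact ⟨win_mono W (htlt n).le k hn, (lt_of_le_of_lt hn.2.1 (htlt n)).ne⟩
    · rintro ⟨hs, hne⟩
      have hlt : s < t0 := lt_of_le_of_ne hs.2.1 hne
      obtain ⟨n, hn⟩ := exists_nat_gt (t0 / (t0 - s))
      refine ⟨n, hs.1, ?_, hs.2.2⟩
      have h1 : 0 < t0 - s := by linarith
      rw [div_lt_iff₀ h1] at hn
      have h2 : t0 / (n + 2 : ℝ) ≤ t0 - s := by
        rw [div_le_iff₀ (by positivity)]
        nlinarith
      simp only [ht]; linarith
  have hcz : ∀ z : ℂ, cz κ ε c1 ‖deriv f z‖ W (win W t0 k) z =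
      ⨆ n, cz κ ε c1 ‖deriv f z‖ W (win W (t n) k) z := by
    intro z
    unfold cz
    rw [← setLIntegral_iUnion_of_directed _ (directed_of_isDirected_le fun a b hab =>
      win_mono W (htmono hab) k), hun]
    refine setLIntegral_congr ?_
    exact (sdiff_null_ae_eq_self (measure_singleton t0)).symm
  have hmeas : ∀ n, Measurable fun z : ℂ =>
      ENNReal.ofReal (‖deriv f z‖ ^ 2) * cz κ ε c1 ‖deriv f z‖ W (win W (t n) k) z := fun n =>
    (((measurable_deriv f).norm.pow_const 2).ennreal_ofReal).mul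
      (measurable_cz_z κ ε c1 hW (measurableSet_win hW _ k)
        (fun s hs => ⟨hs.1.le, hs.2.1⟩ : win W (t n) k ⊆ Icc 0 (t n)) (measurable_deriv f).norm)
  unfold content
  rw [← lintegral_iSup hmeas]
  · refine lintegral_congr fun z => ?_
    rw [hcz z, ENNReal.mul_iSup]
  · intro n m hnm z
    exact mul_le_mul' le_rfl (cz_mono (win_mono W (htmono hnm) k) z)

/-- **the `T₃` bound in closed form** at every time `t ≤ T`, `t > 0` -/
theorem nearC_T (hW : ContinuousOn W (Ici 0)) {t0 : ℝ} (ht0 : 0 < t0) (ht0T : t0 ≤ p.T f W)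
    (k : ℤ) :
    p.nearC f W (win W t0 k) ≤ ENNReal.ofReal (vv p.u0 f (2 ^ k) ^ (p.cs / 2)) := by
  unfold Par.nearC
  rw [content_win_iSup _ _ _ f hW _ ht0 k]
  refine iSup_le fun n => ?_
  have h1 : 0 < t0 / (n + 2 : ℝ) := by positivity
  have h2 : t0 / (n + 2 : ℝ) < t0 := by
    rw [div_lt_iff₀ (by positivity)]
    nlinarith [(Nat.cast_nonneg n : (0:ℝ) ≤ n)]
  have h3 := not_bad_of_lt p (f := f) (W := W) (t := t0 - t0 / (n + 2)) (by linarith)
    (by linarith)
  by_contra h4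
  exact h3 (Or.inr (Or.inr ⟨k, not_le.1 h4⟩))

theorem not_bad3_T (hW : ContinuousOn W (Ici 0)) {t0 : ℝ} (ht0 : 0 < t0) (ht0T : t0 ≤ p.T f W)
    (k : ℤ) : ¬ p.Bad3 f W t0 k := not_lt.2 (nearC_T hW ht0 ht0T k)

theorem not_bad2_T (hW : ContinuousOn W (Ici 0)) (hf : ContinuousOn f {z | 0 < z.im})
    {t0 : ℝ} (ht0 : 0 < t0) (ht0T : t0 ≤ p.T f W) : ¬ p.Bad2 f W t0 := by
  rintro ⟨y, hy, hy', h⟩
  exact absurd (tip_T hW hf ht0 ht0T hy hy') (not_le.2 h)

/-- content over the step = sum over the windows -/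
theorem content_Ioc_eq_tsum (κ ε c1 : ℝ) (f : ℂ → ℂ) (hW : ContinuousOn W (Ici 0)) (B : Set ℂ)
    (t : ℝ) :
    content κ ε c1 f W (Ioc 0 t) B = ∑' k : ℤ, content κ ε c1 f W (win W t k) B := by
  have hcz : ∀ z : ℂ, cz κ ε c1 ‖deriv f z‖ W (Ioc 0 t) z =
      ∑' k : ℤ, cz κ ε c1 ‖deriv f z‖ W (win W t k) z := by
    intro z
    unfold cz
    rw [Ioc_eq_iUnion_win, lintegral_iUnion (fun k => measurableSet_win hW t k)
      (fun k l hkl => win_disjoint W t hkl)]
  have hmeas : ∀ k : ℤ, Measurable fun z : ℂ =>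
      ENNReal.ofReal (‖deriv f z‖ ^ 2) * cz κ ε c1 ‖deriv f z‖ W (win W t k) z := fun k =>
    (((measurable_deriv f).norm.pow_const 2).ennreal_ofReal).mul
      (measurable_cz_z κ ε c1 hW (measurableSet_win hW _ k)
        (fun s hs => ⟨hs.1.le, hs.2.1⟩ : win W t k ⊆ Icc 0 t) (measurable_deriv f).norm)
  unfold content
  rw [← lintegral_tsum fun k => (hmeas k).aemeasurable]
  refine lintegral_congr fun z => ?_
  rw [hcz z, ENNReal.tsum_mul_left]

/-- **near content of the step** is at most the sum of the thresholds over the scales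
`2^k ≤ ρ_T` -/
theorem nearC_le_tsum (hW : ContinuousOn W (Ici 0)) (hT : 0 < p.T f W) :
    p.nearC f W (Ioc 0 (p.T f W)) ≤
      ∑' k : ℤ, if (2:ℝ) ^ k ≤ rad W (p.T f W) then
        ENNReal.ofReal (vv p.u0 f (2 ^ k) ^ (p.cs / 2)) else 0 := by
  have h := content_Ioc_eq_tsum p.κ p.ε p.c1 f hW (p.near f) (p.T f W)
  unfold Par.nearC
  rw [h]
  refine ENNReal.tsum_le_tsum fun k => ?_
  split_ifs with hk
  · exact nearC_T hW hT le_rfl k
  · rw [win_eq_empty hW (not_le.1 hk), content_empty]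

/-- `u₀(x) > 1` implies that the near set is empty -/
theorem near_eq_empty (hadm : p.Adm) (h : 1 < p.u0 (p.x f)) : p.near f = ∅ := by
  rw [eq_empty_iff_forall_notMem]
  rintro w ⟨hw, hw'⟩
  have h1 := hadm.le_dist w hw (p.x f)
  rw [Metric.mem_ball, dist_comm] at hw'
  have h2 : p.u0 (p.x f) ≤ dist (p.x f) w := by
    rcases le_max_iff.1 h1 with h3 | h3
    · linarith
    · exact h3
  have h3 : 0 < p.u0 (p.x f) := by linarith
  linarith

theorem content_empty_set (κ ε c1 : ℝ) (f : ℂ → ℂ) (W : ℝ → ℝ) (E : Set ℝ) :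
    content κ ε c1 f W E ∅ = 0 := by
  unfold content
  simp

theorem nearC_eq_zero (hadm : p.Adm) (h : 1 < p.u0 (p.x f)) (E : Set ℝ) : p.nearC f W E = 0 := by
  unfold Par.nearC
  rw [near_eq_empty hadm h, content_empty_set]

/-- content = near + far -/
theorem cont_le_add (E : Set ℝ) : p.cont f W E ≤ p.nearC f W E + p.farC f W E := by
  unfold Par.cont Par.nearC Par.farC content
  have hs : {z : ℂ | 0 < z.im ∧ f z ∈ p.B} ⊆
      {z : ℂ | 0 < z.im ∧ f z ∈ p.near f} ∪ {z : ℂ | 0 < z.im ∧ f z ∈ p.B \ p.near f} := by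
    intro z hz
    by_cases h : f z ∈ p.near f
    · exact Or.inl ⟨hz.1, h⟩
    · exact Or.inr ⟨hz.1, hz.2, h⟩
  exact (lintegral_mono_set hs).trans (lintegral_union_le _ _ _)

end Crest.Agent.R162.LBStepD
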