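import Crest.Agent.R162.LBStep2
import Crest.Agent.R162.LBBook2
import Crest.Agent.R162.LB4W
import Crest.Agent.R162.LB4V
import Crest.Agent.R162.LB2op
import Crest.Agent.R162.LBcSF

/-!
Row 162, node STEP (helper561): packaging of the step theorem (insurance copy of 301's LBPk).
-/

set_option autoImplicit false

open MeasureTheory ProbabilityTheory Filter Topology Set Complex
open scoped NNReal ENNReal
open Crest.ProbabilityR.Loewner

namespace Crest.Agent.R162.LBStepPk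

open Crest.Agent.R162.FL Crest.Agent.R162.OS Crest.Agent.R162.LB Crest.Agent.R162.LBS
open Crest.Agent.R162.LBStep

universe u

/-- the input LB1 with its quantifiers -/
def LB1All (CV cJ : ℝ) : Prop :=
  ∀ κ c1 q η cs K4 K3 : ℝ, 0 < q → q ≤ 1 / 8 → 0 < η → η ≤ 1 / 8 → 4 * q + 2 * η ≤ 1 / 2 →
    0 < cs → 1 ≤ K4 → 1 ≤ K3 → ForSmall κ c1 q η cs K4 K3 (LB1S CV cJ)

theorem stepIn3 {κ c1 CV cJ : ℝ} (hκ : 0 < κ) (hκ8 : κ < 8) (hc1 : 0 < c1)
    (hpath : LBBook.PathIn) (h3 : In3.{u} κ c1) (hCV : 0 ≤ CV) (hcJ : 0 < cJ)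
    (h1 : LB1All CV cJ) : StepIn3.{u} κ c1 := by
  obtain ⟨p0, hp0, hp1, h4⟩ := LB4W.clause4 (LB4.in4.{u} hκ hκ8)
  obtain ⟨cs0, hcs0, hb⟩ := LBBook.book hpath (LB2op.in2 hκ hκ8) h3 (LB2op.inZ hκ hκ8)
  set cs : ℝ := min cs0 (1 / 2) with hcs
  have hcspos : 0 < cs := lt_min hcs0 (by norm_num)
  have hcs2 : cs ≤ 1 / 2 := min_le_right _ _
  set q : ℝ := cs / 8 with hq
  have hqpos : 0 < q := by positivity
  have hq8 : q ≤ 1 / 16 := by rw [hq]; linarith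
  obtain ⟨D, a, hD, ha, hb⟩ := hb cs q hcspos (min_le_left _ _) hqpos (by linarith)
    (by rw [hq]; linarith)
  refine ⟨p0, 17, cs, q, 1 / 8, hp0, hp1, by norm_num, hcspos, hqpos, by norm_num, by linarith,
    CV, cJ, D, a, hCV, hcJ, hD, ha, fun K3 hK3 => ?_⟩
  obtain ⟨hz, hr⟩ := hb (1 / 8) 17 K3 (by norm_num) le_rfl (by norm_num) hK3
  refine ⟨h1 κ c1 q (1 / 8) cs 17 K3 hqpos (by linarith) (by norm_num) le_rfl (by linarith)
    hcspos (by norm_num) hK3, hz, hr, h4 c1 q (1 / 8) cs 17 K3 (by norm_num),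
    LBcSF.lbcS_all hc1 hqpos (by norm_num) (by linarith) (by rw [hq]; linarith) (by norm_num) hK3,
    LB4W.clauseA, LB4W.clauseJ⟩

/-- **the step theorem from `In3`, the path facts and LB1.** -/
theorem stepAll0 {κ c1 CV cJ : ℝ} (hκ : 0 < κ) (hκ8 : κ < 8) (hc1 : 0 < c1)
    (hpath : LBBook.PathIn) (h3 : In3.{u} κ c1) (hCV : 0 ≤ CV) (hcJ : 0 < cJ)
    (h1 : LB1All CV cJ) : StepAll0.{u} κ c1 :=
  stepAll0_of (stepIn3 hκ hκ8 hc1 hpath h3 hCV hcJ h1)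

end Crest.Agent.R162.LBStepPk
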