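import Crest.Agent.R162.LBStep1

/-!
Row 162 (S0243), node LB-SUMJ (helper140): cubic growth of `v` along the axis (while `v ≤ 1`) and
the dyadic sums `Σ v(2^k b₀)^a ≤ 20 V^{a-q} J(2r)` with an arbitrary base `b₀`.
-/

set_option autoImplicit false

open Set MeasureTheory Complex Filter Topology
open scoped ENNReal

namespace Crest.Agent.R162.LBSumJ

open Crest.Agent.R162.KB1 Crest.Agent.R162.LB1

variable {f : ℂ → ℂ} {u0 : ℂ → ℝ}

/-- discrete Gronwall on the multiplicative half-line: a positive function whose increments obey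
`φ y ≤ φ x (1 + ((y/x)^2 - 1)/2)` for `a ≤ x ≤ y ≤ b` satisfies `φ b ≤ φ a (b/a)`. -/
theorem mul_gronwall {a b : ℝ} (ha : 0 < a) (hab : a ≤ b) {φ : ℝ → ℝ}
    (hstep : ∀ x y, a ≤ x → x ≤ y → y ≤ b → φ y ≤ φ x * (1 + ((y / x) ^ 2 - 1) / 2))
    (hpos : ∀ x, a ≤ x → x ≤ b → 0 ≤ φ x) :
    φ b ≤ φ a * (b / a) := by
  have hb : 0 < b := lt_of_lt_of_le ha hab
  set L : ℝ := Real.log (b / a) with hL
  have hba : 1 ≤ b / a := (one_le_div ha).2 hab
  have hL0 : 0 ≤ L := Real.log_nonneg hba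
  -- points x_k = a * exp (k L / n)
  have key : ∀ n : ℕ, 0 < n → φ b ≤ φ a * (1 + (Real.exp (2 * (L / n)) - 1) / 2) ^ n := by
    intro n hn
    have hn0 : (0 : ℝ) < n := by exact_mod_cast hn
    set x : ℕ → ℝ := fun k => a * Real.exp (k * (L / n)) with hx
    have hx0 : x 0 = a := by simp [hx]
    have hxn : x n = b := by
      simp only [hx]
      rw [mul_div_cancel₀ _ hn0.ne', hL, Real.exp_log (by positivity)]
      field_simp
    have hxa : ∀ k, a ≤ x k := by
      intro k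
      have : 1 ≤ Real.exp (k * (L / n)) := Real.one_le_exp (by positivity)
      simp only [hx]
      nlinarith
    have hxb : ∀ k, k ≤ n → x k ≤ b := by
      intro k hk
      rw [← hxn]
      simp only [hx]
      have : (k : ℝ) * (L / n) ≤ n * (L / n) :=
        mul_le_mul_of_nonneg_right (by exact_mod_cast hk) (by positivity)
      exact mul_le_mul_of_nonneg_left (Real.exp_le_exp.2 this) ha.le
    have hratio : ∀ k, x (k + 1) / x k = Real.exp (L / n) := by
      intro k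
      simp only [hx]
      have h1 : ((k + 1 : ℕ) : ℝ) * (L / n) = k * (L / n) + L / n := by push_cast; ring
      rw [h1, Real.exp_add]
      have := Real.exp_pos (k * (L / n))
      field_simp
    have hmono : ∀ k, x k ≤ x (k + 1) := by
      intro k
      have h1 := hratio k
      have h2 : 1 ≤ Real.exp (L / n) := Real.one_le_exp (by positivity)
      have h3 : 0 < x k := lt_of_lt_of_le ha (hxa k)
      rw [div_eq_iff h3.ne'] at h1
      rw [h1]; nlinarith
    have hind : ∀ k, k ≤ n → φ (x k) ≤ φ a * (1 + (Real.exp (2 * (L / n)) - 1) / 2) ^ k := by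
      intro k
      induction k with
      | zero => intro _; simp [hx0]
      | succ k ih =>
        intro hk
        have hk' : k ≤ n := by omega
        have h1 := hstep (x k) (x (k + 1)) (hxa k) (hmono k) (hxb _ hk)
        rw [hratio k] at h1
        have h2 : Real.exp (L / n) ^ 2 = Real.exp (2 * (L / n)) := by
          rw [← Real.exp_nat_mul]; norm_num
        rw [h2] at h1
        have h3 : 1 ≤ Real.exp (2 * (L / n)) := Real.one_le_exp (by positivity)
        have h4 : 0 ≤ 1 + (Real.exp (2 * (L / n)) - 1) / 2 := by linarith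
        calc φ (x (k + 1)) ≤ φ (x k) * (1 + (Real.exp (2 * (L / n)) - 1) / 2) := h1
          _ ≤ φ a * (1 + (Real.exp (2 * (L / n)) - 1) / 2) ^ k *
                (1 + (Real.exp (2 * (L / n)) - 1) / 2) := mul_le_mul_of_nonneg_right (ih hk') h4
          _ = _ := by rw [pow_succ]; ring
    have := hind n le_rfl
    rwa [hxn] at this
  -- bound the factor by exp
  have key2 : ∀ n : ℕ, 0 < n → φ b ≤ φ a * Real.exp (n * ((Real.exp (2 * (L / n)) - 1) / 2)) := by
    intro n hn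
    refine (key n hn).trans ?_
    have h3 : 1 ≤ Real.exp (2 * (L / n)) := Real.one_le_exp (by positivity)
    have h5 : 0 ≤ φ a := hpos a le_rfl hab
    refine mul_le_mul_of_nonneg_left ?_ h5
    rw [Real.exp_nat_mul]
    refine pow_le_pow_left₀ (by linarith) ?_ n
    have := Real.add_one_le_exp ((Real.exp (2 * (L / n)) - 1) / 2)
    linarith
  -- limit
  have hlim : Tendsto (fun n : ℕ => φ a * Real.exp (n * ((Real.exp (2 * (L / n)) - 1) / 2)))
      atTop (𝓝 (φ a * Real.exp L)) := by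
    refine Tendsto.const_mul _ ((Real.continuous_exp.tendsto _).comp ?_)
    -- n (exp(2L/n) - 1)/2 → L
    have h1 : HasDerivAt (fun t : ℝ => Real.exp (2 * L * t)) (2 * L) 0 := by
      have h2 : HasDerivAt (fun t : ℝ => 2 * L * t) (2 * L) 0 := by
        simpa using (hasDerivAt_id (0 : ℝ)).const_mul (2 * L)
      have h3 := h2.exp
      simpa using h3
    have h4 := h1.tendsto_slope_zero_right
    have h5 : Tendsto (fun n : ℕ => ((n : ℝ))⁻¹) atTop (𝓝[>] 0) := by
      refine tendsto_nhdsWithin_iff.2 ⟨tendsto_inv_atTop_nhds_zero_nat, ?_⟩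
      filter_upwards [eventually_gt_atTop 0] with n hn
      have hn0 : (0 : ℝ) < n := by exact_mod_cast hn
      exact inv_pos.2 hn0
    have h6 := h4.comp h5
    have h7 := h6.div_const 2
    have h8 : (2 * L) / 2 = L := by ring
    rw [h8] at h7
    refine h7.congr' ?_
    filter_upwards [eventually_gt_atTop 0] with n hn
    have hn0 : (0 : ℝ) < n := by exact_mod_cast hn
    simp only [Function.comp, inv_inv, smul_eq_mul, zero_add, mul_zero, Real.exp_zero]
    have h9 : 2 * L * (n : ℝ)⁻¹ = 2 * (L / n) := by field_simp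
    rw [h9]
    ring
  have hfin := ge_of_tendsto hlim (by
    filter_upwards [eventually_gt_atTop 0] with n hn
    exact key2 n hn)
  rwa [hL, Real.exp_log (by positivity)] at hfin

section growth

variable (hf : DifferentiableOn ℂ f Hs) (hfi : InjOn f Hs)
  (hu0 : ∀ p, 1 ≤ u0 p) (hl : ∀ p p' : ℂ, |u0 p - u0 p'| ≤ ‖p - p'‖)

include hf hfi hu0 hl in
/-- `u₀(f(ib)) ≤ (b/a) u₀(f(ia))` if `v ≤ 1` on `[a,b]` -/
theorem u0_le_right {a b : ℝ} (ha : 0 < a) (hab : a ≤ b)
    (hv : ∀ s ∈ Icc a b, vv u0 f s ≤ 1) :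
    u0 (f (b * I)) ≤ (b / a) * u0 (f (a * I)) := by
  have h := mul_gronwall (φ := fun s => u0 (f (s * I))) ha hab (fun x y hx hxy hy => by
    have hx0 : 0 < x := lt_of_lt_of_le ha hx
    have h1 := dist_axis_left hf hfi hx0 hxy
    have h2 := (abs_le.1 (hl (f (y * I)) (f (x * I)))).2
    have h3 : ups f (x * I) ≤ u0 (f (x * I)) := by
      have := hv x ⟨hx, hxy.trans hy⟩
      unfold vv at this
      rwa [div_le_one (by linarith [hu0 (f (x * I))])] at this
    have h4 : 1 ≤ y / x := (one_le_div hx0).2 hxy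
    have h5 : 0 ≤ ((y / x) ^ 2 - 1) / 2 := by nlinarith
    have h6 := mul_le_mul_of_nonneg_right h3 h5
    nlinarith) (fun x _ _ => by linarith [hu0 (f (x * I))])
  linarith

include hf hfi hu0 hl in
/-- `u₀(f(ia)) ≤ (b/a) u₀(f(ib))` if `v ≤ 1` on `[a,b]` -/
theorem u0_le_left {a b : ℝ} (ha : 0 < a) (hab : a ≤ b)
    (hv : ∀ s ∈ Icc a b, vv u0 f s ≤ 1) :
    u0 (f (a * I)) ≤ (b / a) * u0 (f (b * I)) := by
  have hb : 0 < b := lt_of_lt_of_le ha hab
  -- reflect: s ↦ a b / s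
  have hmem : ∀ s, a ≤ s → s ≤ b → a * b / s ∈ Icc a b := by
    intro s hs1 hs2
    have hs0 : 0 < s := lt_of_lt_of_le ha hs1
    constructor
    · rw [le_div_iff₀ hs0]; nlinarith
    · rw [div_le_iff₀ hs0]; nlinarith
  have h := mul_gronwall (φ := fun s => u0 (f (((a * b / s : ℝ) : ℂ) * I))) ha hab
    (fun x y hx hxy hy => by
    have hx0 : 0 < x := lt_of_lt_of_le ha hx
    have hy0 : 0 < y := hx0.trans_le hxy
    have hxm := hmem x hx (hxy.trans hy)
    have hym := hmem y (hx.trans hxy) hy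
    have hle : a * b / y ≤ a * b / x := div_le_div_of_nonneg_left (by positivity) hx0 hxy
    have hpy : 0 < a * b / y := by positivity
    have h1 := dist_axis_right hf hfi hpy hle
    have hr : a * b / x / (a * b / y) = y / x := by field_simp
    rw [hr] at h1
    have h2 := (abs_le.1 (hl (f (((a * b / y : ℝ) : ℂ) * I)) (f (((a * b / x : ℝ) : ℂ) * I)))).2
    have h3 : ups f (((a * b / x : ℝ) : ℂ) * I) ≤ u0 (f (((a * b / x : ℝ) : ℂ) * I)) := by
      have := hv _ hxm
      unfold vv at this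
      rwa [div_le_one (by linarith [hu0 (f (((a * b / x : ℝ) : ℂ) * I))])] at this
    have h4 : 1 ≤ y / x := (one_le_div hx0).2 hxy
    have h5 : 0 ≤ ((y / x) ^ 2 - 1) / 2 := by nlinarith
    have h6 := mul_le_mul_of_nonneg_right h3 h5
    nlinarith) (fun x _ _ => by linarith [hu0 (f (((a * b / x : ℝ) : ℂ) * I))])
  have e1 : a * b / b = a := by field_simp
  have e2 : a * b / a = b := by field_simp
  rw [e1, e2] at h
  linarith

include hf hfi hu0 hl in
/-- cubic growth of `v`: `v(b) ≤ (b/a)^3 v(a)` if `v ≤ 1` on `[a,b]` -/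
theorem vv_le_right {a b : ℝ} (ha : 0 < a) (hab : a ≤ b)
    (hv : ∀ s ∈ Icc a b, vv u0 f s ≤ 1) :
    vv u0 f b ≤ (b / a) ^ 3 * vv u0 f a := by
  have hb : 0 < b := lt_of_lt_of_le ha hab
  have h1 := (ups_axis_le hf hfi ha hab).1
  have h2 := u0_le_left hf hfi hu0 hl ha hab hv
  have hua : 0 < ups f (a * I) := ups_pos hf hfi (by rw [im_axis]; exact ha)
  have hub : 0 < ups f (b * I) := ups_pos hf hfi (by rw [im_axis]; exact hb)
  have ha1 := hu0 (f (a * I))
  have hb1 := hu0 (f (b * I))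
  have hba : 0 < b / a := by positivity
  unfold vv
  rw [← mul_div_assoc, div_le_div_iff₀ (by linarith) (by linarith)]
  calc ups f (b * I) * u0 (f (a * I))
      ≤ ((b / a) ^ 2 * ups f (a * I)) * ((b / a) * u0 (f (b * I))) :=
        mul_le_mul h1 h2 (by linarith) (by positivity)
    _ = _ := by ring

include hf hfi hu0 hl in
/-- cubic decay of `v`: `v(a) ≤ (b/a)^3 v(b)` if `v ≤ 1` on `[a,b]` -/
theorem vv_le_left {a b : ℝ} (ha : 0 < a) (hab : a ≤ b)
    (hv : ∀ s ∈ Icc a b, vv u0 f s ≤ 1) :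
    vv u0 f a ≤ (b / a) ^ 3 * vv u0 f b := by
  have hb : 0 < b := lt_of_lt_of_le ha hab
  have h1 := (ups_axis_le hf hfi ha hab).2
  have h2 := u0_le_right hf hfi hu0 hl ha hab hv
  have hua : 0 < ups f (a * I) := ups_pos hf hfi (by rw [im_axis]; exact ha)
  have hub : 0 < ups f (b * I) := ups_pos hf hfi (by rw [im_axis]; exact hb)
  have ha1 := hu0 (f (a * I))
  have hb1 := hu0 (f (b * I))
  have hba : 0 < b / a := by positivity
  unfold vv
  rw [← mul_div_assoc, div_le_div_iff₀ (by linarith) (by linarith)]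
  calc ups f (a * I) * u0 (f (b * I))
      ≤ ((b / a) ^ 2 * ups f (b * I)) * ((b / a) * u0 (f (a * I))) :=
        mul_le_mul h1 h2 (by linarith) (by positivity)
    _ = _ := by ring

end growth

/-! ### scaling of the state functionals and dyadic sums with an arbitrary base -/

/-- the rescaled state map `z ↦ f (b₀ z)` -/
noncomputable def sc (b0 : ℝ) (f : ℂ → ℂ) : ℂ → ℂ := fun z => f ((b0 : ℂ) * z)

lemma sc_mem {b0 : ℝ} (hb0 : 0 < b0) {z : ℂ} (hz : z ∈ Hs) : ((b0 : ℂ) * z) ∈ Hs := by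
  change 0 < ((b0 : ℂ) * z).im
  have hz' : 0 < z.im := hz
  rw [Complex.im_ofReal_mul]; positivity

lemma sc_diff {b0 : ℝ} (hb0 : 0 < b0) (hf : DifferentiableOn ℂ f Hs) :
    DifferentiableOn ℂ (sc b0 f) Hs :=
  hf.comp (by fun_prop) fun _ hz => sc_mem hb0 hz

lemma sc_inj {b0 : ℝ} (hb0 : 0 < b0) (hfi : InjOn f Hs) : InjOn (sc b0 f) Hs := by
  intro x hx y hy h
  exact mul_left_cancel₀ (Complex.ofReal_ne_zero.2 hb0.ne')
    (hfi (sc_mem hb0 hx) (sc_mem hb0 hy) h)

lemma ups_sc {b0 : ℝ} (hb0 : 0 < b0) (z : ℂ) : ups (sc b0 f) z = ups f ((b0 : ℂ) * z) := by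
  unfold ups sc
  have h : deriv (fun z => f ((b0 : ℂ) * z)) z = (b0 : ℂ) * deriv f ((b0 : ℂ) * z) := by
    have := deriv_comp_mul_left (b0 : ℂ) f z
    simpa [smul_eq_mul] using this
  rw [h, norm_mul, Complex.norm_real, Real.norm_of_nonneg hb0.le, Complex.im_ofReal_mul]
  ring

lemma vv_sc {b0 : ℝ} (hb0 : 0 < b0) (y : ℝ) : vv u0 (sc b0 f) y = vv u0 f (b0 * y) := by
  unfold vv
  rw [ups_sc hb0]
  have e : (b0 : ℂ) * (y * I) = ((b0 * y : ℝ) : ℂ) * I := by push_cast; ring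
  rw [e]
  congr 2
  unfold sc
  rw [e]

lemma Jv_sc {b0 : ℝ} (hb0 : 0 < b0) (q y : ℝ) : Jv u0 q (sc b0 f) y = Jv u0 q f (b0 * y) := by
  unfold Jv
  have h1 : ∀ g : ℝ → ℝ≥0∞, ∫⁻ s, g (b0 * s) = ENNReal.ofReal (b0⁻¹) * ∫⁻ s, g s := by
    intro g
    have h2 : Measure.map (fun s : ℝ => b0 * s) volume = ENNReal.ofReal (b0⁻¹) • volume := by
      rw [Real.map_volume_mul_left hb0.ne', abs_of_pos (inv_pos.2 hb0)]
    have he : MeasurableEmbedding (fun s : ℝ => b0 * s) :=
      (Homeomorph.mulLeft₀ b0 hb0.ne').measurableEmbedding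
    rw [← he.lintegral_map, h2, lintegral_smul_measure, smul_eq_mul]
  have h3 := h1 ((Ioc 0 (b0 * y)).indicator
    (fun s => ENNReal.ofReal ((min (vv u0 f s) 1) ^ q / s)))
  rw [lintegral_indicator measurableSet_Ioc] at h3
  rw [← lintegral_indicator measurableSet_Ioc]
  have h4 : ∀ s, (Ioc 0 y).indicator
      (fun s => ENNReal.ofReal ((min (vv u0 (sc b0 f) s) 1) ^ q / s)) s =
      ENNReal.ofReal b0 * (Ioc 0 (b0 * y)).indicator
        (fun s => ENNReal.ofReal ((min (vv u0 f s) 1) ^ q / s)) (b0 * s) := by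
    intro s
    by_cases hs : s ∈ Ioc 0 y
    · have hs' : b0 * s ∈ Ioc 0 (b0 * y) :=
        ⟨mul_pos hb0 hs.1, mul_le_mul_of_nonneg_left hs.2 hb0.le⟩
      rw [indicator_of_mem hs, indicator_of_mem hs', vv_sc hb0, ← ENNReal.ofReal_mul hb0.le]
      congr 1
      have := hs.1
      field_simp
    · have hs' : b0 * s ∉ Ioc 0 (b0 * y) := by
        intro h
        exact hs ⟨pos_of_mul_pos_right (by simpa using h.1) hb0.le |> fun h => h,
          le_of_mul_le_mul_left h.2 hb0⟩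
      rw [indicator_of_notMem hs, indicator_of_notMem hs', mul_zero]
  simp only [h4]
  rw [lintegral_const_mul' _ _ ENNReal.ofReal_ne_top, h3, ← mul_assoc, ← ENNReal.ofReal_mul hb0.le,
    mul_inv_cancel₀ hb0.ne', ENNReal.ofReal_one, one_mul]

/-- `Σ_{2^k b₀ ≤ r} v(2^k b₀)^a ≤ 20 V^{a-q} J(2r)` if `v ≤ V ≤ 1` on `(0, r]`, `q ≤ a` -/
theorem dyad_base (hf : DifferentiableOn ℂ f Hs) (hfi : InjOn f Hs)
    (hu0 : ∀ p, 1 ≤ u0 p) (hl : ∀ p p' : ℂ, |u0 p - u0 p'| ≤ ‖p - p'‖)
    {q a r V b0 : ℝ} (hb0 : 0 < b0) (hq : 0 ≤ q) (hq1 : q ≤ 1) (hqa : q ≤ a) (hV1 : V ≤ 1)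
    (hv : ∀ y, 0 < y → y ≤ r → vv u0 f y ≤ V) :
    ∑' k : ℤ, (if (2 : ℝ) ^ k * b0 ≤ r then ENNReal.ofReal (vv u0 f ((2 : ℝ) ^ k * b0) ^ a) else 0) ≤
      ENNReal.ofReal (20 * V ^ (a - q)) * Jv u0 q f (2 * r) := by
  have h := LBStep.dyad (f := sc b0 f) (u0 := u0) (sc_diff hb0 hf) (sc_inj hb0 hfi) hu0 hl
    (q := q) (a := a) (r := r / b0) (V := V) hq hq1 hqa hV1 (by
      intro y hy hyr
      rw [vv_sc hb0]
      exact hv _ (by positivity) (by rw [le_div_iff₀ hb0] at hyr; linarith))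
  rw [Jv_sc hb0] at h
  have e : b0 * (2 * (r / b0)) = 2 * r := by field_simp
  rw [e] at h
  refine le_trans (le_of_eq ?_) h
  congr 1
  funext k
  rw [vv_sc hb0, mul_comm b0]
  simp only [le_div_iff₀ hb0]

end Crest.Agent.R162.LBSumJ
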