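import Mathlib
import Crest.Agent.R162.LBMeas
import Crest.Agent.R162.LBMeas2
import Crest.Agent.R162.LBST3
import Crest.Agent.R162.OPTr2

/-!
Row 162, node LBT (helper9): measurability of the step functionals at a measurable time `τ`
(`rad W τ`, `Jv f (10 rad τ)`, `Jv (st τ) (10 rad τ)`, `Λ (st τ)`, `A (st τ)`), along measurable
families of paths / maps, and for a fixed map and the Brownian driving path.
-/

set_option autoImplicit false

open Set MeasureTheory Filter Topology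
open scoped NNReal ENNReal
open Crest.ProbabilityR.Loewner

namespace Crest.Agent.R162.LBT

open Crest.Agent.R162.FL Crest.Agent.R162.FLC Crest.Agent.R162.LBM

section gen

variable {α : Type*} [MeasurableSpace α] {W : α → ℝ → ℝ} {F : α → ℂ → ℂ} {τ : α → ℝ}
  {u0 : ℂ → ℝ}

/-- the radius at a measurable time -/
theorem measurable_rad_at (hW : PFam W) (hτ : Measurable τ) (h0 : ∀ a, 0 ≤ τ a) :
    Measurable (fun a => LB.rad (W a) (τ a)) := by
  have h1 := measurable_joint_of_continuousOn (f := fun a t => LB.rad (W a) t)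
    (fun a => LBST.continuousOn_rad (hW.cont a))
    (fun s hs => LBST.measurable_rad hs (fun a => (hW.cont a).mono Icc_subset_Ici_self)
      (fun r hr => hW.meas r hr.1))
  have h2 := h1.comp (measurable_id.prodMk hτ)
  convert h2 using 1
  funext a
  simp [Function.comp, indicator_of_mem (show τ a ∈ Ici (0:ℝ) from h0 a)]

/-- the new state map is a measurable family -/
theorem mfam_st (hF : MFam F) (hW : PFam W) (hτ : Measurable τ) (h0 : ∀ a, 0 ≤ τ a) :
    MFam (fun a => F a ∘ ffl (W a) (τ a)) :=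
  hF.comp (hW.mfam hτ h0) (fun a _ hz => ffl_im_pos (hW.cont a) (h0 a) hz)

theorem measurable_Jv_rad_at (hF : MFam F) (hW : PFam W) (hu : Continuous u0) (q : ℝ)
    (hτ : Measurable τ) (h0 : ∀ a, 0 ≤ τ a) :
    Measurable (fun a => LB.Jv u0 q (F a) (10 * LB.rad (W a) (τ a))) :=
  (hF.Jv (q := q) hu).comp (measurable_id.prodMk ((measurable_rad_at hW hτ h0).const_mul 10))

theorem measurable_Jv_st_at (hF : MFam F) (hW : PFam W) (hu : Continuous u0) (q : ℝ)
    (hτ : Measurable τ) (h0 : ∀ a, 0 ≤ τ a) :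
    Measurable (fun a => LB.Jv u0 q (F a ∘ ffl (W a) (τ a)) (10 * LB.rad (W a) (τ a))) :=
  measurable_Jv_rad_at (mfam_st hF hW hτ h0) hW hu q hτ h0

theorem measurable_Lam_st_at (hF : MFam F) (hW : PFam W) (hu : Continuous u0) (q η : ℝ)
    (hτ : Measurable τ) (h0 : ∀ a, 0 ≤ τ a) :
    Measurable (fun a => LB.Lam u0 q η (F a ∘ ffl (W a) (τ a))) :=
  (mfam_st hF hW hτ h0).Lam hu

theorem measurable_area_st_at (hF : MFam F) (hi : ∀ a, InjOn (F a) {z : ℂ | 0 < z.im})
    (hW : PFam W) (hu : Continuous u0) (η θ1 : ℝ) (hτ : Measurable τ) (h0 : ∀ a, 0 ≤ τ a) :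
    Measurable (fun a => LB.area u0 η θ1 (F a ∘ ffl (W a) (τ a))) := by
  refine (mfam_st hF hW hτ h0).area (fun a => ?_) hu θ1
  exact (hi a).comp (injOn_ffl (hW.cont a) (h0 a))
    (fun _ hz => ffl_im_pos (hW.cont a) (h0 a) hz)

end gen

/-! ### the fixed-map, Brownian forms -/

section bm

open OS

variable {Ω : Type*} {m : MeasurableSpace Ω} {P : Measure Ω} {Fl : Filtration ℝ≥0 m}
  {B : ℝ≥0 → Ω → ℝ} {f : ℂ → ℂ} {τ : Ω → ℝ} (p : LB.Par)

theorem pfam_driving (hB : IsBM Fl B P) (κ : ℝ) : PFam (fun ω => driving κ B ω) where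
  cont ω := (OPTr.driving_cont hB κ ω).continuousOn
  meas s hs := (OPTr.driving_meas hB κ s.toNNReal
    (s := s) ⟨hs, (Real.coe_toNNReal s hs).ge⟩).mono (Fl.le _) le_rfl

/-- adapted version: the path stopped at `t` is a family for `Fl t` -/
theorem pfam_driving_stopped (hB : IsBM Fl B P) (κ : ℝ) (t : ℝ≥0) :
    @PFam Ω (Fl t) (fun ω s => driving κ B ω (min s t)) :=
  @PFam.mk Ω (Fl t) _ (fun ω => ((OPTr.driving_cont hB κ ω).comp
      (continuous_id.min continuous_const)).continuousOn)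
    (fun s hs => OPTr.driving_meas hB κ t (s := min s t)
      ⟨le_min hs t.2, min_le_right _ _⟩)

variable {κ : ℝ}

theorem measurable_rad_T (hB : IsBM Fl B P) (hτ : Measurable τ) (h0 : ∀ ω, 0 ≤ τ ω) :
    Measurable (fun ω => LB.rad (driving κ B ω) (τ ω)) :=
  measurable_rad_at (pfam_driving hB κ) hτ h0

theorem measurable_Jv_T (hB : IsBM Fl B P) (hf : DifferentiableOn ℂ f {z : ℂ | 0 < z.im})
    (hu : Continuous p.u0) (hτ : Measurable τ) (h0 : ∀ ω, 0 ≤ τ ω) :
    Measurable (fun ω => LB.Jv p.u0 p.q f (10 * LB.rad (driving κ B ω) (τ ω))) :=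
  measurable_Jv_rad_at (MFam.const hf) (pfam_driving hB κ) hu p.q hτ h0

theorem measurable_Jv_st_T (hB : IsBM Fl B P) (hf : DifferentiableOn ℂ f {z : ℂ | 0 < z.im})
    (hu : Continuous p.u0) (hτ : Measurable τ) (h0 : ∀ ω, 0 ≤ τ ω) :
    Measurable (fun ω => LB.Jv p.u0 p.q (LB.Par.st f (driving κ B ω) (τ ω))
      (10 * LB.rad (driving κ B ω) (τ ω))) :=
  measurable_Jv_st_at (MFam.const hf) (pfam_driving hB κ) hu p.q hτ h0

theorem measurable_Lam_st_T (hB : IsBM Fl B P) (hf : DifferentiableOn ℂ f {z : ℂ | 0 < z.im})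
    (hu : Continuous p.u0) (hτ : Measurable τ) (h0 : ∀ ω, 0 ≤ τ ω) :
    Measurable (fun ω => p.Λ (LB.Par.st f (driving κ B ω) (τ ω))) :=
  measurable_Lam_st_at (MFam.const hf) (pfam_driving hB κ) hu p.q p.η hτ h0

theorem measurable_A_st_T (hB : IsBM Fl B P) (hf : DifferentiableOn ℂ f {z : ℂ | 0 < z.im})
    (hi : InjOn f {z : ℂ | 0 < z.im}) (hu : Continuous p.u0) (hτ : Measurable τ)
    (h0 : ∀ ω, 0 ≤ τ ω) :
    Measurable (fun ω => p.A (LB.Par.st f (driving κ B ω) (τ ω))) :=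
  measurable_area_st_at (MFam.const hf) (fun _ => hi) (pfam_driving hB κ) hu p.η (p.θ / 10) hτ h0

end bm

end Crest.Agent.R162.LBT
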