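import Crest.Agent.R162.LBSkel
import Crest.Agent.R162.LBStepIn2
import Crest.Agent.R162.KB1H
import Crest.Agent.R162.FLC3

/-!
Row 162, sub-node LBsS (helper426): the new state map of a step is again a start map.
-/

set_option autoImplicit false

open MeasureTheory ProbabilityTheory Filter Topology Set Complex
open scoped NNReal ENNReal

noncomputable section

namespace Crest.Agent.R162.LBsS

open Crest.Agent.R162.FL Crest.Agent.R162.OS Crest.Agent.R162.LB Crest.Agent.R162.LBS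
open Crest.ProbabilityR.Loewner

universe u

variable {W : ℝ → ℝ} {t : ℝ} {f : ℂ → ℂ} {u0 : ℂ → ℝ}

lemma im_yI (y : ℝ) : ((y : ℂ) * I).im = y := by simp

lemma mapsTo_ffl (hW : ContinuousOn W (Ici 0)) (ht : 0 ≤ t) :
    MapsTo (ffl W t) {z : ℂ | 0 < z.im} {z : ℂ | 0 < z.im} := fun _ hz => FLC.ffl_im_pos hW ht hz

lemma univ_comp (hW : ContinuousOn W (Ici 0)) (ht : 0 ≤ t) (hf : Univ f) :
    Univ (f ∘ ffl W t) :=
  ⟨hf.diff.comp (FLC.differentiableOn_ffl hW ht) (mapsTo_ffl hW ht),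
    hf.inj.comp (FLC.injOn_ffl hW ht) (mapsTo_ffl hW ht)⟩

lemma deriv_comp_ffl (hW : ContinuousOn W (Ici 0)) (ht : 0 ≤ t)
    (hf : DifferentiableOn ℂ f {z : ℂ | 0 < z.im}) {z : ℂ} (hz : 0 < z.im) :
    deriv (f ∘ ffl W t) z = deriv f (ffl W t z) * deriv (ffl W t) z := by
  have h1 : DifferentiableAt ℂ (ffl W t) z :=
    (FLC.differentiableOn_ffl hW ht).differentiableAt (FLC.isOpen_H.mem_nhds hz)
  have h2 : DifferentiableAt ℂ f (ffl W t z) :=
    hf.differentiableAt (FLC.isOpen_H.mem_nhds (mapsTo_ffl hW ht hz))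
  exact deriv_comp z h2 h1

/-- hyperbolic displacement of `iy` -/
lemma hd_yI_le (hW : ContinuousOn W (Ici 0)) (ht : 0 ≤ t) {y : ℝ} (hy : 1 ≤ y) :
    KB1.hd (y * I) (ffl W t (y * I)) ≤ (|W t| + 2 * t) / y := by
  have hy0 : 0 < y := by linarith
  have hz : 0 < ((y : ℂ) * I).im := by rw [im_yI]; exact hy0
  have h1 := FLC.norm_ffl_sub_le hW ht hz
  have h2 := FLC.im_le_ffl hW ht hz
  rw [im_yI] at h1 h2
  have hz' : 0 < (ffl W t (y * I)).im := by linarith
  refine (KB1.hd_le_div hz hz').trans ?_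
  rw [im_yI]
  have h3 : y ≤ √(y * (ffl W t (y * I)).im) := by
    rw [Real.le_sqrt hy0.le (by positivity)]
    nlinarith
  have h4 : ‖(y : ℂ) * I - ffl W t (y * I)‖ ≤ |W t| + 2 * t := by
    rw [norm_sub_rev]
    have e : ffl W t (y * I) - y * I = (ffl W t (y * I) - (y * I + W t)) + (W t : ℂ) := by ring
    rw [e]
    refine (norm_add_le _ _).trans ?_
    rw [Complex.norm_real, Real.norm_eq_abs]
    have h5 : 2 * t / y ≤ 2 * t := by
      rw [div_le_iff₀ hy0]
      nlinarith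
    linarith
  have h6 : 0 ≤ |W t| + 2 * t := by positivity
  gcongr

lemma tendsto_hd (hW : ContinuousOn W (Ici 0)) (ht : 0 ≤ t) :
    Tendsto (fun y : ℝ => KB1.hd (y * I) (ffl W t (y * I))) atTop (𝓝 0) := by
  have h1 : Tendsto (fun y : ℝ => (|W t| + 2 * t) / y) atTop (𝓝 0) :=
    tendsto_const_nhds.div_atTop tendsto_id
  refine tendsto_of_tendsto_of_tendsto_of_le_of_le' tendsto_const_nhds h1
    (Eventually.of_forall fun y => KB1.hd_nonneg _ _) ?_
  filter_upwards [eventually_ge_atTop 1] with y hy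
  exact hd_yI_le hW ht hy

lemma tendsto_im (hW : ContinuousOn W (Ici 0)) (ht : 0 ≤ t) :
    Tendsto (fun y : ℝ => y / (ffl W t (y * I)).im) atTop (𝓝 1) := by
  have h1 := tendsto_hd hW ht
  have h2 : Tendsto (fun y : ℝ => Real.exp (-KB1.hd (y * I) (ffl W t (y * I)))) atTop (𝓝 1) := by
    have := (Real.continuous_exp.tendsto _).comp h1.neg
    simpa [Function.comp_def] using this
  refine tendsto_of_tendsto_of_tendsto_of_le_of_le' h2 tendsto_const_nhds ?_ ?_
  · filter_upwards [eventually_ge_atTop 1] with y hy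
    have hy0 : 0 < y := by linarith
    have hz : 0 < ((y : ℂ) * I).im := by rw [im_yI]; exact hy0
    have hz' : 0 < (ffl W t (y * I)).im := FLC.ffl_im_pos hW ht hz
    have h3 := (abs_le.1 (KB1.abs_log_im_le_hd hz hz')).1
    rw [im_yI] at h3
    rw [← Real.exp_log (div_pos hy0 hz'), Real.log_div hy0.ne' hz'.ne']
    exact Real.exp_le_exp.2 h3
  · filter_upwards [eventually_ge_atTop 1] with y hy
    have hy0 : 0 < y := by linarith
    have hz : 0 < ((y : ℂ) * I).im := by rw [im_yI]; exact hy0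
    have h2 := FLC.im_le_ffl hW ht hz
    rw [im_yI] at h2
    rw [div_le_one (by linarith)]
    exact h2

lemma tendsto_deriv (hW : ContinuousOn W (Ici 0)) (ht : 0 ≤ t) :
    Tendsto (fun y : ℝ => ‖deriv (ffl W t) (y * I)‖) atTop (𝓝 1) := by
  set r := max (√t) |W t| with hr
  have hr0 : 0 ≤ r := (Real.sqrt_nonneg t).trans (le_max_left _ _)
  have htr : t ≤ r ^ 2 := by
    calc t = √t ^ 2 := (Real.sq_sqrt ht).symm
      _ ≤ r ^ 2 := pow_le_pow_left₀ (Real.sqrt_nonneg t) (le_max_left _ _) 2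
  have h1 : Tendsto (fun y : ℝ => Real.exp (2 * r ^ 2 / y ^ 2) - 1) atTop (𝓝 0) := by
    have : Tendsto (fun y : ℝ => 2 * r ^ 2 / y ^ 2) atTop (𝓝 0) :=
      tendsto_const_nhds.div_atTop (tendsto_pow_atTop (by norm_num))
    have := ((Real.continuous_exp.tendsto _).comp this).sub_const 1
    simpa using this
  have h2 : Tendsto (fun y : ℝ => deriv (ffl W t) (y * I) - 1) atTop (𝓝 0) := by
    refine squeeze_zero_norm' ?_ h1
    filter_upwards [eventually_gt_atTop 0] with y hy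
    exact FLC.norm_deriv_ffl_I_sub_one_le hW ht htr hy
  have h3 : Tendsto (fun y : ℝ => deriv (ffl W t) (y * I)) atTop (𝓝 1) := by
    have := h2.add_const 1
    simpa using this
  simpa using h3.norm

/-- **stability of `v → 1` at infinity** under `f ↦ f ∘ ffl W t`. -/
theorem vt_comp (hu : LipschitzWith 1 u0) (hu1 : ∀ z, 1 ≤ u0 z) (hW : ContinuousOn W (Ici 0))
    (ht : 0 ≤ t) (hf : Univ f) (hv : Tendsto (vv u0 f) atTop (𝓝 1)) :
    Tendsto (vv u0 (f ∘ ffl W t)) atTop (𝓝 1) := by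
  have hd0 := tendsto_hd hW ht
  -- ratio of `ups`
  have hE : Tendsto (fun y : ℝ => Real.exp (2 * KB1.hd (y * I) (ffl W t (y * I)))) atTop (𝓝 1) := by
    have := (Real.continuous_exp.tendsto _).comp (hd0.const_mul 2)
    simpa [Function.comp_def] using this
  have hE' : Tendsto (fun y : ℝ => Real.exp (-(2 * KB1.hd (y * I) (ffl W t (y * I))))) atTop
      (𝓝 1) := by
    have := (Real.continuous_exp.tendsto _).comp (hd0.const_mul 2).neg
    simpa [Function.comp_def] using this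
  have hup : Tendsto (fun y : ℝ => KB1.ups f (ffl W t (y * I)) / KB1.ups f (y * I)) atTop
      (𝓝 1) := by
    refine tendsto_of_tendsto_of_tendsto_of_le_of_le' hE' hE ?_ ?_
    · filter_upwards [eventually_ge_atTop 1] with y hy
      have hy0 : 0 < y := by linarith
      have hz : 0 < ((y : ℂ) * I).im := by rw [im_yI]; exact hy0
      have hz' : 0 < (ffl W t (y * I)).im := FLC.ffl_im_pos hW ht hz
      have h0 := KB1.ups_pos hf.diff hf.inj hz
      rw [le_div_iff₀ h0]
      exact (le_of_eq (mul_comm _ _)).trans (KB1.exp_neg_le_ups hf.diff hf.inj hz hz')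
    · filter_upwards [eventually_ge_atTop 1] with y hy
      have hy0 : 0 < y := by linarith
      have hz : 0 < ((y : ℂ) * I).im := by rw [im_yI]; exact hy0
      have hz' : 0 < (ffl W t (y * I)).im := FLC.ffl_im_pos hW ht hz
      have h0 := KB1.ups_pos hf.diff hf.inj hz
      rw [div_le_iff₀ h0]
      exact (KB1.ups_le_exp hf.diff hf.inj hz hz').trans (le_of_eq (mul_comm _ _))
  have hu0 : ∀ z, 0 < u0 z := fun z => lt_of_lt_of_le one_pos (hu1 z)
  have hur : Tendsto (fun y : ℝ => u0 (f (ffl W t (y * I))) / u0 (f (y * I))) atTop (𝓝 1) := by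
    have h1 : Tendsto (fun y : ℝ => vv u0 f y *
        ((Real.exp (2 * KB1.hd (y * I) (ffl W t (y * I))) - 1) / 2)) atTop (𝓝 0) := by
      have := hv.mul ((hE.sub_const 1).div_const 2)
      simpa using this
    have h2 : Tendsto (fun y : ℝ => u0 (f (ffl W t (y * I))) / u0 (f (y * I)) - 1) atTop
        (𝓝 0) := by
      refine squeeze_zero_norm' ?_ h1
      filter_upwards [eventually_ge_atTop 1] with y hy
      have hy0 : 0 < y := by linarith
      have hz : 0 < ((y : ℂ) * I).im := by rw [im_yI]; exact hy0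
      have hz' : 0 < (ffl W t (y * I)).im := FLC.ffl_im_pos hW ht hz
      have h3 := KB1.norm_sub_le_exp hf.diff hf.inj hz hz'
      have h4 : |u0 (f (ffl W t (y * I))) - u0 (f (y * I))| ≤
          ‖f (ffl W t (y * I)) - f (y * I)‖ := by
        have := hu.dist_le_mul (f (ffl W t (y * I))) (f (y * I))
        rw [Real.dist_eq, dist_eq_norm] at this
        simpa using this
      have h5 : u0 (f (ffl W t (y * I))) / u0 (f (y * I)) - 1 =
          (u0 (f (ffl W t (y * I))) - u0 (f (y * I))) / u0 (f (y * I)) := by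
        field_simp [(hu0 (f (y * I))).ne']
      rw [h5, norm_div, Real.norm_eq_abs, Real.norm_eq_abs, abs_of_pos (hu0 (f (y * I))),
        div_le_iff₀ (hu0 _)]
      refine (h4.trans h3).trans (le_of_eq ?_)
      unfold vv
      field_simp [(hu0 (f (y * I))).ne']
    have := h2.add_const 1
    simpa using this
  have hall := (((hv.mul hup).mul (tendsto_im hW ht)).mul (tendsto_deriv hW ht)).div hur one_ne_zero
  simp only [mul_one, div_one] at hall
  refine hall.congr' ?_
  filter_upwards [eventually_ge_atTop 1] with y hy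
  have hy0 : 0 < y := by linarith
  have hz : 0 < ((y : ℂ) * I).im := by rw [im_yI]; exact hy0
  have hz' : 0 < (ffl W t (y * I)).im := FLC.ffl_im_pos hW ht hz
  have h0 := (KB1.ups_pos hf.diff hf.inj hz).ne'
  have h1 := (hu0 (f (y * I))).ne'
  have h2 := (hu0 (f (ffl W t (y * I)))).ne'
  simp only [Pi.div_apply]
  have e : KB1.ups (f ∘ ffl W t) (y * I) =
      KB1.ups f (ffl W t (y * I)) * (y / (ffl W t (y * I)).im) * ‖deriv (ffl W t) (y * I)‖ := by
    unfold KB1.ups
    rw [deriv_comp_ffl hW ht hf.diff hz, norm_mul, im_yI]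
    field_simp [hz'.ne']
  unfold vv
  rw [e, Function.comp_apply]
  field_simp

/-! ### finiteness of `J` -/

lemma ups_nonneg' (g : ℂ → ℂ) {y : ℝ} (hy : 0 ≤ y) : 0 ≤ KB1.ups g (y * I) := by
  unfold KB1.ups
  rw [im_yI]
  positivity

lemma Jv_mono {q : ℝ} {g : ℂ → ℂ} {a b : ℝ} (h : a ≤ b) : Jv u0 q g a ≤ Jv u0 q g b :=
  lintegral_mono_set (Ioc_subset_Ioc_right h)

lemma Jv_ne_top_of {q : ℝ} (hq : 0 ≤ q) (hu1 : ∀ z, 1 ≤ u0 z) {g : ℂ → ℂ} {a : ℝ} (ha : 0 < a)
    (h : Jv u0 q g a ≠ ⊤) (b : ℝ) : Jv u0 q g b ≠ ⊤ := by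
  rcases le_total b a with hba | hab
  · exact ne_top_of_le_ne_top h (Jv_mono hba)
  have hsplit : Jv u0 q g b ≤ Jv u0 q g a + ∫⁻ s in Ioc a b, ENNReal.ofReal (1 / s) := by
    unfold Jv
    rw [← Ioc_union_Ioc_eq_Ioc ha.le hab]
    refine (lintegral_union_le _ _ _).trans (add_le_add le_rfl ?_)
    refine setLIntegral_mono' measurableSet_Ioc fun s hs => ?_
    have hs0 : 0 < s := ha.trans hs.1
    refine ENNReal.ofReal_le_ofReal ?_
    have hv0 : 0 ≤ min (vv u0 g s) 1 := by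
      refine le_min ?_ zero_le_one
      exact div_nonneg (ups_nonneg' g hs0.le) (zero_le_one.trans (hu1 _))
    gcongr
    exact Real.rpow_le_one hv0 (min_le_right _ _) hq
  refine ne_top_of_le_ne_top (ENNReal.add_ne_top.2 ⟨h, ?_⟩) hsplit
  have hb : ∫⁻ s in Ioc a b, ENNReal.ofReal (1 / s) ≤ ∫⁻ _ in Ioc a b, ENNReal.ofReal (1 / a) := by
    refine setLIntegral_mono' measurableSet_Ioc fun s hs => ENNReal.ofReal_le_ofReal ?_
    exact one_div_le_one_div_of_le ha hs.1.le
  refine ne_top_of_le_ne_top ?_ hb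
  rw [lintegral_const]
  refine ENNReal.mul_ne_top ENNReal.ofReal_ne_top ?_
  simp

/-! ### the final theorem -/

lemma ffl_zero (hW : ContinuousOn W (Ici 0)) (hW0 : W 0 = 0) {z : ℂ} (hz : 0 < z.im) :
    ffl W 0 z = z := by
  have h1 := FLC.gfl_ffl hW le_rfl hz
  rw [FLC.gfl_zero_ffl hW le_rfl hz, hW0] at h1
  simpa using h1

lemma vv_ffl_zero (hW : ContinuousOn W (Ici 0)) (hW0 : W 0 = 0) {y : ℝ} (hy : 0 < y) :
    vv u0 (f ∘ ffl W 0) y = vv u0 f y := by
  have hz : 0 < ((y : ℂ) * I).im := by rw [im_yI]; exact hy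
  have h1 : (f ∘ ffl W 0) =ᶠ[𝓝 ((y : ℂ) * I)] f := by
    filter_upwards [FLC.isOpen_H.mem_nhds hz] with z hz
    rw [Function.comp_apply, ffl_zero hW hW0 hz]
  unfold vv KB1.ups
  rw [h1.deriv_eq, h1.self_of_nhds]

lemma Jv_ffl_zero {q : ℝ} (hW : ContinuousOn W (Ici 0)) (hW0 : W 0 = 0) (y : ℝ) :
    Jv u0 q (f ∘ ffl W 0) y = Jv u0 q f y := by
  unfold Jv
  refine setLIntegral_congr_fun measurableSet_Ioc fun s hs => ?_
  rw [vv_ffl_zero hW hW0 hs.1]

lemma drive_of {Ω : Type*} {m : MeasurableSpace Ω} {P : Measure Ω} {F : Filtration ℝ≥0 m}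
    {B : ℝ≥0 → Ω → ℝ} (hB : IsBM F B P) (κ : ℝ) (ω : Ω) : Drive (driving κ B ω) := by
  constructor
  · unfold driving
    exact (continuous_const.mul ((hB.cont ω).comp continuous_real_toNNReal)).continuousOn
  · simp [driving, hB.zero ω]

/-- deterministic part: the new map is a start map as soon as the new potential near the tip is
finite. -/
theorem start_of {p : Par} (hp : Ok p) {CV cJ : ℝ} (h1 : LB1S CV cJ p) (hf : Start p f)
    (hW : Drive W) (hJ : Jv p.u0 p.q (Par.st f W (p.T f W)) (10 * rad W (p.T f W)) ≠ ⊤) :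
    Start p (Par.st f W (p.T f W)) := by
  have hT := T_nonneg p f W
  refine ⟨univ_comp hW.cont hT hf.univ,
    vt_comp hp.adm.lip hp.adm.one_le hW.cont hT hf.univ hf.v_tendsto, ?_, ?_⟩
  · have h := h1 f hf W hW
    refine ne_top_of_le_ne_top ?_ (le_self_add.trans h)
    refine ENNReal.add_ne_top.2 ⟨hf.lam, ENNReal.mul_ne_top ENNReal.ofReal_ne_top ?_⟩
    exact ENNReal.add_ne_top.2 ⟨ENNReal.one_ne_top, hJ⟩
  · intro y
    rcases (rad_nonneg W (p.T f W)).eq_or_lt with h0 | h0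
    · have hT0 : p.T f W = 0 := by
        have h2 := sqrt_le_rad W (p.T f W)
        rw [← h0] at h2
        have h3 := (Real.sqrt_eq_zero hT).1 (le_antisymm h2 (Real.sqrt_nonneg _))
        exact h3
      rw [hT0]
      unfold Par.st
      rw [Jv_ffl_zero hW.cont hW.zero]
      exact hf.J_ne_top y
    · exact Jv_ne_top_of hp.q0.le hp.adm.one_le (by positivity) hJ y

/-- **LBsS** (310's frozen form) from LB1S (791) and the tail of the new potential (561's ZtS). -/
theorem lbsS {p : Par} (hp : Ok p) {CV cJ D a : ℝ} (ha : 0 < a) (h1 : LB1S CV cJ p)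
    (hZ : LBStep.ZtS.{u} D a p) : LBsS.{u} p := by
  intro Ω _ P _ F B hB f hf
  have hz := hZ Ω P F B hB f hf
  have h0 : P {ω | Jv p.u0 p.q (Par.st f (driving p.κ B ω) (p.T f (driving p.κ B ω)))
      (10 * rad (driving p.κ B ω) (p.T f (driving p.κ B ω))) = ⊤} = 0 := by
    have hlim : Tendsto (fun n : ℕ => ENNReal.ofReal (D * Real.exp (-(a * n)))) atTop
        (𝓝 (ENNReal.ofReal (D * 0))) := by
      refine (ENNReal.continuous_ofReal.tendsto _).comp (Tendsto.const_mul D ?_)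
      refine Real.tendsto_exp_neg_atTop_nhds_zero.comp ?_
      exact tendsto_natCast_atTop_atTop.const_mul_atTop ha
    rw [mul_zero, ENNReal.ofReal_zero] at hlim
    refine le_antisymm (ge_of_tendsto' hlim fun n => ?_) bot_le
    refine (measure_mono ?_).trans (hz n)
    intro ω hω
    simp only [mem_ofPred_eq] at hω ⊢
    rw [hω]
    exact ENNReal.ofReal_lt_top
  rw [ae_iff]
  refine measure_mono_null ?_ h0
  intro ω hω
  simp only [mem_ofPred_eq] at hω ⊢
  by_contra hne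
  exact hω (start_of hp h1 hf (drive_of hB p.κ ω) hne)

theorem lbsS_small {κ c1 q η cs K4 K3 CV cJ D a : ℝ} (ha : 0 < a)
    (h1 : ForSmall κ c1 q η cs K4 K3 (LB1S CV cJ))
    (hZ : ForSmall κ c1 q η cs K4 K3 (LBStep.ZtS.{u} D a)) :
    ForSmall κ c1 q η cs K4 K3 LBsS.{u} := by
  obtain ⟨θ1, hθ1, h1⟩ := h1
  obtain ⟨θ2, hθ2, h2⟩ := hZ
  refine ⟨min θ1 θ2, lt_min hθ1 hθ2, fun θ hθ hle => ?_⟩
  obtain ⟨ε1, hε1, h1⟩ := h1 θ hθ (hle.trans (min_le_left _ _))
  obtain ⟨ε2, hε2, h2⟩ := h2 θ hθ (hle.trans (min_le_right _ _))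
  refine ⟨min ε1 ε2, lt_min hε1 hε2, fun ε hε hle B u0 hok => ?_⟩
  exact lbsS hok ha (h1 ε hε (hle.trans (min_le_left _ _)) B u0 hok)
    (h2 ε hε (hle.trans (min_le_right _ _)) B u0 hok)

end Crest.Agent.R162.LBsS
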