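import Mathlib
import Crest.Prelude.Def_Loewner

/-!
Mass distribution principle for the gauge measure of row 162, without weak limits.
-/

set_option autoImplicit false

open MeasureTheory Filter Topology Set Metric
open scoped ENNReal NNReal
open Crest.ProbabilityR.Loewner

namespace Crest.Agent.R162.MD

variable {κ : ℝ}

/-- the cut radius -/
noncomputable def r1 : ℝ := Real.exp (-Real.exp 1)

lemma r1_pos : 0 < r1 := Real.exp_pos _

lemma one_le_exp_one : (1 : ℝ) ≤ Real.exp 1 := by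
  have := Real.add_one_le_exp (1 : ℝ)
  linarith

lemma r1_le_one : r1 ≤ 1 := by
  unfold r1
  have := one_le_exp_one
  exact Real.exp_le_one_iff.2 (by linarith)

lemma log_inv_ge {x : ℝ} (hx : 0 < x) (hx1 : x ≤ r1) : Real.exp 1 ≤ Real.log (1 / x) := by
  rw [one_div, Real.log_inv]
  have h := Real.log_le_log hx hx1
  unfold r1 at h
  rw [Real.log_exp] at h
  linarith

lemma loglog_ge {x : ℝ} (hx : 0 < x) (hx1 : x ≤ r1) :
    1 ≤ Real.log (Real.log (1 / x)) := by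
  have h := log_inv_ge hx hx1
  have := Real.log_le_log (Real.exp_pos 1) h
  rwa [Real.log_exp] at this

lemma gaugeReal_zero (hκ : 0 < κ) : gaugeReal κ 0 = 0 := by
  unfold gaugeReal dimParam
  have h : min (0 : ℝ) (Real.exp (-Real.exp 1)) = 0 := min_eq_left (Real.exp_pos _).le
  rw [h, Real.zero_rpow (by positivity), zero_mul]

lemma gaugeReal_nonneg {x : ℝ} (hx : 0 ≤ x) : 0 ≤ gaugeReal κ x := by
  unfold gaugeReal
  rcases hx.eq_or_lt with h | h
  · subst h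
    have h : min (0 : ℝ) (Real.exp (-Real.exp 1)) = 0 := min_eq_left (Real.exp_pos _).le
    rw [h]
    have : Real.log (1 / (0:ℝ)) = 0 := by simp
    rw [this, Real.log_zero]
    positivity
  · have hm : 0 < min x (Real.exp (-Real.exp 1)) := lt_min h (Real.exp_pos _)
    have := loglog_ge hm (min_le_right _ _)
    have h0 : 0 ≤ Real.log (Real.log (1 / min x (Real.exp (-Real.exp 1)))) := by linarith
    positivity

lemma gaugeReal_continuousAt (_hκ : 0 < κ) {x : ℝ} (hx : 0 < x) : ContinuousAt (gaugeReal κ) x := by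
  unfold gaugeReal
  have hm : 0 < min x (Real.exp (-Real.exp 1)) := lt_min hx (Real.exp_pos _)
  have hl := log_inv_ge hm (min_le_right _ _)
  have hll := loglog_ge hm (min_le_right _ _)
  have hmin : ContinuousAt (fun x : ℝ => min x (Real.exp (-Real.exp 1))) x :=
    (continuous_id.min continuous_const).continuousAt
  have h1 : ContinuousAt (fun x : ℝ => 1 / min x (Real.exp (-Real.exp 1))) x :=
    continuousAt_const.div hmin hm.ne'
  have h2 : ContinuousAt (fun x : ℝ => Real.log (1 / min x (Real.exp (-Real.exp 1)))) x :=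
    h1.log (by positivity)
  have h3 : ContinuousAt
      (fun x : ℝ => Real.log (Real.log (1 / min x (Real.exp (-Real.exp 1))))) x :=
    h2.log (by have := Real.exp_pos 1; linarith)
  exact (hmin.rpow_const (Or.inl hm.ne')).mul (h3.rpow_const (Or.inl (by linarith)))

lemma gaugeReal_le_small (_hκ : 0 < κ) (hκ8 : κ < 8) {x : ℝ} (hx : 0 < x) (hx1 : x ≤ r1) :
    gaugeReal κ x ≤ x * Real.log (1 / x) := by
  unfold gaugeReal
  have hmin : min x (Real.exp (-Real.exp 1)) = x := min_eq_left hx1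
  rw [hmin]
  have hl := log_inv_ge hx hx1
  have hll := loglog_ge hx hx1
  have h1e := one_le_exp_one
  have hA : x ^ dimParam κ ≤ x := by
    have : x ^ dimParam κ ≤ x ^ (1 : ℝ) :=
      Real.rpow_le_rpow_of_exponent_ge hx (hx1.trans r1_le_one) (by unfold dimParam; linarith)
    simpa using this
  have hB : Real.log (Real.log (1 / x)) ^ ((2 - dimParam κ) / 2) ≤ Real.log (1 / x) := by
    have e0 : 0 ≤ (2 - dimParam κ) / 2 := by unfold dimParam; linarith
    have e1 : (2 - dimParam κ) / 2 ≤ 1 := by unfold dimParam; linarith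
    calc Real.log (Real.log (1 / x)) ^ ((2 - dimParam κ) / 2)
        ≤ Real.log (Real.log (1 / x)) ^ (1 : ℝ) :=
          Real.rpow_le_rpow_of_exponent_le hll e1
      _ = Real.log (Real.log (1 / x)) := Real.rpow_one _
      _ ≤ Real.log (1 / x) := by
          have := Real.log_le_sub_one_of_pos (show 0 < Real.log (1 / x) by linarith)
          linarith
  exact mul_le_mul hA hB (by have : 0 ≤ Real.log (Real.log (1/x)) := by linarith
                             positivity) hx.le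

lemma gaugeReal_tendsto_zero (hκ : 0 < κ) (hκ8 : κ < 8) :
    Tendsto (gaugeReal κ) (𝓝[>] 0) (𝓝 0) := by
  have h1 : Tendsto (fun x : ℝ => x * Real.log (1 / x)) (𝓝[>] 0) (𝓝 0) := by
    have : Continuous (fun x : ℝ => -(x * Real.log x)) := Real.continuous_mul_log.neg
    have h := this.tendsto 0
    simp only [zero_mul, neg_zero] at h
    refine (h.mono_left nhdsWithin_le_nhds).congr fun x => ?_
    rw [one_div, Real.log_inv]; ring
  refine tendsto_of_tendsto_of_tendsto_of_le_of_le' tendsto_const_nhds h1 ?_ ?_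
  · filter_upwards [self_mem_nhdsWithin] with x hx using gaugeReal_nonneg (le_of_lt hx)
  · have : Ioc (0:ℝ) r1 ∈ 𝓝[>] (0:ℝ) := Ioc_mem_nhdsGT r1_pos
    filter_upwards [this] with x hx using gaugeReal_le_small hκ hκ8 hx.1 hx.2

/-- the gauge is right continuous at every `x ≥ 0`. -/
lemma gaugeReal_rightCont (hκ : 0 < κ) (hκ8 : κ < 8) {x : ℝ} (hx : 0 ≤ x) :
    Tendsto (gaugeReal κ) (𝓝[>] x) (𝓝 (gaugeReal κ x)) := by
  rcases hx.eq_or_lt with h | h
  · subst h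
    rw [gaugeReal_zero hκ]
    exact gaugeReal_tendsto_zero hκ hκ8
  · exact (gaugeReal_continuousAt hκ h).tendsto.mono_left nhdsWithin_le_nhds

theorem continuous_gaugeReal (hκ : 0 < κ) (hκ8 : κ < 8) : ContinuousOn (gaugeReal κ) (Ici 0) := by
  intro x hx
  rcases (mem_Ici.1 hx).eq_or_lt with h | h
  · subst h
    rw [← continuousWithinAt_Ioi_iff_Ici]
    exact gaugeReal_rightCont hκ hκ8 le_rfl
  · exact (gaugeReal_continuousAt hκ h).continuousWithinAt

/-- enlarging a radius slightly costs little -/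
lemma exists_radius (hκ : 0 < κ) (hκ8 : κ < 8) {x a b : ℝ} (hx : 0 ≤ x) (ha : x < a) (hb : 0 < b) :
    ∃ r, x < r ∧ r ≤ a ∧ gaugeExt κ (ENNReal.ofReal r) ≤
      gaugeExt κ (ENNReal.ofReal x) + ENNReal.ofReal b := by
  have h := gaugeReal_rightCont hκ hκ8 hx
  have h2 : ∀ᶠ r in 𝓝[>] x, gaugeReal κ r < gaugeReal κ x + b :=
    h.eventually (gt_mem_nhds (by linarith))
  have h3 : ∀ᶠ r in 𝓝[>] x, r ∈ Ioc x a := Ioc_mem_nhdsGT ha
  obtain ⟨r, hr1, hr2⟩ := (h2.and h3).exists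
  refine ⟨r, hr2.1, hr2.2, ?_⟩
  unfold gaugeExt
  rw [ENNReal.toReal_ofReal hx, ENNReal.toReal_ofReal (hx.trans hr2.1.le),
    ← ENNReal.ofReal_add (gaugeReal_nonneg hx) hb.le]
  exact ENNReal.ofReal_le_ofReal hr1.le

/-- the covering bound: one cover by sets of small diameter -/
lemma cover_bound (hκ : 0 < κ) (hκ8 : κ < 8) {K : Set ℂ} (hK : IsCompact K)
    (ν : ℕ → Measure ℂ) (ε : ℕ → ℝ) (hε : Tendsto ε atTop (𝓝 0)) {c C : ℝ≥0∞} (hC : C ≠ ⊤)
    {r0 : ℝ} (hr0 : 0 < r0)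
    (h : ∃ᶠ n in atTop, c ≤ ν n (cthickening (ε n) K) ∧
      ∀ z ∈ K, ∀ r, ε n ≤ r → r ≤ r0 →
        ν n (closedBall z r) ≤ C * gaugeExt κ (ENNReal.ofReal r))
    (t : ℕ → Set ℂ) (ht : K ⊆ ⋃ n, t n) (hd : ∀ n, ediam (t n) ≤ ENNReal.ofReal (r0 / 2)) :
    c ≤ C * ∑' n, ⨆ _ : (t n).Nonempty, gaugeExt κ (ediam (t n)) := by
  classical
  refine ENNReal.le_of_forall_pos_le_add fun δ hδ _ => ?_
  have hη : (δ : ℝ≥0∞) / (C + 1) ≠ 0 := by
    refine (ENNReal.div_pos (by exact_mod_cast hδ.ne') ?_).ne'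
    exact ENNReal.add_ne_top.2 ⟨hC, ENNReal.one_ne_top⟩
  obtain ⟨δ', hδ', hsum⟩ := ENNReal.exists_pos_sum_of_countable hη ℕ
  -- centres and radii
  have hfin : ∀ n, ediam (t n) ≠ ⊤ := fun n => ((hd n).trans_lt ENNReal.ofReal_lt_top).ne
  have hx : ∀ n, (ediam (t n)).toReal < r0 := by
    intro n
    have h1 : (ediam (t n)).toReal ≤ r0 / 2 := ENNReal.toReal_le_of_le_ofReal (by linarith) (hd n)
    linarith
  let I := {i : ℕ // (t i ∩ K).Nonempty}
  have hz : ∀ i : I, ∃ z, z ∈ t i.1 ∩ K := fun i => i.2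
  choose z hz using hz
  have hρ : ∀ i : I, ∃ r, (ediam (t i.1)).toReal < r ∧ r ≤ r0 ∧
      gaugeExt κ (ENNReal.ofReal r) ≤ gaugeExt κ (ENNReal.ofReal (ediam (t i.1)).toReal) +
        ENNReal.ofReal (δ' i.1) := fun i =>
    exists_radius hκ hκ8 ENNReal.toReal_nonneg (hx i.1) (by exact_mod_cast hδ' i.1)
  choose ρ hρ1 hρ2 hρ3 using hρ
  have hρ0 : ∀ i, 0 < ρ i := fun i => ENNReal.toReal_nonneg.trans_lt (hρ1 i)
  have hcov : K ⊆ ⋃ i : I, ball (z i) (ρ i) := by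
    intro w hw
    obtain ⟨n, hn⟩ := mem_iUnion.1 (ht hw)
    let i : I := ⟨n, ⟨w, hn, hw⟩⟩
    refine mem_iUnion.2 ⟨i, ?_⟩
    have h1 : edist w (z i) ≤ ediam (t n) := edist_le_ediam_of_mem hn (hz i).1
    have h2 : dist w (z i) ≤ (ediam (t n)).toReal := by
      rw [dist_edist]
      exact ENNReal.toReal_mono (hfin n) h1
    exact mem_ball.2 (h2.trans_lt (hρ1 i))
  obtain ⟨F, hF⟩ := hK.elim_finite_subcover (fun i : I => ball (z i) (ρ i))
    (fun i => isOpen_ball) hcov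
  have hU : IsOpen (⋃ i ∈ F, ball (z i) (ρ i)) :=
    isOpen_biUnion fun i _ => isOpen_ball
  obtain ⟨s, hs, hsU⟩ := hK.exists_cthickening_subset_open hU hF
  have hev1 : ∀ᶠ n in atTop, ε n ≤ s := (hε.eventually (gt_mem_nhds hs)).mono fun _ h => h.le
  have hev2 : ∀ᶠ n in atTop, ∀ i ∈ F, ε n ≤ ρ i := by
    refine (Finset.eventually_all F).2 fun i _ => ?_
    exact (hε.eventually (gt_mem_nhds (hρ0 i))).mono fun _ h => h.le
  obtain ⟨n, ⟨hn1, hn2⟩, hn3, hn4⟩ := (h.and_eventually (hev1.and hev2)).exists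
  calc c ≤ ν n (cthickening (ε n) K) := hn1
    _ ≤ ν n (⋃ i ∈ F, ball (z i) (ρ i)) :=
        measure_mono ((cthickening_mono hn3 K).trans hsU)
    _ ≤ ∑ i ∈ F, ν n (ball (z i) (ρ i)) := measure_biUnion_finset_le _ _
    _ ≤ ∑ i ∈ F, C * (gaugeExt κ (ediam (t i.1)) + δ' i.1) := by
        refine Finset.sum_le_sum fun i hi => ?_
        refine (measure_mono ball_subset_closedBall).trans ?_
        refine (hn2 (z i) (hz i).2 (ρ i) (hn4 i hi) (hρ2 i)).trans ?_
        gcongr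
        have := hρ3 i
        rwa [ENNReal.ofReal_toReal (hfin i.1), ENNReal.ofReal_coe_nnreal] at this
    _ = C * ∑ i ∈ F, (gaugeExt κ (ediam (t i.1)) + δ' i.1) := by rw [Finset.mul_sum]
    _ ≤ C * ∑' i : I, (gaugeExt κ (ediam (t i.1)) + δ' i.1) := by
        gcongr
        exact ENNReal.sum_le_tsum F
    _ = C * ∑' i : I, ((⨆ _ : (t i.1).Nonempty, gaugeExt κ (ediam (t i.1))) + δ' i.1) := by
        congr 1
        refine tsum_congr fun i => ?_
        have hne : (t i.1).Nonempty := i.2.mono inter_subset_left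
        rw [ciSup_pos hne]
    _ ≤ C * ∑' i : ℕ, ((⨆ _ : (t i).Nonempty, gaugeExt κ (ediam (t i))) + δ' i) := by
        gcongr
        exact ENNReal.tsum_comp_le_tsum_of_injective Subtype.val_injective
          (fun i : ℕ => (⨆ _ : (t i).Nonempty, gaugeExt κ (ediam (t i))) + (δ' i : ℝ≥0∞))
    _ = C * (∑' i : ℕ, ⨆ _ : (t i).Nonempty, gaugeExt κ (ediam (t i))) + C * ∑' i, (δ' i : ℝ≥0∞) := by
        rw [ENNReal.tsum_add, mul_add]
    _ ≤ C * (∑' i : ℕ, ⨆ _ : (t i).Nonempty, gaugeExt κ (ediam (t i))) + δ := by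
        gcongr
        calc C * ∑' i, (δ' i : ℝ≥0∞) ≤ (C + 1) * (δ / (C + 1)) := by
              gcongr
              exact le_self_add
          _ ≤ δ := ENNReal.mul_div_le

/-- (MD2) **mass distribution principle** for the gauge measure, finite scale form: no limit
measure is needed. -/
theorem le_gauge (hκ : 0 < κ) (hκ8 : κ < 8) {K : Set ℂ} (hK : IsCompact K)
    (ν : ℕ → Measure ℂ) (ε : ℕ → ℝ) (hε : Tendsto ε atTop (𝓝 0)) {c C : ℝ≥0∞} (hC : C ≠ ⊤)
    {r0 : ℝ} (hr0 : 0 < r0)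
    (h : ∃ᶠ n in atTop, c ≤ ν n (cthickening (ε n) K) ∧
      ∀ z ∈ K, ∀ r, ε n ≤ r → r ≤ r0 →
        ν n (closedBall z r) ≤ C * gaugeExt κ (ENNReal.ofReal r)) :
    c ≤ C * gaugeMeasure κ K := by
  have hcov := cover_bound hκ hκ8 hK ν ε hε hC hr0 h
  have hr2 : 0 < r0 / 2 := by linarith
  rcases eq_or_ne C 0 with hC0 | hC0
  · -- any cover will do
    let t : ℕ → Set ℂ := fun n => ball (TopologicalSpace.denseSeq ℂ n) (r0 / 4)
    have ht : K ⊆ ⋃ n, t n := by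
      intro w _
      obtain ⟨y, hy⟩ := (TopologicalSpace.denseRange_denseSeq ℂ).exists_dist_lt w
        (show 0 < r0 / 4 by linarith)
      exact mem_iUnion.2 ⟨y, mem_ball.2 hy⟩
    have hd : ∀ n, ediam (t n) ≤ ENNReal.ofReal (r0 / 2) := by
      intro n
      refine ediam_le fun x hx y hy => ?_
      rw [edist_dist]
      refine ENNReal.ofReal_le_ofReal ?_
      have h1 := dist_triangle_right x y (TopologicalSpace.denseSeq ℂ n)
      have h2 := mem_ball.1 hx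
      have h3 := mem_ball.1 hy
      linarith
    have := hcov t ht hd
    rw [hC0, zero_mul] at this ⊢
    exact this
  · have hdiv : c / C ≤ gaugeMeasure κ K := by
      unfold gaugeMeasure
      rw [Measure.mkMetric_apply]
      refine le_iSup₂_of_le (ENNReal.ofReal (r0 / 2)) (ENNReal.ofReal_pos.2 hr2) ?_
      refine le_iInf fun t => le_iInf fun ht => le_iInf fun hd => ?_
      exact ENNReal.div_le_of_le_mul' (hcov t ht hd)
    calc c = C * (c / C) := (ENNReal.mul_div_cancel hC0 hC).symm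
      _ ≤ C * gaugeMeasure κ K := by gcongr

/-! ### Doubling -/

lemma gaugeReal_two_mul_le (hκ : 0 < κ) (hκ8 : κ < 8) {x : ℝ} (hx : 0 ≤ x) :
    gaugeReal κ (2 * x) ≤ 4 * gaugeReal κ x := by
  rcases hx.eq_or_lt with h | h
  · subst h; simp [gaugeReal_zero hκ]
  · have e : ∀ y, gaugeReal κ y = (min y r1) ^ dimParam κ *
        Real.log (Real.log (1 / min y r1)) ^ ((2 - dimParam κ) / 2) := fun y => rfl
    rw [e, e]
    have hm : 0 < min x r1 := lt_min h r1_pos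
    have hM : 0 < min (2 * x) r1 := lt_min (by linarith) r1_pos
    have hmM : min x r1 ≤ min (2 * x) r1 := min_le_min (by linarith) le_rfl
    have hM2 : min (2 * x) r1 ≤ 2 * min x r1 := by
      rw [mul_min_of_nonneg _ _ (by norm_num : (0:ℝ) ≤ 2)]
      exact min_le_min le_rfl (by have := r1_pos; linarith)
    have hlM := log_inv_ge hM (min_le_right _ _)
    have hllM := loglog_ge hM (min_le_right _ _)
    have hllm := loglog_ge hm (min_le_right _ _)
    have hexp := Real.exp_pos 1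
    have hd0 : 0 < dimParam κ := by unfold dimParam; positivity
    have hd2 : dimParam κ ≤ 2 := by unfold dimParam; linarith
    have h1 : (min (2 * x) r1) ^ dimParam κ ≤ 4 * (min x r1) ^ dimParam κ := by
      calc (min (2 * x) r1) ^ dimParam κ ≤ (2 * min x r1) ^ dimParam κ :=
            Real.rpow_le_rpow hM.le hM2 hd0.le
        _ = 2 ^ dimParam κ * (min x r1) ^ dimParam κ :=
            Real.mul_rpow (by norm_num) hm.le
        _ ≤ 4 * (min x r1) ^ dimParam κ := by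
            have : (2:ℝ) ^ dimParam κ ≤ 2 ^ (2:ℝ) :=
              Real.rpow_le_rpow_of_exponent_le (by norm_num) hd2
            have h4 : (2:ℝ) ^ (2:ℝ) = 4 := by norm_num
            rw [h4] at this
            have := Real.rpow_nonneg hm.le (dimParam κ)
            gcongr
    have h2 : Real.log (Real.log (1 / min (2 * x) r1)) ^ ((2 - dimParam κ) / 2) ≤
        Real.log (Real.log (1 / min x r1)) ^ ((2 - dimParam κ) / 2) := by
      refine Real.rpow_le_rpow (by linarith) ?_ (by linarith)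
      refine Real.log_le_log (by linarith) ?_
      refine Real.log_le_log (by positivity) ?_
      exact one_div_le_one_div_of_le hm hmM
    have h3 : 0 ≤ Real.log (Real.log (1 / min (2 * x) r1)) ^ ((2 - dimParam κ) / 2) :=
      Real.rpow_nonneg (by linarith) _
    calc _ ≤ (4 * (min x r1) ^ dimParam κ) *
          Real.log (Real.log (1 / min x r1)) ^ ((2 - dimParam κ) / 2) :=
          mul_le_mul h1 h2 h3 (by positivity)
      _ = _ := by ring

lemma gaugeExt_two_mul_le (hκ : 0 < κ) (hκ8 : κ < 8) {x : ℝ} (hx : 0 ≤ x) :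
    gaugeExt κ (ENNReal.ofReal (2 * x)) ≤ 4 * gaugeExt κ (ENNReal.ofReal x) := by
  unfold gaugeExt
  rw [ENNReal.toReal_ofReal hx, ENNReal.toReal_ofReal (by linarith)]
  calc ENNReal.ofReal (gaugeReal κ (2 * x)) ≤ ENNReal.ofReal (4 * gaugeReal κ x) :=
        ENNReal.ofReal_le_ofReal (gaugeReal_two_mul_le hκ hκ8 hx)
    _ = 4 * ENNReal.ofReal (gaugeReal κ x) := by
        rw [ENNReal.ofReal_mul (by norm_num)]; norm_num

/-- (MD2') the same with the ball bound only at centres in a set `G n` carrying `ν n` (the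
centres need not lie in `K`); the price is a factor `4`. -/
theorem le_gauge_good (hκ : 0 < κ) (hκ8 : κ < 8) {K : Set ℂ} (hK : IsCompact K)
    (ν : ℕ → Measure ℂ) (ε : ℕ → ℝ) (hε : Tendsto ε atTop (𝓝 0)) (G : ℕ → Set ℂ)
    {c C : ℝ≥0∞} (hC : C ≠ ⊤) {r0 : ℝ} (hr0 : 0 < r0)
    (h : ∃ᶠ n in atTop, c ≤ ν n (cthickening (ε n) K) ∧ ν n (G n)ᶜ = 0 ∧
      ∀ z ∈ G n, ∀ r, ε n ≤ r → r ≤ r0 →
        ν n (closedBall z r) ≤ C * gaugeExt κ (ENNReal.ofReal r)) :
    c ≤ 4 * C * gaugeMeasure κ K := by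
  have hev : ∀ᶠ n in atTop, ε n < r0 / 2 := hε.eventually (gt_mem_nhds (by linarith))
  refine le_gauge hκ hκ8 hK ν (fun n => max (ε n) 0) ?_ (ENNReal.mul_ne_top (by norm_num) hC)
    (show 0 < r0 / 2 by linarith) ?_
  · have := hε.max (tendsto_const_nhds (x := (0:ℝ)))
    simpa using this
  · refine (h.and_eventually hev).mono ?_
    rintro n ⟨⟨h1, h2, h3⟩, h4⟩
    refine ⟨h1.trans (measure_mono (cthickening_mono (le_max_left _ _) K)), ?_⟩
    intro z _ r hr hr2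
    have hr0' : 0 ≤ r := (le_max_right _ _).trans hr
    have hr' : ε n ≤ r := (le_max_left _ _).trans hr
    by_cases hb : (closedBall z r ∩ G n).Nonempty
    · obtain ⟨y, hy1, hy2⟩ := hb
      calc ν n (closedBall z r) ≤ ν n (closedBall y (2 * r)) := by
            refine measure_mono fun w hw => ?_
            have h5 := mem_closedBall.1 hw
            have h6 := mem_closedBall.1 hy1
            have := dist_triangle_right w y z
            exact mem_closedBall.2 (by linarith)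
        _ ≤ C * gaugeExt κ (ENNReal.ofReal (2 * r)) := h3 y hy2 (2 * r) (by linarith) (by linarith)
        _ ≤ C * (4 * gaugeExt κ (ENNReal.ofReal r)) := by
            gcongr
            exact gaugeExt_two_mul_le hκ hκ8 hr0'
        _ = 4 * C * gaugeExt κ (ENNReal.ofReal r) := by ring
    · have : closedBall z r ⊆ (G n)ᶜ := fun w hw hwG => hb ⟨w, hw, hwG⟩
      rw [measure_mono_null this h2]
      exact bot_le

/-! ### Random form -/

/-- frequent lower bound of probabilities passes to the limsup event -/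
lemma le_measure_frequently {Ω : Type*} [MeasurableSpace Ω] (P : Measure Ω) [IsFiniteMeasure P]
    (A : ℕ → Set Ω) (hA : ∀ n, NullMeasurableSet (A n) P) {p : ℝ≥0∞}
    (hp : ∃ᶠ n in atTop, p ≤ P (A n)) :
    p ≤ P {ω | ∃ᶠ n in atTop, ω ∈ A n} := by
  let U : ℕ → Set Ω := fun N => ⋃ n, ⋃ _ : N ≤ n, A n
  have hU : Antitone U := by
    intro N M hNM ω hω
    simp only [U, mem_iUnion] at hω ⊢
    obtain ⟨n, hn, h⟩ := hω
    exact ⟨n, hNM.trans hn, h⟩
  have hUm : ∀ N, NullMeasurableSet (U N) P := fun N =>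
    NullMeasurableSet.iUnion fun n => NullMeasurableSet.iUnion fun _ => hA n
  have ht := tendsto_measure_iInter_atTop hUm hU ⟨0, measure_ne_top P _⟩
  have hle : ∀ N, p ≤ P (U N) := by
    intro N
    obtain ⟨n, hn, hpn⟩ := (Filter.frequently_atTop.1 hp) N
    refine hpn.trans (measure_mono ?_)
    intro ω hω
    simp only [U, mem_iUnion]
    exact ⟨n, hn, hω⟩
  have h1 : p ≤ P (⋂ N, U N) := ge_of_tendsto' ht hle
  refine h1.trans (measure_mono ?_)
  intro ω hω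
  simp only [U, mem_iInter, mem_iUnion] at hω
  refine Filter.frequently_atTop.2 fun N => ?_
  obtain ⟨n, hn, h⟩ := hω N
  exact ⟨n, hn, h⟩

/-- (MD3a) event form: if for infinitely many `n`, with probability at least `p`, the measure
`μ n ω` has mass `≥ c` near `K ω` and satisfies the ball bound, then with probability at least
`p`, `c ≤ C * gaugeMeasure κ (K ω)`. -/
theorem prob_le_gauge {Ω : Type*} [MeasurableSpace Ω] (P : Measure Ω) [IsFiniteMeasure P]
    (hκ : 0 < κ) (hκ8 : κ < 8) (K : Ω → Set ℂ) (hK : ∀ᵐ ω ∂P, IsCompact (K ω))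
    (μ : ℕ → Ω → Measure ℂ) (ε : ℕ → ℝ) (hε : Tendsto ε atTop (𝓝 0)) {c C : ℝ≥0∞} (hC : C ≠ ⊤)
    {r0 : ℝ} (hr0 : 0 < r0) (A : ℕ → Set Ω) (hAm : ∀ n, NullMeasurableSet (A n) P) {p : ℝ≥0∞}
    (hp : ∃ᶠ n in atTop, p ≤ P (A n))
    (hA : ∀ᵐ ω ∂P, ∀ n, ω ∈ A n → c ≤ μ n ω (cthickening (ε n) (K ω)) ∧
      ∀ z ∈ K ω, ∀ r, ε n ≤ r → r ≤ r0 →
        μ n ω (closedBall z r) ≤ C * gaugeExt κ (ENNReal.ofReal r)) :
    p ≤ P {ω | c ≤ C * gaugeMeasure κ (K ω)} := by
  refine (le_measure_frequently P A hAm hp).trans (measure_mono_ae ?_)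
  filter_upwards [hK, hA] with ω h1 h2
  intro hω
  exact le_gauge hκ hκ8 h1 (fun n => μ n ω) ε hε hC hr0 (Filter.Frequently.mono hω fun n hn => h2 n hn)

/-- (MD3a') event form with centres in a carrying set. -/
theorem prob_le_gauge_good {Ω : Type*} [MeasurableSpace Ω] (P : Measure Ω) [IsFiniteMeasure P]
    (hκ : 0 < κ) (hκ8 : κ < 8) (K : Ω → Set ℂ) (hK : ∀ᵐ ω ∂P, IsCompact (K ω))
    (μ : ℕ → Ω → Measure ℂ) (ε : ℕ → ℝ) (hε : Tendsto ε atTop (𝓝 0)) (G : ℕ → Ω → Set ℂ)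
    {c C : ℝ≥0∞} (hC : C ≠ ⊤)
    {r0 : ℝ} (hr0 : 0 < r0) (A : ℕ → Set Ω) (hAm : ∀ n, NullMeasurableSet (A n) P) {p : ℝ≥0∞}
    (hp : ∃ᶠ n in atTop, p ≤ P (A n))
    (hA : ∀ᵐ ω ∂P, ∀ n, ω ∈ A n → c ≤ μ n ω (cthickening (ε n) (K ω)) ∧ μ n ω (G n ω)ᶜ = 0 ∧
      ∀ z ∈ G n ω, ∀ r, ε n ≤ r → r ≤ r0 →
        μ n ω (closedBall z r) ≤ C * gaugeExt κ (ENNReal.ofReal r)) :
    p ≤ P {ω | c ≤ 4 * C * gaugeMeasure κ (K ω)} := by
  refine (le_measure_frequently P A hAm hp).trans (measure_mono_ae ?_)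
  filter_upwards [hK, hA] with ω h1 h2
  intro hω
  exact le_gauge_good hκ hκ8 h1 (fun n => μ n ω) ε hε (fun n => G n ω) hC hr0
    (Filter.Frequently.mono hω fun n hn => h2 n hn)

/-- reverse Markov inequality -/
lemma reverse_markov {Ω : Type*} [MeasurableSpace Ω] (P : Measure Ω) [IsProbabilityMeasure P]
    (X : Ω → ℝ≥0∞) (hX : AEMeasurable X P) {c M : ℝ≥0∞} (hM : M ≠ ⊤)
    (hXM : ∀ᵐ ω ∂P, X ω ≤ M) (hc : c ≤ ∫⁻ ω, X ω ∂P) :
    c / (2 * M) ≤ P {ω | c / 2 ≤ X ω} := by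
  have hcM : c ≤ M := by
    refine hc.trans ((lintegral_mono_ae hXM).trans ?_)
    simp
  have hcT : c ≠ ⊤ := (hcM.trans_lt hM.lt_top).ne
  have hNull : NullMeasurableSet {ω | c / 2 ≤ X ω} P :=
    nullMeasurableSet_le aemeasurable_const hX
  have h1 : ∫⁻ ω, X ω ∂P ≤ c / 2 + M * P {ω | c / 2 ≤ X ω} := by
    calc ∫⁻ ω, X ω ∂P ≤ ∫⁻ ω, (c / 2 + {ω | c / 2 ≤ X ω}.indicator (fun _ => M) ω) ∂P := by
          refine lintegral_mono_ae ?_
          filter_upwards [hXM] with ω hω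
          by_cases h : c / 2 ≤ X ω
          · rw [indicator_of_mem (by exact h)]
            exact hω.trans le_add_self
          · rw [indicator_of_notMem (by exact h), add_zero]
            exact (not_le.1 h).le
      _ = c / 2 + M * P {ω | c / 2 ≤ X ω} := by
          rw [lintegral_add_left measurable_const, lintegral_const, measure_univ, mul_one,
            lintegral_indicator_const₀ hNull]
  have h2 : c / 2 ≤ M * P {ω | c / 2 ≤ X ω} := by
    have h3 : c / 2 + c / 2 ≤ c / 2 + M * P {ω | c / 2 ≤ X ω} := by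
      rw [ENNReal.add_halves]; exact hc.trans h1
    have h4 : c / 2 ≠ ⊤ := ENNReal.div_ne_top hcT (by norm_num)
    exact (ENNReal.add_le_add_iff_left h4).1 h3
  have h5 : c / (2 * M) = c / 2 / M := by
    rw [div_eq_mul_inv, div_eq_mul_inv, div_eq_mul_inv,
      ENNReal.mul_inv (Or.inl (by norm_num)) (Or.inl (by norm_num)), mul_assoc]
  rw [h5]
  exact ENNReal.div_le_of_le_mul' h2

/-- Paley-Zygmund in `ℝ≥0∞` -/
lemma paley_zygmund {Ω : Type*} [MeasurableSpace Ω] (P : Measure Ω) [IsProbabilityMeasure P]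
    (X : Ω → ℝ≥0∞) (hX : AEMeasurable X P) {c D : ℝ≥0∞} (hcT : c ≠ ⊤)
    (hc : c ≤ ∫⁻ ω, X ω ∂P) (hD : ∫⁻ ω, X ω ^ 2 ∂P ≤ D) :
    c ^ 2 / (4 * D) ≤ P {ω | c / 2 ≤ X ω} := by
  have hNull : NullMeasurableSet {ω | c / 2 ≤ X ω} P :=
    nullMeasurableSet_le aemeasurable_const hX
  set A : Set Ω := {ω | c / 2 ≤ X ω} with hA
  have h1 : ∫⁻ ω, X ω ∂P ≤ c / 2 + ∫⁻ ω, X ω * A.indicator (fun _ => 1) ω ∂P := by
    calc ∫⁻ ω, X ω ∂P ≤ ∫⁻ ω, (c / 2 + X ω * A.indicator (fun _ => 1) ω) ∂P := by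
          refine lintegral_mono fun ω => ?_
          by_cases h : ω ∈ A
          · simp only [indicator_of_mem h, mul_one]
            exact le_add_self
          · simp only [indicator_of_notMem h, mul_zero, add_zero]
            exact (not_le.1 h).le
      _ = c / 2 + ∫⁻ ω, X ω * A.indicator (fun _ => 1) ω ∂P := by
          rw [lintegral_add_left measurable_const, lintegral_const, measure_univ, mul_one]
  have h2 : c / 2 ≤ ∫⁻ ω, X ω * A.indicator (fun _ => 1) ω ∂P := by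
    have h3 : c / 2 + c / 2 ≤ c / 2 + ∫⁻ ω, X ω * A.indicator (fun _ => 1) ω ∂P := by
      rw [ENNReal.add_halves]; exact hc.trans h1
    have h4 : c / 2 ≠ ⊤ := ENNReal.div_ne_top hcT (by norm_num)
    exact (ENNReal.add_le_add_iff_left h4).1 h3
  have hIm : AEMeasurable (A.indicator (fun _ => (1:ℝ≥0∞))) P :=
    aemeasurable_const.indicator₀ hNull
  have hpq : (2:ℝ).HolderConjugate 2 := Real.HolderConjugate.two_two
  have h3 := ENNReal.lintegral_mul_le_Lp_mul_Lq P hpq hX hIm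
  simp only [Pi.mul_apply] at h3
  have e1 : ∫⁻ ω, X ω ^ (2:ℝ) ∂P ≤ D := by
    refine le_trans (le_of_eq ?_) hD
    refine lintegral_congr fun ω => ?_
    exact_mod_cast ENNReal.rpow_natCast (X ω) 2
  have e2 : ∫⁻ ω, (A.indicator (fun _ => (1:ℝ≥0∞)) ω) ^ (2:ℝ) ∂P = P A := by
    have : ∀ ω, (A.indicator (fun _ => (1:ℝ≥0∞)) ω) ^ (2:ℝ) = A.indicator (fun _ => 1) ω := by
      intro ω
      by_cases h : ω ∈ A
      · simp [indicator_of_mem h]
      · simp [indicator_of_notMem h]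
    rw [lintegral_congr this, lintegral_indicator_const₀ hNull, one_mul]
  rw [e2] at h3
  have h4 : c / 2 ≤ D ^ (1 / (2:ℝ)) * (P A) ^ (1 / (2:ℝ)) :=
    h2.trans (h3.trans (by gcongr))
  have h5 : (c / 2) ^ 2 ≤ D * P A := by
    calc (c / 2) ^ 2 ≤ (D ^ (1 / (2:ℝ)) * (P A) ^ (1 / (2:ℝ))) ^ 2 := by gcongr
      _ = D * P A := by
          rw [← ENNReal.mul_rpow_of_nonneg _ _ (by norm_num : (0:ℝ) ≤ 1 / 2),
            ← ENNReal.rpow_natCast, ← ENNReal.rpow_mul]
          norm_num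
  have h6 : c ^ 2 / (4 * D) = (c / 2) ^ 2 / D := by
    rw [div_eq_mul_inv, div_eq_mul_inv, div_eq_mul_inv, mul_pow,
      ENNReal.mul_inv (Or.inl (by norm_num)) (Or.inl (by norm_num)), ← mul_assoc,
      ← ENNReal.inv_pow]
    norm_num
  rw [h6]
  exact ENNReal.div_le_of_le_mul' h5

/-- (MD3b) reverse Markov form. -/
theorem prob_le_gauge_of_lintegral {Ω : Type*} [MeasurableSpace Ω] (P : Measure Ω)
    [IsProbabilityMeasure P]
    (hκ : 0 < κ) (hκ8 : κ < 8) (K : Ω → Set ℂ) (hK : ∀ᵐ ω ∂P, IsCompact (K ω))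
    (μ : ℕ → Ω → Measure ℂ) (ε : ℕ → ℝ) (hε : Tendsto ε atTop (𝓝 0)) (G : ℕ → Ω → Set ℂ)
    {c C M : ℝ≥0∞} (hC : C ≠ ⊤) (hM : M ≠ ⊤) {r0 : ℝ} (hr0 : 0 < r0)
    (X : ℕ → Ω → ℝ≥0∞) (hX : ∀ n, AEMeasurable (X n) P)
    (hXK : ∀ᵐ ω ∂P, ∀ n, X n ω ≤ μ n ω (cthickening (ε n) (K ω)))
    (hc : ∃ᶠ n in atTop, c ≤ ∫⁻ ω, X n ω ∂P) (hXM : ∀ n, ∀ᵐ ω ∂P, X n ω ≤ M)
    (hA : ∀ᵐ ω ∂P, ∀ n, μ n ω (G n ω)ᶜ = 0 ∧
      ∀ z ∈ G n ω, ∀ r, ε n ≤ r → r ≤ r0 →
        μ n ω (closedBall z r) ≤ C * gaugeExt κ (ENNReal.ofReal r)) :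
    c / (2 * M) ≤ P {ω | c / 2 ≤ 4 * C * gaugeMeasure κ (K ω)} := by
  refine prob_le_gauge_good P hκ hκ8 K hK μ ε hε G hC hr0 (fun n => {ω | c / 2 ≤ X n ω})
    (fun n => nullMeasurableSet_le aemeasurable_const (hX n)) ?_ ?_
  · exact hc.mono fun n hn => reverse_markov P (X n) (hX n) hM (hXM n) hn
  · filter_upwards [hXK, hA] with ω h1 h2 n hn
    exact ⟨le_trans hn (h1 n), h2 n⟩

/-- (MD3c) Paley-Zygmund form: first moment `≥ c`, second moment `≤ D`. -/
theorem prob_le_gauge_of_second_moment {Ω : Type*} [MeasurableSpace Ω] (P : Measure Ω)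
    [IsProbabilityMeasure P]
    (hκ : 0 < κ) (hκ8 : κ < 8) (K : Ω → Set ℂ) (hK : ∀ᵐ ω ∂P, IsCompact (K ω))
    (μ : ℕ → Ω → Measure ℂ) (ε : ℕ → ℝ) (hε : Tendsto ε atTop (𝓝 0)) (G : ℕ → Ω → Set ℂ)
    {c C D : ℝ≥0∞} (hC : C ≠ ⊤) (hcT : c ≠ ⊤) {r0 : ℝ} (hr0 : 0 < r0)
    (X : ℕ → Ω → ℝ≥0∞) (hX : ∀ n, AEMeasurable (X n) P)
    (hXK : ∀ᵐ ω ∂P, ∀ n, X n ω ≤ μ n ω (cthickening (ε n) (K ω)))
    (hc : ∃ᶠ n in atTop, c ≤ ∫⁻ ω, X n ω ∂P ∧ ∫⁻ ω, X n ω ^ 2 ∂P ≤ D)
    (hA : ∀ᵐ ω ∂P, ∀ n, μ n ω (G n ω)ᶜ = 0 ∧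
      ∀ z ∈ G n ω, ∀ r, ε n ≤ r → r ≤ r0 →
        μ n ω (closedBall z r) ≤ C * gaugeExt κ (ENNReal.ofReal r)) :
    c ^ 2 / (4 * D) ≤ P {ω | c / 2 ≤ 4 * C * gaugeMeasure κ (K ω)} := by
  refine prob_le_gauge_good P hκ hκ8 K hK μ ε hε G hC hr0 (fun n => {ω | c / 2 ≤ X n ω})
    (fun n => nullMeasurableSet_le aemeasurable_const (hX n)) ?_ ?_
  · exact hc.mono fun n hn => paley_zygmund P (X n) (hX n) hcT hn.1 hn.2
  · filter_upwards [hXK, hA] with ω h1 h2 n hn
    exact ⟨le_trans hn (h1 n), h2 n⟩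

end Crest.Agent.R162.MD
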