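import Mathlib
import Crest.Agent.R162.OPTr
import Crest.Agent.R162.SM

/-!
Row 162, node OPM (helper443 for helper9): the abstract generator of `SM` for the truncated state
process agrees with `OP.gen` wherever the height is at least `δ`.
-/

set_option autoImplicit false

open Set Filter
open scoped NNReal ENNReal Topology

namespace Crest.Agent.R162.OPTr

open SM (Test)

section abstract_

variable {G : Type*} [NormedAddCommGroup G] [NormedSpace ℝ G]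
  {e : G} {a : G → G} {C : ℝ} {f : G → ℝ} {D : G → G →L[ℝ] ℝ} {H : G → ℝ}

/-- `D` is the Fréchet derivative of `f` -/
lemma test_hasFDerivAt (h : Test e a C f D H) (z : G) : HasFDerivAt f (D z) z := by
  rw [hasFDerivAt_iff_isLittleO_nhds_zero]
  have h1 : (fun w : G => f (z + w) - f z - D z w) =O[𝓝 0] fun w => ‖w‖ ^ 2 := by
    refine Asymptotics.IsBigO.of_bound C (Eventually.of_forall fun w => ?_)
    rw [Real.norm_eq_abs, norm_pow, norm_norm]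
    exact h.taylor2 z w
  have h2 : (fun w : G => ‖w‖ ^ 2) =o[𝓝 0] fun w : G => w := by
    have := Asymptotics.isLittleO_norm_pow_id (E' := G) (n := 2) (by norm_num)
    simpa using this
  exact h1.trans_isLittleO h2

/-- `H` is the derivative of `t ↦ D (z + t e) e` at `0` -/
lemma test_hasDerivAt (h : Test e a C f D H) (z : G) :
    HasDerivAt (fun t : ℝ => D (z + t • e) e) (H z) 0 := by
  have hC := h.C_nonneg
  set K : ℝ := 2 * C + C * C / 2 with hK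
  have hb : ∀ t : ℝ, |D (z + t • e) e - D z e - t * H z| ≤ K * |t| ^ 2 := by
    intro t
    rcases eq_or_ne t 0 with rfl | ht
    · simp
    have h1 := h.taylor3 z t
    have h2 := h.taylor3 (z + t • e) (-t)
    have e1 : z + t • e + (-t) • e = z := by rw [neg_smul, add_neg_cancel_right]
    rw [e1, abs_neg] at h2
    have h3 := h.H_lip (z + t • e) z
    have e2 : z + t • e - z = t • e := by abel
    rw [e2, norm_smul, Real.norm_eq_abs] at h3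
    have h3' : |H (z + t • e) - H z| ≤ C * (|t| * C) :=
      h3.trans (mul_le_mul_of_nonneg_left
        (mul_le_mul_of_nonneg_left h.e_bdd (abs_nonneg _)) hC)
    have htp : 0 < |t| := abs_pos.2 ht
    have h4 : |t| * |D (z + t • e) e - D z e - t * H z| ≤ |t| * (K * |t| ^ 2) := by
      rw [← abs_mul]
      have e3 : t * (D (z + t • e) e - D z e - t * H z)
          = (f (z + t • e) - f z - t * D z e - t ^ 2 / 2 * H z)
            + (f z - f (z + t • e) - -t * D (z + t • e) e - (-t) ^ 2 / 2 * H (z + t • e))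
            + t ^ 2 / 2 * (H (z + t • e) - H z) := by ring
      rw [e3]
      have h5 : |t ^ 2 / 2 * (H (z + t • e) - H z)| ≤ |t| ^ 2 / 2 * (C * (|t| * C)) := by
        rw [abs_mul, abs_of_nonneg (by positivity : (0:ℝ) ≤ t ^ 2 / 2), ← sq_abs t]
        exact mul_le_mul_of_nonneg_left h3' (by positivity)
      calc _ ≤ _ := abs_add_three _ _ _
        _ ≤ C * |t| ^ 3 + C * |t| ^ 3 + |t| ^ 2 / 2 * (C * (|t| * C)) :=
            add_le_add (add_le_add h1 h2) h5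
        _ = |t| * (K * |t| ^ 2) := by rw [hK]; ring
    exact le_of_mul_le_mul_left h4 htp
  rw [hasDerivAt_iff_isLittleO_nhds_zero]
  have h1 : (fun t : ℝ => D (z + (0 + t) • e) e - D (z + (0:ℝ) • e) e - t • H z)
      =O[𝓝 0] fun t : ℝ => ‖t‖ ^ 2 := by
    refine Asymptotics.IsBigO.of_bound K (Eventually.of_forall fun t => ?_)
    rw [Real.norm_eq_abs, norm_pow, norm_norm, zero_add, zero_smul, add_zero, smul_eq_mul,
      Real.norm_eq_abs]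
    exact hb t
  have h2 : (fun w : ℝ => ‖w‖ ^ 2) =o[𝓝 0] fun w : ℝ => w := by
    have := Asymptotics.isLittleO_norm_pow_id (E' := ℝ) (n := 2) (by norm_num)
    simpa using this
  exact h1.trans_isLittleO h2

end abstract_

variable {κ δ C : ℝ} {f f' : ℝ × ℝ × ℝ × ℝ → ℝ}
  {D : ℝ × ℝ × ℝ × ℝ → ℝ × ℝ × ℝ × ℝ →L[ℝ] ℝ} {H : ℝ × ℝ × ℝ × ℝ → ℝ}

lemma deriv_X (h : ∀ z, HasFDerivAt f (D z) z) (q : ℝ × ℝ × ℝ × ℝ) (x : ℝ) :
    HasDerivAt (fun x => f (x, q.2)) (D (x, q.2) (1, 0, 0, 0)) x := by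
  have h1 : HasDerivAt (fun x : ℝ => ((x, q.2) : ℝ × ℝ × ℝ × ℝ)) ((1, 0) : ℝ × ℝ × ℝ × ℝ) x :=
    (hasDerivAt_id x).prodMk (hasDerivAt_const x q.2)
  exact (h (x, q.2)).comp_hasDerivAt x h1

lemma deriv_Y (h : ∀ z, HasFDerivAt f (D z) z) (q : ℝ × ℝ × ℝ × ℝ) :
    HasDerivAt (fun y => f (q.1, y, q.2.2)) (D q (0, 1, 0, 0)) q.2.1 := by
  have h1 : HasDerivAt (fun y : ℝ => ((q.1, y, q.2.2) : ℝ × ℝ × ℝ × ℝ))
      ((0, 1, 0) : ℝ × ℝ × ℝ × ℝ) q.2.1 :=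
    (hasDerivAt_const _ q.1).prodMk ((hasDerivAt_id _).prodMk (hasDerivAt_const _ q.2.2))
  exact (h q).comp_hasDerivAt q.2.1 h1

lemma deriv_L (h : ∀ z, HasFDerivAt f (D z) z) (q : ℝ × ℝ × ℝ × ℝ) :
    HasDerivAt (fun l => f (q.1, q.2.1, l, q.2.2.2)) (D q (0, 0, 1, 0)) q.2.2.1 := by
  have h1 : HasDerivAt (fun l : ℝ => ((q.1, q.2.1, l, q.2.2.2) : ℝ × ℝ × ℝ × ℝ))
      ((0, 0, 1, 0) : ℝ × ℝ × ℝ × ℝ) q.2.2.1 :=
    (hasDerivAt_const _ q.1).prodMk ((hasDerivAt_const _ q.2.1).prodMk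
      ((hasDerivAt_id _).prodMk (hasDerivAt_const _ q.2.2.2)))
  exact (h q).comp_hasDerivAt q.2.2.1 h1

lemma deriv_a (h : ∀ z, HasFDerivAt f (D z) z) (q : ℝ × ℝ × ℝ × ℝ) :
    HasDerivAt (fun a => f (q.1, q.2.1, q.2.2.1, a)) (D q (0, 0, 0, 1)) q.2.2.2 := by
  have h1 : HasDerivAt (fun a : ℝ => ((q.1, q.2.1, q.2.2.1, a) : ℝ × ℝ × ℝ × ℝ))
      ((0, 0, 0, 1) : ℝ × ℝ × ℝ × ℝ) q.2.2.2 :=
    (hasDerivAt_const _ q.1).prodMk ((hasDerivAt_const _ q.2.1).prodMk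
      ((hasDerivAt_const _ q.2.2.1).prodMk (hasDerivAt_id _)))
  exact (h q).comp_hasDerivAt q.2.2.2 h1

lemma deriv_XX (hκ : 0 < κ)
    (hT : Test ((-Real.sqrt κ, 0, 0, 0) : ℝ × ℝ × ℝ × ℝ) (cf δ) C f D H) (q : ℝ × ℝ × ℝ × ℝ) :
    deriv (deriv fun x => f (x, q.2)) q.1 = H q / κ := by
  have hs : 0 < Real.sqrt κ := Real.sqrt_pos.2 hκ
  have h1 : (deriv fun x => f (x, q.2)) = fun x => D (x, q.2) (1, 0, 0, 0) := by
    funext x
    exact (deriv_X (test_hasFDerivAt hT) q x).deriv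
  rw [h1]
  have h2 := test_hasDerivAt hT q
  -- substitute `t = (q.1 - x) / √κ`
  have h3 : HasDerivAt (fun x : ℝ => (q.1 - x) / Real.sqrt κ) (-1 / Real.sqrt κ) q.1 := by
    have := ((hasDerivAt_const q.1 q.1).sub (hasDerivAt_id q.1)).div_const (Real.sqrt κ)
    simpa using this
  have h2' : HasDerivAt (fun t : ℝ => D (q + t • ((-Real.sqrt κ, 0, 0, 0) : ℝ × ℝ × ℝ × ℝ))
      ((-Real.sqrt κ, 0, 0, 0) : ℝ × ℝ × ℝ × ℝ)) (H q) ((fun x : ℝ => (q.1 - x) / Real.sqrt κ) q.1) := by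
    simpa using h2
  have h4 := h2'.comp q.1 h3
  have h5 : HasDerivAt (fun x : ℝ => D (x, q.2) (1, 0, 0, 0)) (-1 / Real.sqrt κ * (H q * (-1 / Real.sqrt κ)))
      q.1 := by
    have h6 := h4.const_mul (-1 / Real.sqrt κ)
    refine h6.congr_of_eventuallyEq (Eventually.of_forall fun x => ?_)
    show D (x, q.2) (1, 0, 0, 0) = -1 / Real.sqrt κ *
      D (q + ((q.1 - x) / Real.sqrt κ) • ((-Real.sqrt κ, 0, 0, 0) : ℝ × ℝ × ℝ × ℝ))
        ((-Real.sqrt κ, 0, 0, 0) : ℝ × ℝ × ℝ × ℝ)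
    have e1 : q + ((q.1 - x) / Real.sqrt κ) • ((-Real.sqrt κ, 0, 0, 0) : ℝ × ℝ × ℝ × ℝ) = (x, q.2) := by
      refine Prod.ext ?_ ?_
      · simp
        field_simp
        ring
      · simp
    have e2 : ((-Real.sqrt κ, 0, 0, 0) : ℝ × ℝ × ℝ × ℝ) = (-Real.sqrt κ) • ((1, 0, 0, 0) : ℝ × ℝ × ℝ × ℝ) := by
      simp
    rw [e1]
    conv_rhs => rw [e2, map_smul, smul_eq_mul]
    field_simp
  rw [h5.deriv]
  have h7 : Real.sqrt κ * Real.sqrt κ = κ := Real.mul_self_sqrt hκ.le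
  have h8 : -1 / Real.sqrt κ * (H q * (-1 / Real.sqrt κ)) = H q / (Real.sqrt κ * Real.sqrt κ) := by
    field_simp
  rw [h8, h7]

/-- the two generators agree for a global test function -/
lemma gen_match_self (hκ : 0 < κ)
    (hT : Test ((-Real.sqrt κ, 0, 0, 0) : ℝ × ℝ × ℝ × ℝ) (cf δ) C f D H)
    {q : ℝ × ℝ × ℝ × ℝ} (hq : δ ≤ q.2.1) :
    SM.gen (cf δ) D H q = OP.gen κ f q := by
  have hD := test_hasFDerivAt hT
  unfold SM.gen OP.gen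
  rw [deriv_XX hκ hT q, (deriv_X hD q q.1).deriv, (deriv_Y hD q).deriv, (deriv_L hD q).deriv,
    (deriv_a hD q).deriv]
  have hm : mh δ q = q.2.1 := max_eq_left hq
  have e1 : cf δ q = (2 * q.1 / (q.1 ^ 2 + q.2.1 ^ 2)) • ((1, 0, 0, 0) : ℝ × ℝ × ℝ × ℝ)
      + (-(2 * q.2.1 / (q.1 ^ 2 + q.2.1 ^ 2))) • ((0, 1, 0, 0) : ℝ × ℝ × ℝ × ℝ)
      + (-(4 * q.2.1 ^ 2 / (q.1 ^ 2 + q.2.1 ^ 2) ^ 2)) • ((0, 0, 1, 0) : ℝ × ℝ × ℝ × ℝ)
      + (1 / (q.1 ^ 2 + q.2.1 ^ 2)) • ((0, 0, 0, 1) : ℝ × ℝ × ℝ × ℝ) := by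
    unfold cf
    rw [hm]
    simp
  rw [e1]
  simp only [map_add, map_smul, smul_eq_mul]
  have : κ / 2 * (H q / κ) = H q / 2 := by field_simp
  rw [this]
  ring

lemma gen_congr {q : ℝ × ℝ × ℝ × ℝ} (he : f' =ᶠ[𝓝 q] f) : OP.gen κ f' q = OP.gen κ f q := by
  have hx : ∀ᶠ x in 𝓝 q.1, f' =ᶠ[𝓝 ((x, q.2) : ℝ × ℝ × ℝ × ℝ)] f := by
    have hc : ContinuousAt (fun x : ℝ => ((x, q.2) : ℝ × ℝ × ℝ × ℝ)) q.1 := by fun_prop
    exact hc.eventually (eventually_eventually_nhds.2 he)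
  have h1 : ∀ x, f' =ᶠ[𝓝 ((x, q.2) : ℝ × ℝ × ℝ × ℝ)] f →
      (fun x => f' (x, q.2)) =ᶠ[𝓝 x] fun x => f (x, q.2) := by
    intro x hx
    have hc : ContinuousAt (fun x : ℝ => ((x, q.2) : ℝ × ℝ × ℝ × ℝ)) x := by fun_prop
    exact hc.eventually hx
  have h2 : (deriv fun x => f' (x, q.2)) =ᶠ[𝓝 q.1] deriv fun x => f (x, q.2) :=
    hx.mono fun x hx => (h1 x hx).deriv_eq
  have h3 : (fun y => f' (q.1, y, q.2.2)) =ᶠ[𝓝 q.2.1] fun y => f (q.1, y, q.2.2) := by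
    have hc : ContinuousAt (fun y : ℝ => ((q.1, y, q.2.2) : ℝ × ℝ × ℝ × ℝ)) q.2.1 := by fun_prop
    exact hc.eventually he
  have h4 : (fun l => f' (q.1, q.2.1, l, q.2.2.2)) =ᶠ[𝓝 q.2.2.1]
      fun l => f (q.1, q.2.1, l, q.2.2.2) := by
    have hc : ContinuousAt (fun l : ℝ => ((q.1, q.2.1, l, q.2.2.2) : ℝ × ℝ × ℝ × ℝ)) q.2.2.1 := by
      fun_prop
    exact hc.eventually he
  have h5 : (fun a => f' (q.1, q.2.1, q.2.2.1, a)) =ᶠ[𝓝 q.2.2.2]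
      fun a => f (q.1, q.2.1, q.2.2.1, a) := by
    have hc : ContinuousAt (fun a : ℝ => ((q.1, q.2.1, q.2.2.1, a) : ℝ × ℝ × ℝ × ℝ)) q.2.2.2 := by
      fun_prop
    exact hc.eventually he
  unfold OP.gen
  rw [h2.deriv_eq, (h1 q.1 he).deriv_eq, h3.deriv_eq, h4.deriv_eq, h5.deriv_eq]

/-- **the abstract generator of the truncated state process is `OP.gen`** -/
theorem gen_match (hκ : 0 < κ)
    (hT : Test ((-Real.sqrt κ, 0, 0, 0) : ℝ × ℝ × ℝ × ℝ) (cf δ) C f' D H)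
    {q : ℝ × ℝ × ℝ × ℝ} (hq : δ ≤ q.2.1) (he : f' =ᶠ[𝓝 q] f) :
    SM.gen (cf δ) D H q = OP.gen κ f q :=
  (gen_match_self hκ hT hq).trans (gen_congr he)

end Crest.Agent.R162.OPTr
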