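import Mathlib

/-! Row 162, node OP (helper149): abstract tail bounds from the maximal inequality, cell partition,
and the abstract recursion of U4. -/

set_option autoImplicit false

open MeasureTheory ProbabilityTheory Set
open scoped NNReal ENNReal

namespace Crest.Agent.R162.OP

variable {Ω : Type*} {m : MeasurableSpace Ω} {P : Measure Ω}

/-- Abstract recursion of U4: `G i` weights, `T i` trigger events, information `Fc i` (a predicate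
"event in `F_{σ_i}`"). -/
theorem recursion {G : ℕ → Ω → ℝ≥0∞} {T : ℕ → Set Ω} {Ev : ℕ → Set Ω → Prop} {q : ℝ≥0∞}
    (hEv0 : ∀ i A, Ev i A → Ev (i + 1) (A ∩ (T i)ᶜ))
    (hstep : ∀ i A, Ev i A → ∫⁻ ω in A ∩ (T i)ᶜ, G (i + 1) ω ∂P ≤ q * ∫⁻ ω in A, G i ω ∂P)
    (A : Set Ω) (hA : Ev 0 A) (n : ℕ) :
    ∃ An : Set Ω, An = A ∩ {ω | ∀ i < n, ω ∉ T i} ∧ Ev n An ∧
      ∫⁻ ω in An, G n ω ∂P ≤ q ^ n * ∫⁻ ω in A, G 0 ω ∂P := by
  induction n with
  | zero => exact ⟨A, by simp, hA, by simp⟩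
  | succ n ih =>
    obtain ⟨An, hAn, hE, hI⟩ := ih
    refine ⟨An ∩ (T n)ᶜ, ?_, hEv0 n An hE, ?_⟩
    · rw [hAn]
      ext ω
      simp only [mem_inter_iff, mem_setOf_eq, mem_compl_iff]
      constructor
      · rintro ⟨⟨h1, h2⟩, h3⟩
        exact ⟨h1, fun i hi => by
          rcases Nat.lt_succ_iff_lt_or_eq.1 hi with h | h
          · exact h2 i h
          · rw [h]; exact h3⟩
      · rintro ⟨h1, h2⟩
        exact ⟨⟨h1, fun i hi => h2 i (Nat.lt_succ_of_lt hi)⟩, h2 n (Nat.lt_succ_self n)⟩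
    · calc ∫⁻ ω in An ∩ (T n)ᶜ, G (n + 1) ω ∂P ≤ q * ∫⁻ ω in An, G n ω ∂P := hstep n An hE
        _ ≤ q * (q ^ n * ∫⁻ ω in A, G 0 ω ∂P) := by gcongr
        _ = q ^ (n + 1) * ∫⁻ ω in A, G 0 ω ∂P := by rw [pow_succ]; ring

/-- Conditional maximal inequality from the unconditional one: `M ≥ 0`, `P (A ∩ {∃ t, M_t ≥ μ M_σ}) ≤ (e/μ) P A`.
`Ms` is the value `M_σ`, `Ev` the predicate "event in `F_σ`", `Hit c` the event `{∃ t ∈ [σ,T], c ≤ M t}`. -/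
theorem cond_maximal [IsFiniteMeasure P] {Ev : Set Ω → Prop} {Ms : Ω → ℝ} {Hit : ℝ → Set Ω}
    (hEvm : ∀ A, Ev A → MeasurableSet A)
    (hcell : ∀ A, Ev A → ∀ a b : ℝ, Ev (A ∩ {ω | Ms ω ∈ Set.Ico a b}))
    (hmax : ∀ A, Ev A → ∀ c : ℝ, 0 < c → ∀ C : ℝ, (∀ ω ∈ A, Ms ω ≤ C) →
      P (A ∩ Hit c) ≤ ENNReal.ofReal (C / c) * P A)
    (A : Set Ω) (hA : Ev A) (hpos : ∀ ω ∈ A, 0 < Ms ω) {μ : ℝ} (hμ : 0 < μ) (E : Set Ω)
    (hE : ∀ ω ∈ E, ∀ c : ℝ, c ≤ μ * Ms ω → ω ∈ Hit c) :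
    P (A ∩ E) ≤ ENNReal.ofReal (Real.exp 1 / μ) * P A := by
  classical
  set Ak : ℤ → Set Ω := fun k => A ∩ {ω | Ms ω ∈ Set.Ico (Real.exp k) (Real.exp (k + 1))} with hAk
  have hcov : A ∩ E ⊆ ⋃ k : ℤ, (Ak k ∩ Hit (μ * Real.exp k)) := by
    rintro ω ⟨hω, hωE⟩
    have hM := hpos ω hω
    refine mem_iUnion.2 ⟨⌊Real.log (Ms ω)⌋, ?_, ?_⟩
    · refine ⟨hω, ?_, ?_⟩
      · rw [← Real.le_log_iff_exp_le hM]; exact Int.floor_le _
      · rw [← Real.log_lt_iff_lt_exp hM]; exact Int.lt_floor_add_one _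
    · apply hE ω hωE
      have : Real.exp ((⌊Real.log (Ms ω)⌋ : ℤ) : ℝ) ≤ Ms ω := by
        rw [← Real.le_log_iff_exp_le hM]; exact Int.floor_le _
      gcongr
  have hdisj : Pairwise (Function.onFun Disjoint Ak) := by
    intro i j hij
    rw [Function.onFun, Set.disjoint_left]
    rintro ω ⟨_, h1, h2⟩ ⟨_, h3, h4⟩
    have h5 : Real.exp (i : ℝ) < Real.exp (j + 1) := lt_of_le_of_lt h1 h4
    have h6 : Real.exp (j : ℝ) < Real.exp (i + 1) := lt_of_le_of_lt h3 h2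
    rw [Real.exp_lt_exp] at h5 h6
    have h5' : i < j + 1 := by exact_mod_cast h5
    have h6' : j < i + 1 := by exact_mod_cast h6
    omega
  have hEvk : ∀ k, Ev (Ak k) := fun k => hcell A hA _ _
  calc P (A ∩ E) ≤ P (⋃ k : ℤ, (Ak k ∩ Hit (μ * Real.exp k))) := measure_mono hcov
    _ ≤ ∑' k : ℤ, P (Ak k ∩ Hit (μ * Real.exp k)) := measure_iUnion_le _
    _ ≤ ∑' k : ℤ, ENNReal.ofReal (Real.exp 1 / μ) * P (Ak k) := by
        refine ENNReal.tsum_le_tsum fun k => ?_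
        have h := hmax (Ak k) (hEvk k) (μ * Real.exp k) (by positivity) (Real.exp (k + 1))
          (fun ω hω => hω.2.2.le)
        refine h.trans (le_of_eq ?_)
        congr 2
        rw [Real.exp_add]
        field_simp
    _ = ENNReal.ofReal (Real.exp 1 / μ) * ∑' k : ℤ, P (Ak k) := ENNReal.tsum_mul_left
    _ = ENNReal.ofReal (Real.exp 1 / μ) * P (⋃ k, Ak k) := by
        rw [measure_iUnion hdisj (fun k => hEvm _ (hEvk k))]
    _ ≤ ENNReal.ofReal (Real.exp 1 / μ) * P A := by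
        gcongr
        exact iUnion_subset fun k => inter_subset_left

end Crest.Agent.R162.OP
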