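import Crest.Agent.R162.OSDefs
import Crest.Agent.R162.OS
import Crest.Agent.R162.OPa

/-! Row 162, node OP (helper149): the local maximal inequality for functions `F ≥ 0` of the state
with nonpositive generator, abstractly (structure `OneP` = the consequences of OPM / exit times). -/

set_option autoImplicit false

open MeasureTheory ProbabilityTheory Set Filter Topology
open scoped NNReal ENNReal

namespace Crest.Agent.R162.OP

open Crest.Agent.R162.OS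

/-- state space `(X, Y, L, a)` -/
abbrev S4 : Type := ℝ × ℝ × ℝ × ℝ

variable {Ω : Type*} {m : MeasurableSpace Ω}

/-- the open box `|X| < n`, `1/n < Y < n`, `|L| < n`, `|a| < n` -/
def box (n : ℕ) : Set S4 :=
  {v | |v.1| < n ∧ (1 : ℝ) / n < v.2.1 ∧ v.2.1 < n ∧ |v.2.2.1| < n ∧ |v.2.2.2| < n}

/-- the closed box -/
def cbox (n : ℕ) : Set S4 :=
  {v | |v.1| ≤ n ∧ (1 : ℝ) / n ≤ v.2.1 ∧ v.2.1 ≤ n ∧ |v.2.2.1| ≤ n ∧ |v.2.2.2| ≤ n}

theorem isOpen_box (n : ℕ) : IsOpen (box n) := by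
  have h1 : IsOpen {v : S4 | |v.1| < n} := isOpen_lt (by fun_prop) continuous_const
  have h2 : IsOpen {v : S4 | (1 : ℝ) / n < v.2.1} := isOpen_lt continuous_const (by fun_prop)
  have h3 : IsOpen {v : S4 | v.2.1 < n} := isOpen_lt (by fun_prop) continuous_const
  have h4 : IsOpen {v : S4 | |v.2.2.1| < n} := isOpen_lt (by fun_prop) continuous_const
  have h5 : IsOpen {v : S4 | |v.2.2.2| < n} := isOpen_lt (by fun_prop) continuous_const
  exact h1.inter (h2.inter (h3.inter (h4.inter h5)))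

theorem isClosed_cbox (n : ℕ) : IsClosed (cbox n) := by
  have h1 : IsClosed {v : S4 | |v.1| ≤ n} := isClosed_le (by fun_prop) continuous_const
  have h2 : IsClosed {v : S4 | (1 : ℝ) / n ≤ v.2.1} := isClosed_le continuous_const (by fun_prop)
  have h3 : IsClosed {v : S4 | v.2.1 ≤ n} := isClosed_le (by fun_prop) continuous_const
  have h4 : IsClosed {v : S4 | |v.2.2.1| ≤ n} := isClosed_le (by fun_prop) continuous_const
  have h5 : IsClosed {v : S4 | |v.2.2.2| ≤ n} := isClosed_le (by fun_prop) continuous_const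
  exact h1.inter (h2.inter (h3.inter (h4.inter h5)))

theorem box_subset_cbox (n : ℕ) : box n ⊆ cbox n :=
  fun _ h => ⟨h.1.le, h.2.1.le, h.2.2.1.le, h.2.2.2.1.le, h.2.2.2.2.le⟩

theorem closure_box_subset (n : ℕ) : closure (box n) ⊆ cbox n :=
  closure_minimal (box_subset_cbox n) (isClosed_cbox n)

theorem isCompact_cbox (n : ℕ) : IsCompact (cbox n) := by
  have h : cbox n ⊆ Set.Icc (-(n : ℝ)) n ×ˢ (Set.Icc (-(n : ℝ)) n ×ˢ
      (Set.Icc (-(n : ℝ)) n ×ˢ Set.Icc (-(n : ℝ)) n)) := by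
    rintro v ⟨h1, h2, h3, h4, h5⟩
    have h0 : (0 : ℝ) ≤ 1 / n := by positivity
    have hn : (0 : ℝ) ≤ n := Nat.cast_nonneg n
    exact ⟨abs_le.1 h1, ⟨by linarith, h3⟩, abs_le.1 h4, abs_le.1 h5⟩
  exact (isCompact_Icc.prod (isCompact_Icc.prod (isCompact_Icc.prod isCompact_Icc))).of_isClosed_subset
    (isClosed_cbox n) h

theorem cbox_pos {n : ℕ} (hn : 0 < n) : cbox n ⊆ {v : S4 | 0 < v.2.1} := by
  rintro v ⟨_, h2, _⟩
  have : (0 : ℝ) < 1 / n := by positivity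
  exact lt_of_lt_of_le this h2

theorem box_mono {n k : ℕ} (hn : 0 < n) (hnk : n ≤ k) : box n ⊆ box k := by
  rintro v ⟨h1, h2, h3, h4, h5⟩
  have hnk' : (n : ℝ) ≤ k := by exact_mod_cast hnk
  have hn' : (0 : ℝ) < n := by exact_mod_cast hn
  refine ⟨h1.trans_le hnk', lt_of_le_of_lt ?_ h2, h3.trans_le hnk', h4.trans_le hnk',
    h5.trans_le hnk'⟩
  exact one_div_le_one_div_of_le hn' hnk'

theorem exists_box {v : S4} (hv : 0 < v.2.1) : ∃ n : ℕ, v ∈ box (n + 1) := by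
  obtain ⟨n, hn⟩ := exists_nat_gt (max (max |v.1| v.2.1) (max (1 / v.2.1) (max |v.2.2.1| |v.2.2.2|)))
  have h1 := (max_lt_iff.1 hn).1
  have h2 := (max_lt_iff.1 hn).2
  have h3 := (max_lt_iff.1 h1).1
  have h4 := (max_lt_iff.1 h1).2
  have h5 := (max_lt_iff.1 h2).1
  have h6 := (max_lt_iff.1 (max_lt_iff.1 h2).2).1
  have h7 := (max_lt_iff.1 (max_lt_iff.1 h2).2).2
  refine ⟨n, ?_, ?_, ?_, ?_, ?_⟩
  · push_cast; linarith
  · push_cast
    rw [div_lt_iff₀ (by positivity)]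
    rw [div_lt_iff₀ hv] at h5
    nlinarith
  · push_cast; linarith
  · push_cast; linarith
  · push_cast; linarith

/-- a compact subset of `{Y > 0}` lies in the big boxes -/
theorem compact_box {K : Set S4} (hK : IsCompact K) (hKp : ∀ v ∈ K, 0 < v.2.1) :
    ∃ n₀ : ℕ, ∀ n, n₀ ≤ n → K ⊆ box (n + 1) := by
  have h := hK.elim_directed_cover (fun n : ℕ => box (n + 1)) (fun n => isOpen_box _)
    (fun v hv => by
      obtain ⟨n, hn⟩ := exists_box (hKp v hv)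
      exact mem_iUnion.2 ⟨n, hn⟩)
    (by
      intro i j
      exact ⟨max i j, box_mono (Nat.succ_pos _) (by simp), box_mono (Nat.succ_pos _) (by simp)⟩)
  obtain ⟨n, hn⟩ := h
  exact ⟨n, fun k hk => hn.trans (box_mono (Nat.succ_pos _) (by omega))⟩

/-- Abstract one-point state process: consequences of the exit time lemma. -/
structure OneP (𝓕 : Filtration ℝ≥0 m) (al : ℝ≥0 → Ω → Prop) (st : ℝ≥0 → Ω → S4) : Prop where
  al_mono : ∀ ω s t, s ≤ t → al t ω → al s ω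
  cont : ∀ ω t, al t ω → ContinuousOn (fun s => st s ω) (Set.Iic t)
  Y_pos : ∀ ω t, al t ω → 0 < (st t ω).2.1
  exit : ∀ (O : Set S4) (δ : ℝ), IsOpen O → 0 < δ → O ⊆ {v | δ ≤ v.2.1} →
    ∀ (σ : Ω → ℝ≥0) (T : ℝ≥0),
    IsST 𝓕 σ → ∃ τ : Ω → ℝ≥0, IsST 𝓕 τ ∧ (∀ ω, σ ω ≤ τ ω ∧ τ ω ≤ max T (σ ω)) ∧
      ∀ ω, al (σ ω) ω → st (σ ω) ω ∈ O →
        (∀ t, σ ω ≤ t → t ≤ τ ω → al t ω ∧ st t ω ∈ closure O) ∧
        (∀ t, σ ω ≤ t → t < τ ω → st t ω ∈ O) ∧ (τ ω = max T (σ ω) ∨ st (τ ω) ω ∉ O)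
  evState : ∀ (B : Set S4), MeasurableSet B → ∀ σ : Ω → ℝ≥0, IsST 𝓕 σ →
    EvST 𝓕 σ {ω | al (σ ω) ω ∧ st (σ ω) ω ∈ B}

/-- Dynkin inequality for one function `F` on the set `K`. -/
def DynLE (𝓕 : Filtration ℝ≥0 m) (P : Measure Ω) (al : ℝ≥0 → Ω → Prop)
    (st : ℝ≥0 → Ω → S4) (F : S4 → ℝ) (K : Set S4) : Prop :=
  ∀ (σ τ : Ω → ℝ≥0) (T : ℝ≥0) (A : Set Ω), IsST 𝓕 σ → IsST 𝓕 τ → (∀ ω, τ ω ≤ T) → EvST 𝓕 σ A →
    (∀ ω ∈ A, σ ω ≤ τ ω ∧ ∀ t, σ ω ≤ t → t ≤ τ ω → al t ω ∧ st t ω ∈ K) →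
    ∫ ω in A, F (st (τ ω) ω) ∂P ≤ ∫ ω in A, F (st (σ ω) ω) ∂P

section abs

variable {𝓕 : Filtration ℝ≥0 m} {al : ℝ≥0 → Ω → Prop} {st : ℝ≥0 → Ω → S4} {P : Measure Ω}

theorem EvST.le_const {σ : Ω → ℝ≥0} (hσ : IsST 𝓕 σ) (T : ℝ≥0) : EvST 𝓕 σ {ω | σ ω ≤ T} := by
  intro t
  have : {ω | σ ω ≤ T} ∩ {ω | σ ω ≤ t} = {ω | σ ω ≤ min T t} := by
    ext ω; simp
  rw [this]
  exact 𝓕.mono (min_le_right _ _) _ (hσ _)

theorem aesm (h : OneP 𝓕 al st) {F : S4 → ℝ} (hFc : ContinuousOn F {v | 0 < v.2.1})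
    {τ : Ω → ℝ≥0} (hτ : IsST 𝓕 τ) {A : Set Ω} (hA : MeasurableSet A)
    (hal : ∀ ω ∈ A, al (τ ω) ω) :
    AEStronglyMeasurable (fun ω => F (st (τ ω) ω)) (P.restrict A) := by
  classical
  set L : Set Ω := {ω | al (τ ω) ω} with hL
  have hB : ∀ B : Set S4, MeasurableSet B → MeasurableSet {ω | al (τ ω) ω ∧ st (τ ω) ω ∈ B} :=
    fun B hB => (h.evState B hB τ hτ).measurableSet
  have hLm : MeasurableSet L := by
    have e : L = {ω | al (τ ω) ω ∧ st (τ ω) ω ∈ (univ : Set S4)} := by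
      ext ω; simp [hL]
    rw [e]
    exact hB univ MeasurableSet.univ
  set g : Ω → S4 := fun ω => if ω ∈ L then st (τ ω) ω else 0 with hg
  have hgm : Measurable g := by
    intro B hBm
    have : g ⁻¹' B = {ω | al (τ ω) ω ∧ st (τ ω) ω ∈ B} ∪ (Lᶜ ∩ {_ω | (0 : S4) ∈ B}) := by
      ext ω
      by_cases hω : ω ∈ L
      · have : al (τ ω) ω := hω
        simp [hg, hω, this]
      · have : ¬ al (τ ω) ω := hω
        simp [hg, hω, this]
    rw [this]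
    refine (hB B hBm).union (hLm.compl.inter ?_)
    exact MeasurableSet.const _
  have hS : MeasurableSet {v : S4 | 0 < v.2.1} :=
    (isOpen_lt continuous_const (by fun_prop)).measurableSet
  have hF' : Measurable (({v : S4 | 0 < v.2.1}).piecewise F (fun _ => (0 : ℝ))) :=
    hFc.measurable_piecewise continuousOn_const hS
  refine ⟨fun ω => ({v : S4 | 0 < v.2.1}).piecewise F (fun _ => (0 : ℝ)) (g ω),
    (hF'.comp hgm).stronglyMeasurable, ?_⟩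
  refine (ae_restrict_iff' hA).2 (Eventually.of_forall fun ω hω => ?_)
  have h1 : ω ∈ L := hal ω hω
  have h2 : 0 < (st (τ ω) ω).2.1 := h.Y_pos ω _ (hal ω hω)
  have h3 : g ω = st (τ ω) ω := if_pos h1
  show F (st (τ ω) ω) = ({v : S4 | 0 < v.2.1}).piecewise F (fun _ => (0 : ℝ)) (g ω)
  rw [h3, Set.piecewise_eq_of_mem ({v : S4 | 0 < v.2.1}) F (fun _ => (0 : ℝ))
    (show st (τ ω) ω ∈ {v : S4 | 0 < v.2.1} from h2)]

/-- LOCAL MAXIMAL INEQUALITY -/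
theorem lmi (h : OneP 𝓕 al st) [IsFiniteMeasure P] {F : S4 → ℝ}
    (hF0 : ∀ v : S4, 0 < v.2.1 → 0 ≤ F v) (hFc : ContinuousOn F {v | 0 < v.2.1})
    (hD : ∀ n : ℕ, 0 < n → DynLE 𝓕 P al st F (cbox n)) {σ : Ω → ℝ≥0} (hσ : IsST 𝓕 σ)
    {A : Set Ω} (hA : EvST 𝓕 σ A) (hal : ∀ ω ∈ A, al (σ ω) ω) {C c : ℝ} (hc : 0 < c)
    (hC : ∀ ω ∈ A, F (st (σ ω) ω) ≤ C) :
    P (A ∩ {ω | ∃ t, σ ω ≤ t ∧ al t ω ∧ c ≤ F (st t ω)}) ≤ ENNReal.ofReal (C / c) * P A := by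
  classical
  rcases le_or_gt c C with hcC | hcC
  · have h1 : (1 : ℝ≥0∞) ≤ ENNReal.ofReal (C / c) := by
      rw [← ENNReal.ofReal_one]
      exact ENNReal.ofReal_le_ofReal ((one_le_div hc).2 hcC)
    calc P (A ∩ {ω | ∃ t, σ ω ≤ t ∧ al t ω ∧ c ≤ F (st t ω)}) ≤ P A :=
          measure_mono inter_subset_left
      _ = 1 * P A := (one_mul _).symm
      _ ≤ _ := by gcongr
  have hpo : IsOpen {v : S4 | 0 < v.2.1} := isOpen_lt continuous_const (by fun_prop)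
  set O : ℕ → Set S4 := fun n => box (n + 1) ∩ ({v | 0 < v.2.1} ∩ F ⁻¹' (Iio c)) with hO
  have hOo : ∀ n, IsOpen (O n) := fun n =>
    (isOpen_box _).inter (hFc.isOpen_inter_preimage hpo isOpen_Iio)
  have hOδ : ∀ n, O n ⊆ {v | (1 : ℝ) / ((n + 1 : ℕ) : ℝ) ≤ v.2.1} := fun n v hv => hv.1.2.1.le
  have hex := fun n : ℕ => h.exit (O n) ((1 : ℝ) / ((n + 1 : ℕ) : ℝ)) (hOo n) (by positivity)
    (hOδ n) σ ((n + 1 : ℕ) : ℝ≥0) hσ
  choose τ hτ hτb hτO using hex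
  set τ' : ℕ → Ω → ℝ≥0 := fun n ω => min (τ n ω) ((n + 1 : ℕ) : ℝ≥0) with hτ'
  have hτ's : ∀ n, IsST 𝓕 (τ' n) := fun n => (hτ n).min (IsST.const _)
  set An : ℕ → Set Ω := fun n =>
    (A ∩ {ω | al (σ ω) ω ∧ st (σ ω) ω ∈ O n}) ∩ {ω | σ ω ≤ ((n + 1 : ℕ) : ℝ≥0)} with hAn
  have hAnE : ∀ n, EvST 𝓕 σ (An n) := fun n =>
    (hA.inter (h.evState _ (hOo n).measurableSet σ hσ)).inter (EvST.le_const hσ _)
  have hAnm : ∀ n, MeasurableSet (An n) := fun n => (hAnE n).measurableSet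
  have hAA : ∀ n, An n ⊆ A := fun n ω hω => hω.1.1
  have hτeq : ∀ n, ∀ ω ∈ An n, τ' n ω = τ n ω := by
    intro n ω hω
    have h1 : σ ω ≤ ((n + 1 : ℕ) : ℝ≥0) := hω.2
    have h2 := (hτb n ω).2
    rw [max_eq_left h1] at h2
    exact min_eq_left h2
  have hstay : ∀ n, ∀ ω ∈ An n, σ ω ≤ τ' n ω ∧ ∀ t, σ ω ≤ t → t ≤ τ' n ω →
      al t ω ∧ st t ω ∈ cbox (n + 1) := by
    intro n ω hω
    rw [hτeq n ω hω]
    refine ⟨(hτb n ω).1, fun t h1 h2 => ?_⟩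
    have h3 := (hτO n ω hω.1.2.1 hω.1.2.2).1 t h1 h2
    refine ⟨h3.1, ?_⟩
    exact closure_box_subset _ (closure_mono inter_subset_left h3.2)
  have hdyn : ∀ n, ∫ ω in An n, F (st (τ' n ω) ω) ∂P ≤ ∫ ω in An n, F (st (σ ω) ω) ∂P := fun n =>
    hD (n + 1) (Nat.succ_pos n) σ (τ' n) ((n + 1 : ℕ) : ℝ≥0) (An n) hσ (hτ's n)
      (fun ω => min_le_right _ _) (hAnE n) (hstay n)
  set Bn : ℕ → Set Ω := fun n => {ω | c ≤ F (st (τ' n ω) ω)} ∩ An n with hBn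
  have hBb : ∀ n, P (Bn n) ≤ ENNReal.ofReal (C / c) * P A := by
    intro n
    have halτ : ∀ ω ∈ An n, al (τ' n ω) ω := fun ω hω =>
      ((hstay n ω hω).2 _ (hstay n ω hω).1 le_rfl).1
    obtain ⟨M, hM⟩ : ∃ M : ℝ, ∀ v ∈ cbox (n + 1), ‖F v‖ ≤ M :=
      (isCompact_cbox (n + 1)).exists_bound_of_continuousOn
        (hFc.mono (cbox_pos (Nat.succ_pos n)))
    have hint : IntegrableOn (fun ω => F (st (τ' n ω) ω)) (An n) P := by
      refine Integrable.of_bound (aesm h hFc (hτ's n) (hAnm n) halτ) M ?_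
      refine (ae_restrict_iff' (hAnm n)).2 (Eventually.of_forall fun ω hω => ?_)
      exact hM _ ((hstay n ω hω).2 _ (hstay n ω hω).1 le_rfl).2
    have hnn : 0 ≤ᵐ[P.restrict (An n)] fun ω => F (st (τ' n ω) ω) := by
      refine (ae_restrict_iff' (hAnm n)).2 (Eventually.of_forall fun ω hω => ?_)
      exact hF0 _ (h.Y_pos ω _ (halτ ω hω))
    have h1 := mul_meas_ge_le_integral_of_nonneg hnn hint c
    have h2 : ‖∫ ω in An n, F (st (σ ω) ω) ∂P‖ ≤ C * P.real (An n) := by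
      refine norm_setIntegral_le_of_norm_le_const (measure_lt_top _ _) fun ω hω => ?_
      have h3 : 0 ≤ F (st (σ ω) ω) := hF0 _ (h.Y_pos ω _ hω.1.2.1)
      rw [Real.norm_eq_abs, abs_of_nonneg h3]
      exact hC ω (hAA n hω)
    have h3 : c * (P.restrict (An n)).real {ω | c ≤ F (st (τ' n ω) ω)} ≤ C * P.real (An n) :=
      h1.trans ((hdyn n).trans ((le_abs_self _).trans h2))
    have h4 : (P.restrict (An n)).real {ω | c ≤ F (st (τ' n ω) ω)} = P.real (Bn n) := by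
      rw [Measure.real, Measure.restrict_apply' (hAnm n), Measure.real]
    rw [h4] at h3
    rcases (An n).eq_empty_or_nonempty with he | ⟨ω₀, hω₀⟩
    · have : Bn n = ∅ := by rw [hBn]; simp only [he, inter_empty]
      rw [this]; simp
    have hC0 : 0 ≤ C := (hF0 _ (h.Y_pos ω₀ _ hω₀.1.2.1)).trans (hC ω₀ (hAA n hω₀))
    have h5 : P.real (Bn n) ≤ C / c * P.real (An n) := by
      rw [div_mul_eq_mul_div, le_div_iff₀ hc]
      linarith
    calc P (Bn n) = ENNReal.ofReal (P.real (Bn n)) := (ofReal_measureReal).symm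
      _ ≤ ENNReal.ofReal (C / c * P.real (An n)) := ENNReal.ofReal_le_ofReal h5
      _ = ENNReal.ofReal (C / c) * P (An n) := by
          rw [ENNReal.ofReal_mul (by positivity), ofReal_measureReal]
      _ ≤ _ := by gcongr; exact hAA n
  have hcov : A ∩ {ω | ∃ t, σ ω ≤ t ∧ al t ω ∧ c ≤ F (st t ω)} ⊆
      ⋃ N : ℕ, ⋂ n : ℕ, ⋂ _ : N ≤ n, Bn n := by
    rintro ω ⟨hω, t₀, ht₀, hal₀, hF₀⟩
    have hK : IsCompact ((fun s => st s ω) '' Icc (σ ω) t₀) :=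
      isCompact_Icc.image_of_continuousOn ((h.cont ω t₀ hal₀).mono fun s hs => hs.2)
    obtain ⟨n₀, hn₀⟩ := compact_box hK (by
      rintro v ⟨s, hs, rfl⟩
      exact h.Y_pos ω s (h.al_mono ω s t₀ hs.2 hal₀))
    obtain ⟨n₁, hn₁⟩ := exists_nat_gt t₀
    refine mem_iUnion.2 ⟨max n₀ n₁, mem_iInter.2 fun n => mem_iInter.2 fun hn => ?_⟩
    have hnn₀ : n₀ ≤ n := (le_max_left _ _).trans hn
    have hnn₁ : n₁ ≤ n := (le_max_right _ _).trans hn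
    have ht₀n : t₀ < ((n + 1 : ℕ) : ℝ≥0) := by
      refine hn₁.trans_le ?_
      exact_mod_cast (by omega : n₁ ≤ n + 1)
    have hbox : ∀ s, σ ω ≤ s → s ≤ t₀ → st s ω ∈ box (n + 1) := fun s h1 h2 =>
      hn₀ n hnn₀ ⟨s, ⟨h1, h2⟩, rfl⟩
    have hpos : ∀ s, s ≤ t₀ → 0 < (st s ω).2.1 := fun s h2 =>
      h.Y_pos ω s (h.al_mono ω s t₀ h2 hal₀)
    have hσO : st (σ ω) ω ∈ O n :=
      ⟨hbox _ le_rfl ht₀, hpos _ ht₀, lt_of_le_of_lt (hC ω hω) hcC⟩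
    have hωAn : ω ∈ An n :=
      ⟨⟨hω, hal ω hω, hσO⟩, ht₀.trans ht₀n.le⟩
    refine ⟨?_, hωAn⟩
    show c ≤ F (st (τ' n ω) ω)
    rw [hτeq n ω hωAn]
    obtain ⟨h1, h2, h3⟩ := hτO n ω (hal ω hω) hσO
    have h4 : τ n ω ≤ t₀ := by
      by_contra h5
      push Not at h5
      have := (h2 t₀ ht₀ h5).2.2
      exact absurd hF₀ (not_le.2 this)
    have h5 : τ n ω ≠ max ((n + 1 : ℕ) : ℝ≥0) (σ ω) := by
      intro h6
      rw [h6] at h4
      exact absurd ((le_max_left _ _).trans h4) (not_le.2 ht₀n)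
    have h6 := h3.resolve_left h5
    by_contra h7
    push Not at h7
    exact h6 ⟨hbox _ (hτb n ω).1 h4, hpos _ h4, h7⟩
  calc P (A ∩ {ω | ∃ t, σ ω ≤ t ∧ al t ω ∧ c ≤ F (st t ω)})
      ≤ P (⋃ N : ℕ, ⋂ n : ℕ, ⋂ _ : N ≤ n, Bn n) := measure_mono hcov
    _ = ⨆ N, P (⋂ n : ℕ, ⋂ _ : N ≤ n, Bn n) := by
        refine Monotone.measure_iUnion ?_
        intro N N' hNN' ω hω
        simp only [mem_iInter] at hω ⊢
        exact fun n hn => hω n (hNN'.trans hn)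
    _ ≤ ENNReal.ofReal (C / c) * P A := by
        refine iSup_le fun N => (measure_mono ?_).trans (hBb N)
        intro ω hω
        simp only [mem_iInter] at hω
        exact hω N le_rfl

/-- CONDITIONAL MAXIMAL INEQUALITY -/
theorem cmi (h : OneP 𝓕 al st) [IsFiniteMeasure P] {F : S4 → ℝ}
    (hF0 : ∀ v : S4, 0 < v.2.1 → 0 < F v) (hFc : ContinuousOn F {v | 0 < v.2.1})
    (hD : ∀ n : ℕ, 0 < n → DynLE 𝓕 P al st F (cbox n)) {σ : Ω → ℝ≥0} (hσ : IsST 𝓕 σ)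
    {A : Set Ω} (hA : EvST 𝓕 σ A) {μ : ℝ} (hμ : 0 < μ) :
    P (A ∩ {ω | ∃ t, σ ω ≤ t ∧ al t ω ∧ μ * F (st (σ ω) ω) ≤ F (st t ω)}) ≤
      ENNReal.ofReal (Real.exp 1 / μ) * P A := by
  have hpo : IsOpen {v : S4 | 0 < v.2.1} := isOpen_lt continuous_const (by fun_prop)
  set L : Set Ω := {ω | al (σ ω) ω ∧ st (σ ω) ω ∈ (univ : Set S4)} with hL
  have hLE : EvST 𝓕 σ L := h.evState univ MeasurableSet.univ σ hσ
  have key := cond_maximal (P := P) (Ev := fun A' => EvST 𝓕 σ A' ∧ A' ⊆ L)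
    (Ms := fun ω => F (st (σ ω) ω))
    (Hit := fun c => {ω | ∃ t, σ ω ≤ t ∧ al t ω ∧ c ≤ F (st t ω)})
    (fun A' hA' => hA'.1.measurableSet)
    (fun A' hA' a b => by
      refine ⟨?_, inter_subset_left.trans hA'.2⟩
      have hm : MeasurableSet ({v : S4 | 0 < v.2.1} ∩ F ⁻¹' (Ico a b)) := by
        have e : {v : S4 | 0 < v.2.1} ∩ F ⁻¹' (Ico a b) = ({v : S4 | 0 < v.2.1} ∩ F ⁻¹' (Iio b)) \
            ({v : S4 | 0 < v.2.1} ∩ F ⁻¹' (Iio a)) := by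
          ext v
          simp only [mem_inter_iff, mem_preimage, mem_Ico, Set.mem_sdiff, mem_Iio, not_and, not_lt,
            mem_ofPred_eq]
          tauto
        rw [e]
        exact (hFc.isOpen_inter_preimage hpo isOpen_Iio).measurableSet.diff
          (hFc.isOpen_inter_preimage hpo isOpen_Iio).measurableSet
      have e2 : A' ∩ {ω | F (st (σ ω) ω) ∈ Ico a b} =
          A' ∩ {ω | al (σ ω) ω ∧ st (σ ω) ω ∈ {v : S4 | 0 < v.2.1} ∩ F ⁻¹' (Ico a b)} := by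
        ext ω
        constructor
        · rintro ⟨h1, h2⟩
          have h3 := (hA'.2 h1).1
          exact ⟨h1, h3, h.Y_pos ω _ h3, h2⟩
        · rintro ⟨h1, _, _, h2⟩
          exact ⟨h1, h2⟩
      rw [e2]
      exact hA'.1.inter (h.evState _ hm σ hσ))
    (fun A' hA' c hc C hC => lmi h (fun v hv => (hF0 v hv).le) hFc hD hσ hA'.1
      (fun ω hω => (hA'.2 hω).1) hc hC)
    (A ∩ L) ⟨hA.inter hLE, inter_subset_right⟩
    (fun ω hω => hF0 _ (h.Y_pos ω _ hω.2.1)) hμ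
    {ω | ∃ t, σ ω ≤ t ∧ al t ω ∧ μ * F (st (σ ω) ω) ≤ F (st t ω)}
    (fun ω hω c hc => by
      obtain ⟨t, h1, h2, h3⟩ := hω
      exact ⟨t, h1, h2, hc.trans h3⟩)
  calc P (A ∩ {ω | ∃ t, σ ω ≤ t ∧ al t ω ∧ μ * F (st (σ ω) ω) ≤ F (st t ω)})
      ≤ P ((A ∩ L) ∩ {ω | ∃ t, σ ω ≤ t ∧ al t ω ∧ μ * F (st (σ ω) ω) ≤ F (st t ω)}) := by
        refine measure_mono ?_
        rintro ω ⟨h1, t, h2, h3, h4⟩
        exact ⟨⟨h1, h.al_mono ω _ _ h2 h3, mem_univ _⟩, t, h2, h3, h4⟩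
    _ ≤ ENNReal.ofReal (Real.exp 1 / μ) * P (A ∩ L) := key
    _ ≤ _ := by gcongr; exact inter_subset_left

end abs

end Crest.Agent.R162.OP
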