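import Crest.Agent.R162.OPb
import Crest.Agent.R162.OPGen
import Crest.Agent.R162.OPTr
import Crest.Agent.R162.FL1b

/-! Row 162, node OP (helper149): the estimates OP1, OP2 from the conditional maximal inequality. -/

set_option autoImplicit false

open MeasureTheory ProbabilityTheory Set Filter Topology
open scoped NNReal ENNReal

namespace Crest.Agent.R162.OP

open Crest.Agent.R162.OS Crest.Agent.R162.FL Crest.Agent.R162.GEN Crest.Agent.R162.OPGen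
open Crest.ProbabilityR.Loewner

universe u

variable {Ω : Type u} {m : MeasurableSpace Ω} {P : Measure Ω} {Fl : Filtration ℝ≥0 m}
  {B : ℝ≥0 → Ω → ℝ} {κ : ℝ} {w : ℂ}

theorem isOpen_pos : IsOpen {q : S4 | 0 < q.2.1} := isOpen_lt continuous_const (by fun_prop)

/-- Dynkin inequality from the sign of the generator. -/
theorem dynLE_of_gen (hM : OPM.{u}) [IsProbabilityMeasure P] (hB : IsBM Fl B P) (hκ : 0 < κ)
    (hw : 0 < w.im) {F : S4 → ℝ} (hF : ContDiffOn ℝ 3 F {q | 0 < q.2.1})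
    {n : ℕ} (hn : 0 < n) (hg : ∀ q ∈ cbox n, gen κ F q ≤ 0) :
    DynLE Fl P (AliveP κ B w) (stP κ B w) F (cbox n) := by
  intro σ τ T A hσ hτ hT hA hst
  rw [hM hB hκ hw isOpen_pos (fun q hq => hq) hF (isCompact_cbox n) (cbox_pos hn) hσ hτ hT hA
    (fun ω hω => (hst ω hω).1) (fun ω hω t h1 h2 => (hst ω hω).2 t h1 h2)]
  have h1 : ∫ ω in A, (∫ s in (σ ω : ℝ)..(τ ω : ℝ), gen κ F (stW (driving κ B ω) s w)) ∂P ≤ 0 := by
    refine setIntegral_nonpos hA.measurableSet fun ω hω => ?_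
    have hle : (σ ω : ℝ) ≤ τ ω := by exact_mod_cast (hst ω hω).1
    rw [← neg_nonneg, ← intervalIntegral.integral_neg]
    refine intervalIntegral.integral_nonneg hle fun s hs => ?_
    have hs0 : 0 ≤ s := (σ ω).2.trans hs.1
    have h2 := ((hst ω hω).2 ⟨s, hs0⟩ (by exact_mod_cast hs.1) (by exact_mod_cast hs.2)).2
    have h3 : gen κ F (stW (driving κ B ω) s w) ≤ 0 := hg _ h2
    linarith
  linarith

/-- Dynkin inequality (lower form) from the sign of the generator. -/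
theorem dynGE_of_gen (hM : OPM.{u}) [IsProbabilityMeasure P] (hB : IsBM Fl B P) (hκ : 0 < κ)
    (hw : 0 < w.im) {F : S4 → ℝ} (hF : ContDiffOn ℝ 3 F {q | 0 < q.2.1}) {K : Set S4}
    (hK : IsCompact K) (hKp : K ⊆ {q | 0 < q.2.1}) (hg : ∀ q ∈ K, 0 ≤ gen κ F q)
    {σ τ : Ω → ℝ≥0} (hσ : IsST Fl σ) (hτ : IsST Fl τ) {T : ℝ≥0} (hT : ∀ ω, τ ω ≤ T)
    {A : Set Ω} (hA : EvST Fl σ A)
    (hst : ∀ ω ∈ A, σ ω ≤ τ ω ∧ ∀ t, σ ω ≤ t → t ≤ τ ω →
      AliveP κ B w t ω ∧ stP κ B w t ω ∈ K) :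
    ∫ ω in A, F (stP κ B w (σ ω) ω) ∂P ≤ ∫ ω in A, F (stP κ B w (τ ω) ω) ∂P := by
  rw [hM hB hκ hw isOpen_pos (fun q hq => hq) hF hK hKp hσ hτ hT hA
    (fun ω hω => (hst ω hω).1) (fun ω hω t h1 h2 => (hst ω hω).2 t h1 h2)]
  have h1 : 0 ≤ ∫ ω in A, (∫ s in (σ ω : ℝ)..(τ ω : ℝ), gen κ F (stW (driving κ B ω) s w)) ∂P := by
    refine setIntegral_nonneg hA.measurableSet fun ω hω => ?_
    have hle : (σ ω : ℝ) ≤ τ ω := by exact_mod_cast (hst ω hω).1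
    refine intervalIntegral.integral_nonneg hle fun s hs => ?_
    have hs0 : 0 ≤ s := (σ ω).2.trans hs.1
    have h2 := ((hst ω hω).2 ⟨s, hs0⟩ (by exact_mod_cast hs.1) (by exact_mod_cast hs.2)).2
    exact hg _ h2
  linarith

/-- the function `e^{μ a} (cosh x)^r` -/
noncomputable def Vop (μ r : ℝ) : ℝ → ℝ → ℝ → ℝ := fun _ a x => Real.exp (μ * a) * cp r x

theorem jet_Vop (μ r : ℝ) : Jet (Vop μ r) (fun _ _ _ => 0)
    (fun _ a x => (μ * Real.exp (μ * a)) * cp r x)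
    (fun _ a x => Real.exp (μ * a) * (r * Real.tanh x * cp r x))
    (fun _ a x => Real.exp (μ * a) * (r * cp r x * ((r - 1) * Real.tanh x ^ 2 + 1))) :=
  Jet.acp (fun s => hasDerivAt_expc μ s) (contDiff_expc μ) r

/-- the function on the state space -/
noncomputable def Fop (μ r : ℝ) : S4 → ℝ := pq (Vop μ r) 0 0

theorem Fop_eq (μ r : ℝ) (q : S4) : Fop μ r q = Real.exp (μ * q.2.2.2) * cp r (xc q.1 q.2.1) := by
  simp [Fop, pq, Vop]

theorem Fop_pos (μ r : ℝ) (q : S4) : 0 < Fop μ r q := by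
  rw [Fop_eq]; exact mul_pos (Real.exp_pos _) (cp_pos _ _)

theorem contDiffOn_Fop (μ r : ℝ) : ContDiffOn ℝ 3 (Fop μ r) {q | 0 < q.2.1} :=
  contDiffOn_pq3 (jet_Vop μ r) 0 0

theorem gen_Fop (hκ : 0 < κ) {μ r : ℝ} (h : ∀ s : ℝ, 0 ≤ s → s ≤ 1 →
    r * (κ / 2) * ((1 - s) + (bb κ + r) * s) + μ ≤ 0) {q : S4} (hq : 0 < q.2.1) :
    gen κ (Fop μ r) q ≤ 0 := by
  refine gen_pq_nonpos (jet_Vop μ r) κ 0 0 hq ?_
  have e : (0 : ℝ) = 0 * cp r (xc q.1 q.2.1) := by ring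
  have key := LVal_cp hκ (Real.exp (μ * (q.2.2.2 - 0))) 0 (μ * Real.exp (μ * (q.2.2.2 - 0))) r
    (Real.tanh (xc q.1 q.2.1)) (cp r (xc q.1 q.2.1))
  rw [← e] at key
  rw [key]
  have h1 : Ar κ r (Real.tanh (xc q.1 q.2.1)) + μ ≤ 0 :=
    h _ (sq_nonneg _) (tanh_sq_lt_one _).le
  have h2 : 0 < cp r (xc q.1 q.2.1) := cp_pos _ _
  have h3 : 0 < Real.exp (μ * (q.2.2.2 - 0)) := Real.exp_pos _
  have h4 : (Real.exp (μ * (q.2.2.2 - 0)) * Ar κ r (Real.tanh (xc q.1 q.2.1)) +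
      4 * (1 - Real.tanh (xc q.1 q.2.1) ^ 2) * 0 + μ * Real.exp (μ * (q.2.2.2 - 0))) =
      Real.exp (μ * (q.2.2.2 - 0)) * (Ar κ r (Real.tanh (xc q.1 q.2.1)) + μ) := by ring
  rw [h4]
  exact mul_nonpos_of_nonpos_of_nonneg (mul_nonpos_of_nonneg_of_nonpos h3.le h1) h2.le

/-- conditional maximal inequality for `Fop` -/
theorem cmi_Fop (hM : OPM.{u}) [IsProbabilityMeasure P] (hB : IsBM Fl B P) (hκ : 0 < κ)
    (hw : 0 < w.im) (h1 : OneP Fl (AliveP κ B w) (stP κ B w)) {μ r : ℝ}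
    (h : ∀ s : ℝ, 0 ≤ s → s ≤ 1 → r * (κ / 2) * ((1 - s) + (bb κ + r) * s) + μ ≤ 0)
    {σ : Ω → ℝ≥0} (hσ : IsST Fl σ) {A : Set Ω} (hA : EvST Fl σ A) {M : ℝ} (hM0 : 0 < M) :
    P (A ∩ {ω | ∃ t, σ ω ≤ t ∧ AliveP κ B w t ω ∧
      M * Fop μ r (stP κ B w (σ ω) ω) ≤ Fop μ r (stP κ B w t ω)}) ≤
      ENNReal.ofReal (Real.exp 1 / M) * P A :=
  cmi h1 (fun v _ => Fop_pos μ r v) (contDiffOn_Fop μ r).continuousOn
    (fun _ hn => dynLE_of_gen hM hB hκ hw (contDiffOn_Fop μ r) hn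
      (fun _ hq => gen_Fop hκ h (cbox_pos hn hq))) hσ hA hM0

/-! ### translation to `sfl`, `‖Zfl‖` -/

theorem norm_Zfl_eq (W : ℝ → ℝ) (t : ℝ) (z : ℂ) :
    Real.sqrt ((Zfl W t z).re ^ 2 + (Zfl W t z).im ^ 2) = ‖Zfl W t z‖ := by
  rw [Complex.norm_def, Complex.normSq_apply]; congr 1; ring

theorem cp_state {W : ℝ → ℝ} {t : ℝ} {z : ℂ} (h : Alive W z t) (p : ℝ) :
    cp (-p) (xc (stW W t z).1 (stW W t z).2.1) = sfl W t z ^ p := by
  have h1 : 0 < (stW W t z).2.1 := Zfl_im_pos h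
  rw [cp_neg_eq h1]
  congr 1
  show (Zfl W t z).im / Real.sqrt ((Zfl W t z).re ^ 2 + (Zfl W t z).im ^ 2) = sfl W t z
  rw [norm_Zfl_eq]; rfl

theorem sfl_pos {W : ℝ → ℝ} {t : ℝ} {z : ℂ} (h : Alive W z t) : 0 < sfl W t z :=
  div_pos (Zfl_im_pos h) (norm_pos_iff.2 (Zfl_ne_zero h))

theorem sfl_le_one {W : ℝ → ℝ} {t : ℝ} {z : ℂ} (h : Alive W z t) : sfl W t z ≤ 1 := by
  rw [sfl, div_le_one (norm_pos_iff.2 (Zfl_ne_zero h))]
  exact (le_abs_self _).trans (Complex.abs_im_le_norm _)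

theorem Fop_state {W : ℝ → ℝ} {t : ℝ} {z : ℂ} (h : Alive W z t) (μ p : ℝ) :
    Fop μ (-p) (stW W t z) = Real.exp (μ * ath W t z) * sfl W t z ^ p := by
  rw [Fop_eq, cp_state h]; rfl

/-- `Y_t = Im z · e^{-2 a_t}` -/
theorem im_eq {W : ℝ → ℝ} (hW : Continuous W) {t : ℝ} {z : ℂ} (h : Alive W z t) :
    (Zfl W t z).im = z.im * Real.exp (-2 * ath W t z) := by
  have h1 := OPTr.log_im_eq h hW
  have hz : 0 < z.im := h.im_pos
  have h2 : (∫ s in (0:ℝ)..t, -(2 / ‖Zfl W s z‖ ^ 2)) = -2 * ath W t z := by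
    unfold ath
    rw [← intervalIntegral.integral_const_mul]
    refine intervalIntegral.integral_congr fun s _ => ?_
    ring
  rw [h2] at h1
  rw [Zfl_im]
  calc (gfl W t z).im = Real.exp (Real.log (gfl W t z).im) := (Real.exp_log (gfl_im_pos h)).symm
    _ = _ := by rw [h1, Real.exp_add, Real.exp_log hz]

theorem norm_eq {W : ℝ → ℝ} (hW : Continuous W) {t : ℝ} {z : ℂ} (h : Alive W z t) :
    ‖Zfl W t z‖ = z.im * Real.exp (-2 * ath W t z) / sfl W t z := by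
  rw [← im_eq hW h, sfl]
  have h1 := (Zfl_im_pos h).ne'
  have h2 := norm_ne_zero_iff.2 (Zfl_ne_zero h)
  field_simp

/-! ### OP1 -/

theorem OP1_cond {κ : ℝ} (hκ : 0 < κ) (hκ8 : κ < 8) :
    ∀ s : ℝ, 0 ≤ s → s ≤ 1 → (-(bb κ / 2)) * (κ / 2) * ((1 - s) + (bb κ + -(bb κ / 2)) * s)
      + κ * bb κ / 4 * min (bb κ / 2) 1 ≤ 0 := by
  intro s hs0 hs1
  have hb : 0 < bb κ := by
    unfold bb
    have : 1 < 8 / κ := by rw [lt_div_iff₀ hκ]; linarith
    linarith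
  set b := bb κ with hbdef
  set mn := min (b / 2) 1 with hmn
  have h1 : mn ≤ (1 - s) + (b + -(b / 2)) * s := by
    have h2 : mn ≤ b / 2 := min_le_left _ _
    have h3 : mn ≤ 1 := min_le_right _ _
    nlinarith
  have h4 : 0 < κ * b / 4 := by positivity
  nlinarith [mul_le_mul_of_nonneg_left h1 h4.le]

/-- OP1, `ENNReal` form. -/
theorem op1 (hM : OPM.{u}) [IsProbabilityMeasure P] (hB : IsBM Fl B P) (hκ : 0 < κ) (hκ8 : κ < 8)
    (hw : 0 < w.im) (h1 : OneP Fl (AliveP κ B w) (stP κ B w)) {σ : Ω → ℝ≥0} (hσ : IsST Fl σ)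
    {A : Set Ω} (hA : EvST Fl σ A) {c₀ : ℝ} (hc₀ : 0 < c₀) (a : ℝ) :
    P (A ∩ {ω | ∃ t : ℝ≥0, σ ω ≤ t ∧ AliveP κ B w t ω ∧ c₀ ≤ sfl (driving κ B ω) t w ∧
      a ≤ ath (driving κ B ω) t w - ath (driving κ B ω) (σ ω) w}) ≤
      ENNReal.ofReal (Real.exp 1 * c₀ ^ (-(bb κ / 2)) *
        Real.exp (-(κ * bb κ / 4 * min (bb κ / 2) 1) * a)) * P A := by
  have hb : 0 < bb κ := by
    unfold bb
    have : 1 < 8 / κ := by rw [lt_div_iff₀ hκ]; linarith
    linarith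
  set lam := κ * bb κ / 4 * min (bb κ / 2) 1 with hlam
  have hlam0 : 0 < lam := by
    have : 0 < min (bb κ / 2) 1 := lt_min (by positivity) one_pos
    positivity
  have key := cmi_Fop hM hB hκ hw h1 (OP1_cond hκ hκ8) hσ hA
    (M := Real.exp (lam * a) * c₀ ^ (bb κ / 2)) (by positivity)
  refine (measure_mono ?_).trans (key.trans (le_of_eq ?_))
  · rintro ω ⟨hω, t, ht, hal, hS, ha⟩
    refine ⟨hω, t, ht, hal, ?_⟩
    have halσ : Alive (driving κ B ω) w (σ ω) := Alive.mono hal (σ ω).2 (by exact_mod_cast ht)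
    have e1 : Fop lam (-(bb κ / 2)) (stP κ B w (σ ω) ω) =
        Real.exp (lam * ath (driving κ B ω) (σ ω) w) * sfl (driving κ B ω) (σ ω) w ^ (bb κ / 2) :=
      Fop_state halσ _ _
    have e2 : Fop lam (-(bb κ / 2)) (stP κ B w t ω) =
        Real.exp (lam * ath (driving κ B ω) t w) * sfl (driving κ B ω) t w ^ (bb κ / 2) :=
      Fop_state hal _ _
    rw [e1, e2]
    have h3 : sfl (driving κ B ω) (σ ω) w ^ (bb κ / 2) ≤ 1 :=
      Real.rpow_le_one (sfl_pos halσ).le (sfl_le_one halσ) (by positivity)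
    have h4 : c₀ ^ (bb κ / 2) ≤ sfl (driving κ B ω) t w ^ (bb κ / 2) :=
      Real.rpow_le_rpow hc₀.le hS (by positivity)
    have h5 : Real.exp (lam * a) * Real.exp (lam * ath (driving κ B ω) (σ ω) w) ≤
        Real.exp (lam * ath (driving κ B ω) t w) := by
      rw [← Real.exp_add, Real.exp_le_exp]
      nlinarith
    calc Real.exp (lam * a) * c₀ ^ (bb κ / 2) * (Real.exp (lam * ath (driving κ B ω) (σ ω) w) *
          sfl (driving κ B ω) (σ ω) w ^ (bb κ / 2))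
        = (Real.exp (lam * a) * Real.exp (lam * ath (driving κ B ω) (σ ω) w)) *
          (c₀ ^ (bb κ / 2) * sfl (driving κ B ω) (σ ω) w ^ (bb κ / 2)) := by ring
      _ ≤ Real.exp (lam * ath (driving κ B ω) t w) *
          (sfl (driving κ B ω) t w ^ (bb κ / 2) * 1) := by
          have h6 := (sfl_pos halσ).le
          have h7 : 0 ≤ sfl (driving κ B ω) t w ^ (bb κ / 2) :=
            Real.rpow_nonneg (sfl_pos hal).le _
          gcongr
      _ = _ := by ring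
  · congr 2
    rw [Real.rpow_neg hc₀.le, neg_mul, Real.exp_neg]
    have : 0 < c₀ ^ (bb κ / 2) := by positivity
    field_simp

/-! ### OP2 -/

/-- OP2 upwards: `‖Z‖` grows by `e^b` within `K`-time `a`. -/
theorem op2_up (hM : OPM.{u}) [IsProbabilityMeasure P] (hB : IsBM Fl B P) (hκ : 0 < κ)
    (hw : 0 < w.im) (h1 : OneP Fl (AliveP κ B w) (stP κ B w)) {σ : Ω → ℝ≥0} (hσ : IsST Fl σ)
    {A : Set Ω} (hA : EvST Fl σ A) (a b : ℝ) :
    P (A ∩ {ω | ∃ t : ℝ≥0, σ ω ≤ t ∧ AliveP κ B w t ω ∧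
      ath (driving κ B ω) t w - ath (driving κ B ω) (σ ω) w ≤ a ∧
      Real.exp b * ‖Zfl (driving κ B ω) (σ ω) w‖ ≤ ‖Zfl (driving κ B ω) t w‖}) ≤
      ENNReal.ofReal (Real.exp 1 * Real.exp ((κ + 6) * a - b)) * P A := by
  have hcond : ∀ s : ℝ, 0 ≤ s → s ≤ 1 → (1 : ℝ) * (κ / 2) * ((1 - s) + (bb κ + 1) * s) +
      (-(κ + 8)) ≤ 0 := by
    intro s hs0 hs1
    have h2 : κ * bb κ = 8 - κ := by unfold bb; field_simp
    nlinarith [mul_nonneg hs0 hκ.le]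
  have key := cmi_Fop hM hB hκ hw h1 hcond hσ hA (M := Real.exp (b - (κ + 6) * a)) (by positivity)
  refine (measure_mono ?_).trans (key.trans (le_of_eq ?_))
  · rintro ω ⟨hω, t, ht, hal, ha, hZ⟩
    refine ⟨hω, t, ht, hal, ?_⟩
    have hW : Continuous (driving κ B ω) :=
      continuous_const.mul ((hB.cont ω).comp continuous_real_toNNReal)
    have halσ : Alive (driving κ B ω) w (σ ω) := Alive.mono hal (σ ω).2 (by exact_mod_cast ht)
    have e0 : ∀ s : ℝ≥0, Alive (driving κ B ω) w s → Fop (-(κ + 8)) 1 (stP κ B w s ω) =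
        Real.exp (-(κ + 6) * ath (driving κ B ω) s w) * ‖Zfl (driving κ B ω) s w‖ / w.im := by
      intro s hs
      have := Fop_state hs (-(κ + 8)) (-1)
      rw [neg_neg] at this
      rw [show stP κ B w s ω = stW (driving κ B ω) s w from rfl, this, norm_eq hW hs,
        Real.rpow_neg_one]
      have h5 := (sfl_pos hs).ne'
      field_simp
      rw [← Real.exp_add]
      congr 1; ring
    rw [e0 _ halσ, e0 _ hal]
    have h5 : Real.exp (b - (κ + 6) * a) * Real.exp (-(κ + 6) * ath (driving κ B ω) (σ ω) w) ≤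
        Real.exp (-(κ + 6) * ath (driving κ B ω) t w) * Real.exp b := by
      rw [← Real.exp_add, ← Real.exp_add, Real.exp_le_exp]
      nlinarith
    calc Real.exp (b - (κ + 6) * a) * (Real.exp (-(κ + 6) * ath (driving κ B ω) (σ ω) w) *
          ‖Zfl (driving κ B ω) (σ ω) w‖ / w.im)
        = (Real.exp (b - (κ + 6) * a) * Real.exp (-(κ + 6) * ath (driving κ B ω) (σ ω) w)) *
          ‖Zfl (driving κ B ω) (σ ω) w‖ / w.im := by ring
      _ ≤ (Real.exp (-(κ + 6) * ath (driving κ B ω) t w) * Real.exp b) *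
          ‖Zfl (driving κ B ω) (σ ω) w‖ / w.im := by gcongr
      _ = Real.exp (-(κ + 6) * ath (driving κ B ω) t w) * (Real.exp b *
          ‖Zfl (driving κ B ω) (σ ω) w‖) / w.im := by ring
      _ ≤ _ := by gcongr
  · congr 2
    rw [← Real.exp_sub, ← Real.exp_add]
    congr 1; ring

/-- OP2 downwards: `‖Z‖` decreases by `e^{-b}` within `K`-time `a`. -/
theorem op2_down (hM : OPM.{u}) [IsProbabilityMeasure P] (hB : IsBM Fl B P) (hκ : 0 < κ)
    (hw : 0 < w.im) (h1 : OneP Fl (AliveP κ B w) (stP κ B w)) {σ : Ω → ℝ≥0} (hσ : IsST Fl σ)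
    {A : Set Ω} (hA : EvST Fl σ A) (a b : ℝ) :
    P (A ∩ {ω | ∃ t : ℝ≥0, σ ω ≤ t ∧ AliveP κ B w t ω ∧
      ath (driving κ B ω) t w - ath (driving κ B ω) (σ ω) w ≤ a ∧
      ‖Zfl (driving κ B ω) t w‖ ≤ Real.exp (-b) * ‖Zfl (driving κ B ω) (σ ω) w‖}) ≤
      ENNReal.ofReal (Real.exp 1 * Real.exp ((κ + 6) * a - b)) * P A := by
  have hcond : ∀ s : ℝ, 0 ≤ s → s ≤ 1 → (-1 : ℝ) * (κ / 2) * ((1 - s) + (bb κ + -1) * s) +
      (-(κ + 4)) ≤ 0 := by
    intro s hs0 hs1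
    have h2 : κ * bb κ = 8 - κ := by unfold bb; field_simp
    nlinarith [mul_nonneg hs0 hκ.le]
  have key := cmi_Fop hM hB hκ hw h1 hcond hσ hA (M := Real.exp (b - (κ + 6) * a)) (by positivity)
  refine (measure_mono ?_).trans (key.trans (le_of_eq ?_))
  · rintro ω ⟨hω, t, ht, hal, ha, hZ⟩
    refine ⟨hω, t, ht, hal, ?_⟩
    have hW : Continuous (driving κ B ω) :=
      continuous_const.mul ((hB.cont ω).comp continuous_real_toNNReal)
    have halσ : Alive (driving κ B ω) w (σ ω) := Alive.mono hal (σ ω).2 (by exact_mod_cast ht)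
    have e0 : ∀ s : ℝ≥0, Alive (driving κ B ω) w s → Fop (-(κ + 4)) (-1) (stP κ B w s ω) =
        Real.exp (-(κ + 6) * ath (driving κ B ω) s w) * w.im / ‖Zfl (driving κ B ω) s w‖ := by
      intro s hs
      have := Fop_state hs (-(κ + 4)) 1
      rw [show stP κ B w s ω = stW (driving κ B ω) s w from rfl, this, norm_eq hW hs,
        Real.rpow_one]
      have h5 := (sfl_pos hs).ne'
      have h6 := hw.ne'
      field_simp
      rw [← Real.exp_add]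
      congr 1; ring
    rw [e0 _ halσ, e0 _ hal]
    have hn1 : 0 < ‖Zfl (driving κ B ω) (σ ω) w‖ := norm_pos_iff.2 (Zfl_ne_zero halσ)
    have hn2 : 0 < ‖Zfl (driving κ B ω) t w‖ := norm_pos_iff.2 (Zfl_ne_zero hal)
    have h5 : Real.exp (b - (κ + 6) * a) * Real.exp (-(κ + 6) * ath (driving κ B ω) (σ ω) w) *
        Real.exp (-b) ≤ Real.exp (-(κ + 6) * ath (driving κ B ω) t w) := by
      rw [← Real.exp_add, ← Real.exp_add, Real.exp_le_exp]
      nlinarith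
    rw [← mul_div_assoc, div_le_div_iff₀ hn1 hn2]
    calc Real.exp (b - (κ + 6) * a) * (Real.exp (-(κ + 6) * ath (driving κ B ω) (σ ω) w) * w.im) *
          ‖Zfl (driving κ B ω) t w‖
        ≤ Real.exp (b - (κ + 6) * a) * (Real.exp (-(κ + 6) * ath (driving κ B ω) (σ ω) w) * w.im) *
          (Real.exp (-b) * ‖Zfl (driving κ B ω) (σ ω) w‖) := by gcongr
      _ = (Real.exp (b - (κ + 6) * a) * Real.exp (-(κ + 6) * ath (driving κ B ω) (σ ω) w) *
        Real.exp (-b)) * w.im * ‖Zfl (driving κ B ω) (σ ω) w‖ := by ring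
      _ ≤ _ := by gcongr
  · congr 2
    rw [← Real.exp_sub, ← Real.exp_add]
    congr 1; ring

end Crest.Agent.R162.OP
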