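import Crest.Agent.R162.OPd
import Crest.Agent.R162.GEN2
import Crest.Agent.R162.GexDet

/-! Row 162, node OP (helper149): OP4, the tube estimate `|x| ≤ 1` during `K`-time `a`. -/

set_option autoImplicit false

open MeasureTheory ProbabilityTheory Set Filter Topology
open scoped NNReal ENNReal

namespace Crest.Agent.R162.OP

open Crest.Agent.R162.OS Crest.Agent.R162.FL Crest.Agent.R162.GEN Crest.Agent.R162.OPGen
open Crest.ProbabilityR.Loewner

universe u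

/-! ### deterministic part -/

section det

variable {W : ℝ → ℝ} {z : ℂ} {t : ℝ}

theorem xfl_eq (W : ℝ → ℝ) (t : ℝ) (z : ℂ) :
    xfl W t z = xc (stW W t z).1 (stW W t z).2.1 := by
  show Real.arsinh (-(Zfl W t z).re / (Zfl W t z).im) =
    -Real.arsinh ((Zfl W t z).re / (Zfl W t z).im)
  rw [neg_div, Real.arsinh_neg]

theorem sinh_one_lt : Real.sinh 1 < 2 := by
  rw [Real.sinh_eq]
  have := Real.exp_one_lt_d9
  have h2 := Real.exp_pos (-1)
  linarith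

theorem re_le_of_xfl (h : Alive W z t) (hx : |xfl W t z| ≤ 1) :
    |(Zfl W t z).re| ≤ 2 * (Zfl W t z).im := by
  have hY := Zfl_im_pos h
  have h1 : Real.sinh (xfl W t z) = -(Zfl W t z).re / (Zfl W t z).im := by
    rw [xfl, Real.sinh_arsinh]
  have h2 : |Real.sinh (xfl W t z)| ≤ 2 := by
    rw [Real.abs_sinh]
    exact (Real.sinh_le_sinh.2 hx).trans sinh_one_lt.le
  rw [h1, abs_div, abs_neg, abs_of_pos hY, div_le_iff₀ hY] at h2
  exact h2

theorem logups_ge (hW : Continuous W) (h : Alive W z t) :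
    Real.log z.im - 4 * ath W t z ≤ Real.log (ups W t z) := by
  rw [GEX.log_ups_eq hW h]
  have h1 : ∫ s in (0:ℝ)..t, 4 * (Zfl W s z).im ^ 2 / ‖Zfl W s z‖ ^ 4 ≤
      ∫ s in (0:ℝ)..t, 4 * (1 / ‖Zfl W s z‖ ^ 2) := by
    refine intervalIntegral.integral_mono_on h.1
      ((GEX.contL hW h).intervalIntegrable_of_Icc h.1)
      ((continuousOn_const.mul (GEX.contA hW h)).intervalIntegrable_of_Icc h.1) fun s hs => ?_
    have hn : 0 < ‖Zfl W s z‖ := norm_pos_iff.2 (GEX.Z_ne h hs)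
    have h2 : (Zfl W s z).im ^ 2 ≤ ‖Zfl W s z‖ ^ 2 := by
      rw [GEX.norm_sq_eq]; nlinarith [sq_nonneg (Zfl W s z).re]
    rw [mul_one_div, div_le_div_iff₀ (by positivity) (by positivity)]
    nlinarith [sq_nonneg (‖Zfl W s z‖), mul_nonneg (sub_nonneg.2 h2) (sq_nonneg (‖Zfl W s z‖))]
  rw [intervalIntegral.integral_const_mul] at h1
  have : ath W t z = ∫ s in (0:ℝ)..t, 1 / ‖Zfl W s z‖ ^ 2 := rfl
  rw [this]
  linarith

theorem logups_le (hW : Continuous W) (h : Alive W z t) :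
    Real.log (ups W t z) ≤ Real.log z.im := by
  have h1 := GEX.logups_anti hW h (s := 0) ⟨le_rfl, h.1⟩
  have h2 : ups W 0 z = z.im := by
    unfold ups
    rw [gfl_zero h.im_pos]; simp
  rwa [h2] at h1

/-- in the tube up to level `a₁` the state lies in the box `n`. -/
theorem tube_mem_box (hW : Continuous W) (h : Alive W z t) (hx : |xfl W t z| ≤ 1) {a₁ : ℝ}
    (ha : ath W t z ≤ a₁) {n : ℕ} (h1 : 2 * z.im < n) (h2 : 1 / (z.im * Real.exp (-2 * a₁)) < n)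
    (h3 : |Real.log z.im| + 4 * a₁ < n) : stW W t z ∈ box n := by
  have hz : 0 < z.im := h.im_pos
  have hY := Zfl_im_pos h
  have hYle := GEX.im_le hW h
  have ha0 := GEX.ath_nonneg hW h
  have hYge : z.im * Real.exp (-2 * a₁) ≤ (Zfl W t z).im := by
    rw [GEX.im_eq hW h]
    exact mul_le_mul_of_nonneg_left (Real.exp_le_exp.2 (by linarith)) hz.le
  have hp : 0 < z.im * Real.exp (-2 * a₁) := by positivity
  have hn : (0 : ℝ) < n := lt_trans (by positivity) h2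
  have hL1 := logups_ge hW h
  have hL2 := logups_le hW h
  have habs := abs_le.1 (le_refl |Real.log z.im|)
  refine ⟨?_, ?_, ?_, ?_, ?_⟩
  · exact lt_of_le_of_lt ((re_le_of_xfl h hx).trans (by linarith)) h1
  · refine lt_of_lt_of_le ?_ hYge
    rw [div_lt_iff₀ hn]
    rw [div_lt_iff₀ hp] at h2
    linarith
  · exact lt_of_le_of_lt hYle (by linarith)
  · show |Real.log (ups W t z)| < n
    rw [abs_lt]
    constructor
    · linarith [habs.1]
    · linarith [habs.2]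
  · show |ath W t z| < n
    rw [abs_of_nonneg ha0]
    linarith [abs_nonneg (Real.log z.im)]

end det

/-! ### the tube estimate in one cell -/

variable {Ω : Type u} {m : MeasurableSpace Ω} {P : Measure Ω} {Fl : Filtration ℝ≥0 m}
  {B : ℝ≥0 → Ω → ℝ} {κ : ℝ} {w : ℂ}

/-- the tube event up to level `a₁` from time `σ` -/
def TubeTo (κ : ℝ) (B : ℝ≥0 → Ω → ℝ) (w : ℂ) (σ : Ω → ℝ≥0) (a₁ : ℝ) (ω : Ω) : Prop :=
  ∃ t : ℝ≥0, σ ω ≤ t ∧ AliveP κ B w t ω ∧ ath (driving κ B ω) t w = a₁ ∧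
    ∀ s : ℝ≥0, σ ω ≤ s → s ≤ t → |xfl (driving κ B ω) s w| ≤ 1

theorem tube_cell (hM : OPM.{u}) [IsProbabilityMeasure P] (hB : IsBM Fl B P) (hκ : 0 < κ)
    (hw : 0 < w.im) {σ : Ω → ℝ≥0} (hσ : IsST Fl σ) {A : Set Ω} (hA : EvST Fl σ A)
    {N : ℝ≥0} (hN : ∀ ω ∈ A, σ ω ≤ N) {a₀ a₁ : ℝ}
    (hal : ∀ ω ∈ A, AliveP κ B w (σ ω) ω) (hx : ∀ ω ∈ A, |xfl (driving κ B ω) (σ ω) w| ≤ 1 / 2)
    (ha : ∀ ω ∈ A, a₀ ≤ ath (driving κ B ω) (σ ω) w ∧ ath (driving κ B ω) (σ ω) w < a₁) :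
    ∃ S ⊆ A, MeasurableSet S ∧ (∀ ω ∈ S, TubeTo κ B w σ a₁ ω) ∧
      9 / 16 * Real.exp (-(LamT κ * (a₁ - a₀))) * P.real A ≤ P.real S := by
  classical
  obtain ⟨n, hn⟩ := exists_nat_gt (max (max (2 * w.im) (1 / (w.im * Real.exp (-2 * a₁))))
    (max (|Real.log w.im| + 4 * a₁) a₁))
  have hn1 := (max_lt_iff.1 (max_lt_iff.1 hn).1).1
  have hn2 := (max_lt_iff.1 (max_lt_iff.1 hn).1).2
  have hn3 := (max_lt_iff.1 (max_lt_iff.1 hn).2).1
  have hn4 := (max_lt_iff.1 (max_lt_iff.1 hn).2).2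
  have hn0 : (0 : ℝ) < n := lt_trans (by positivity) hn1
  have hn0' : 0 < n := by exact_mod_cast hn0
  have hWc : ∀ ω, Continuous (driving κ B ω) := OPTr.driving_cont hB κ
  have h1 : OneP Fl (AliveP κ B w) (stP κ B w) := oneP hB
  -- the open tube
  have hxc : ContinuousOn (fun q : S4 => xc q.1 q.2.1) {q | 0 < q.2.1} := by
    have h2 : ContinuousOn (fun p : ℝ × ℝ => xc p.1 p.2) {p | 0 < p.2} := contDiffOn_xc.continuousOn
    have h3 : Continuous (fun q : S4 => ((q.1, q.2.1) : ℝ × ℝ)) := by fun_prop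
    exact h2.comp h3.continuousOn (fun q hq => hq)
  have hVx : ContinuousOn (fun q : S4 => |xc q.1 q.2.1|) {q | 0 < q.2.1} := hxc.abs
  set O : Set S4 := box n ∩ (({q : S4 | 0 < q.2.1} ∩ (fun q : S4 => |xc q.1 q.2.1|) ⁻¹' (Iio 1)) ∩
    {q : S4 | q.2.2.2 < a₁}) with hO
  have hOo : IsOpen O := (isOpen_box n).inter
    ((hVx.isOpen_inter_preimage isOpen_pos isOpen_Iio).inter
      (isOpen_lt (by fun_prop) continuous_const))
  have hOδ : O ⊆ {v | (1 : ℝ) / n ≤ v.2.1} := fun q hq => hq.1.2.1.le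
  -- the compact closed tube
  set K : Set S4 := cbox n ∩ ({q : S4 | |xc q.1 q.2.1| ≤ 1} ∩ {q : S4 | q.2.2.2 ≤ a₁}) with hK
  have hKc : IsClosed K := by
    have h3 : IsClosed (cbox n ∩ {q : S4 | |xc q.1 q.2.1| ≤ 1}) := by
      have h4 : ContinuousOn (fun q : S4 => |xc q.1 q.2.1|) (cbox n) :=
        hVx.mono (cbox_pos hn0')
      exact h4.preimage_isClosed_of_isClosed (isClosed_cbox n) isClosed_Iic
    have h5 : IsClosed {q : S4 | q.2.2.2 ≤ a₁} := isClosed_le (by fun_prop) continuous_const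
    have h6 := h3.inter h5
    rwa [inter_assoc] at h6
  have hKK : IsCompact K := (isCompact_cbox n).of_isClosed_subset hKc inter_subset_left
  have hOK : closure O ⊆ K := closure_minimal
    (fun q hq => ⟨box_subset_cbox n hq.1, (show |xc q.1 q.2.1| < 1 from hq.2.1.2).le,
      (show q.2.2.2 < a₁ from hq.2.2).le⟩)
    hKc
  have hKp : K ⊆ {q | 0 < q.2.1} := inter_subset_left.trans (cbox_pos hn0')
  -- the exit time
  obtain ⟨T0, hT0⟩ : ∃ T0 : ℝ≥0, a₁ * ((2 * w.im) ^ 2 + w.im ^ 2) < T0 := by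
    obtain ⟨k, hk⟩ := exists_nat_gt (a₁ * ((2 * w.im) ^ 2 + w.im ^ 2))
    exact ⟨k, by simpa using hk⟩
  obtain ⟨τ, hτ, hτb, hτO⟩ := h1.exit O ((1 : ℝ) / n) hOo (by positivity) hOδ σ (N + T0) hσ
  set τ' : Ω → ℝ≥0 := fun ω => min (τ ω) (N + T0) with hτ'
  have hτ's : IsST Fl τ' := hτ.min (IsST.const _)
  have hσO : ∀ ω ∈ A, stP κ B w (σ ω) ω ∈ O := by
    intro ω hω
    have h2 := hx ω hω
    have h3 : |xfl (driving κ B ω) (σ ω) w| ≤ 1 := h2.trans (by norm_num)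
    refine ⟨tube_mem_box (hWc ω) (hal ω hω) h3 (ha ω hω).2.le hn1 hn2 hn3, ⟨?_, ?_⟩, (ha ω hω).2⟩
    · exact h1.Y_pos ω _ (hal ω hω)
    · show |xc (stP κ B w (σ ω) ω).1 (stP κ B w (σ ω) ω).2.1| < 1
      have e : xc (stP κ B w (σ ω) ω).1 (stP κ B w (σ ω) ω).2.1 =
          xfl (driving κ B ω) (σ ω) w := (xfl_eq _ _ _).symm
      rw [e]; linarith
  have hτeq : ∀ ω ∈ A, τ' ω = τ ω := by
    intro ω hω
    have h2 := (hτb ω).2
    have h3 : σ ω ≤ N + T0 := (hN ω hω).trans (by simp)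
    rw [max_eq_left h3] at h2
    exact min_eq_left h2
  have hstay : ∀ ω ∈ A, σ ω ≤ τ' ω ∧ ∀ t, σ ω ≤ t → t ≤ τ' ω →
      AliveP κ B w t ω ∧ stP κ B w t ω ∈ K := by
    intro ω hω
    rw [hτeq ω hω]
    refine ⟨(hτb ω).1, fun t h2 h3 => ?_⟩
    have h4 := (hτO ω (hal ω hω) (hσO ω hω)).1 t h2 h3
    exact ⟨h4.1, hOK h4.2⟩
  have hdyn := dynGE_of_gen hM hB hκ hw (F := pq (VT (LamT κ) 0 0) 0 0)
    (contDiffOn_pq3 (jet_VT (LamT κ) 0 0) 0 0) hKK hKp
    (fun q hq => gen_tube hκ le_rfl (by simp) (hKp hq) (by simpa using hq.2.1))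
    hσ hτ's (T := N + T0) (fun ω => min_le_right _ _) hA hstay
  have hFeq : ∀ q : S4, pq (VT (LamT κ) 0 0) 0 0 q =
      Real.exp (LamT κ * q.2.2.2) * (1 - (xc q.1 q.2.1) ^ 2) ^ 2 := by
    intro q; simp [pq, VT]
  simp only [hFeq] at hdyn
  have hAm : MeasurableSet A := hA.measurableSet
  have hLam0 : 0 ≤ LamT κ := by unfold LamT; positivity
  -- the good event
  set S : Set Ω := A ∩ {ω | AliveP κ B w (τ' ω) ω ∧ stP κ B w (τ' ω) ω ∈
    ({q : S4 | 0 < q.2.1} ∩ (fun q : S4 => |xc q.1 q.2.1|) ⁻¹' (Iio 1))} with hS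
  have hSm : MeasurableSet S :=
    hAm.inter (h1.evState _ (hVx.isOpen_inter_preimage isOpen_pos isOpen_Iio).measurableSet
      τ' hτ's).measurableSet
  refine ⟨S, inter_subset_left, hSm, ?_, ?_⟩
  · -- pathwise
    rintro ω ⟨hω, halτ, hpos, hlt⟩
    have hlt' : |xc (stP κ B w (τ' ω) ω).1 (stP κ B w (τ' ω) ω).2.1| < 1 := hlt
    obtain ⟨hle, hst⟩ := hstay ω hω
    have htube : ∀ s : ℝ≥0, σ ω ≤ s → s ≤ τ' ω → |xfl (driving κ B ω) s w| ≤ 1 := by
      intro s h2 h3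
      rw [xfl_eq]
      exact (hst s h2 h3).2.2.1
    have hale : ath (driving κ B ω) (τ' ω) w ≤ a₁ := (hst _ hle le_rfl).2.2.2
    refine ⟨τ' ω, hle, halτ, ?_, htube⟩
    refine le_antisymm hale ?_
    by_contra hcon
    push Not at hcon
    -- the state at τ is in O
    have hin : stP κ B w (τ ω) ω ∈ O := by
      rw [← hτeq ω hω]
      exact ⟨tube_mem_box (hWc ω) halτ (htube _ hle le_rfl) hale hn1 hn2 hn3,
        ⟨hpos, hlt'⟩, hcon⟩
    have h2 := (hτO ω (hal ω hω) (hσO ω hω)).2.2.resolve_right (fun h => h hin)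
    have h3 : σ ω ≤ N + T0 := (hN ω hω).trans (by simp)
    rw [max_eq_left h3] at h2
    -- time bound
    have hdur := GEX.ath_lower (hWc ω) halτ (s := (σ ω : ℝ)) (m := 2 * w.im)
      ⟨(σ ω).2, by exact_mod_cast hle⟩ (fun r hr => by
        have hr0 : 0 ≤ r := (σ ω).2.trans hr.1
        have h4 := htube ⟨r, hr0⟩ (by exact_mod_cast hr.1) (by exact_mod_cast hr.2)
        have h5 : Alive (driving κ B ω) w r := Alive.mono halτ hr0 hr.2
        have h6 := re_le_of_xfl h5 h4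
        have h7 := GEX.im_le (hWc ω) h5
        linarith)
    have ha0 := GEX.ath_nonneg (hWc ω) (hal ω hω)
    have h8 : ((τ' ω : ℝ) - σ ω) / ((2 * w.im) ^ 2 + w.im ^ 2) ≤ a₁ := by linarith
    rw [div_le_iff₀ (by positivity)] at h8
    rw [hτeq ω hω, h2] at h8
    push_cast at h8
    have h9 : (σ ω : ℝ) ≤ N := by exact_mod_cast hN ω hω
    linarith
  · -- the inequality
    have hlow : 9 / 16 * Real.exp (LamT κ * a₀) * P.real A ≤
        ∫ ω in A, Real.exp (LamT κ * (stP κ B w (σ ω) ω).2.2.2) *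
          (1 - (xc (stP κ B w (σ ω) ω).1 (stP κ B w (σ ω) ω).2.1) ^ 2) ^ 2 ∂P := by
      have hFc : ContinuousOn (fun q : S4 => Real.exp (LamT κ * q.2.2.2) *
          (1 - (xc q.1 q.2.1) ^ 2) ^ 2) {q | 0 < q.2.1} := by
        have h3 : ContinuousOn (fun q : S4 => Real.exp (LamT κ * q.2.2.2)) {q | 0 < q.2.1} :=
          Continuous.continuousOn (by fun_prop)
        exact h3.mul ((continuousOn_const.sub (hxc.pow 2)).pow 2)
      have hmeas := aesm (P := P) h1 hFc hσ hAm hal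
      obtain ⟨M, hMb⟩ : ∃ M : ℝ, ∀ v ∈ K, ‖Real.exp (LamT κ * v.2.2.2) *
          (1 - (xc v.1 v.2.1) ^ 2) ^ 2‖ ≤ M :=
        hKK.exists_bound_of_continuousOn (hFc.mono hKp)
      have hint : IntegrableOn (fun ω => Real.exp (LamT κ * (stP κ B w (σ ω) ω).2.2.2) *
          (1 - (xc (stP κ B w (σ ω) ω).1 (stP κ B w (σ ω) ω).2.1) ^ 2) ^ 2) A P := by
        refine Integrable.of_bound hmeas M ?_
        refine (ae_restrict_iff' hAm).2 (Eventually.of_forall fun ω hω => ?_)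
        exact hMb _ ((hstay ω hω).2 _ le_rfl (hstay ω hω).1).2
      have hc : ∫ _ω in A, (9 / 16 * Real.exp (LamT κ * a₀)) ∂P =
          9 / 16 * Real.exp (LamT κ * a₀) * P.real A := by
        rw [setIntegral_const, smul_eq_mul, mul_comm]
      rw [← hc]
      refine setIntegral_mono_on (integrableOn_const (measure_ne_top _ _)) hint hAm fun ω hω => ?_
      have e : xc (stP κ B w (σ ω) ω).1 (stP κ B w (σ ω) ω).2.1 =
          xfl (driving κ B ω) (σ ω) w := (xfl_eq _ _ _).symm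
      rw [e]
      have h2 := abs_le.1 (hx ω hω)
      have h3 : a₀ ≤ (stP κ B w (σ ω) ω).2.2.2 := (ha ω hω).1
      have h4 : (3 / 4 : ℝ) ≤ 1 - xfl (driving κ B ω) (σ ω) w ^ 2 := by nlinarith [h2.1, h2.2]
      have h5 : (9 / 16 : ℝ) ≤ (1 - xfl (driving κ B ω) (σ ω) w ^ 2) ^ 2 := by nlinarith
      have h6 : Real.exp (LamT κ * a₀) ≤ Real.exp (LamT κ * (stP κ B w (σ ω) ω).2.2.2) :=
        Real.exp_le_exp.2 (mul_le_mul_of_nonneg_left h3 hLam0)
      calc 9 / 16 * Real.exp (LamT κ * a₀) = Real.exp (LamT κ * a₀) * (9 / 16) := by ring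
        _ ≤ _ := mul_le_mul h6 h5 (by norm_num) (Real.exp_pos _).le
    have hup : ∫ ω in A, Real.exp (LamT κ * (stP κ B w (τ' ω) ω).2.2.2) *
          (1 - (xc (stP κ B w (τ' ω) ω).1 (stP κ B w (τ' ω) ω).2.1) ^ 2) ^ 2 ∂P ≤
        Real.exp (LamT κ * a₁) * P.real S := by
      have hind : ∀ ω ∈ A, Real.exp (LamT κ * (stP κ B w (τ' ω) ω).2.2.2) *
          (1 - (xc (stP κ B w (τ' ω) ω).1 (stP κ B w (τ' ω) ω).2.1) ^ 2) ^ 2 =
          S.indicator (fun ω => Real.exp (LamT κ * (stP κ B w (τ' ω) ω).2.2.2) *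
          (1 - (xc (stP κ B w (τ' ω) ω).1 (stP κ B w (τ' ω) ω).2.1) ^ 2) ^ 2) ω := by
        intro ω hω
        by_cases hωS : ω ∈ S
        · rw [indicator_of_mem hωS]
        · rw [indicator_of_notMem hωS]
          have h2 := (hstay ω hω).2 _ (hstay ω hω).1 le_rfl
          have h3 : |xc (stP κ B w (τ' ω) ω).1 (stP κ B w (τ' ω) ω).2.1| ≤ 1 := h2.2.2.1
          have h4 : ¬ |xc (stP κ B w (τ' ω) ω).1 (stP κ B w (τ' ω) ω).2.1| < 1 := by
            intro h5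
            exact hωS ⟨hω, h2.1, hKp h2.2, h5⟩
          have h5 : |xc (stP κ B w (τ' ω) ω).1 (stP κ B w (τ' ω) ω).2.1| = 1 :=
            le_antisymm h3 (not_lt.1 h4)
          have h6 : (xc (stP κ B w (τ' ω) ω).1 (stP κ B w (τ' ω) ω).2.1) ^ 2 = 1 := by
            rw [← sq_abs, h5]; norm_num
          rw [h6]; ring
      rw [setIntegral_congr_fun hAm hind, setIntegral_indicator hSm]
      have hAS : A ∩ S = S := inter_eq_self_of_subset_right inter_subset_left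
      rw [hAS]
      have hb : ‖∫ ω in S, Real.exp (LamT κ * (stP κ B w (τ' ω) ω).2.2.2) *
          (1 - (xc (stP κ B w (τ' ω) ω).1 (stP κ B w (τ' ω) ω).2.1) ^ 2) ^ 2 ∂P‖ ≤
          Real.exp (LamT κ * a₁) * P.real S := by
        refine norm_setIntegral_le_of_norm_le_const (measure_lt_top _ _) fun ω hω => ?_
        have h2 := (hstay ω hω.1).2 _ (hstay ω hω.1).1 le_rfl
        have h3 : |xc (stP κ B w (τ' ω) ω).1 (stP κ B w (τ' ω) ω).2.1| ≤ 1 := h2.2.2.1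
        have h4 : (stP κ B w (τ' ω) ω).2.2.2 ≤ a₁ := h2.2.2.2
        set x := xc (stP κ B w (τ' ω) ω).1 (stP κ B w (τ' ω) ω).2.1
        have h5 : x ^ 2 ≤ 1 := by rw [← sq_abs]; nlinarith [abs_nonneg x]
        have h6 : (1 - x ^ 2) ^ 2 ≤ 1 := by nlinarith [sq_nonneg x]
        rw [Real.norm_eq_abs, abs_of_nonneg (by positivity)]
        calc Real.exp (LamT κ * (stP κ B w (τ' ω) ω).2.2.2) * (1 - x ^ 2) ^ 2
            ≤ Real.exp (LamT κ * a₁) * 1 :=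
              mul_le_mul (Real.exp_le_exp.2 (mul_le_mul_of_nonneg_left h4 hLam0)) h6
                (by positivity) (Real.exp_pos _).le
          _ = _ := mul_one _
      exact (le_abs_self _).trans hb
    have hfin := hlow.trans (hdyn.trans hup)
    have e1 : Real.exp (-(LamT κ * (a₁ - a₀))) = Real.exp (LamT κ * a₀) / Real.exp (LamT κ * a₁) := by
      rw [← Real.exp_sub]; congr 1; ring
    rw [e1]
    have hp := Real.exp_pos (LamT κ * a₁)
    calc 9 / 16 * (Real.exp (LamT κ * a₀) / Real.exp (LamT κ * a₁)) * P.real A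
        = (9 / 16 * Real.exp (LamT κ * a₀) * P.real A) / Real.exp (LamT κ * a₁) := by ring
      _ ≤ P.real S := by rw [div_le_iff₀ hp]; linarith

/-! ### OP4 -/

theorem measurable_a : Measurable (fun q : S4 => q.2.2.2) := by fun_prop

/-- **OP4**, any stopping time. -/
theorem OP4 (hM : OPM.{u}) [IsProbabilityMeasure P] (hB : IsBM Fl B P) (hκ : 0 < κ)
    (hw : 0 < w.im) {σ : Ω → ℝ≥0} (hσ : IsST Fl σ) {A : Set Ω} (hA : EvST Fl σ A)
    (hal : ∀ ω ∈ A, AliveP κ B w (σ ω) ω)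
    (hx : ∀ ω ∈ A, |xfl (driving κ B ω) (σ ω) w| ≤ 1 / 2) {a : ℝ} (ha : 0 ≤ a) :
    9 / 16 * Real.exp (-(LamT κ * (a + 1))) * P.real A ≤
      P.real {ω ∈ A | ∃ t : ℝ≥0, σ ω ≤ t ∧ AliveP κ B w t ω ∧
        ath (driving κ B ω) t w - ath (driving κ B ω) (σ ω) w = a ∧
        ∀ s : ℝ≥0, σ ω ≤ s → s ≤ t → |xfl (driving κ B ω) s w| ≤ 1} := by
  classical
  have h1 : OneP Fl (AliveP κ B w) (stP κ B w) := oneP hB
  have hWc : ∀ ω, Continuous (driving κ B ω) := OPTr.driving_cont hB κ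
  set E : Set Ω := {ω ∈ A | ∃ t : ℝ≥0, σ ω ≤ t ∧ AliveP κ B w t ω ∧
        ath (driving κ B ω) t w - ath (driving κ B ω) (σ ω) w = a ∧
        ∀ s : ℝ≥0, σ ω ≤ s → s ≤ t → |xfl (driving κ B ω) s w| ≤ 1} with hE
  set Ak : ℕ × ℕ → Set Ω := fun p => (A ∩ {ω | AliveP κ B w (σ ω) ω ∧ stP κ B w (σ ω) ω ∈
    (fun q : S4 => q.2.2.2) ⁻¹' (Ico (p.1 : ℝ) (p.1 + 1))}) ∩
    ({ω | σ ω ≤ ((p.2 + 1 : ℕ) : ℝ≥0)} ∩ {ω | ((p.2 : ℕ) : ℝ≥0) < σ ω ∨ (p.2 = 0 ∧ σ ω = 0)})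
    with hAk
  have hzero : EvST Fl σ {ω | σ ω = 0} := by
    have : {ω | σ ω = 0} = {ω | σ ω ≤ 0} := by ext ω; simp
    rw [this]; exact EvST.le_const hσ 0
  have hAkE : ∀ p, EvST Fl σ (Ak p) := by
    intro p
    refine (hA.inter (h1.evState _ (measurable_a measurableSet_Ico) σ hσ)).inter
      ((EvST.le_const hσ _).inter ?_)
    have e : {ω | ((p.2 : ℕ) : ℝ≥0) < σ ω ∨ (p.2 = 0 ∧ σ ω = 0)} =
        {ω | σ ω ≤ ((p.2 : ℕ) : ℝ≥0)}ᶜ ∪ (if p.2 = 0 then {ω | σ ω = 0} else ∅) := by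
      ext ω
      by_cases h0 : p.2 = 0
      · simp only [h0, Nat.cast_zero, true_and, if_true, mem_union, mem_compl_iff]
        show (0 < σ ω ∨ σ ω = 0) ↔ (¬ σ ω ≤ 0 ∨ σ ω = 0)
        rw [not_le]
      · simp [h0]
    rw [e]
    have hc := (EvST.le_const hσ ((p.2 : ℕ) : ℝ≥0)).compl hσ
    have hz : EvST Fl σ (if p.2 = 0 then {ω | σ ω = 0} else (∅ : Set Ω)) := by
      split_ifs
      · exact hzero
      · intro t; simp
    have hu := EvST.iUnion (F := Fl) (τ := σ)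
      (A := fun b : Bool => if b then {ω | σ ω ≤ ((p.2 : ℕ) : ℝ≥0)}ᶜ else
        (if p.2 = 0 then {ω | σ ω = 0} else (∅ : Set Ω)))
      (fun b => by cases b <;> simp only [if_true, Bool.false_eq_true, if_false]
                   · exact hz
                   · exact hc)
    convert hu using 1
    ext ω
    simp only [mem_union, mem_iUnion, Bool.exists_bool, Bool.false_eq_true, if_false, if_true]
    tauto
  have hex : ∀ p, ∃ S ⊆ Ak p, MeasurableSet S ∧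
      (∀ ω ∈ S, TubeTo κ B w σ ((p.1 : ℝ) + 1 + a) ω) ∧
      9 / 16 * Real.exp (-(LamT κ * (((p.1 : ℝ) + 1 + a) - p.1))) * P.real (Ak p) ≤ P.real S := by
    intro p
    refine tube_cell hM hB hκ hw hσ (hAkE p) (N := ((p.2 + 1 : ℕ) : ℝ≥0)) (fun ω hω => hω.2.1)
      (fun ω hω => hal ω hω.1.1) (fun ω hω => hx ω hω.1.1) (fun ω hω => ?_)
    have h2 : (p.1 : ℝ) ≤ ath (driving κ B ω) (σ ω) w ∧
        ath (driving κ B ω) (σ ω) w < (p.1 : ℝ) + 1 := hω.1.2.2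
    exact ⟨h2.1, by linarith [h2.2]⟩
  choose S hSA hSm hST hSP using hex
  have hcov : A ⊆ ⋃ p, Ak p := by
    intro ω hω
    have ha0 := GEX.ath_nonneg (hWc ω) (hal ω hω)
    by_cases h0 : σ ω = 0
    · refine mem_iUnion.2 ⟨(⌊ath (driving κ B ω) (σ ω) w⌋₊, 0), ⟨hω, hal ω hω, ?_, ?_⟩, ?_, ?_⟩
      · exact Nat.floor_le ha0
      · exact Nat.lt_floor_add_one _
      · show σ ω ≤ _
        rw [h0]; exact bot_le
      · exact Or.inr ⟨rfl, h0⟩
    · have hpos : 0 < σ ω := pos_iff_ne_zero.2 h0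
      have hcl : 0 < ⌈(σ ω : ℝ)⌉₊ := Nat.ceil_pos.2 (by exact_mod_cast hpos)
      refine mem_iUnion.2 ⟨(⌊ath (driving κ B ω) (σ ω) w⌋₊, ⌈(σ ω : ℝ)⌉₊ - 1),
        ⟨hω, hal ω hω, ?_, ?_⟩, ?_, ?_⟩
      · exact Nat.floor_le ha0
      · exact Nat.lt_floor_add_one _
      · show σ ω ≤ ((⌈(σ ω : ℝ)⌉₊ - 1 + 1 : ℕ) : ℝ≥0)
        rw [Nat.sub_add_cancel hcl]
        have := Nat.le_ceil (σ ω : ℝ)
        exact_mod_cast this
      · left
        show ((⌈(σ ω : ℝ)⌉₊ - 1 : ℕ) : ℝ≥0) < σ ω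
        have h3 : ⌈(σ ω : ℝ)⌉₊ - 1 < ⌈(σ ω : ℝ)⌉₊ := by omega
        have h4 := Nat.lt_ceil.1 h3
        exact_mod_cast h4
  have hdisj : Pairwise (Function.onFun Disjoint Ak) := by
    intro p q hpq
    rw [Function.onFun, Set.disjoint_left]
    rintro ω ⟨⟨_, _, h2⟩, h3, h4⟩ ⟨⟨_, _, h5⟩, h6, h7⟩
    apply hpq
    have e1 : p.1 = q.1 := by
      have h8 : (p.1 : ℝ) < q.1 + 1 := lt_of_le_of_lt h2.1 h5.2
      have h9 : (q.1 : ℝ) < p.1 + 1 := lt_of_le_of_lt h5.1 h2.2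
      have h8' : p.1 < q.1 + 1 := by exact_mod_cast h8
      have h9' : q.1 < p.1 + 1 := by exact_mod_cast h9
      omega
    have e2 : p.2 = q.2 := by
      have key : ∀ i j : ℕ, (((i : ℕ) : ℝ≥0) < σ ω ∨ (i = 0 ∧ σ ω = 0)) →
          σ ω ≤ ((j + 1 : ℕ) : ℝ≥0) → i ≤ j := by
        intro i j h8 h9
        rcases h8 with h8 | ⟨h8, _⟩
        · have : ((i : ℕ) : ℝ≥0) < ((j + 1 : ℕ) : ℝ≥0) := lt_of_lt_of_le h8 h9
          have : i < j + 1 := by exact_mod_cast this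
          omega
        · omega
      exact le_antisymm (key _ _ h4 h6) (key _ _ h7 h3)
    exact Prod.ext e1 e2
  have hSE : (⋃ p, S p) ⊆ E := by
    intro ω hω
    obtain ⟨p, hp⟩ := mem_iUnion.1 hω
    have hpA := hSA p hp
    refine ⟨hpA.1.1, ?_⟩
    obtain ⟨t, h2, h3, h4, h5⟩ := hST p ω hp
    have h6 : ath (driving κ B ω) (σ ω) w < (p.1 : ℝ) + 1 := hpA.1.2.2.2
    have hcont := (GEX.continuousOn_ath (hWc ω) h3).mono
      (Icc_subset_Icc (σ ω).2 le_rfl : Icc (σ ω : ℝ) (t : ℝ) ⊆ Icc 0 (t : ℝ))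
    have hle : (σ ω : ℝ) ≤ t := by exact_mod_cast h2
    obtain ⟨r, hr, hr2⟩ := intermediate_value_Icc hle hcont
      (show ath (driving κ B ω) (σ ω) w + a ∈ Icc (ath (driving κ B ω) (σ ω) w)
        (ath (driving κ B ω) t w) from ⟨by linarith, by rw [h4]; linarith⟩)
    have hr0 : 0 ≤ r := (σ ω).2.trans hr.1
    refine ⟨⟨r, hr0⟩, by exact_mod_cast hr.1, Alive.mono h3 hr0 hr.2, ?_, fun s h7 h8 => ?_⟩
    · show ath (driving κ B ω) r w - ath (driving κ B ω) (σ ω) w = a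
      simp only at hr2
      rw [hr2]; ring
    · exact h5 s h7 (h8.trans (by exact_mod_cast hr.2))
  have hSdisj : Pairwise (Function.onFun Disjoint S) := fun p q hpq =>
    (hdisj hpq).mono (hSA p) (hSA q)
  set c := 9 / 16 * Real.exp (-(LamT κ * (a + 1))) with hc
  have hc0 : 0 ≤ c := by positivity
  have hSP' : ∀ p, ENNReal.ofReal c * P (Ak p) ≤ P (S p) := by
    intro p
    have h2 := hSP p
    have e : ((p.1 : ℝ) + 1 + a) - p.1 = a + 1 := by ring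
    rw [e] at h2
    calc ENNReal.ofReal c * P (Ak p) = ENNReal.ofReal (c * P.real (Ak p)) := by
          rw [ENNReal.ofReal_mul hc0, ofReal_measureReal]
      _ ≤ ENNReal.ofReal (P.real (S p)) := ENNReal.ofReal_le_ofReal h2
      _ = P (S p) := ofReal_measureReal
  have hfin : ENNReal.ofReal c * P A ≤ P E := by
    calc ENNReal.ofReal c * P A ≤ ENNReal.ofReal c * P (⋃ p, Ak p) := by gcongr
      _ = ENNReal.ofReal c * ∑' p, P (Ak p) := by
          rw [measure_iUnion hdisj (fun p => (hAkE p).measurableSet)]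
      _ = ∑' p, ENNReal.ofReal c * P (Ak p) := ENNReal.tsum_mul_left.symm
      _ ≤ ∑' p, P (S p) := ENNReal.tsum_le_tsum hSP'
      _ = P (⋃ p, S p) := (measure_iUnion hSdisj hSm).symm
      _ ≤ P E := measure_mono hSE
  have h2 := ENNReal.toReal_mono (measure_ne_top _ _) hfin
  rwa [ENNReal.toReal_mul, ENNReal.toReal_ofReal hc0] at h2

/-- **OP4** at time `0` for a fixed point with `|x| ≤ 1/2`. -/
theorem OP4_zero (hM : OPM.{u}) [IsProbabilityMeasure P] (hB : IsBM Fl B P) (hκ : 0 < κ)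
    (hw : 0 < w.im) (hx : |Real.arsinh (-w.re / w.im)| ≤ 1 / 2) {a : ℝ} (ha : 0 ≤ a) :
    9 / 16 * Real.exp (-(LamT κ * (a + 1))) ≤
      P.real {ω | ∃ t : ℝ≥0, AliveP κ B w t ω ∧ ath (driving κ B ω) t w = a ∧
        ∀ s : ℝ≥0, s ≤ t → |xfl (driving κ B ω) s w| ≤ 1} := by
  have hW0 : ∀ ω, driving κ B ω 0 = 0 := by
    intro ω; simp [driving, hB.zero ω]
  have h2 := OP4 hM hB hκ hw (σ := fun _ => 0) (IsST.const 0) (A := univ)
    (EvST.univ (IsST.const 0)) (fun ω _ => alive_zero hw) (fun ω _ => by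
      have e : xfl (driving κ B ω) ((0 : ℝ≥0) : ℝ) w = Real.arsinh (-w.re / w.im) := by
        rw [NNReal.coe_zero, xfl, Zfl, gfl_zero hw, hW0]
        simp
      rw [e]; exact hx) ha
  rw [probReal_univ, mul_one] at h2
  refine h2.trans (measureReal_mono ?_)
  rintro ω ⟨_, t, _, h3, h4, h5⟩
  have e0 : ath (driving κ B ω) ((0 : ℝ≥0) : ℝ) w = 0 := by simp [ath]
  rw [e0, sub_zero] at h4
  exact ⟨t, h3, h4, fun s hs => h5 s bot_le hs⟩

end Crest.Agent.R162.OP
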