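import Mathlib
import Crest.Agent.R162.OSDefs

/-!
# Row 162, node OSF (helper958): optional stopping for nonnegative right-continuous
supermartingales with values in `ℝ≥0∞` (raw filtration, possibly infinite stopping times),
maximal inequality, localisation / Fatou forms.
-/

set_option autoImplicit false
open MeasureTheory ProbabilityTheory Filter Set
open scoped NNReal ENNReal Topology

namespace Crest.Agent.R162.OSF
open Crest.Agent.R162.OS (IsST EvST)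

variable {Ω : Type*} {m : MeasurableSpace Ω} {P : Measure Ω} {F : Filtration ℝ≥0 m}

/-- Value at a (possibly infinite) time, `0` where the time is infinite. -/
noncomputable def sv (M : ℝ≥0 → Ω → ℝ≥0∞) (τ : Ω → WithTop ℝ≥0) (ω : Ω) : ℝ≥0∞ :=
  if τ ω = ⊤ then 0 else M ((τ ω).untopD 0) ω

/-- Nonnegative (possibly infinite valued) right-continuous supermartingale, set-integral form. -/
structure SuperM (F : Filtration ℝ≥0 m) (P : Measure Ω) (M : ℝ≥0 → Ω → ℝ≥0∞) : Prop where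
  meas : ∀ t, Measurable[F t] (M t)
  le : ∀ s t, s ≤ t → ∀ A, MeasurableSet[F s] A → ∫⁻ ω in A, M t ω ∂P ≤ ∫⁻ ω in A, M s ω ∂P
  rc : ∀ ω t, ContinuousWithinAt (fun s => M s ω) (Ici t) t

/-! ### discrete optional stopping -/

/-- layers of an increasing sequence of sets -/
def layer (S : ℕ → Set Ω) : ℕ → Set Ω
  | 0 => S 0
  | (k+1) => S (k+1) \ S k

lemma disc (N : ℕ → Ω → ℝ≥0∞) (G : ℕ → MeasurableSpace Ω) (hG : ∀ k, G k ≤ m) (hmono : Monotone G)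
    (hsup : ∀ k A, MeasurableSet[G k] A → ∫⁻ ω in A, N (k+1) ω ∂P ≤ ∫⁻ ω in A, N k ω ∂P)
    (S T : ℕ → Set Ω) (hSm : Monotone S) (hTm : Monotone T) (hTS : ∀ k, T k ⊆ S k)
    (hT : ∀ k : ℕ, MeasurableSet[G k] (T k))
    (A : Set Ω) (hA : ∀ k : ℕ, MeasurableSet[G k] (A ∩ S k)) :
    ∑' k : ℕ, ∫⁻ ω in A ∩ layer T k, N k ω ∂P ≤ ∑' k : ℕ, ∫⁻ ω in A ∩ layer S k, N k ω ∂P := by
  have key : ∀ K : ℕ, (∑ k ∈ Finset.range (K+1), ∫⁻ ω in A ∩ layer T k, N k ω ∂P) +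
      ∫⁻ ω in A ∩ (S K \ T K), N K ω ∂P ≤
      ∑ k ∈ Finset.range (K+1), ∫⁻ ω in A ∩ layer S k, N k ω ∂P := by
    intro K
    induction K with
    | zero =>
      simp only [zero_add, Finset.range_one, Finset.sum_singleton, layer]
      have hu : A ∩ T 0 ∪ A ∩ (S 0 \ T 0) = A ∩ S 0 := by
        ext ω
        have h1 := @hTS 0 ω
        simp only [mem_union, mem_inter_iff, Set.mem_sdiff]
        tauto
      rw [← hu, lintegral_union]
      · have h2 : A ∩ (S 0 \ T 0) = (A ∩ S 0) \ T 0 := by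
          ext ω; simp only [mem_inter_iff, Set.mem_sdiff]; tauto
        rw [h2]
        exact (hG 0 _ (hA 0)).diff (hG 0 _ (hT 0))
      · rw [Set.disjoint_left]
        rintro ω ⟨-, h⟩ ⟨-, -, h'⟩
        exact h' h
    | succ K ih =>
      rw [Finset.sum_range_succ, Finset.sum_range_succ _ (K+1)]
      have hB : MeasurableSet[G K] (A ∩ (S K \ T K)) := by
        have h2 : A ∩ (S K \ T K) = (A ∩ S K) \ T K := by
          ext ω; simp only [mem_inter_iff, Set.mem_sdiff]; tauto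
        rw [h2]
        exact (hA K).diff (hT K)
      have hC : MeasurableSet (A ∩ (S (K+1) \ T (K+1))) := by
        have h2 : A ∩ (S (K+1) \ T (K+1)) = (A ∩ S (K+1)) \ T (K+1) := by
          ext ω; simp only [mem_inter_iff, Set.mem_sdiff]; tauto
        rw [h2]
        exact (hG _ _ (hA _)).diff (hG _ _ (hT _))
      have hD : MeasurableSet (A ∩ layer S (K+1)) := by
        have h2 : A ∩ layer S (K+1) = (A ∩ S (K+1)) \ (A ∩ S K) := by
          ext ω; simp only [layer, mem_inter_iff, Set.mem_sdiff]; tauto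
        rw [h2]
        exact (hG _ _ (hA _)).diff (hG _ _ (hA _))
      have hu : (A ∩ layer T (K+1)) ∪ (A ∩ (S (K+1) \ T (K+1))) =
          (A ∩ (S K \ T K)) ∪ (A ∩ layer S (K+1)) := by
        ext ω
        have h1 := @hTS K ω
        have h2 := @hTS (K+1) ω
        have h3 := @hSm K (K+1) (Nat.le_succ K) ω
        have h4 := @hTm K (K+1) (Nat.le_succ K) ω
        simp only [layer, mem_union, mem_inter_iff, Set.mem_sdiff]
        tauto
      have hlast : ∫⁻ ω in A ∩ layer T (K+1), N (K+1) ω ∂P +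
          ∫⁻ ω in A ∩ (S (K+1) \ T (K+1)), N (K+1) ω ∂P
          = ∫⁻ ω in A ∩ (S K \ T K), N (K+1) ω ∂P +
          ∫⁻ ω in A ∩ layer S (K+1), N (K+1) ω ∂P := by
        rw [← lintegral_union hC, ← lintegral_union hD, hu]
        · rw [Set.disjoint_left]
          rintro ω ⟨-, h, -⟩ ⟨-, -, h'⟩
          exact h' h
        · rw [Set.disjoint_left]
          rintro ω ⟨-, h, -⟩ ⟨-, -, h'⟩
          exact h' h
      calc _ = (∑ k ∈ Finset.range (K+1), ∫⁻ ω in A ∩ layer T k, N k ω ∂P) +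
            (∫⁻ ω in A ∩ layer T (K+1), N (K+1) ω ∂P +
          ∫⁻ ω in A ∩ (S (K+1) \ T (K+1)), N (K+1) ω ∂P) := by
              rw [add_assoc]
        _ = (∑ k ∈ Finset.range (K+1), ∫⁻ ω in A ∩ layer T k, N k ω ∂P) +
            (∫⁻ ω in A ∩ (S K \ T K), N (K+1) ω ∂P +
          ∫⁻ ω in A ∩ layer S (K+1), N (K+1) ω ∂P) := by rw [hlast]
        _ ≤ (∑ k ∈ Finset.range (K+1), ∫⁻ ω in A ∩ layer T k, N k ω ∂P) +
            (∫⁻ ω in A ∩ (S K \ T K), N K ω ∂P +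
          ∫⁻ ω in A ∩ layer S (K+1), N (K+1) ω ∂P) :=
              add_le_add le_rfl (add_le_add (hsup K _ hB) le_rfl)
        _ = ((∑ k ∈ Finset.range (K+1), ∫⁻ ω in A ∩ layer T k, N k ω ∂P) +
            ∫⁻ ω in A ∩ (S K \ T K), N K ω ∂P) +
          ∫⁻ ω in A ∩ layer S (K+1), N (K+1) ω ∂P := by rw [add_assoc]
        _ ≤ _ := add_le_add ih le_rfl
  refine ENNReal.tsum_le_of_sum_range_le fun n => ?_
  cases n with
  | zero => simp
  | succ K =>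
    exact le_self_add.trans ((key K).trans (ENNReal.sum_le_tsum _))

/-! ### dyadic approximation -/

/-- dyadic time just after `t` -/
noncomputable def dt (n : ℕ) (t : ℝ≥0) : ℝ≥0 := ((⌊t * 2 ^ n⌋₊ + 1 : ℕ) : ℝ≥0) / 2 ^ n

lemma lt_dt (n : ℕ) (t : ℝ≥0) : t < dt n t := by
  unfold dt
  rw [lt_div_iff₀ (by positivity)]
  exact_mod_cast Nat.lt_floor_add_one (t * 2 ^ n)

lemma dt_le (n : ℕ) (t : ℝ≥0) : dt n t ≤ t + (1/2) ^ n := by
  unfold dt
  rw [div_le_iff₀ (by positivity), add_mul]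
  have h : ((1:ℝ≥0)/2) ^ n * 2 ^ n = 1 := by
    rw [← mul_pow]; norm_num
  rw [h]
  push_cast
  gcongr
  exact Nat.floor_le (by positivity)

lemma tendsto_dt (t : ℝ≥0) : Tendsto (fun n => dt n t) atTop (𝓝[≥] t) := by
  refine tendsto_nhdsWithin_iff.mpr ⟨?_, Eventually.of_forall fun n => (lt_dt n t).le⟩
  refine tendsto_of_tendsto_of_tendsto_of_le_of_le (tendsto_const_nhds (x := t))
    (h := fun n => t + (1/2 : ℝ≥0) ^ n) ?_ (fun n => (lt_dt n t).le) (fun n => dt_le n t)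
  have h : Tendsto (fun n => (1/2 : ℝ≥0) ^ n) atTop (𝓝 0) :=
    NNReal.tendsto_pow_atTop_nhds_zero_of_lt_one (by
      rw [div_lt_one (by norm_num)]; norm_num)
  simpa using (tendsto_const_nhds (x := t)).add h

/-- the set where `τ` is before the `k`-th dyadic time -/
def lv (n : ℕ) (τ : Ω → WithTop ℝ≥0) (k : ℕ) : Set Ω :=
  {ω | τ ω < (((k : ℝ≥0) / 2 ^ n : ℝ≥0) : WithTop ℝ≥0)}

lemma lv_mono (n : ℕ) (τ : Ω → WithTop ℝ≥0) : Monotone (lv n τ) := by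
  intro a b hab ω h
  change τ ω < _ at h
  change τ ω < _
  refine lt_of_lt_of_le h ?_
  have : (a : ℝ≥0) / 2 ^ n ≤ (b : ℝ≥0) / 2 ^ n := by gcongr
  exact_mod_cast this

lemma lv_anti (n : ℕ) (σ τ : Ω → WithTop ℝ≥0) (h : ∀ ω, σ ω ≤ τ ω) (k : ℕ) : lv n τ k ⊆ lv n σ k :=
  fun ω hω => lt_of_le_of_lt (h ω) hω

lemma mem_lv_coe (n : ℕ) (τ : Ω → WithTop ℝ≥0) (k : ℕ) (ω : Ω) (a : ℝ≥0) (ha : τ ω = a) :
    ω ∈ lv n τ k ↔ ⌊a * 2 ^ n⌋₊ < k := by
  change τ ω < (((k : ℝ≥0) / 2 ^ n : ℝ≥0) : WithTop ℝ≥0) ↔ _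
  rw [ha, WithTop.coe_lt_coe, lt_div_iff₀ (by positivity), Nat.floor_lt (by positivity)]

lemma mem_layer_lv_coe (n : ℕ) (τ : Ω → WithTop ℝ≥0) (k : ℕ) (ω : Ω) (a : ℝ≥0) (ha : τ ω = a) :
    ω ∈ layer (lv n τ) k ↔ k = ⌊a * 2 ^ n⌋₊ + 1 := by
  cases k with
  | zero =>
    simp only [layer]
    rw [mem_lv_coe n τ 0 ω a ha]
    omega
  | succ k =>
    simp only [layer, Set.mem_sdiff]
    rw [mem_lv_coe n τ _ ω a ha, mem_lv_coe n τ _ ω a ha]
    omega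

lemma notMem_layer_lv_top (n : ℕ) (τ : Ω → WithTop ℝ≥0) (k : ℕ) (ω : Ω) (ha : τ ω = ⊤) :
    ω ∉ layer (lv n τ) k := by
  have h : ∀ k, ω ∉ lv n τ k := by
    intro k hk
    change τ ω < _ at hk
    rw [ha] at hk
    exact not_top_lt hk
  cases k with
  | zero => exact h 0
  | succ k => exact fun h' => h _ h'.1

/-- value at the dyadic time just after `τ` -/
noncomputable def svd (n : ℕ) (M : ℝ≥0 → Ω → ℝ≥0∞) (τ : Ω → WithTop ℝ≥0) (ω : Ω) : ℝ≥0∞ :=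
  if τ ω = ⊤ then 0 else M (dt n ((τ ω).untopD 0)) ω

lemma svd_eq_tsum (n : ℕ) (M : ℝ≥0 → Ω → ℝ≥0∞) (τ : Ω → WithTop ℝ≥0) (ω : Ω) :
    svd n M τ ω = ∑' k : ℕ, (layer (lv n τ) k).indicator (M ((k : ℝ≥0) / 2 ^ n)) ω := by
  unfold svd
  cases h : τ ω with
  | top =>
    simp only [if_true]
    symm
    rw [ENNReal.tsum_eq_zero]
    intro k
    exact indicator_of_notMem (notMem_layer_lv_top n τ k ω h) _
  | coe a =>
    simp only [WithTop.coe_ne_top, if_false, WithTop.untopD_coe]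
    rw [tsum_eq_single (⌊a * 2 ^ n⌋₊ + 1)]
    · rw [indicator_of_mem ((mem_layer_lv_coe n τ _ ω a h).mpr rfl)]
      rfl
    · intro k hk
      exact indicator_of_notMem (fun h2 => hk ((mem_layer_lv_coe n τ _ ω a h).mp h2)) _

lemma tendsto_svd {M : ℝ≥0 → Ω → ℝ≥0∞} (hrc : ∀ ω t, ContinuousWithinAt (fun s => M s ω) (Ici t) t)
    (τ : Ω → WithTop ℝ≥0) (ω : Ω) : Tendsto (fun n => svd n M τ ω) atTop (𝓝 (sv M τ ω)) := by
  unfold svd sv
  split_ifs with h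
  · exact tendsto_const_nhds
  · exact (hrc ω _).tendsto.comp (tendsto_dt _)

lemma measurableSet_lv {τ : Ω → WithTop ℝ≥0} (hτ : IsStoppingTime F τ) (n k : ℕ) :
    MeasurableSet[F ((k : ℝ≥0) / 2 ^ n)] (lv n τ k) := hτ.measurableSet_lt _

lemma measurableSet_layer {τ : Ω → WithTop ℝ≥0} (hτ : IsStoppingTime F τ) (n k : ℕ) :
    MeasurableSet[F ((k : ℝ≥0) / 2 ^ n)] (layer (lv n τ) k) := by
  cases k with
  | zero => exact measurableSet_lv hτ n 0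
  | succ k =>
    refine (measurableSet_lv hτ n (k+1)).diff (F.mono ?_ _ (measurableSet_lv hτ n k))
    gcongr; simp

lemma measurable_svd {M : ℝ≥0 → Ω → ℝ≥0∞} (hM : ∀ t, Measurable[F t] (M t))
    {τ : Ω → WithTop ℝ≥0} (hτ : IsStoppingTime F τ) (n : ℕ) : Measurable (svd n M τ) := by
  have : svd n M τ = fun ω => ∑' k : ℕ, (layer (lv n τ) k).indicator (M ((k : ℝ≥0) / 2 ^ n)) ω :=
    funext (svd_eq_tsum n M τ)
  rw [this]
  refine Measurable.tsum fun k => ?_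
  exact ((hM _).mono (F.le _) le_rfl).indicator (F.le _ _ (measurableSet_layer hτ n k))

lemma measurable_sv {M : ℝ≥0 → Ω → ℝ≥0∞} (hM : ∀ t, Measurable[F t] (M t))
    (hrc : ∀ ω t, ContinuousWithinAt (fun s => M s ω) (Ici t) t)
    {τ : Ω → WithTop ℝ≥0} (hτ : IsStoppingTime F τ) : Measurable (sv M τ) :=
  measurable_of_tendsto_metrizable (measurable_svd hM hτ)
    (tendsto_pi_nhds.mpr fun ω => tendsto_svd hrc τ ω)

lemma lintegral_svd {M : ℝ≥0 → Ω → ℝ≥0∞} (hM : ∀ t, Measurable[F t] (M t))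
    {τ : Ω → WithTop ℝ≥0} (hτ : IsStoppingTime F τ) (n : ℕ) (A : Set Ω) :
    ∫⁻ ω in A, svd n M τ ω ∂P =
      ∑' k : ℕ, ∫⁻ ω in A ∩ layer (lv n τ) k, M ((k : ℝ≥0) / 2 ^ n) ω ∂P := by
  simp_rw [svd_eq_tsum]
  rw [lintegral_tsum]
  · refine tsum_congr fun k => ?_
    rw [lintegral_indicator (F.le _ _ (measurableSet_layer hτ n k)),
      Measure.restrict_restrict (F.le _ _ (measurableSet_layer hτ n k)), inter_comm]
  · intro k
    exact (((hM _).mono (F.le _) le_rfl).indicator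
      (F.le _ _ (measurableSet_layer hτ n k))).aemeasurable

lemma SuperM.svd_le {M : ℝ≥0 → Ω → ℝ≥0∞} (h : SuperM F P M) {σ τ : Ω → WithTop ℝ≥0}
    (hσ : IsStoppingTime F σ) (hτ : IsStoppingTime F τ) (hle : ∀ ω, σ ω ≤ τ ω) {A : Set Ω}
    (hA : ∀ t : ℝ≥0, MeasurableSet[F t] (A ∩ {ω | σ ω ≤ t})) (n : ℕ) :
    ∫⁻ ω in A, svd n M τ ω ∂P ≤ ∫⁻ ω in A, svd n M σ ω ∂P := by
  rw [lintegral_svd h.meas hτ, lintegral_svd h.meas hσ]
  refine disc (fun k => M ((k : ℝ≥0) / 2 ^ n)) (fun k => F ((k : ℝ≥0) / 2 ^ n)) (fun k => F.le _)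
    ?_ ?_ (lv n σ) (lv n τ) (lv_mono n σ) (lv_mono n τ) (lv_anti n σ τ hle)
    (fun k => measurableSet_lv hτ n k) A ?_
  · intro a b hab
    refine F.mono ?_
    gcongr
  · intro k B hB
    refine h.le _ _ ?_ B hB
    gcongr; simp
  · intro k
    have h1 := hA ((k : ℝ≥0) / 2 ^ n)
    have h2 : A ∩ lv n σ k = (A ∩ {ω | σ ω ≤ (((k : ℝ≥0) / 2 ^ n : ℝ≥0) : WithTop ℝ≥0)}) ∩ lv n σ k := by
      ext ω
      constructor
      · rintro ⟨h3, h4⟩
        have h5 : σ ω < (((k : ℝ≥0) / 2 ^ n : ℝ≥0) : WithTop ℝ≥0) := h4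
        exact ⟨⟨h3, h5.le⟩, h4⟩
      · rintro ⟨⟨h3, -⟩, h4⟩
        exact ⟨h3, h4⟩
    rw [h2]
    exact h1.inter (measurableSet_lv hσ n k)

/-- truncation of a supermartingale -/
lemma SuperM.min_const {M : ℝ≥0 → Ω → ℝ≥0∞} (h : SuperM F P M) (C : ℝ≥0∞) :
    SuperM F P (fun t ω => min (M t ω) C) where
  meas t := (h.meas t).min measurable_const
  rc ω t := (h.rc ω t).min continuousWithinAt_const
  le s t hst A hA := by
    have hB : MeasurableSet[F s] {ω | M s ω < C} := measurableSet_lt (h.meas s) measurable_const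
    have hAB : MeasurableSet[F s] (A ∩ {ω | M s ω < C}) := hA.inter hB
    rw [← lintegral_inter_add_sdiff (fun ω => min (M t ω) C) A (F.le _ _ hB),
      ← lintegral_inter_add_sdiff (fun ω => min (M s ω) C) A (F.le _ _ hB)]
    refine add_le_add ?_ ?_
    · calc ∫⁻ ω in A ∩ {ω | M s ω < C}, min (M t ω) C ∂P
          ≤ ∫⁻ ω in A ∩ {ω | M s ω < C}, M t ω ∂P := lintegral_mono fun ω => min_le_left _ _
        _ ≤ ∫⁻ ω in A ∩ {ω | M s ω < C}, M s ω ∂P := h.le s t hst _ hAB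
        _ = ∫⁻ ω in A ∩ {ω | M s ω < C}, min (M s ω) C ∂P := by
            refine setLIntegral_congr_fun (F.le _ _ hAB) fun ω hω => ?_
            exact (min_eq_left (le_of_lt hω.2)).symm
    · calc ∫⁻ ω in A \ {ω | M s ω < C}, min (M t ω) C ∂P
          ≤ ∫⁻ ω in A \ {ω | M s ω < C}, C ∂P := lintegral_mono fun ω => min_le_right _ _
        _ = ∫⁻ ω in A \ {ω | M s ω < C}, min (M s ω) C ∂P := by
            refine setLIntegral_congr_fun ((F.le _ _ hA).diff (F.le _ _ hB)) fun ω hω => ?_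
            exact (min_eq_right (not_lt.mp hω.2)).symm

/-- **Optional stopping, nonnegative right-continuous supermartingales.** -/
theorem SuperM.os [IsFiniteMeasure P] {M : ℝ≥0 → Ω → ℝ≥0∞} (h : SuperM F P M)
    {σ τ : Ω → WithTop ℝ≥0}
    (hσ : IsStoppingTime F σ) (hτ : IsStoppingTime F τ) (hle : ∀ ω, σ ω ≤ τ ω) {A : Set Ω}
    (hA : ∀ t : ℝ≥0, MeasurableSet[F t] (A ∩ {ω | σ ω ≤ t})) :
    ∫⁻ ω in A, sv M τ ω ∂P ≤ ∫⁻ ω in A, sv M σ ω ∂P := by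
  -- bounded version
  have hb : ∀ C : ℝ≥0, ∫⁻ ω in A, sv (fun t ω => min (M t ω) C) τ ω ∂P ≤
      ∫⁻ ω in A, sv (fun t ω => min (M t ω) C) σ ω ∂P := by
    intro C
    have hC := h.min_const (C : ℝ≥0∞)
    have hlim : ∀ {ρ : Ω → WithTop ℝ≥0} (hρ : IsStoppingTime F ρ),
        Tendsto (fun n => ∫⁻ ω in A, svd n (fun t ω => min (M t ω) C) ρ ω ∂P) atTop
          (𝓝 (∫⁻ ω in A, sv (fun t ω => min (M t ω) C) ρ ω ∂P)) := by
      intro ρ hρ
      refine tendsto_lintegral_of_dominated_convergence (fun _ => (C : ℝ≥0∞))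
        (fun n => measurable_svd hC.meas hρ n) (fun n => ?_) ?_ ?_
      · refine Eventually.of_forall fun ω => ?_
        unfold svd
        split_ifs
        · exact zero_le
        · exact min_le_right _ _
      · simp only [lintegral_const, Measure.restrict_apply MeasurableSet.univ, univ_inter]
        exact (ENNReal.mul_lt_top ENNReal.coe_lt_top (measure_lt_top P _)).ne
      · exact Eventually.of_forall fun ω => tendsto_svd hC.rc ρ ω
    exact le_of_tendsto_of_tendsto' (hlim hτ) (hlim hσ) fun n => hC.svd_le hσ hτ hle hA n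
  have hsup : ∀ (ρ : Ω → WithTop ℝ≥0) (ω : Ω),
      ⨆ C : ℕ, sv (fun t ω => min (M t ω) (C : ℝ≥0∞)) ρ ω = sv M ρ ω := by
    intro ρ ω
    unfold sv
    split_ifs
    · simp
    · have h1 := inf_iSup_eq (M ((ρ ω).untopD 0) ω) (fun C : ℕ => (C : ℝ≥0∞))
      rw [ENNReal.iSup_natCast, inf_top_eq] at h1
      exact h1.symm
  have hmono : ∀ (ρ : Ω → WithTop ℝ≥0), Monotone (fun (C : ℕ) ω =>
      sv (fun t ω => min (M t ω) (C : ℝ≥0∞)) ρ ω) := by
    intro ρ a b hab ω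
    simp only [sv]
    split_ifs
    · exact le_rfl
    · exact min_le_min le_rfl (by exact_mod_cast hab)
  have hτ2 : ∫⁻ ω in A, sv M τ ω ∂P =
      ⨆ C : ℕ, ∫⁻ ω in A, sv (fun t ω => min (M t ω) (C : ℝ≥0∞)) τ ω ∂P := by
    rw [← lintegral_iSup (fun C => measurable_sv (h.min_const _).meas (h.min_const _).rc hτ)
      (hmono τ)]
    exact lintegral_congr fun ω => (hsup τ ω).symm
  rw [hτ2]
  refine iSup_le fun C => ?_
  have := hb (C : ℝ≥0)
  simp only [ENNReal.coe_natCast] at this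
  refine this.trans (lintegral_mono fun ω => ?_)
  rw [← hsup σ ω]
  exact le_iSup (fun C : ℕ => sv (fun t ω => min (M t ω) (C : ℝ≥0∞)) σ ω) C


/-! ### finite stopping times (`IsST`, `EvST`) -/

lemma isStoppingTime_coe {τ : Ω → ℝ≥0} (hτ : IsST F τ) :
    IsStoppingTime F (fun ω => ((τ ω : ℝ≥0) : WithTop ℝ≥0)) := by
  intro t
  have : {ω | ((τ ω : ℝ≥0) : WithTop ℝ≥0) ≤ t} = {ω | τ ω ≤ t} := by
    ext ω; exact WithTop.coe_le_coe
  rw [this]; exact hτ t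

lemma evST_coe {τ : Ω → ℝ≥0} {A : Set Ω} (hA : EvST F τ A) (t : ℝ≥0) :
    MeasurableSet[F t] (A ∩ {ω | ((τ ω : ℝ≥0) : WithTop ℝ≥0) ≤ t}) := by
  have : {ω | ((τ ω : ℝ≥0) : WithTop ℝ≥0) ≤ t} = {ω | τ ω ≤ t} := by
    ext ω; exact WithTop.coe_le_coe
  rw [this]; exact hA t

lemma sv_coe (M : ℝ≥0 → Ω → ℝ≥0∞) (τ : Ω → ℝ≥0) (ω : Ω) :
    sv M (fun ω => ((τ ω : ℝ≥0) : WithTop ℝ≥0)) ω = M (τ ω) ω := by
  unfold sv
  rw [if_neg (WithTop.coe_ne_top (a := τ ω))]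
  rfl

lemma measurableSet_of_evST {τ : Ω → ℝ≥0} {A : Set Ω} (hA : EvST F τ A) : MeasurableSet A := by
  have h : A = ⋃ n : ℕ, A ∩ {ω | τ ω ≤ (n : ℝ≥0)} := by
    ext ω
    simp only [mem_iUnion, mem_inter_iff, mem_ofPred_eq]
    constructor
    · intro h
      obtain ⟨n, hn⟩ := exists_nat_ge (τ ω)
      exact ⟨n, h, hn⟩
    · rintro ⟨n, h, -⟩; exact h
  rw [h]
  exact MeasurableSet.iUnion fun n => F.le _ _ (hA n)

/-- Optional stopping, finite times. -/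
theorem SuperM.os_st [IsFiniteMeasure P] {M : ℝ≥0 → Ω → ℝ≥0∞} (h : SuperM F P M)
    {σ τ : Ω → ℝ≥0} (hσ : IsST F σ) (hτ : IsST F τ) (hle : ∀ ω, σ ω ≤ τ ω) {A : Set Ω}
    (hA : EvST F σ A) :
    ∫⁻ ω in A, M (τ ω) ω ∂P ≤ ∫⁻ ω in A, M (σ ω) ω ∂P := by
  have := h.os (isStoppingTime_coe hσ) (isStoppingTime_coe hτ)
    (fun ω => by exact_mod_cast hle ω) (evST_coe hA)
  simp only [sv_coe] at this
  exact this

/-- Optional stopping, finite `σ`, possibly infinite `τ`. -/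
theorem SuperM.os_top [IsFiniteMeasure P] {M : ℝ≥0 → Ω → ℝ≥0∞} (h : SuperM F P M)
    {σ : Ω → ℝ≥0} {τ : Ω → WithTop ℝ≥0} (hσ : IsST F σ) (hτ : IsStoppingTime F τ)
    (hle : ∀ ω, (σ ω : WithTop ℝ≥0) ≤ τ ω) {A : Set Ω} (hA : EvST F σ A) :
    ∫⁻ ω in A, sv M τ ω ∂P ≤ ∫⁻ ω in A, M (σ ω) ω ∂P := by
  have := h.os (isStoppingTime_coe hσ) hτ hle (evST_coe hA)
  simp only [sv_coe] at this
  exact this

/-! ### maximal inequality -/

section maximal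

open Classical in
/-- first dyadic time of generation `n` after `σ` where `M > lam`, `⊤` if there is none -/
noncomputable def dhit (M : ℝ≥0 → Ω → ℝ≥0∞) (σ : Ω → ℝ≥0) (lam : ℝ≥0∞) (n : ℕ) (ω : Ω) :
    WithTop ℝ≥0 :=
  if h : ∃ k : ℕ, σ ω < (k : ℝ≥0) / 2 ^ n ∧ lam < M ((k : ℝ≥0) / 2 ^ n) ω then
    (((Nat.find h : ℕ) : ℝ≥0) / 2 ^ n : ℝ≥0) else ⊤

lemma dhit_le_iff (M : ℝ≥0 → Ω → ℝ≥0∞) (σ : Ω → ℝ≥0) (lam : ℝ≥0∞) (n : ℕ) (ω : Ω) (t : ℝ≥0) :
    dhit M σ lam n ω ≤ t ↔ ∃ k : ℕ, (k : ℝ≥0) / 2 ^ n ≤ t ∧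
      σ ω < (k : ℝ≥0) / 2 ^ n ∧ lam < M ((k : ℝ≥0) / 2 ^ n) ω := by
  classical
  unfold dhit
  split_ifs with h
  · rw [WithTop.coe_le_coe]
    constructor
    · intro h2
      exact ⟨Nat.find h, h2, Nat.find_spec h⟩
    · rintro ⟨k, hk, hk2⟩
      refine le_trans ?_ hk
      have : Nat.find h ≤ k := Nat.find_min' h hk2
      gcongr
  · constructor
    · intro h2; exact absurd h2 (not_le.mpr (WithTop.coe_lt_top t))
    · rintro ⟨k, hk, hk2⟩
      exact absurd ⟨k, hk2⟩ h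

lemma isStoppingTime_dhit {M : ℝ≥0 → Ω → ℝ≥0∞} (hM : ∀ t, Measurable[F t] (M t))
    {σ : Ω → ℝ≥0} (hσ : IsST F σ) (lam : ℝ≥0∞) (n : ℕ) : IsStoppingTime F (dhit M σ lam n) := by
  intro t
  have h : {ω | dhit M σ lam n ω ≤ t} = ⋃ k : ℕ, {ω | (k : ℝ≥0) / 2 ^ n ≤ t ∧
      σ ω < (k : ℝ≥0) / 2 ^ n ∧ lam < M ((k : ℝ≥0) / 2 ^ n) ω} := by
    ext ω
    rw [mem_iUnion]
    exact dhit_le_iff M σ lam n ω t
  rw [h]
  refine MeasurableSet.iUnion fun k => ?_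
  by_cases hk : (k : ℝ≥0) / 2 ^ n ≤ t
  · have h2 : {ω | (k : ℝ≥0) / 2 ^ n ≤ t ∧ σ ω < (k : ℝ≥0) / 2 ^ n ∧
        lam < M ((k : ℝ≥0) / 2 ^ n) ω} =
        {ω | ((σ ω : ℝ≥0) : WithTop ℝ≥0) < (((k : ℝ≥0) / 2 ^ n : ℝ≥0) : WithTop ℝ≥0)} ∩
          {ω | lam < M ((k : ℝ≥0) / 2 ^ n) ω} := by
      ext ω
      simp only [mem_ofPred_eq, mem_inter_iff, WithTop.coe_lt_coe]
      constructor
      · rintro ⟨-, h⟩; exact h
      · intro h; exact ⟨hk, h⟩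
    rw [h2]
    have h3 := (isStoppingTime_coe hσ).measurableSet_lt ((k : ℝ≥0) / 2 ^ n)
    have h4 : MeasurableSet[F ((k : ℝ≥0) / 2 ^ n)] {ω | lam < M ((k : ℝ≥0) / 2 ^ n) ω} :=
      (hM ((k : ℝ≥0) / 2 ^ n)) measurableSet_Ioi
    exact F.mono hk _ (@MeasurableSet.inter _ (F ((k : ℝ≥0) / 2 ^ n)) _ _ h3 h4)
  · have h2 : {ω | (k : ℝ≥0) / 2 ^ n ≤ t ∧ σ ω < (k : ℝ≥0) / 2 ^ n ∧
        lam < M ((k : ℝ≥0) / 2 ^ n) ω} = ∅ := by
      ext ω
      simp only [mem_ofPred_eq, mem_empty_iff_false, iff_false]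
      rintro ⟨h, -⟩; exact hk h
    rw [h2]
    exact @MeasurableSet.empty _ (F t)

lemma le_dhit (M : ℝ≥0 → Ω → ℝ≥0∞) (σ : Ω → ℝ≥0) (lam : ℝ≥0∞) (n : ℕ) (ω : Ω) :
    (σ ω : WithTop ℝ≥0) ≤ dhit M σ lam n ω := by
  classical
  unfold dhit
  split_ifs with h
  · exact_mod_cast (Nat.find_spec h).1.le
  · exact le_top

lemma lam_le_sv_dhit (M : ℝ≥0 → Ω → ℝ≥0∞) (σ : Ω → ℝ≥0) (lam : ℝ≥0∞) (n : ℕ) (ω : Ω)
    (h : dhit M σ lam n ω ≠ ⊤) : lam ≤ sv M (dhit M σ lam n) ω := by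
  classical
  unfold sv
  rw [if_neg h]
  unfold dhit at h ⊢
  split_ifs with h2
  · exact (Nat.find_spec h2).2.le
  · rw [dif_neg h2] at h; exact absurd rfl h

/-- `λ P(A ∩ {∃ t ≥ σ, M_t > λ}) ≤ ∫_A M_σ`. -/
theorem SuperM.maximal_lt [IsFiniteMeasure P] {M : ℝ≥0 → Ω → ℝ≥0∞} (h : SuperM F P M)
    {σ : Ω → ℝ≥0} (hσ : IsST F σ) {A : Set Ω} (hA : EvST F σ A) (lam : ℝ≥0∞) :
    lam * P (A ∩ {ω | ∃ t, σ ω ≤ t ∧ lam < M t ω}) ≤ ∫⁻ ω in A, M (σ ω) ω ∂P := by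
  have hn : ∀ n, lam * P (A ∩ {ω | dhit M σ lam n ω ≠ ⊤}) ≤ ∫⁻ ω in A, M (σ ω) ω ∂P := by
    intro n
    refine le_trans ?_ (h.os_top hσ (isStoppingTime_dhit h.meas hσ lam n)
      (le_dhit M σ lam n) hA)
    have hmeas : MeasurableSet {ω | dhit M σ lam n ω ≠ ⊤} := by
      have h3 : {ω | dhit M σ lam n ω ≠ ⊤} = ⋃ j : ℕ, {ω | dhit M σ lam n ω ≤ ((j : ℝ≥0) : WithTop ℝ≥0)} := by
        ext ω
        simp only [mem_ofPred_eq, mem_iUnion]
        constructor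
        · intro h4
          lift dhit M σ lam n ω to ℝ≥0 using h4 with a ha
          obtain ⟨j, hj⟩ := exists_nat_ge a
          exact ⟨j, by exact_mod_cast hj⟩
        · rintro ⟨j, hj⟩ h4
          rw [h4] at hj
          exact absurd hj (not_le.mpr (WithTop.coe_lt_top _))
      rw [h3]
      exact MeasurableSet.iUnion fun j => F.le _ _ (isStoppingTime_dhit h.meas hσ lam n j)
    calc lam * P (A ∩ {ω | dhit M σ lam n ω ≠ ⊤})
        = ∫⁻ ω in A ∩ {ω | dhit M σ lam n ω ≠ ⊤}, lam ∂P := by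
          rw [setLIntegral_const]
      _ ≤ ∫⁻ ω in A ∩ {ω | dhit M σ lam n ω ≠ ⊤}, sv M (dhit M σ lam n) ω ∂P := by
          refine setLIntegral_mono' ((measurableSet_of_evST hA).inter hmeas) fun ω hω => ?_
          exact lam_le_sv_dhit M σ lam n ω hω.2
      _ ≤ _ := lintegral_mono_set inter_subset_left
  have hmono : Monotone fun n => A ∩ {ω | dhit M σ lam n ω ≠ ⊤} := by
    refine monotone_nat_of_le_succ fun n => ?_
    rintro ω ⟨hω, h1⟩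
    refine ⟨hω, ?_⟩
    simp only [mem_ofPred_eq] at h1 ⊢
    lift dhit M σ lam n ω to ℝ≥0 using h1 with a ha
    have h2 : dhit M σ lam n ω ≤ a := ha.symm.le
    rw [dhit_le_iff] at h2
    obtain ⟨k, hk, hk2, hk3⟩ := h2
    have e : ((2 * k : ℕ) : ℝ≥0) / 2 ^ (n+1) = (k : ℝ≥0) / 2 ^ n := by
      push_cast
      rw [pow_succ, mul_comm (2:ℝ≥0) k, mul_div_mul_right _ _ (by norm_num)]
    have h5 : dhit M σ lam (n+1) ω ≤ a := by
      rw [dhit_le_iff]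
      exact ⟨2 * k, by rw [e]; exact hk, by rw [e]; exact hk2, by rw [e]; exact hk3⟩
    exact ne_top_of_le_ne_top WithTop.coe_ne_top h5
  have hsub : A ∩ {ω | ∃ t, σ ω ≤ t ∧ lam < M t ω} ⊆ ⋃ n, A ∩ {ω | dhit M σ lam n ω ≠ ⊤} := by
    rintro ω ⟨hω, t, hσt, ht⟩
    have h1 : ∀ᶠ n in atTop, lam < M (dt n t) ω :=
      ((h.rc ω t).tendsto.comp (tendsto_dt t)).eventually (lt_mem_nhds ht)
    obtain ⟨n, hn⟩ := h1.exists
    refine mem_iUnion.mpr ⟨n, hω, ?_⟩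
    have h5 : dhit M σ lam n ω ≤ dt n t := by
      rw [dhit_le_iff]
      exact ⟨⌊t * 2 ^ n⌋₊ + 1, le_rfl, lt_of_le_of_lt hσt (lt_dt n t), hn⟩
    exact ne_top_of_le_ne_top WithTop.coe_ne_top h5
  calc lam * P (A ∩ {ω | ∃ t, σ ω ≤ t ∧ lam < M t ω})
      ≤ lam * P (⋃ n, A ∩ {ω | dhit M σ lam n ω ≠ ⊤}) := by gcongr
    _ = lam * ⨆ n, P (A ∩ {ω | dhit M σ lam n ω ≠ ⊤}) := by rw [hmono.measure_iUnion]
    _ = ⨆ n, lam * P (A ∩ {ω | dhit M σ lam n ω ≠ ⊤}) := ENNReal.mul_iSup ..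
    _ ≤ _ := iSup_le hn

/-- **Maximal inequality** `λ P(A ∩ {∃ t ≥ σ, M_t ≥ λ}) ≤ ∫_A M_σ`. -/
theorem SuperM.maximal [IsFiniteMeasure P] {M : ℝ≥0 → Ω → ℝ≥0∞} (h : SuperM F P M)
    {σ : Ω → ℝ≥0} (hσ : IsST F σ) {A : Set Ω} (hA : EvST F σ A) (lam : ℝ≥0∞) :
    lam * P (A ∩ {ω | ∃ t, σ ω ≤ t ∧ lam ≤ M t ω}) ≤ ∫⁻ ω in A, M (σ ω) ω ∂P := by
  refine ENNReal.mul_le_of_forall_lt fun a ha b hb => ?_
  refine le_trans ?_ (h.maximal_lt hσ hA a)
  refine mul_le_mul' le_rfl (hb.le.trans (measure_mono ?_))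
  rintro ω ⟨h1, t, h2, h3⟩
  exact ⟨h1, t, h2, ha.trans_le h3⟩

end maximal

/-! ### localisation -/

/-- **Fatou form**: from `∫_A g(τ_n) ≤ c` for all `n` and `h ≤ g(τ_n)` eventually on `A ∩ E`. -/
theorem fatou_loc {f : ℕ → Ω → ℝ≥0∞} {A E : Set Ω} {c : ℝ≥0∞} {h : Ω → ℝ≥0∞}
    (hf : ∀ n, Measurable (f n)) (hAE : MeasurableSet (A ∩ E))
    (hle : ∀ n, ∫⁻ ω in A, f n ω ∂P ≤ c)
    (hE : ∀ ω ∈ A ∩ E, ∀ᶠ n in atTop, h ω ≤ f n ω) :
    ∫⁻ ω in A ∩ E, h ω ∂P ≤ c := by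
  calc ∫⁻ ω in A ∩ E, h ω ∂P ≤ ∫⁻ ω in A ∩ E, liminf (fun n => f n ω) atTop ∂P := by
        refine setLIntegral_mono' hAE fun ω hω => ?_
        exact le_liminf_of_le (by isBoundedDefault) (hE ω hω)
    _ ≤ liminf (fun n => ∫⁻ ω in A ∩ E, f n ω ∂P) atTop := lintegral_liminf_le hf
    _ ≤ liminf (fun _ : ℕ => c) atTop := by
        refine liminf_le_liminf (Eventually.of_forall fun n => ?_)
        exact (lintegral_mono_set inter_subset_left).trans (hle n)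
    _ = c := liminf_const c

/-- Monotone form (no measurability of the integrand is needed): the sets `E n` increase. -/
theorem mono_loc {A : Set Ω} {E : ℕ → Set Ω} {c : ℝ≥0∞} {h : Ω → ℝ≥0∞}
    (hE : Monotone E) (hle : ∀ n, ∫⁻ ω in A ∩ E n, h ω ∂P ≤ c) :
    ∫⁻ ω in A ∩ ⋃ n, E n, h ω ∂P ≤ c := by
  rw [inter_iUnion]
  have hm : Monotone fun n => A ∩ E n := fun a b hab => inter_subset_inter_right _ (hE hab)
  rw [setLIntegral_iUnion_of_directed _ (directed_of_isDirected_le hm)]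
  exact iSup_le hle

open Classical in
/-- the process `g` killed at the time `sup_n ρ n` -/
noncomputable def kill (g : ℝ≥0 → Ω → ℝ≥0∞) (ρ : ℕ → Ω → ℝ≥0) (t : ℝ≥0) (ω : Ω) : ℝ≥0∞ :=
  if ∃ n, t < ρ n ω then g t ω else 0

lemma kill_of_lt {g : ℝ≥0 → Ω → ℝ≥0∞} {ρ : ℕ → Ω → ℝ≥0} {t : ℝ≥0} {ω : Ω} {n : ℕ}
    (h : t < ρ n ω) : kill g ρ t ω = g t ω := if_pos ⟨n, h⟩

lemma kill_le (g : ℝ≥0 → Ω → ℝ≥0∞) (ρ : ℕ → Ω → ℝ≥0) (t : ℝ≥0) (ω : Ω) :
    kill g ρ t ω ≤ g t ω := by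
  unfold kill; split_ifs
  · exact le_rfl
  · exact zero_le

/-- **Killed local supermartingale**: `g` adapted, right-continuous before `ρ n`, `ρ n` increasing
finite stopping times and, for each `n`, `∫_{A, s < ρ n} g(t ∧ ρ n) ≤ ∫_{A, s < ρ n} g(s)`.
Then `g` killed at `sup ρ n` is a supermartingale (so `SuperM.os*` and `SuperM.maximal` apply). -/
theorem superM_kill {g : ℝ≥0 → Ω → ℝ≥0∞} {ρ : ℕ → Ω → ℝ≥0}
    (hg : ∀ t, Measurable[F t] (g t)) (hρ : ∀ n, IsST F (ρ n)) (hρm : ∀ ω, Monotone fun n => ρ n ω)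
    (hrc : ∀ ω n t, t < ρ n ω → ContinuousWithinAt (fun s => g s ω) (Ici t) t)
    (hloc : ∀ n s t, s ≤ t → ∀ A, MeasurableSet[F s] A →
      ∫⁻ ω in A ∩ {ω | s < ρ n ω}, g (min t (ρ n ω)) ω ∂P ≤
        ∫⁻ ω in A ∩ {ω | s < ρ n ω}, g s ω ∂P) : SuperM F P (kill g ρ) where
  meas t := by
    classical
    refine Measurable.ite ?_ (hg t) (@measurable_const _ _ _ (F t) _)
    have h : {ω | ∃ n, t < ρ n ω} = ⋃ n, {ω | ρ n ω ≤ t}ᶜ := by
      ext ω; simp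
    rw [h]
    exact @MeasurableSet.iUnion _ _ (F t) _ _ fun n => (hρ n t).compl
  rc ω t := by
    by_cases ht : ∃ n, t < ρ n ω
    · obtain ⟨n, hn⟩ := ht
      have h1 := hrc ω n t hn
      refine h1.congr_of_eventuallyEq ?_ (kill_of_lt hn)
      have h2 : ∀ᶠ s in 𝓝[≥] t, s < ρ n ω := nhdsWithin_le_nhds (Iio_mem_nhds hn)
      filter_upwards [h2] with s hs
      exact kill_of_lt hs
    · have h2 : ∀ s ∈ Ici t, kill g ρ s ω = 0 := by
        intro s hs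
        refine if_neg ?_
        rintro ⟨n, hn⟩
        exact ht ⟨n, lt_of_le_of_lt hs hn⟩
      refine continuousWithinAt_const (b := (0:ℝ≥0∞)) |>.congr h2 (h2 t (Set.mem_Ici.mpr le_rfl))
  le s t hst A hA := by
    have hm : Monotone fun n => {ω | t < ρ n ω} := fun a b hab ω hω => lt_of_lt_of_le hω (hρm ω hab)
    have h0 : ∫⁻ ω in A, kill g ρ t ω ∂P = ∫⁻ ω in A ∩ ⋃ n, {ω | t < ρ n ω}, g t ω ∂P := by
      have hU : MeasurableSet (⋃ n, {ω | t < ρ n ω}) := by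
        refine MeasurableSet.iUnion fun n => ?_
        have : {ω | t < ρ n ω} = {ω | ρ n ω ≤ t}ᶜ := by ext ω; simp
        rw [this]; exact (F.le t _ (hρ n t)).compl
      rw [inter_comm, ← Measure.restrict_restrict hU, ← lintegral_indicator hU]
      refine lintegral_congr fun ω => ?_
      unfold kill
      by_cases hx : ∃ n, t < ρ n ω
      · rw [if_pos hx, indicator_of_mem (mem_iUnion.mpr hx)]
      · rw [if_neg hx, indicator_of_notMem (fun h' => hx (mem_iUnion.mp h'))]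
    rw [h0]
    refine mono_loc hm fun n => ?_
    have hAs : MeasurableSet (A ∩ {ω | s < ρ n ω}) := by
      have : {ω | s < ρ n ω} = {ω | ρ n ω ≤ s}ᶜ := by ext ω; simp
      rw [this]; exact (F.le s _ hA).inter (F.le s _ (hρ n s)).compl
    have hAt : MeasurableSet (A ∩ {ω | t < ρ n ω}) := by
      have : {ω | t < ρ n ω} = {ω | ρ n ω ≤ t}ᶜ := by ext ω; simp
      rw [this]; exact (F.le s _ hA).inter (F.le t _ (hρ n t)).compl
    calc ∫⁻ ω in A ∩ {ω | t < ρ n ω}, g t ω ∂P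
        = ∫⁻ ω in A ∩ {ω | t < ρ n ω}, g (min t (ρ n ω)) ω ∂P := by
          refine setLIntegral_congr_fun hAt fun ω hω => ?_
          have : min t (ρ n ω) = t := min_eq_left (le_of_lt hω.2)
          simp only [this]
      _ ≤ ∫⁻ ω in A ∩ {ω | s < ρ n ω}, g (min t (ρ n ω)) ω ∂P := by
          refine lintegral_mono_set ?_
          rintro ω ⟨h1, h2⟩
          exact ⟨h1, lt_of_le_of_lt hst h2⟩
      _ ≤ ∫⁻ ω in A ∩ {ω | s < ρ n ω}, g s ω ∂P := hloc n s t hst A hA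
      _ = ∫⁻ ω in A ∩ {ω | s < ρ n ω}, kill g ρ s ω ∂P := by
          refine setLIntegral_congr_fun hAs fun ω hω => ?_
          exact (kill_of_lt hω.2).symm
      _ ≤ ∫⁻ ω in A, kill g ρ s ω ∂P := lintegral_mono_set inter_subset_left

/-- From a nonnegative real supermartingale with right-continuous paths. -/
theorem superM_ofReal [IsFiniteMeasure P] {M : ℝ≥0 → Ω → ℝ} (h : Supermartingale M F P) (h0 : ∀ t ω, 0 ≤ M t ω)
    (hrc : ∀ ω t, ContinuousWithinAt (fun s => M s ω) (Ici t) t) :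
    SuperM F P (fun t ω => ENNReal.ofReal (M t ω)) where
  meas t := ENNReal.measurable_ofReal.comp (h.stronglyAdapted t).measurable
  rc ω t := (ENNReal.continuous_ofReal.tendsto _).comp (hrc ω t)
  le s t hst A hA := by
    rw [← ofReal_integral_eq_lintegral_ofReal (h.integrable t).integrableOn
        (Eventually.of_forall fun ω => h0 t ω),
      ← ofReal_integral_eq_lintegral_ofReal (h.integrable s).integrableOn
        (Eventually.of_forall fun ω => h0 s ω)]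
    exact ENNReal.ofReal_le_ofReal (h.setIntegral_le hst hA)

/-! ### multiplying by a nonnegative function of the past -/

theorem lintegral_mul_past {G : MeasurableSpace Ω} (hG : G ≤ m) {f g φ : Ω → ℝ≥0∞}
    (hf : Measurable[m] f) (hg : Measurable[m] g) (hφ : Measurable[G] φ)
    (h : ∀ A, MeasurableSet[G] A → ∫⁻ ω in A, f ω ∂P ≤ ∫⁻ ω in A, g ω ∂P) :
    ∫⁻ ω, f ω * φ ω ∂P ≤ ∫⁻ ω, g ω * φ ω ∂P := by
  have h1 : (P.withDensity f).trim hG ≤ (P.withDensity g).trim hG := by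
    refine Measure.le_iff.mpr fun s hs => ?_
    rw [trim_measurableSet_eq hG hs, trim_measurableSet_eq hG hs,
      withDensity_apply _ (hG s hs), withDensity_apply _ (hG s hs)]
    exact h s hs
  have h2 := lintegral_mono' h1 (le_refl φ)
  have hφ' : @Measurable _ _ m _ φ := Measurable.mono hφ hG le_rfl
  rw [lintegral_trim hG hφ, lintegral_trim hG hφ] at h2
  have e1 : ∫⁻ a, φ a ∂P.withDensity f = ∫⁻ ω, f ω * φ ω ∂P :=
    lintegral_withDensity_eq_lintegral_mul P hf hφ'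
  have e2 : ∫⁻ a, φ a ∂P.withDensity g = ∫⁻ ω, g ω * φ ω ∂P :=
    lintegral_withDensity_eq_lintegral_mul P hg hφ'
  rwa [e1, e2] at h2

end Crest.Agent.R162.OSF
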