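import Mathlib

/-!
Row 162, node OS, part 1: finite stopping times of a filtration indexed by `ℝ≥0`, events of the
past, values of continuous adapted processes at stopping times, hitting times.
-/

set_option autoImplicit false

open MeasureTheory ProbabilityTheory Filter Topology Set
open scoped NNReal ENNReal

noncomputable section

namespace Crest.Agent.R162.OSX

variable {Ω : Type*} {m : MeasurableSpace Ω}

/-- finite stopping time of a filtration indexed by `ℝ≥0`. -/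
def ST (𝓕 : Filtration ℝ≥0 m) (τ : Ω → ℝ≥0) : Prop := ∀ t, MeasurableSet[𝓕 t] {ω | τ ω ≤ t}

/-- `A` is an event of the past of `τ`. -/
def Past (𝓕 : Filtration ℝ≥0 m) (τ : Ω → ℝ≥0) (A : Set Ω) : Prop :=
  MeasurableSet A ∧ ∀ t, MeasurableSet[𝓕 t] (A ∩ {ω | τ ω ≤ t})

variable {𝓕 : Filtration ℝ≥0 m} {σ τ : Ω → ℝ≥0} {A B : Set Ω}

lemma ST.const (s : ℝ≥0) : ST 𝓕 (fun _ => s) := fun t => by
  by_cases h : s ≤ t <;> simp [h]

lemma ST.inf (hσ : ST 𝓕 σ) (hτ : ST 𝓕 τ) : ST 𝓕 (fun ω => min (σ ω) (τ ω)) := fun t => by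
  have : {ω | min (σ ω) (τ ω) ≤ t} = {ω | σ ω ≤ t} ∪ {ω | τ ω ≤ t} := by
    ext ω; simp [min_le_iff]
  rw [this]; exact (hσ t).union (hτ t)

lemma ST.sup (hσ : ST 𝓕 σ) (hτ : ST 𝓕 τ) : ST 𝓕 (fun ω => max (σ ω) (τ ω)) := fun t => by
  have : {ω | max (σ ω) (τ ω) ≤ t} = {ω | σ ω ≤ t} ∩ {ω | τ ω ≤ t} := by
    ext ω; simp [max_le_iff]
  rw [this]; exact (hσ t).inter (hτ t)

lemma ST.meas_le (hσ : ST 𝓕 σ) (t : ℝ≥0) : MeasurableSet {ω | σ ω ≤ t} := 𝓕.le t _ (hσ t)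

lemma ST.measurable (hσ : ST 𝓕 σ) : Measurable σ :=
  measurable_of_Iic fun t => hσ.meas_le t

lemma ST.gt (hσ : ST 𝓕 σ) (t : ℝ≥0) : MeasurableSet[𝓕 t] {ω | t < σ ω} := by
  have : {ω | t < σ ω} = {ω | σ ω ≤ t}ᶜ := by ext ω; simp
  rw [this]; exact (hσ t).compl

/-- `min σ t` is `𝓕 t`-measurable. -/
lemma ST.measurable_min (hσ : ST 𝓕 σ) (t : ℝ≥0) : Measurable[𝓕 t] (fun ω => Min.min (σ ω) t) := by
  let _ : MeasurableSpace Ω := 𝓕 t
  refine measurable_of_Iic fun s => ?_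
  by_cases h : t ≤ s
  · have : (fun ω => Min.min (σ ω) t) ⁻¹' Iic s = univ := by
      ext ω; simp [h]
    rw [this]; exact MeasurableSet.univ
  · push Not at h
    have : (fun ω => Min.min (σ ω) t) ⁻¹' Iic s = {ω | σ ω ≤ s} := by
      ext ω; simp [min_le_iff, h]
    rw [this]; exact 𝓕.mono h.le _ (hσ s)

lemma ST.lt (hσ : ST 𝓕 σ) (t : ℝ≥0) : MeasurableSet[𝓕 t] {ω | σ ω < t} := by
  have : {ω | σ ω < t} = (fun ω => Min.min (σ ω) t) ⁻¹' Iio t := by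
    ext ω; simp
  rw [this]; exact hσ.measurable_min t measurableSet_Iio

lemma Past.meas (h : Past 𝓕 σ A) : MeasurableSet A := h.1

lemma Past.univ (hσ : ST 𝓕 σ) : Past 𝓕 σ univ := ⟨MeasurableSet.univ, fun t => by simpa using hσ t⟩

lemma Past.empty : Past 𝓕 σ ∅ := ⟨MeasurableSet.empty, fun t => by simp⟩

lemma Past.inter (hA : Past 𝓕 σ A) (hB : Past 𝓕 σ B) : Past 𝓕 σ (A ∩ B) :=
  ⟨hA.1.inter hB.1, fun t => by
    have : A ∩ B ∩ {ω | σ ω ≤ t} = (A ∩ {ω | σ ω ≤ t}) ∩ (B ∩ {ω | σ ω ≤ t}) := by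
      ext ω; simp; tauto
    rw [this]; exact (hA.2 t).inter (hB.2 t)⟩

lemma Past.union (hA : Past 𝓕 σ A) (hB : Past 𝓕 σ B) : Past 𝓕 σ (A ∪ B) :=
  ⟨hA.1.union hB.1, fun t => by
    rw [union_inter_distrib_right]; exact (hA.2 t).union (hB.2 t)⟩

lemma Past.compl (hσ : ST 𝓕 σ) (hA : Past 𝓕 σ A) : Past 𝓕 σ Aᶜ :=
  ⟨hA.1.compl, fun t => by
    have : Aᶜ ∩ {ω | σ ω ≤ t} = {ω | σ ω ≤ t} \ (A ∩ {ω | σ ω ≤ t}) := by
      ext ω; simp; tauto
    rw [this]; exact (hσ t).diff (hA.2 t)⟩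

lemma Past.diff (hσ : ST 𝓕 σ) (hA : Past 𝓕 σ A) (hB : Past 𝓕 σ B) : Past 𝓕 σ (A \ B) :=
  hA.inter (hB.compl hσ)

lemma Past.iUnion {ι : Type*} [Countable ι] {A : ι → Set Ω} (hA : ∀ i, Past 𝓕 σ (A i)) :
    Past 𝓕 σ (⋃ i, A i) :=
  ⟨MeasurableSet.iUnion fun i => (hA i).1, fun t => by
    rw [iUnion_inter]; exact MeasurableSet.iUnion fun i => (hA i).2 t⟩

lemma Past.iInter {ι : Type*} [Countable ι] (hσ : ST 𝓕 σ) {A : ι → Set Ω}
    (hA : ∀ i, Past 𝓕 σ (A i)) : Past 𝓕 σ (⋂ i, A i) := by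
  have : (⋂ i, A i) = (⋃ i, (A i)ᶜ)ᶜ := by simp
  rw [this]; exact (Past.iUnion fun i => (hA i).compl hσ).compl hσ

/-- the sigma-algebra of the past of `σ`. -/
@[reducible] def pastσ (hσ : ST 𝓕 σ) : MeasurableSpace Ω where
  MeasurableSet' := Past 𝓕 σ
  measurableSet_empty := Past.empty
  measurableSet_compl _ h := h.compl hσ
  measurableSet_iUnion _ h := Past.iUnion h

lemma measurableSet_pastσ (hσ : ST 𝓕 σ) : MeasurableSet[pastσ hσ] A ↔ Past 𝓕 σ A := Iff.rfl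

lemma pastσ_le (hσ : ST 𝓕 σ) : pastσ hσ ≤ m := fun _ h => h.1

lemma Past.mono (hτ : ST 𝓕 τ) (h : ∀ ω, σ ω ≤ τ ω) (hA : Past 𝓕 σ A) : Past 𝓕 τ A :=
  ⟨hA.1, fun t => by
    have : A ∩ {ω | τ ω ≤ t} = (A ∩ {ω | σ ω ≤ t}) ∩ {ω | τ ω ≤ t} := by
      ext ω
      simp only [mem_inter_iff, mem_ofPred_eq]
      exact ⟨fun ⟨a, b⟩ => ⟨⟨a, (h ω).trans b⟩, b⟩, fun ⟨⟨a, _⟩, b⟩ => ⟨a, b⟩⟩
    rw [this]; exact (hA.2 t).inter (hτ t)⟩

lemma Past.const {s : ℝ≥0} (hA : MeasurableSet[𝓕 s] A) : Past 𝓕 (fun _ => s) A :=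
  ⟨𝓕.le s _ hA, fun t => by
    by_cases h : s ≤ t
    · have := 𝓕.mono h _ hA
      simpa [h] using this
    · simp [h]⟩

/-- `A ∩ {σ ≤ s}` is in `𝓕 s`. -/
lemma Past.inter_le (hA : Past 𝓕 σ A) (s : ℝ≥0) : MeasurableSet[𝓕 s] (A ∩ {ω | σ ω ≤ s}) := hA.2 s

/-- comparison of two stopping times is in the past of the first one. -/
lemma Past.le_st (hσ : ST 𝓕 σ) (hτ : ST 𝓕 τ) : Past 𝓕 σ {ω | σ ω ≤ τ ω} := by
  refine ⟨measurableSet_le hσ.measurable hτ.measurable, fun t => ?_⟩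
  have : {ω | σ ω ≤ τ ω} ∩ {ω | σ ω ≤ t} =
      {ω | Min.min (σ ω) t ≤ Min.min (τ ω) t} ∩ {ω | σ ω ≤ t} := by
    ext ω
    simp only [mem_inter_iff, mem_ofPred_eq, and_congr_left_iff]
    intro h
    rw [min_eq_left h, le_min_iff]
    exact ⟨fun h' => ⟨h', h⟩, fun h' => h'.1⟩
  rw [this]
  exact (@measurableSet_le _ _ _ _ _ (𝓕 t) _ _ _ _ _ (hσ.measurable_min t)
    (hτ.measurable_min t)).inter (hσ t)

lemma Past.lt_st (hσ : ST 𝓕 σ) (hτ : ST 𝓕 τ) : Past 𝓕 σ {ω | σ ω < τ ω} := by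
  refine ⟨measurableSet_lt hσ.measurable hτ.measurable, fun t => ?_⟩
  have : {ω | σ ω < τ ω} ∩ {ω | σ ω ≤ t} =
      ({ω | Min.min (σ ω) t < Min.min (τ ω) t} ∪ {ω | t < τ ω}) ∩ {ω | σ ω ≤ t} := by
    ext ω
    simp only [mem_inter_iff, mem_ofPred_eq, and_congr_left_iff, mem_union]
    intro h
    rw [min_eq_left h, lt_min_iff]
    constructor
    · intro h'
      rcases h.lt_or_eq with h1 | h1
      · exact Or.inl ⟨h', h1⟩
      · exact Or.inr (h1 ▸ h')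
    · rintro (h' | h')
      · exact h'.1
      · exact h.trans_lt h'
  rw [this]
  exact ((@measurableSet_lt _ _ _ _ _ (𝓕 t) _ _ _ _ _ (hσ.measurable_min t)
    (hτ.measurable_min t)).union (hτ.gt t)).inter (hσ t)

/-- an event of the past of `σ` restricted to `{σ ≤ τ}` is in the past of `τ`. -/
lemma Past.inter_le_st (hσ : ST 𝓕 σ) (hτ : ST 𝓕 τ) (hA : Past 𝓕 σ A) :
    Past 𝓕 τ (A ∩ {ω | σ ω ≤ τ ω}) := by
  refine ⟨hA.1.inter (measurableSet_le hσ.measurable hτ.measurable), fun t => ?_⟩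
  have : A ∩ {ω | σ ω ≤ τ ω} ∩ {ω | τ ω ≤ t} =
      ((A ∩ {ω | σ ω ≤ t}) ∩ ({ω | σ ω ≤ τ ω} ∩ {ω | σ ω ≤ t})) ∩ {ω | τ ω ≤ t} := by
    ext ω
    simp only [mem_inter_iff, mem_ofPred_eq]
    constructor
    · rintro ⟨⟨a, b⟩, c⟩; exact ⟨⟨⟨a, b.trans c⟩, b, b.trans c⟩, c⟩
    · rintro ⟨⟨⟨a, b⟩, c, d⟩, e⟩; exact ⟨⟨a, c⟩, e⟩
  rw [this]
  exact ((hA.2 t).inter ((Past.le_st hσ hτ).2 t)).inter (hτ t)

/-- an event of the past of `σ` restricted to `{σ ≤ τ}` is in the past of `min σ τ`. -/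
lemma Past.inter_le_min (hσ : ST 𝓕 σ) (hτ : ST 𝓕 τ) (hA : Past 𝓕 σ A) :
    Past 𝓕 (fun ω => min (σ ω) (τ ω)) (A ∩ {ω | σ ω ≤ τ ω}) := by
  refine ⟨hA.1.inter (measurableSet_le hσ.measurable hτ.measurable), fun t => ?_⟩
  have : A ∩ {ω | σ ω ≤ τ ω} ∩ {ω | min (σ ω) (τ ω) ≤ t} =
      (A ∩ {ω | σ ω ≤ t}) ∩ ({ω | σ ω ≤ τ ω} ∩ {ω | σ ω ≤ t}) := by
    ext ω
    simp only [mem_inter_iff, mem_ofPred_eq]
    constructor
    · rintro ⟨⟨a, b⟩, c⟩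
      rw [min_eq_left b] at c
      exact ⟨⟨a, c⟩, b, c⟩
    · rintro ⟨⟨a, b⟩, c, d⟩
      exact ⟨⟨a, c⟩, by rw [min_eq_left c]; exact b⟩
  rw [this]
  exact (hA.2 t).inter ((Past.le_st hσ hτ).2 t)

/-- an event of the past of `σ` restricted to `{σ < τ}` is in the past of `min σ τ`. -/
lemma Past.inter_lt_min (hσ : ST 𝓕 σ) (hτ : ST 𝓕 τ) (hA : Past 𝓕 σ A) :
    Past 𝓕 (fun ω => min (σ ω) (τ ω)) (A ∩ {ω | σ ω < τ ω}) := by
  refine ⟨hA.1.inter (measurableSet_lt hσ.measurable hτ.measurable), fun t => ?_⟩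
  have : A ∩ {ω | σ ω < τ ω} ∩ {ω | min (σ ω) (τ ω) ≤ t} =
      (A ∩ {ω | σ ω ≤ t}) ∩ ({ω | σ ω < τ ω} ∩ {ω | σ ω ≤ t}) := by
    ext ω
    simp only [mem_inter_iff, mem_ofPred_eq]
    constructor
    · rintro ⟨⟨a, b⟩, c⟩
      rw [min_eq_left b.le] at c
      exact ⟨⟨a, c⟩, b, c⟩
    · rintro ⟨⟨a, b⟩, c, d⟩
      exact ⟨⟨a, c⟩, by rw [min_eq_left c.le]; exact b⟩
  rw [this]
  exact (hA.2 t).inter ((Past.lt_st hσ hτ).2 t)

/-! ### Continuous adapted processes -/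

section Proc

variable {E : Type*} [TopologicalSpace E] [TopologicalSpace.PseudoMetrizableSpace E]
  [MeasurableSpace E] [BorelSpace E]

/-- the value of a continuous adapted process at `min σ t` is `𝓕 t`-measurable. -/
lemma measurable_value_min {X : ℝ≥0 → Ω → E} (hX : ∀ t, Measurable[𝓕 t] (X t))
    (hc : ∀ ω, Continuous fun t => X t ω) (hσ : ST 𝓕 σ) (t : ℝ≥0) :
    Measurable[𝓕 t] (fun ω => X (min (σ ω) t) ω) := by
  let _ : MeasurableSpace Ω := 𝓕 t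
  have h1 : Measurable (Function.uncurry fun (s : ℝ≥0) (ω : Ω) => X (min s t) ω) := by
    refine measurable_uncurry_of_continuous_of_measurable (fun ω => ?_) (fun s => ?_)
    · exact (hc ω).comp (by fun_prop)
    · exact (hX (min s t)).mono (𝓕.mono (min_le_right _ _)) le_rfl
  have h2 : Measurable fun ω => (min (σ ω) t, ω) := (hσ.measurable_min t).prodMk measurable_id
  have h3 := h1.comp h2
  have : (fun ω => X (min (σ ω) t) ω) =
      (Function.uncurry fun (s : ℝ≥0) (ω : Ω) => X (min s t) ω) ∘ fun ω => (min (σ ω) t, ω) := by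
    funext ω; simp
  rw [this]; exact h3

/-- the value of a continuous adapted process at a stopping time is measurable. -/
lemma measurable_value {X : ℝ≥0 → Ω → E} (hX : ∀ t, Measurable (X t))
    (hc : ∀ ω, Continuous fun t => X t ω) (hσ : Measurable σ) :
    Measurable (fun ω => X (σ ω) ω) :=
  (measurable_uncurry_of_continuous_of_measurable (u := X) hc hX).comp
    (hσ.prodMk measurable_id)

lemma Past.value {X : ℝ≥0 → Ω → E} (hX : ∀ t, Measurable[𝓕 t] (X t))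
    (hc : ∀ ω, Continuous fun t => X t ω) (hσ : ST 𝓕 σ) {B : Set E} (hB : MeasurableSet B) :
    Past 𝓕 σ {ω | X (σ ω) ω ∈ B} := by
  refine ⟨measurable_value (fun t => (hX t).mono (𝓕.le t) le_rfl) hc hσ.measurable hB,
    fun t => ?_⟩
  have : {ω | X (σ ω) ω ∈ B} ∩ {ω | σ ω ≤ t} =
      (fun ω => X (min (σ ω) t) ω) ⁻¹' B ∩ {ω | σ ω ≤ t} := by
    ext ω
    simp only [mem_inter_iff, mem_ofPred_eq, mem_preimage, and_congr_left_iff]
    intro h; rw [min_eq_left h]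
  rw [this]
  exact (measurable_value_min hX hc hσ t hB).inter (hσ t)

lemma measurable_value_past {X : ℝ≥0 → Ω → E} (hX : ∀ t, Measurable[𝓕 t] (X t))
    (hc : ∀ ω, Continuous fun t => X t ω) (hσ : ST 𝓕 σ) :
    Measurable[pastσ hσ] (fun ω => X (σ ω) ω) := fun _ hB => Past.value hX hc hσ hB

lemma measurable_st_past (hσ : ST 𝓕 σ) : Measurable[pastσ hσ] σ := by
  let _ : MeasurableSpace Ω := pastσ hσ
  refine measurable_of_Iic fun s => ?_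
  change Past 𝓕 σ _
  refine ⟨hσ.meas_le s, fun t => ?_⟩
  have : σ ⁻¹' Iic s ∩ {ω | σ ω ≤ t} = {ω | σ ω ≤ min s t} := by
    ext ω; simp
  rw [this]; exact 𝓕.mono (min_le_right _ _) _ (hσ _)

end Proc

/-! ### Hitting times -/

/-- first time `≥ σ` at which `f ≤ 0`, capped at `T`. -/
def hitAfter (f : ℝ≥0 → Ω → ℝ) (σ : Ω → ℝ≥0) (T : ℝ≥0) (ω : Ω) : ℝ≥0 :=
  sInf ({t | σ ω ≤ t ∧ f t ω ≤ 0} ∪ {max (σ ω) T})

variable {f : ℝ≥0 → Ω → ℝ} {T : ℝ≥0}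

lemma hitAfter_le_max (ω : Ω) : hitAfter f σ T ω ≤ max (σ ω) T :=
  csInf_le (OrderBot.bddBelow _) (Or.inr rfl)

lemma le_hitAfter (ω : Ω) : σ ω ≤ hitAfter f σ T ω := by
  refine le_csInf ⟨_, Or.inr rfl⟩ ?_
  rintro t (⟨h, -⟩ | h)
  · exact h
  · rw [mem_singleton_iff.1 h]; exact le_max_left _ _

lemma hitAfter_le {ω : Ω} {t : ℝ≥0} (h1 : σ ω ≤ t) (h2 : f t ω ≤ 0) : hitAfter f σ T ω ≤ t :=
  csInf_le (OrderBot.bddBelow _) (Or.inl ⟨h1, h2⟩)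

/-- before the hitting time `f > 0`. -/
lemma pos_of_lt_hitAfter {ω : Ω} {t : ℝ≥0} (h1 : σ ω ≤ t) (h2 : t < hitAfter f σ T ω) :
    0 < f t ω := by
  by_contra h
  exact absurd (hitAfter_le (T := T) h1 (not_lt.1 h)) (not_le.2 h2)

/-- if the hitting time is below the cap then `f ≤ 0` there. -/
lemma hitAfter_spec {ω : Ω} (hc : Continuous fun t => f t ω)
    (h : hitAfter f σ T ω < max (σ ω) T) : f (hitAfter f σ T ω) ω ≤ 0 := by
  have hclosed : IsClosed ({t | σ ω ≤ t ∧ f t ω ≤ 0} ∪ {max (σ ω) T}) := by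
    refine IsClosed.union ?_ isClosed_singleton
    exact (isClosed_le continuous_const continuous_id).inter (isClosed_le hc continuous_const)
  have hmem := hclosed.csInf_mem ⟨_, Or.inr rfl⟩ (OrderBot.bddBelow _)
  rcases hmem with h1 | h1
  · exact h1.2
  · exact absurd (mem_singleton_iff.1 h1) h.ne

/-- characterisation of `{hitAfter ≤ t}`. -/
lemma hitAfter_le_iff {ω : Ω} (hc : Continuous fun t => f t ω) {t : ℝ≥0} :
    hitAfter f σ T ω ≤ t ↔ (max (σ ω) T ≤ t ∨ ∃ s ≤ t, σ ω ≤ s ∧ f s ω ≤ 0) := by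
  constructor
  · intro h
    rcases lt_or_ge (hitAfter f σ T ω) (max (σ ω) T) with h1 | h1
    · exact Or.inr ⟨_, h, le_hitAfter ω, hitAfter_spec hc h1⟩
    · exact Or.inl (h1.trans h)
  · rintro (h | ⟨s, hs, h1, h2⟩)
    · exact (hitAfter_le_max ω).trans h
    · exact (hitAfter_le h1 h2).trans hs

lemma st_hitAfter (hf : ∀ t, Measurable[𝓕 t] (f t)) (hc : ∀ ω, Continuous fun t => f t ω)
    (hσ : ST 𝓕 σ) (T : ℝ≥0) : ST 𝓕 (hitAfter f σ T) := by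
  intro t
  have key : {ω | hitAfter f σ T ω ≤ t} = ({ω | σ ω ≤ t} ∩ {_ω | T ≤ t}) ∪
      ⋂ n : ℕ, (({ω | σ ω ≤ t} ∩ {ω | f t ω < 1 / ((n : ℝ) + 1)}) ∪
        ⋃ q : {q : ℚ // Real.toNNReal q ≤ t},
          ({ω | σ ω ≤ Real.toNNReal q.1} ∩ {ω | f (Real.toNNReal q.1) ω < 1 / ((n : ℝ) + 1)})) := by
    ext ω
    rw [mem_ofPred_eq, hitAfter_le_iff (hc ω)]
    simp only [max_le_iff, mem_union, mem_inter_iff, mem_ofPred_eq, mem_iInter, mem_iUnion]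
    refine or_congr Iff.rfl ?_
    constructor
    · rintro ⟨s, hst, hs1, hs2⟩ n
      have hn : (0 : ℝ) < 1 / ((n : ℝ) + 1) := Nat.one_div_pos_of_nat
      have hlt : f s ω < 1 / ((n : ℝ) + 1) := hs2.trans_lt hn
      rcases hst.lt_or_eq with h | h
      · -- find a rational in (s, t)
        have hopen : IsOpen {u : ℝ≥0 | f u ω < 1 / ((n : ℝ) + 1)} :=
          isOpen_lt (hc ω) continuous_const
        obtain ⟨ε, hε, hball⟩ := Metric.isOpen_iff.1 hopen s hlt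
        have hlt2 : s < min t (s + ⟨ε / 2, by positivity⟩) := by
          refine lt_min h ?_
          refine lt_add_of_pos_right s ?_
          exact_mod_cast (show (0 : ℝ) < ε / 2 by positivity)
        obtain ⟨q, -, hq1, hq2⟩ := (NNReal.lt_iff_exists_rat_btwn _ _).1 hlt2
        refine Or.inr ⟨⟨q, (hq2.trans_le (min_le_left _ _)).le⟩, hs1.trans hq1.le, ?_⟩
        apply hball
        rw [Metric.mem_ball, NNReal.dist_eq]
        have h3 : Real.toNNReal q < s + ⟨ε / 2, by positivity⟩ := hq2.trans_le (min_le_right _ _)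
        have h4 : ((Real.toNNReal q : ℝ≥0) : ℝ) < (s : ℝ) + ε / 2 := by
          exact NNReal.coe_lt_coe.2 h3
        have h5 : (s : ℝ) < ((Real.toNNReal q : ℝ≥0) : ℝ) := NNReal.coe_lt_coe.2 hq1
        rw [abs_of_pos (by linarith)]
        linarith
      · subst h; exact Or.inl ⟨hs1, hlt⟩
    · intro h
      have hpt : ∀ n : ℕ, ∃ u : ℝ≥0, u ∈ Icc (σ ω) t ∧ f u ω < 1 / ((n : ℝ) + 1) := by
        intro n
        rcases h n with h1 | ⟨q, h1, h2⟩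
        · exact ⟨t, ⟨h1.1, le_rfl⟩, h1.2⟩
        · exact ⟨Real.toNNReal q.1, ⟨h1, q.2⟩, h2⟩
      choose u hu1 hu2 using hpt
      obtain ⟨s, hs, φ, hφ, hlim⟩ := isCompact_Icc.tendsto_subseq hu1
      refine ⟨s, hs.2, hs.1, ?_⟩
      have h1 : Tendsto (fun n => f (u (φ n)) ω) atTop (𝓝 (f s ω)) :=
        ((hc ω).tendsto s).comp hlim
      have h2 : Tendsto (fun n : ℕ => 1 / (((φ n : ℕ) : ℝ) + 1)) atTop (𝓝 0) :=
        tendsto_one_div_add_atTop_nhds_zero_nat.comp hφ.tendsto_atTop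
      exact le_of_tendsto_of_tendsto' h1 h2 fun n => (hu2 (φ n)).le
  rw [key]
  refine MeasurableSet.union ((hσ t).inter (by by_cases h : T ≤ t <;> simp [h])) ?_
  refine MeasurableSet.iInter fun n => ?_
  refine MeasurableSet.union ((hσ t).inter ?_) ?_
  · exact hf t measurableSet_Iio
  · refine MeasurableSet.iUnion fun q => ?_
    refine MeasurableSet.inter (𝓕.mono q.2 _ (hσ _)) ?_
    exact 𝓕.mono q.2 _ (hf _ measurableSet_Iio)

end Crest.Agent.R162.OSX
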