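import Mathlib
import Crest.Agent.R162.OSDefs

/-!
Row 162, node LB-RC (helper882): right-continuous filtration `F₊ = F.rightCont` (Mathlib's
`MeasureTheory.Filtration.rightCont`).

* `measurableSet_rc_iff` : `A ∈ F₊ t ↔ ∀ s > t, A ∈ F s`.
* `isBM_rc` : `IsBM F B P → IsBM F.rightCont B P`.
* `IsST.rc`, `EvST.rc` : raw stopping times / events are stopping times / events for `F₊`.
* `isST_rc_iff_lt` : `IsST F₊ τ ↔ ∀ t, {τ < t} ∈ F t`.
* `fst O σ T` : first time `t ≥ σ` at which the (right-)open random condition `O ω` holds, capped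
  at `max T σ`; `isST_fst`.
* lower semicontinuous processes: `isOpen_lsc`, `le_of_lsc`.
-/

set_option autoImplicit false

open MeasureTheory ProbabilityTheory Filter Topology
open scoped NNReal ENNReal BoundedContinuousFunction

namespace Crest.Agent.R162.RC

open Crest.Agent.R162.OS

variable {Ω : Type*} {m : MeasurableSpace Ω} {F : Filtration ℝ≥0 m} {P : Measure Ω}

theorem measurableSet_rc_iff {t : ℝ≥0} {A : Set Ω} :
    MeasurableSet[F.rightCont t] A ↔ ∀ s, t < s → MeasurableSet[F s] A := by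
  rw [Filtration.rightCont_eq]
  rw [MeasurableSpace.measurableSet_iInf]
  refine forall_congr' fun s => ?_
  rw [MeasurableSpace.measurableSet_iInf]

theorem measurableSet_rc {t : ℝ≥0} {A : Set Ω} (h : MeasurableSet[F t] A) :
    MeasurableSet[F.rightCont t] A := F.le_rightCont t A h

theorem measurable_rc {E : Type*} [MeasurableSpace E] {t : ℝ≥0} {f : Ω → E}
    (h : Measurable[F t] f) : Measurable[F.rightCont t] f :=
  fun _ hs => measurableSet_rc (h hs)

theorem isBM_rc [IsProbabilityMeasure P] {B : ℝ≥0 → Ω → ℝ} (h : IsBM F B P) :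
    IsBM F.rightCont B P := by
  refine ⟨h.cont, h.zero, fun t => measurable_rc (h.adapted t), h.law, fun s => ?_⟩
  have hmB : ∀ t, Measurable (B t) := fun t => (h.adapted t).mono (F.le t) le_rfl
  refine (indep_comap_process_of_bcf (S := ℝ≥0) (E := fun _ => ℝ)
    (X := fun u ω => B (s + u) ω - B s ω) (F.rightCont.le s)
    (fun u => ((hmB _).sub (hmB _)).aemeasurable) ?_).symm
  intro A hA I f
  -- the approximating increments
  set e : ℕ → ℝ≥0 := fun n => 1 / ((n : ℝ≥0) + 1) with he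
  have he0 : ∀ n, 0 < e n := fun n => by positivity
  have hlim : Tendsto e atTop (𝓝 0) := by
    have := tendsto_one_div_add_atTop_nhds_zero_nat (𝕜 := ℝ)
    rw [← NNReal.tendsto_coe]
    simpa [he] using this
  have hAm : MeasurableSet A := F.rightCont.le s A hA
  -- identity for the approximations
  have hid : ∀ n, ∫ ω in A, f (fun i => B (s + e n + i) ω - B (s + e n) ω) ∂P =
      P.real A * ∫ ω, f (fun i => B (s + e n + i) ω - B (s + e n) ω) ∂P := by
    intro n
    have hAn : MeasurableSet[F (s + e n)] A :=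
      measurableSet_rc_iff.1 hA _ (lt_add_of_pos_right s (he0 n))
    have hind := h.indep (s + e n)
    have hle1 : MeasurableSpace.comap (fun ω (u : ℝ≥0) => B (s + e n + u) ω - B (s + e n) ω)
        MeasurableSpace.pi ≤ m := by
      rw [← measurable_iff_comap_le]
      exact measurable_pi_lambda _ fun u => (hmB _).sub (hmB _)
    have hsm : StronglyMeasurable[MeasurableSpace.comap
        (fun ω (u : ℝ≥0) => B (s + e n + u) ω - B (s + e n) ω) MeasurableSpace.pi]
        (fun ω => f (fun i => B (s + e n + i) ω - B (s + e n) ω)) := by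
      have h1 : Measurable[MeasurableSpace.comap
          (fun ω (u : ℝ≥0) => B (s + e n + u) ω - B (s + e n) ω) MeasurableSpace.pi]
          (fun ω (u : ℝ≥0) => B (s + e n + u) ω - B (s + e n) ω) := comap_measurable _
      have h2 : Measurable (fun (g : ℝ≥0 → ℝ) => f (fun i : I => g i)) :=
        f.continuous.measurable.comp (measurable_pi_lambda _ fun i => measurable_pi_apply _)
      exact (h2.comp h1).stronglyMeasurable
    have hce := condExp_indep_eq hle1 (F.le (s + e n)) hsm hind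
    have hint : Integrable (fun ω => f (fun i => B (s + e n + i) ω - B (s + e n) ω)) P := by
      refine Integrable.of_bound (hsm.mono hle1).aestronglyMeasurable ‖f‖ ?_
      exact Eventually.of_forall fun ω => f.norm_coe_le_norm _
    calc ∫ ω in A, f (fun i => B (s + e n + i) ω - B (s + e n) ω) ∂P
        = ∫ ω in A, (P[fun ω => f (fun i => B (s + e n + i) ω - B (s + e n) ω)|F (s + e n)]) ω ∂P :=
          (setIntegral_condExp (F.le _) hint hAn).symm
      _ = ∫ ω in A, (∫ ω', f (fun i => B (s + e n + i) ω' - B (s + e n) ω') ∂P) ∂P := by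
          refine integral_congr_ae (ae_restrict_of_ae ?_)
          exact hce
      _ = P.real A * ∫ ω, f (fun i => B (s + e n + i) ω - B (s + e n) ω) ∂P := by
          rw [setIntegral_const]; simp
  -- pass to the limit
  have hpt : ∀ ω, Tendsto (fun n => f (fun i : I => B (s + e n + i) ω - B (s + e n) ω)) atTop
      (𝓝 (f (fun i : I => B (s + i) ω - B s ω))) := by
    intro ω
    refine (f.continuous.tendsto _).comp ?_
    rw [tendsto_pi_nhds]
    intro i
    have hc := h.cont ω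
    have h1 : Tendsto (fun n => s + e n + (i : ℝ≥0)) atTop (𝓝 (s + 0 + i)) :=
      (tendsto_const_nhds.add hlim).add tendsto_const_nhds
    have h2 : Tendsto (fun n => s + e n) atTop (𝓝 (s + 0)) := tendsto_const_nhds.add hlim
    rw [add_zero] at h1 h2
    exact ((hc.tendsto _).comp h1).sub ((hc.tendsto _).comp h2)
  have hmeas : ∀ n, AEStronglyMeasurable
      (fun ω => f (fun i : I => B (s + e n + i) ω - B (s + e n) ω)) P := by
    intro n
    have h2 : Measurable (fun ω => f (fun i : I => B (s + e n + i) ω - B (s + e n) ω)) :=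
      f.continuous.measurable.comp (measurable_pi_lambda _ fun i => (hmB _).sub (hmB _))
    exact h2.aestronglyMeasurable
  have hL : Tendsto (fun n => ∫ ω in A, f (fun i => B (s + e n + i) ω - B (s + e n) ω) ∂P) atTop
      (𝓝 (∫ ω in A, f (fun i => B (s + i) ω - B s ω) ∂P)) := by
    refine tendsto_integral_of_dominated_convergence (fun _ => ‖f‖)
      (fun n => (hmeas n).restrict) (integrable_const _) ?_ ?_
    · exact fun n => Eventually.of_forall fun ω => f.norm_coe_le_norm _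
    · exact Eventually.of_forall hpt
  have hR : Tendsto (fun n => P.real A * ∫ ω, f (fun i => B (s + e n + i) ω - B (s + e n) ω) ∂P)
      atTop (𝓝 (P.real A * ∫ ω, f (fun i => B (s + i) ω - B s ω) ∂P)) := by
    refine Tendsto.const_mul _ ?_
    refine tendsto_integral_of_dominated_convergence (fun _ => ‖f‖) hmeas (integrable_const _) ?_ ?_
    · exact fun n => Eventually.of_forall fun ω => f.norm_coe_le_norm _
    · exact Eventually.of_forall hpt
  simp_rw [hid] at hL
  exact tendsto_nhds_unique hL hR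


/-! ### Stopping times of the right-continuous filtration -/

theorem isST_rc {τ : Ω → ℝ≥0} (h : IsST F τ) : IsST F.rightCont τ := fun t => measurableSet_rc (h t)

theorem evST_rc {τ : Ω → ℝ≥0} {A : Set Ω} (h : EvST F τ A) : EvST F.rightCont τ A :=
  fun t => measurableSet_rc (h t)

theorem isST_rc_iff_lt {τ : Ω → ℝ≥0} :
    IsST F.rightCont τ ↔ ∀ t, MeasurableSet[F t] {ω | τ ω < t} := by
  constructor
  · intro h t
    rcases eq_or_lt_of_le (zero_le (a := t)) with h0 | h0
    · have : {ω | τ ω < t} = ∅ := by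
        ext ω; simp [← h0]
      rw [this]
      exact @MeasurableSet.empty _ (F t)
    · obtain ⟨u, _, hu, hlim⟩ := exists_seq_strictMono_tendsto' h0
      have : {ω | τ ω < t} = ⋃ n, {ω | τ ω ≤ u n} := by
        ext ω
        simp only [Set.mem_ofPred_eq, Set.mem_iUnion]
        constructor
        · intro hω
          obtain ⟨n, hn⟩ := (hlim.eventually (lt_mem_nhds hω)).exists
          exact ⟨n, hn.le⟩
        · rintro ⟨n, hn⟩
          exact lt_of_le_of_lt hn (hu n).2
      rw [this]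
      exact MeasurableSet.iUnion fun n => measurableSet_rc_iff.1 (h (u n)) t (hu n).2
  · intro h t
    rw [measurableSet_rc_iff]
    intro s hs
    obtain ⟨u, _, hu, hlim⟩ := exists_seq_strictAnti_tendsto' hs
    have : {ω | τ ω ≤ t} = ⋂ n, {ω | τ ω < u n} := by
      ext ω
      simp only [Set.mem_ofPred_eq, Set.mem_iInter]
      constructor
      · intro hω n
        exact lt_of_le_of_lt hω (hu n).1
      · intro hω
        exact ge_of_tendsto' hlim fun n => (hω n).le
    rw [this]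
    exact MeasurableSet.iInter fun n => F.mono (hu n).2.le _ (h (u n))

/-- The event `A` is in the past of `τ` for `F₊` iff all `A ∩ {τ < t}` are in `F t`. -/
theorem evST_rc_iff_lt {τ : Ω → ℝ≥0} {A : Set Ω} :
    EvST F.rightCont τ A ↔ ∀ t, MeasurableSet[F t] (A ∩ {ω | τ ω < t}) := by
  constructor
  · intro h t
    rcases eq_or_lt_of_le (zero_le (a := t)) with h0 | h0
    · have : A ∩ {ω | τ ω < t} = ∅ := by
        ext ω; simp [← h0]
      rw [this]
      exact @MeasurableSet.empty _ (F t)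
    · obtain ⟨u, _, hu, hlim⟩ := exists_seq_strictMono_tendsto' h0
      have : A ∩ {ω | τ ω < t} = ⋃ n, (A ∩ {ω | τ ω ≤ u n}) := by
        ext ω
        simp only [Set.mem_ofPred_eq, Set.mem_iUnion, Set.mem_inter_iff]
        constructor
        · rintro ⟨hA, hω⟩
          obtain ⟨n, hn⟩ := (hlim.eventually (lt_mem_nhds hω)).exists
          exact ⟨n, hA, hn.le⟩
        · rintro ⟨n, hA, hn⟩
          exact ⟨hA, lt_of_le_of_lt hn (hu n).2⟩
      rw [this]
      exact MeasurableSet.iUnion fun n => measurableSet_rc_iff.1 (h (u n)) t (hu n).2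
  · intro h t
    rw [measurableSet_rc_iff]
    intro s hs
    obtain ⟨u, _, hu, hlim⟩ := exists_seq_strictAnti_tendsto' hs
    have : A ∩ {ω | τ ω ≤ t} = ⋂ n, (A ∩ {ω | τ ω < u n}) := by
      ext ω
      simp only [Set.mem_ofPred_eq, Set.mem_iInter, Set.mem_inter_iff]
      constructor
      · rintro ⟨hA, hω⟩ n
        exact ⟨hA, lt_of_le_of_lt hω (hu n).1⟩
      · intro hω
        exact ⟨(hω 0).1, ge_of_tendsto' hlim fun n => (hω n).2.le⟩
    rw [this]
    exact MeasurableSet.iInter fun n => F.mono (hu n).2.le _ (h (u n))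

/-! ### First times of (right-)open conditions -/

/-- First `t ≥ σ` with `t ∈ O ω`, capped at `max T σ`. -/
noncomputable def fst (O : Ω → Set ℝ≥0) (σ : Ω → ℝ≥0) (T : ℝ≥0) (ω : Ω) : ℝ≥0 :=
  sInf ({t | σ ω ≤ t ∧ t ∈ O ω} ∪ {max T (σ ω)})

section fst

variable {O : Ω → Set ℝ≥0} {σ : Ω → ℝ≥0} {T : ℝ≥0} {ω : Ω}

theorem fst_nonempty : ({t | σ ω ≤ t ∧ t ∈ O ω} ∪ {max T (σ ω)}).Nonempty :=
  ⟨_, Or.inr rfl⟩

theorem le_fst : σ ω ≤ fst O σ T ω := by
  refine le_csInf fst_nonempty ?_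
  rintro t (ht | ht)
  · exact ht.1
  · rw [Set.mem_singleton_iff.1 ht]; exact le_max_right _ _

theorem fst_le : fst O σ T ω ≤ max T (σ ω) := csInf_le (OrderBot.bddBelow _) (Or.inr rfl)

theorem fst_le_of_mem {t : ℝ≥0} (h1 : σ ω ≤ t) (h2 : t ∈ O ω) : fst O σ T ω ≤ t :=
  csInf_le (OrderBot.bddBelow _) (Or.inl ⟨h1, h2⟩)

theorem notMem_of_lt_fst {t : ℝ≥0} (h1 : σ ω ≤ t) (h2 : t < fst O σ T ω) : t ∉ O ω :=
  fun h => absurd (fst_le_of_mem (T := T) h1 h) (not_le.2 h2)

theorem fst_lt_iff {t : ℝ≥0} :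
    fst O σ T ω < t ↔ max T (σ ω) < t ∨ ∃ s, s < t ∧ σ ω ≤ s ∧ s ∈ O ω := by
  unfold fst
  rw [csInf_lt_iff (OrderBot.bddBelow _) fst_nonempty]
  constructor
  · rintro ⟨b, (hb | hb), hbt⟩
    · exact Or.inr ⟨b, hbt, hb.1, hb.2⟩
    · rw [Set.mem_singleton_iff.1 hb] at hbt
      exact Or.inl hbt
  · rintro (h | ⟨s, hs, h1, h2⟩)
    · exact ⟨_, Or.inr rfl, h⟩
    · exact ⟨s, Or.inl ⟨h1, h2⟩, hs⟩

/-- For an OPEN condition, if the first time is `> σ` the condition fails at the first time. -/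
theorem fst_notMem (hO : IsOpen (O ω)) (h : σ ω < fst O σ T ω) : fst O σ T ω ∉ O ω := by
  intro hmem
  have hev1 : ∀ᶠ t in 𝓝 (fst O σ T ω), t ∈ O ω := hO.mem_nhds hmem
  have hev : ∀ᶠ t in 𝓝 (fst O σ T ω), t ∈ O ω ∧ σ ω < t := hev1.and (lt_mem_nhds h)
  obtain ⟨u, _, hu, hlim⟩ := exists_seq_strictMono_tendsto' h
  obtain ⟨n, hn⟩ := (hlim.eventually hev).exists
  exact notMem_of_lt_fst (T := T) hn.2.le (hu n).2 hn.1

/-- If the first time is `< max T σ` there are times of `O ω` arbitrarily close on the right. -/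
theorem fst_frequently (h : fst O σ T ω < max T (σ ω)) {t : ℝ≥0} (ht : fst O σ T ω < t) :
    ∃ s, fst O σ T ω ≤ s ∧ s < t ∧ s ∈ O ω := by
  obtain ⟨t', ht1, ht2⟩ := exists_between (lt_min h ht)
  rcases fst_lt_iff.1 ht1 with h' | ⟨s, hs, h1, h2⟩
  · exact absurd (h'.trans (lt_of_lt_of_le ht2 (min_le_left _ _))) (lt_irrefl _)
  · exact ⟨s, fst_le_of_mem h1 h2, hs.trans (lt_of_lt_of_le ht2 (min_le_right _ _)), h2⟩

end fst

/-- The first time `≥ σ` of a right-open adapted condition is a stopping time of `F₊`. -/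
theorem isST_fst {O : Ω → Set ℝ≥0} {σ : Ω → ℝ≥0} {T : ℝ≥0}
    (hO : ∀ t, MeasurableSet[F t] {ω | t ∈ O ω})
    (hopen : ∀ ω, ∀ t ∈ O ω, ∃ r, t < r ∧ ∀ s, t ≤ s → s < r → s ∈ O ω)
    (hσ : IsST F.rightCont σ) : IsST F.rightCont (fst O σ T) := by
  rw [isST_rc_iff_lt] at hσ ⊢
  intro t
  obtain ⟨D, hDc, hD⟩ := TopologicalSpace.exists_countable_dense ℝ≥0
  have hcover : {ω | fst O σ T ω < t} =
      {ω | max T (σ ω) < t} ∪ ⋃ q ∈ D ∩ Set.Iio t, ({ω | σ ω < q} ∩ {ω | q ∈ O ω}) := by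
    ext ω
    simp only [Set.mem_ofPred_eq, Set.mem_union, Set.mem_iUnion, Set.mem_inter_iff, fst_lt_iff]
    refine or_congr Iff.rfl ?_
    constructor
    · rintro ⟨s, hst, hσs, hs⟩
      obtain ⟨r, hr, hr'⟩ := hopen ω s hs
      obtain ⟨q, hqD, hq⟩ := hD.exists_between (lt_min hst hr)
      exact ⟨q, ⟨hqD, lt_of_lt_of_le hq.2 (min_le_left _ _)⟩, lt_of_le_of_lt hσs hq.1,
        hr' q hq.1.le (lt_of_lt_of_le hq.2 (min_le_right _ _))⟩
    · rintro ⟨q, ⟨_, hqt⟩, hσq, hq⟩
      exact ⟨q, hqt, hσq.le, hq⟩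
  rw [hcover]
  have h1 : MeasurableSet[F t] {ω | max T (σ ω) < t} := by
    by_cases hT : T < t
    · have : {ω | max T (σ ω) < t} = {ω | σ ω < t} := by
        ext ω; simp [hT]
      rw [this]; exact hσ t
    · have : {ω | max T (σ ω) < t} = ∅ := by
        ext ω
        simp only [Set.mem_ofPred_eq, max_lt_iff, Set.mem_empty_iff_false, iff_false]
        exact fun h => hT h.1
      rw [this]; exact @MeasurableSet.empty _ (F t)
  refine h1.union ?_
  refine MeasurableSet.biUnion (hDc.mono Set.inter_subset_left) fun q hq => ?_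
  have hqt : q ≤ t := (show q < t from hq.2).le
  exact F.mono hqt _ ((hσ q).inter (hO q))

/-- Version for open conditions. -/
theorem isST_fst_open {O : Ω → Set ℝ≥0} {σ : Ω → ℝ≥0} {T : ℝ≥0}
    (hO : ∀ t, MeasurableSet[F t] {ω | t ∈ O ω}) (hopen : ∀ ω, IsOpen (O ω))
    (hσ : IsST F.rightCont σ) : IsST F.rightCont (fst O σ T) := by
  refine isST_fst hO (fun ω t ht => ?_) hσ
  obtain ⟨ε, hε, hball⟩ := Metric.isOpen_iff.1 (hopen ω) t ht
  refine ⟨t + ⟨ε, hε.le⟩, lt_add_of_pos_right t (by exact hε), fun s hts hs => hball ?_⟩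
  rw [Metric.mem_ball, NNReal.dist_eq]
  have h1 : (t : ℝ) ≤ s := hts
  have h2 : (s : ℝ) < t + ε := by exact_mod_cast hs
  rw [abs_of_nonneg (by linarith)]
  linarith

/-- First time `≥ σ` at which a lower semicontinuous adapted process exceeds `c`. -/
theorem isST_fst_lsc {E : Type*} [LinearOrder E] [TopologicalSpace E] [OrderTopology E]
    [MeasurableSpace E] [OpensMeasurableSpace E]
    {φ : ℝ≥0 → Ω → E} {c : E} {σ : Ω → ℝ≥0} {T : ℝ≥0}
    (hφ : ∀ t, Measurable[F t] (φ t)) (hlsc : ∀ ω, LowerSemicontinuous fun t => φ t ω)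
    (hσ : IsST F.rightCont σ) : IsST F.rightCont (fst (fun ω => {t | c < φ t ω}) σ T) :=
  isST_fst_open (fun t => hφ t measurableSet_Ioi) (fun ω => (hlsc ω).isOpen_preimage c) hσ

/-- Value of a lower semicontinuous process at the first time it exceeds `c`, when this time is
`> σ`. The process may exceed other conditions: `O ω` is any open set containing `{c < φ}`. -/
theorem le_of_fst_lsc {E : Type*} [LinearOrder E] {O : Ω → Set ℝ≥0} {φ : ℝ≥0 → Ω → E} {c : E}
    {σ : Ω → ℝ≥0} {T : ℝ≥0} {ω : Ω} (hO : IsOpen (O ω))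
    (hsub : ∀ t, c < φ t ω → t ∈ O ω) (h : σ ω < fst O σ T ω) :
    φ (fst O σ T ω) ω ≤ c :=
  not_lt.1 fun hlt => fst_notMem hO h (hsub _ hlt)

theorem le_of_lt_fst {E : Type*} [LinearOrder E] {O : Ω → Set ℝ≥0} {φ : ℝ≥0 → Ω → E} {c : E}
    {σ : Ω → ℝ≥0} {T : ℝ≥0} {ω : Ω} {t : ℝ≥0}
    (hsub : ∀ t, c < φ t ω → t ∈ O ω) (h1 : σ ω ≤ t) (h2 : t < fst O σ T ω) :
    φ t ω ≤ c :=
  not_lt.1 fun hlt => notMem_of_lt_fst h1 h2 (hsub _ hlt)

/-- First time `≥ σ` at which an adapted process with right-continuous paths enters an open set. -/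
theorem isST_fst_process {E : Type*} [TopologicalSpace E] [MeasurableSpace E]
    [OpensMeasurableSpace E] {X : ℝ≥0 → Ω → E} {U : Set E} {σ : Ω → ℝ≥0} {T : ℝ≥0}
    (hX : ∀ t, Measurable[F t] (X t)) (hU : IsOpen U)
    (hc : ∀ ω t, ContinuousWithinAt (fun s => X s ω) (Set.Ici t) t)
    (hσ : IsST F.rightCont σ) : IsST F.rightCont (fst (fun ω => {t | X t ω ∈ U}) σ T) := by
  refine isST_fst (fun t => hX t hU.measurableSet) (fun ω t ht => ?_) hσ
  have h1 : ∀ᶠ s in 𝓝[≥] t, X s ω ∈ U := (hc ω t).eventually (hU.mem_nhds ht)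
  obtain ⟨r, hr, hr'⟩ := (mem_nhdsGE_iff_exists_Ico_subset (a := t)).1 h1
  exact ⟨r, hr, fun s hs1 hs2 => hr' ⟨hs1, hs2⟩⟩

theorem isST_rc_min {σ τ : Ω → ℝ≥0} (hσ : IsST F.rightCont σ) (hτ : IsST F.rightCont τ) :
    IsST F.rightCont (fun ω => min (σ ω) (τ ω)) := by
  intro t
  have : {ω | min (σ ω) (τ ω) ≤ t} = {ω | σ ω ≤ t} ∪ {ω | τ ω ≤ t} := by
    ext ω; simp
  rw [this]
  exact (hσ t).union (hτ t)

/-- Infimum of a countable family of stopping times of `F₊` (no capping needed: the infimum of a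
nonempty family in `ℝ≥0` is bounded below by `0`). -/
theorem isST_rc_iInf {ι : Type*} [Nonempty ι] [Countable ι] {τ : ι → Ω → ℝ≥0}
    (h : ∀ i, IsST F.rightCont (τ i)) : IsST F.rightCont (fun ω => ⨅ i, τ i ω) := by
  rw [isST_rc_iff_lt]
  intro t
  have : {ω | ⨅ i, τ i ω < t} = ⋃ i, {ω | τ i ω < t} := by
    ext ω
    simp only [Set.mem_ofPred_eq, Set.mem_iUnion]
    exact ciInf_lt_iff (OrderBot.bddBelow _)
  rw [this]
  exact MeasurableSet.iUnion fun i => isST_rc_iff_lt.1 (h i) t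

/-- Two open conditions: the first time of the union is the minimum of the first times. -/
theorem fst_union {O₁ O₂ : Ω → Set ℝ≥0} {σ : Ω → ℝ≥0} {T : ℝ≥0} (ω : Ω) :
    fst (fun ω => O₁ ω ∪ O₂ ω) σ T ω = min (fst O₁ σ T ω) (fst O₂ σ T ω) := by
  refine eq_of_forall_lt_iff fun t => ?_
  rw [← not_le, ← not_le, not_iff_not]
  constructor
  · intro h
    by_contra hcon
    rw [not_le, lt_min_iff] at hcon
    obtain ⟨t', h1, h2⟩ := exists_between (lt_min_iff.2 ⟨hcon.1, hcon.2⟩)
    have h3 : fst (fun ω => O₁ ω ∪ O₂ ω) σ T ω < t' := lt_of_le_of_lt h h1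
    rw [lt_min_iff] at h2
    rcases fst_lt_iff.1 h3 with h' | ⟨s, hs, ha, hb⟩
    · exact absurd (fst_le (O := O₁) (σ := σ) (T := T) (ω := ω))
        (not_le.2 (h'.trans h2.1))
    · rcases hb with hb | hb
      · exact absurd (fst_le_of_mem (T := T) ha hb) (not_le.2 (hs.trans h2.1))
      · exact absurd (fst_le_of_mem (T := T) ha hb) (not_le.2 (hs.trans h2.2))
  · intro h
    refine le_of_forall_gt_imp_ge_of_dense fun t' ht' => ?_
    rcases min_lt_iff.1 (lt_of_le_of_lt h ht') with h1 | h1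
    · rcases fst_lt_iff.1 h1 with h2 | ⟨s, hs, ha, hb⟩
      · exact (fst_lt_iff.2 (Or.inl h2)).le
      · exact (fst_lt_iff.2 (Or.inr ⟨s, hs, ha, Or.inl hb⟩)).le
    · rcases fst_lt_iff.1 h1 with h2 | ⟨s, hs, ha, hb⟩
      · exact (fst_lt_iff.2 (Or.inl h2)).le
      · exact (fst_lt_iff.2 (Or.inr ⟨s, hs, ha, Or.inr hb⟩)).le

end Crest.Agent.R162.RC
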