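import Mathlib
import Crest.Prelude.Def_Loewner
import Crest.Agent.R162.UBDefs
import Crest.Agent.R162.U1P

/-!
Row 162 (S0243), node U4C (helper219): the statement `UB.U4Stmt` from the radial inputs
(supermartingale `G`, U1, U2', U3) in set-integral form with real radial levels.
-/

set_option autoImplicit false

open MeasureTheory Filter Topology Set
open scoped NNReal ENNReal

namespace Crest.Agent.R162.U4C

open Crest.Agent.R162.FL Crest.Agent.R162.OP Crest.Agent.R162.OS Crest.Agent.R162.UB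
open Crest.Agent.R162.U1P
open Crest.ProbabilityR.Loewner

variable {Ω : Type*} [mΩ : MeasurableSpace Ω]

/-- weight of the event `A` at the radial level `s`: `∫_A e^{(2-d)s} S_s^b`. -/
noncomputable def gm (κ : ℝ) {s₀ : ℝ} (D : Radial (Ω := Ω) s₀) (P : Measure Ω) (s : ℝ)
    (A : Set Ω) : ℝ≥0∞ :=
  ∫⁻ ω in A, ENNReal.ofReal (Real.exp ((2 - dimParam κ) * s) * D.S s ω ^ (8 / κ - 1)) ∂P

/-- algebra of one block -/
theorem step_alg {a m g bad x y : ℝ≥0∞} {q : ℝ} (hq0 : 0 ≤ q) (hq1 : q ≤ 1) (ha : a ≠ ⊤)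
    (hxy : x + y ≤ m) (hm : m ≤ a) (hmg : m ≤ g + bad) (hg : g ≤ a)
    (hbad : bad ≤ ENNReal.ofReal (1 / 2) * a) (hq : ENNReal.ofReal q * g ≤ y) :
    x ≤ ENNReal.ofReal (1 - q / 2) * a := by
  have hmT : m ≠ ⊤ := ne_top_of_le_ne_top ha hm
  have hgT : g ≠ ⊤ := ne_top_of_le_ne_top ha hg
  have hbT : bad ≠ ⊤ := ne_top_of_le_ne_top (ENNReal.mul_ne_top ENNReal.ofReal_ne_top ha) hbad
  have hxT : x ≠ ⊤ := ne_top_of_le_ne_top hmT (le_self_add.trans hxy)
  have hyT : y ≠ ⊤ := ne_top_of_le_ne_top hmT (le_add_self.trans hxy)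
  lift a to ℝ≥0 using ha
  lift m to ℝ≥0 using hmT
  lift g to ℝ≥0 using hgT
  lift bad to ℝ≥0 using hbT
  lift x to ℝ≥0 using hxT
  lift y to ℝ≥0 using hyT
  lift q to ℝ≥0 using hq0
  have h1 : x + y ≤ m := by exact_mod_cast hxy
  have h2 : m ≤ a := by exact_mod_cast hm
  have h3 : m ≤ g + bad := by exact_mod_cast hmg
  have h5 : (bad : ℝ) ≤ 1 / 2 * a := by
    have := ENNReal.toReal_mono (ENNReal.mul_ne_top ENNReal.ofReal_ne_top ENNReal.coe_ne_top) hbad
    rw [ENNReal.toReal_mul, ENNReal.toReal_ofReal (by norm_num)] at this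
    simpa using this
  have h6 : (q : ℝ) * g ≤ y := by
    have := ENNReal.toReal_mono ENNReal.coe_ne_top hq
    rw [ENNReal.toReal_mul, ENNReal.toReal_ofReal q.coe_nonneg] at this
    simpa using this
  have h1' : (x : ℝ) + y ≤ m := by exact_mod_cast h1
  have h2' : (m : ℝ) ≤ a := by exact_mod_cast h2
  have h3' : (m : ℝ) ≤ g + bad := by exact_mod_cast h3
  have ha0 : (0 : ℝ) ≤ a := a.2
  have hb0 : (0 : ℝ) ≤ bad := bad.2
  have hq0' : (0 : ℝ) ≤ q := q.2
  have key : (x : ℝ) ≤ (1 - q / 2) * a := by nlinarith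
  have hnn : (0 : ℝ) ≤ 1 - q / 2 := by linarith
  rw [← ENNReal.ofReal_coe_nnreal (p := x), ← ENNReal.ofReal_coe_nnreal (p := a),
    ← ENNReal.ofReal_mul hnn]
  exact ENNReal.ofReal_le_ofReal key

section rec

variable {s₀ : ℝ} {D : Radial (Ω := Ω) s₀} {P : Measure Ω} {κ : ℝ}

/-- The sets "alive at the pre-level of block `I`, no trigger in the blocks `0..I-1`". -/
def nt (D : Radial (Ω := Ω) s₀) (trig : ℕ → Set Ω) (lev : ℕ → ℝ) (I : ℕ) : Set Ω :=
  {ω | ω ∈ D.alive (lev I - 1) ∧ ∀ i, i < I → ω ∉ trig i}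

/-- **Recursion over the blocks**, set-lintegral form, real levels. -/
theorem recursion (hsup : ∀ s : ℝ, s₀ ≤ s → ∀ c : ℝ, 0 ≤ c → ∀ A : Set Ω, D.F s A → A ⊆ D.alive s →
      gm κ D P (s + c) (A ∩ D.alive (s + c)) ≤ gm κ D P s A)
    (hF0 : D.F s₀ (D.alive s₀)) (hfin : gm κ D P s₀ (D.alive s₀) ≠ ⊤)
    {δ : ℝ} (hFδ : ∀ s : ℝ, s₀ ≤ s → ∀ A : Set Ω, D.F s A → A ⊆ D.alive s →
      D.F s (A ∩ {ω | δ ≤ D.S s ω}))
    (hU2 : ∀ s : ℝ, s₀ ≤ s → ∀ A : Set Ω, D.F s A → A ⊆ D.alive s →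
      gm κ D P (s + 1) (A ∩ D.alive (s + 1) ∩ {ω | δ ≤ D.S (s + 1) ω}ᶜ) ≤
        ENNReal.ofReal (1 / 2) * gm κ D P s A)
    {trig : ℕ → Set Ω} {lev : ℕ → ℝ} {l : ℝ} (hl : 0 ≤ l)
    (hlev : ∀ i, lev i + l + 1 ≤ lev (i + 1))
    (hlev0 : s₀ + 1 ≤ lev 0)
    {q : ℝ} (hq0 : 0 ≤ q) (hq1 : q ≤ 1)
    (htm : ∀ i : ℕ, ∀ A : Set Ω, D.F (lev i) A → A ⊆ D.alive (lev i) →
      D.F (lev i + l) (A ∩ D.alive (lev i + l) ∩ (trig i)ᶜ))
    (hU3 : ∀ i : ℕ, ∀ A : Set Ω, D.F (lev i) A → A ⊆ D.alive (lev i) →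
      A ⊆ {ω | δ ≤ D.S (lev i) ω} →
      ENNReal.ofReal q * gm κ D P (lev i) A ≤
        gm κ D P (lev i + l) (A ∩ D.alive (lev i + l) ∩ trig i))
    (I : ℕ) :
    D.F (lev I - 1) (nt D trig lev I) ∧
      gm κ D P (lev I - 1) (nt D trig lev I) ≤
        ENNReal.ofReal ((1 - q / 2) ^ I) * gm κ D P s₀ (D.alive s₀) := by
  have hlevge : ∀ i, s₀ + 1 ≤ lev i := by
    intro i
    induction i with
    | zero => exact hlev0
    | succ i ih => have := hlev i; linarith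
  induction I with
  | zero =>
    have h1 : s₀ ≤ lev 0 - 1 := by have := hlevge 0; linarith
    have hset : nt D trig lev 0 = D.alive s₀ ∩ D.alive (lev 0 - 1) := by
      ext ω
      simp only [nt, mem_setOf_eq, mem_inter_iff]
      constructor
      · rintro ⟨h, -⟩
        exact ⟨D.anti s₀ _ le_rfl h1 h, h⟩
      · rintro ⟨-, h⟩
        exact ⟨h, fun i hi1 => by omega⟩
    refine ⟨?_, ?_⟩
    · rw [hset]
      exact D.step s₀ _ le_rfl h1 _ hF0 subset_rfl
    · rw [hset, pow_zero, ENNReal.ofReal_one, one_mul]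
      have := hsup s₀ le_rfl (lev 0 - 1 - s₀) (by linarith) _ hF0 subset_rfl
      rwa [show s₀ + (lev 0 - 1 - s₀) = lev 0 - 1 by ring] at this
  | succ I ih =>
    obtain ⟨hF, hM⟩ := ih
    set p : ℝ := lev I - 1 with hp
    have hp0 : s₀ ≤ p := by have := hlevge I; rw [hp]; linarith
    have hp1 : lev I = p + 1 := by rw [hp]; ring
    set A : Set Ω := nt D trig lev I with hA
    have hAal : A ⊆ D.alive p := fun ω hω => hω.1
    -- finiteness
    have hafin : gm κ D P p A ≠ ⊤ := by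
      refine ne_top_of_le_ne_top (ENNReal.mul_ne_top ENNReal.ofReal_ne_top hfin) hM
    -- next level
    set A' : Set Ω := A ∩ D.alive (p + 1) with hA'
    have hFA' : D.F (p + 1) A' := D.step p (p + 1) hp0 (by linarith) A hF hAal
    have hA'al : A' ⊆ D.alive (p + 1) := inter_subset_right
    have hFA'l : D.F (lev I) A' := by rw [hp1]; exact hFA'
    have hA'all : A' ⊆ D.alive (lev I) := by rw [hp1]; exact hA'al
    have hm : gm κ D P (p + 1) A' ≤ gm κ D P p A := hsup p hp0 1 (by norm_num) A hF hAal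
    set Gd : Set Ω := A' ∩ {ω | δ ≤ D.S (p + 1) ω} with hGd
    have hFG : D.F (p + 1) Gd := hFδ (p + 1) (by linarith) A' hFA' hA'al
    have hmg : gm κ D P (p + 1) A' ≤ gm κ D P (p + 1) Gd +
        gm κ D P (p + 1) (A' ∩ {ω | δ ≤ D.S (p + 1) ω}ᶜ) := by
      have hu : A' ⊆ Gd ∪ (A' ∩ {ω | δ ≤ D.S (p + 1) ω}ᶜ) := by
        intro ω hω
        by_cases h : δ ≤ D.S (p + 1) ω
        · exact Or.inl ⟨hω, h⟩
        · exact Or.inr ⟨hω, h⟩
      exact (lintegral_mono_set hu).trans (lintegral_union_le _ _ _)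
    have hg : gm κ D P (p + 1) Gd ≤ gm κ D P p A := (lintegral_mono_set inter_subset_left).trans hm
    -- end of the block: level `e = lev I + l`, next pre-level `p' = lev (I+1) - 1`
    set e : ℝ := lev I + l with he
    set p' : ℝ := lev (I + 1) - 1 with hp'
    have hse : s₀ ≤ e := by rw [he]; linarith
    have hpe : p + 1 ≤ e := by rw [he]; linarith
    have hep : e ≤ p' := by have := hlev I; rw [hp', he]; linarith
    set X : Set Ω := A' ∩ D.alive e ∩ (trig I)ᶜ with hX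
    set Y : Set Ω := A' ∩ D.alive e ∩ trig I with hY
    have hFX : D.F e X := htm I A' hFA'l hA'all
    have hXal : X ⊆ D.alive e := fun ω hω => hω.1.2
    have hmX : MeasurableSet X := D.meas e hse _ hFX hXal
    have hFE : D.F e (A' ∩ D.alive e) := D.step (lev I) e (by rw [hp1]; linarith) (by rw [he]; linarith)
      A' hFA'l hA'all
    have hmE : MeasurableSet (A' ∩ D.alive e) := D.meas _ hse _ hFE inter_subset_right
    have hsetx : X ∩ D.alive p' = nt D trig lev (I + 1) := by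
      ext ω
      simp only [hX, hA', hA, nt, mem_inter_iff, mem_setOf_eq, mem_compl_iff]
      constructor
      · rintro ⟨⟨⟨⟨⟨-, h1⟩, -⟩, h2⟩, h3⟩, h4⟩
        refine ⟨h4, fun i hi => ?_⟩
        rcases Nat.lt_succ_iff_lt_or_eq.mp hi with h | h
        · exact h1 i h
        · subst h; exact h3
      · rintro ⟨h1, h2⟩
        have h3 : ω ∈ D.alive e := D.anti e p' hse hep h1
        have h4 : ω ∈ D.alive (p + 1) := D.anti (p + 1) e (by linarith) hpe h3
        exact ⟨⟨⟨⟨⟨D.anti p (p + 1) hp0 (by linarith) h4, fun i hi => h2 i (by omega)⟩,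
          h4⟩, h3⟩, h2 I (by omega)⟩, h1⟩
    have hFx : D.F p' (nt D trig lev (I + 1)) := by
      rw [← hsetx]
      exact D.step e p' hse hep X hFX hXal
    refine ⟨hFx, ?_⟩
    have hx1 : gm κ D P p' (nt D trig lev (I + 1)) ≤ gm κ D P e X := by
      rw [← hsetx]
      have := hsup e hse (p' - e) (by linarith) X hFX hXal
      rwa [show e + (p' - e) = p' by ring] at this
    have hxy : gm κ D P e X + gm κ D P e Y ≤ gm κ D P (p + 1) A' := by
      have hsum : gm κ D P e X + gm κ D P e Y ≤ gm κ D P e (A' ∩ D.alive e) := by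
        unfold gm
        have hdisj : Y = (A' ∩ D.alive e) \ X := by
          ext ω
          simp only [hX, hY, mem_inter_iff, Set.mem_sdiff, mem_compl_iff]
          tauto
        rw [hdisj, ← lintegral_union (hmE.diff hmX) disjoint_sdiff_self_right]
        refine lintegral_mono_set ?_
        intro ω hω
        rcases hω with h | h
        · exact h.1
        · exact h.1
      refine hsum.trans ?_
      have := hsup (lev I) (by rw [hp1]; linarith) l hl A' hFA'l hA'all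
      rwa [← he, hp1] at this
    have hbad := hU2 p hp0 A hF hAal
    have hy : ENNReal.ofReal q * gm κ D P (p + 1) Gd ≤ gm κ D P e Y := by
      have h := hU3 I Gd (by rw [hp1]; exact hFG)
        (inter_subset_left.trans hA'all) (by rw [hp1]; exact inter_subset_right)
      rw [hp1] at h
      rw [← hp1, ← he, hp1] at h
      refine h.trans (lintegral_mono_set ?_)
      exact inter_subset_inter_left _ (inter_subset_inter_left _ inter_subset_left)
    have hstep := step_alg hq0 hq1 hafin hxy hm hmg hg hbad hy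
    calc gm κ D P p' (nt D trig lev (I + 1)) ≤ gm κ D P e X := hx1
      _ ≤ ENNReal.ofReal (1 - q / 2) * gm κ D P p A := hstep
      _ ≤ ENNReal.ofReal (1 - q / 2) *
          (ENNReal.ofReal ((1 - q / 2) ^ I) * gm κ D P s₀ (D.alive s₀)) := by gcongr
      _ = ENNReal.ofReal ((1 - q / 2) ^ (I + 1)) * gm κ D P s₀ (D.alive s₀) := by
        rw [← mul_assoc, ← ENNReal.ofReal_mul (by linarith)]
        congr 2
        ring

end rec

/-! ### uniform version of `U1P.survival` -/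

/-- `U1P.R` uniformly over a family of points. -/
def RU {ι : Type*} {s₀ : ι → ℝ} (D : ∀ i, Radial (Ω := Ω) (s₀ i)) (P : Measure Ω) (c : ℝ)
    (u v : ℝ → ℝ) : Prop := ∀ i, R (D i) P c u v

/-- **U1 (abstract), uniformly over a family.** -/
theorem survivalU {ι : Type*} {s₀ : ι → ℝ} {D : ∀ i, Radial (Ω := Ω) (s₀ i)} {P : Measure Ω}
    {b η : ℝ} (hb : 0 < b) (_hη : 0 < η) (hη2 : η < 2)
    (ha : ∀ c > 0, ∀ p p' : ℝ, 0 ≤ p → p < b → 0 < p' → p' ≤ p + 2 → p' < b →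
      ∃ C ≥ 0, RU D P c (fun x => x ^ p) (fun x => C * x ^ p'))
    (hl : ∀ c > 0, ∀ p : ℝ, 0 ≤ p → p < b → b + η - 2 ≤ p →
      ∃ C ≥ 0, RU D P c (fun x => x ^ p) (fun x => C * x ^ b))
    (c : ℝ) (hc : 0 < c) :
    ∃ C ≥ 0, RU D P c (fun _ => 1) (fun x => C * x ^ b) := by
  have key : ∀ k : ℕ, ∀ c > 0, ∀ p : ℝ, 0 ≤ p → p < b → b - p ≤ (k + 1) * (2 - η) →
      ∃ C ≥ 0, RU D P c (fun x => x ^ p) (fun x => C * x ^ b) := by
    intro k
    induction k with
    | zero =>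
      intro c hc p hp hpb hle
      exact hl c hc p hp hpb (by norm_num at hle; linarith)
    | succ k ih =>
      intro c hc p hp hpb hle
      by_cases hlast : b + η - 2 ≤ p
      · exact hl c hc p hp hpb hlast
      · rw [not_le] at hlast
        have hp'b : p + (2 - η) < b := by linarith
        obtain ⟨C₁, hC₁, h₁⟩ := ha (c / 2) (by positivity) p (p + (2 - η)) hp hpb (by linarith)
          (by linarith) hp'b
        obtain ⟨C₂, hC₂, h₂⟩ := ih (c / 2) (by positivity) (p + (2 - η)) (by linarith) hp'b (by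
          push_cast at hle ⊢
          linarith)
        refine ⟨C₁ * C₂, mul_nonneg hC₁ hC₂, fun i => ?_⟩
        have h₃ := (h₂ i).smul hC₁
        have h₄ := R.comp (D := D i) (P := P) (by positivity : (0:ℝ) ≤ c / 2)
          (by positivity : (0:ℝ) ≤ c / 2) (h₁ i) h₃
        rw [show c / 2 + c / 2 = c by ring] at h₄
        exact h₄.mono hc.le (fun x _ _ => le_rfl) (fun x _ _ => by rw [mul_assoc])
  obtain ⟨k, hk⟩ := exists_nat_gt (b / (2 - η))
  have h2 : (0:ℝ) < 2 - η := by linarith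
  obtain ⟨C, hC, h⟩ := key k c hc 0 le_rfl hb (by
    rw [div_lt_iff₀ h2] at hk
    nlinarith)
  exact ⟨C, hC, fun i => (h i).mono hc.le (fun x _ _ => by simp) (fun x _ _ => le_rfl)⟩


/-! ### the inputs and the conclusion -/

/-- The inputs of node U4C: radial data of every point of the half-plane, with uniform
constants. -/
structure Inputs (κ : ℝ) (P : Measure Ω) (B : ℝ≥0 → Ω → ℝ)
    (D : ∀ w : {w : ℂ // 0 < w.im}, Radial (Ω := Ω) (-Real.log w.1.im)) : Prop where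
  reach : ∀ w s, -Real.log w.1.im ≤ s →
    {ω | Reach (driving κ B ω) w.1 (Real.exp (-s))} ⊆ (D w).alive s
  F0 : ∀ w, (D w).F (-Real.log w.1.im) ((D w).alive (-Real.log w.1.im))
  init : ∀ w, gm κ (D w) P (-Real.log w.1.im) ((D w).alive (-Real.log w.1.im)) ≤
    ENNReal.ofReal (green κ w.1)
  good : ∀ w (δ s : ℝ), -Real.log w.1.im ≤ s → ∀ A, (D w).F s A → A ⊆ (D w).alive s →
    (D w).F s (A ∩ {ω | δ ≤ (D w).S s ω})
  sup : ∀ w s, -Real.log w.1.im ≤ s → ∀ c : ℝ, 0 ≤ c → ∀ A, (D w).F s A → A ⊆ (D w).alive s →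
    gm κ (D w) P (s + c) (A ∩ (D w).alive (s + c)) ≤ gm κ (D w) P s A
  U1 : ∃ C : ℝ, 0 ≤ C ∧ RU D P 1 (fun _ => 1) (fun x => C * x ^ (8 / κ - 1))
  U2 : ∃ δ : ℝ, 0 < δ ∧ ∀ w s, -Real.log w.1.im ≤ s → ∀ A, (D w).F s A → A ⊆ (D w).alive s →
    gm κ (D w) P (s + 1) (A ∩ (D w).alive (s + 1) ∩ {ω | δ ≤ (D w).S (s + 1) ω}ᶜ) ≤
      ENNReal.ofReal (1 / 2) * gm κ (D w) P s A
  U3 : ∀ δ : ℝ, 0 < δ → ∃ l : ℝ, 0 ≤ l ∧ ∃ N₀ C c : ℝ, 0 ≤ C ∧ 0 < c ∧ c ≤ 1 ∧
    ∀ w s, -Real.log w.1.im ≤ s → ∀ N : ℝ, N₀ ≤ N → ∀ A, (D w).F s A → A ⊆ (D w).alive s →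
      (D w).F (s + l) (A ∩ (D w).alive (s + l) ∩
        {ω | Trig (driving κ B ω) w.1 (Real.exp (-s)) N δ}ᶜ) ∧
      (A ⊆ {ω | δ ≤ (D w).S s ω} →
        ENNReal.ofReal (c * Real.exp (-(C * N))) * gm κ (D w) P s A ≤
          gm κ (D w) P (s + l) (A ∩ (D w).alive (s + l) ∩
            {ω | Trig (driving κ B ω) w.1 (Real.exp (-s)) N δ}))

theorem u4Stmt_of_inputs {κ : ℝ} {P : Measure Ω} {B : ℝ≥0 → Ω → ℝ}
    {D : ∀ w : {w : ℂ // 0 < w.im}, Radial (Ω := Ω) (-Real.log w.1.im)}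
    (hD : Inputs κ P B D) : U4Stmt κ P B := by
  obtain ⟨C₁, hC₁, hU1⟩ := hD.U1
  obtain ⟨δ, hδ, hU2⟩ := hD.U2
  obtain ⟨l, hl, N₀, C, c, hC, hc, hc1, hU3⟩ := hD.U3 δ hδ
  refine ⟨δ, hδ, ⌈l⌉₊ + 1, fun l₀ hl₀ => ?_⟩
  have hl₀1 : 1 ≤ l₀ := by omega
  have hl₀l : l + 1 ≤ (l₀ : ℝ) := by
    have h1 : l ≤ (⌈l⌉₊ : ℝ) := Nat.le_ceil l
    have h2 : ((⌈l⌉₊ + 1 : ℕ) : ℝ) ≤ (l₀ : ℝ) := by exact_mod_cast hl₀
    push_cast at h2
    linarith
  set ε₀ : ℝ := min 1 (1 / (4 * (C + 1))) with hε₀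
  have hε0 : 0 < ε₀ := by rw [hε₀]; positivity
  have hε1 : ε₀ ≤ 1 := min_le_left _ _
  have hCε : C * ε₀ ≤ 1 / 4 := by
    have h1 : ε₀ ≤ 1 / (4 * (C + 1)) := min_le_right _ _
    have h2 : C * ε₀ ≤ C * (1 / (4 * (C + 1))) := mul_le_mul_of_nonneg_left h1 hC
    have h3 : C * (1 / (4 * (C + 1))) ≤ 1 / 4 := by
      rw [mul_one_div, div_le_div_iff₀ (by positivity) (by norm_num)]; linarith
    linarith
  refine ⟨ε₀, hε0, hε1, (C₁ + 1) * Real.exp (2 * |2 - dimParam κ|), by positivity, ?_⟩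
  have hNN : ∀ᶠ K : ℕ in atTop, N₀ ≤ (U4.NN ε₀ K : ℝ) :=
    (tendsto_natCast_atTop_atTop.comp (U4.tendsto_NN hε0)).eventually_ge_atTop N₀
  filter_upwards [hNN, U4.numeric hc hc1 hC hε0 hCε (Cg := 2) (by norm_num) hl₀1,
    eventually_ge_atTop 8] with K hK1 hK2 hK3 w hw
  have hKr : (8 : ℝ) ≤ K := by exact_mod_cast hK3
  have hw0 : 0 < w.im := (Real.exp_pos _).trans_le hw
  set W : {w : ℂ // 0 < w.im} := ⟨w, hw0⟩ with hW
  have hs0 : -Real.log w.im ≤ K / 8 := by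
    have := Real.log_le_log (Real.exp_pos _) hw
    rw [Real.log_exp] at this
    linarith
  set N : ℝ := (U4.NN ε₀ K : ℝ) with hN
  set q : ℝ := c * Real.exp (-(C * N)) with hq
  have hq0 : 0 ≤ q := by positivity
  have hN0 : 0 ≤ N := Nat.cast_nonneg _
  have hq1 : q ≤ 1 := by
    have : Real.exp (-(C * N)) ≤ 1 := by
      rw [Real.exp_le_one_iff]; nlinarith
    calc q ≤ 1 * 1 := mul_le_mul hc1 this (Real.exp_pos _).le zero_le_one
      _ = 1 := one_mul 1
  set g : ℕ := U4.blockLen 2 l₀ (U4.NN ε₀ K) with hg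
  have hgl : l + 1 ≤ (g : ℝ) := by
    have : (l₀ : ℝ) ≤ g := by
      rw [hg, U4.blockLen]; push_cast
      have : (0 : ℝ) ≤ (⌈2 * Real.log (U4.NN ε₀ K)⌉₊ : ℝ) := Nat.cast_nonneg _
      linarith
    linarith
  set Lv : ℕ → ℝ := fun i => (UB.lev ε₀ l₀ K i : ℝ) with hLv
  have hLv_eq : ∀ i, Lv i = ((K / 2 : ℕ) : ℝ) + i * g := by
    intro i; simp only [hLv, UB.lev]; push_cast; rfl
  have hK2 : (K : ℝ) / 8 + 1 ≤ ((K / 2 : ℕ) : ℝ) := by
    have h1 : (K : ℝ) ≤ 2 * ((K / 2 : ℕ) : ℝ) + 1 := by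
      have : K ≤ 2 * (K / 2) + 1 := by omega
      exact_mod_cast this
    linarith
  have hK2' : ((K / 2 : ℕ) : ℝ) ≤ K / 2 := by
    have : 2 * (K / 2) ≤ K := by omega
    have h : (2 : ℝ) * ((K / 2 : ℕ) : ℝ) ≤ K := by exact_mod_cast this
    linarith
  have hlev : ∀ i, Lv i + l + 1 ≤ Lv (i + 1) := by
    intro i
    rw [hLv_eq, hLv_eq]; push_cast; nlinarith
  have hlev0 : -Real.log W.1.im + 1 ≤ Lv 0 := by
    rw [hLv_eq]; push_cast
    have : -Real.log W.1.im = -Real.log w.im := rfl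
    rw [this]; linarith
  have hlevge : ∀ i, -Real.log W.1.im ≤ Lv i := by
    intro i
    have h0 := hlev0
    rw [hLv_eq] at h0 ⊢
    have : (0 : ℝ) ≤ i * g := by positivity
    push_cast at h0
    linarith
  have hinit := hD.init W
  have hfin : gm κ (D W) P (-Real.log W.1.im) ((D W).alive (-Real.log W.1.im)) ≠ ⊤ :=
    ne_top_of_le_ne_top ENNReal.ofReal_ne_top hinit
  set trig : ℕ → Set Ω := fun i => {ω | Trig (driving κ B ω) w (Real.exp (-(Lv i))) N δ} with htrig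
  obtain ⟨hF, hM⟩ := recursion (κ := κ) (P := P) (D := D W) (hD.sup W) (hD.F0 W) hfin
    (fun s hs A hA hA' => hD.good W δ s hs A hA hA') (hU2 W) (trig := trig) (lev := Lv) hl hlev hlev0
    hq0 hq1 (fun i A hA hA' => (hU3 W (Lv i) (hlevge i) N hK1 A hA hA').1)
    (fun i A hA hA' hA'' => (hU3 W (Lv i) (hlevge i) N hK1 A hA hA').2 hA'')
    (U4.nBlocks ε₀ 2 l₀ K)
  set I : ℕ := U4.nBlocks ε₀ 2 l₀ K with hI
  have hIg : Lv I - 1 ≤ K - 2 := by
    rw [hLv_eq]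
    have h1 : I * (4 * g) ≤ K := by rw [hI, U4.nBlocks]; exact Nat.div_mul_le_self K (4 * g)
    have h2 : (I : ℝ) * (4 * g) ≤ K := by exact_mod_cast h1
    nlinarith
  have hp0 : -Real.log W.1.im ≤ Lv I - 1 := by
    have h0 := hlev0
    rw [hLv_eq] at h0 ⊢
    have : (0 : ℝ) ≤ I * g := by positivity
    push_cast at h0
    linarith
  have hp1 : -Real.log W.1.im ≤ (K : ℝ) - 2 := hp0.trans hIg
  set A : Set Ω := nt (D W) trig Lv I with hA
  have hAal : A ⊆ (D W).alive (Lv I - 1) := fun ω hω => hω.1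
  set A' : Set Ω := A ∩ (D W).alive ((K : ℝ) - 2) with hA'
  have hFA' : (D W).F ((K : ℝ) - 2) A' := (D W).step _ _ hp0 hIg A hF hAal
  have hA'al : A' ⊆ (D W).alive ((K : ℝ) - 2) := inter_subset_right
  have hM' : gm κ (D W) P ((K : ℝ) - 2) A' ≤
      ENNReal.ofReal ((1 - q / 2) ^ I) * ENNReal.ofReal (green κ w) := by
    have h1 := hD.sup W (Lv I - 1) hp0 ((K : ℝ) - 2 - (Lv I - 1)) (by linarith) A hF hAal
    rw [show Lv I - 1 + ((K : ℝ) - 2 - (Lv I - 1)) = (K : ℝ) - 2 by ring] at h1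
    exact (h1.trans hM).trans (by gcongr)
  have hsub : {ω | Reach (driving κ B ω) w (Real.exp (-((K : ℝ) - 1))) ∧
      NoTrig (driving κ B ω) w ε₀ δ l₀ K} ⊆ A' ∩ (D W).alive ((K : ℝ) - 2 + 1) := by
    rintro ω ⟨h1, h2⟩
    have h3 : ω ∈ (D W).alive ((K : ℝ) - 1) := hD.reach W _ (by linarith) h1
    have h3' : ω ∈ (D W).alive ((K : ℝ) - 2 + 1) := by
      rwa [show (K : ℝ) - 2 + 1 = (K : ℝ) - 1 by ring]
    have h4 : ω ∈ (D W).alive ((K : ℝ) - 2) := (D W).anti _ _ hp1 (by linarith) h3'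
    refine ⟨⟨⟨(D W).anti _ _ hp0 hIg h4, fun i hi => ?_⟩, h4⟩, h3'⟩
    exact h2 i hi
  have hfinal : P (A' ∩ (D W).alive ((K : ℝ) - 2 + 1)) ≤
      ENNReal.ofReal (C₁ * Real.exp (-((2 - dimParam κ) * ((K : ℝ) - 2)))) *
        gm κ (D W) P ((K : ℝ) - 2) A' := by
    have h1 := hU1 W ((K : ℝ) - 2) hp1 A' hFA' hA'al
    simp only [ENNReal.ofReal_one, lintegral_const, MeasurableSet.univ, Measure.restrict_apply,
      univ_inter, one_mul] at h1
    refine h1.trans (le_of_eq ?_)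
    unfold gm
    rw [← lintegral_const_mul' _ _ ENNReal.ofReal_ne_top]
    refine lintegral_congr fun ω => ?_
    rw [← ENNReal.ofReal_mul (by positivity)]
    congr 1
    rw [show C₁ * Real.exp (-((2 - dimParam κ) * ((K : ℝ) - 2))) *
        (Real.exp ((2 - dimParam κ) * ((K : ℝ) - 2)) * (D W).S ((K : ℝ) - 2) ω ^ (8 / κ - 1)) =
        C₁ * (Real.exp (-((2 - dimParam κ) * ((K : ℝ) - 2))) *
          Real.exp ((2 - dimParam κ) * ((K : ℝ) - 2))) *
            (D W).S ((K : ℝ) - 2) ω ^ (8 / κ - 1) by ring,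
      ← Real.exp_add, neg_add_cancel, Real.exp_zero, mul_one]
  have hgr : 0 ≤ green κ w := by
    unfold green; positivity
  have hexp : Real.exp (-((2 - dimParam κ) * ((K : ℝ) - 2))) ≤
      Real.exp (2 * |2 - dimParam κ|) * Real.exp (-((2 - dimParam κ) * K)) := by
    rw [← Real.exp_add]
    apply Real.exp_le_exp.mpr
    have := le_abs_self (2 - dimParam κ)
    linarith
  calc P {ω | Reach (driving κ B ω) w (Real.exp (-((K : ℝ) - 1))) ∧
      NoTrig (driving κ B ω) w ε₀ δ l₀ K}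
      ≤ P (A' ∩ (D W).alive ((K : ℝ) - 2 + 1)) := measure_mono hsub
    _ ≤ ENNReal.ofReal (C₁ * Real.exp (-((2 - dimParam κ) * ((K : ℝ) - 2)))) *
        (ENNReal.ofReal ((1 - q / 2) ^ I) * ENNReal.ofReal (green κ w)) :=
        hfinal.trans (by gcongr)
    _ = ENNReal.ofReal (C₁ * Real.exp (-((2 - dimParam κ) * ((K : ℝ) - 2))) *
        ((1 - q / 2) ^ I * green κ w)) := by
        have h1q : 0 ≤ 1 - q / 2 := by linarith
        rw [← ENNReal.ofReal_mul (by positivity), ← ENNReal.ofReal_mul (by positivity)]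
    _ ≤ _ := by
        apply ENNReal.ofReal_le_ofReal
        have h1q : 0 ≤ 1 - q / 2 := by linarith
        have hpow : (1 - q / 2) ^ I ≤ Real.exp (-Real.sqrt K) := hK2
        calc C₁ * Real.exp (-((2 - dimParam κ) * ((K : ℝ) - 2))) * ((1 - q / 2) ^ I * green κ w)
            ≤ (C₁ + 1) * (Real.exp (2 * |2 - dimParam κ|) * Real.exp (-((2 - dimParam κ) * K))) *
              (Real.exp (-Real.sqrt K) * green κ w) := by
              gcongr
              linarith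
          _ = (C₁ + 1) * Real.exp (2 * |2 - dimParam κ|) * Real.exp (-((2 - dimParam κ) * K)) *
              green κ w * Real.exp (-Real.sqrt K) := by ring

end Crest.Agent.R162.U4C
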