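import Mathlib
import Crest.Agent.R162.Rad2
import Crest.Agent.R162.U4C

/-!
Row 162, node RAD part 3 (helper953): `U0` and `U2bad` in the form of `U4C.Inputs`
(lines `sup` and `U2`), constants uniform in the point.
-/

set_option autoImplicit false

open MeasureTheory ProbabilityTheory Filter Set
open scoped NNReal ENNReal Topology
open Crest.ProbabilityR.Loewner

namespace Crest.Agent.R162.Rad

open OS OP GEN OPGen

universe u

variable {Ω : Type u} {m : MeasurableSpace Ω} {P : Measure Ω} {F : Filtration ℝ≥0 m} {κ s₀ : ℝ}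

lemma Gl_eq (D : OneP F P (OP.gen κ) s₀) {s : ℝ} (hs : s₀ ≤ s) {ω : Ω} (hω : ω ∈ D.alive s) :
    Gl D s ω = Real.exp ((2 - dimParam κ) * s) * D.radial.S s ω ^ (8 / κ - 1) := by
  have h3 := D.L_tau hs hω
  rw [Gl, Gq, show (D.stl s ω).2.2.1 = -s from h3]
  show Real.exp ((κ / 8 - 1) * -s) * sinq (D.stl s ω) ^ (8 / κ - 1) =
    Real.exp ((2 - dimParam κ) * s) * sinq (D.stl s ω) ^ (8 / κ - 1)
  congr 2
  unfold dimParam
  ring

lemma gm_eq (D : OneP F P (OP.gen κ) s₀) {s : ℝ} (hs : s₀ ≤ s) {A : Set Ω} (hA : MeasurableSet A)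
    (hAs : A ⊆ D.alive s) :
    U4C.gm κ D.radial P s A = ∫⁻ ω in A, ENNReal.ofReal (Gl D s ω) ∂P := by
  unfold U4C.gm
  refine setLIntegral_congr_fun hA ?_
  intro ω hω
  simp only
  rw [Gl_eq D hs (hAs hω)]

/-- line `sup` of `U4C.Inputs` -/
theorem gm_sup [IsFiniteMeasure P] (D : OneP F P (OP.gen κ) s₀) (hκ : 0 < κ) {s c : ℝ}
    (hs : s₀ ≤ s) (hc : 0 ≤ c) {A : Set Ω} (hA : D.Past s A) :
    U4C.gm κ D.radial P (s + c) (A ∩ D.alive (s + c)) ≤ U4C.gm κ D.radial P s A := by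
  have hmA : MeasurableSet A := OneP.Past.measurableSet D hA
  rw [gm_eq D hs hmA hA.1, gm_eq D (by linarith) (hmA.inter (D.measurableSet_alive _))
    inter_subset_right]
  exact U0 D hκ (by linarith) hA

/-- line `U2` of `U4C.Inputs`, `δ` uniform. -/
theorem gm_U2 (hκ : 0 < κ) (hκ8 : κ < 8) : ∃ δ : ℝ, 0 < δ ∧ δ ≤ 1 ∧
    ∀ {Ω : Type u} {m : MeasurableSpace Ω} {P : Measure Ω} [IsFiniteMeasure P]
      {F : Filtration ℝ≥0 m} {s₀ : ℝ} (D : OneP F P (OP.gen κ) s₀) (s : ℝ) (_ : s₀ ≤ s)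
      (A : Set Ω) (_ : D.Past s A),
      U4C.gm κ D.radial P (s + 1) (A ∩ D.alive (s + 1) ∩ {ω | δ ≤ D.radial.S (s + 1) ω}ᶜ) ≤
        ENNReal.ofReal (1 / 2) * U4C.gm κ D.radial P s A := by
  obtain ⟨q, δ, hq, hqb, hq2, hδ, hδ1, hδq⟩ := exists_U2_const hκ hκ8
  refine ⟨δ, hδ, hδ1, ?_⟩
  intro Ω m P _ F s₀ D s hs A hA
  have hmA : MeasurableSet A := OneP.Past.measurableSet D hA
  have hset : A ∩ D.alive (s + 1) ∩ {ω | δ ≤ D.radial.S (s + 1) ω}ᶜ =
      A ∩ D.alive (s + 1) ∩ {ω | D.Sl (s + 1) ω < δ} := by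
    ext ω
    simp only [mem_inter_iff, mem_compl_iff, mem_ofPred_eq, not_le]
    rfl
  have hmS : MeasurableSet (A ∩ D.alive (s + 1) ∩ {ω | D.Sl (s + 1) ω < δ}) := by
    have h1 := D.measurable_stl (s + 1)
    have h2 : Measurable (fun p : St => sinq p) := by
      unfold sinq
      fun_prop
    have h3 : A ∩ D.alive (s + 1) ∩ {ω | D.Sl (s + 1) ω < δ} = A ∩ (D.alive (s + 1) ∩
        {ω | sinq ((D.alive (s + 1)).indicator (D.stl (s + 1)) ω) < δ}) := by
      rw [inter_assoc]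
      congr 1
      ext ω
      simp only [mem_inter_iff, mem_ofPred_eq, and_congr_right_iff]
      intro hω
      rw [indicator_of_mem hω]
      rfl
    rw [h3]
    exact hmA.inter ((D.measurableSet_alive _).inter ((h2.comp h1) measurableSet_Iio))
  rw [hset, gm_eq D hs hmA hA.1, gm_eq D (by linarith) hmS
    (fun ω hω => hω.1.2)]
  exact U2bad D hκ hq hqb hq2 hδ hδq hs hA

end Crest.Agent.R162.Rad
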