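import Mathlib
import Crest.Agent.R162.LB7bI
import Crest.Agent.R162.Rad2
import Crest.Agent.R162.OPM
import Crest.Agent.R162.OPd

/-!
Row 162 (S0243): the inputs `OP1Stmt`, `U2Stmt` of LB7b (helper893), from `OPd.OP1` (helper149) and
`Rad.U2` (helper953), and LB7b with these inputs discharged.
-/

set_option autoImplicit false

open MeasureTheory ProbabilityTheory Filter Set
open scoped NNReal ENNReal Topology

namespace Crest.Agent.R162.Rad4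

open Crest.Agent.R162.OS Crest.Agent.R162.Rad Crest.Agent.R162.OP Crest.Agent.R162.FL Crest.Agent.R162.LB7
open Crest.ProbabilityR.Loewner

universe u

theorem op1Stmt {κ : ℝ} (hM : OPM.{u}) (hκ : 0 < κ) (hκ8 : κ < 8) : OP1Stmt.{u} κ := by
  intro c0 hc0
  refine ⟨C1 κ c0, lam1 κ, C1_pos hc0, lam1_pos hκ hκ8, ?_⟩
  intro Ω m P _ Fl B hB w hw σ hσ A hA a
  exact OP1 hM hB hκ hκ8 hw hσ hA hc0 a

theorem u2Stmt {κ : ℝ} (hM : OPM.{u}) (hκ : 0 < κ) : U2Stmt.{u} hM hκ := by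
  intro q' hq hqb hq2
  refine ⟨CU2 κ q', (CU2_pos hκ hq hqb).le, ?_⟩
  intro Ω m P _ Fl B hB w hw s hs
  have h := Rad.U2 (oneP hM hB hκ hw) hκ hq hqb hq2 hs (OneP.alive_past (oneP hM hB hκ hw) s)
  have e : (oneP hM hB hκ hw).alive s ∩ (oneP hM hB hκ hw).alive (s + 1) =
      (oneP hM hB hκ hw).alive (s + 1) :=
    inter_eq_right.2 (OneP.alive_anti _ (by linarith))
  rw [e] at h
  exact h

/-- **LB7b** with OP1, U2 and the master Dynkin formula discharged. -/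
theorem lb7b' {κ : ℝ} (hκ : 0 < κ) (hκ8 : κ < 8) (grid : ℂ → ℝ → ℕ → Finset ℂ) {Cg : ℝ}
    (hCg : 0 ≤ Cg)
    (hcard : ∀ (w : ℂ) (ρ : ℝ) (m : ℕ), ((grid w ρ m).card : ℝ) ≤ Cg * Real.exp (2 * m))
    (hlb7a : ∀ {q η CA K9 K : ℝ}, 0 < q → 0 < η → 0 ≤ CA → 0 ≤ K9 → 4 ≤ K →
      LB7aStmt grid q η CA K9 K)
    {q η K9 cS : ℝ} (hq : 0 < q) (hη : 0 < η) (hK9 : 0 < K9) (hcS : 0 < cS) :
    ∃ C' C : ℝ, 0 < C' ∧ 0 < C ∧
      ∀ {Ω : Type u} {m : MeasurableSpace Ω} {P : Measure Ω} [IsProbabilityMeasure P]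
      {Fl : Filtration ℝ≥0 m} {B : ℝ≥0 → Ω → ℝ} (hB : IsBM Fl B P) {w0 : ℂ} (hw : 0 < w0.im)
      (R N : ℝ) (u0 : ℂ → ℝ), 1 ≤ R → 1 ≤ N → Real.log R ≤ N → K9 * R ≤ w0.im →
      cS * ‖w0‖ ≤ w0.im → (∀ p, max 1 (‖p - w0‖ - R) ≤ u0 p) →
      ∫⁻ ω in {ω | ω ∈ (oneP OPM.opm.{u} hB hκ hw).alive (-Real.log (K9 * R)) ∧
          ENNReal.ofReal (C' * N) < LB.Lam u0 q η (ffl (driving κ B ω)
            ((oneP OPM.opm.{u} hB hκ hw).tau (-Real.log (K9 * R)) ω))},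
        gw (oneP OPM.opm.{u} hB hκ hw) (-Real.log (K9 * R)) ω ∂P ≤
        ENNReal.ofReal (C * Real.exp (-2 * N)) * ENNReal.ofReal (UB.green κ w0) :=
  lb7b hκ hκ8 OPM.opm (op1Stmt OPM.opm hκ hκ8) (u2Stmt OPM.opm hκ) grid hCg hcard hlb7a hq hη hK9
    hcS

end Crest.Agent.R162.Rad4
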