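import Mathlib
import Crest.Agent.R162.SM2

/-!
Row 162, node SM, part 3: smooth cut-off and extension, test data from functions which are only
`C^3` on an open set containing a compact set.
-/

set_option autoImplicit false

namespace Crest.Agent.R162.SM

open MeasureTheory ProbabilityTheory Filter Set
open scoped NNReal ENNReal Topology ContDiff Manifold

section cutoff

variable {G : Type*} [NormedAddCommGroup G] [NormedSpace ℝ G] [FiniteDimensional ℝ G]
  {V : Type*} [NormedAddCommGroup V] [NormedSpace ℝ V]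

/-- smooth cut-off function, `1` near the compact `K`, compactly supported in the open `U` -/
theorem exists_chi {K U : Set G} (hK : IsCompact K) (hU : IsOpen U) (hKU : K ⊆ U) :
    ∃ χ : G → ℝ, ContDiff ℝ ∞ χ ∧ HasCompactSupport χ ∧ tsupport χ ⊆ U ∧
      (∀ᶠ x in 𝓝ˢ K, χ x = 1) ∧ ∀ x, χ x ∈ Icc (0 : ℝ) 1 := by
  haveI : ProperSpace G := FiniteDimensional.proper ℝ G
  obtain ⟨L, hL, hKL, hLU⟩ := exists_compact_between hK hU hKU
  obtain ⟨f, h1, h0, hf⟩ := exists_contMDiffMap_one_nhds_of_subset_interior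
    (I := 𝓘(ℝ, G)) (n := (⊤ : ℕ∞)) hK.isClosed hKL
  have hsub : tsupport f ⊆ L := by
    refine closure_minimal (fun x hx => ?_) hL.isClosed
    by_contra h
    exact hx (h0 x h)
  refine ⟨f, ?_, ?_, hsub.trans hLU, h1, hf⟩
  · exact f.contMDiff.contDiff
  · exact hL.of_isClosed_subset (isClosed_tsupport _) hsub

/-- extension of a `C^n` function given near a compact set -/
theorem exists_ext {n : ℕ∞} {K U : Set G} (hK : IsCompact K) (hU : IsOpen U) (hKU : K ⊆ U)
    {f : G → V} (hf : ContDiffOn ℝ n f U) :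
    ∃ g : G → V, ContDiff ℝ n g ∧ HasCompactSupport g ∧ ∀ᶠ x in 𝓝ˢ K, g x = f x := by
  obtain ⟨χ, hχ, hc, hs, h1, -⟩ := exists_chi hK hU hKU
  refine ⟨fun x => χ x • f x, ?_, ?_, ?_⟩
  · rw [contDiff_iff_contDiffAt]
    intro x
    by_cases hx : x ∈ U
    · exact (hχ.of_le (by exact_mod_cast le_top)).contDiffAt.smul (hf.contDiffAt (hU.mem_nhds hx))
    · have h2 : x ∉ tsupport χ := fun h => hx (hs h)
      have h3 : (fun x => χ x • f x) =ᶠ[𝓝 x] fun _ => 0 := by
        have := (isClosed_tsupport χ).isOpen_compl.mem_nhds h2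
        filter_upwards [this] with y hy
        rw [image_eq_zero_of_notMem_tsupport hy, zero_smul]
      exact contDiffAt_const.congr_of_eventuallyEq h3
  · exact hc.smul_right
  · filter_upwards [h1] with x hx
    rw [hx, one_smul]

/-- derivatives agree on `K` if the functions agree near `K` -/
lemma fderiv_eq_of_near {K : Set G} {f g : G → V} (h : ∀ᶠ x in 𝓝ˢ K, g x = f x) :
    ∀ᶠ x in 𝓝ˢ K, fderiv ℝ g x = fderiv ℝ f x := by
  have h2 : ∀ᶠ x in 𝓝ˢ K, ∀ᶠ y in 𝓝 x, g y = f y := by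
    rw [eventually_nhdsSet_iff_exists] at h ⊢
    obtain ⟨t, ht, hKt, hts⟩ := h
    exact ⟨t, ht, hKt, fun x hx => Filter.eventually_of_mem (ht.mem_nhds hx) hts⟩
  filter_upwards [h2] with x hx
  exact Filter.EventuallyEq.fderiv_eq hx

end cutoff

section test

variable {G : Type*} [NormedAddCommGroup G] [NormedSpace ℝ G] [FiniteDimensional ℝ G]

/-- **Test data from a function which is only `C^3` on an open `U ⊇ K`, `K` compact.** The test
function `g` is `C^3`, compactly supported, equal to `f` near `K`; its first and second derivatives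
agree with those of `f` near `K`. -/
theorem exists_test_on {K U : Set G} (hK : IsCompact K) (hU : IsOpen U) (hKU : K ⊆ U)
    {f : G → ℝ} (hf : ContDiffOn ℝ 3 f U) (e : G)
    {a : G → G} {Ka : ℝ} (hal : ∀ z z', ‖a z - a z'‖ ≤ Ka * ‖z - z'‖) (hab : ∀ z, ‖a z‖ ≤ Ka) :
    ∃ (C : ℝ) (g : G → ℝ), Test e a C g (fderiv ℝ g) (fun z => fderiv ℝ (fderiv ℝ g) z e e) ∧
      ContDiff ℝ 3 g ∧ HasCompactSupport g ∧
      ∀ᶠ z in 𝓝ˢ K, g z = f z ∧ fderiv ℝ g z = fderiv ℝ f z ∧
        fderiv ℝ (fderiv ℝ g) z = fderiv ℝ (fderiv ℝ f) z := by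
  obtain ⟨g, hg, hgc, hgf⟩ := exists_ext (n := 3) hK hU hKU hf
  obtain ⟨C, hC⟩ := exists_test (f := g) hg hgc e hal hab
  have h1 := fderiv_eq_of_near hgf
  have h2 := fderiv_eq_of_near h1
  refine ⟨C, g, hC, hg, hgc, ?_⟩
  filter_upwards [hgf, h1, h2] with z a b c
  exact ⟨a, b, c⟩

/-- the same with the pointwise conclusion on `K` and the generator -/
theorem exists_test_on' {K U : Set G} (hK : IsCompact K) (hU : IsOpen U) (hKU : K ⊆ U)
    {f : G → ℝ} (hf : ContDiffOn ℝ 3 f U) (e : G)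
    {a : G → G} {Ka : ℝ} (hal : ∀ z z', ‖a z - a z'‖ ≤ Ka * ‖z - z'‖) (hab : ∀ z, ‖a z‖ ≤ Ka) :
    ∃ (C : ℝ) (g : G → ℝ) (D : G → G →L[ℝ] ℝ) (H : G → ℝ), Test e a C g D H ∧
      ∀ z ∈ K, g z = f z ∧ D z = fderiv ℝ f z ∧ H z = fderiv ℝ (fderiv ℝ f) z e e ∧
        gen a D H z = fderiv ℝ (fderiv ℝ f) z e e / 2 + fderiv ℝ f z (a z) := by
  obtain ⟨C, g, hC, -, -, h⟩ := exists_test_on hK hU hKU hf e hal hab
  refine ⟨C, g, _, _, hC, fun z hz => ?_⟩
  obtain ⟨h0, h1, h2⟩ := h.self_of_nhdsSet z hz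
  refine ⟨h0, h1, by rw [h2], ?_⟩
  simp only [gen]
  rw [h1, h2]

end test

end Crest.Agent.R162.SM
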