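import Mathlib
import Crest.Agent.R162.OS
import Crest.Agent.R162.SM3

/-!
Row 162, node SM, part 4: Dynkin formula between stopping times, abstract state space.
-/

set_option autoImplicit false

namespace Crest.Agent.R162.SM

open MeasureTheory ProbabilityTheory Filter Set
open scoped NNReal ENNReal Topology

variable {Ω : Type*} {mΩ : MeasurableSpace Ω} {P : Measure Ω}
  {F : Filtration ℝ≥0 mΩ} {B : ℝ≥0 → Ω → ℝ}

/-- optional stopping for martingales dominated up to time `T + 1` -/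
theorem mart_stop_dom [IsFiniteMeasure P] {M : ℝ≥0 → Ω → ℝ} (hM : Martingale M F P)
    {T : ℝ≥0} {g : Ω → ℝ} (hg : Integrable g P)
    (hc : ∀ᵐ ω ∂P, Continuous fun t => M t ω)
    (hb : ∀ᵐ ω ∂P, ∀ t, t ≤ T + 1 → |M t ω| ≤ g ω)
    {σ τ : Ω → ℝ≥0} (hσ : OS.IsST F σ) (hτ : OS.IsST F τ) (hle : ∀ ω, σ ω ≤ τ ω)
    (hT : ∀ ω, τ ω ≤ T) {A : Set Ω} (hA : OS.EvST F σ A) :
    ∫ ω in A, M (τ ω) ω ∂P = ∫ ω in A, M (σ ω) ω ∂P := by
  refine le_antisymm (OS.super_stop_dom hM.supermartingale hg hc hb hσ hτ hle hT hA) ?_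
  have h := OS.super_stop_dom (M := -M) hM.submartingale.neg hg
    (by filter_upwards [hc] with ω hω using hω.neg)
    (by filter_upwards [hb] with ω hω t ht using (by simpa using hω t ht)) hσ hτ hle hT hA
  simp only [Pi.neg_apply, integral_neg] at h
  linarith

/-- `A ∈ F_σ` and `σ ≤ T` on `A` imply `A ∈ F_{σ ∧ T}` -/
lemma evST_min {σ : Ω → ℝ≥0} {A : Set Ω} (hA : OS.EvST F σ A) {T : ℝ≥0}
    (hT : ∀ ω ∈ A, σ ω ≤ T) : OS.EvST F (fun ω => min (σ ω) T) A := by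
  intro t
  by_cases h : T ≤ t
  · have e : A ∩ {ω | min (σ ω) T ≤ t} = A ∩ {ω | σ ω ≤ T} := by
      ext ω
      simp only [mem_inter_iff, mem_ofPred_eq]
      constructor
      · rintro ⟨h1, _⟩
        exact ⟨h1, hT ω h1⟩
      · rintro ⟨h1, _⟩
        exact ⟨h1, (min_le_right _ _).trans h⟩
    rw [e]
    exact F.mono h _ (hA T)
  · have e : A ∩ {ω | min (σ ω) T ≤ t} = A ∩ {ω | σ ω ≤ t} := by
      ext ω
      simp only [mem_inter_iff, mem_ofPred_eq, min_le_iff]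
      constructor
      · rintro ⟨h1, h2⟩
        exact ⟨h1, h2.resolve_right h⟩
      · rintro ⟨h1, h2⟩
        exact ⟨h1, Or.inl h2⟩
    rw [e]
    exact hA t

lemma measurable_at {E : Type*} [TopologicalSpace E] [TopologicalSpace.PseudoMetrizableSpace E]
    [MeasurableSpace E] [BorelSpace E] {X : ℝ≥0 → Ω → E} (hc : ∀ ω, Continuous fun t => X t ω)
    (hm : ∀ t, Measurable (X t)) {τ : Ω → ℝ≥0} (hτ : Measurable τ) :
    Measurable fun ω => X (τ ω) ω := by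
  have h := measurable_uncurry_of_continuous_of_measurable (u := X) hc hm
  exact h.comp (hτ.prodMk measurable_id)

variable {G : Type*} [NormedAddCommGroup G] [NormedSpace ℝ G] [CompleteSpace G]
  [MeasurableSpace G] [BorelSpace G] [SecondCountableTopology G]
  {e : G} {a : G → G} {C : ℝ} {f : G → ℝ} {D : G → G →L[ℝ] ℝ} {H : G → ℝ} {Z : ℝ≥0 → Ω → G}

/-- integrability of `f (Z_τ)` -/
lemma Test.integrable_at (h : Test e a C f D H) (hB : BMF F B P) (hZ : IsState F B e a Z)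
    {τ : Ω → ℝ≥0} (hτ : Measurable τ) : Integrable (fun ω => f (Z (τ ω) ω)) P := by
  have := hB.isProb
  refine Integrable.of_bound (C := C)
    (h.f_cont.measurable.comp
      (measurable_at hZ.cont hZ.measurable hτ)).aestronglyMeasurable ?_
  exact Eventually.of_forall fun ω => h.f_bdd _

/-- the additive functional is measurable -/
lemma Test.measurable_int (h : Test e a C f D H) (hZ : IsState F B e a Z)
    {σ τ : Ω → ℝ≥0} (hσ : Measurable σ) (hτ : Measurable τ) :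
    Measurable fun ω => ∫ r in (σ ω : ℝ)..(τ ω : ℝ), gen a D H (Z r.toNNReal ω) := by
  have hg : ∀ ω, Continuous fun r : ℝ => gen a D H (Z r.toNNReal ω) := fun ω =>
    h.gen_cont.comp ((hZ.cont ω).comp continuous_real_toNNReal)
  have h1 : ∀ ρ : Ω → ℝ≥0, Measurable ρ →
      Measurable fun ω => ∫ r in (0 : ℝ)..(ρ ω : ℝ), gen a D H (Z r.toNNReal ω) := by
    intro ρ hρ
    refine measurable_at (X := fun (t : ℝ≥0) ω => ∫ r in (0 : ℝ)..(t : ℝ),
      gen a D H (Z r.toNNReal ω)) (fun ω => ?_) (fun t => ?_) hρ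
    · have : Continuous fun y : ℝ => ∫ r in (0 : ℝ)..y, gen a D H (Z r.toNNReal ω) :=
        intervalIntegral.continuous_primitive (fun _ _ => (hg ω).intervalIntegrable _ _) 0
      exact this.comp NNReal.continuous_coe
    · exact measurable_path_integral mΩ hg
        (fun r => h.gen_cont.measurable.comp (hZ.measurable _)) 0 t
  have e : (fun ω => ∫ r in (σ ω : ℝ)..(τ ω : ℝ), gen a D H (Z r.toNNReal ω)) =
      fun ω => (∫ r in (0 : ℝ)..(τ ω : ℝ), gen a D H (Z r.toNNReal ω)) -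
        ∫ r in (0 : ℝ)..(σ ω : ℝ), gen a D H (Z r.toNNReal ω) := by
    funext ω
    have := intervalIntegral.integral_add_adjacent_intervals (μ := volume)
      ((hg ω).intervalIntegrable 0 (σ ω)) ((hg ω).intervalIntegrable (σ ω) (τ ω))
    linarith
  rw [e]
  exact (h1 τ hτ).sub (h1 σ hσ)

omit [CompleteSpace G] [MeasurableSpace G] [BorelSpace G] [SecondCountableTopology G] in
lemma Test.abs_int_le (h : Test e a C f D H) {s t : ℝ≥0} (hst : s ≤ t) (ω : Ω) :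
    |∫ r in (s : ℝ)..(t : ℝ), gen a D H (Z r.toNNReal ω)| ≤ (C + C ^ 2) * t := by
  have h1 := intervalIntegral.norm_integral_le_of_norm_le_const
    (a := (s : ℝ)) (b := t) (C := C + C ^ 2) (f := fun r => gen a D H (Z r.toNNReal ω))
    (fun r _ => h.gen_bdd _)
  have hst' : (s : ℝ) ≤ t := NNReal.coe_le_coe.2 hst
  rw [abs_of_nonneg (sub_nonneg.2 hst'), Real.norm_eq_abs] at h1
  refine h1.trans (mul_le_mul_of_nonneg_left (by linarith [s.2]) ?_)
  exact (abs_nonneg _).trans (h.gen_bdd 0)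

/-- integrability of the additive functional on `A` -/
lemma Test.integrableOn_int (h : Test e a C f D H) (hB : BMF F B P) (hZ : IsState F B e a Z)
    {σ τ : Ω → ℝ≥0} (hσ : Measurable σ) (hτ : Measurable τ) {A : Set Ω} (hA : MeasurableSet A)
    (hle : ∀ ω ∈ A, σ ω ≤ τ ω) {T : ℝ≥0} (hT : ∀ ω ∈ A, τ ω ≤ T) :
    IntegrableOn (fun ω => ∫ r in (σ ω : ℝ)..(τ ω : ℝ), gen a D H (Z r.toNNReal ω)) A P := by
  have := hB.isProb
  refine IntegrableOn.of_bound (C := (C + C ^ 2) * T) (measure_lt_top _ _)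
    (h.measurable_int hZ hσ hτ).aestronglyMeasurable.restrict ?_
  filter_upwards [ae_restrict_mem hA] with ω hω
  rw [Real.norm_eq_abs]
  refine (h.abs_int_le (hle ω hω) ω).trans (mul_le_mul_of_nonneg_left ?_ ?_)
  · exact_mod_cast hT ω hω
  · exact (abs_nonneg _).trans (h.gen_bdd 0)

/-- **Dynkin formula between stopping times** for test data. -/
theorem Test.dynkin (h : Test e a C f D H) (hB : BMF F B P) (hZ : IsState F B e a Z)
    {σ τ : Ω → ℝ≥0} (hσ : OS.IsST F σ) (hτ : OS.IsST F τ) {A : Set Ω} (hA : OS.EvST F σ A)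
    (hle : ∀ ω ∈ A, σ ω ≤ τ ω) {T : ℝ≥0} (hT : ∀ ω ∈ A, τ ω ≤ T) :
    ∫ ω in A, f (Z (τ ω) ω) ∂P = ∫ ω in A, f (Z (σ ω) ω) ∂P
      + ∫ ω in A, (∫ r in (σ ω : ℝ)..(τ ω : ℝ), gen a D H (Z r.toNNReal ω)) ∂P := by
  have := hB.isProb
  have hAm : MeasurableSet A := hA.measurableSet
  set σ' : Ω → ℝ≥0 := fun ω => min (σ ω) T with hσ'
  set τ' : Ω → ℝ≥0 := fun ω => min (max (σ ω) (τ ω)) T with hτ'
  have hσs : OS.IsST F σ' := hσ.min (OS.IsST.const T)
  have hτs : OS.IsST F τ' := (hσ.max hτ).min (OS.IsST.const T)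
  have hA' : OS.EvST F σ' A := evST_min hA fun ω hω => (hle ω hω).trans (hT ω hω)
  have e1 : ∀ ω ∈ A, σ' ω = σ ω := fun ω hω => min_eq_left ((hle ω hω).trans (hT ω hω))
  have e2 : ∀ ω ∈ A, τ' ω = τ ω := fun ω hω => by
    simp only [hτ', max_eq_right (hle ω hω), min_eq_left (hT ω hω)]
  have hb : ∀ ω (t : ℝ≥0), t ≤ T + 1 → |mart a f D H Z t ω| ≤ C + (C + C ^ 2) * (T + 1) := by
    intro ω t ht
    refine (h.mart_bdd t ω).trans ?_
    have h1 : 0 ≤ C + C ^ 2 := (abs_nonneg _).trans (h.gen_bdd 0)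
    have h2 : (t : ℝ) ≤ T + 1 := by exact_mod_cast ht
    have := mul_le_mul_of_nonneg_left h2 h1
    linarith
  have key := mart_stop_dom (h.martingale hB hZ) (T := T)
    (g := fun _ => C + (C + C ^ 2) * (T + 1)) (integrable_const _)
    (Eventually.of_forall fun ω => h.mart_cont hZ.cont ω)
    (Eventually.of_forall fun ω t ht => hb ω t ht) hσs hτs
    (fun ω => min_le_min (le_max_left _ _) le_rfl) (fun ω => min_le_right _ _) hA'
  have e3 : ∫ ω in A, mart a f D H Z (τ' ω) ω ∂P = ∫ ω in A, mart a f D H Z (τ ω) ω ∂P :=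
    setIntegral_congr_fun hAm fun ω hω => by simp only [e2 ω hω]
  have e4 : ∫ ω in A, mart a f D H Z (σ' ω) ω ∂P = ∫ ω in A, mart a f D H Z (σ ω) ω ∂P :=
    setIntegral_congr_fun hAm fun ω hω => by simp only [e1 ω hω]
  rw [e3, e4] at key
  have iτ := (h.integrable_at hB hZ hτ.measurable).integrableOn (s := A)
  have iσ := (h.integrable_at hB hZ hσ.measurable).integrableOn (s := A)
  have iI := h.integrableOn_int hB hZ hσ.measurable hτ.measurable hAm hle hT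
  have i0τ : IntegrableOn (fun ω => ∫ r in (0 : ℝ)..(τ ω : ℝ), gen a D H (Z r.toNNReal ω)) A P := by
    have := h.integrableOn_int hB hZ (σ := fun _ => 0) measurable_const hτ.measurable hAm
      (fun ω _ => zero_le) hT
    simpa using this
  have i0σ : IntegrableOn (fun ω => ∫ r in (0 : ℝ)..(σ ω : ℝ), gen a D H (Z r.toNNReal ω)) A P := by
    have := h.integrableOn_int hB hZ (σ := fun _ => 0) measurable_const hσ.measurable hAm
      (fun ω _ => zero_le) (T := T) (fun ω hω => (hle ω hω).trans (hT ω hω))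
    simpa using this
  have e5 : ∫ ω in A, (∫ r in (σ ω : ℝ)..(τ ω : ℝ), gen a D H (Z r.toNNReal ω)) ∂P =
      (∫ ω in A, (∫ r in (0 : ℝ)..(τ ω : ℝ), gen a D H (Z r.toNNReal ω)) ∂P) -
      ∫ ω in A, (∫ r in (0 : ℝ)..(σ ω : ℝ), gen a D H (Z r.toNNReal ω)) ∂P := by
    rw [← integral_sub i0τ i0σ]
    congr 1
    funext ω
    have hg : Continuous fun r : ℝ => gen a D H (Z r.toNNReal ω) :=
      h.gen_cont.comp ((hZ.cont ω).comp continuous_real_toNNReal)
    have := intervalIntegral.integral_add_adjacent_intervals (μ := volume)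
      (hg.intervalIntegrable 0 (σ ω)) (hg.intervalIntegrable (σ ω) (τ ω))
    linarith
  have e6 : ∫ ω in A, mart a f D H Z (τ ω) ω ∂P = (∫ ω in A, f (Z (τ ω) ω) ∂P) -
      ∫ ω in A, (∫ r in (0 : ℝ)..(τ ω : ℝ), gen a D H (Z r.toNNReal ω)) ∂P :=
    integral_sub iτ i0τ
  have e7 : ∫ ω in A, mart a f D H Z (σ ω) ω ∂P = (∫ ω in A, f (Z (σ ω) ω) ∂P) -
      ∫ ω in A, (∫ r in (0 : ℝ)..(σ ω : ℝ), gen a D H (Z r.toNNReal ω)) ∂P :=
    integral_sub iσ i0σ
  rw [e6, e7] at key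
  rw [e5]
  linarith

/-- **Dynkin formula between stopping times**, `f` only `C^3` near a compact `K` in which the
process stays on `[σ, τ]` (on `A`). -/
theorem dynkin_on [FiniteDimensional ℝ G] (hB : BMF F B P) (hZ : IsState F B e a Z)
    {Ka : ℝ} (hal : ∀ z z', ‖a z - a z'‖ ≤ Ka * ‖z - z'‖) (hab : ∀ z, ‖a z‖ ≤ Ka)
    {K U : Set G} (hK : IsCompact K) (hU : IsOpen U) (hKU : K ⊆ U) (hf : ContDiffOn ℝ 3 f U)
    {σ τ : Ω → ℝ≥0} (hσ : OS.IsST F σ) (hτ : OS.IsST F τ) {A : Set Ω} (hA : OS.EvST F σ A)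
    (hle : ∀ ω ∈ A, σ ω ≤ τ ω) {T : ℝ≥0} (hT : ∀ ω ∈ A, τ ω ≤ T)
    (hst : ∀ ω ∈ A, ∀ t : ℝ≥0, σ ω ≤ t → t ≤ τ ω → Z t ω ∈ K) :
    ∫ ω in A, f (Z (τ ω) ω) ∂P = ∫ ω in A, f (Z (σ ω) ω) ∂P
      + ∫ ω in A, (∫ r in (σ ω : ℝ)..(τ ω : ℝ),
          (fderiv ℝ (fderiv ℝ f) (Z r.toNNReal ω) e e / 2
            + fderiv ℝ f (Z r.toNNReal ω) (a (Z r.toNNReal ω)))) ∂P := by
  obtain ⟨C, g, D, H, hg, hgK⟩ := exists_test_on' hK hU hKU hf e hal hab
  have hAm : MeasurableSet A := hA.measurableSet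
  have key := hg.dynkin hB hZ hσ hτ hA hle hT
  have e1 : ∫ ω in A, g (Z (τ ω) ω) ∂P = ∫ ω in A, f (Z (τ ω) ω) ∂P :=
    setIntegral_congr_fun hAm fun ω hω => (hgK _ (hst ω hω _ (hle ω hω) le_rfl)).1
  have e2 : ∫ ω in A, g (Z (σ ω) ω) ∂P = ∫ ω in A, f (Z (σ ω) ω) ∂P :=
    setIntegral_congr_fun hAm fun ω hω => (hgK _ (hst ω hω _ le_rfl (hle ω hω))).1
  have e3 : ∫ ω in A, (∫ r in (σ ω : ℝ)..(τ ω : ℝ), gen a D H (Z r.toNNReal ω)) ∂P =
      ∫ ω in A, (∫ r in (σ ω : ℝ)..(τ ω : ℝ),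
          (fderiv ℝ (fderiv ℝ f) (Z r.toNNReal ω) e e / 2
            + fderiv ℝ f (Z r.toNNReal ω) (a (Z r.toNNReal ω)))) ∂P := by
    refine setIntegral_congr_fun hAm fun ω hω => ?_
    refine intervalIntegral.integral_congr fun r hr => ?_
    have h1 : (σ ω : ℝ) ≤ τ ω := NNReal.coe_le_coe.2 (hle ω hω)
    rw [uIcc_of_le h1] at hr
    have h0 : 0 ≤ r := (NNReal.coe_nonneg _).trans hr.1
    refine (hgK _ (hst ω hω _ ?_ ?_)).2.2.2
    · rw [← NNReal.coe_le_coe, Real.coe_toNNReal r h0]; exact hr.1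
    · rw [← NNReal.coe_le_coe, Real.coe_toNNReal r h0]; exact hr.2
  rw [e1, e2, e3] at key
  exact key

end Crest.Agent.R162.SM
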