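import Mathlib
import Crest.Agent.R162.RadCore

/-!
Row 162, node SUPG (helper613), abstract core: a nonnegative function of the state with
`gen Φ ≤ 0` is a supermartingale up to the lifetime, at every finite stopping time.
-/

set_option autoImplicit false

open MeasureTheory ProbabilityTheory Filter Set
open scoped NNReal ENNReal Topology

namespace Crest.Agent.R162.SUPG

open Crest.Agent.R162.OS Crest.Agent.R162.Rad

variable {Ω : Type*} {m : MeasurableSpace Ω} {F : Filtration ℝ≥0 m} {P : Measure Ω}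
  {gen : (St → ℝ) → St → ℝ} {s₀ : ℝ}

lemma IsST_min {σ τ : Ω → ℝ≥0} (hσ : IsST F σ) (hτ : IsST F τ) :
    IsST F (fun ω => min (σ ω) (τ ω)) := by
  intro t
  have : {ω | min (σ ω) (τ ω) ≤ t} = {ω | σ ω ≤ t} ∪ {ω | τ ω ≤ t} := by
    ext ω; simp
  rw [this]
  exact (hσ t).union (hτ t)

lemma IsST_zero : IsST F (fun _ : Ω => (0 : ℝ≥0)) := by
  intro t
  simp

lemma measurable_indicator_Phi {Φ : St → ℝ} (hΦ : ContinuousOn Φ {p : St | 0 < p.2.1}) :
    Measurable ({p : St | 0 < p.2.1}.indicator Φ) := by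
  have hop : IsOpen {p : St | 0 < p.2.1} := isOpen_lt continuous_const (by fun_prop)
  classical
  have := ContinuousOn.measurable_piecewise (s := {p : St | 0 < p.2.1}) (f := Φ)
    (g := (0 : St → ℝ)) hΦ continuousOn_const hop.measurableSet
  rwa [piecewise_eq_indicator] at this

variable (D : OneP F P gen s₀)

/-- measurability of `Φ(st_τ)` on a measurable set of paths alive at `τ` -/
lemma measurable_Phi_at {τ : Ω → ℝ≥0} (hτ : IsST F τ) {B : Set Ω} (hB : MeasurableSet B)
    (hal : ∀ ω ∈ B, D.al (τ ω) ω) {Φ : St → ℝ} (hΦ : ContinuousOn Φ {p : St | 0 < p.2.1}) :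
    Measurable (B.indicator fun ω => Φ (D.st (τ ω) ω)) := by
  have h1 := D.measurable_at hτ hB hal
  have h2 : (B.indicator fun ω => Φ (D.st (τ ω) ω)) =
      B.indicator (fun ω => {p : St | 0 < p.2.1}.indicator Φ
        (B.indicator (fun ω => D.st (τ ω) ω) ω)) := by
    ext ω
    by_cases hω : ω ∈ B
    · simp only [indicator_of_mem hω]
      rw [indicator_of_mem]
      exact D.y_pos ω _ (hal ω hω)
    · simp only [indicator_of_notMem hω]
  rw [h2]
  exact ((measurable_indicator_Phi hΦ).comp h1).indicator hB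

/-- **Supermartingale property up to the lifetime**, at an arbitrary finite stopping time. -/
theorem supg_core [IsFiniteMeasure P] {Φ : St → ℝ}
    (hΦ : ContDiffOn ℝ 3 Φ {p : St | 0 < p.2.1})
    (hpos : ∀ p : St, 0 < p.2.1 → 0 ≤ Φ p)
    (hgen : ∀ p : St, 0 < p.2.1 → gen Φ p ≤ 0)
    {τ : Ω → ℝ≥0} (hτ : IsST F τ) :
    ∫⁻ ω, {ω | D.al (τ ω) ω}.indicator (fun ω => ENNReal.ofReal (Φ (D.st (τ ω) ω))) ω ∂P ≤
      ∫⁻ ω, ENNReal.ofReal (Φ (D.st 0 ω)) ∂P := by
  have hΦc : ContinuousOn Φ {p : St | 0 < p.2.1} := hΦ.continuousOn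
  -- the localised stopping times
  set ρ : ℕ → Ω → ℝ≥0 := fun n ω => min (τ ω) (D.e n ω) with hρ
  have hρST : ∀ n, IsST F (ρ n) := fun n => IsST_min hτ (D.e_ST n)
  have hρal : ∀ n ω, D.al (ρ n ω) ω ∧ D.st (ρ n ω) ω ∈ D.KK n := fun n ω =>
    D.e_KK n ω _ (min_le_right _ _)
  have h0al : ∀ ω, D.al 0 ω := fun ω => (D.e_KK 0 ω 0 (zero_le)).1
  have hmeas : ∀ n, Measurable fun ω => Φ (D.st (ρ n ω) ω) := by
    intro n
    have := measurable_Phi_at D (hρST n) MeasurableSet.univ (fun ω _ => (hρal n ω).1) hΦc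
    simpa only [indicator_univ] using this
  have hmeas0 : Measurable fun ω => Φ (D.st 0 ω) := by
    have := measurable_Phi_at D (IsST_zero (F := F)) MeasurableSet.univ (fun ω _ => h0al ω) hΦc
    simpa only [indicator_univ] using this
  -- one step
  have step : ∀ n, ∫⁻ ω, ENNReal.ofReal (Φ (D.st (ρ n ω) ω)) ∂P ≤
      ∫⁻ ω, ENNReal.ofReal (Φ (D.st 0 ω)) ∂P := by
    intro n
    obtain ⟨T, hT⟩ := D.e_le n
    have hopm := D.opm Φ (D.KK n) hΦ (D.KK_compact n) (D.KK_pos n)
      (fun p hp => hgen p (D.KK_pos n p hp)) (fun _ => 0) (ρ n) IsST_zero (hρST n) T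
      (fun ω => (min_le_right _ _).trans (hT ω)) Set.univ
      (by intro t; simp) (by
        intro ω _
        refine ⟨zero_le, fun t _ h2 => ?_⟩
        exact D.e_KK n ω t (h2.trans (min_le_right _ _)))
    simp only [Measure.restrict_univ] at hopm
    obtain ⟨C, hC⟩ := (D.KK_compact n).exists_bound_of_continuousOn
      (hΦc.mono fun p hp => D.KK_pos n p hp)
    have hint : Integrable (fun ω => Φ (D.st (ρ n ω) ω)) P :=
      Integrable.of_bound (hmeas n).aestronglyMeasurable C
        (Eventually.of_forall fun ω => hC _ (hρal n ω).2)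
    have hint0 : Integrable (fun ω => Φ (D.st 0 ω)) P :=
      Integrable.of_bound hmeas0.aestronglyMeasurable C
        (Eventually.of_forall fun ω => hC _ (D.e_KK n ω 0 (zero_le)).2)
    rw [← ofReal_integral_eq_lintegral_ofReal hint
        (Eventually.of_forall fun ω => hpos _ (D.y_pos ω _ (hρal n ω).1)),
      ← ofReal_integral_eq_lintegral_ofReal hint0
        (Eventually.of_forall fun ω => hpos _ (D.y_pos ω _ (h0al ω)))]
    exact ENNReal.ofReal_le_ofReal hopm
  -- Fatou
  calc ∫⁻ ω, {ω | D.al (τ ω) ω}.indicator (fun ω => ENNReal.ofReal (Φ (D.st (τ ω) ω))) ω ∂P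
      ≤ ∫⁻ ω, liminf (fun n => ENNReal.ofReal (Φ (D.st (ρ n ω) ω))) atTop ∂P := by
        refine lintegral_mono fun ω => ?_
        by_cases hω : D.al (τ ω) ω
        · have hmem : ω ∈ {ω | D.al (τ ω) ω} := hω
          simp only [indicator_of_mem hmem]
          obtain ⟨n, hn⟩ := D.e_exh ω _ hω
          have hev : ∀ᶠ k in atTop, ENNReal.ofReal (Φ (D.st (ρ k ω) ω)) =
              ENNReal.ofReal (Φ (D.st (τ ω) ω)) := by
            filter_upwards [eventually_ge_atTop n] with k hk
            have : ρ k ω = τ ω := min_eq_left (hn.le.trans (D.e_mono ω hk))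
            rw [this]
          rw [liminf_congr hev, liminf_const]
        · have hmem : ω ∉ {ω | D.al (τ ω) ω} := hω
          simp only [indicator_of_notMem hmem]
          exact zero_le
    _ ≤ liminf (fun n => ∫⁻ ω, ENNReal.ofReal (Φ (D.st (ρ n ω) ω)) ∂P) atTop :=
        lintegral_liminf_le fun n => (hmeas n).ennreal_ofReal
    _ ≤ ∫⁻ ω, ENNReal.ofReal (Φ (D.st 0 ω)) ∂P := by
        refine liminf_le_of_le (by isBoundedDefault) fun b hb => ?_
        obtain ⟨n, hn⟩ := hb.exists
        exact hn.trans (step n)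

end Crest.Agent.R162.SUPG
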