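import Mathlib
import Crest.Prelude.Def_Loewner
import Crest.Agent.R162.Rad
import Crest.Agent.R162.SUPG
import Crest.Agent.R162.SUPGb

/-!
Row 162, node SUPG (helper613), final form: the Green process is a supermartingale.
-/

set_option autoImplicit false

open MeasureTheory ProbabilityTheory Filter Set
open scoped NNReal ENNReal Topology

namespace Crest.Agent.R162.SUPG

open Crest.Agent.R162.FL Crest.Agent.R162.OS Crest.Agent.R162.OP Crest.Agent.R162.UB
open Crest.Agent.R162.Rad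
open Crest.ProbabilityR.Loewner

universe u

variable {Ω : Type u} {m : MeasurableSpace Ω} {P : Measure Ω} [IsProbabilityMeasure P]
  {F : Filtration ℝ≥0 m} {B : ℝ≥0 → Ω → ℝ} {κ : ℝ}

/-- general form: a nonnegative function of the state with nonpositive generator. -/
theorem super_state (hM : OPM.{u}) (hB : IsBM F B P) (hκ : 0 < κ) {z : ℂ} (hz : 0 < z.im)
    {Φ : ℝ × ℝ × ℝ × ℝ → ℝ} (hΦ : ContDiffOn ℝ 3 Φ {p | 0 < p.2.1})
    (hpos : ∀ p : ℝ × ℝ × ℝ × ℝ, 0 < p.2.1 → 0 ≤ Φ p)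
    (hgen : ∀ p : ℝ × ℝ × ℝ × ℝ, 0 < p.2.1 → gen κ Φ p ≤ 0)
    {τ : Ω → ℝ≥0} (hτ : IsST F τ) :
    ∫⁻ ω, {ω | AliveP κ B z (τ ω) ω}.indicator
        (fun ω => ENNReal.ofReal (Φ (stP κ B z (τ ω) ω))) ω ∂P ≤
      ENNReal.ofReal (Φ (z.re, z.im, Real.log z.im, 0)) := by
  have h := supg_core (oneP hM hB hκ hz) hΦ hpos hgen hτ
  refine h.trans (le_of_eq ?_)
  have h0 : ∀ ω, (oneP hM hB hκ hz).st 0 ω = (z.re, z.im, Real.log z.im, 0) := by
    intro ω
    show stW (driving κ B ω) ((0 : ℝ≥0) : ℝ) z = _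
    rw [NNReal.coe_zero]
    unfold stW
    have hW : driving κ B ω 0 = 0 := by simp [driving, hB.zero ω]
    rw [ups_zero hz]
    simp only [Zfl, gfl_zero hz, hW, Complex.ofReal_zero, sub_zero, ath,
      intervalIntegral.integral_same]
  simp only [h0, lintegral_const, measure_univ, mul_one]

/-- **Node SUPG.** -/
theorem supg (hM : OPM.{u}) (hB : IsBM F B P) (hκ : 0 < κ) (hκ8 : κ < 8) {z : ℂ}
    (hz : 0 < z.im) {τ : Ω → ℝ≥0} (hτ : IsST F τ) :
    ∫⁻ ω, ENNReal.ofReal (gr κ (driving κ B ω) (τ ω) z) ∂P ≤ ENNReal.ofReal (green κ z) := by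
  have h := super_state hM hB hκ hz (Φ := Gq κ) contDiffOn_Gq (fun p hp => (Gq_pos hp).le)
    (fun p hp => (gen_Gq hκ hp).le) hτ
  have h1 : (∫⁻ ω, ENNReal.ofReal (gr κ (driving κ B ω) (τ ω) z) ∂P) =
      ∫⁻ ω, {ω | AliveP κ B z (τ ω) ω}.indicator
        (fun ω => ENNReal.ofReal (Gq κ (stP κ B z (τ ω) ω))) ω ∂P := by
    refine lintegral_congr fun ω => ?_
    by_cases hω : AliveP κ B z (τ ω) ω
    · rw [indicator_of_mem (show ω ∈ {ω | AliveP κ B z (τ ω) ω} from hω)]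
      rw [gr_eq_Gq hω]
      rfl
    · rw [indicator_of_notMem (show ω ∉ {ω | AliveP κ B z (τ ω) ω} from hω)]
      rw [gr_of_dead hκ8 hω, ENNReal.ofReal_zero]
  rw [h1]
  refine h.trans (le_of_eq ?_)
  congr 1
  have h2 := Gq_stW_zero (κ := κ) (W := fun _ => 0) rfl hz
  rw [← h2]
  unfold stW
  rw [ups_zero hz]
  simp only [Zfl, gfl_zero hz, Complex.ofReal_zero, sub_zero, ath,
    intervalIntegral.integral_same]

end Crest.Agent.R162.SUPG
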