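import Mathlib
import Crest.Prelude.Def_Loewner
import Crest.Agent.R162.Rad
import Crest.Agent.R162.SUPG
import Crest.Agent.R162.SUPGb
import Crest.Agent.R162.SUPGf
import Crest.Agent.R162.OS

/-!
Row 162, node SUPG (helper613): the supermartingale inequality between two stopping times
`σ ≤ τ` on an event `A ∈ F_σ`.
-/

set_option autoImplicit false

open MeasureTheory ProbabilityTheory Filter Set
open scoped NNReal ENNReal Topology

namespace Crest.Agent.R162.SUPG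

open Crest.Agent.R162.OS Crest.Agent.R162.Rad

section core

variable {Ω : Type*} {m : MeasurableSpace Ω} {F : Filtration ℝ≥0 m} {P : Measure Ω}
  {gen : (St → ℝ) → St → ℝ} {s₀ : ℝ}

/-- `A ∩ {σ < ρ}` is in the past of `min σ ρ`. -/
lemma EvST_cut {σ ρ : Ω → ℝ≥0} (hσ : IsST F σ) (hρ : IsST F ρ) {A : Set Ω} (hA : EvST F σ A) :
    EvST F (fun ω => min (σ ω) (ρ ω)) (A ∩ {ω | σ ω < ρ ω}) := by
  intro t
  have : A ∩ {ω | σ ω < ρ ω} ∩ {ω | min (σ ω) (ρ ω) ≤ t} =
      (A ∩ {ω | σ ω ≤ t}) ∩ ({ω | ρ ω ≤ t}ᶜ ∪ ⋃ q ∈ {q : ℚ | 0 ≤ q ∧ Real.toNNReal q ≤ t},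
        ({ω | σ ω ≤ Real.toNNReal q} ∩ {ω | ρ ω ≤ Real.toNNReal q}ᶜ)) := by
    ext ω
    simp only [mem_inter_iff, mem_ofPred_eq, mem_union, mem_compl_iff, mem_iUnion, not_le,
      exists_prop]
    constructor
    · rintro ⟨⟨hA1, hlt⟩, hle⟩
      rw [min_eq_left hlt.le] at hle
      refine ⟨⟨hA1, hle⟩, ?_⟩
      rcases lt_or_ge t (ρ ω) with h3 | h3
      · exact Or.inl h3
      · right
        obtain ⟨q, hq1, hq2⟩ := exists_rat_btwn (show (σ ω : ℝ) < ρ ω from hlt)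
        have hq0 : (0:ℝ) ≤ q := (NNReal.coe_nonneg _).trans hq1.le
        have hqe : Real.toNNReal q < ρ ω := by
          rw [← NNReal.coe_lt_coe, Real.coe_toNNReal _ hq0]; exact hq2
        have hqσ : σ ω ≤ Real.toNNReal q := by
          rw [← NNReal.coe_le_coe, Real.coe_toNNReal _ hq0]; exact hq1.le
        exact ⟨q, ⟨by exact_mod_cast hq0, hqe.le.trans h3⟩, hqσ, hqe⟩
    · rintro ⟨⟨hA1, hle⟩, h | ⟨q, ⟨_, hqt⟩, h2, h3⟩⟩
      · exact ⟨⟨hA1, hle.trans_lt h⟩, (min_le_left _ _).trans hle⟩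
      · exact ⟨⟨hA1, h2.trans_lt h3⟩, (min_le_left _ _).trans hle⟩
  rw [this]
  refine (hA t).inter (MeasurableSet.union (hρ t).compl ?_)
  refine MeasurableSet.biUnion (Set.to_countable _) fun q hq => ?_
  exact F.mono hq.2 _ ((hσ _).inter (hρ _).compl)

variable (D : OneP F P gen s₀)

/-- `{al at σ}` is measurable -/
lemma measurableSet_al {σ : Ω → ℝ≥0} (hσ : IsST F σ) : MeasurableSet {ω | D.al (σ ω) ω} := by
  have hσm : Measurable σ := measurable_of_Iic fun t => F.le t _ (hσ t)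
  have : {ω | D.al (σ ω) ω} = ⋃ n : ℕ, {ω | σ ω < D.e n ω} := by
    ext ω
    simp only [mem_ofPred_eq, mem_iUnion]
    constructor
    · intro h
      obtain ⟨n, hn⟩ := D.e_exh ω _ h
      exact ⟨n, hn⟩
    · rintro ⟨n, hn⟩
      exact (D.e_KK n ω _ hn.le).1
  rw [this]
  refine MeasurableSet.iUnion fun n => ?_
  exact measurableSet_lt hσm (measurable_of_Iic fun t => F.le t _ (D.e_ST n t))

/-- **Supermartingale inequality between two stopping times.** -/
theorem super_two [IsFiniteMeasure P] {Φ : St → ℝ}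
    (hΦ : ContDiffOn ℝ 3 Φ {p : St | 0 < p.2.1})
    (hpos : ∀ p : St, 0 < p.2.1 → 0 ≤ Φ p)
    (hgen : ∀ p : St, 0 < p.2.1 → gen Φ p ≤ 0)
    {σ τ : Ω → ℝ≥0} (hσ : IsST F σ) (hτ : IsST F τ) {A : Set Ω} (hA : EvST F σ A)
    (hle : ∀ ω ∈ A, σ ω ≤ τ ω) :
    ∫⁻ ω in A, {ω | D.al (τ ω) ω}.indicator (fun ω => ENNReal.ofReal (Φ (D.st (τ ω) ω))) ω ∂P ≤
      ∫⁻ ω in A, {ω | D.al (σ ω) ω}.indicator
        (fun ω => ENNReal.ofReal (Φ (D.st (σ ω) ω))) ω ∂P := by
  have hΦc : ContinuousOn Φ {p : St | 0 < p.2.1} := hΦ.continuousOn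
  have hAm : MeasurableSet A := hA.measurableSet
  set ρ : ℕ → Ω → ℝ≥0 := fun n ω => min (τ ω) (D.e n ω) with hρ
  set σ' : ℕ → Ω → ℝ≥0 := fun n ω => min (σ ω) (D.e n ω) with hσ'
  set A' : ℕ → Set Ω := fun n => A ∩ {ω | σ ω < D.e n ω} with hA'
  have hρST : ∀ n, IsST F (ρ n) := fun n => IsST_min hτ (D.e_ST n)
  have hσST : ∀ n, IsST F (σ' n) := fun n => IsST_min hσ (D.e_ST n)
  have hA'ev : ∀ n, EvST F (σ' n) (A' n) := fun n => EvST_cut hσ (D.e_ST n) hA
  have hA'm : ∀ n, MeasurableSet (A' n) := fun n => (hA'ev n).measurableSet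
  have hρal : ∀ n ω, D.al (ρ n ω) ω ∧ D.st (ρ n ω) ω ∈ D.KK n := fun n ω =>
    D.e_KK n ω _ (min_le_right _ _)
  have hσal : ∀ n ω, D.al (σ' n ω) ω ∧ D.st (σ' n ω) ω ∈ D.KK n := fun n ω =>
    D.e_KK n ω _ (min_le_right _ _)
  have hmeas : ∀ n, Measurable fun ω => Φ (D.st (ρ n ω) ω) := by
    intro n
    have := measurable_Phi_at D (hρST n) MeasurableSet.univ (fun ω _ => (hρal n ω).1) hΦc
    simpa only [indicator_univ] using this
  have hmeas' : ∀ n, Measurable fun ω => Φ (D.st (σ' n ω) ω) := by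
    intro n
    have := measurable_Phi_at D (hσST n) MeasurableSet.univ (fun ω _ => (hσal n ω).1) hΦc
    simpa only [indicator_univ] using this
  set R : ℝ≥0∞ := ∫⁻ ω in A, {ω | D.al (σ ω) ω}.indicator
        (fun ω => ENNReal.ofReal (Φ (D.st (σ ω) ω))) ω ∂P with hR
  -- one step
  have step : ∀ n, ∫⁻ ω in A' n, ENNReal.ofReal (Φ (D.st (ρ n ω) ω)) ∂P ≤ R := by
    intro n
    obtain ⟨T, hT⟩ := D.e_le n
    have hopm := D.opm Φ (D.KK n) hΦ (D.KK_compact n) (D.KK_pos n)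
      (fun p hp => hgen p (D.KK_pos n p hp)) (σ' n) (ρ n) (hσST n) (hρST n) T
      (fun ω => (min_le_right _ _).trans (hT ω)) (A' n) (hA'ev n) (by
        rintro ω ⟨hωA, hω⟩
        refine ⟨min_le_min_right _ (hle ω hωA), fun t _ h2 => ?_⟩
        exact D.e_KK n ω t (h2.trans (min_le_right _ _)))
    obtain ⟨C, hC⟩ := (D.KK_compact n).exists_bound_of_continuousOn
      (hΦc.mono fun p hp => D.KK_pos n p hp)
    have hint : Integrable (fun ω => Φ (D.st (ρ n ω) ω)) (P.restrict (A' n)) :=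
      Integrable.of_bound (hmeas n).aestronglyMeasurable C
        (Eventually.of_forall fun ω => hC _ (hρal n ω).2)
    have hint0 : Integrable (fun ω => Φ (D.st (σ' n ω) ω)) (P.restrict (A' n)) :=
      Integrable.of_bound (hmeas' n).aestronglyMeasurable C
        (Eventually.of_forall fun ω => hC _ (hσal n ω).2)
    have h1 : ∫⁻ ω in A' n, ENNReal.ofReal (Φ (D.st (ρ n ω) ω)) ∂P ≤
        ∫⁻ ω in A' n, ENNReal.ofReal (Φ (D.st (σ' n ω) ω)) ∂P := by
      rw [← ofReal_integral_eq_lintegral_ofReal hint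
          (Eventually.of_forall fun ω => hpos _ (D.y_pos ω _ (hρal n ω).1)),
        ← ofReal_integral_eq_lintegral_ofReal hint0
          (Eventually.of_forall fun ω => hpos _ (D.y_pos ω _ (hσal n ω).1))]
      exact ENNReal.ofReal_le_ofReal hopm
    refine h1.trans ?_
    have h2 : ∫⁻ ω in A' n, ENNReal.ofReal (Φ (D.st (σ' n ω) ω)) ∂P =
        ∫⁻ ω in A' n, {ω | D.al (σ ω) ω}.indicator
          (fun ω => ENNReal.ofReal (Φ (D.st (σ ω) ω))) ω ∂P := by
      refine setLIntegral_congr_fun (hA'm n) fun ω hω => ?_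
      have hlt : σ ω < D.e n ω := hω.2
      have hal : ω ∈ {ω | D.al (σ ω) ω} := (D.e_KK n ω _ hlt.le).1
      rw [indicator_of_mem hal, show σ' n ω = σ ω from min_eq_left hlt.le]
    rw [h2]
    exact lintegral_mono_set inter_subset_left
  -- Fatou
  calc ∫⁻ ω in A, {ω | D.al (τ ω) ω}.indicator
        (fun ω => ENNReal.ofReal (Φ (D.st (τ ω) ω))) ω ∂P
      ≤ ∫⁻ ω, liminf (fun n => (A' n).indicator
          (fun ω => ENNReal.ofReal (Φ (D.st (ρ n ω) ω))) ω) atTop ∂P := by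
        rw [← lintegral_indicator hAm]
        refine lintegral_mono fun ω => ?_
        by_cases hωA : ω ∈ A
        · rw [indicator_of_mem hωA]
          by_cases hω : D.al (τ ω) ω
          · have hmem : ω ∈ {ω | D.al (τ ω) ω} := hω
            rw [indicator_of_mem hmem]
            obtain ⟨n, hn⟩ := D.e_exh ω _ hω
            have hev : ∀ᶠ k in atTop, (A' k).indicator
                (fun ω => ENNReal.ofReal (Φ (D.st (ρ k ω) ω))) ω =
                ENNReal.ofReal (Φ (D.st (τ ω) ω)) := by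
              filter_upwards [eventually_ge_atTop n] with k hk
              have hk' : τ ω < D.e k ω := hn.trans_le (D.e_mono ω hk)
              have hA1 : ω ∈ A' k := ⟨hωA, (hle ω hωA).trans_lt hk'⟩
              rw [indicator_of_mem hA1, show ρ k ω = τ ω from min_eq_left hk'.le]
            rw [liminf_congr hev, liminf_const]
          · have hmem : ω ∉ {ω | D.al (τ ω) ω} := hω
            rw [indicator_of_notMem hmem]
            exact zero_le
        · rw [indicator_of_notMem hωA]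
          exact zero_le
    _ ≤ liminf (fun n => ∫⁻ ω, (A' n).indicator
          (fun ω => ENNReal.ofReal (Φ (D.st (ρ n ω) ω))) ω ∂P) atTop :=
        lintegral_liminf_le fun n => ((hmeas n).ennreal_ofReal).indicator (hA'm n)
    _ ≤ R := by
        refine liminf_le_of_le (by isBoundedDefault) fun b hb => ?_
        obtain ⟨n, hn⟩ := hb.exists
        rw [lintegral_indicator (hA'm n)] at hn
        exact hn.trans (step n)

end core

section concrete

open Crest.Agent.R162.FL Crest.Agent.R162.OP Crest.Agent.R162.UB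
open Crest.ProbabilityR.Loewner

universe u

variable {Ω : Type u} {m : MeasurableSpace Ω} {P : Measure Ω} [IsProbabilityMeasure P]
  {F : Filtration ℝ≥0 m} {B : ℝ≥0 → Ω → ℝ} {κ : ℝ}

/-- two stopping times, state function with nonpositive generator (dead points contribute `0`) -/
theorem super_state_two (hM : OPM.{u}) (hB : IsBM F B P) (hκ : 0 < κ) {z : ℂ} (hz : 0 < z.im)
    {Φ : ℝ × ℝ × ℝ × ℝ → ℝ} (hΦ : ContDiffOn ℝ 3 Φ {p | 0 < p.2.1})
    (hpos : ∀ p : ℝ × ℝ × ℝ × ℝ, 0 < p.2.1 → 0 ≤ Φ p)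
    (hgen : ∀ p : ℝ × ℝ × ℝ × ℝ, 0 < p.2.1 → gen κ Φ p ≤ 0)
    {σ τ : Ω → ℝ≥0} (hσ : IsST F σ) (hτ : IsST F τ) {A : Set Ω} (hA : EvST F σ A)
    (hle : ∀ ω ∈ A, σ ω ≤ τ ω) :
    ∫⁻ ω in A, {ω | AliveP κ B z (τ ω) ω}.indicator
        (fun ω => ENNReal.ofReal (Φ (stP κ B z (τ ω) ω))) ω ∂P ≤
      ∫⁻ ω in A, {ω | AliveP κ B z (σ ω) ω}.indicator
        (fun ω => ENNReal.ofReal (Φ (stP κ B z (σ ω) ω))) ω ∂P :=
  super_two (oneP hM hB hκ hz) hΦ hpos hgen hσ hτ hA hle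

lemma gr_eq_indicator (hκ8 : κ < 8) (z : ℂ) (τ : Ω → ℝ≥0) (ω : Ω) :
    ENNReal.ofReal (gr κ (driving κ B ω) (τ ω) z) = {ω | AliveP κ B z (τ ω) ω}.indicator
        (fun ω => ENNReal.ofReal (Gq κ (stP κ B z (τ ω) ω))) ω := by
  by_cases hω : AliveP κ B z (τ ω) ω
  · rw [indicator_of_mem (show ω ∈ {ω | AliveP κ B z (τ ω) ω} from hω)]
    rw [gr_eq_Gq hω]
    rfl
  · rw [indicator_of_notMem (show ω ∉ {ω | AliveP κ B z (τ ω) ω} from hω)]
    rw [gr_of_dead hκ8 hω, ENNReal.ofReal_zero]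

/-- **Green process: supermartingale between two stopping times.** -/
theorem green_two (hM : OPM.{u}) (hB : IsBM F B P) (hκ : 0 < κ) (hκ8 : κ < 8) {z : ℂ}
    (hz : 0 < z.im) {σ τ : Ω → ℝ≥0} (hσ : IsST F σ) (hτ : IsST F τ) {A : Set Ω}
    (hA : EvST F σ A) (hle : ∀ ω ∈ A, σ ω ≤ τ ω) :
    ∫⁻ ω in A, ENNReal.ofReal (gr κ (driving κ B ω) (τ ω) z) ∂P ≤
      ∫⁻ ω in A, ENNReal.ofReal (gr κ (driving κ B ω) (σ ω) z) ∂P := by
  have h := super_state_two hM hB hκ hz (Φ := Gq κ) contDiffOn_Gq (fun p hp => (Gq_pos hp).le)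
    (fun p hp => (gen_Gq hκ hp).le) hσ hτ hA hle
  simp only [gr_eq_indicator hκ8]
  exact h

end concrete

end Crest.Agent.R162.SUPG
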