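import Crest.Agent.Lib.InjHolo

/-!
Row 162 (S0243), node TR, part 0: Schwarz-Pick on the half-plane and rigidity of
hydrodynamically normalised automorphisms.
-/

set_option autoImplicit false

open Set Filter Metric Complex
open scoped Topology ComplexConjugate

namespace Crest.Agent.R162.TR

theorem normSq_sub_conj (z a : ℂ) :
    ‖z - conj a‖ ^ 2 = ‖z - a‖ ^ 2 + 4 * (z.im * a.im) := by
  rw [Complex.sq_norm, Complex.sq_norm, Complex.normSq_apply, Complex.normSq_apply]
  simp only [Complex.sub_re, Complex.sub_im, Complex.conj_re, Complex.conj_im]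
  ring

theorem sub_conj_ne {z a : ℂ} (hz : 0 < z.im) (ha : 0 < a.im) : z - conj a ≠ 0 := by
  intro h
  have h1 := congrArg Complex.im h
  simp only [Complex.sub_im, Complex.conj_im, Complex.zero_im] at h1
  linarith

/-- Cayley-type map to the disc. -/
noncomputable def cay (b w : ℂ) : ℂ := (w - b) / (w - conj b)

theorem cay_norm_lt {b w : ℂ} (hb : 0 < b.im) (hw : 0 < w.im) : ‖cay b w‖ < 1 := by
  have h0 := sub_conj_ne hw hb
  have h1 : 0 < ‖w - conj b‖ := norm_pos_iff.2 h0
  rw [cay, norm_div, div_lt_one h1]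
  have h2 := normSq_sub_conj w b
  have h3 : 0 < w.im * b.im := mul_pos hw hb
  exact lt_of_pow_lt_pow_left₀ 2 h1.le (by rw [h2]; linarith)

/-- Inverse Cayley map. -/
noncomputable def icay (a u : ℂ) : ℂ := (a - conj a * u) / (1 - u)

theorem one_sub_ne {u : ℂ} (hu : ‖u‖ < 1) : 1 - u ≠ 0 := by
  intro h
  have : u = 1 := (sub_eq_zero.1 h).symm
  rw [this, norm_one] at hu
  exact lt_irrefl _ hu

theorem icay_im {a u : ℂ} (hu : ‖u‖ < 1) :
    (icay a u).im = a.im * (1 - ‖u‖ ^ 2) / ‖1 - u‖ ^ 2 := by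
  have h0 := one_sub_ne hu
  have h1 : Complex.normSq (1 - u) ≠ 0 := by simpa [Complex.normSq_eq_zero] using h0
  rw [icay, Complex.div_im, Complex.sq_norm, Complex.sq_norm]
  rw [← sub_div]
  congr 1
  rw [Complex.normSq_apply]
  simp only [Complex.sub_re, Complex.sub_im, Complex.mul_re, Complex.mul_im, Complex.conj_re,
    Complex.conj_im, Complex.one_re, Complex.one_im]
  ring

theorem icay_im_pos {a u : ℂ} (ha : 0 < a.im) (hu : ‖u‖ < 1) : 0 < (icay a u).im := by
  rw [icay_im hu]
  have h0 := one_sub_ne hu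
  have h1 : 0 < ‖1 - u‖ := norm_pos_iff.2 h0
  have h2 : ‖u‖ ^ 2 < 1 := by
    have := norm_nonneg u
    nlinarith
  positivity

theorem icay_cay {a z : ℂ} (hz : 0 < z.im) (ha : 0 < a.im) : icay a (cay a z) = z := by
  have h0 := sub_conj_ne hz ha
  have h1 : 1 - cay a z ≠ 0 := one_sub_ne (cay_norm_lt ha hz)
  rw [icay, div_eq_iff h1, cay]
  field_simp
  ring

theorem icay_zero (a : ℂ) : icay a 0 = a := by simp [icay]

/-- Schwarz-Pick in the half-plane. -/
theorem schwarz_pick {f : ℂ → ℂ} (hd : DifferentiableOn ℂ f {z | 0 < z.im})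
    (hm : MapsTo f {z : ℂ | 0 < z.im} {z : ℂ | 0 < z.im}) {z a : ℂ} (hz : 0 < z.im)
    (ha : 0 < a.im) :
    ‖f z - f a‖ ^ 2 * (z.im * a.im) ≤ ‖z - a‖ ^ 2 * ((f z).im * (f a).im) := by
  have hfa : 0 < (f a).im := hm ha
  have hfz : 0 < (f z).im := hm hz
  have hmap : MapsTo (icay a) (ball 0 1) {z : ℂ | 0 < z.im} := by
    intro u hu
    exact icay_im_pos ha (by simpa using hu)
  have hdi : DifferentiableOn ℂ (icay a) (ball 0 1) := by
    intro u hu
    have h0 := one_sub_ne (u := u) (by simpa using hu)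
    unfold icay
    refine DifferentiableAt.differentiableWithinAt ?_
    exact ((differentiableAt_const _).sub ((differentiableAt_const _).mul differentiableAt_id)).div
      ((differentiableAt_const _).sub differentiableAt_id) h0
  have hdF : DifferentiableOn ℂ (fun u => cay (f a) (f (icay a u))) (ball 0 1) := by
    have h1 : DifferentiableOn ℂ (fun u => f (icay a u)) (ball 0 1) := hd.comp hdi hmap
    unfold cay
    refine (h1.sub_const _).div (h1.sub_const _) ?_
    intro u hu
    exact sub_conj_ne (hm (hmap hu)) hfa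
  have hmF : MapsTo (fun u => cay (f a) (f (icay a u))) (ball 0 1) (closedBall 0 1) := by
    intro u hu
    have := cay_norm_lt hfa (hm (hmap hu))
    simpa using this.le
  have hF0 : (fun u => cay (f a) (f (icay a u))) 0 = 0 := by
    simp [icay_zero, cay]
  have key := Complex.norm_le_norm_of_mapsTo_ball hdF hmF hF0 (z := cay a z) (cay_norm_lt ha hz)
  simp only [icay_cay hz ha] at key
  rw [cay, cay, norm_div, norm_div] at key
  have p1 : 0 < ‖f z - conj (f a)‖ := norm_pos_iff.2 (sub_conj_ne hfz hfa)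
  have p2 : 0 < ‖z - conj a‖ := norm_pos_iff.2 (sub_conj_ne hz ha)
  rw [div_le_div_iff₀ p1 p2] at key
  have key2 : (‖f z - f a‖ * ‖z - conj a‖) ^ 2 ≤ (‖z - a‖ * ‖f z - conj (f a)‖) ^ 2 :=
    pow_le_pow_left₀ (by positivity) key 2
  rw [mul_pow, mul_pow, normSq_sub_conj, normSq_sub_conj] at key2
  nlinarith [key2]

end Crest.Agent.R162.TR
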