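import Crest.Agent.Lib.InjHolo
import Crest.Agent.R162.TR0
import Crest.Agent.R162.KBDisc
import Crest.Prelude.Def_Loewner

/-!
Row 162 (S0243), node TR, parts 2 and 3, abstract form: distance to the hull versus the
conformal radius `Ups`, for a conformal map `g` of an open set onto the half-plane.
-/

set_option autoImplicit false

open Set Filter Metric Complex
open scoped Topology ComplexConjugate

namespace Crest.Agent.R162.TR

/-- the half-plane -/
abbrev HP : Set ℂ := {z : ℂ | 0 < z.im}

theorem isOpen_HP : IsOpen HP := isOpen_lt continuous_const Complex.continuous_im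

/-- Schwarz: a holomorphic map of `ball w r` into the half-plane. -/
theorem schwarz_ball {g : ℂ → ℂ} {w : ℂ} {r : ℝ} (hr : 0 < r)
    (hd : DifferentiableOn ℂ g (ball w r)) (hm : ∀ z ∈ ball w r, 0 < (g z).im) :
    r * ‖deriv g w‖ ≤ 2 * (g w).im := by
  have hw : w ∈ ball w r := mem_ball_self hr
  have hgw : 0 < (g w).im := hm w hw
  have hne : ∀ z ∈ ball w r, g z - conj (g w) ≠ 0 := fun z hz => sub_conj_ne (hm z hz) hgw
  have hdF : DifferentiableOn ℂ (fun z => cay (g w) (g z)) (ball w r) := by
    unfold cay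
    exact (hd.sub_const _).div (hd.sub_const _) hne
  have hF0 : cay (g w) (g w) = 0 := by simp [cay]
  have hmF : MapsTo (fun z => cay (g w) (g z)) (ball w r) (closedBall (cay (g w) (g w)) 1) := by
    intro z hz
    rw [hF0]
    have := cay_norm_lt hgw (hm z hz)
    simpa using this.le
  have hdw : HasDerivAt g (deriv g w) w :=
    (hd.differentiableAt (isOpen_ball.mem_nhds hw)).hasDerivAt
  have hdF' : HasDerivAt (fun z => cay (g w) (g z)) (deriv g w / (g w - conj (g w))) w := by
    have h1 := (hdw.sub_const (g w)).div (hdw.sub_const (conj (g w))) (hne w hw)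
    have h2 : (deriv g w * (g w - conj (g w)) - (g w - g w) * deriv g w) /
        (g w - conj (g w)) ^ 2 = deriv g w / (g w - conj (g w)) := by
      have h3 := hne w hw
      field_simp
      ring
    rw [h2] at h1
    exact h1
  have key : ‖deriv (fun z => cay (g w) (g z)) w‖ ≤ 1 / r :=
    Complex.norm_deriv_le_div_of_mapsTo_ball hdF hmF hr
  rw [hdF'.deriv, norm_div] at key
  have h4 : ‖g w - conj (g w)‖ = 2 * (g w).im := by
    have h5 : g w - conj (g w) = ((2 * (g w).im : ℝ) : ℂ) * I := by
      apply Complex.ext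
      · simp
      · simp; ring
    rw [h5, norm_mul, Complex.norm_I, mul_one, Complex.norm_real, Real.norm_of_nonneg]
    linarith
  rw [h4, div_le_div_iff₀ (by linarith) hr] at key
  linarith

/-- Koebe 1/4 on the half-plane. -/
theorem koebe_HP {f : ℂ → ℂ} (hf : DifferentiableOn ℂ f HP) (hinj : InjOn f HP) {a : ℂ}
    (ha : 0 < a.im) : ball (f a) (a.im * ‖deriv f a‖ / 2) ⊆ f '' HP := by
  have hmap : MapsTo (icay a) (ball 0 1) HP := by
    intro u hu
    exact icay_im_pos ha (by simpa using hu)
  have hdi : ∀ u ∈ ball (0:ℂ) 1, HasDerivAt (icay a) ((a - conj a) / (1 - u) ^ 2) u := by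
    intro u hu
    have h0 := one_sub_ne (u := u) (by simpa using hu)
    have h1 : HasDerivAt (fun u : ℂ => a - conj a * u) (-(conj a)) u := by
      simpa using ((hasDerivAt_id u).const_mul (conj a)).const_sub a
    have h2 : HasDerivAt (fun u : ℂ => 1 - u) (-1) u := by
      simpa using (hasDerivAt_id u).const_sub (1:ℂ)
    have h3 := h1.div h2 h0
    have h4 : (-(conj a) * (1 - u) - (a - conj a * u) * -1) / (1 - u) ^ 2 =
        (a - conj a) / (1 - u) ^ 2 := by
      congr 1
      ring
    rw [h4] at h3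
    exact h3
  have hinj2 : InjOn (icay a) (ball 0 1) := by
    intro u hu v hv huv
    have h1 := one_sub_ne (u := u) (by simpa using hu)
    have h2 := one_sub_ne (u := v) (by simpa using hv)
    rw [icay, icay, div_eq_div_iff h1 h2] at huv
    have h3 : (a - conj a) * (u - v) = 0 := by linear_combination huv
    rcases mul_eq_zero.1 h3 with h | h
    · exact absurd h (sub_conj_ne ha ha)
    · exact sub_eq_zero.1 h
  have hdF : DifferentiableOn ℂ (fun u => f (icay a u)) (ball 0 1) :=
    hf.comp (fun u hu => (hdi u hu).differentiableAt.differentiableWithinAt) hmap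
  have hinjF : InjOn (fun u => f (icay a u)) (ball 0 1) := hinj.comp hinj2 hmap
  have key := KBD.koebe_quarter hdF hinjF
  have h0 : (0:ℂ) ∈ ball (0:ℂ) 1 := mem_ball_self one_pos
  have hfa : HasDerivAt f (deriv f a) (icay a 0) := by
    rw [icay_zero]
    exact (hf.differentiableAt (isOpen_HP.mem_nhds ha)).hasDerivAt
  have hder : deriv (fun u => f (icay a u)) 0 = deriv f a * (a - conj a) := by
    have := hfa.comp (0:ℂ) (hdi 0 h0)
    rw [show (fun u => f (icay a u)) = f ∘ icay a from rfl, this.deriv]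
    simp
  have h4 : ‖a - conj a‖ = 2 * a.im := by
    have h5 : a - conj a = ((2 * a.im : ℝ) : ℂ) * I := by
      apply Complex.ext
      · simp
      · simp; ring
    rw [h5, norm_mul, Complex.norm_I, mul_one, Complex.norm_real, Real.norm_of_nonneg]
    linarith
  rw [hder, norm_mul, h4, icay_zero] at key
  have h6 : ‖deriv f a‖ * (2 * a.im) / 4 = a.im * ‖deriv f a‖ / 2 := by ring
  rw [h6] at key
  refine key.trans ?_
  rintro _ ⟨u, hu, rfl⟩
  exact ⟨icay a u, hmap hu, rfl⟩

/-- Koebe 1/4 for a conformal map `g` of `D` onto the half-plane: `ball w (Ups/2) ⊆ D`. -/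
theorem ball_ups_subset {D : Set ℂ} (hD : IsOpen D) {g : ℂ → ℂ} (hg : DifferentiableOn ℂ g D)
    (hinj : InjOn g D) (himg : g '' D = HP) {w : ℂ} (hw : w ∈ D) :
    ball w ((g w).im / ‖deriv g w‖ / 2) ⊆ D := by
  obtain ⟨f, hfd, hfi, hfim, hfg, hgf⟩ := Crest.Agent.Lib.exists_holomorphic_inverse hD hg hinj
  rw [himg] at hfd hfi hfim hgf
  have hgw : g w ∈ HP := by rw [← himg]; exact mem_image_of_mem g hw
  have key := koebe_HP hfd hfi (a := g w) hgw
  have hdg : HasDerivAt g (deriv g w) w := (hg.differentiableAt (hD.mem_nhds hw)).hasDerivAt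
  have hdf : HasDerivAt f (deriv f (g w)) (g w) :=
    (hfd.differentiableAt (isOpen_HP.mem_nhds hgw)).hasDerivAt
  have h1 : HasDerivAt (fun z => f (g z)) (deriv f (g w) * deriv g w) w := hdf.comp w hdg
  have h2 : HasDerivAt (fun z => f (g z)) 1 w := by
    refine (hasDerivAt_id w).congr_of_eventuallyEq ?_
    filter_upwards [hD.mem_nhds hw] with z hz
    exact hfg z hz
  have h3 := h1.unique h2
  have h4 : ‖deriv f (g w)‖ * ‖deriv g w‖ = 1 := by rw [← norm_mul, h3, norm_one]
  have h5 : ‖deriv g w‖ ≠ 0 := by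
    intro h; rw [h, mul_zero] at h4; exact zero_ne_one h4
  have h6 : ‖deriv f (g w)‖ = 1 / ‖deriv g w‖ := by
    field_simp
    linarith
  rw [h6, hfg w hw, hfim] at key
  have h7 : (g w).im / ‖deriv g w‖ / 2 = (g w).im * (1 / ‖deriv g w‖) / 2 := by ring
  rw [h7]
  exact key

/-- Schwarz for a conformal map: the radius of a ball in `D` is at most `2 Ups`. -/
theorem radius_le_ups {D : Set ℂ} (hD : IsOpen D) {g : ℂ → ℂ} (hg : DifferentiableOn ℂ g D)
    (hinj : InjOn g D) (hmaps : ∀ z ∈ D, 0 < (g z).im) {w : ℂ} {r : ℝ} (hr : 0 < r)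
    (hb : ball w r ⊆ D) : r ≤ 2 * (g w).im / ‖deriv g w‖ := by
  have hw : w ∈ D := hb (mem_ball_self hr)
  have h1 := schwarz_ball hr (hg.mono hb) fun z hz => hmaps z (hb hz)
  have h2 : deriv g w ≠ 0 := Crest.Agent.Lib.deriv_ne_zero_of_injOn hD hg hinj hw
  rw [le_div_iff₀ (norm_pos_iff.2 h2)]
  exact h1

end Crest.Agent.R162.TR
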