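import Crest.Agent.R162.Top
import Crest.Agent.R162.Ver

/-!
Row 162 (S0243), node TOP (helper310): S0243 (exactly in the frozen form) from `Top.UBC κ` and
`Top.LBC κ`.
-/

set_option autoImplicit false

open MeasureTheory ProbabilityTheory Filter Topology
open scoped NNReal ENNReal
open Crest.ProbabilityR.Loewner

namespace Crest.Agent.R162.Top

universe u

theorem main_of {Ω : Type u} [MeasurableSpace Ω] (P : Measure Ω) [IsProbabilityMeasure P]
    (κ : ℝ) (hU : UBC.{u} κ) (hL : LBC.{u} κ)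
    (B : ℝ≥0 → Ω → ℝ) (hB : IsBrownianReal B P)
    (γ : Ω → ℝ → ℂ) (hγ : ∀ᵐ ω ∂P, IsChordalTrace (driving κ B ω) (γ ω)) :
    (∀ᵐ ω ∂P, ∀ s t : ℝ, 0 < s → s < t →
        0 < gaugeMeasure κ (γ ω '' Set.Icc s t) ∧ gaugeMeasure κ (γ ω '' Set.Icc s t) < ⊤) ∧
      ∀ R : ℝ, ∫⁻ ω, gaugeMeasure κ (γ ω '' Set.Ici 0 ∩ Metric.closedBall 0 R) ∂P < ⊤ := by
  obtain ⟨B', F, hBM, -, -, heq⟩ := Ver.exists_version (P := P) hB
  refine concl_of hU hL P F B' hBM γ ?_
  filter_upwards [hγ, heq] with ω h1 h2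
  have : driving κ B' ω = driving κ B ω := by
    funext t
    simp only [driving, h2]
  rw [this]
  exact h1

end Crest.Agent.R162.Top
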