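import Mathlib
import Crest.Agent.R162.Rad
import Crest.Agent.R162.Rad2

/-!
Row 162 (S0243), node U1 (helper104): the one-point survival bound at radial levels, with a
constant that depends on `κ` only (uniform over `Ω`, the filtration, the measure, the Brownian
motion and the point).
-/

set_option autoImplicit false

open MeasureTheory ProbabilityTheory Filter Set Topology
open scoped NNReal ENNReal

namespace Crest.Agent.R162.U1A

open Crest.Agent.R162.OS Crest.Agent.R162.Rad Crest.Agent.R162.U1P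
open Crest.Agent.R162.OP Crest.Agent.R162.GEN Crest.Agent.R162.OPGen

universe u

/-- `U1P.R` uniformly over all one-point processes (in the universe `u`). -/
def UR (κ c : ℝ) (f g : ℝ → ℝ) : Prop :=
  ∀ {Ω : Type u} {m : MeasurableSpace Ω} {P : Measure Ω} [IsFiniteMeasure P]
    {F : Filtration ℝ≥0 m} {s₀ : ℝ} (D : OneP F P (OP.gen κ) s₀), U1P.R D.radial P c f g

lemma cp_one_rpow (p x : ℝ) : cp (-1) x ^ p = cp (-p) x := by
  unfold cp
  rw [← Real.rpow_mul (Real.cosh_pos x).le]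
  congr 1
  ring

theorem stepA {κ : ℝ} (hκ : 0 < κ) {c : ℝ} (hc : 0 < c) {p p' : ℝ} (hp : 0 ≤ p) (hpb : p < bb κ)
    (hp' : 0 < p') (hpp : p' ≤ p + 2) (hp'b : p' < bb κ) :
    ∃ C ≥ 0, UR.{u} κ c (fun x => x ^ p) (fun x => C * x ^ p') := by
  set M : ℝ := 8 / (κ * p' * min (bb κ - p') 1) with hM
  have hmin : 0 < min (bb κ - p') 1 := lt_min (by linarith) one_pos
  have hMp : 0 < M := by positivity
  refine ⟨M / c, by positivity, ?_⟩
  intro Ω m P _ F s₀ D
  have h := radR D (jet_VU1 p p' M) hc.le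
    (fun th a x h0 _ => by
      unfold VU1
      have e1 := cp_pos (-p) x
      have e2 := cp_pos (-p') x
      positivity)
    (fun th a x h0 _ => LVal_VU1_nonpos hκ hp hpb.le hp' hp'b hpp le_rfl h0 x)
    (f := fun x => c * x ^ p) (g := fun x => M * x ^ p')
    (fun a x => by
      show c * cp (-1) x ^ p ≤ c * cp (-p) x + M * cp (-p') x
      rw [cp_one_rpow]
      have e2 := cp_pos (-p') x
      have := mul_pos hMp e2
      linarith)
    (fun a x => by
      show 0 * cp (-p) x + M * cp (-p') x ≤ M * cp (-1) x ^ p'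
      rw [cp_one_rpow, zero_mul, zero_add])
  have h2 := h.smul (K := 1 / c) (by positivity)
  refine h2.mono hc.le (fun x _ _ => le_of_eq ?_) (fun x _ _ => le_of_eq ?_)
  · field_simp
  · field_simp

theorem stepB {κ : ℝ} (hκ : 0 < κ) (hb : 0 < bb κ) {η : ℝ} (hη : 0 < η)
    (hη1 : η * (bb κ + η + 1) ≤ bb κ) {c : ℝ} (hc : 0 < c) {p : ℝ} (hp : 0 ≤ p) (hpb : p < bb κ)
    (hpp : bb κ + η - 2 ≤ p) :
    ∃ C ≥ 0, UR.{u} κ c (fun x => x ^ p) (fun x => C * x ^ bb κ) := by
  set M : ℝ := 8 / (κ * (bb κ + η) * η) with hM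
  have hMp : 0 < M := by positivity
  refine ⟨2 * M / c, by positivity, ?_⟩
  intro Ω m P _ F s₀ D
  have hle : ∀ x, cp (-(bb κ + η)) x ≤ cp (-bb κ) x := fun x => cp_le_cp (by linarith) x
  have h := radR D (jet_VU1f κ p η M) hc.le
    (fun th a x h0 _ => by
      unfold VU1f
      have e1 := cp_pos (-p) x
      have e2 := cp_pos (-bb κ) x
      have e3 := hle x
      have e4 : 0 ≤ th * cp (-p) x := by positivity
      nlinarith)
    (fun th a x h0 _ => LVal_VU1f_nonpos hκ hb hp hpb.le hη hη1 (by linarith) le_rfl h0 x)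
    (f := fun x => c * x ^ p) (g := fun x => 2 * M * x ^ bb κ)
    (fun a x => by
      show c * cp (-1) x ^ p ≤ c * cp (-p) x + (2 * M * cp (-bb κ) x + -M * cp (-(bb κ + η)) x)
      rw [cp_one_rpow]
      have e2 := cp_pos (-bb κ) x
      have e3 := hle x
      nlinarith)
    (fun a x => by
      show 0 * cp (-p) x + (2 * M * cp (-bb κ) x + -M * cp (-(bb κ + η)) x) ≤
        2 * M * cp (-1) x ^ bb κ
      rw [cp_one_rpow, zero_mul, zero_add]
      have e2 := cp_pos (-(bb κ + η)) x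
      nlinarith)
  have h2 := h.smul (K := 1 / c) (by positivity)
  refine h2.mono hc.le (fun x _ _ => le_of_eq ?_) (fun x _ _ => le_of_eq ?_)
  · field_simp
  · field_simp

/-- **U1, uniform.** `P(A ∩ alive (s+c)) ≤ C ∫_A S_s^b`, `C` depends on `κ`, `c` only. -/
theorem survival {κ : ℝ} (hκ : 0 < κ) (hκ8 : κ < 8) {c : ℝ} (hc : 0 < c) :
    ∃ C ≥ 0, UR.{u} κ c (fun _ => 1) (fun x => C * x ^ (8 / κ - 1)) := by
  have hb : 0 < bb κ := by
    unfold bb
    rw [sub_pos, lt_div_iff₀ hκ]; linarith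
  set η : ℝ := bb κ / (bb κ + 2) with hηd
  have hη : 0 < η := by positivity
  have hη1 : η < 1 := by
    rw [hηd, div_lt_one (by positivity)]; linarith
  have hη2 : η * (bb κ + η + 1) ≤ bb κ := by
    have e : η * (bb κ + 2) = bb κ := by rw [hηd]; field_simp
    nlinarith
  have key : ∀ k : ℕ, ∀ c > 0, ∀ p : ℝ, 0 ≤ p → p < bb κ → bb κ - p ≤ (k + 1) * (2 - η) →
      ∃ C ≥ 0, UR.{u} κ c (fun x => x ^ p) (fun x => C * x ^ bb κ) := by
    intro k
    induction k with
    | zero =>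
      intro c hc p hp hpb hle
      exact stepB hκ hb hη hη2 hc hp hpb (by norm_num at hle; linarith)
    | succ k ih =>
      intro c hc p hp hpb hle
      by_cases hlast : bb κ + η - 2 ≤ p
      · exact stepB hκ hb hη hη2 hc hp hpb hlast
      · rw [not_le] at hlast
        obtain ⟨C₁, hC₁, h₁⟩ := stepA.{u} hκ (c := c / 2) (by positivity) hp hpb
          (p' := p + (2 - η)) (by linarith) (by linarith) (by linarith)
        obtain ⟨C₂, hC₂, h₂⟩ := ih (c / 2) (by positivity) (p + (2 - η)) (by linarith)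
          (by linarith) (by
            push_cast at hle ⊢
            linarith)
        refine ⟨C₁ * C₂, mul_nonneg hC₁ hC₂, ?_⟩
        intro Ω m P _ F s₀ D
        have h₃ := (h₂ D).smul hC₁
        have h₄ := R.comp (by positivity : (0:ℝ) ≤ c / 2) (by positivity : (0:ℝ) ≤ c / 2) (h₁ D) h₃
        rw [show c / 2 + c / 2 = c by ring] at h₄
        exact h₄.mono hc.le (fun x _ _ => le_rfl) (fun x _ _ => by rw [mul_assoc])
  obtain ⟨k, hk⟩ := exists_nat_gt (bb κ / (2 - η))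
  have h2 : (0:ℝ) < 2 - η := by linarith
  obtain ⟨C, hC, h⟩ := key k c hc 0 le_rfl hb (by
    rw [div_lt_iff₀ h2] at hk
    nlinarith)
  refine ⟨C, hC, ?_⟩
  intro Ω m P _ F s₀ D
  exact (h D).mono hc.le (fun x _ _ => by simp) (fun x _ _ => le_rfl)

/-- **U1**, uniform over all probability spaces, Brownian motions and points (form of 418). -/
theorem u1U {κ : ℝ} (hM : OPM.{u}) (hκ : 0 < κ) (hκ8 : κ < 8) : ∃ C : ℝ, 0 ≤ C ∧
    ∀ (Ω : Type u) (m : MeasurableSpace Ω) (P : Measure Ω) [IsProbabilityMeasure P]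
      (Fl : Filtration ℝ≥0 m) (B : ℝ≥0 → Ω → ℝ) (hB : IsBM Fl B P) (w : ℂ) (hw : 0 < w.im),
      U1P.R (oneP hM hB hκ hw).radial P 1 (fun _ => 1) (fun x => C * x ^ (8 / κ - 1)) := by
  obtain ⟨C, hC, h⟩ := survival.{u} hκ hκ8 one_pos
  exact ⟨C, hC, fun Ω m P _ Fl B hB w hw => h (oneP hM hB hκ hw)⟩

/-- `P(A ∩ alive (s+1)) ≤ C ∫_A S_s^b`, uniform constant. -/
theorem survival_one {κ : ℝ} (hκ : 0 < κ) (hκ8 : κ < 8) : ∃ C : ℝ, 0 ≤ C ∧
    ∀ {Ω : Type u} {m : MeasurableSpace Ω} {P : Measure Ω} [IsFiniteMeasure P]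
      {F : Filtration ℝ≥0 m} {s₀ : ℝ} (D : OneP F P (OP.gen κ) s₀) (s : ℝ), s₀ ≤ s →
      ∀ A : Set Ω, D.Past s A →
        P (A ∩ D.alive (s + 1)) ≤ ∫⁻ ω in A, ENNReal.ofReal (C * D.Sl s ω ^ (8 / κ - 1)) ∂P := by
  obtain ⟨C, hC, h⟩ := survival.{u} hκ hκ8 one_pos
  refine ⟨C, hC, ?_⟩
  intro Ω m P _ F s₀ D s hs A hA
  have h1 := h D s hs A hA hA.1
  simp only [ENNReal.ofReal_one, lintegral_one, Measure.restrict_apply MeasurableSet.univ,
    Set.univ_inter] at h1
  exact h1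

end Crest.Agent.R162.U1A
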