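import Crest.Agent.R162.U4F

/-!
Row 162, node U1 (helper19): the U1 input of `U4F` from the explicit supersolutions.
-/

set_option autoImplicit false

open MeasureTheory ProbabilityTheory Filter Set Topology
open scoped NNReal ENNReal

namespace Crest.Agent.R162.U1B

open Crest.Agent.R162.OS Crest.Agent.R162.Rad Crest.Agent.R162.U4C
open Crest.Agent.R162.OP Crest.Agent.R162.U1P Crest.Agent.R162.GEN

universe u

variable {Ω : Type u} {m : MeasurableSpace Ω} {P : Measure Ω} [IsProbabilityMeasure P]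
  {Fl : Filtration ℝ≥0 m} {B : ℝ≥0 → Ω → ℝ} {κ : ℝ}

lemma cp_pow (p x : ℝ) : cp (-1) x ^ p = cp (-p) x := by
  unfold cp
  rw [← Real.rpow_mul (Real.cosh_pos x).le]
  congr 1; ring

lemma cp_le_one {p : ℝ} (hp : 0 ≤ p) (x : ℝ) : cp (-p) x ≤ 1 := by
  rw [← cp_zero x]; exact cp_le_cp (by linarith) x

variable {s₀ : ℝ} (D : OneP Fl P (OP.gen κ) s₀)

/-- step (a) -/
theorem stepA (hκ : 0 < κ) {c p p' : ℝ} (hc : 0 < c) (hp : 0 ≤ p) (hpb : p < bb κ) (hp' : 0 < p')
    (hpp : p' ≤ p + 2) (hp'b : p' < bb κ) :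
    U1P.R D.radial P c (fun x => x ^ p)
      (fun x => (1 / c * (8 / (κ * p' * min (bb κ - p') 1))) * x ^ p') := by
  set M := 8 / (κ * p' * min (bb κ - p') 1) with hM
  have hmin : 0 < min (bb κ - p') 1 := lt_min (by linarith) one_pos
  have hM0 : 0 < M := by positivity
  have h := radR D (P := P) (jet_VU1 p p' M) hc.le
    (fun th a x h1 h2 => by
      unfold VU1
      have := cp_pos (-p) x
      have := cp_pos (-p') x
      positivity)
    (fun th a x h1 h2 => LVal_VU1_nonpos hκ hp hpb.le hp' hp'b hpp le_rfl h1 x)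
    (f := fun x => c * x ^ p) (g := fun x => M * x ^ p')
    (fun a x => by
      simp only [VU1, cp_pow]
      have := cp_pos (-p') x
      nlinarith)
    (fun a x => by
      simp only [VU1, cp_pow]
      linarith)
  have h2 := h.smul (K := 1 / c) (by positivity)
  refine h2.mono hc.le (fun x _ _ => ?_) (fun x _ _ => ?_)
  · rw [← mul_assoc, one_div, inv_mul_cancel₀ hc.ne', one_mul]
  · exact le_of_eq (by ring)

/-- step (b) -/
theorem stepB (hκ : 0 < κ) (hb : 0 < bb κ) {c p η : ℝ} (hc : 0 < c) (hp : 0 ≤ p) (hpb : p < bb κ)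
    (hη : 0 < η) (hη1 : η * (bb κ + η + 1) ≤ bb κ) (hpp : bb κ + η - 2 ≤ p) :
    U1P.R D.radial P c (fun x => x ^ p)
      (fun x => (1 / c * (2 * (8 / (κ * (bb κ + η) * η)))) * x ^ bb κ) := by
  set M := 8 / (κ * (bb κ + η) * η) with hM
  have hM0 : 0 < M := by positivity
  have hle : ∀ x, cp (-(bb κ + η)) x ≤ cp (-bb κ) x := fun x => cp_le_cp (by linarith) x
  have h := radR D (P := P) (jet_VU1f κ p η M) hc.le
    (fun th a x h1 h2 => by
      unfold VU1f
      have h3 := cp_pos (-p) x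
      have h4 := cp_pos (-bb κ) x
      have h5 := hle x
      have h6 : 0 ≤ th * cp (-p) x := by positivity
      nlinarith)
    (fun th a x h1 h2 => LVal_VU1f_nonpos hκ hb hp hpb.le hη hη1 (by linarith) le_rfl h1 x)
    (f := fun x => c * x ^ p) (g := fun x => (2 * M) * x ^ bb κ)
    (fun a x => by
      simp only [VU1f, cp_pow]
      have h4 := cp_pos (-bb κ) x
      have h5 := hle x
      nlinarith)
    (fun a x => by
      simp only [VU1f, cp_pow]
      have h4 := cp_pos (-(bb κ + η)) x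
      nlinarith)
  have h2 := h.smul (K := 1 / c) (by positivity)
  refine h2.mono hc.le (fun x _ _ => ?_) (fun x _ _ => ?_)
  · rw [← mul_assoc, one_div, inv_mul_cancel₀ hc.ne', one_mul]
  · exact le_of_eq (by ring)

/-- an admissible `η` -/
lemma exists_eta {b : ℝ} (hb : 0 < b) : ∃ η : ℝ, 0 < η ∧ η < 2 ∧ η * (b + η + 1) ≤ b := by
  refine ⟨b / (b + 2), by positivity, ?_, ?_⟩
  · rw [div_lt_iff₀ (by positivity)]; linarith
  · have h1 : b / (b + 2) ≤ 1 := by rw [div_le_one (by positivity)]; linarith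
    calc b / (b + 2) * (b + b / (b + 2) + 1) ≤ b / (b + 2) * (b + 2) :=
          mul_le_mul_of_nonneg_left (by linarith) (by positivity)
      _ = b := by field_simp

/-- **the U1 input of U4F** -/
theorem u1In (hM : OPM.{u}) (hB : IsBM Fl B P) (hκ : 0 < κ) (hκ8 : κ < 8) :
    U4F.U1In hM hB hκ := by
  have hb : 0 < bb κ := by
    unfold bb; rw [sub_pos, lt_div_iff₀ hκ]; linarith
  obtain ⟨η, hη, hη2, hη1⟩ := exists_eta hb
  have h := survivalU (D := U4F.Dr hM hB hκ) (P := P) hb hη hη2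
    (fun c hc p p' hp hpb hp' hpp hp'b =>
      ⟨1 / c * (8 / (κ * p' * min (bb κ - p') 1)), by
        have hmin : 0 < min (bb κ - p') 1 := lt_min (by linarith) one_pos
        positivity, fun w => stepA _ hκ hc hp hpb hp' hpp hp'b⟩)
    (fun c hc p hp hpb hpp =>
      ⟨1 / c * (2 * (8 / (κ * (bb κ + η) * η))), by positivity,
        fun w => stepB _ hκ hb hc hp hpb hη hη1 hpp⟩) 1 one_pos
  obtain ⟨C, hC, h⟩ := h
  exact ⟨C, hC, h⟩

end Crest.Agent.R162.U1B
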