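import Crest.Agent.R162.U5br
import Crest.Agent.R162.FLB

/-!
Row 162 (S0243), node U3, deterministic half (helper204): the extended trigger tube.
-/

set_option autoImplicit false

open MeasureTheory Set intervalIntegral

namespace Crest.Agent.R162.U3D

open Crest.Agent.R162.FL Crest.Agent.R162.OP Crest.Agent.R162.UB

variable {W : ℝ → ℝ} {w : ℂ} {r N δ E σ T T2 : ℝ}

/-- the path of the extended trigger: after the trigger it stays at `-2`. -/
noncomputable def psiE (N x0 a : ℝ) : ℝ :=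
  max (x0 - a) (max (-(Real.log N / 2)) (min (a - x0 - N - Real.log N) (-2)))

/-- the extended trigger: the tube of the trigger followed by a stay at `-2` of `K`-length `E`. -/
structure ExtAt (W : ℝ → ℝ) (w : ℂ) (r N δ E σ T2 : ℝ) : Prop where
  nonneg : 0 ≤ σ
  le : σ ≤ T2
  alive : Alive W w T2
  ups_eq : ups W σ w = r
  sfl_ge : δ ≤ sfl W σ w
  dur_eq : ath W T2 w - ath W σ w = dur N (xfl W σ w) + E
  tube : ∀ t ∈ Set.Icc σ T2,
    |xfl W t w - psiE N (xfl W σ w) (ath W t w - ath W σ w)| ≤ 1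

lemma psiE_eq_psi {N x0 a : ℝ} (h : a ≤ dur N x0) : psiE N x0 a = psi N x0 a := by
  unfold psiE psi
  rw [min_eq_left]
  unfold dur at h
  linarith

lemma psiE_eq {N x0 a : ℝ} (h : dur N x0 ≤ a) (h1 : 4 ≤ Real.log N) (h2 : 0 ≤ N) :
    psiE N x0 a = -2 := by
  unfold psiE
  unfold dur at h
  rw [min_eq_right (by linarith), max_eq_right (a := -(Real.log N / 2)) (by linarith),
    max_eq_right (by linarith)]

/-- `|x_σ| ≤ log (2/δ)` from `S_σ ≥ δ` -/
theorem abs_xfl_le' (hδ : 0 < δ) (ha : Alive W w σ) (hs : δ ≤ sfl W σ w) :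
    |xfl W σ w| ≤ Real.log (2 / δ) := by
  have hz : 0 < (Zfl W σ w).im := Zfl_im_pos ha
  have hc : Real.cosh (U5a.xc (Zfl W σ w)) = ‖Zfl W σ w‖ / (Zfl W σ w).im := U5a.cosh_xc hz
  rw [U5br.xc_eq] at hc
  have hn : 0 < ‖Zfl W σ w‖ := U5a.norm_pos_of_im hz
  have hs : δ ≤ (Zfl W σ w).im / ‖Zfl W σ w‖ := hs
  have hle : Real.cosh (xfl W σ w) ≤ 1 / δ := by
    rw [hc]
    rw [le_div_iff₀ hn] at hs
    rw [div_le_div_iff₀ hz hδ]
    linarith
  have h1 : Real.exp |xfl W σ w| / 2 ≤ Real.cosh (xfl W σ w) := by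
    rw [← Real.cosh_abs, Real.cosh_eq]
    have := Real.exp_pos (-|xfl W σ w|)
    linarith
  rw [Real.le_log_iff_exp_le (by positivity)]
  have e : 2 / δ = 2 * (1 / δ) := by ring
  rw [e]
  linarith

/-- `S = 1/cosh x` -/
theorem sfl_eq_inv_cosh {t : ℝ} (ha : Alive W w t) : sfl W t w = 1 / Real.cosh (xfl W t w) := by
  have hz : 0 < (Zfl W t w).im := Zfl_im_pos ha
  have hc : Real.cosh (U5a.xc (Zfl W t w)) = ‖Zfl W t w‖ / (Zfl W t w).im := U5a.cosh_xc hz
  rw [U5br.xc_eq] at hc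
  rw [hc, one_div_div]
  rfl

theorem sfl_ge_of_abs_le {t : ℝ} (ha : Alive W w t) (hx : |xfl W t w| ≤ 3) :
    1 / Real.cosh 3 ≤ sfl W t w := by
  rw [sfl_eq_inv_cosh ha]
  apply one_div_le_one_div_of_le (Real.cosh_pos _)
  rw [← Real.cosh_abs]
  exact Real.cosh_le_cosh.2 (by rw [abs_abs, abs_of_pos (by norm_num : (0:ℝ) < 3)]; exact hx)

/-- lower bound for the radius at the end of the trigger -/
theorem log_ups_ge (hW : ContinuousOn W (Ici 0)) (hδ : 0 < δ) (hN : 1 ≤ N)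
    (h : TrigAt W w r N δ σ T) :
    Real.log (ups W σ w) - 16 * Real.exp 2 * (Real.log (2 / δ) + 6) ≤ Real.log (ups W T w) := by
  have hT : 0 ≤ T - σ := by linarith [h.le]
  have hcl : ∀ t ∈ Icc (0:ℝ) (T - σ), U5a.clk (fun s => Zfl W (σ + s) w) t
      = ath W (σ + t) w - ath W σ w := by
    intro t ht
    rw [U5br.ath_sub hW h.alive ⟨h.nonneg, h.le⟩
      ⟨by linarith [h.nonneg, ht.1], by linarith [ht.2]⟩]
    unfold U5a.clk
    have h4 := intervalIntegral.integral_comp_add_left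
      (fun r => 1 / ‖Zfl W r w‖ ^ 2) σ (a := 0) (b := t)
    rw [add_zero] at h4
    rw [← h4]
    simp only [one_div]
  have hH := U5a.H2 (Z := fun s => Zfl W (σ + s) w) (T := T - σ) (ξ := xfl W σ w)
    (Xb := Real.log (2 / δ)) (N := N) ?_ ?_ hT
    (abs_xfl_le' hδ (h.alive.mono h.nonneg h.le) h.sfl_ge) hN ?_
  · have h4 := intervalIntegral.integral_comp_add_left
      (fun r => 4 * (Zfl W r w).im ^ 2 / ‖Zfl W r w‖ ^ 4) σ (a := 0) (b := T - σ)
    rw [add_zero, add_sub_cancel] at h4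
    rw [h4] at hH
    have h5 := FL.log_ups_sub hW h.alive h.nonneg h.le le_rfl
    linarith
  · refine (continuousOn_Zfl hW h.alive).comp (by fun_prop) ?_
    intro s hs
    exact ⟨by linarith [h.nonneg, hs.1], by linarith [hs.2]⟩
  · intro t ht
    exact Zfl_im_pos (h.alive.mono (by linarith [h.nonneg, ht.1]) (by linarith [ht.2]))
  · refine ⟨?_, ?_⟩
    · rw [hcl _ ⟨hT, le_rfl⟩, add_sub_cancel, h.dur_eq]
      unfold dur
      ring
    · intro t ht
      rw [hcl t ht, U5br.xc_eq, U5br.psi_eq]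
      exact h.tube _ ⟨by linarith [ht.1], by linarith [ht.2]⟩

/-- drop of the radius while `|x| ≤ 3` -/
theorem log_ups_le (hW : ContinuousOn W (Ici 0)) (ha : Alive W w T2) (h0 : 0 ≤ T) (hT : T ≤ T2)
    (hx : ∀ t ∈ Icc T T2, |xfl W t w| ≤ 3) :
    Real.log (ups W T2 w) ≤ Real.log (ups W T w)
      - 4 / Real.cosh 3 ^ 2 * (ath W T2 w - ath W T w) := by
  have h5 := FL.log_ups_sub hW ha h0 hT le_rfl
  have h6 := U5br.ath_sub hW ha ⟨h0, hT⟩ ⟨h0.trans hT, le_rfl⟩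
  have hc1 : ContinuousOn (fun s => 1 / ‖Zfl W s w‖ ^ 2) (Icc 0 T2) := U5br.cont_norm_inv hW ha
  have hc2 : ContinuousOn (fun r => 4 * (Zfl W r w).im ^ 2 / ‖Zfl W r w‖ ^ 4) (Icc 0 T2) := by
    refine ContinuousOn.div ?_ ((continuousOn_Zfl hW ha).norm.pow 4) ?_
    · exact continuousOn_const.mul
        ((Complex.continuous_im.comp_continuousOn (continuousOn_Zfl hW ha)).pow 2)
    · exact fun r hr => pow_ne_zero _ (norm_Zfl_pos_of_mem ha hr).ne'
  have h7 : 4 / Real.cosh 3 ^ 2 * (ath W T2 w - ath W T w)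
      ≤ ∫ r in T..T2, 4 * (Zfl W r w).im ^ 2 / ‖Zfl W r w‖ ^ 4 := by
    rw [h6, ← intervalIntegral.integral_const_mul]
    apply intervalIntegral.integral_mono_on hT
    · exact (U5br.ii_of_cont hc1 ⟨h0, hT⟩ ⟨h0.trans hT, le_rfl⟩).const_mul _
    · exact U5br.ii_of_cont hc2 ⟨h0, hT⟩ ⟨h0.trans hT, le_rfl⟩
    · intro t ht
      have hat : Alive W w t := ha.mono (h0.trans ht.1) ht.2
      have hz : 0 < (Zfl W t w).im := Zfl_im_pos hat
      rw [U5a.im_sq_div hz, U5br.xc_eq]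
      have hcosh : Real.cosh (xfl W t w) ≤ Real.cosh 3 := by
        rw [← Real.cosh_abs]
        exact Real.cosh_le_cosh.2
          (by rw [abs_abs, abs_of_pos (by norm_num : (0:ℝ) < 3)]; exact hx t ht)
      have hp : 0 < Real.cosh (xfl W t w) := Real.cosh_pos _
      rw [one_div]
      gcongr
  linarith

/-- **the extended tube contains the trigger and a radius drop**. -/
theorem ext_trig (hW : ContinuousOn W (Ici 0)) (hδ : 0 < δ) (hE : 0 ≤ E) (hN : 1 ≤ N)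
    (hN1 : Real.log (2 / δ) ≤ N - 1) (hN2 : 4 ≤ Real.log N) (h : ExtAt W w r N δ E σ T2) :
    ∃ T ∈ Icc σ T2, TrigAt W w r N δ σ T ∧ ath W T2 w - ath W T w = E ∧
      (∀ t ∈ Icc T T2, |xfl W t w| ≤ 3) ∧
      Real.log r - 16 * Real.exp 2 * (Real.log (2 / δ) + 6) ≤ Real.log (ups W T w) ∧
      Real.log (ups W T2 w) ≤ Real.log r - 4 / Real.cosh 3 ^ 2 * E := by
  have hσ : Alive W w σ := h.alive.mono h.nonneg h.le
  have hx0 := abs_le.1 (abs_xfl_le' hδ hσ h.sfl_ge)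
  have hdur : 0 ≤ dur N (xfl W σ w) := by
    unfold dur
    linarith [hx0.1]
  have hmono : ∀ s t : ℝ, σ ≤ s → s ≤ t → t ≤ T2 → ath W s w ≤ ath W t w := by
    intro s t hs hst ht
    have h6 := U5br.ath_sub hW h.alive (s := s) (u := t) ⟨h.nonneg.trans hs, hst.trans ht⟩
      ⟨(h.nonneg.trans hs).trans hst, ht⟩
    have : 0 ≤ ∫ v in s..t, 1 / ‖Zfl W v w‖ ^ 2 :=
      intervalIntegral.integral_nonneg hst fun v _ => by positivity
    linarith
  -- intermediate value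
  have hcont : ContinuousOn (fun u => ath W u w) (Icc σ T2) :=
    (FL.continuousOn_ath hW h.alive).mono (Icc_subset_Icc h.nonneg le_rfl)
  have hivt := intermediate_value_Icc h.le hcont
  have hmem : ath W σ w + dur N (xfl W σ w) ∈ Icc (ath W σ w) (ath W T2 w) := by
    have := h.dur_eq
    exact ⟨by linarith, by linarith⟩
  obtain ⟨T, hT, hTe⟩ := hivt hmem
  simp only at hTe
  have hTr : TrigAt W w r N δ σ T := by
    refine ⟨h.nonneg, hT.1, h.alive.mono (h.nonneg.trans hT.1) hT.2, h.ups_eq, h.sfl_ge,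
      by linarith, ?_⟩
    intro t ht
    have := h.tube t ⟨ht.1, ht.2.trans hT.2⟩
    rwa [psiE_eq_psi] at this
    have := hmono t T ht.1 ht.2 hT.2
    linarith
  have hx : ∀ t ∈ Icc T T2, |xfl W t w| ≤ 3 := by
    intro t ht
    have h1 := h.tube t ⟨hT.1.trans ht.1, ht.2⟩
    rw [psiE_eq (by have := hmono T t hT.1 ht.1 ht.2; linarith) hN2 (by linarith)] at h1
    have := abs_le.1 h1
    exact abs_le.2 ⟨by linarith [this.1], by linarith [this.2]⟩
  have hEq : ath W T2 w - ath W T w = E := by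
    have := h.dur_eq
    linarith
  refine ⟨T, hT, hTr, hEq, hx, ?_, ?_⟩
  · have := log_ups_ge hW hδ hN hTr
    rwa [h.ups_eq] at this
  · have h1 := log_ups_le hW h.alive (h.nonneg.trans hT.1) hT.2 hx
    rw [hEq] at h1
    have h2 := Real.log_le_log (ups_pos (h.alive.mono (h.nonneg.trans hT.1) hT.2))
      (ups_anti hW (h.alive.mono (h.nonneg.trans hT.1) hT.2) h.nonneg hT.1)
    rw [h.ups_eq] at h2
    linarith

/-- **the level `l₀` is reached during the stay**: first time `t0` with `Υ = e^{-l₀} r`. -/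
theorem ext_level (hW : ContinuousOn W (Ici 0)) (hδ : 0 < δ) (hE : 0 ≤ E) (hN : 1 ≤ N)
    (hN1 : Real.log (2 / δ) ≤ N - 1) (hN2 : 4 ≤ Real.log N) {l : ℝ}
    (hl1 : 16 * Real.exp 2 * (Real.log (2 / δ) + 6) ≤ l) (hl2 : l ≤ 4 / Real.cosh 3 ^ 2 * E)
    (h : ExtAt W w r N δ E σ T2) :
    ∃ T ∈ Icc σ T2, TrigAt W w r N δ σ T ∧ ∃ t0 ∈ Icc T T2,
      ups W t0 w = Real.exp (-l) * r ∧ (∀ t, 0 ≤ t → t < t0 → Real.exp (-l) * r < ups W t w) ∧
      |xfl W t0 w| ≤ 3 ∧ 1 / Real.cosh 3 ≤ sfl W t0 w := by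
  obtain ⟨T, hT, hTr, -, hx, h1, h2⟩ := ext_trig hW hδ hE hN hN1 hN2 h
  have h0T : 0 ≤ T := h.nonneg.trans hT.1
  have hr : 0 < r := h.ups_eq ▸ ups_pos (h.alive.mono h.nonneg h.le)
  have hpT : 0 < ups W T w := ups_pos (h.alive.mono h0T hT.2)
  have hpT2 : 0 < ups W T2 w := ups_pos h.alive
  have hg : Real.log (Real.exp (-l) * r) = -l + Real.log r := by
    rw [Real.log_mul (Real.exp_pos _).ne' hr.ne', Real.log_exp]
  have hge : Real.exp (-l) * r ≤ ups W T w := by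
    rw [← Real.log_le_log_iff (by positivity) hpT, hg]
    linarith
  have hle : ups W T2 w ≤ Real.exp (-l) * r := by
    rw [← Real.log_le_log_iff hpT2 (by positivity), hg]
    linarith
  have hcont : ContinuousOn (fun u => ups W u w) (Icc T T2) :=
    (continuousOn_ups hW h.alive).mono (Icc_subset_Icc h0T le_rfl)
  obtain ⟨t0, ht0, hte⟩ := intermediate_value_Icc' hT.2 hcont ⟨hle, hge⟩
  simp only at hte
  have hat : Alive W w t0 := h.alive.mono (h0T.trans ht0.1) ht0.2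
  refine ⟨T, hT, hTr, t0, ht0, hte, ?_, hx t0 ht0, sfl_ge_of_abs_le hat (hx t0 ht0)⟩
  intro t ht htt
  rw [← hte]
  exact ups_strictAntiOn hW hat ⟨ht, htt.le⟩ ⟨h0T.trans ht0.1, le_rfl⟩ htt

end Crest.Agent.R162.U3D
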