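import Mathlib
import Crest.Agent.R162.U3D
import Crest.Agent.R162.U3FF
import Crest.Agent.R162.Rad
import Crest.Agent.R162.U4C

/-!
Row 162 (S0243), node U3, the two halves of the U3 line of `U4C.Inputs` (helper204):
(M) measurability of the trigger event at the level `s + l`; (G) the `G`-form of the lower bound
from the `P`-form.
-/

set_option autoImplicit false

open MeasureTheory ProbabilityTheory Set
open scoped NNReal ENNReal

namespace Crest.Agent.R162.U3G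

open Crest.Agent.R162.FL Crest.Agent.R162.OP Crest.Agent.R162.OS Crest.Agent.R162.UB
open Crest.Agent.R162.Rad
open Crest.ProbabilityR.Loewner

universe u

variable {Ω : Type u} {m : MeasurableSpace Ω} {P : Measure Ω} {Fl : Filtration ℝ≥0 m}
  {B : ℝ≥0 → Ω → ℝ} {κ : ℝ} {w : ℂ} {s₀ : ℝ}

/-- the end of the trigger at scale `e^{-s}` comes before the level `s + l`. -/
theorem trig_le {W : ℝ → ℝ} {s l N δ σ T τ : ℝ} (hW : ContinuousOn W (Ici 0)) (hδ : 0 < δ)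
    (hN : 1 ≤ N) (hl : 16 * Real.exp 2 * (Real.log (2 / δ) + 6) ≤ l)
    (h : TrigAt W w (Real.exp (-s)) N δ σ T) (hτ0 : 0 ≤ τ)
    (hL : Real.log (ups W τ w) ≤ -(s + l)) : T ≤ τ := by
  by_contra hcon
  push Not at hcon
  have hF := U3.flowFacts W w T hW h.alive
  have h1 := U3D.log_ups_ge hW hδ hN h
  rw [h.ups_eq, Real.log_exp] at h1
  have h2 := hF.ups_anti ⟨hτ0, hcon.le⟩ ⟨h.nonneg.trans h.le, le_rfl⟩ hcon
  have h3 : 0 < ups W T w := hF.ups_pos T ⟨h.nonneg.trans h.le, le_rfl⟩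
  have h4 : Real.log (ups W T w) < Real.log (ups W τ w) := Real.log_lt_log h3 h2
  linarith

/-- **(M)** the event "alive at the level `s + l`, no trigger at the level `s`" is in the past of
the level `s + l`. -/
theorem past_trig {g : (St → ℝ) → St → ℝ} (D : OneP Fl P g s₀)
    (hst : D.st = stP κ B w) (hc : ∀ ω, ContinuousOn (driving κ B ω) (Ici 0))
    {s l N δ : ℝ} (hδ : 0 < δ) (hN : 1 ≤ N)
    (hl : 16 * Real.exp 2 * (Real.log (2 / δ) + 6) ≤ l) (hl0 : 0 ≤ l)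
    (hm : ∀ t : ℝ≥0, MeasurableSet[Fl t] {ω | ∃ σ T, T ≤ (t : ℝ) ∧
      TrigAt (driving κ B ω) w (Real.exp (-s)) N δ σ T})
    {A : Set Ω} (hA : D.Past s A) :
    D.Past (s + l) (A ∩ D.alive (s + l) ∩
      {ω | Trig (driving κ B ω) w (Real.exp (-s)) N δ}ᶜ) := by
  have hstep := OneP.Past.step D (s := s) (t := s + l) (by linarith) hA
  refine ⟨fun ω hω => hω.1.2, fun t => ?_⟩
  have hset : A ∩ D.alive (s + l) ∩ {ω | Trig (driving κ B ω) w (Real.exp (-s)) N δ}ᶜ ∩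
      {ω | D.tau (s + l) ω ≤ t} =
      (A ∩ D.alive (s + l) ∩ {ω | D.tau (s + l) ω ≤ t}) ∩
        {ω | ∃ σ T, T ≤ (t : ℝ) ∧ TrigAt (driving κ B ω) w (Real.exp (-s)) N δ σ T}ᶜ := by
    ext ω
    simp only [mem_inter_iff, mem_compl_iff, Set.mem_ofPred_eq]
    constructor
    · rintro ⟨⟨h1, h2⟩, h3⟩
      refine ⟨⟨h1, h3⟩, ?_⟩
      rintro ⟨σ, T, -, hT⟩
      exact h2 ⟨σ, T, hT⟩
    · rintro ⟨⟨h1, h3⟩, h2⟩
      refine ⟨⟨h1, ?_⟩, h3⟩
      rintro ⟨σ, T, hT⟩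
      refine h2 ⟨σ, T, ?_, hT⟩
      obtain ⟨ha, hL⟩ := D.tau_mem h1.2
      have h4 : T ≤ (D.tau (s + l) ω : ℝ) := by
        refine trig_le (hc ω) hδ hN hl hT (NNReal.coe_nonneg _) ?_
        rw [hst] at hL
        exact hL
      exact h4.trans (by exact_mod_cast h3)
  rw [hset]
  exact (hstep.2 t).inter (hm t).compl

/-- **(G)** the `G`-form of the trigger bound from the `P`-form. `S` is `sin Θ` at the levels. -/
theorem gform {D : U1P.Radial (Ω := Ω) s₀} {b d' c C N s l : ℝ} (hb : 0 ≤ b)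
    (hc : 0 ≤ c) (hs : s₀ ≤ s)
    {A E X : Set Ω} (hA : D.F s A) (hAs : A ⊆ D.alive s) (hE : MeasurableSet E)
    (hEX : E ⊆ X)
    (hS : ∀ ω ∈ E, 1 / Real.cosh 3 ≤ D.S (s + l) ω)
    (hP : ENNReal.ofReal (c * Real.exp (-(C * N))) * P A ≤ P E) :
    ENNReal.ofReal (c * (Real.exp (d' * l) * (1 / Real.cosh 3) ^ b) * Real.exp (-(C * N))) *
        ∫⁻ ω in A, ENNReal.ofReal (Real.exp (d' * s) * D.S s ω ^ b) ∂P ≤
      ∫⁻ ω in X, ENNReal.ofReal (Real.exp (d' * (s + l)) * D.S (s + l) ω ^ b) ∂P := by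
  have hmA : MeasurableSet A := D.meas s hs A hA hAs
  have hch : 0 < 1 / Real.cosh 3 := by have := Real.cosh_pos 3; positivity
  have h1 : ∫⁻ ω in A, ENNReal.ofReal (Real.exp (d' * s) * D.S s ω ^ b) ∂P ≤
      ENNReal.ofReal (Real.exp (d' * s)) * P A := by
    calc ∫⁻ ω in A, ENNReal.ofReal (Real.exp (d' * s) * D.S s ω ^ b) ∂P
        ≤ ∫⁻ _ in A, ENNReal.ofReal (Real.exp (d' * s)) ∂P := by
          refine setLIntegral_mono' hmA fun ω hω => ENNReal.ofReal_le_ofReal ?_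
          have h2 : D.S s ω ^ b ≤ 1 :=
            Real.rpow_le_one (D.S_pos s hs ω (hAs hω)).le (D.S_le s hs ω (hAs hω)) hb
          nlinarith [Real.exp_pos (d' * s)]
      _ = ENNReal.ofReal (Real.exp (d' * s)) * P A := by
          rw [setLIntegral_const]
  have h3 : ENNReal.ofReal (Real.exp (d' * (s + l)) * (1 / Real.cosh 3) ^ b) * P E ≤
      ∫⁻ ω in X, ENNReal.ofReal (Real.exp (d' * (s + l)) * D.S (s + l) ω ^ b) ∂P := by
    calc ENNReal.ofReal (Real.exp (d' * (s + l)) * (1 / Real.cosh 3) ^ b) * P E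
        = ∫⁻ _ in E, ENNReal.ofReal (Real.exp (d' * (s + l)) * (1 / Real.cosh 3) ^ b) ∂P := by
          rw [setLIntegral_const]
      _ ≤ ∫⁻ ω in E, ENNReal.ofReal (Real.exp (d' * (s + l)) * D.S (s + l) ω ^ b) ∂P := by
          refine setLIntegral_mono' hE fun ω hω => ENNReal.ofReal_le_ofReal ?_
          gcongr
          exact hS ω hω
      _ ≤ _ := lintegral_mono_set hEX
  refine le_trans ?_ h3
  calc ENNReal.ofReal (c * (Real.exp (d' * l) * (1 / Real.cosh 3) ^ b) * Real.exp (-(C * N))) *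
        ∫⁻ ω in A, ENNReal.ofReal (Real.exp (d' * s) * D.S s ω ^ b) ∂P
      ≤ ENNReal.ofReal (c * (Real.exp (d' * l) * (1 / Real.cosh 3) ^ b) * Real.exp (-(C * N))) *
        (ENNReal.ofReal (Real.exp (d' * s)) * P A) := by gcongr
    _ = ENNReal.ofReal (Real.exp (d' * (s + l)) * (1 / Real.cosh 3) ^ b) *
        (ENNReal.ofReal (c * Real.exp (-(C * N))) * P A) := by
        rw [← mul_assoc, ← ENNReal.ofReal_mul (by positivity),
          ← mul_assoc (ENNReal.ofReal (Real.exp (d' * (s + l)) * (1 / Real.cosh 3) ^ b)),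
          ← ENNReal.ofReal_mul (by positivity)]
        congr 2
        rw [mul_add, Real.exp_add]
        ring
    _ ≤ _ := by gcongr

/-- the `P`-form output of the tube estimate (641), for a family of radial data. -/
def PForm (κ : ℝ) (P : Measure Ω) (B : ℝ≥0 → Ω → ℝ)
    (D : ∀ w : {w : ℂ // 0 < w.im}, U1P.Radial (Ω := Ω) (-Real.log w.1.im)) : Prop :=
  ∀ δ : ℝ, 0 < δ → ∃ l₁ : ℝ, ∀ l : ℝ, l₁ ≤ l → ∃ N₀ C c : ℝ, 0 ≤ C ∧ 0 < c ∧
    ∀ w s, -Real.log w.1.im ≤ s → ∀ N : ℝ, N₀ ≤ N → ∀ A, (D w).F s A → A ⊆ (D w).alive s →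
      A ⊆ {ω | δ ≤ (D w).S s ω} → ∃ E, MeasurableSet E ∧
        E ⊆ A ∩ (D w).alive (s + l) ∩ {ω | Trig (driving κ B ω) w.1 (Real.exp (-s)) N δ} ∧
        (∀ ω ∈ E, 1 / Real.cosh 3 ≤ (D w).S (s + l) ω) ∧
        ENNReal.ofReal (c * Real.exp (-(C * N))) * P A ≤ P E

/-- the measurability half, for a family of radial data. -/
def MForm (κ : ℝ) (B : ℝ≥0 → Ω → ℝ)
    (D : ∀ w : {w : ℂ // 0 < w.im}, U1P.Radial (Ω := Ω) (-Real.log w.1.im)) : Prop :=
  ∀ δ l N : ℝ, 0 < δ → 1 ≤ N → 16 * Real.exp 2 * (Real.log (2 / δ) + 6) ≤ l → 0 ≤ l →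
    ∀ w s, -Real.log w.1.im ≤ s → ∀ A, (D w).F s A → A ⊆ (D w).alive s →
      (D w).F (s + l) (A ∩ (D w).alive (s + l) ∩
        {ω | Trig (driving κ B ω) w.1 (Real.exp (-s)) N δ}ᶜ)

/-- **the U3 line of `U4C.Inputs`** from the `P`-form and the measurability. -/
theorem u3_line (hκ : 0 < κ) (hκ8 : κ ≤ 8)
    {D : ∀ w : {w : ℂ // 0 < w.im}, U1P.Radial (Ω := Ω) (-Real.log w.1.im)}
    (hP : PForm κ P B D) (hM : MForm κ B D) :
    ∀ δ : ℝ, 0 < δ → ∃ l : ℝ, 0 ≤ l ∧ ∃ N₀ C c : ℝ, 0 ≤ C ∧ 0 < c ∧ c ≤ 1 ∧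
    ∀ w s, -Real.log w.1.im ≤ s → ∀ N : ℝ, N₀ ≤ N → ∀ A, (D w).F s A → A ⊆ (D w).alive s →
      (D w).F (s + l) (A ∩ (D w).alive (s + l) ∩
        {ω | Trig (driving κ B ω) w.1 (Real.exp (-s)) N δ}ᶜ) ∧
      (A ⊆ {ω | δ ≤ (D w).S s ω} →
        ENNReal.ofReal (c * Real.exp (-(C * N))) * U4C.gm κ (D w) P s A ≤
          U4C.gm κ (D w) P (s + l) (A ∩ (D w).alive (s + l) ∩
            {ω | Trig (driving κ B ω) w.1 (Real.exp (-s)) N δ})) := by
  intro δ hδ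
  obtain ⟨l₁, h1⟩ := hP δ hδ
  set l : ℝ := max (max l₁ 0) (16 * Real.exp 2 * (Real.log (2 / δ) + 6)) with hl
  have hl1 : l₁ ≤ l := (le_max_left _ _).trans (le_max_left _ _)
  have hl0 : 0 ≤ l := (le_max_right l₁ 0).trans (le_max_left _ _)
  have hl2 : 16 * Real.exp 2 * (Real.log (2 / δ) + 6) ≤ l := le_max_right _ _
  obtain ⟨N₀, C, c, hC, hc, h2⟩ := h1 l hl1
  have hb : 0 ≤ 8 / κ - 1 := by
    rw [sub_nonneg, one_le_div hκ]; exact hκ8
  have hch : 0 < 1 / Real.cosh 3 := by have := Real.cosh_pos 3; positivity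
  have hpos : 0 < c * (Real.exp ((2 - dimParam κ) * l) * (1 / Real.cosh 3) ^ (8 / κ - 1)) := by
    positivity
  refine ⟨l, hl0, max N₀ 1, C,
    min 1 (c * (Real.exp ((2 - dimParam κ) * l) * (1 / Real.cosh 3) ^ (8 / κ - 1))), hC,
    lt_min one_pos hpos, min_le_left _ _, ?_⟩
  intro w s hs N hN A hA hAs
  refine ⟨hM δ l N hδ ((le_max_right _ _).trans hN) hl2 hl0 w s hs A hA hAs, fun hAδ => ?_⟩
  obtain ⟨E, hEm, hEX, hES, hPE⟩ := h2 w s hs N ((le_max_left _ _).trans hN) A hA hAs hAδ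
  have h3 := gform (d' := 2 - dimParam κ) hb hc.le hs hA hAs hEm hEX hES hPE
  refine le_trans ?_ h3
  unfold U4C.gm
  gcongr
  exact min_le_right _ _

end Crest.Agent.R162.U3G
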