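import Mathlib
import Crest.Agent.R162.UBDefs
import Crest.Agent.R162.OS
import Crest.Agent.R162.FL1b
import Crest.Agent.R162.FLD

/-!
Row 162 (S0243), node U3M (helper556): the trigger time of a pair `(w, r)` is a stopping time,
and the two times of a trigger are unique.
-/

set_option autoImplicit false

open MeasureTheory ProbabilityTheory Set Filter Topology
open scoped NNReal ENNReal

namespace Crest.Agent.R162.U3M

open Crest.Agent.R162.FL Crest.Agent.R162.OP Crest.Agent.R162.OS Crest.Agent.R162.UB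
open Crest.ProbabilityR.Loewner

/-! ### measurable projections over a compact parameter space -/

section proj

variable {Ω K : Type*} [MeasurableSpace Ω] [TopologicalSpace K] [CompactSpace K]
  [TopologicalSpace.SeparableSpace K] [Nonempty K]

/-- an existential closed condition over a compact parameter space is measurable -/
lemma measurableSet_exists_le {F : Ω → K → ℝ} (hc : ∀ ω, Continuous (F ω))
    (hm : ∀ k, Measurable fun ω => F ω k) : MeasurableSet {ω | ∃ k, F ω k ≤ 0} := by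
  have : {ω | ∃ k, F ω k ≤ 0} =
      ⋂ n : ℕ, ⋃ j : ℕ, {ω | F ω (TopologicalSpace.denseSeq K j) < 1 / ((n : ℝ) + 1)} := by
    ext ω
    simp only [mem_iInter, mem_iUnion, mem_ofPred_eq]
    constructor
    · rintro ⟨k, hk⟩ n
      have hopen : IsOpen {k | F ω k < 1 / ((n : ℝ) + 1)} := isOpen_lt (hc ω) continuous_const
      obtain ⟨_, hmem, ⟨j, rfl⟩⟩ :=
        (TopologicalSpace.denseRange_denseSeq K).inter_open_nonempty _ hopen
          ⟨k, lt_of_le_of_lt hk (by positivity)⟩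
      exact ⟨j, hmem⟩
    · intro h
      obtain ⟨k, -, hk⟩ :=
        isCompact_univ.exists_isMinOn (univ_nonempty (α := K)) (hc ω).continuousOn
      refine ⟨k, ?_⟩
      by_contra hpos
      push Not at hpos
      obtain ⟨n, hn⟩ := exists_nat_one_div_lt hpos
      obtain ⟨j, hj⟩ := h n
      have := hk (mem_univ (TopologicalSpace.denseSeq K j))
      simp only [mem_ofPred_eq] at this
      linarith
  rw [this]
  exact MeasurableSet.iInter fun n => MeasurableSet.iUnion fun j =>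
    measurableSet_lt (hm _) measurable_const

/-- supremum over a compact parameter space: measurability -/
lemma measurable_iSup_compact {F : Ω → K → ℝ} (hc : ∀ ω, Continuous (F ω))
    (hm : ∀ k, Measurable fun ω => F ω k) : Measurable fun ω => ⨆ k, F ω k := by
  refine measurable_of_Iic fun c => ?_
  have hb : ∀ ω, BddAbove (range (F ω)) := fun ω => (isCompact_range (hc ω)).bddAbove
  have : (fun ω => ⨆ k, F ω k) ⁻¹' Iic c =
      ⋂ j : ℕ, {ω | F ω (TopologicalSpace.denseSeq K j) ≤ c} := by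
    ext ω
    simp only [mem_preimage, mem_Iic, mem_iInter, mem_ofPred_eq]
    rw [ciSup_le_iff (hb ω)]
    constructor
    · intro h j; exact h _
    · intro h k
      have hcl : IsClosed {k | F ω k ≤ c} := isClosed_le (hc ω) continuous_const
      have hd : DenseRange (TopologicalSpace.denseSeq K) :=
        TopologicalSpace.denseRange_denseSeq K
      exact hd.induction_on k hcl h
  rw [this]
  exact MeasurableSet.iInter fun j => measurableSet_le (hm _) measurable_const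

omit [TopologicalSpace.SeparableSpace K] [Nonempty K] [MeasurableSpace Ω] in
/-- supremum over a compact parameter space: continuity in the other variable -/
lemma continuous_iSup_compact {L : Type*} [TopologicalSpace L] {f : L → K → ℝ}
    (hf : Continuous (fun p : L × K => f p.1 p.2)) : Continuous fun l => ⨆ k, f l k := by
  have h := IsCompact.continuous_sSup (f := f) (K := (univ : Set K)) isCompact_univ hf
  simp only [image_univ] at h
  exact h

end proj

/-! ### the abstract event -/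

section abs

/-- the point of `[a, b]` with barycentric coordinate `θ` -/
lemma exists_bary {a b s : ℝ} (h : s ∈ Icc a b) :
    ∃ θ : unitInterval, a + (θ : ℝ) * (b - a) = s := by
  rcases (h.1.trans h.2).eq_or_lt with hab | hab
  · refine ⟨0, ?_⟩
    have h1 := h.1
    have h2 := h.2
    rw [show ((0 : unitInterval) : ℝ) = 0 from rfl, zero_mul, add_zero]
    linarith
  · have hpos : 0 < b - a := sub_pos.2 hab
    refine ⟨⟨(s - a) / (b - a), div_nonneg (sub_nonneg.2 h.1) hpos.le,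
      (div_le_one hpos).2 (by linarith [h.2])⟩, ?_⟩
    simp only
    rw [div_mul_cancel₀ _ hpos.ne']
    ring

lemma bary_mem {a b : ℝ} (hab : a ≤ b) (θ : unitInterval) :
    a + (θ : ℝ) * (b - a) ∈ Icc a b := by
  have h0 := θ.2.1
  have h1 := θ.2.2
  constructor
  · nlinarith
  · nlinarith

variable {Ω : Type*} [MeasurableSpace Ω]

lemma measurableSet_abs {t : ℝ} (ht : 0 ≤ t) {u a x S : ℝ → Ω → ℝ}
    (hu : ∀ ω, Continuous fun s => u s ω) (hum : ∀ s, Measurable (u s))
    (ha : ∀ ω, Continuous fun s => a s ω) (ham : ∀ s, Measurable (a s))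
    (hx : ∀ ω, Continuous fun s => x s ω) (hxm : ∀ s, Measurable (x s))
    (hS : ∀ ω, Continuous fun s => S s ω) (hSm : ∀ s, Measurable (S s)) (r N δ : ℝ) :
    MeasurableSet {ω | ∃ σ T, 0 ≤ σ ∧ σ ≤ T ∧ T ≤ t ∧ u σ ω = r ∧ δ ≤ S σ ω ∧
      a T ω - a σ ω = dur N (x σ ω) ∧
      ∀ s ∈ Icc σ T, |x s ω - psi N (x σ ω) (a s ω - a σ ω)| ≤ 1} := by
  set sg : unitInterval × unitInterval → ℝ := fun k => 0 + (k.1 : ℝ) * (t - 0) with hsg
  set Tt : unitInterval × unitInterval → ℝ := fun k => sg k + (k.2 : ℝ) * (t - sg k) with hTt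
  set st : unitInterval × unitInterval → unitInterval → ℝ :=
    fun k θ => sg k + (θ : ℝ) * (Tt k - sg k) with hst
  have csg : Continuous sg := by rw [hsg]; fun_prop
  have cTt : Continuous Tt := by rw [hTt]; fun_prop
  have cst : Continuous (fun p : (unitInterval × unitInterval) × unitInterval => st p.1 p.2) := by
    rw [hst]; fun_prop
  set H : Ω → unitInterval × unitInterval → unitInterval → ℝ := fun ω k θ =>
    |x (st k θ) ω - psi N (x (sg k) ω) (a (st k θ) ω - a (sg k) ω)| with hH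
  have cH : ∀ ω, Continuous
      (fun p : (unitInterval × unitInterval) × unitInterval => H ω p.1 p.2) := by
    intro ω
    have h1 : Continuous (fun p : (unitInterval × unitInterval) × unitInterval =>
      x (st p.1 p.2) ω) := (hx ω).comp cst
    have h2 : Continuous (fun p : (unitInterval × unitInterval) × unitInterval =>
      a (st p.1 p.2) ω) := (ha ω).comp cst
    have h3 : Continuous (fun p : (unitInterval × unitInterval) × unitInterval =>
      x (sg p.1) ω) := (hx ω).comp (csg.comp continuous_fst)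
    have h4 : Continuous (fun p : (unitInterval × unitInterval) × unitInterval =>
      a (sg p.1) ω) := (ha ω).comp (csg.comp continuous_fst)
    simp only [hH, psi]
    fun_prop
  set F : Ω → unitInterval × unitInterval → ℝ := fun ω k =>
    max (max |u (sg k) ω - r| (δ - S (sg k) ω))
      (max |a (Tt k) ω - a (sg k) ω - dur N (x (sg k) ω)| ((⨆ θ, H ω k θ) - 1)) with hF
  have cF : ∀ ω, Continuous (F ω) := by
    intro ω
    have h1 : Continuous (fun k => u (sg k) ω) := (hu ω).comp csg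
    have h2 : Continuous (fun k => S (sg k) ω) := (hS ω).comp csg
    have h3 : Continuous (fun k => a (Tt k) ω) := (ha ω).comp cTt
    have h4 : Continuous (fun k => a (sg k) ω) := (ha ω).comp csg
    have h5 : Continuous (fun k => x (sg k) ω) := (hx ω).comp csg
    have h6 : Continuous (fun k => ⨆ θ, H ω k θ) := continuous_iSup_compact (cH ω)
    simp only [hF, dur]
    fun_prop
  have mF : ∀ k, Measurable fun ω => F ω k := by
    intro k
    have h6 : Measurable (fun ω => ⨆ θ, H ω k θ) := by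
      refine measurable_iSup_compact (F := fun ω θ => H ω k θ)
        (fun ω => (cH ω).comp (continuous_const.prodMk continuous_id)) fun θ => ?_
      have h1 := hxm (st k θ)
      have h2 := hxm (sg k)
      have h3 := ham (st k θ)
      have h4 := ham (sg k)
      simp only [hH, psi]
      fun_prop
    have h1 := hum (sg k)
    have h2 := hSm (sg k)
    have h3 := ham (Tt k)
    have h4 := ham (sg k)
    have h5 := hxm (sg k)
    simp only [hF, dur]
    fun_prop
  have hmain := measurableSet_exists_le cF mF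
  convert hmain using 1
  ext ω
  simp only [mem_ofPred_eq]
  constructor
  · rintro ⟨σ, T, h0, h1, h2, h3, h4, h5, h6⟩
    obtain ⟨α, hα⟩ := exists_bary (a := 0) (b := t) (s := σ) ⟨h0, h1.trans h2⟩
    obtain ⟨β, hβ⟩ := exists_bary (a := σ) (b := t) (s := T) ⟨h1, h2⟩
    have e1 : sg (α, β) = σ := hα
    have e2 : Tt (α, β) = T := by
      simp only [hTt, e1]
      exact hβ
    refine ⟨(α, β), ?_⟩
    simp only [hF, e1, e2, max_le_iff]
    refine ⟨⟨?_, by linarith⟩, ?_, ?_⟩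
    · rw [h3]; simp
    · rw [h5]; simp
    · have : (⨆ θ, H ω (α, β) θ) ≤ 1 := by
        refine ciSup_le fun θ => ?_
        simp only [hH, hst, e1, e2]
        exact h6 _ (bary_mem h1 θ)
      linarith
  · rintro ⟨k, hk⟩
    simp only [hF, max_le_iff] at hk
    obtain ⟨⟨h1, h2⟩, h3, h4⟩ := hk
    have m1 : sg k ∈ Icc 0 t := bary_mem ht k.1
    have m2 : Tt k ∈ Icc (sg k) t := bary_mem m1.2 k.2
    refine ⟨sg k, Tt k, m1.1, m2.1, m2.2, ?_, by linarith, ?_, ?_⟩
    · have := abs_nonpos_iff.1 h1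
      linarith
    · have := abs_nonpos_iff.1 h3
      linarith
    · intro s hs
      obtain ⟨θ, hθ⟩ := exists_bary hs
      have hb : BddAbove (range (H ω k)) :=
        (isCompact_range ((cH ω).comp (continuous_const.prodMk continuous_id))).bddAbove
      have := le_ciSup hb θ
      have e : H ω k θ = |x s ω - psi N (x (sg k) ω) (a s ω - a (sg k) ω)| := by
        simp only [hH, hst, hθ]
      rw [← e]
      linarith

end abs

/-! ### deterministic facts -/

section det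

variable {W : ℝ → ℝ} {w : ℂ} {T : ℝ}

lemma continuousOn_inv_norm_sq (hW : ContinuousOn W (Ici 0)) (h : Alive W w T) :
    ContinuousOn (fun s => 1 / ‖Zfl W s w‖ ^ 2) (Icc 0 T) := by
  have h1 := continuousOn_Zfl hW h
  refine continuousOn_const.div (h1.norm.pow 2) fun s hs => ?_
  have := Zfl_ne_zero (h.mono hs.1 hs.2)
  positivity

lemma continuousOn_re_inv_sq (hW : ContinuousOn W (Ici 0)) (h : Alive W w T) :
    ContinuousOn (fun s => 2 * (((Zfl W s w) ^ 2)⁻¹).re) (Icc 0 T) := by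
  have h1 := continuousOn_Zfl hW h
  refine continuousOn_const.mul ?_
  refine Complex.continuous_re.comp_continuousOn ?_
  refine (h1.pow 2).inv₀ fun s hs => ?_
  exact pow_ne_zero 2 (Zfl_ne_zero (h.mono hs.1 hs.2))

lemma hasDerivWithinAt_prim {f : ℝ → ℝ} (hf : ContinuousOn f (Icc 0 T)) {s : ℝ}
    (hs : s ∈ Icc 0 T) :
    HasDerivWithinAt (fun s => ∫ v in (0 : ℝ)..s, f v) (f s) (Icc 0 T) s := by
  have hT : (0 : ℝ) ≤ T := hs.1.trans hs.2
  have : Fact (s ∈ Icc (0 : ℝ) T) := ⟨hs⟩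
  refine intervalIntegral.integral_hasDerivWithinAt_right ?_ ?_ (hf s hs)
  · exact (hf.mono (Icc_subset_Icc le_rfl hs.2)).intervalIntegrable_of_Icc hs.1
  · exact hf.stronglyMeasurableAtFilter_nhdsWithin measurableSet_Icc s

lemma hasDerivWithinAt_ath (hW : ContinuousOn W (Ici 0)) (h : Alive W w T) {s : ℝ}
    (hs : s ∈ Icc 0 T) :
    HasDerivWithinAt (fun s => ath W s w) (1 / ‖Zfl W s w‖ ^ 2) (Icc 0 T) s :=
  hasDerivWithinAt_prim (continuousOn_inv_norm_sq hW h) hs

lemma continuousOn_ath (hW : ContinuousOn W (Ici 0)) (h : Alive W w T) :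
    ContinuousOn (fun s => ath W s w) (Icc 0 T) :=
  fun _ hs => (hasDerivWithinAt_ath hW h hs).continuousWithinAt

lemma strictMonoOn_ath (hW : ContinuousOn W (Ici 0)) (h : Alive W w T) :
    StrictMonoOn (fun s => ath W s w) (Icc 0 T) := by
  refine strictMonoOn_of_deriv_pos (convex_Icc 0 T) (continuousOn_ath hW h) fun s hs => ?_
  rw [interior_Icc] at hs
  have h1 := (hasDerivWithinAt_ath hW h (Ioo_subset_Icc_self hs)).hasDerivAt
    (Icc_mem_nhds hs.1 hs.2)
  rw [h1.deriv]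
  have := Zfl_ne_zero (h.mono hs.1.le hs.2.le)
  positivity

lemma hasDerivWithinAt_ups (hW : ContinuousOn W (Ici 0)) (h : Alive W w T) {s : ℝ}
    (hs : s ∈ Icc 0 T) :
    HasDerivWithinAt (fun s => ups W s w)
      (-(4 * (Zfl W s w).im ^ 2 / ‖Zfl W s w‖ ^ 4) * ups W s w) (Icc 0 T) s := by
  have h1 := hasDerivWithinAt_im (hasDerivWithinAt_gfl' h hs)
  have h2 := (hasDerivWithinAt_prim (continuousOn_re_inv_sq hW h) hs).exp
  have h3 := h1.mul h2
  refine h3.congr_deriv ?_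
  have hne := Zfl_ne_zero (h.mono hs.1 hs.2)
  have hY : (gfl W s w).im = (Zfl W s w).im := (Zfl_im W s w).symm
  simp only [ups]
  rw [hY]
  generalize Zfl W s w = Z at hne
  generalize (∫ v in (0 : ℝ)..s, 2 * (((Zfl W v w) ^ 2)⁻¹).re) = J
  have e4 : Complex.normSq Z = Z.re ^ 2 + Z.im ^ 2 := by
    rw [Complex.normSq_apply]; ring
  have hn : Complex.normSq Z ≠ 0 := fun h0 => hne (Complex.normSq_eq_zero.1 h0)
  have e1 : (2 / Z).im = -(2 * Z.im / Complex.normSq Z) := by
    rw [Complex.div_im]; simp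
  have e2 : ((Z ^ 2)⁻¹).re = (Z.re ^ 2 - Z.im ^ 2) / (Complex.normSq Z) ^ 2 := by
    rw [Complex.inv_re, map_pow]
    congr 1
    simp [pow_two]
  have e3 : ‖Z‖ ^ 4 = (Complex.normSq Z) ^ 2 := by
    rw [Complex.normSq_eq_norm_sq]; ring
  rw [e1, e2, e3]
  have key : -(2 * Z.im / Complex.normSq Z) +
      Z.im * (2 * ((Z.re ^ 2 - Z.im ^ 2) / (Complex.normSq Z) ^ 2)) =
      -(4 * Z.im ^ 2 / (Complex.normSq Z) ^ 2) * Z.im := by
    field_simp
    rw [e4]
    ring
  calc -(2 * Z.im / Complex.normSq Z) * Real.exp J +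
      Z.im * (Real.exp J * (2 * ((Z.re ^ 2 - Z.im ^ 2) / (Complex.normSq Z) ^ 2)))
      = (-(2 * Z.im / Complex.normSq Z) +
      Z.im * (2 * ((Z.re ^ 2 - Z.im ^ 2) / (Complex.normSq Z) ^ 2))) * Real.exp J := by ring
    _ = -(4 * Z.im ^ 2 / (Complex.normSq Z) ^ 2) * (Z.im * Real.exp J) := by
      rw [key]; ring

lemma ups_pos (h : Alive W w T) : 0 < ups W T w :=
  mul_pos (gfl_im_pos h) (Real.exp_pos _)

lemma continuousOn_ups (hW : ContinuousOn W (Ici 0)) (h : Alive W w T) :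
    ContinuousOn (fun s => ups W s w) (Icc 0 T) :=
  fun _ hs => (hasDerivWithinAt_ups hW h hs).continuousWithinAt

lemma strictAntiOn_ups (hW : ContinuousOn W (Ici 0)) (h : Alive W w T) :
    StrictAntiOn (fun s => ups W s w) (Icc 0 T) := by
  refine strictAntiOn_of_deriv_neg (convex_Icc 0 T) (continuousOn_ups hW h) fun s hs => ?_
  rw [interior_Icc] at hs
  have hs' := Ioo_subset_Icc_self hs
  have h1 := (hasDerivWithinAt_ups hW h hs').hasDerivAt (Icc_mem_nhds hs.1 hs.2)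
  rw [h1.deriv]
  have ha := h.mono hs'.1 hs'.2
  have h2 := Zfl_ne_zero ha
  have h3 := Zfl_im_pos ha
  have h4 := ups_pos ha
  have : 0 < 4 * (Zfl W s w).im ^ 2 / ‖Zfl W s w‖ ^ 4 * ups W s w := by positivity
  linarith

/-- the two times of a trigger are unique -/
theorem _root_.Crest.Agent.R162.UB.TrigAt.unique (hW : ContinuousOn W (Ici 0))
    {r N δ σ σ₂ T₂ : ℝ} (h : TrigAt W w r N δ σ T) (h₂ : TrigAt W w r N δ σ₂ T₂) :
    σ = σ₂ ∧ T = T₂ := by
  have h0 : Alive W w (max T T₂) := by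
    rcases le_total T T₂ with h' | h'
    · rw [max_eq_right h']; exact h₂.alive
    · rw [max_eq_left h']; exact h.alive
  have hσ : σ ∈ Icc 0 (max T T₂) := ⟨h.nonneg, h.le.trans (le_max_left _ _)⟩
  have hσ₂ : σ₂ ∈ Icc 0 (max T T₂) := ⟨h₂.nonneg, h₂.le.trans (le_max_right _ _)⟩
  have e1 : σ = σ₂ := (strictAntiOn_ups hW h0).injOn hσ hσ₂ (h.ups_eq.trans h₂.ups_eq.symm)
  subst e1
  refine ⟨rfl, ?_⟩
  have hT : T ∈ Icc 0 (max T T₂) := ⟨h.nonneg.trans h.le, le_max_left _ _⟩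
  have hT₂ : T₂ ∈ Icc 0 (max T T₂) := ⟨h.nonneg.trans h₂.le, le_max_right _ _⟩
  refine (strictMonoOn_ath hW h0).injOn hT hT₂ ?_
  have e3 := h.dur_eq
  have e4 := h₂.dur_eq
  linarith

end det

/-! ### measurability -/

section meas

variable {Ω : Type*} [MeasurableSpace Ω] {W : Ω → ℝ → ℝ} {w : ℂ} {t : ℝ}

lemma measurable_ups_at (hc : ∀ ω, ContinuousOn (W ω) (Ici 0))
    (hm : ∀ s ∈ Icc 0 t, Measurable (fun ω => W ω s)) {s : ℝ} (hs : s ∈ Icc 0 t) (w : ℂ) :
    Measurable (fun ω => ups (W ω) s w) := by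
  have h := FLD.measurable_ups (W := W) (t := s) hs.1
    (fun ω => (hc ω).mono Icc_subset_Ici_self) (fun v hv => hm v ⟨hv.1, hv.2.trans hs.2⟩)
  have h2 : Measurable (fun ω : Ω => (ω, w)) := measurable_id.prodMk measurable_const
  have h3 := h.comp h2
  simp only [Function.comp_def] at h3
  unfold ups
  exact h3

lemma measurable_ath_at (hc : ∀ ω, ContinuousOn (W ω) (Ici 0))
    (hm : ∀ s ∈ Icc 0 t, Measurable (fun ω => W ω s)) {s : ℝ} (hs : s ∈ Icc 0 t) (w : ℂ) :
    Measurable (fun ω => ath (W ω) s w) := by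
  have h := FLD.measurable_ath (W := W) (t := s) hs.1
    (fun ω => (hc ω).mono Icc_subset_Ici_self) (fun v hv => hm v ⟨hv.1, hv.2.trans hs.2⟩)
  have h2 : Measurable (fun ω : Ω => (ω, w)) := measurable_id.prodMk measurable_const
  have h3 := h.comp h2
  simp only [Function.comp_def] at h3
  unfold ath
  exact h3

lemma measurable_Zfl_at (hc : ∀ ω, ContinuousOn (W ω) (Ici 0))
    (hm : ∀ s ∈ Icc 0 t, Measurable (fun ω => W ω s)) {s : ℝ} (hs : s ∈ Icc 0 t) (w : ℂ) :
    Measurable (fun ω => Zfl (W ω) s w) := by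
  have h := FLD.measurable_gfl (W := W) (t := t) (s := s) w hs.2
    (fun ω => (hc ω).mono Icc_subset_Ici_self) hm
  exact h.sub (Complex.measurable_ofReal.comp (hm s hs))

lemma measurable_sfl_at (hc : ∀ ω, ContinuousOn (W ω) (Ici 0))
    (hm : ∀ s ∈ Icc 0 t, Measurable (fun ω => W ω s)) {s : ℝ} (hs : s ∈ Icc 0 t) (w : ℂ) :
    Measurable (fun ω => sfl (W ω) s w) := by
  have h := measurable_Zfl_at hc hm hs w
  exact (Complex.measurable_im.comp h).div h.norm

lemma measurable_xfl_at (hc : ∀ ω, ContinuousOn (W ω) (Ici 0))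
    (hm : ∀ s ∈ Icc 0 t, Measurable (fun ω => W ω s)) {s : ℝ} (hs : s ∈ Icc 0 t) (w : ℂ) :
    Measurable (fun ω => xfl (W ω) s w) := by
  have h := measurable_Zfl_at hc hm hs w
  exact Real.continuous_arsinh.measurable.comp
    ((Complex.measurable_re.comp h).neg.div (Complex.measurable_im.comp h))

lemma continuousOn_sfl {W : ℝ → ℝ} (hW : ContinuousOn W (Ici 0)) (h : Alive W w t) :
    ContinuousOn (fun s => sfl W s w) (Icc 0 t) := by
  have h1 := continuousOn_Zfl hW h
  refine (Complex.continuous_im.comp_continuousOn h1).div h1.norm fun s hs => ?_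
  exact norm_ne_zero_iff.2 (Zfl_ne_zero (h.mono hs.1 hs.2))

lemma continuousOn_xfl {W : ℝ → ℝ} (hW : ContinuousOn W (Ici 0)) (h : Alive W w t) :
    ContinuousOn (fun s => xfl W s w) (Icc 0 t) := by
  have h1 := continuousOn_Zfl hW h
  refine Real.continuous_arsinh.comp_continuousOn ?_
  refine (Complex.continuous_re.comp_continuousOn h1).neg.div
    (Complex.continuous_im.comp_continuousOn h1) fun s hs => ?_
  exact (Zfl_im_pos (h.mono hs.1 hs.2)).ne'

/-- clamping to `[0, t]` -/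
lemma clamp_facts (ht : 0 ≤ t) : Continuous (fun s : ℝ => max 0 (min s t)) ∧
    (∀ s : ℝ, max 0 (min s t) ∈ Icc 0 t) ∧ ∀ s ∈ Icc 0 t, max 0 (min s t) = s := by
  refine ⟨by fun_prop, fun s => ⟨le_max_left _ _, max_le ht (min_le_right _ _)⟩, fun s hs => ?_⟩
  rw [min_eq_left hs.2, max_eq_right hs.1]

open Classical in
/-- general continuity / measurability of a process frozen off the event `alive at t` -/
lemma ext_facts (ht : 0 ≤ t) (hc : ∀ ω, ContinuousOn (W ω) (Ici 0))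
    (hm : ∀ s ∈ Icc 0 t, Measurable (fun ω => W ω s)) (w : ℂ) (φ : (ℝ → ℝ) → ℝ → ℂ → ℝ)
    (h1 : ∀ W : ℝ → ℝ, ContinuousOn W (Ici 0) → Alive W w t →
      ContinuousOn (fun s => φ W s w) (Icc 0 t))
    (h2 : ∀ s ∈ Icc 0 t, Measurable (fun ω => φ (W ω) s w)) :
    (∀ ω, Continuous fun s =>
      if Alive (W ω) w t then φ (W ω) (max 0 (min s t)) w else 0) ∧
    (∀ s, Measurable fun ω =>
      if Alive (W ω) w t then φ (W ω) (max 0 (min s t)) w else 0) := by
  obtain ⟨c1, c2, c3⟩ := clamp_facts ht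
  constructor
  · intro ω
    by_cases hA : Alive (W ω) w t
    · simp only [hA, if_true]
      exact (h1 (W ω) (hc ω) hA).comp_continuous c1 c2
    · simp only [hA, if_false]
      exact continuous_const
  · intro s
    refine Measurable.ite ?_ (h2 _ (c2 s)) measurable_const
    exact FLD.measurableSet_alive (W := W) w (fun ω => (hc ω).mono Icc_subset_Ici_self) hm

theorem measurableSet_alive_trig (ht : 0 ≤ t) (hc : ∀ ω, ContinuousOn (W ω) (Ici 0))
    (hm : ∀ s ∈ Icc 0 t, Measurable (fun ω => W ω s)) (w : ℂ) (r N δ : ℝ) :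
    MeasurableSet {ω | Alive (W ω) w t ∧ ∃ σ T, T ≤ t ∧ TrigAt (W ω) w r N δ σ T} := by
  classical
  obtain ⟨u1, u2⟩ := ext_facts ht hc hm w ups (fun W hW h => continuousOn_ups hW h)
    (fun s hs => measurable_ups_at hc hm hs w)
  obtain ⟨a1, a2⟩ := ext_facts ht hc hm w ath (fun W hW h => continuousOn_ath hW h)
    (fun s hs => measurable_ath_at hc hm hs w)
  obtain ⟨x1, x2⟩ := ext_facts ht hc hm w xfl (fun W hW h => continuousOn_xfl hW h)
    (fun s hs => measurable_xfl_at hc hm hs w)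
  obtain ⟨S1, S2⟩ := ext_facts ht hc hm w sfl (fun W hW h => continuousOn_sfl hW h)
    (fun s hs => measurable_sfl_at hc hm hs w)
  have hE : MeasurableSet {ω | Alive (W ω) w t} :=
    FLD.measurableSet_alive (W := W) w (fun ω => (hc ω).mono Icc_subset_Ici_self) hm
  have hmain := hE.inter (measurableSet_abs ht u1 u2 a1 a2 x1 x2 S1 S2 r N δ)
  obtain ⟨c1, c2, c3⟩ := clamp_facts ht
  convert hmain using 1
  ext ω
  simp only [mem_ofPred_eq, mem_inter_iff]
  refine and_congr_right fun hA => ?_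
  simp only [hA, if_true]
  constructor
  · rintro ⟨σ, T, h1, h2⟩
    have m1 : σ ∈ Icc 0 t := ⟨h2.nonneg, h2.le.trans h1⟩
    have m2 : T ∈ Icc 0 t := ⟨h2.nonneg.trans h2.le, h1⟩
    refine ⟨σ, T, h2.nonneg, h2.le, h1, ?_, ?_, ?_, ?_⟩
    · rw [c3 σ m1]; exact h2.ups_eq
    · rw [c3 σ m1]; exact h2.sfl_ge
    · rw [c3 σ m1, c3 T m2]; exact h2.dur_eq
    · intro s hs
      rw [c3 σ m1, c3 s ⟨m1.1.trans hs.1, hs.2.trans h1⟩]
      exact h2.tube s hs
  · rintro ⟨σ, T, h0, h1, h2, h3, h4, h5, h6⟩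
    have m1 : σ ∈ Icc 0 t := ⟨h0, h1.trans h2⟩
    have m2 : T ∈ Icc 0 t := ⟨h0.trans h1, h2⟩
    rw [c3 σ m1] at h3 h4 h5 h6
    rw [c3 T m2] at h5
    refine ⟨σ, T, h2, h0, h1, hA.mono m2.1 m2.2, h3, h4, h5, ?_⟩
    intro s hs
    have := h6 s hs
    rwa [c3 s ⟨m1.1.trans hs.1, hs.2.trans h2⟩] at this

theorem measurableSet_trig_le (ht : 0 ≤ t) (hc : ∀ ω, ContinuousOn (W ω) (Ici 0))
    (hm : ∀ s ∈ Icc 0 t, Measurable (fun ω => W ω s)) (w : ℂ) (r N δ : ℝ) :
    MeasurableSet {ω | ∃ σ T, T ≤ t ∧ TrigAt (W ω) w r N δ σ T} := by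
  have : {ω | ∃ σ T, T ≤ t ∧ TrigAt (W ω) w r N δ σ T} =
      {ω | Alive (W ω) w t ∧ ∃ σ T, T ≤ t ∧ TrigAt (W ω) w r N δ σ T} ∪
      ⋃ (q : ℚ) (_ : (0 : ℝ) ≤ q ∧ (q : ℝ) ≤ t),
        {ω | Alive (W ω) w q ∧ ∃ σ T, T ≤ (q : ℝ) ∧ TrigAt (W ω) w r N δ σ T} := by
    ext ω
    simp only [mem_ofPred_eq, mem_union, mem_iUnion, exists_prop]
    constructor
    · rintro ⟨σ, T, h1, h2⟩
      rcases h1.eq_or_lt with h1' | h1'
      · subst h1'
        exact Or.inl ⟨h2.alive, σ, _, le_rfl, h2⟩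
      · right
        obtain ⟨v, hv1, η, hη, hv⟩ := h2.alive.exists_gt (hc ω)
        have hv2 : Alive (W ω) w v := hv w (by simpa using hη)
        obtain ⟨q, hq1, hq2⟩ := exists_rat_btwn (lt_min h1' hv1)
        have hT := h2.nonneg.trans h2.le
        refine ⟨q, ⟨hT.trans hq1.le, hq2.le.trans (min_le_left _ _)⟩,
          hv2.mono (hT.trans hq1.le) (hq2.le.trans (min_le_right _ _)), σ, T, hq1.le, h2⟩
    · rintro (⟨_, h⟩ | ⟨q, ⟨_, hq⟩, _, σ, T, h1, h2⟩)
      · exact h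
      · exact ⟨σ, T, h1.trans hq, h2⟩
  rw [this]
  refine (measurableSet_alive_trig ht hc hm w r N δ).union ?_
  refine MeasurableSet.iUnion fun q => MeasurableSet.iUnion fun hq => ?_
  exact measurableSet_alive_trig hq.1 hc (fun s hs => hm s ⟨hs.1, hs.2.trans hq.2⟩) w r N δ

end meas

/-! ### Brownian form -/

section bm

variable {Ω : Type*} {m : MeasurableSpace Ω} {F : Filtration ℝ≥0 m} {B : ℝ≥0 → Ω → ℝ}
  {P : Measure Ω}

lemma continuousOn_driving (hB : IsBM F B P) (κ : ℝ) (ω : Ω) :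
    ContinuousOn (driving κ B ω) (Ici 0) := by
  have h : Continuous (driving κ B ω) :=
    continuous_const.mul ((hB.cont ω).comp continuous_real_toNNReal)
  exact h.continuousOn

lemma measurable_driving (hB : IsBM F B P) (κ : ℝ) {t : ℝ≥0} {s : ℝ} (hs : s ∈ Icc 0 (t : ℝ)) :
    Measurable[F t] (fun ω => driving κ B ω s) := by
  have h1 : s.toNNReal ≤ t := Real.toNNReal_le_iff_le_coe.2 hs.2
  have h2 : Measurable[F t] (B s.toNNReal) := (hB.adapted s.toNNReal).mono (F.mono h1) le_rfl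
  exact (measurable_const_mul (Real.sqrt κ)).comp h2

/-- **U3M**: the trigger time is a stopping time. -/
theorem measurableSet_trig (hB : IsBM F B P) (κ : ℝ) (w : ℂ) (r N δ : ℝ) (t : ℝ≥0) :
    MeasurableSet[F t] {ω | ∃ σ T, T ≤ (t : ℝ) ∧ TrigAt (driving κ B ω) w r N δ σ T} :=
  @measurableSet_trig_le Ω (F t) (fun ω => driving κ B ω) t t.2
    (fun ω => continuousOn_driving hB κ ω) (fun _ hs => measurable_driving hB κ hs) w r N δ

/-- the trigger occurs before time `Tm` -/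
def trigA (κ : ℝ) (B : ℝ≥0 → Ω → ℝ) (w : ℂ) (r N δ : ℝ) (Tm : ℝ≥0) : Set Ω :=
  {ω | ∃ σ T, T ≤ (Tm : ℝ) ∧ TrigAt (driving κ B ω) w r N δ σ T}

open Classical in
/-- the trigger time, `Tm` if the trigger does not occur before time `Tm` -/
noncomputable def trigT (κ : ℝ) (B : ℝ≥0 → Ω → ℝ) (w : ℂ) (r N δ : ℝ) (Tm : ℝ≥0) (ω : Ω) : ℝ≥0 :=
  if h : ∃ T : ℝ≥0, T ≤ Tm ∧ ∃ σ, TrigAt (driving κ B ω) w r N δ σ T then h.choose else Tm

open Classical in
/-- the trigger time, `⊤` if there is no trigger -/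
noncomputable def trigTop (κ : ℝ) (B : ℝ≥0 → Ω → ℝ) (w : ℂ) (r N δ : ℝ) (ω : Ω) : WithTop ℝ≥0 :=
  if h : ∃ T : ℝ≥0, ∃ σ, TrigAt (driving κ B ω) w r N δ σ T then ((h.choose : ℝ≥0) : WithTop ℝ≥0)
  else ⊤

variable {κ : ℝ} {w : ℂ} {r N δ : ℝ} {Tm : ℝ≥0}

lemma mem_trigA_iff {ω : Ω} : ω ∈ trigA κ B w r N δ Tm ↔
    ∃ T : ℝ≥0, T ≤ Tm ∧ ∃ σ, TrigAt (driving κ B ω) w r N δ σ T := by
  constructor
  · rintro ⟨σ, T, h1, h2⟩
    have hT : 0 ≤ T := h2.nonneg.trans h2.le
    exact ⟨⟨T, hT⟩, h1, σ, h2⟩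
  · rintro ⟨T, h1, σ, h2⟩
    exact ⟨σ, T, h1, h2⟩

lemma trigT_le (ω : Ω) : trigT κ B w r N δ Tm ω ≤ Tm := by
  unfold trigT
  split_ifs with h
  · exact h.choose_spec.1
  · exact le_rfl

lemma trigA_spec {ω : Ω} (h : ω ∈ trigA κ B w r N δ Tm) :
    ∃ σ, TrigAt (driving κ B ω) w r N δ σ (trigT κ B w r N δ Tm ω) := by
  have h' := mem_trigA_iff.1 h
  unfold trigT
  rw [dif_pos h']
  exact h'.choose_spec.2

lemma trigT_of_notMem {ω : Ω} (h : ω ∉ trigA κ B w r N δ Tm) :
    trigT κ B w r N δ Tm ω = Tm := by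
  have h' := fun h1 => h (mem_trigA_iff.2 h1)
  unfold trigT
  rw [dif_neg h']

lemma trigA_mono {Tm' : ℝ≥0} (h : Tm ≤ Tm') : trigA κ B w r N δ Tm ⊆ trigA κ B w r N δ Tm' :=
  fun _ ⟨σ, T, h1, h2⟩ => ⟨σ, T, h1.trans h, h2⟩

lemma trig_iff {ω : Ω} : Trig (driving κ B ω) w r N δ ↔ ∃ n : ℕ, ω ∈ trigA κ B w r N δ n := by
  constructor
  · rintro ⟨σ, T, h⟩
    obtain ⟨n, hn⟩ := exists_nat_ge T
    exact ⟨n, σ, T, by simpa using hn, h⟩
  · rintro ⟨n, σ, T, _, h⟩
    exact ⟨σ, T, h⟩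

lemma trigT_eq (hB : IsBM F B P) {ω : Ω} {σ T : ℝ} (h : TrigAt (driving κ B ω) w r N δ σ T)
    (hT : T ≤ (Tm : ℝ)) : (trigT κ B w r N δ Tm ω : ℝ) = T := by
  obtain ⟨σ', h'⟩ := trigA_spec (κ := κ) (B := B) (w := w) (r := r) (N := N) (δ := δ) (Tm := Tm)
    (ω := ω) ⟨σ, T, hT, h⟩
  exact (h'.unique (continuousOn_driving hB κ ω) h).2

theorem isST_trigT (hB : IsBM F B P) (κ : ℝ) (w : ℂ) (r N δ : ℝ) (Tm : ℝ≥0) :
    IsST F (trigT κ B w r N δ Tm) := by
  intro t
  by_cases ht : Tm ≤ t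
  · have : {ω | trigT κ B w r N δ Tm ω ≤ t} = univ := by
      ext ω
      simp only [mem_ofPred_eq, mem_univ, iff_true]
      exact (trigT_le ω).trans ht
    rw [this]
    exact @MeasurableSet.univ _ (F t)
  · have : {ω | trigT κ B w r N δ Tm ω ≤ t} =
        {ω | ∃ σ T, T ≤ (t : ℝ) ∧ TrigAt (driving κ B ω) w r N δ σ T} := by
      ext ω
      simp only [mem_ofPred_eq]
      constructor
      · intro h
        by_cases hA : ω ∈ trigA κ B w r N δ Tm
        · obtain ⟨σ, hσ⟩ := trigA_spec hA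
          exact ⟨σ, _, h, hσ⟩
        · rw [trigT_of_notMem hA] at h
          exact absurd h ht
      · rintro ⟨σ, T, h1, h2⟩
        have h3 := trigT_eq (Tm := Tm) hB h2 (h1.trans (not_le.1 ht).le)
        rw [← NNReal.coe_le_coe, h3]
        exact h1
    rw [this]
    exact measurableSet_trig hB κ w r N δ t

theorem evST_trigA (hB : IsBM F B P) (κ : ℝ) (w : ℂ) (r N δ : ℝ) (Tm : ℝ≥0) :
    EvST F (trigT κ B w r N δ Tm) (trigA κ B w r N δ Tm) := by
  intro t
  have : trigA κ B w r N δ Tm ∩ {ω | trigT κ B w r N δ Tm ω ≤ t} =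
      {ω | ∃ σ T, T ≤ ((min t Tm : ℝ≥0) : ℝ) ∧ TrigAt (driving κ B ω) w r N δ σ T} := by
    ext ω
    simp only [mem_ofPred_eq, mem_inter_iff]
    constructor
    · rintro ⟨hA, h⟩
      obtain ⟨σ, hσ⟩ := trigA_spec hA
      exact ⟨σ, _, le_min h (trigT_le ω), hσ⟩
    · rintro ⟨σ, T, h1, h2⟩
      have h4 : T ≤ (Tm : ℝ) := h1.trans (NNReal.coe_le_coe.2 (min_le_right _ _))
      have h5 : T ≤ (t : ℝ) := h1.trans (NNReal.coe_le_coe.2 (min_le_left _ _))
      have h3 := trigT_eq (Tm := Tm) hB h2 h4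
      refine ⟨⟨σ, T, h4, h2⟩, ?_⟩
      rw [← NNReal.coe_le_coe, h3]
      exact h5
  rw [this]
  exact F.mono (min_le_left t Tm) _ (measurableSet_trig hB κ w r N δ (min t Tm))

lemma trigTop_spec {ω : Ω} {T : ℝ≥0} (h : trigTop κ B w r N δ ω = T) :
    ∃ σ, TrigAt (driving κ B ω) w r N δ σ T := by
  unfold trigTop at h
  split_ifs at h with h'
  · have := h'.choose_spec
    rw [WithTop.coe_inj.1 h] at this
    exact this
  · exact absurd h.symm (WithTop.coe_ne_top)

lemma trigTop_eq (hB : IsBM F B P) {ω : Ω} {σ : ℝ} {T : ℝ≥0}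
    (h : TrigAt (driving κ B ω) w r N δ σ T) : trigTop κ B w r N δ ω = T := by
  have h' : ∃ T : ℝ≥0, ∃ σ, TrigAt (driving κ B ω) w r N δ σ T := ⟨T, σ, h⟩
  unfold trigTop
  rw [dif_pos h', WithTop.coe_inj]
  obtain ⟨σ', hσ'⟩ := h'.choose_spec
  exact NNReal.coe_injective (hσ'.unique (continuousOn_driving hB κ ω) h).2

lemma trig_iff_trigTop {ω : Ω} :
    Trig (driving κ B ω) w r N δ ↔ trigTop κ B w r N δ ω ≠ ⊤ := by
  unfold trigTop
  split_ifs with h
  · refine ⟨fun _ => WithTop.coe_ne_top, fun _ => ?_⟩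
    obtain ⟨T, σ, h'⟩ := h
    exact ⟨σ, T, h'⟩
  · refine ⟨fun ⟨σ, T, h'⟩ => absurd ⟨⟨T, h'.nonneg.trans h'.le⟩, σ, h'⟩ h, fun h' => absurd rfl h'⟩

theorem isStoppingTime_trigTop (hB : IsBM F B P) (κ : ℝ) (w : ℂ) (r N δ : ℝ) :
    IsStoppingTime F (trigTop κ B w r N δ) := by
  intro t
  have : {ω | trigTop κ B w r N δ ω ≤ (t : WithTop ℝ≥0)} =
      {ω | ∃ σ T, T ≤ (t : ℝ) ∧ TrigAt (driving κ B ω) w r N δ σ T} := by
    ext ω
    simp only [mem_ofPred_eq]
    constructor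
    · intro h
      have hne : trigTop κ B w r N δ ω ≠ ⊤ := ne_top_of_le_ne_top WithTop.coe_ne_top h
      obtain ⟨T, hT⟩ := WithTop.ne_top_iff_exists.1 hne
      obtain ⟨σ, hσ⟩ := trigTop_spec hT.symm
      rw [← hT, WithTop.coe_le_coe] at h
      exact ⟨σ, T, h, hσ⟩
    · rintro ⟨σ, T, h1, h2⟩
      have h3 := trigTop_eq (T := ⟨T, h2.nonneg.trans h2.le⟩) hB h2
      rw [h3, WithTop.coe_le_coe]
      exact h1
  rw [this]
  exact measurableSet_trig hB κ w r N δ t

end bm

end Crest.Agent.R162.U3M
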