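import Mathlib
import Crest.Agent.R162.U3d
import Crest.Agent.R162.Rad2

/-!
Row 162 (S0243), node U3, part e: the trigger probability at a radial level.
-/

set_option autoImplicit false

open MeasureTheory ProbabilityTheory Set
open scoped NNReal ENNReal Topology
open Crest.ProbabilityR.Loewner
open Crest.Agent.R162.FL Crest.Agent.R162.OP Crest.Agent.R162.OS Crest.Agent.R162.UB

namespace Crest.Agent.R162.U3

universe u

variable {Ω : Type u} {m : MeasurableSpace Ω} {P : Measure Ω} {Fl : Filtration ℝ≥0 m}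
  {B : ℝ≥0 → Ω → ℝ} {κ : ℝ} {w : ℂ}

theorem xfl_le_of_sfl {W : ℝ → ℝ} {t δ : ℝ} (hδ : 0 < δ) (hW : ContinuousOn W (Ici 0))
    (h : Alive W w t) (hs : δ ≤ sfl W t w) : |xfl W t w| ≤ Real.log (2 / δ) := by
  have hF := flowFacts W w t hW h
  have ht : t ∈ Icc (0:ℝ) t := ⟨h.1, le_rfl⟩
  have h1 := hF.sfl_eq t ht
  rw [h1] at hs
  have h2 : Real.cosh (xfl W t w) ≤ 1 / δ := by
    rw [le_div_iff₀ hδ]
    have hc := Real.cosh_pos (xfl W t w)
    have := mul_le_mul_of_nonneg_left hs hc.le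
    rw [mul_inv_cancel₀ hc.ne'] at this
    exact this
  have h3 : Real.exp |xfl W t w| / 2 ≤ Real.cosh (xfl W t w) := by
    rw [← Real.cosh_abs, Real.cosh_eq]
    have := Real.exp_pos (-|xfl W t w|)
    linarith
  rw [Real.le_log_iff_exp_le (by positivity)]
  have : 2 / δ = 2 * (1 / δ) := by ring
  rw [this]
  linarith

/-- **Trigger probability at a radial level**, all separations `l ≥ l₁`. -/
theorem ext_prob_all (hM : OPM.{u}) [IsProbabilityMeasure P] (hB : IsBM Fl B P) (hκ : 0 < κ)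
    (hκ8 : κ < 8) {δ : ℝ} (hδ : 0 < δ) :
    ∃ l₁ : ℝ, 16 * Real.exp 2 * (Real.log (2 / δ) + 6) ≤ l₁ ∧ 0 ≤ l₁ ∧ ∀ l : ℝ, l₁ ≤ l →
      ∃ N₀ C c : ℝ, 0 ≤ C ∧ 0 < c ∧
      c ≤ 1 ∧ ∀ (w : ℂ) (hw : 0 < w.im) (s : ℝ), -Real.log w.im ≤ s → ∀ N, N₀ ≤ N →
      ∀ A, (Rad.oneP hM hB hκ hw).Past s A →
      (∀ ω ∈ A, δ ≤ sfl (driving κ B ω) ((Rad.oneP hM hB hκ hw).tau s ω) w) →
      ∃ E' : Set Ω, E' ⊆ A ∧ MeasurableSet E' ∧
        ENNReal.ofReal (c * Real.exp (-(C * N))) * P A ≤ P E' ∧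
        ∀ ω ∈ E', Trig (driving κ B ω) w (Real.exp (-s)) N δ ∧
          ω ∈ (Rad.oneP hM hB hκ hw).alive (s + l) ∧
          1 / Real.cosh 3 ≤ sfl (driving κ B ω) ((Rad.oneP hM hB hκ hw).tau (s + l) ω) w := by
  obtain ⟨l₁, hl₁, hx⟩ := x1' δ hδ
  refine ⟨max l₁ (16 * Real.exp 2 * (Real.log (2 / δ) + 6)), le_max_right _ _,
    hl₁.trans (le_max_left _ _), fun l hl => ?_⟩
  obtain ⟨E, hE1, N₀, hN₀, hx⟩ := hx l ((le_max_left _ _).trans hl)
  set X : ℝ := |Real.log (2 / δ)| with hX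
  have hX0 : 0 ≤ X := abs_nonneg _
  set L := lam κ (9 / 16) with hL
  have hL0 : 0 < L := lam_pos hκ (by norm_num)
  refine ⟨max N₀ (Real.exp (2 * X + 6)), 2 * L,
    1 / 2 * Real.exp (-(L * (X + E))), by positivity, by positivity, ?_, ?_⟩
  · have : Real.exp (-(L * (X + E))) ≤ 1 := by
      apply Real.exp_le_one_iff.2
      have : 0 ≤ L * (X + E) := by positivity
      linarith
    linarith
  intro w hw s hs N hN A hA hAδ
  set D := Rad.oneP hM hB hκ hw with hD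
  have hN1 : N₀ ≤ N := (le_max_left _ _).trans hN
  have hN2 : Real.exp (2 * X + 6) ≤ N := (le_max_right _ _).trans hN
  have hNpos : 0 < N := (Real.exp_pos _).trans_le hN2
  have hNone : 1 ≤ N := hN₀.trans hN1
  have hlogN : 2 * X + 6 ≤ Real.log N := (Real.le_log_iff_exp_le hNpos).2 hN2
  have hlogN' : Real.log N ≤ N - 1 := Real.log_le_sub_one_of_pos hNpos
  have hal : ∀ ω ∈ A, AliveP κ B w (D.tau s ω) ω := fun ω hω => (D.tau_mem (hA.1 hω)).1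
  have hstep : ∀ n : ℕ, ∃ A' : Set Ω, A' ⊆ A ∩ {ω | D.tau s ω ≤ n} ∧ MeasurableSet A' ∧
      ENNReal.ofReal (1 / 2 * Real.exp (-(L * (X + 1 + N + Real.log N - 2 + E)))) *
        P (A ∩ {ω | D.tau s ω ≤ n}) ≤ P A' ∧
      ∀ ω ∈ A', ∃ T : ℝ≥0, ∃ a0 ξ : ℝ, sig D s n ω ≤ T ∧ AliveP κ B w T ω ∧
        |xfl (driving κ B ω) (sig D s n ω) w - ξ| ≤ 1 / 8 ∧
        a0 ≤ ath (driving κ B ω) (sig D s n ω) w ∧
        ath (driving κ B ω) (sig D s n ω) w ≤ a0 + 1 / 8 ∧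
        ath (driving κ B ω) T w - a0 = ξ + N + Real.log N - 2 + E ∧
        ∀ t ∈ Icc (sig D s n ω : ℝ) T,
          |xfl (driving κ B ω) t w - psiE N ξ (ath (driving κ B ω) t w - a0)| ≤ 3 / 4 := by
    intro n
    refine ext_st hM hB hκ hκ8 hw hX0 (by linarith) hNone (by linarith) (sig_ST D s n)
      (sig_le D s n) (sig_EvST D hA n) ?_
    rintro ω ⟨hω, hωn⟩
    rw [sig_eq D (hA.1 hω) hωn]
    refine ⟨hal ω hω, ?_⟩
    exact (xfl_le_of_sfl hδ (continuousOn_driving (κ := κ) hB ω) (hal ω hω) (hAδ ω hω)).trans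
      (le_abs_self _)
  choose A' hA'1 hA'2 hA'3 hA'4 using hstep
  refine ⟨⋃ n, A' n, ?_, MeasurableSet.iUnion hA'2, ?_, ?_⟩
  · exact iUnion_subset fun n => (hA'1 n).trans inter_subset_left
  · have hmono : Monotone fun n : ℕ => A ∩ {ω | D.tau s ω ≤ n} := by
      intro a b hab ω hω
      have h2 : D.tau s ω ≤ (a : ℝ≥0) := hω.2
      have h3 : ((a : ℕ) : ℝ≥0) ≤ (b : ℝ≥0) := by exact_mod_cast hab
      exact ⟨hω.1, h2.trans h3⟩
    have hAU : A = ⋃ n : ℕ, A ∩ {ω | D.tau s ω ≤ n} := by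
      ext ω
      simp only [mem_iUnion, mem_inter_iff, mem_ofPred_eq]
      constructor
      · intro h
        obtain ⟨n, hn⟩ := exists_nat_ge (D.tau s ω)
        exact ⟨n, h, hn⟩
      · rintro ⟨n, h, _⟩; exact h
    have hc : 1 / 2 * Real.exp (-(L * (X + E))) * Real.exp (-(2 * L * N)) ≤
        1 / 2 * Real.exp (-(L * (X + 1 + N + Real.log N - 2 + E))) := by
      rw [mul_assoc, ← Real.exp_add]
      apply mul_le_mul_of_nonneg_left _ (by norm_num)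
      apply Real.exp_le_exp.2
      have : L * (X + 1 + N + Real.log N - 2 + E) ≤ L * (X + E + 2 * N) :=
        mul_le_mul_of_nonneg_left (by linarith) hL0.le
      nlinarith
    conv_lhs => rw [hAU]
    rw [hmono.measure_iUnion, ENNReal.mul_iSup]
    refine iSup_le fun n => ?_
    calc _ ≤ ENNReal.ofReal (1 / 2 * Real.exp (-(L * (X + 1 + N + Real.log N - 2 + E)))) *
          P (A ∩ {ω | D.tau s ω ≤ n}) := by
          gcongr
      _ ≤ P (A' n) := hA'3 n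
      _ ≤ P (⋃ n, A' n) := measure_mono (subset_iUnion _ _)
  · intro ω hω
    obtain ⟨n, hn⟩ := mem_iUnion.1 hω
    obtain ⟨T, a0, ξ, hT, hTal, hξ, ha1, ha2, hTa, htube⟩ := hA'4 n ω hn
    have hωA := hA'1 n hn
    rw [sig_eq D (hA.1 hωA.1) hωA.2] at hT hξ ha1 ha2 htube
    have hWc := continuousOn_driving (κ := κ) hB ω
    have hF := flowFacts _ w _ hWc hTal
    have hτI : ((D.tau s ω : ℝ≥0) : ℝ) ∈ Icc (0:ℝ) T := ⟨NNReal.coe_nonneg _, by exact_mod_cast hT⟩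
    have hups : ups (driving κ B ω) (D.tau s ω) w = Real.exp (-s) := by
      have h1 : Real.log (ups (driving κ B ω) (D.tau s ω) w) = -s := D.L_tau hs (hA.1 hωA.1)
      rw [← h1, Real.exp_log (hF.ups_pos _ hτI)]
    obtain ⟨T', hT', htr, t0, ht0, hu0, hlt, _, hsf, _, _⟩ := hx (driving κ B ω) w (Real.exp (-s))
      N (D.tau s ω) T a0 ξ hWc hN1 (NNReal.coe_nonneg _) (by exact_mod_cast hT) hTal hups
      (hAδ ω hωA.1) hξ ha1 ha2 hTa htube
    refine ⟨⟨_, _, htr⟩, ?_⟩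
    have ht00 : 0 ≤ t0 := ((NNReal.coe_nonneg _).trans hT'.1).trans ht0.1
    lift t0 to ℝ≥0 using ht00
    have ht0T : (t0 : ℝ) ≤ T := ht0.2
    have hal0 : AliveP κ B w t0 ω := Alive.mono hTal (NNReal.coe_nonneg _) ht0T
    have hlog0 : Real.log (ups (driving κ B ω) t0 w) = -(s + l) := by
      rw [hu0, ← Real.exp_add, Real.log_exp]; ring
    have hmem : D.al t0 ω ∧ (D.st t0 ω).2.2.1 ≤ -(s + l) := ⟨hal0, le_of_eq hlog0⟩
    have halive : ω ∈ D.alive (s + l) := ⟨t0, hmem⟩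
    have hle : D.tau (s + l) ω ≤ t0 := D.tau_le hmem.1 hmem.2
    have hge : t0 ≤ D.tau (s + l) ω := by
      by_contra hcon
      push Not at hcon
      have h1 := hlt (D.tau (s + l) ω) (NNReal.coe_nonneg _) (by exact_mod_cast hcon)
      have h2 := (D.tau_mem halive).2
      have h3 : Real.log (ups (driving κ B ω) (D.tau (s + l) ω) w) ≤ -(s + l) := h2
      have h4 : 0 < Real.exp (-s) * Real.exp (-l) := by positivity
      have h5 := Real.log_lt_log h4 h1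
      rw [← Real.exp_add, Real.log_exp] at h5
      linarith
    have heq : D.tau (s + l) ω = t0 := le_antisymm hle hge
    refine ⟨halive, ?_⟩
    rw [heq]
    exact hsf

/-- **Trigger probability at a radial level**, one separation `l`. -/
theorem ext_prob (hM : OPM.{u}) [IsProbabilityMeasure P] (hB : IsBM Fl B P) (hκ : 0 < κ)
    (hκ8 : κ < 8) {δ : ℝ} (hδ : 0 < δ) :
    ∃ l : ℝ, 16 * Real.exp 2 * (Real.log (2 / δ) + 6) ≤ l ∧ 0 ≤ l ∧ ∃ N₀ C c : ℝ, 0 ≤ C ∧ 0 < c ∧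
      c ≤ 1 ∧ ∀ (w : ℂ) (hw : 0 < w.im) (s : ℝ), -Real.log w.im ≤ s → ∀ N, N₀ ≤ N →
      ∀ A, (Rad.oneP hM hB hκ hw).Past s A →
      (∀ ω ∈ A, δ ≤ sfl (driving κ B ω) ((Rad.oneP hM hB hκ hw).tau s ω) w) →
      ∃ E' : Set Ω, E' ⊆ A ∧ MeasurableSet E' ∧
        ENNReal.ofReal (c * Real.exp (-(C * N))) * P A ≤ P E' ∧
        ∀ ω ∈ E', Trig (driving κ B ω) w (Real.exp (-s)) N δ ∧
          ω ∈ (Rad.oneP hM hB hκ hw).alive (s + l) ∧
          1 / Real.cosh 3 ≤ sfl (driving κ B ω) ((Rad.oneP hM hB hκ hw).tau (s + l) ω) w := by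
  obtain ⟨l₁, h1, h2, h3⟩ := ext_prob_all hM hB hκ hκ8 hδ
  exact ⟨l₁, h1, h2, h3 l₁ le_rfl⟩

/-- the form wanted by helper204's `U3H` (`ExtProb`) -/
theorem extProb (hM : OPM.{u}) [IsProbabilityMeasure P] (hB : IsBM Fl B P) (hκ : 0 < κ)
    (hκ8 : κ < 8) : ∀ δ : ℝ, 0 < δ → ∃ l₁ : ℝ, ∀ l : ℝ, l₁ ≤ l → ∃ N₀ C c : ℝ, 0 ≤ C ∧ 0 < c ∧
      ∀ (w : ℂ) (hw : 0 < w.im) (s : ℝ), -Real.log w.im ≤ s → ∀ N, N₀ ≤ N →
      ∀ A, (Rad.oneP hM hB hκ hw).Past s A →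
      (∀ ω ∈ A, δ ≤ sfl (driving κ B ω) ((Rad.oneP hM hB hκ hw).tau s ω) w) →
      ∃ E' : Set Ω, E' ⊆ A ∧ MeasurableSet E' ∧
        ENNReal.ofReal (c * Real.exp (-(C * N))) * P A ≤ P E' ∧
        ∀ ω ∈ E', Trig (driving κ B ω) w (Real.exp (-s)) N δ ∧
          ω ∈ (Rad.oneP hM hB hκ hw).alive (s + l) ∧
          1 / Real.cosh 3 ≤ sfl (driving κ B ω) ((Rad.oneP hM hB hκ hw).tau (s + l) ω) w := by
  intro δ hδ
  obtain ⟨l₁, -, -, h3⟩ := ext_prob_all hM hB hκ hκ8 hδ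
  refine ⟨l₁, fun l hl => ?_⟩
  obtain ⟨N₀, C, c, hC, hc, -, h⟩ := h3 l hl
  exact ⟨N₀, C, c, hC, hc, h⟩

end Crest.Agent.R162.U3
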