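import Mathlib
import Crest.Prelude.Def_Loewner
import Crest.Agent.R162.UBDefs
import Crest.Agent.R162.Rad
import Crest.Agent.R162.U3D

/-!
Row 162 (S0243), node U4I (helper219): facts on the one-point process needed to instantiate
`U4C.Inputs`: events of the past of `τ_s`, the initial level, the event "no trigger".
-/

set_option autoImplicit false

open MeasureTheory ProbabilityTheory Filter Set Topology
open scoped NNReal ENNReal

namespace Crest.Agent.R162.U4I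

open Crest.Agent.R162.OS Crest.Agent.R162.Rad

section abstr

variable {Ω : Type*} {m : MeasurableSpace Ω} {F : Filtration ℝ≥0 m} {P : Measure Ω}
  {gen : (St → ℝ) → St → ℝ} {s₀ : ℝ} (D : OneP F P gen s₀)

/-- on an event `B ∈ F t` on which `τ ≤ t` (in the strong sense that `B ∩ {τ ≤ x} ∈ F t` for all
`x ≤ t`) and the point is alive at `τ`, the value of the state at `τ` is `F t`-measurable. -/
theorem measurable_at_past {τ : Ω → ℝ≥0} {t : ℝ≥0} {B : Set Ω} (hBt : ∀ ω ∈ B, τ ω ≤ t)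
    (hB : ∀ x ≤ t, MeasurableSet[F t] (B ∩ {ω | τ ω ≤ x}))
    (hal : ∀ ω ∈ B, D.al (τ ω) ω) : Measurable[F t] (B.indicator fun ω => D.st (τ ω) ω) := by
  have hB0 : MeasurableSet[F t] B := by
    have := hB t le_rfl
    rwa [inter_eq_left.mpr (show B ⊆ {ω | τ ω ≤ t} from hBt)] at this
  -- `B ∩ {τ < x} ∈ F t` for all x
  have hlt : ∀ x : ℝ≥0, MeasurableSet[F t] (B ∩ {ω | τ ω < x}) := by
    intro x
    have hset : B ∩ {ω | τ ω < x} =
        ⋃ q ∈ {q : ℚ | 0 ≤ q ∧ Real.toNNReal q < x}, B ∩ {ω | τ ω ≤ min (Real.toNNReal q) t} := by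
      ext ω
      simp only [mem_inter_iff, mem_iUnion, mem_setOf_eq, exists_prop]
      constructor
      · rintro ⟨h1, h2⟩
        obtain ⟨q, hq1, hq2⟩ := exists_rat_btwn (show (τ ω : ℝ) < x from h2)
        have hq0 : (0 : ℝ) ≤ q := (NNReal.coe_nonneg _).trans hq1.le
        refine ⟨q, ⟨by exact_mod_cast hq0, ?_⟩, h1, le_min ?_ (hBt ω h1)⟩
        · rw [← NNReal.coe_lt_coe, Real.coe_toNNReal _ hq0]; exact hq2
        · rw [← NNReal.coe_le_coe, Real.coe_toNNReal _ hq0]; exact hq1.le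
      · rintro ⟨q, ⟨hq0, hq⟩, h1, h2⟩
        exact ⟨h1, (h2.trans (min_le_left _ _)).trans_lt hq⟩
    rw [hset]
    exact MeasurableSet.biUnion (Set.to_countable _) fun q hq => hB _ (min_le_right _ _)
  -- dyadic approximation from the left
  let Z : ℕ → Ω → St := fun k ω => D.st ((⌊(2 : ℝ≥0) ^ k * τ ω⌋₊ : ℝ≥0) / 2 ^ k) ω
  have hle : ∀ (ω : Ω) (k : ℕ), ((⌊(2 : ℝ≥0) ^ k * τ ω⌋₊ : ℝ≥0) / 2 ^ k) ≤ τ ω := by
    intro ω k
    rw [div_le_iff₀ (by positivity), mul_comm]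
    exact Nat.floor_le (by positivity)
  have hZ : ∀ k, Measurable[F t] (B.indicator (Z k)) := by
    intro k
    -- the events
    have hj : ∀ j : ℕ, MeasurableSet[F t] (B ∩ {ω | ⌊(2 : ℝ≥0) ^ k * τ ω⌋₊ = j}) := by
      intro j
      have hset : B ∩ {ω | ⌊(2 : ℝ≥0) ^ k * τ ω⌋₊ = j} =
          (B ∩ {ω | τ ω < ((j + 1 : ℕ) : ℝ≥0) / 2 ^ k}) \ (B ∩ {ω | τ ω < (j : ℝ≥0) / 2 ^ k}) := by
        ext ω
        simp only [mem_inter_iff, mem_setOf_eq, Set.mem_sdiff, not_and, not_lt]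
        rw [lt_div_iff₀ (by positivity), div_le_iff₀ (by positivity)]
        constructor
        · rintro ⟨h1, h2⟩
          rw [Nat.floor_eq_iff (by positivity)] at h2
          refine ⟨⟨h1, ?_⟩, fun _ => ?_⟩
          · push_cast
            rw [mul_comm]; exact h2.2
          · rw [mul_comm]; exact h2.1
        · rintro ⟨⟨h1, h2⟩, h3⟩
          refine ⟨h1, ?_⟩
          rw [Nat.floor_eq_iff (by positivity)]
          push_cast at h2
          exact ⟨by rw [mul_comm]; exact h3 h1, by rw [mul_comm]; exact h2⟩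
      rw [hset]
      exact (hlt _).diff (hlt _)
    intro S hS
    have hpre : (B.indicator (Z k)) ⁻¹' S =
        (⋃ j ∈ {j : ℕ | (j : ℝ≥0) / 2 ^ k ≤ t}, (B ∩ {ω | ⌊(2 : ℝ≥0) ^ k * τ ω⌋₊ = j}) ∩
          (D.st ((j : ℝ≥0) / 2 ^ k)) ⁻¹' S) ∪ (Bᶜ ∩ {_ω | (0 : St) ∈ S}) := by
      ext ω
      by_cases hω : ω ∈ B
      · simp only [mem_preimage, indicator_of_mem hω, mem_union, mem_iUnion, mem_inter_iff,
          mem_setOf_eq, mem_compl_iff, hω, not_true, false_and, or_false, true_and, exists_prop, Z]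
        constructor
        · intro h
          exact ⟨_, (hle ω k).trans (hBt ω hω), rfl, h⟩
        · rintro ⟨j, -, rfl, h⟩
          exact h
      · simp only [mem_preimage, indicator_of_notMem hω, mem_union, mem_iUnion, mem_inter_iff,
          mem_setOf_eq, mem_compl_iff, hω, not_false_iff, false_and, true_and, exists_prop,
          and_false, exists_false, false_or]
    rw [hpre]
    refine MeasurableSet.union ?_ (hB0.compl.inter (MeasurableSet.const _))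
    refine MeasurableSet.biUnion (Set.to_countable _) fun j hj' => (hj j).inter ?_
    exact F.mono hj' _ (D.st_meas _ hS)
  refine @measurable_of_tendsto_metrizable Ω St (F t) _ _ _ _ (fun k => B.indicator (Z k)) _ hZ ?_
  rw [tendsto_pi_nhds]
  intro ω
  by_cases hω : ω ∈ B
  · simp only [indicator_of_mem hω]
    have hal' := hal ω hω
    have hc := (D.st_cont ω) (τ ω) hal'
    refine Tendsto.comp (g := fun t => D.st t ω) hc ?_
    rw [tendsto_nhdsWithin_iff]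
    refine ⟨?_, Eventually.of_forall fun k => D.al_anti ω _ _ (hle ω k) hal'⟩
    rw [← NNReal.tendsto_coe]
    have hlow : ∀ k : ℕ, (τ ω : ℝ) - (1/2)^k ≤ (((⌊(2 : ℝ≥0) ^ k * τ ω⌋₊ : ℝ≥0) / 2 ^ k : ℝ≥0) : ℝ) := by
      intro k
      have h1 : (2 : ℝ≥0) ^ k * τ ω < ⌊(2 : ℝ≥0) ^ k * τ ω⌋₊ + 1 := Nat.lt_floor_add_one _
      have h2 : (2 : ℝ) ^ k * τ ω < ⌊(2 : ℝ≥0) ^ k * τ ω⌋₊ + 1 := by exact_mod_cast h1
      push_cast
      rw [le_div_iff₀ (by positivity)]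
      have h3 : ((1:ℝ)/2)^k * 2^k = 1 := by rw [← mul_pow]; norm_num
      nlinarith
    have hlim : Tendsto (fun k : ℕ => (τ ω : ℝ) - (1/2)^k) atTop (𝓝 ((τ ω : ℝ) - 0)) :=
      tendsto_const_nhds.sub (tendsto_pow_atTop_nhds_zero_of_lt_one (by norm_num) (by norm_num))
    rw [sub_zero] at hlim
    exact tendsto_of_tendsto_of_tendsto_of_le_of_le hlim tendsto_const_nhds hlow
      (fun k => by exact_mod_cast hle ω k)
  · simp only [indicator_of_notMem hω]
    exact tendsto_const_nhds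

/-- **good events belong to the past.** -/
theorem past_good {s : ℝ} {A : Set Ω} (hA : D.Past s A) {S : Set St} (hS : MeasurableSet S) :
    D.Past s (A ∩ {ω | D.st (D.tau s ω) ω ∈ S}) := by
  refine ⟨inter_subset_left.trans hA.1, fun t => ?_⟩
  set B : Set Ω := A ∩ {ω | D.tau s ω ≤ t} with hB
  have hm := measurable_at_past D (τ := D.tau s) (t := t) (B := B) (fun ω hω => hω.2)
    (fun x hx => by
      have : B ∩ {ω | D.tau s ω ≤ x} = A ∩ {ω | D.tau s ω ≤ x} := by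
        ext ω
        simp only [hB, mem_inter_iff, mem_setOf_eq]
        constructor
        · rintro ⟨⟨h1, -⟩, h2⟩; exact ⟨h1, h2⟩
        · rintro ⟨h1, h2⟩; exact ⟨⟨h1, h2.trans hx⟩, h2⟩
      rw [this]
      exact F.mono hx _ (hA.2 x))
    (fun ω hω => (D.tau_mem (hA.1 hω.1)).1)
  have hset : A ∩ {ω | D.st (D.tau s ω) ω ∈ S} ∩ {ω | D.tau s ω ≤ t} =
      B ∩ (B.indicator fun ω => D.st (D.tau s ω) ω) ⁻¹' S := by
    ext ω
    constructor
    · rintro ⟨⟨h1, h2⟩, h3⟩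
      have hω : ω ∈ B := ⟨h1, h3⟩
      exact ⟨hω, by rw [mem_preimage, indicator_of_mem hω]; exact h2⟩
    · rintro ⟨hω, h2⟩
      rw [mem_preimage, indicator_of_mem hω] at h2
      exact ⟨⟨hω.1, h2⟩, hω.2⟩
  rw [hset]
  exact (hA.2 t).inter (hm hS)

/-- cutting an event of the past at level `s` by an event `T` which, on `{τ_{s+l} ≤ t}`, is
determined at time `t`. -/
theorem past_diff {s u : ℝ} (hsu : s ≤ u) {A : Set Ω} (hA : D.Past s A) {T : Set Ω}
    {Tt : ℝ≥0 → Set Ω} (hTt : ∀ t, MeasurableSet[F t] (Tt t))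
    (hT : ∀ t ω, ω ∈ D.alive u → D.tau u ω ≤ t → (ω ∈ T ↔ ω ∈ Tt t)) :
    D.Past u (A ∩ D.alive u ∩ Tᶜ) ∧ D.Past u (A ∩ D.alive u ∩ T) := by
  have hstep : D.Past u (A ∩ D.alive u) := OneP.Past.step D hsu hA
  constructor
  · refine ⟨fun ω hω => hω.1.2, fun t => ?_⟩
    have : A ∩ D.alive u ∩ Tᶜ ∩ {ω | D.tau u ω ≤ t} =
        (A ∩ D.alive u ∩ {ω | D.tau u ω ≤ t}) ∩ (Tt t)ᶜ := by
      ext ω
      simp only [mem_inter_iff, mem_compl_iff, mem_setOf_eq]
      constructor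
      · rintro ⟨⟨⟨h1, h2⟩, h3⟩, h4⟩
        exact ⟨⟨⟨h1, h2⟩, h4⟩, fun h => h3 ((hT t ω h2 h4).mpr h)⟩
      · rintro ⟨⟨⟨h1, h2⟩, h4⟩, h3⟩
        exact ⟨⟨⟨h1, h2⟩, fun h => h3 ((hT t ω h2 h4).mp h)⟩, h4⟩
    rw [this]
    exact (hstep.2 t).inter (hTt t).compl
  · refine ⟨fun ω hω => hω.1.2, fun t => ?_⟩
    have : A ∩ D.alive u ∩ T ∩ {ω | D.tau u ω ≤ t} =
        (A ∩ D.alive u ∩ {ω | D.tau u ω ≤ t}) ∩ (Tt t) := by
      ext ω
      simp only [mem_inter_iff, mem_setOf_eq]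
      constructor
      · rintro ⟨⟨⟨h1, h2⟩, h3⟩, h4⟩
        exact ⟨⟨⟨h1, h2⟩, h4⟩, (hT t ω h2 h4).mp h3⟩
      · rintro ⟨⟨⟨h1, h2⟩, h4⟩, h3⟩
        exact ⟨⟨⟨h1, h2⟩, (hT t ω h2 h4).mpr h3⟩, h4⟩
    rw [this]
    exact (hstep.2 t).inter (hTt t)

end abstr

section concrete

open Crest.Agent.R162.FL Crest.Agent.R162.OP Crest.Agent.R162.UB
open Crest.ProbabilityR.Loewner

universe u

variable {Ω : Type u} {m : MeasurableSpace Ω} {P : Measure Ω} [IsProbabilityMeasure P]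
  {Fl : Filtration ℝ≥0 m} {B : ℝ≥0 → Ω → ℝ} {κ : ℝ} {w : ℂ}

/-- the levels of `oneP` in terms of `Reach`. -/
theorem alive_eq (hM : OPM.{u}) (hB : IsBM Fl B P) (hκ : 0 < κ) (hw : 0 < w.im) (s : ℝ) :
    (oneP hM hB hκ hw).alive s = {ω | Reach (driving κ B ω) w (Real.exp (-s))} := by
  ext ω
  simp only [OneP.alive, oneP, mem_setOf_eq, Reach]
  constructor
  · rintro ⟨t, hal, hL⟩
    refine ⟨t, t.coe_nonneg, hal, ?_⟩
    have hpos : 0 < ups (driving κ B ω) t w := FL.ups_pos hal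
    have : Real.log (ups (driving κ B ω) t w) ≤ -s := hL
    calc ups (driving κ B ω) t w = Real.exp (Real.log (ups (driving κ B ω) t w)) :=
          (Real.exp_log hpos).symm
      _ ≤ _ := Real.exp_le_exp.mpr this
  · rintro ⟨t, ht, hal, hL⟩
    refine ⟨⟨t, ht⟩, hal, ?_⟩
    have hpos : 0 < ups (driving κ B ω) t w := FL.ups_pos hal
    have h := Real.log_le_log hpos hL
    rw [Real.log_exp] at h
    exact h

theorem al_zero (hM : OPM.{u}) (hB : IsBM Fl B P) (hκ : 0 < κ) (hw : 0 < w.im) (ω : Ω) :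
    (oneP hM hB hκ hw).al 0 ω := by
  obtain ⟨n, hn⟩ : ∃ n : ℕ, True := ⟨0, trivial⟩
  exact ((oneP hM hB hκ hw).e_KK 0 ω 0 (zero_le)).1

theorem tau_zero (hM : OPM.{u}) (hB : IsBM Fl B P) (hκ : 0 < κ) (hw : 0 < w.im) (ω : Ω) :
    (oneP hM hB hκ hw).tau (-Real.log w.im) ω = 0 := by
  have h := (oneP hM hB hκ hw).tau_le (s := -Real.log w.im) (ω := ω) (t := 0)
    (al_zero hM hB hκ hw ω) (by rw [(oneP hM hB hκ hw).L_zero])
  exact le_antisymm h (zero_le)

/-- the initial weight is Green's function -/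
theorem init (hM : OPM.{u}) (hB : IsBM Fl B P) (hκ : 0 < κ) (hw : 0 < w.im) (A : Set Ω) :
    ∫⁻ ω in A, ENNReal.ofReal (Real.exp ((2 - dimParam κ) * (-Real.log w.im)) *
      sinq ((oneP hM hB hκ hw).st ((oneP hM hB hκ hw).tau (-Real.log w.im) ω) ω) ^
        (8 / κ - 1)) ∂P ≤ ENNReal.ofReal (green κ w) := by
  have hval : ∀ ω, Real.exp ((2 - dimParam κ) * (-Real.log w.im)) *
      sinq ((oneP hM hB hκ hw).st ((oneP hM hB hκ hw).tau (-Real.log w.im) ω) ω) ^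
        (8 / κ - 1) = green κ w := by
    intro ω
    rw [tau_zero]
    have hst : (oneP hM hB hκ hw).st 0 ω = (w.re, w.im, Real.log w.im, 0) := by
      simp only [oneP, stP, NNReal.coe_zero]
      rw [stW_zero hw, driving_zero hB, sub_zero]
    rw [hst]
    unfold green sinq dimParam
    simp only
    congr 1
    · rw [Real.rpow_def_of_pos hw]
      congr 1
      ring
    · rw [Complex.norm_eq_sqrt_sq_add_sq]
  simp only [hval]
  rw [lintegral_const, Measure.restrict_apply_univ]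
  calc ENNReal.ofReal (green κ w) * P A ≤ ENNReal.ofReal (green κ w) * 1 := by
        gcongr; exact prob_le_one
    _ = _ := mul_one _

/-- on `Trig` (level `s`), the trigger ends before the level `s + l`. -/
theorem trig_iff_of_le (hM : OPM.{u}) (hB : IsBM Fl B P) (hκ : 0 < κ) (hw : 0 < w.im) {s l δ N : ℝ}
    (hδ : 0 < δ) (hN : 1 ≤ N) (hl : 16 * Real.exp 2 * (Real.log (2 / δ) + 6) < l) (t : ℝ≥0) (ω : Ω)
    (hal : ω ∈ (oneP hM hB hκ hw).alive (s + l))
    (ht : (oneP hM hB hκ hw).tau (s + l) ω ≤ t) :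
    ω ∈ {ω | Trig (driving κ B ω) w (Real.exp (-s)) N δ} ↔
      ω ∈ {ω | ∃ σ T, T ≤ (t : ℝ) ∧ TrigAt (driving κ B ω) w (Real.exp (-s)) N δ σ T} := by
  constructor
  · rintro ⟨σ, T, h⟩
    refine ⟨σ, T, ?_, h⟩
    have hWc : ContinuousOn (driving κ B ω) (Ici 0) := (driving_cont hB κ ω).continuousOn
    have h1 := U3D.log_ups_ge hWc hδ hN h
    rw [h.ups_eq, Real.log_exp] at h1
    set τ := (oneP hM hB hκ hw).tau (s + l) ω with hτ
    have hT0 : 0 ≤ T := h.nonneg.trans h.le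
    obtain ⟨-, h3⟩ := (oneP hM hB hκ hw).tau_mem hal
    by_contra hcon
    push Not at hcon
    have hlt : (τ : ℝ) < T := lt_of_le_of_lt (by exact_mod_cast ht) hcon
    have h4 : (stP κ B w ⟨T, hT0⟩ ω).2.2.1 ≤ (stP κ B w τ ω).2.2.1 :=
      (oneP hM hB hκ hw).L_anti ω τ ⟨T, hT0⟩ hlt.le h.alive
    have h5 : (stP κ B w τ ω).2.2.1 ≤ -(s + l) := h3
    have h6 : Real.log (ups (driving κ B ω) T w) ≤ -(s + l) := h4.trans h5
    linarith
  · rintro ⟨σ, T, -, h⟩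
    exact ⟨σ, T, h⟩

/-- **measurability half of the U3 line** of `U4C.Inputs`. -/
theorem past_trig (hM : OPM.{u}) (hB : IsBM Fl B P) (hκ : 0 < κ) (hw : 0 < w.im) {s l δ N : ℝ}
    (hmt : ∀ t : ℝ≥0, MeasurableSet[Fl t]
      {ω | ∃ σ T, T ≤ (t : ℝ) ∧ TrigAt (driving κ B ω) w (Real.exp (-s)) N δ σ T})
    (hδ : 0 < δ) (hN : 1 ≤ N) (hl0 : 0 ≤ l) (hl : 16 * Real.exp 2 * (Real.log (2 / δ) + 6) < l)
    {A : Set Ω} (hA : (oneP hM hB hκ hw).Past s A) :
    (oneP hM hB hκ hw).Past (s + l) (A ∩ (oneP hM hB hκ hw).alive (s + l) ∩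
      {ω | Trig (driving κ B ω) w (Real.exp (-s)) N δ}ᶜ) :=
  (past_diff (oneP hM hB hκ hw) (by linarith) hA (T := {ω | Trig (driving κ B ω) w (Real.exp (-s)) N δ})
    hmt (fun t ω h1 h2 => trig_iff_of_le hM hB hκ hw hδ hN hl t ω h1 h2)).1

end concrete

end Crest.Agent.R162.U4I
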