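import Mathlib
import Crest.Agent.R162.U4C
import Crest.Agent.R162.U4I
import Crest.Agent.R162.Rad2

/-!
Row 162 (S0243), node U4F (helper219): instantiation of `U4C.Inputs` with the radial data of the
one-point processes (`Rad.oneP`), and `UB.U4Stmt`.
-/

set_option autoImplicit false

open MeasureTheory ProbabilityTheory Filter Set Topology
open scoped NNReal ENNReal

namespace Crest.Agent.R162.U4F

open Crest.Agent.R162.OS Crest.Agent.R162.Rad Crest.Agent.R162.U4C Crest.Agent.R162.U4I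
open Crest.Agent.R162.FL Crest.Agent.R162.OP Crest.Agent.R162.UB Crest.Agent.R162.U1P
open Crest.ProbabilityR.Loewner

universe u

variable {Ω : Type u} {m : MeasurableSpace Ω} {P : Measure Ω} [IsProbabilityMeasure P]
  {Fl : Filtration ℝ≥0 m} {B : ℝ≥0 → Ω → ℝ} {κ : ℝ}

/-- the radial data of all points of the half-plane -/
noncomputable def Dr (hM : OPM.{u}) (hB : IsBM Fl B P) (hκ : 0 < κ) (w : {w : ℂ // 0 < w.im}) :
    Radial (Ω := Ω) (-Real.log w.1.im) := (oneP hM hB hκ w.2).radial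

/-- the weight `gm` is the integral of Green's function at `τ_s`. -/
theorem gm_eq {s₀ : ℝ} (D : OneP Fl P (OP.gen κ) s₀) {s : ℝ} (hs : s₀ ≤ s) {A : Set Ω}
    (hmA : MeasurableSet A) (hA : A ⊆ D.alive s) :
    gm κ D.radial P s A = ∫⁻ ω in A, ENNReal.ofReal (Gl D s ω) ∂P := by
  unfold gm
  refine setLIntegral_congr_fun hmA ?_
  intro ω hω
  have h3 := D.L_tau hs (hA hω)
  show ENNReal.ofReal (Real.exp ((2 - dimParam κ) * s) * D.Sl s ω ^ (8 / κ - 1)) =
    ENNReal.ofReal (Real.exp ((κ / 8 - 1) * (D.stl s ω).2.2.1) * sinq (D.stl s ω) ^ (8 / κ - 1))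
  rw [show (D.stl s ω).2.2.1 = -s from h3]
  congr 2
  unfold dimParam
  congr 1
  ring

theorem measurable_sinq : Measurable (fun p : St => sinq p) := by
  unfold sinq
  fun_prop

/-- the U1 input -/
def U1In (hM : OPM.{u}) (hB : IsBM Fl B P) (hκ : 0 < κ) : Prop :=
  ∃ C : ℝ, 0 ≤ C ∧ RU (Dr hM hB hκ) P 1 (fun _ => 1) (fun x => C * x ^ (8 / κ - 1))

/-- the probabilistic half of the U3 input (helper641) -/
def U3In (hM : OPM.{u}) (hB : IsBM Fl B P) (hκ : 0 < κ) : Prop :=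
  ∀ δ : ℝ, 0 < δ → ∃ l₁ : ℝ, ∀ l : ℝ, l₁ ≤ l → ∃ N₀ C c : ℝ, 0 ≤ C ∧ 0 < c ∧
    ∀ (w : ℂ) (hw : 0 < w.im) (s : ℝ), -Real.log w.im ≤ s → ∀ N : ℝ, N₀ ≤ N →
      ∀ A : Set Ω, (oneP hM hB hκ hw).Past s A → A ⊆ {ω | δ ≤ (oneP hM hB hκ hw).Sl s ω} →
        ENNReal.ofReal (c * Real.exp (-(C * N))) *
            ∫⁻ ω in A, ENNReal.ofReal (Gl (oneP hM hB hκ hw) s ω) ∂P ≤
          ∫⁻ ω in A ∩ (oneP hM hB hκ hw).alive (s + l) ∩
            {ω | Trig (driving κ B ω) w (Real.exp (-s)) N δ},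
            ENNReal.ofReal (Gl (oneP hM hB hκ hw) (s + l) ω) ∂P

/-- the measurability input (helper556) -/
def TMIn (Fl : Filtration ℝ≥0 m) (B : ℝ≥0 → Ω → ℝ) (κ : ℝ) : Prop :=
  ∀ (w : ℂ) (r N δ : ℝ) (t : ℝ≥0), MeasurableSet[Fl t]
      {ω | ∃ σ T, T ≤ (t : ℝ) ∧ TrigAt (driving κ B ω) w r N δ σ T}

theorem inputs (hM : OPM.{u}) (hB : IsBM Fl B P) (hκ : 0 < κ) (hκ8 : κ < 8)
    (h1 : U1In hM hB hκ) (h3 : U3In hM hB hκ) (hm : TMIn Fl B κ) :
    U4C.Inputs κ P B (Dr hM hB hκ) where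
  reach w s hs := (alive_eq hM hB hκ w.2 s).symm.subset
  F0 w := (oneP hM hB hκ w.2).alive_past _
  init w := init hM hB hκ w.2 _
  good w δ s hs A hA hA' := past_good _ hA (S := {p | δ ≤ sinq p}) (measurable_sinq measurableSet_Ici)
  sup := by
    intro w s hs c hc A hA hA'
    have hmA : MeasurableSet A := OneP.Past.measurableSet _ hA
    have hst : (oneP hM hB hκ w.2).Past (s + c) (A ∩ (oneP hM hB hκ w.2).alive (s + c)) :=
      OneP.Past.step _ (by linarith) hA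
    have e1 := gm_eq (oneP hM hB hκ w.2) (s := s + c) (by linarith)
      (OneP.Past.measurableSet _ hst) inter_subset_right
    have e2 := gm_eq (oneP hM hB hκ w.2) hs hmA hA'
    show gm κ (oneP hM hB hκ w.2).radial P (s + c) (A ∩ (oneP hM hB hκ w.2).alive (s + c)) ≤
      gm κ (oneP hM hB hκ w.2).radial P s A
    rw [e1, e2]
    exact U0 _ hκ (by linarith) hA
  U1 := h1
  U2 := by
    obtain ⟨q, δ, hq, hqb, hq2, hδ, hδ1, hC⟩ := exists_U2_const hκ hκ8
    refine ⟨δ, hδ, fun w s hs A hA hA' => ?_⟩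
    have hmA : MeasurableSet A := OneP.Past.measurableSet _ hA
    have hst : (oneP hM hB hκ w.2).Past (s + 1) (A ∩ (oneP hM hB hκ w.2).alive (s + 1)) :=
      OneP.Past.step _ (by linarith) hA
    have hbad : (oneP hM hB hκ w.2).Past (s + 1) (A ∩ (oneP hM hB hκ w.2).alive (s + 1) ∩
        {ω | (oneP hM hB hκ w.2).st ((oneP hM hB hκ w.2).tau (s + 1) ω) ω ∈
          {p : St | sinq p < δ}}) :=
      past_good _ hst (measurable_sinq measurableSet_Iio)
    have hset : {ω | δ ≤ (Dr hM hB hκ w).S (s + 1) ω}ᶜ =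
        {ω | (oneP hM hB hκ w.2).Sl (s + 1) ω < δ} := by
      ext ω
      simp only [mem_compl_iff, mem_setOf_eq, not_le]
      rfl
    rw [hset]
    have e1 := gm_eq (oneP hM hB hκ w.2) (s := s + 1) (by linarith)
      (OneP.Past.measurableSet _ hbad) (inter_subset_left.trans inter_subset_right)
    have e2 := gm_eq (oneP hM hB hκ w.2) hs hmA hA'
    show gm κ (oneP hM hB hκ w.2).radial P (s + 1) (A ∩ (oneP hM hB hκ w.2).alive (s + 1) ∩
      {ω | (oneP hM hB hκ w.2).Sl (s + 1) ω < δ}) ≤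
      ENNReal.ofReal (1 / 2) * gm κ (oneP hM hB hκ w.2).radial P s A
    rw [e2]
    refine (le_of_eq e1).trans ?_
    exact U2bad _ hκ hq hqb hq2 hδ hC hs hA
  U3 := by
    intro δ hδ
    obtain ⟨l₁, hl₁⟩ := h3 δ hδ
    set l : ℝ := max l₁ (max 0 (16 * Real.exp 2 * (Real.log (2 / δ) + 6) + 1)) with hl
    have hl0 : 0 ≤ l := (le_max_left _ _).trans (le_max_right _ _)
    have hlC : 16 * Real.exp 2 * (Real.log (2 / δ) + 6) < l := by
      have : 16 * Real.exp 2 * (Real.log (2 / δ) + 6) + 1 ≤ l :=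
        (le_max_right _ _).trans (le_max_right _ _)
      linarith
    obtain ⟨N₀, C, c, hC, hc, h⟩ := hl₁ l (le_max_left _ _)
    refine ⟨l, hl0, max N₀ 1, C, min c 1, hC, lt_min hc one_pos, min_le_right _ _, ?_⟩
    intro w s hs N hN A hA hA'
    have hN1 : 1 ≤ N := (le_max_right _ _).trans hN
    have hN0 : N₀ ≤ N := (le_max_left _ _).trans hN
    have hmA : MeasurableSet A := OneP.Past.measurableSet _ hA
    have hpd := past_diff (oneP hM hB hκ w.2) (s := s) (u := s + l) (by linarith) hA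
      (T := {ω | Trig (driving κ B ω) w.1 (Real.exp (-s)) N δ})
      (fun t => hm w.1 (Real.exp (-s)) N δ t)
      (fun t ω h1 h2 => trig_iff_of_le hM hB hκ w.2 hδ hN1 hlC t ω h1 h2)
    refine ⟨hpd.1, fun hAS => ?_⟩
    have e1 := gm_eq (oneP hM hB hκ w.2) (s := s + l) (by linarith)
      (OneP.Past.measurableSet _ hpd.2) (inter_subset_left.trans inter_subset_right)
    have e2 := gm_eq (oneP hM hB hκ w.2) hs hmA hA'
    show ENNReal.ofReal (min c 1 * Real.exp (-(C * N))) *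
      gm κ (oneP hM hB hκ w.2).radial P s A ≤
      gm κ (oneP hM hB hκ w.2).radial P (s + l) (A ∩ (oneP hM hB hκ w.2).alive (s + l) ∩
        {ω | Trig (driving κ B ω) w.1 (Real.exp (-s)) N δ})
    rw [e1, e2]
    refine le_trans ?_ (h w.1 w.2 s hs N hN0 A hA hAS)
    gcongr
    exact min_le_left _ _

/-- **`U4Stmt`** from the master Dynkin formula, U1, U3 and the measurability of triggers. -/
theorem u4Stmt_of (hM : OPM.{u}) (hB : IsBM Fl B P) (hκ : 0 < κ) (hκ8 : κ < 8)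
    (h1 : U1In hM hB hκ) (h3 : U3In hM hB hκ) (hm : TMIn Fl B κ) : U4Stmt κ P B :=
  u4Stmt_of_inputs (inputs hM hB hκ hκ8 h1 h3 hm)

end Crest.Agent.R162.U4F
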