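import Mathlib
import Crest.Agent.R162.U3G
import Crest.Agent.R162.U4F
import Crest.Agent.R162.U3e
import Crest.Agent.R162.OPM
import Crest.Agent.R162.U3M

/-!
Row 162 (S0243), node U3: helper219's `U4F.U3In` from helper641's tube estimate (helper204).
-/

set_option autoImplicit false

open MeasureTheory ProbabilityTheory Set
open scoped NNReal ENNReal

namespace Crest.Agent.R162.U3H

open Crest.Agent.R162.FL Crest.Agent.R162.OP Crest.Agent.R162.OS Crest.Agent.R162.UB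
open Crest.Agent.R162.Rad
open Crest.ProbabilityR.Loewner

universe u

variable {Ω : Type u} {m : MeasurableSpace Ω} {P : Measure Ω} [IsProbabilityMeasure P]
  {Fl : Filtration ℝ≥0 m} {B : ℝ≥0 → Ω → ℝ} {κ : ℝ}

/-- the tube estimate (output of `U3e`) -/
def ExtProb (hM : OPM.{u}) (hB : IsBM Fl B P) (hκ : 0 < κ) : Prop :=
  ∀ δ : ℝ, 0 < δ → ∃ l₁ : ℝ, ∀ l : ℝ, l₁ ≤ l → ∃ N₀ C c : ℝ, 0 ≤ C ∧ 0 < c ∧
    ∀ (w : ℂ) (hw : 0 < w.im) (s : ℝ), -Real.log w.im ≤ s → ∀ N : ℝ, N₀ ≤ N →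
      ∀ A : Set Ω, (oneP hM hB hκ hw).Past s A →
        (∀ ω ∈ A, δ ≤ sfl (driving κ B ω) ((oneP hM hB hκ hw).tau s ω) w) →
        ∃ E' : Set Ω, E' ⊆ A ∧ MeasurableSet E' ∧
          ENNReal.ofReal (c * Real.exp (-(C * N))) * P A ≤ P E' ∧
          ∀ ω ∈ E', Trig (driving κ B ω) w (Real.exp (-s)) N δ ∧
            ω ∈ (oneP hM hB hκ hw).alive (s + l) ∧
            1 / Real.cosh 3 ≤ sfl (driving κ B ω) ((oneP hM hB hκ hw).tau (s + l) ω) w

lemma sinq_stW' (W : ℝ → ℝ) (t : ℝ) (w : ℂ) : sinq (stW W t w) = sfl W t w := by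
  unfold sinq stW sfl
  simp only
  rw [Complex.norm_def, Complex.normSq_apply, ← sq, ← sq]

lemma Sl_eq (hM : OPM.{u}) (hB : IsBM Fl B P) (hκ : 0 < κ) {w : ℂ} (hw : 0 < w.im) (s : ℝ)
    (ω : Ω) : (oneP hM hB hκ hw).Sl s ω =
      sfl (driving κ B ω) ((oneP hM hB hκ hw).tau s ω) w :=
  sinq_stW' _ _ _

/-- **the U3 input of helper219** -/
theorem u3In (hM : OPM.{u}) (hB : IsBM Fl B P) (hκ : 0 < κ) (hκ8 : κ ≤ 8)
    (h : ExtProb hM hB hκ) : U4F.U3In hM hB hκ := by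
  intro δ hδ
  obtain ⟨l₁, h1⟩ := h δ hδ
  refine ⟨max l₁ 0, fun l hl => ?_⟩
  have hl0 : 0 ≤ l := (le_max_right _ _).trans hl
  obtain ⟨N₀, C, c, hC, hc, h2⟩ := h1 l ((le_max_left _ _).trans hl)
  have hb : 0 ≤ 8 / κ - 1 := by
    rw [sub_nonneg, one_le_div hκ]; exact hκ8
  have hch : 0 < 1 / Real.cosh 3 := by have := Real.cosh_pos 3; positivity
  refine ⟨N₀, C, c * (Real.exp ((2 - dimParam κ) * l) * (1 / Real.cosh 3) ^ (8 / κ - 1)), hC,
    by positivity, ?_⟩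
  intro w hw s hs N hN A hA hAδ
  have hAs : A ⊆ (oneP hM hB hκ hw).alive s := hA.1
  have hmA : MeasurableSet A := OneP.Past.measurableSet _ hA
  obtain ⟨E, hEA, hEm, hPE, hE⟩ := h2 w hw s hs N hN A hA (fun ω hω => by
    have h3 : δ ≤ (oneP hM hB hκ hw).Sl s ω := hAδ hω
    rwa [Sl_eq] at h3)
  have hEal : E ⊆ (oneP hM hB hκ hw).alive (s + l) := fun ω hω => (hE ω hω).2.1
  have h3 := U3G.gform (D := (oneP hM hB hκ hw).radial) (d' := 2 - dimParam κ) hb hc.le hs hA hAs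
    hEm (X := E) subset_rfl (fun ω hω => by
      have h4 := (hE ω hω).2.2
      rw [← Sl_eq] at h4
      exact h4) hPE
  have e1 := U4F.gm_eq (oneP hM hB hκ hw) hs hmA hAs
  have e2 := U4F.gm_eq (oneP hM hB hκ hw) (s := s + l) (by linarith) hEm hEal
  unfold U4C.gm at e1 e2
  rw [e1, e2] at h3
  refine h3.trans (lintegral_mono_set ?_)
  intro ω hω
  exact ⟨⟨hEA hω, hEal hω⟩, (hE ω hω).1⟩

open Crest.Agent.R162.U3 in
/-- **Trigger probability at a radial level**, for every large `l` (helper641's proof of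
`U3.ext_prob`, with `l` arbitrary). -/
theorem extProb (hM : OPM.{u}) (hB : IsBM Fl B P) (hκ : 0 < κ) (hκ8 : κ < 8) :
    ExtProb hM hB hκ := by
  intro δ hδ
  obtain ⟨l₁, hl₁, hx⟩ := U3.x1' δ hδ
  refine ⟨max l₁ (16 * Real.exp 2 * (Real.log (2 / δ) + 6)), fun l hl => ?_⟩
  obtain ⟨E, hE1, N₀, hN₀, hx⟩ := hx l ((le_max_left _ _).trans hl)
  set X : ℝ := |Real.log (2 / δ)| with hX
  have hX0 : 0 ≤ X := abs_nonneg _
  set L := U3.lam κ (9 / 16) with hL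
  have hL0 : 0 < L := U3.lam_pos hκ (by norm_num)
  refine ⟨max N₀ (Real.exp (2 * X + 6)), 2 * L,
    1 / 2 * Real.exp (-(L * (X + E))), by positivity, by positivity, ?_⟩
  intro w hw s hs N hN A hA hAδ
  set D := Rad.oneP hM hB hκ hw with hD
  have hN1 : N₀ ≤ N := (le_max_left _ _).trans hN
  have hN2 : Real.exp (2 * X + 6) ≤ N := (le_max_right _ _).trans hN
  have hNpos : 0 < N := (Real.exp_pos _).trans_le hN2
  have hNone : 1 ≤ N := hN₀.trans hN1
  have hlogN : 2 * X + 6 ≤ Real.log N := (Real.le_log_iff_exp_le hNpos).2 hN2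
  have hlogN' : Real.log N ≤ N - 1 := Real.log_le_sub_one_of_pos hNpos
  have hal : ∀ ω ∈ A, AliveP κ B w (D.tau s ω) ω := fun ω hω => (D.tau_mem (hA.1 hω)).1
  have hstep : ∀ n : ℕ, ∃ A' : Set Ω, A' ⊆ A ∩ {ω | D.tau s ω ≤ n} ∧ MeasurableSet A' ∧
      ENNReal.ofReal (1 / 2 * Real.exp (-(L * (X + 1 + N + Real.log N - 2 + E)))) *
        P (A ∩ {ω | D.tau s ω ≤ n}) ≤ P A' ∧
      ∀ ω ∈ A', ∃ T : ℝ≥0, ∃ a0 ξ : ℝ, sig D s n ω ≤ T ∧ AliveP κ B w T ω ∧
        |xfl (driving κ B ω) (sig D s n ω) w - ξ| ≤ 1 / 8 ∧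
        a0 ≤ ath (driving κ B ω) (sig D s n ω) w ∧
        ath (driving κ B ω) (sig D s n ω) w ≤ a0 + 1 / 8 ∧
        ath (driving κ B ω) T w - a0 = ξ + N + Real.log N - 2 + E ∧
        ∀ t ∈ Icc (sig D s n ω : ℝ) T,
          |xfl (driving κ B ω) t w - psiE N ξ (ath (driving κ B ω) t w - a0)| ≤ 3 / 4 := by
    intro n
    refine ext_st hM hB hκ hκ8 hw hX0 (by linarith) hNone (by linarith) (sig_ST D s n)
      (sig_le D s n) (sig_EvST D hA n) ?_
    rintro ω ⟨hω, hωn⟩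
    rw [sig_eq D (hA.1 hω) hωn]
    refine ⟨hal ω hω, ?_⟩
    exact (xfl_le_of_sfl hδ (continuousOn_driving (κ := κ) hB ω) (hal ω hω) (hAδ ω hω)).trans
      (le_abs_self _)
  choose A' hA'1 hA'2 hA'3 hA'4 using hstep
  refine ⟨⋃ n, A' n, ?_, MeasurableSet.iUnion hA'2, ?_, ?_⟩
  · exact iUnion_subset fun n => (hA'1 n).trans inter_subset_left
  · have hmono : Monotone fun n : ℕ => A ∩ {ω | D.tau s ω ≤ n} := by
      intro a b hab ω hω
      have h2 : D.tau s ω ≤ (a : ℝ≥0) := hω.2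
      have h3 : ((a : ℕ) : ℝ≥0) ≤ (b : ℝ≥0) := by exact_mod_cast hab
      exact ⟨hω.1, h2.trans h3⟩
    have hAU : A = ⋃ n : ℕ, A ∩ {ω | D.tau s ω ≤ n} := by
      ext ω
      simp only [mem_iUnion, mem_inter_iff, mem_ofPred_eq]
      constructor
      · intro h
        obtain ⟨n, hn⟩ := exists_nat_ge (D.tau s ω)
        exact ⟨n, h, hn⟩
      · rintro ⟨n, h, _⟩; exact h
    have hc : 1 / 2 * Real.exp (-(L * (X + E))) * Real.exp (-(2 * L * N)) ≤
        1 / 2 * Real.exp (-(L * (X + 1 + N + Real.log N - 2 + E))) := by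
      rw [mul_assoc, ← Real.exp_add]
      apply mul_le_mul_of_nonneg_left _ (by norm_num)
      apply Real.exp_le_exp.2
      have : L * (X + 1 + N + Real.log N - 2 + E) ≤ L * (X + E + 2 * N) :=
        mul_le_mul_of_nonneg_left (by linarith) hL0.le
      nlinarith
    conv_lhs => rw [hAU]
    rw [hmono.measure_iUnion, ENNReal.mul_iSup]
    refine iSup_le fun n => ?_
    calc _ ≤ ENNReal.ofReal (1 / 2 * Real.exp (-(L * (X + 1 + N + Real.log N - 2 + E)))) *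
          P (A ∩ {ω | D.tau s ω ≤ n}) := by
          gcongr
      _ ≤ P (A' n) := hA'3 n
      _ ≤ P (⋃ n, A' n) := measure_mono (subset_iUnion _ _)
  · intro ω hω
    obtain ⟨n, hn⟩ := mem_iUnion.1 hω
    obtain ⟨T, a0, ξ, hT, hTal, hξ, ha1, ha2, hTa, htube⟩ := hA'4 n ω hn
    have hωA := hA'1 n hn
    rw [sig_eq D (hA.1 hωA.1) hωA.2] at hT hξ ha1 ha2 htube
    have hWc := continuousOn_driving (κ := κ) hB ω
    have hF := flowFacts _ w _ hWc hTal
    have hτI : ((D.tau s ω : ℝ≥0) : ℝ) ∈ Icc (0:ℝ) T := ⟨NNReal.coe_nonneg _, by exact_mod_cast hT⟩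
    have hups : ups (driving κ B ω) (D.tau s ω) w = Real.exp (-s) := by
      have h1 : Real.log (ups (driving κ B ω) (D.tau s ω) w) = -s := D.L_tau hs (hA.1 hωA.1)
      rw [← h1, Real.exp_log (hF.ups_pos _ hτI)]
    obtain ⟨T', hT', htr, t0, ht0, hu0, hlt, _, hsf, _, _⟩ := hx (driving κ B ω) w (Real.exp (-s))
      N (D.tau s ω) T a0 ξ hWc hN1 (NNReal.coe_nonneg _) (by exact_mod_cast hT) hTal hups
      (hAδ ω hωA.1) hξ ha1 ha2 hTa htube
    refine ⟨⟨_, _, htr⟩, ?_⟩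
    have ht00 : 0 ≤ t0 := ((NNReal.coe_nonneg _).trans hT'.1).trans ht0.1
    lift t0 to ℝ≥0 using ht00
    have ht0T : (t0 : ℝ) ≤ T := ht0.2
    have hal0 : AliveP κ B w t0 ω := Alive.mono hTal (NNReal.coe_nonneg _) ht0T
    have hlog0 : Real.log (ups (driving κ B ω) t0 w) = -(s + l) := by
      rw [hu0, ← Real.exp_add, Real.log_exp]; ring
    have hmem : D.al t0 ω ∧ (D.st t0 ω).2.2.1 ≤ -(s + l) := ⟨hal0, le_of_eq hlog0⟩
    have halive : ω ∈ D.alive (s + l) := ⟨t0, hmem⟩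
    have hle : D.tau (s + l) ω ≤ t0 := D.tau_le hmem.1 hmem.2
    have hge : t0 ≤ D.tau (s + l) ω := by
      by_contra hcon
      push Not at hcon
      have h1 := hlt (D.tau (s + l) ω) (NNReal.coe_nonneg _) (by exact_mod_cast hcon)
      have h2 := (D.tau_mem halive).2
      have h3 : Real.log (ups (driving κ B ω) (D.tau (s + l) ω) w) ≤ -(s + l) := h2
      have h4 : 0 < Real.exp (-s) * Real.exp (-l) := by positivity
      have h5 := Real.log_lt_log h4 h1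
      rw [← Real.exp_add, Real.log_exp] at h5
      linarith
    have heq : D.tau (s + l) ω = t0 := le_antisymm hle hge
    refine ⟨halive, ?_⟩
    rw [heq]
    exact hsf


/-- **the U3 input, unconditional** (given the master Dynkin formula) -/
theorem u3In' (hM : OPM.{u}) (hB : IsBM Fl B P) (hκ : 0 < κ) (hκ8 : κ < 8) :
    U4F.U3In hM hB hκ := u3In hM hB hκ hκ8.le (extProb hM hB hκ hκ8)

/-- **`U4Stmt`** from the `U1` input only. -/
theorem u4Stmt_of_u1 (hB : IsBM Fl B P) (hκ : 0 < κ) (hκ8 : κ < 8)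
    (h1 : U4F.U1In OPM.opm.{u} hB hκ) : U4Stmt κ P B :=
  U4F.u4Stmt_of OPM.opm.{u} hB hκ hκ8 h1 (u3In' OPM.opm.{u} hB hκ hκ8)
    (fun w r N δ t => U3M.measurableSet_trig hB κ w r N δ t)

end Crest.Agent.R162.U3H
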