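import Mathlib
import Crest.Agent.R162.U3H
import Crest.Agent.R162.U1B

/-!
Row 162 (S0243), node U4 closed (helper219): `UB.U4Stmt`.
-/

set_option autoImplicit false

open MeasureTheory ProbabilityTheory
open scoped NNReal ENNReal

namespace Crest.Agent.R162.U4F

open Crest.Agent.R162.OS Crest.Agent.R162.UB

universe u

/-- **Node U4**: the one-point probability of reaching level `K` without any trigger. -/
theorem u4Stmt {Ω : Type u} {m : MeasurableSpace Ω} {P : Measure Ω} [IsProbabilityMeasure P]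
    {Fl : Filtration ℝ≥0 m} {B : ℝ≥0 → Ω → ℝ} {κ : ℝ} (hB : IsBM Fl B P) (hκ : 0 < κ)
    (hκ8 : κ < 8) : U4Stmt κ P B :=
  U3H.u4Stmt_of_u1 hB hκ hκ8 (U1B.u1In OPM.opm.{u} hB hκ hκ8)

end Crest.Agent.R162.U4F
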