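import Mathlib

/-!
Row 162 (S0243), node U5c (helper591): abstract real-variable winding lemma.
A curve `p` on `[ρ,C0]` whose continuous argument around `z0` changes by `≥ cV √N - CV` over at most
`CL N` logarithmic scales has `∫ u^d dy/y ≥ c N^{1-d/2}` over the part lying in the upper sector
`|Re (p - z0)| ≤ Im (p - z0)` with `u = y ‖p'‖ ≥ c5 N^{-1/2}`.
-/

set_option autoImplicit false
open MeasureTheory Set Filter Topology

namespace Crest.Agent.R162.U5c

/-- bump function of the angle, supported in the upper sector. -/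
noncomputable def bump (s : ℝ) : ℝ := max 0 (Real.sin s - Real.sqrt 2 / 2)

lemma bump_continuous : Continuous bump := by
  unfold bump; fun_prop

lemma bump_nonneg (s : ℝ) : 0 ≤ bump s := le_max_left _ _

lemma bump_le_one (s : ℝ) : bump s ≤ 1 := by
  unfold bump
  refine max_le (by norm_num) ?_
  have h1 := Real.sin_le_one s
  have h2 := Real.sqrt_nonneg 2
  linarith

lemma bump_periodic : Function.Periodic bump (2 * Real.pi) := by
  intro s
  unfold bump
  rw [Real.sin_add_two_pi]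

/-- the integral of the bump over one period. -/
noncomputable def kap : ℝ := ∫ s in (0:ℝ)..(2 * Real.pi), bump s

lemma kap_pos : 0 < kap := by
  unfold kap
  refine intervalIntegral.integral_pos (by positivity) bump_continuous.continuousOn
    (fun x _ => bump_nonneg x) ⟨Real.pi / 2, ⟨by positivity, by linarith [Real.pi_pos]⟩, ?_⟩
  unfold bump
  rw [Real.sin_pi_div_two]
  refine lt_max_of_lt_right ?_
  have : Real.sqrt 2 < 2 := by
    rw [Real.sqrt_lt' (by norm_num)]; norm_num
  linarith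

lemma bump_integral_ge {a b : ℝ} (hab : a ≤ b) :
    kap * ((b - a) / (2 * Real.pi) - 1) ≤ ∫ s in a..b, bump s := by
  have hpi : 0 < 2 * Real.pi := by positivity
  set n : ℕ := ⌊(b - a) / (2 * Real.pi)⌋₊ with hn
  have hx0 : 0 ≤ (b - a) / (2 * Real.pi) := div_nonneg (by linarith) hpi.le
  have hn1 : (n : ℝ) ≤ (b - a) / (2 * Real.pi) := Nat.floor_le hx0
  have hn2 : (b - a) / (2 * Real.pi) < n + 1 := Nat.lt_floor_add_one _
  have hint : ∀ x y : ℝ, IntervalIntegrable bump volume x y := fun x y =>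
    bump_continuous.intervalIntegrable x y
  have h1 : ∫ s in a..(a + (n : ℝ) * (2 * Real.pi)), bump s = n * kap := by
    have := bump_periodic.intervalIntegral_add_zsmul_eq (n : ℤ) a (fun x y => hint x y)
    have h2 : ∫ x in a..a + 2 * Real.pi, bump x = kap := by
      have := bump_periodic.intervalIntegral_add_eq a 0
      simpa [kap] using this
    rw [h2] at this
    simpa using this
  have hle : a + (n : ℝ) * (2 * Real.pi) ≤ b := by
    have := (le_div_iff₀ hpi).1 hn1
    linarith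
  have h3 : ∫ s in a..b, bump s =
      (∫ s in a..(a + (n : ℝ) * (2 * Real.pi)), bump s) +
        ∫ s in (a + (n : ℝ) * (2 * Real.pi))..b, bump s :=
    (intervalIntegral.integral_add_adjacent_intervals (hint _ _) (hint _ _)).symm
  have h4 : 0 ≤ ∫ s in (a + (n : ℝ) * (2 * Real.pi))..b, bump s :=
    intervalIntegral.integral_nonneg hle (fun x _ => bump_nonneg x)
  rw [h3, h1]
  nlinarith [kap_pos]

lemma bump_integral_abs_ge (a b : ℝ) :
    kap * (|b - a| / (2 * Real.pi) - 1) ≤ |∫ s in a..b, bump s| := by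
  rcases le_total a b with h | h
  · rw [abs_of_nonneg (sub_nonneg.2 h)]
    exact (bump_integral_ge h).trans (le_abs_self _)
  · rw [abs_sub_comm, abs_of_nonneg (sub_nonneg.2 h), intervalIntegral.integral_symm, abs_neg]
    exact (bump_integral_ge h).trans (le_abs_self _)

/-- identification of a continuous branch of the argument with the integral of `Im (q'/q)`. -/
lemma branch_eq {a b : ℝ} (q q' : ℝ → ℂ)
    (hq : ∀ y ∈ Icc a b, HasDerivWithinAt q (q' y) (Icc a b) y)
    (hq' : ContinuousOn q' (Icc a b)) (hne : ∀ y ∈ Icc a b, q y ≠ 0)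
    (A : ℝ → ℝ) (hA : ContinuousOn A (Icc a b))
    (hAq : ∀ y ∈ Icc a b, q y = ‖q y‖ * Complex.exp (A y * Complex.I)) :
    ∀ y ∈ Icc a b, A y = A a + ∫ t in a..y, (q' t / q t).im := by
  intro y0 hy0
  have hab : a ≤ b := hy0.1.trans hy0.2
  have haI : a ∈ Icc a b := left_mem_Icc.2 hab
  have hqc : ContinuousOn q (Icc a b) := fun y hy => (hq y hy).continuousWithinAt
  set r : ℝ → ℂ := fun t => q' t / q t with hr
  have hrc : ContinuousOn r (Icc a b) := hq'.div hqc hne
  set J : ℝ → ℂ := fun y => ∫ t in a..y, r t with hJ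
  have hint : ∀ y ∈ Icc a b, IntervalIntegrable r volume a y := by
    intro y hy
    refine (hrc.mono ?_).intervalIntegrable
    rw [uIcc_of_le hy.1]
    exact Icc_subset_Icc_right hy.2
  have hJd : ∀ y ∈ Icc a b, HasDerivWithinAt J (r y) (Icc a b) y := by
    intro y hy
    have hfilt : Fact (y ∈ Icc a b) := ⟨hy⟩
    exact intervalIntegral.integral_hasDerivWithinAt_right (hint y hy)
      (hrc.stronglyMeasurableAtFilter_nhdsWithin measurableSet_Icc y) (hrc y hy)
  -- constant of motion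
  have hconst : ∀ y ∈ Icc a b, q y * Complex.exp (-(J y)) = q a := by
    have hd : ∀ y ∈ Icc a b,
        HasDerivWithinAt (fun y => q y * Complex.exp (-(J y))) 0 (Icc a b) y := by
      intro y hy
      have h1 := (hq y hy).mul ((hJd y hy).neg.cexp)
      refine h1.congr_deriv ?_
      simp only [hr]
      have := hne y hy
      field_simp
      ring
    have hcont : ContinuousOn (fun y => q y * Complex.exp (-(J y))) (Icc a b) :=
      fun y hy => (hd y hy).continuousWithinAt
    intro y hy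
    have h0 : (fun y => q y * Complex.exp (-(J y))) y = (fun y => q y * Complex.exp (-(J y))) a := by
      refine constant_of_has_deriv_right_zero hcont (fun x hx => ?_) y hy
      have hx' : x ∈ Icc a b := ⟨hx.1, hx.2.le⟩
      exact (hd x hx').mono_of_mem_nhdsWithin (Icc_mem_nhdsGE_of_mem hx)
    have hJa : J a = 0 := by simp [hJ]
    simpa [hJa] using h0
  have hqexp : ∀ y ∈ Icc a b, q y = q a * Complex.exp (J y) := by
    intro y hy
    have := hconst y hy
    rw [← this, mul_assoc, ← Complex.exp_add]; simp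
  have hJim : ∀ y ∈ Icc a b, (J y).im = ∫ t in a..y, (r t).im := by
    intro y hy
    have := intervalIntegral.intervalIntegral_im (hint y hy)
    exact this.symm
  -- difference is a multiple of 2π
  set g : ℝ → ℝ := fun y => A y - (A a + (J y).im) with hg
  have hgc : ContinuousOn g (Icc a b) := by
    have hJc : ContinuousOn J (Icc a b) := fun y hy => (hJd y hy).continuousWithinAt
    exact hA.sub (continuousOn_const.add (Complex.continuous_im.comp_continuousOn hJc))
  have hgz : ∀ y ∈ Icc a b, ∃ n : ℤ, g y = n * (2 * Real.pi) := by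
    intro y hy
    have h1 := hqexp y hy
    rw [hAq y hy, hAq a haI] at h1
    have hn1 : ‖q y‖ = ‖q a‖ * Real.exp (J y).re := by
      rw [hqexp y hy, norm_mul, Complex.norm_exp]
    have hqa : (‖q a‖ : ℂ) ≠ 0 := by
      exact_mod_cast (norm_pos_iff.2 (hne a haI)).ne'
    have h2 : Complex.exp (A y * Complex.I) = Complex.exp ((A a + (J y).im : ℝ) * Complex.I) := by
      have h3 : Complex.exp (J y) = (Real.exp (J y).re : ℂ) * Complex.exp ((J y).im * Complex.I) := by
        conv_lhs => rw [← Complex.re_add_im (J y)]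
        rw [Complex.exp_add]; push_cast; rfl
      rw [hn1, h3] at h1
      have hex : ((Real.exp (J y).re : ℝ) : ℂ) ≠ 0 := by
        exact_mod_cast (Real.exp_pos _).ne'
      have h4 : (‖q a‖ : ℂ) * (Real.exp (J y).re : ℂ) * Complex.exp (A y * Complex.I) =
          (‖q a‖ : ℂ) * (Real.exp (J y).re : ℂ) *
            (Complex.exp (A a * Complex.I) * Complex.exp ((J y).im * Complex.I)) := by
        have : ((‖q a‖ * Real.exp (J y).re : ℝ) : ℂ) = (‖q a‖ : ℂ) * (Real.exp (J y).re : ℂ) := by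
          push_cast; ring
        rw [this] at h1
        rw [h1]; ring
      have h5 := mul_left_cancel₀ (mul_ne_zero hqa hex) h4
      rw [h5, ← Complex.exp_add]; congr 1; push_cast; ring
    obtain ⟨n, hn⟩ := Complex.exp_eq_exp_iff_exists_int.1 h2
    refine ⟨n, ?_⟩
    have h6 := congrArg Complex.im hn
    simp at h6
    simp only [hg]
    linarith
  have hga : g a = 0 := by simp [hg, hJ]
  have hgy0 : g y0 = 0 := by
    obtain ⟨n, hn⟩ := hgz y0 hy0
    have hpi := Real.pi_pos
    rcases lt_trichotomy n 0 with hneg | hz | hpos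
    · exfalso
      have hn' : (n : ℝ) ≤ -1 := by exact_mod_cast (Int.le_sub_one_iff.2 hneg)
      have hmem : -Real.pi ∈ Icc (g y0) (g a) := by
        constructor
        · rw [hn]; nlinarith
        · rw [hga]; linarith
      have hsub : Icc a y0 ⊆ Icc a b := Icc_subset_Icc_right hy0.2
      obtain ⟨x, hx, hgx⟩ := intermediate_value_Icc' hy0.1 (hgc.mono hsub) hmem
      obtain ⟨m, hm⟩ := hgz x (hsub hx)
      rw [hgx] at hm
      have h7 : ((2 * m + 1 : ℤ) : ℝ) * Real.pi = 0 := by push_cast; linarith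
      rcases mul_eq_zero.1 h7 with h8 | h8
      · have : (2 * m + 1 : ℤ) = 0 := by exact_mod_cast h8
        omega
      · exact hpi.ne' h8
    · rw [hn, hz]; simp
    · exfalso
      have hn' : (1 : ℝ) ≤ n := by exact_mod_cast hpos
      have hmem : Real.pi ∈ Icc (g a) (g y0) := by
        constructor
        · rw [hga]; linarith
        · rw [hn]; nlinarith
      have hsub : Icc a y0 ⊆ Icc a b := Icc_subset_Icc_right hy0.2
      obtain ⟨x, hx, hgx⟩ := intermediate_value_Icc hy0.1 (hgc.mono hsub) hmem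
      obtain ⟨m, hm⟩ := hgz x (hsub hx)
      rw [hgx] at hm
      have h7 : ((2 * m - 1 : ℤ) : ℝ) * Real.pi = 0 := by push_cast; linarith
      rcases mul_eq_zero.1 h7 with h8 | h8
      · have : (2 * m - 1 : ℤ) = 0 := by exact_mod_cast h8
        omega
      · exact hpi.ne' h8
  have := hJim y0 hy0
  simp only [hg] at hgy0
  rw [this] at hgy0
  linarith

/-- the upper sector (part of the curve seen from `z0` within `45°` of the vertical). -/
def sector (p : ℝ → ℂ) (z0 : ℂ) : Set ℝ := {y | |(p y - z0).re| ≤ (p y - z0).im}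

lemma measurableSet_sector {ρ C0 : ℝ} {p : ℝ → ℂ} (z0 : ℂ) (hp : ContinuousOn p (Icc ρ C0)) :
    MeasurableSet (Icc ρ C0 ∩ sector p z0) := by
  have h1 : ContinuousOn (fun y => (p y - z0).im - |(p y - z0).re|) (Icc ρ C0) := by
    have h2 : ContinuousOn (fun y => p y - z0) (Icc ρ C0) := hp.sub continuousOn_const
    exact (Complex.continuous_im.comp_continuousOn h2).sub
      ((Complex.continuous_re.comp_continuousOn h2).abs)
  have h3 := h1.preimage_isClosed_of_isClosed isClosed_Icc (isClosed_Ici (a := (0:ℝ)))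
  have h4 : Icc ρ C0 ∩ sector p z0 =
      Icc ρ C0 ∩ (fun y => (p y - z0).im - |(p y - z0).re|) ⁻¹' (Ici 0) := by
    ext y
    simp [sector, sub_nonneg]
  rw [h4]
  exact h3.measurableSet

lemma bump_le_indicator {q : ℂ} {B : ℝ} (hq : q = ‖q‖ * Complex.exp (B * Complex.I)) 
    (hb : bump B ≠ 0) : |q.re| ≤ q.im := by
  have h1 : 0 < bump B := lt_of_le_of_ne (bump_nonneg B) (Ne.symm hb)
  unfold bump at h1
  have h2 : 0 < Real.sin B - Real.sqrt 2 / 2 := by
    rcases lt_max_iff.1 h1 with h | h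
    · exact absurd h (lt_irrefl _)
    · exact h
  have h3 : q.re = ‖q‖ * Real.cos B := by
    have := congrArg Complex.re hq
    rw [this]
    simp [Complex.exp_re, Complex.exp_im]
  have h4 : q.im = ‖q‖ * Real.sin B := by
    have := congrArg Complex.im hq
    rw [this]
    simp [Complex.exp_re, Complex.exp_im]
  have h5 : Real.sqrt 2 ^ 2 = 2 := Real.sq_sqrt (by norm_num)
  have h6 : 0 ≤ Real.sqrt 2 := Real.sqrt_nonneg 2
  have h7 := Real.sin_sq_add_cos_sq B
  have h8 : |Real.cos B| ≤ Real.sin B := by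
    apply abs_le_of_sq_le_sq _ (by linarith)
    nlinarith
  rw [h3, h4, abs_mul, abs_of_nonneg (norm_nonneg q)]
  exact mul_le_mul_of_nonneg_left h8 (norm_nonneg q)

theorem winding {ρ C0 c : ℝ} (hρC : ρ ≤ C0) (hc : 0 < c) (p p' : ℝ → ℂ) (z0 : ℂ)
    (hp : ∀ y ∈ Icc ρ C0, HasDerivWithinAt p (p' y) (Icc ρ C0) y)
    (hp' : ContinuousOn p' (Icc ρ C0))
    (hR : ∀ y ∈ Icc ρ C0, c ≤ ‖p y - z0‖)
    (A : ℝ → ℝ) (hA : ContinuousOn A (Icc ρ C0))
    (hAp : ∀ y ∈ Icc ρ C0, p y - z0 = ‖p y - z0‖ * Complex.exp (A y * Complex.I)) :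
    c * (kap * (|A C0 - A ρ| / (2 * Real.pi) - 1)) ≤
      ∫ y in Icc ρ C0 ∩ sector p z0, ‖p' y‖ := by
  set q : ℝ → ℂ := fun y => p y - z0 with hqdef
  have hq : ∀ y ∈ Icc ρ C0, HasDerivWithinAt q (p' y) (Icc ρ C0) y := fun y hy =>
    (hp y hy).sub_const z0
  have hne : ∀ y ∈ Icc ρ C0, q y ≠ 0 := by
    intro y hy h0
    have := hR y hy
    change c ≤ ‖q y‖ at this
    rw [h0, norm_zero] at this
    linarith
  have hqc : ContinuousOn q (Icc ρ C0) := fun y hy => (hq y hy).continuousWithinAt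
  have hbr := branch_eq q p' hq hp' hne A hA hAp
  set r : ℝ → ℝ := fun t => (p' t / q t).im with hr
  have hrc : ContinuousOn r (Icc ρ C0) :=
    Complex.continuous_im.comp_continuousOn (hp'.div hqc hne)
  have huI : uIcc ρ C0 = Icc ρ C0 := uIcc_of_le hρC
  have hρI : ρ ∈ Icc ρ C0 := left_mem_Icc.2 hρC
  have hCI : C0 ∈ Icc ρ C0 := right_mem_Icc.2 hρC
  -- derivative of A
  have hAd : ∀ y ∈ Ioo ρ C0, HasDerivWithinAt A (r y) (Ioi y) y := by
    intro y hy
    have hy' : y ∈ Icc ρ C0 := Ioo_subset_Icc_self hy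
    have hint : IntervalIntegrable r volume ρ y := by
      refine (hrc.mono ?_).intervalIntegrable
      rw [uIcc_of_le hy.1.le]
      exact Icc_subset_Icc_right hy.2.le
    have hrat : ContinuousAt r y := hrc.continuousAt (Icc_mem_nhds hy.1 hy.2)
    have h1 : HasDerivAt (fun y => A ρ + ∫ t in ρ..y, r t) (r y) y := by
      have hmeas : StronglyMeasurableAtFilter r (𝓝 y) :=
        ContinuousOn.stronglyMeasurableAtFilter isOpen_Ioo (hrc.mono Ioo_subset_Icc_self) y hy
      exact (intervalIntegral.integral_hasDerivAt_right hint hmeas hrat).const_add _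
    have h2 : A =ᶠ[𝓝 y] (fun y => A ρ + ∫ t in ρ..y, r t) := by
      filter_upwards [Icc_mem_nhds hy.1 hy.2] with x hx
      exact hbr x hx
    exact (h1.congr_of_eventuallyEq h2).hasDerivWithinAt
  have hsub : ∫ x in ρ..C0, (bump ∘ A) x * r x = ∫ u in A ρ..A C0, bump u :=
    intervalIntegral.integral_comp_mul_deriv'' (by rwa [huI])
      (by
        intro x hx
        rw [min_eq_left hρC, max_eq_right hρC] at hx
        exact hAd x hx)
      (by rwa [huI]) bump_continuous.continuousOn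
  have hge := bump_integral_abs_ge (A ρ) (A C0)
  rw [← hsub] at hge
  -- upper bound
  have hbA : ContinuousOn (bump ∘ A) (Icc ρ C0) := bump_continuous.comp_continuousOn hA
  have hnp : ContinuousOn (fun y => ‖p' y‖) (Icc ρ C0) := hp'.norm
  have hmeasE : MeasurableSet (Icc ρ C0 ∩ sector p z0) :=
    measurableSet_sector z0 (fun y hy => (hp y hy).continuousWithinAt)
  have hintn : IntegrableOn (fun y => ‖p' y‖) (Icc ρ C0) := hnp.integrableOn_Icc
  have hup : |∫ x in ρ..C0, (bump ∘ A) x * r x| ≤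
      (1 / c) * ∫ y in Icc ρ C0 ∩ sector p z0, ‖p' y‖ := by
    rw [intervalIntegral.integral_of_le hρC, ← integral_Icc_eq_integral_Ioc]
    have h1 : |∫ x in Icc ρ C0, (bump ∘ A) x * r x| ≤ ∫ x in Icc ρ C0, |(bump ∘ A) x * r x| :=
      abs_integral_le_integral_abs
    refine h1.trans ?_
    have h2 : ∫ x in Icc ρ C0, |(bump ∘ A) x * r x| ≤
        ∫ x in Icc ρ C0, (Icc ρ C0 ∩ sector p z0).indicator (fun y => (1 / c) * ‖p' y‖) x := by
      refine setIntegral_mono_on ((hbA.mul hrc).abs.integrableOn_Icc) ?_ measurableSet_Icc ?_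
      · exact (hintn.const_mul (1 / c)).indicator hmeasE
      · intro x hx
        by_cases hb : bump (A x) = 0
        · simp only [Function.comp, hb, zero_mul, abs_zero]
          exact indicator_nonneg (fun y _ => by positivity) x
        · have hxE : x ∈ Icc ρ C0 ∩ sector p z0 :=
            ⟨hx, bump_le_indicator (hAp x hx) hb⟩
          rw [indicator_of_mem hxE]
          simp only [Function.comp, abs_mul, abs_of_nonneg (bump_nonneg _)]
          have h3 : |r x| ≤ (1 / c) * ‖p' x‖ := by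
            have h4 : |r x| ≤ ‖p' x / q x‖ := Complex.abs_im_le_norm _
            rw [norm_div] at h4
            refine h4.trans ?_
            rw [div_eq_mul_inv, mul_comm, one_div]
            exact mul_le_mul_of_nonneg_right (inv_anti₀ hc (hR x hx)) (norm_nonneg _)
          calc bump (A x) * |r x| ≤ 1 * ((1 / c) * ‖p' x‖) :=
                mul_le_mul (bump_le_one _) h3 (abs_nonneg _) zero_le_one
            _ = _ := one_mul _
    refine h2.trans (le_of_eq ?_)
    rw [setIntegral_indicator hmeasE, ← inter_assoc, inter_self, integral_const_mul]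
  have := hge.trans hup
  have h9 := mul_le_mul_of_nonneg_left this hc.le
  calc c * (kap * (|A C0 - A ρ| / (2 * Real.pi) - 1)) ≤
      c * ((1 / c) * ∫ y in Icc ρ C0 ∩ sector p z0, ‖p' y‖) := h9
    _ = _ := by rw [← mul_assoc, mul_one_div_cancel hc.ne', one_mul]

/-- tangent line inequality for powers. -/
lemma rpow_tangent {u t d : ℝ} (hu : 0 ≤ u) (ht : 0 < t) (hd : 1 ≤ d) :
    t ^ d + d * t ^ (d - 1) * (u - t) ≤ u ^ d := by
  have h1 := one_add_mul_self_le_rpow_one_add (s := (u - t) / t) (p := d)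
    (by rw [le_div_iff₀ ht]; linarith) hd
  have h2 : 1 + (u - t) / t = u / t := by field_simp; ring
  rw [h2, Real.div_rpow hu ht.le, le_div_iff₀ (Real.rpow_pos_of_pos ht d)] at h1
  have h3 : t ^ d = t ^ (d - 1) * t := by
    rw [← Real.rpow_add_one ht.ne']; congr 1; ring
  calc t ^ d + d * t ^ (d - 1) * (u - t) = (1 + d * ((u - t) / t)) * t ^ d := by
        rw [h3]; field_simp
    _ ≤ u ^ d := h1

theorem power_mean {ρ C0 : ℝ} (hρ : 0 < ρ) (E : Set ℝ) (hE : MeasurableSet E)
    (hEI : E ⊆ Icc ρ C0) (u : ℝ → ℝ) (hu : ContinuousOn u (Icc ρ C0))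
    (hu0 : ∀ y ∈ Icc ρ C0, 0 ≤ u y) {X L d : ℝ} (hX : 0 < X) (hXu : X ≤ ∫ y in E, u y / y)
    (hL : Real.log (C0 / ρ) ≤ L) (hL0 : 0 < L) (hd : 1 ≤ d) {η : ℝ} (hη : 0 ≤ η)
    (hEη : MeasurableSet (E ∩ {y | η ≤ u y})) :
    X ^ d * L ^ (1 - d) - L * η ^ d ≤ ∫ y in E ∩ {y | η ≤ u y}, (u y) ^ d / y := by
  by_cases hρC : ρ ≤ C0
  swap
  · have : Icc ρ C0 = ∅ := Icc_eq_empty hρC
    rw [this] at hEI
    have hE0 : E = ∅ := subset_empty_iff.1 hEI
    rw [hE0] at hXu
    simp at hXu
    linarith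
  have hpos : ∀ y ∈ Icc ρ C0, 0 < y := fun y hy => hρ.trans_le hy.1
  have hinvc : ContinuousOn (fun y : ℝ => 1 / y) (Icc ρ C0) :=
    continuousOn_const.div continuousOn_id (fun y hy => (hpos y hy).ne')
  have hudc : ContinuousOn (fun y : ℝ => (u y) ^ d / y) (Icc ρ C0) :=
    (hu.rpow_const (fun y hy => Or.inr (by linarith))).div continuousOn_id
      (fun y hy => (hpos y hy).ne')
  have huc : ContinuousOn (fun y : ℝ => u y / y) (Icc ρ C0) :=
    hu.div continuousOn_id (fun y hy => (hpos y hy).ne')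
  have i1 : IntegrableOn (fun y : ℝ => 1 / y) (Icc ρ C0) := hinvc.integrableOn_Icc
  have i2 : IntegrableOn (fun y : ℝ => (u y) ^ d / y) (Icc ρ C0) := hudc.integrableOn_Icc
  have i3 : IntegrableOn (fun y : ℝ => u y / y) (Icc ρ C0) := huc.integrableOn_Icc
  have hlog : ∀ F : Set ℝ, MeasurableSet F → F ⊆ Icc ρ C0 → ∫ y in F, 1 / y ≤ L := by
    intro F hF hFI
    have h1 : ∫ y in F, 1 / y ≤ ∫ y in Icc ρ C0, 1 / y := by
      refine setIntegral_mono_set i1 ?_ hFI.eventuallyLE
      refine (ae_restrict_iff' measurableSet_Icc).2 (Eventually.of_forall fun y hy => ?_)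
      exact one_div_nonneg.2 (hpos y hy).le
    have h2 : ∫ y in Icc ρ C0, 1 / y = Real.log (C0 / ρ) := by
      rw [integral_Icc_eq_integral_Ioc, ← intervalIntegral.integral_of_le hρC]
      exact integral_one_div_of_pos hρ (hρ.trans_le hρC)
    linarith
  set t : ℝ := X / L with ht
  have ht0 : 0 < t := div_pos hX hL0
  -- main lower bound
  have h1 : X ^ d * L ^ (1 - d) ≤ ∫ y in E, (u y) ^ d / y := by
    have h2 : ∫ y in E, (d * t ^ (d - 1) * (u y / y) - (d - 1) * t ^ d * (1 / y)) ≤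
        ∫ y in E, (u y) ^ d / y := by
      refine setIntegral_mono_on ?_ (i2.mono_set hEI) hE ?_
      · exact ((i3.mono_set hEI).const_mul _).sub ((i1.mono_set hEI).const_mul _)
      · intro y hy
        have hy0 := hpos y (hEI hy)
        have h3 := rpow_tangent (hu0 y (hEI hy)) ht0 hd
        have h4 : t ^ d = t ^ (d - 1) * t := by
          rw [← Real.rpow_add_one ht0.ne']; congr 1; ring
        rw [mul_one_div, ← mul_div_assoc, ← sub_div]
        refine div_le_div_of_nonneg_right ?_ hy0.le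
        refine le_trans (le_of_eq ?_) h3
        rw [h4]; ring
    rw [integral_sub ((i3.mono_set hEI).const_mul _) ((i1.mono_set hEI).const_mul _),
      integral_const_mul, integral_const_mul] at h2
    refine le_trans ?_ h2
    have h5 := hlog E hE hEI
    have h6 : 0 < t ^ (d - 1) := Real.rpow_pos_of_pos ht0 _
    have h7 : 0 < t ^ d := Real.rpow_pos_of_pos ht0 _
    have h8 : X ^ d * L ^ (1 - d) = t ^ d * L := by
      rw [ht, Real.div_rpow hX.le hL0.le, Real.rpow_sub hL0, Real.rpow_one]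
      field_simp
    have h9 : t ^ d * L = d * t ^ (d - 1) * X - (d - 1) * t ^ d * L := by
      have h4 : t ^ d = t ^ (d - 1) * t := by
        rw [← Real.rpow_add_one ht0.ne']; congr 1; ring
      have h10 : X = t * L := by rw [ht]; field_simp
      rw [h4]
      linear_combination (-(d * t ^ (d - 1))) * h10
    rw [h8, h9]
    have h11 : d * t ^ (d - 1) * X ≤ d * t ^ (d - 1) * ∫ y in E, u y / y :=
      mul_le_mul_of_nonneg_left hXu (by positivity)
    have h12 : (d - 1) * t ^ d * ∫ y in E, 1 / y ≤ (d - 1) * t ^ d * L :=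
      mul_le_mul_of_nonneg_left h5 (mul_nonneg (by linarith) h7.le)
    linarith
  -- split off the small part
  have hsplit : ∫ y in E, (u y) ^ d / y =
      (∫ y in E ∩ {y | η ≤ u y}, (u y) ^ d / y) + ∫ y in E \ (E ∩ {y | η ≤ u y}), (u y) ^ d / y := by
    rw [← setIntegral_union disjoint_sdiff_right (hE.diff hEη) ((i2.mono_set hEI).mono_set
      inter_subset_left) ((i2.mono_set hEI).mono_set sdiff_subset)]
    congr 2
    exact (union_sdiff_cancel inter_subset_left).symm
  have hsmall : ∫ y in E \ (E ∩ {y | η ≤ u y}), (u y) ^ d / y ≤ L * η ^ d := by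
    have h3 : ∫ y in E \ (E ∩ {y | η ≤ u y}), (u y) ^ d / y ≤
        ∫ y in E \ (E ∩ {y | η ≤ u y}), η ^ d * (1 / y) := by
      refine setIntegral_mono_on ((i2.mono_set hEI).mono_set sdiff_subset)
        (((i1.mono_set hEI).mono_set sdiff_subset).const_mul _) (hE.diff hEη) ?_
      intro y hy
      have hy0 := hpos y (hEI hy.1)
      have hyu : u y ≤ η := by
        by_contra hcon
        exact hy.2 ⟨hy.1, (not_le.1 hcon).le⟩
      rw [mul_one_div]
      exact div_le_div_of_nonneg_right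
        (Real.rpow_le_rpow (hu0 y (hEI hy.1)) hyu (by linarith)) hy0.le
    rw [integral_const_mul] at h3
    have h4 := hlog _ (hE.diff hEη) (sdiff_subset.trans hEI)
    have h5 : 0 ≤ η ^ d := Real.rpow_nonneg hη d
    calc _ ≤ _ := h3
      _ ≤ η ^ d * L := mul_le_mul_of_nonneg_left h4 h5
      _ = _ := mul_comm _ _
  linarith

/-- **U5c.**  Winding `≥ cV √N - CV` over at most `CL N` logarithmic scales gives `∫ u^d dy/y ≥ c' N^{1-d/2}`
over the part of the curve in the upper sector on which `u = y ‖p'‖ ≥ c5 N^{-1/2}`.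
All constants depend only on `cR cV CV CL d`. -/
theorem sector_power_mass {cR cV CV CL d : ℝ} (hcR : 0 < cR) (hcV : 0 < cV) (hCL : 0 < CL)
    (hd : 1 ≤ d) :
    ∃ c5 > 0, ∃ c' > 0, ∃ N0 : ℝ, 1 ≤ N0 ∧ ∀ N : ℝ, N0 ≤ N → ∀ (ρ C0 : ℝ), 0 < ρ → ρ ≤ C0 →
      Real.log (C0 / ρ) ≤ CL * N → ∀ (p p' : ℝ → ℂ) (z0 : ℂ),
      (∀ y ∈ Icc ρ C0, HasDerivWithinAt p (p' y) (Icc ρ C0) y) →
      ContinuousOn p' (Icc ρ C0) →
      (∀ y ∈ Icc ρ C0, cR ≤ ‖p y - z0‖) →
      ∀ A : ℝ → ℝ, ContinuousOn A (Icc ρ C0) →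
      (∀ y ∈ Icc ρ C0, p y - z0 = ‖p y - z0‖ * Complex.exp (A y * Complex.I)) →
      cV * Real.sqrt N - CV ≤ |A C0 - A ρ| →
      MeasurableSet ((Icc ρ C0 ∩ sector p z0) ∩ {y | c5 * N ^ (-(1:ℝ)/2) ≤ y * ‖p' y‖}) ∧
      c' * N ^ (1 - d / 2) ≤
        ∫ y in (Icc ρ C0 ∩ sector p z0) ∩ {y | c5 * N ^ (-(1:ℝ)/2) ≤ y * ‖p' y‖},
          (y * ‖p' y‖) ^ d / y := by
  have hpi := Real.pi_pos
  have hkap := kap_pos
  set cX : ℝ := cR * (kap * (cV / (4 * Real.pi))) with hcX
  have hcX0 : 0 < cX := by positivity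
  set c5 : ℝ := cX / (2 * CL) with hc5
  have hc50 : 0 < c5 := by positivity
  set c' : ℝ := cX ^ d * CL ^ (1 - d) / 2 with hc'
  have hc'0 : 0 < c' := by positivity
  -- threshold
  set s0 : ℝ := 2 * (|CV| + 2 * Real.pi) / cV with hs0
  have hs00 : 0 ≤ s0 := by positivity
  refine ⟨c5, hc50, c', hc'0, max 1 (s0 ^ 2), le_max_left _ _, ?_⟩
  intro N hN ρ C0 hρ hρC hlog p p' z0 hp hp' hR A hA hAp hV
  have hN1 : 1 ≤ N := (le_max_left _ _).trans hN
  have hN0 : 0 < N := by linarith
  have hsN : s0 ≤ Real.sqrt N := Real.le_sqrt_of_sq_le ((le_max_right _ _).trans hN)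
  have hX1 : cX * Real.sqrt N ≤ cR * (kap * (|A C0 - A ρ| / (2 * Real.pi) - 1)) := by
    have h1 : cV * s0 = 2 * (|CV| + 2 * Real.pi) := by rw [hs0]; field_simp
    have h2 : cV * s0 ≤ cV * Real.sqrt N := mul_le_mul_of_nonneg_left hsN hcV.le
    have h3 : cV * Real.sqrt N / 2 + 2 * Real.pi ≤ |A C0 - A ρ| := by
      have := le_abs_self CV
      linarith
    have h4 : cV / (4 * Real.pi) * Real.sqrt N ≤ |A C0 - A ρ| / (2 * Real.pi) - 1 := by
      rw [le_sub_iff_add_le, le_div_iff₀ (by positivity)]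
      refine le_trans (le_of_eq ?_) h3
      field_simp
      ring
    rw [hcX]
    have h5 := mul_le_mul_of_nonneg_left h4 (mul_nonneg hcR.le hkap.le)
    calc _ = cR * kap * (cV / (4 * Real.pi) * Real.sqrt N) := by ring
      _ ≤ _ := h5
      _ = _ := by ring
  have hw := winding hρC hcR p p' z0 hp hp' hR A hA hAp
  have hpos : ∀ y ∈ Icc ρ C0, 0 < y := fun y hy => hρ.trans_le hy.1
  have hmeasE : MeasurableSet (Icc ρ C0 ∩ sector p z0) :=
    measurableSet_sector z0 (fun y hy => (hp y hy).continuousWithinAt)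
  have huc : ContinuousOn (fun y => y * ‖p' y‖) (Icc ρ C0) := continuousOn_id.mul hp'.norm
  have hmeas : ∀ η : ℝ, MeasurableSet ((Icc ρ C0 ∩ sector p z0) ∩ {y | η ≤ y * ‖p' y‖}) := by
    intro η
    have h3 := huc.preimage_isClosed_of_isClosed isClosed_Icc (isClosed_Ici (a := η))
    have h4 : (Icc ρ C0 ∩ sector p z0) ∩ {y | η ≤ y * ‖p' y‖} =
        (Icc ρ C0 ∩ sector p z0) ∩ (Icc ρ C0 ∩ (fun y => y * ‖p' y‖) ⁻¹' (Ici η)) := by
      ext y; constructor
      · rintro ⟨⟨h1, h2⟩, h3⟩; exact ⟨⟨h1, h2⟩, h1, h3⟩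
      · rintro ⟨⟨h1, h2⟩, _, h3⟩; exact ⟨⟨h1, h2⟩, h3⟩
    rw [h4]
    exact hmeasE.inter h3.measurableSet
  refine ⟨hmeas _, ?_⟩
  have hXu : cX * Real.sqrt N ≤ ∫ y in Icc ρ C0 ∩ sector p z0, (y * ‖p' y‖) / y := by
    refine (hX1.trans hw).trans (le_of_eq ?_)
    refine setIntegral_congr_fun hmeasE (fun y hy => ?_)
    have := hpos y hy.1
    field_simp
  have hpm := power_mean hρ (Icc ρ C0 ∩ sector p z0) hmeasE inter_subset_left
    (fun y => y * ‖p' y‖) huc (fun y hy => mul_nonneg (hpos y hy).le (norm_nonneg _))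
    (X := cX * Real.sqrt N) (L := CL * N) (d := d) (by positivity) hXu hlog (by positivity) hd
    (η := c5 * N ^ (-(1:ℝ)/2)) (by positivity) (hmeas _)
  refine le_trans ?_ hpm
  -- algebra of exponents
  have e1 : (cX * Real.sqrt N) ^ d * (CL * N) ^ (1 - d) = cX ^ d * CL ^ (1 - d) * N ^ (1 - d / 2) := by
    rw [Real.mul_rpow hcX0.le (Real.sqrt_nonneg _), Real.mul_rpow hCL.le hN0.le,
      Real.sqrt_eq_rpow, ← Real.rpow_mul hN0.le]
    have : N ^ (1 - d / 2) = N ^ (1 / 2 * d) * N ^ (1 - d) := by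
      rw [← Real.rpow_add hN0]; congr 1; ring
    rw [this]; ring
  have e2 : CL * N * (c5 * N ^ (-(1:ℝ)/2)) ^ d ≤ cX ^ d * CL ^ (1 - d) / 2 * N ^ (1 - d / 2) := by
    rw [Real.mul_rpow hc50.le (by positivity), ← Real.rpow_mul hN0.le]
    have h1 : N ^ (1 - d / 2) = N * N ^ (-(1:ℝ)/2 * d) := by
      rw [show (1 - d / 2) = 1 + (-(1:ℝ)/2 * d) by ring, Real.rpow_add hN0, Real.rpow_one]
    have h2 : c5 ^ d ≤ (cX / CL) ^ d / 2 := by
      have h3 : c5 = cX / CL * (1 / 2) := by rw [hc5]; field_simp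
      rw [h3, Real.mul_rpow (by positivity) (by norm_num)]
      have h4 : (1 / 2 : ℝ) ^ d ≤ (1 / 2 : ℝ) ^ (1:ℝ) :=
        Real.rpow_le_rpow_of_exponent_ge (by norm_num) (by norm_num) hd
      rw [Real.rpow_one] at h4
      have h5 : 0 ≤ (cX / CL) ^ d := by positivity
      nlinarith
    have h6 : CL * (cX / CL) ^ d = cX ^ d * CL ^ (1 - d) := by
      rw [Real.div_rpow hcX0.le hCL.le, Real.rpow_sub hCL, Real.rpow_one]; ring
    rw [h1]
    calc CL * N * (c5 ^ d * N ^ (-(1:ℝ)/2 * d)) = (CL * c5 ^ d) * (N * N ^ (-(1:ℝ)/2 * d)) := by ring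
      _ ≤ (CL * ((cX / CL) ^ d / 2)) * (N * N ^ (-(1:ℝ)/2 * d)) := by
          refine mul_le_mul_of_nonneg_right (mul_le_mul_of_nonneg_left h2 hCL.le) (by positivity)
      _ = _ := by rw [← h6]; ring
  rw [e1, hc']
  linarith

end Crest.Agent.R162.U5c
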