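import Mathlib
import Crest.Agent.Lib.Bieberbach

/-!
Row 162 (S0243), node U5d: the Green mass created by the trigger (change of variables, Koebe
distortion and physical transfer), for abstract univalent maps of the half-plane.
-/

set_option autoImplicit false

open MeasureTheory Metric Set Filter Topology
open scoped ComplexConjugate Real ENNReal

namespace Crest.Agent.R162.U5d

/-- the upper half-plane -/
def HH : Set ℂ := {z : ℂ | 0 < z.im}

theorem isOpen_HH : IsOpen HH := isOpen_lt continuous_const Complex.continuous_im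

/-- `|f''| ≤ 3 |f'| / Im z` for univalent `f` on the half-plane -/
theorem deriv2_le {f : ℂ → ℂ} (hf : DifferentiableOn ℂ f HH) (hfi : InjOn f HH) {z : ℂ}
    (hz : 0 < z.im) : ‖deriv (deriv f) z‖ ≤ 3 / z.im * ‖deriv f z‖ := by
  have h := Crest.Agent.Lib.Bieberbach.bieberbach_halfplane hf hfi hz
  have h1 : ‖(z.im : ℂ) * deriv (deriv f) z‖ ≤ 3 * ‖deriv f z‖ := by
    have e : (z.im : ℂ) * deriv (deriv f) z =
        ((z.im : ℂ) * deriv (deriv f) z - Complex.I * deriv f z) + Complex.I * deriv f z := by ring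
    rw [e]
    refine (norm_add_le _ _).trans ?_
    have : ‖Complex.I * deriv f z‖ = ‖deriv f z‖ := by simp
    rw [this]; linarith
  rw [norm_mul, Complex.norm_real, Real.norm_eq_abs, abs_of_pos hz] at h1
  rw [div_mul_eq_mul_div, le_div_iff₀ hz]
  linarith

theorem deriv_ne {f : ℂ → ℂ} (hf : DifferentiableOn ℂ f HH) (hfi : InjOn f HH) {z : ℂ}
    (hz : 0 < z.im) : deriv f z ≠ 0 :=
  Crest.Agent.Lib.deriv_ne_zero_of_injOn isOpen_HH hf hfi hz

/-- logarithmic mean value inequality for a nonvanishing curve -/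
theorem log_norm_le {F F' : ℝ → ℂ} {a b K : ℝ} (hab : a ≤ b)
    (hF : ∀ t ∈ Icc a b, HasDerivWithinAt F (F' t) (Icc a b) t)
    (hne : ∀ t ∈ Icc a b, F t ≠ 0) (hK : ∀ t ∈ Icc a b, ‖F' t‖ ≤ K * ‖F t‖) :
    |Real.log ‖F b‖ - Real.log ‖F a‖| ≤ K * (b - a) := by
  have hd : ∀ t ∈ Icc a b, HasDerivWithinAt (fun t => Real.log (‖F t‖ ^ 2) / 2)
      ((2 * inner ℝ (F t) (F' t)) / ‖F t‖ ^ 2 / 2) (Icc a b) t := by
    intro t ht
    have h1 : HasDerivWithinAt (fun t => ‖F t‖ ^ 2) (2 * inner ℝ (F t) (F' t)) (Icc a b) t :=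
      (hF t ht).norm_sq
    have h2 := h1.log (by have := hne t ht; positivity)
    exact h2.div_const 2
  have hb : ∀ t ∈ Icc a b, ‖(2 * inner ℝ (F t) (F' t)) / ‖F t‖ ^ 2 / 2‖ ≤ K := by
    intro t ht
    have hpos : 0 < ‖F t‖ := norm_pos_iff.2 (hne t ht)
    have h1 : |inner ℝ (F t) (F' t)| ≤ ‖F t‖ * ‖F' t‖ := abs_real_inner_le_norm _ _
    have h2 : |inner ℝ (F t) (F' t)| ≤ K * ‖F t‖ ^ 2 := by
      refine h1.trans ?_
      have := mul_le_mul_of_nonneg_left (hK t ht) hpos.le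
      nlinarith
    rw [Real.norm_eq_abs, div_div, mul_comm (‖F t‖ ^ 2) 2, mul_div_mul_left _ _ two_ne_zero,
      abs_div, abs_of_pos (by positivity : (0:ℝ) < ‖F t‖ ^ 2), div_le_iff₀ (by positivity)]
    exact h2
  have := (convex_Icc a b).norm_image_sub_le_of_norm_hasDerivWithin_le hd hb
    (left_mem_Icc.2 hab) (right_mem_Icc.2 hab)
  rw [Real.norm_eq_abs, Real.norm_eq_abs, abs_of_nonneg (sub_nonneg.2 hab)] at this
  have e : ∀ t, Real.log (‖F t‖ ^ 2) / 2 = Real.log ‖F t‖ := by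
    intro t; rw [Real.log_pow]; push_cast; ring
  rw [e, e] at this
  exact this

/-- the point of modulus `y` and argument `θ` -/
noncomputable def pt (y θ : ℝ) : ℂ := (y : ℂ) * Complex.exp (θ * Complex.I)

theorem pt_half (y : ℝ) : pt y (π / 2) = y * Complex.I := by
  unfold pt
  congr 1
  have : ((π / 2 : ℝ) : ℂ) * Complex.I = (π : ℂ) / 2 * Complex.I := by push_cast; ring
  rw [this, Complex.exp_pi_div_two_mul_I]

theorem pt_im (y θ : ℝ) : (pt y θ).im = y * Real.sin θ := by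
  unfold pt
  rw [Complex.im_ofReal_mul, Complex.exp_ofReal_mul_I_im]

theorem norm_pt {y : ℝ} (hy : 0 ≤ y) (θ : ℝ) : ‖pt y θ‖ = y := by
  unfold pt
  rw [norm_mul, Complex.norm_exp_ofReal_mul_I, Complex.norm_real, Real.norm_eq_abs, abs_of_nonneg hy,
    mul_one]

theorem hasDerivAt_pt (y θ : ℝ) : HasDerivAt (pt y) (pt y θ * Complex.I) θ := by
  have h1 : HasDerivAt (fun t : ℝ => (t : ℂ) * Complex.I) (1 * Complex.I) θ :=
    (Complex.ofRealCLM.hasDerivAt (x := θ)).mul_const Complex.I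
  have h2 := (h1.cexp).const_mul (y : ℂ)
  have e : (y : ℂ) * (Complex.exp (θ * Complex.I) * (1 * Complex.I)) = pt y θ * Complex.I := by
    unfold pt; ring
  rw [e] at h2
  exact h2

theorem half_le_sin {θ : ℝ} (h : |θ - π / 2| ≤ 1 / 6) : 1 / 2 ≤ Real.sin θ := by
  have h1 : Real.sin θ = Real.cos (θ - π / 2) := by
    rw [Real.cos_sub_pi_div_two]
  rw [h1]
  have h2 := Real.one_sub_sq_div_two_le_cos (x := θ - π / 2)
  have h3 : (θ - π / 2) ^ 2 ≤ (1 / 6) ^ 2 := sq_le_sq' (by linarith [(abs_le.1 h).1]) (abs_le.1 h).2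
  nlinarith

theorem pt_mem {y θ : ℝ} (hy : 0 < y) (h : |θ - π / 2| ≤ 1 / 6) : 0 < (pt y θ).im := by
  rw [pt_im]
  have := half_le_sin h
  positivity

/-- comparison of `|g'|` along a short arc -/
theorem arc_log {g : ℂ → ℂ} (hg : DifferentiableOn ℂ g HH) (hgi : InjOn g HH) {y : ℝ} (hy : 0 < y)
    {θ θ' : ℝ} (hθ : |θ - π / 2| ≤ 1 / 6) (hθ' : |θ' - π / 2| ≤ 1 / 6) (hle : θ ≤ θ') :
    |Real.log ‖deriv g (pt y θ')‖ - Real.log ‖deriv g (pt y θ)‖| ≤ 6 * (θ' - θ) := by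
  have hmem : ∀ t ∈ Icc θ θ', |t - π / 2| ≤ 1 / 6 := by
    intro t ht
    rw [abs_le] at *
    constructor <;> linarith [ht.1, ht.2]
  refine log_norm_le (F := fun t => deriv g (pt y t))
    (F' := fun t => deriv (deriv g) (pt y t) * (pt y t * Complex.I)) hle ?_ ?_ ?_
  · intro t ht
    have him : 0 < (pt y t).im := pt_mem hy (hmem t ht)
    have hd : HasDerivAt (deriv g) (deriv (deriv g) (pt y t)) (pt y t) :=
      ((hg.deriv isOpen_HH).differentiableAt (isOpen_HH.mem_nhds him)).hasDerivAt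
    exact (hd.comp t (hasDerivAt_pt y t)).hasDerivWithinAt
  · intro t ht
    exact deriv_ne hg hgi (pt_mem hy (hmem t ht))
  · intro t ht
    have him : 0 < (pt y t).im := pt_mem hy (hmem t ht)
    have h1 := deriv2_le hg hgi him
    have hs := half_le_sin (hmem t ht)
    rw [norm_mul, norm_mul, Complex.norm_I, mul_one, norm_pt hy.le]
    have h2 : 3 / (pt y t).im * y ≤ 6 := by
      rw [pt_im, div_mul_eq_mul_div, div_le_iff₀ (by positivity)]
      nlinarith
    calc ‖deriv (deriv g) (pt y t)‖ * y ≤ (3 / (pt y t).im * ‖deriv g (pt y t)‖) * y := by gcongr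
      _ = (3 / (pt y t).im * y) * ‖deriv g (pt y t)‖ := by ring
      _ ≤ 6 * ‖deriv g (pt y t)‖ := by gcongr

theorem arc_log' {g : ℂ → ℂ} (hg : DifferentiableOn ℂ g HH) (hgi : InjOn g HH) {y : ℝ} (hy : 0 < y)
    {θ : ℝ} (hθ : |θ - π / 2| ≤ 1 / 6) :
    |Real.log ‖deriv g (pt y θ)‖ - Real.log ‖deriv g (y * Complex.I)‖| ≤ 1 := by
  have h0 : |π / 2 - π / 2| ≤ (1:ℝ) / 6 := by norm_num
  rw [← pt_half]
  rcases le_total (π / 2) θ with h | h
  · refine (arc_log hg hgi hy h0 hθ h).trans ?_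
    rw [abs_of_nonneg (by linarith)] at hθ
    linarith
  · rw [abs_sub_comm]
    refine (arc_log hg hgi hy hθ h0 h).trans ?_
    rw [abs_of_nonpos (by linarith)] at hθ
    linarith

/-- from logarithms to numbers -/
theorem of_log {x y K : ℝ} (hx : 0 < x) (hy : 0 < y) (h : |Real.log x - Real.log y| ≤ K) :
    x ≤ Real.exp K * y ∧ Real.exp (-K) * y ≤ x := by
  rw [abs_le] at h
  constructor
  · have h1 : Real.log x ≤ K + Real.log y := by linarith [h.2]
    calc x = Real.exp (Real.log x) := (Real.exp_log hx).symm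
      _ ≤ Real.exp (K + Real.log y) := Real.exp_le_exp.2 h1
      _ = Real.exp K * y := by rw [Real.exp_add, Real.exp_log hy]
  · have h1 : -K + Real.log y ≤ Real.log x := by linarith [h.1]
    calc Real.exp (-K) * y = Real.exp (-K + Real.log y) := by rw [Real.exp_add, Real.exp_log hy]
      _ ≤ Real.exp (Real.log x) := Real.exp_le_exp.2 h1
      _ = x := Real.exp_log hx

theorem arc_cmp {g : ℂ → ℂ} (hg : DifferentiableOn ℂ g HH) (hgi : InjOn g HH) {y : ℝ} (hy : 0 < y)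
    {θ : ℝ} (hθ : |θ - π / 2| ≤ 1 / 6) :
    ‖deriv g (pt y θ)‖ ≤ 3 * ‖deriv g (y * Complex.I)‖ ∧
      1 / 3 * ‖deriv g (y * Complex.I)‖ ≤ ‖deriv g (pt y θ)‖ := by
  have h1 : 0 < ‖deriv g (pt y θ)‖ := norm_pos_iff.2 (deriv_ne hg hgi (pt_mem hy hθ))
  have h2 : 0 < ‖deriv g (y * Complex.I)‖ := by
    refine norm_pos_iff.2 (deriv_ne hg hgi ?_)
    simpa using hy
  have h := of_log h1 h2 (arc_log' hg hgi hy hθ)
  have he : Real.exp 1 ≤ 3 := by linarith [Real.exp_one_lt_d9]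
  have he' : 1 / 3 ≤ Real.exp (-1) := by
    rw [Real.exp_neg, ← one_div]
    exact one_div_le_one_div_of_le (Real.exp_pos 1) he
  constructor
  · exact h.1.trans (by gcongr)
  · exact le_trans (by gcongr) h.2

/-- displacement along a short arc -/
theorem arc_disp {g : ℂ → ℂ} (hg : DifferentiableOn ℂ g HH) (hgi : InjOn g HH) {y : ℝ} (hy : 0 < y)
    {θ δ : ℝ} (hδ : δ ≤ 1 / 6) (hθ : |θ - π / 2| ≤ δ) :
    ‖g (pt y θ) - g (y * Complex.I)‖ ≤ 3 * δ * (y * ‖deriv g (y * Complex.I)‖) := by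
  have hδ0 : 0 ≤ δ := (abs_nonneg _).trans hθ
  have hset : Convex ℝ {t : ℝ | |t - π / 2| ≤ δ} := by
    have : {t : ℝ | |t - π / 2| ≤ δ} = closedBall (π / 2) δ := by
      ext t; simp [Real.dist_eq]
    rw [this]; exact convex_closedBall _ _
  have hd : ∀ t ∈ {t : ℝ | |t - π / 2| ≤ δ},
      HasDerivWithinAt (fun t => g (pt y t)) (deriv g (pt y t) * (pt y t * Complex.I))
        {t : ℝ | |t - π / 2| ≤ δ} t := by
    intro t ht
    have him : 0 < (pt y t).im := pt_mem hy (le_trans ht hδ)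
    have hd : HasDerivAt g (deriv g (pt y t)) (pt y t) :=
      (hg.differentiableAt (isOpen_HH.mem_nhds him)).hasDerivAt
    exact (hd.comp t (hasDerivAt_pt y t)).hasDerivWithinAt
  have hb : ∀ t ∈ {t : ℝ | |t - π / 2| ≤ δ},
      ‖deriv g (pt y t) * (pt y t * Complex.I)‖ ≤ 3 * ‖deriv g (y * Complex.I)‖ * y := by
    intro t ht
    rw [norm_mul, norm_mul, Complex.norm_I, mul_one, norm_pt hy.le]
    have := (arc_cmp hg hgi hy (le_trans ht hδ : |t - π / 2| ≤ 1 / 6)).1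
    gcongr
  have := hset.norm_image_sub_le_of_norm_hasDerivWithin_le hd hb
    (x := π / 2) (by simpa using hδ0) (y := θ) hθ
  rw [pt_half] at this
  refine this.trans ?_
  rw [Real.norm_eq_abs]
  have h3 : 0 ≤ 3 * ‖deriv g (y * Complex.I)‖ * y := by positivity
  calc 3 * ‖deriv g (y * Complex.I)‖ * y * |θ - π / 2| ≤ 3 * ‖deriv g (y * Complex.I)‖ * y * δ := by
        gcongr
    _ = _ := by ring

/-- comparison of `|f'|` along a segment staying at height `≥ m` -/
theorem seg_cmp {f : ℂ → ℂ} (hf : DifferentiableOn ℂ f HH) (hfi : InjOn f HH) {z0 z : ℂ} {m : ℝ}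
    (hm : 0 < m) (h0 : m ≤ z0.im) (h1 : m ≤ z.im) :
    ‖deriv f z‖ ≤ Real.exp (3 / m * ‖z - z0‖) * ‖deriv f z0‖ ∧
      Real.exp (-(3 / m * ‖z - z0‖)) * ‖deriv f z0‖ ≤ ‖deriv f z‖ := by
  have himt : ∀ t ∈ Icc (0:ℝ) 1, m ≤ (z0 + (t:ℂ) * (z - z0)).im := by
    intro t ht
    simp only [Complex.add_im, Complex.im_ofReal_mul, Complex.sub_im]
    nlinarith [ht.1, ht.2]
  have hz : 0 < z.im := hm.trans_le h1
  have hz0 : 0 < z0.im := hm.trans_le h0
  refine of_log (norm_pos_iff.2 (deriv_ne hf hfi hz)) (norm_pos_iff.2 (deriv_ne hf hfi hz0)) ?_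
  have hline : ∀ t : ℝ, HasDerivAt (fun t : ℝ => z0 + (t:ℂ) * (z - z0)) (z - z0) t := by
    intro t
    have h1 : HasDerivAt (fun t : ℝ => (t : ℂ)) 1 t := Complex.ofRealCLM.hasDerivAt (x := t)
    simpa using (h1.mul_const (z - z0)).const_add z0
  have := log_norm_le (F := fun t : ℝ => deriv f (z0 + (t:ℂ) * (z - z0)))
    (F' := fun t : ℝ => deriv (deriv f) (z0 + (t:ℂ) * (z - z0)) * (z - z0))
    (a := 0) (b := 1) (K := 3 / m * ‖z - z0‖) zero_le_one ?_ ?_ ?_
  · simpa using this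
  · intro t ht
    have him : 0 < (z0 + (t:ℂ) * (z - z0)).im := hm.trans_le (himt t ht)
    have hd : HasDerivAt (deriv f) (deriv (deriv f) (z0 + (t:ℂ) * (z - z0)))
        (z0 + (t:ℂ) * (z - z0)) :=
      ((hf.deriv isOpen_HH).differentiableAt (isOpen_HH.mem_nhds him)).hasDerivAt
    exact (hd.comp t (hline t)).hasDerivWithinAt
  · intro t ht
    exact deriv_ne hf hfi (hm.trans_le (himt t ht))
  · intro t ht
    have him : 0 < (z0 + (t:ℂ) * (z - z0)).im := hm.trans_le (himt t ht)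
    have h2 := deriv2_le hf hfi him
    rw [norm_mul]
    have h3 : 3 / (z0 + (t:ℂ) * (z - z0)).im ≤ 3 / m :=
      div_le_div_of_nonneg_left (by norm_num) hm (himt t ht)
    calc ‖deriv (deriv f) (z0 + (t:ℂ) * (z - z0))‖ * ‖z - z0‖
        ≤ (3 / m * ‖deriv f (z0 + (t:ℂ) * (z - z0))‖) * ‖z - z0‖ := by
          gcongr
          exact h2.trans (by gcongr)
      _ = _ := by ring

/-- displacement along a segment staying at height `≥ m` -/
theorem seg_disp {f : ℂ → ℂ} (hf : DifferentiableOn ℂ f HH) (hfi : InjOn f HH) {z0 z : ℂ} {m : ℝ}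
    (hm : 0 < m) (h0 : m ≤ z0.im) (h1 : m ≤ z.im) :
    ‖f z - f z0‖ ≤ Real.exp (3 / m * ‖z - z0‖) * ‖deriv f z0‖ * ‖z - z0‖ := by
  have hseg : ∀ w ∈ segment ℝ z0 z, m ≤ w.im ∧ ‖w - z0‖ ≤ ‖z - z0‖ := by
    intro w hw
    rw [segment_eq_image'] at hw
    obtain ⟨t, ht, rfl⟩ := hw
    constructor
    · simp only [Complex.add_im, Complex.real_smul, Complex.im_ofReal_mul, Complex.sub_im]
      nlinarith [ht.1, ht.2]
    · have : z0 + t • (z - z0) - z0 = t • (z - z0) := by abel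
      rw [this, norm_smul, Real.norm_eq_abs, abs_of_nonneg ht.1]
      nlinarith [norm_nonneg (z - z0), ht.2]
  refine (convex_segment z0 z).norm_image_sub_le_of_norm_hasDerivWithin_le
    (f' := deriv f) ?_ ?_ (left_mem_segment ℝ z0 z) (right_mem_segment ℝ z0 z)
  · intro w hw
    have him : 0 < w.im := hm.trans_le (hseg w hw).1
    exact (hf.differentiableAt (isOpen_HH.mem_nhds him)).hasDerivAt.hasDerivWithinAt
  · intro w hw
    have h2 := (seg_cmp hf hfi hm h0 (hseg w hw).1).1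
    refine h2.trans ?_
    gcongr
    exact (hseg w hw).2

/-- Schwarz-Pick for a holomorphic self-map of the half-plane at `i y` -/
theorem schwarz_pick {g : ℂ → ℂ} (hg : DifferentiableOn ℂ g HH) (hm : MapsTo g HH HH) {y : ℝ}
    (hy : 0 < y) : y * ‖deriv g (y * Complex.I)‖ ≤ 2 * (g (y * Complex.I)).im := by
  set w0 : ℂ := g (y * Complex.I) with hw0
  have hyI : ((y : ℂ) * Complex.I) ∈ HH := by simpa [HH] using hy
  have hw0m : 0 < w0.im := hm hyI
  have hball : ball ((y:ℂ) * Complex.I) y ⊆ HH := by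
    intro z hz
    rw [mem_ball, dist_eq_norm] at hz
    have h1 := (Complex.abs_im_le_norm (z - y * Complex.I))
    have h2 : (z - y * Complex.I).im = z.im - y := by simp
    rw [h2] at h1
    have h3 := (abs_le.1 (h1.trans hz.le)).1
    have h4 : |z.im - y| < y := h1.trans_lt hz
    have h5 := (abs_lt.1 h4).1
    show 0 < z.im
    linarith
  -- Cayley transform
  set q : ℂ → ℂ := fun w => (w - w0) / (w - conj w0) with hq
  have hne : ∀ w : ℂ, 0 < w.im → w - conj w0 ≠ 0 := by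
    intro w hw h
    have := congrArg Complex.im h
    simp at this
    linarith
  have hqd : ∀ w : ℂ, 0 < w.im → HasDerivAt q ((1 * (w - conj w0) - (w - w0) * 1) / (w - conj w0) ^ 2) w := by
    intro w hw
    exact ((hasDerivAt_id w).sub_const w0).div ((hasDerivAt_id w).sub_const (conj w0)) (hne w hw)
  have hqlt : ∀ w : ℂ, 0 < w.im → ‖q w‖ < 1 := by
    intro w hw
    rw [hq]
    simp only
    rw [norm_div, div_lt_one (norm_pos_iff.2 (hne w hw))]
    rw [← sq_lt_sq₀ (norm_nonneg _) (norm_nonneg _), ← Complex.normSq_eq_norm_sq,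
      ← Complex.normSq_eq_norm_sq, Complex.normSq_apply, Complex.normSq_apply]
    simp only [Complex.sub_re, Complex.sub_im, Complex.conj_re, Complex.conj_im]
    nlinarith
  have hcomp : DifferentiableOn ℂ (fun z => q (g z)) (ball ((y:ℂ) * Complex.I) y) := by
    intro z hz
    have hzH := hball hz
    have h1 := hqd (g z) (hm hzH)
    exact (h1.differentiableAt.comp z
      (hg.differentiableAt (isOpen_HH.mem_nhds hzH))).differentiableWithinAt
  have hmaps : MapsTo (fun z => q (g z)) (ball ((y:ℂ) * Complex.I) y)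
      (closedBall (q (g ((y:ℂ) * Complex.I))) 1) := by
    intro z hz
    have h0 : q (g ((y:ℂ) * Complex.I)) = 0 := by
      simp [hq, hw0]
    rw [h0, mem_closedBall_zero_iff]
    exact (hqlt _ (hm (hball hz))).le
  have hS := Complex.norm_deriv_le_div_of_mapsTo_ball hcomp hmaps hy
  have hder : deriv (fun z => q (g z)) ((y:ℂ) * Complex.I) =
      (1 * (w0 - conj w0) - (w0 - w0) * 1) / (w0 - conj w0) ^ 2 * deriv g (y * Complex.I) := by
    have h1 := hqd w0 hw0m
    have h2 : HasDerivAt g (deriv g (y * Complex.I)) (y * Complex.I) :=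
      (hg.differentiableAt (isOpen_HH.mem_nhds hyI)).hasDerivAt
    exact (HasDerivAt.comp _ (hw0 ▸ h1) h2).deriv
  rw [hder] at hS
  have h3 : w0 - conj w0 = 2 * w0.im * Complex.I := by
    rw [Complex.sub_conj]; push_cast; ring
  have h4 : ‖w0 - conj w0‖ = 2 * w0.im := by
    rw [h3]; simp [abs_of_pos hw0m]
  have h5 : (1 * (w0 - conj w0) - (w0 - w0) * 1) / (w0 - conj w0) ^ 2 = 1 / (w0 - conj w0) := by
    have := hne w0 hw0m
    field_simp
    ring
  rw [h5, norm_mul, norm_div, norm_one, h4, one_div, inv_mul_eq_div, div_le_div_iff₀ (by positivity)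
    hy] at hS
  linarith

/-- the truncated sector over a set of moduli -/
def Sec (A : Set ℝ) (δ : ℝ) : Set ℂ := {ζ : ℂ | ‖ζ‖ ∈ A ∧ |ζ.arg - π / 2| ≤ δ}

theorem measurableSet_Sec {A : Set ℝ} (hA : MeasurableSet A) (δ : ℝ) :
    MeasurableSet (Sec A δ) := by
  refine (measurable_norm hA).inter ?_
  have h1 : Measurable fun ζ : ℂ => |ζ.arg - π / 2| :=
    (Complex.measurable_arg.sub_const _).abs
  exact measurableSet_le h1 measurable_const

theorem eq_pt (ζ : ℂ) : ζ = pt ‖ζ‖ ζ.arg := (Complex.norm_mul_exp_arg_mul_I ζ).symm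

theorem arg_pt {y θ : ℝ} (hy : 0 < y) (hθ : |θ - π / 2| ≤ 1 / 6) : (pt y θ).arg = θ := by
  unfold pt
  rw [abs_le] at hθ
  have hπ := Real.pi_gt_three
  rw [Complex.exp_mul_I]
  exact Complex.arg_mul_cos_add_sin_mul_I hy ⟨by linarith [hθ.1], by linarith [hθ.2]⟩

theorem Sec_im {A : Set ℝ} (hA : A ⊆ Ioi 0) {δ : ℝ} (hδ : δ ≤ 1 / 6) {ζ : ℂ} (hζ : ζ ∈ Sec A δ) :
    0 < ζ.im := by
  rw [eq_pt ζ]
  exact pt_mem (hA hζ.1) (hζ.2.trans hδ)

theorem lintegral_Sec {A : Set ℝ} (hA : MeasurableSet A) (hA0 : A ⊆ Ioi 0) {δ : ℝ}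
    (hδ : δ ≤ 1 / 6) {H : ℝ → ℝ≥0∞} (hH : Measurable H) {F : ℂ → ℝ≥0∞}
    (hF : ∀ y ∈ A, ∀ θ : ℝ, |θ - π / 2| ≤ δ → H y ≤ ENNReal.ofReal y * F (pt y θ)) :
    ENNReal.ofReal (2 * δ) * ∫⁻ y in A, H y ≤ ∫⁻ ζ in Sec A δ, F ζ := by
  have hπ := Real.pi_gt_three
  rw [← lintegral_indicator (measurableSet_Sec hA δ), ← Complex.lintegral_comp_polarCoord_symm]
  have hsub : A ×ˢ Icc (π / 2 - δ) (π / 2 + δ) ⊆ Complex.polarCoord.target := by
    rw [Complex.polarCoord_target]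
    rintro ⟨y, θ⟩ ⟨hy, hθ⟩
    refine ⟨hA0 hy, ?_, ?_⟩
    · simp only at hθ ⊢; linarith [hθ.1]
    · simp only at hθ ⊢; linarith [hθ.2]
  refine le_trans ?_ (lintegral_mono_set hsub)
  have hms : MeasurableSet (A ×ˢ Icc (π / 2 - δ) (π / 2 + δ)) := hA.prod measurableSet_Icc
  calc ENNReal.ofReal (2 * δ) * ∫⁻ y in A, H y
      = ∫⁻ p in A ×ˢ Icc (π / 2 - δ) (π / 2 + δ), H p.1 * 1 := by
        rw [Measure.volume_eq_prod, ← Measure.prod_restrict,
          lintegral_prod_mul (μ := volume.restrict A)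
            (ν := volume.restrict (Icc (π / 2 - δ) (π / 2 + δ))) (g := fun _ => 1)
            hH.aemeasurable aemeasurable_const]
        rw [setLIntegral_const, Real.volume_Icc, one_mul, mul_comm]
        congr 2
        ring
    _ ≤ _ := by
        refine setLIntegral_mono' hms ?_
        rintro ⟨y, θ⟩ ⟨hy, hθ⟩
        have hθ' : |θ - π / 2| ≤ δ := by
          rw [abs_le]; simp only at hθ; constructor <;> linarith [hθ.1, hθ.2]
        have hpt : Complex.polarCoord.symm (y, θ) = pt y θ := by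
          rw [Complex.polarCoord_symm_apply]
          unfold pt
          rw [Complex.exp_mul_I]
          push_cast
          ring
        have hmem : pt y θ ∈ Sec A δ := by
          have hy0 : 0 < y := hA0 hy
          refine ⟨by rw [norm_pt hy0.le]; exact hy, ?_⟩
          rw [arg_pt hy0 (hθ'.trans hδ)]
          exact hθ'
        rw [hpt, indicator_of_mem hmem, smul_eq_mul, mul_one]
        exact hF y hy θ hθ'

/-- area formula for univalent maps -/
theorem lintegral_image {φ : ℂ → ℂ} (hφ : DifferentiableOn ℂ φ HH) (hφi : InjOn φ HH) {s : Set ℂ}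
    (hs : MeasurableSet s) (hsH : s ⊆ HH) (G : ℂ → ℝ≥0∞) :
    ∫⁻ w in φ '' s, G w = ∫⁻ ζ in s, ENNReal.ofReal (‖deriv φ ζ‖ ^ 2) * G (φ ζ) := by
  have hd : ∀ ζ ∈ s, HasDerivAt φ (deriv φ ζ) ζ := fun ζ hζ =>
    (hφ.differentiableAt (isOpen_HH.mem_nhds (hsH hζ))).hasDerivAt
  rw [lintegral_image_eq_lintegral_abs_det_fderiv_mul volume hs
    (fun z hz => ((hd z hz).hasFDerivAt.restrictScalars ℝ).hasFDerivWithinAt) (hφi.mono hsH) G]
  apply setLIntegral_congr_fun hs
  intro z _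
  simp only
  congr 2
  simp [ContinuousLinearMap.det, LinearMap.det_restrictScalars, Algebra.norm_complex_eq,
    Complex.normSq_eq_norm_sq]

/-- the constants of the node -/
structure Consts (d b C1 : ℝ) where
  δ : ℝ
  C6 : ℝ
  c6 : ℝ
  c5 : ℝ
  c : ℝ
  δ_pos : 0 < δ
  δ_le : δ ≤ 1 / 6
  C6_pos : 0 < C6
  c6_pos : 0 < c6
  c5_pos : 0 < c5
  c_pos : 0 < c
  main : ∀ (f g : ℂ → ℂ) (z0 : ℂ), DifferentiableOn ℂ f HH → InjOn f HH →
    DifferentiableOn ℂ g HH → InjOn g HH → MapsTo g HH HH → 0 < z0.im →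
    ∀ A : Set ℝ, MeasurableSet A →
    (∀ y ∈ A, 0 < y ∧ z0.im ≤ (g (y * Complex.I)).im ∧
      ‖g (y * Complex.I) - z0‖ ≤ C1 * z0.im) →
    (∀ ζ ∈ Sec A δ, 0 < ζ.im ∧ ‖g ζ - z0‖ ≤ (C1 + 1) * z0.im ∧ z0.im / 2 ≤ (g ζ).im ∧
      ‖f (g ζ) - f z0‖ ≤ C6 * (z0.im * ‖deriv f z0‖) ∧
      c6 * (z0.im * ‖deriv f z0‖) ≤ (g ζ).im * ‖deriv f (g ζ)‖ ∧
      c5 * (z0.im * ‖deriv f z0‖) * (‖ζ‖ * ‖deriv g (‖ζ‖ * Complex.I)‖ / z0.im) ≤
        ζ.im * ‖deriv (fun ξ => f (g ξ)) ζ‖) ∧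
    ∀ G : ℂ → ℝ≥0∞,
      (∀ ζ ∈ Sec A δ, ENNReal.ofReal ((ζ.im * ‖deriv (fun ξ => f (g ξ)) ζ‖) ^ (d - 2) *
        (ζ.im / ‖ζ‖) ^ b) ≤ G (f (g ζ))) →
      ENNReal.ofReal (c * (z0.im * ‖deriv f z0‖) ^ d) *
        ∫⁻ y in A, ENNReal.ofReal ((y * ‖deriv g (y * Complex.I)‖ / z0.im) ^ d / y) ≤
      ∫⁻ w in (fun ξ => f (g ξ)) '' Sec A δ, G w

theorem exists_consts (d b C1 : ℝ) (hd : 0 < d) (hC1 : 0 ≤ C1) : Nonempty (Consts d b C1) := by
  -- constants
  set δ : ℝ := 1 / (12 * (1 + C1)) with hδdef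
  have hδ0 : 0 < δ := by positivity
  have hδ6 : δ ≤ 1 / 6 := by
    rw [hδdef]
    apply one_div_le_one_div_of_le (by norm_num)
    linarith
  set E : ℝ := Real.exp (6 * (C1 + 1)) with hE
  have hE0 : 0 < E := Real.exp_pos _
  set C6 : ℝ := E * (C1 + 1) with hC6
  set c6 : ℝ := E⁻¹ / 2 with hc6
  set c5 : ℝ := E⁻¹ / 6 with hc5
  set cs : ℝ := min 1 ((1 / 2 : ℝ) ^ (b - 2)) with hcs
  have hcs0 : 0 < cs := lt_min one_pos (by positivity)
  set c : ℝ := 2 * δ * (c5 ^ d * cs) with hc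
  have hc50 : 0 < c5 := by positivity
  refine ⟨⟨δ, C6, c6, c5, c, hδ0, hδ6, by positivity, by positivity, hc50, by positivity, ?_⟩⟩
  intro f g z0 hf hfi hg hgi hgm hz0 A hA hAp
  have hA0 : A ⊆ Ioi 0 := fun y hy => (hAp y hy).1
  set r : ℝ := z0.im * ‖deriv f z0‖ with hr
  have hfz0 : 0 < ‖deriv f z0‖ := norm_pos_iff.2 (deriv_ne hf hfi hz0)
  have hr0 : 0 < r := by positivity
  -- pointwise facts in polar form
  have key : ∀ y ∈ A, ∀ θ : ℝ, |θ - π / 2| ≤ δ →
      0 < (pt y θ).im ∧ ‖g (pt y θ) - z0‖ ≤ (C1 + 1) * z0.im ∧ z0.im / 2 ≤ (g (pt y θ)).im ∧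
      ‖f (g (pt y θ)) - f z0‖ ≤ C6 * r ∧
      c6 * r ≤ (g (pt y θ)).im * ‖deriv f (g (pt y θ))‖ ∧
      c5 * r * (y * ‖deriv g (y * Complex.I)‖ / z0.im) ≤
        (pt y θ).im * ‖deriv (fun ξ => f (g ξ)) (pt y θ)‖ := by
    intro y hy θ hθ
    obtain ⟨hy0, hyim, hyd⟩ := hAp y hy
    have hθ6 : |θ - π / 2| ≤ 1 / 6 := hθ.trans hδ6
    have him : 0 < (pt y θ).im := pt_mem hy0 hθ6
    have hgim : 0 < (g (pt y θ)).im := hgm him
    -- size of `g (iy)`
    have hpim : (g (y * Complex.I)).im ≤ (1 + C1) * z0.im := by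
      have h1 := Complex.abs_im_le_norm (g (y * Complex.I) - z0)
      rw [Complex.sub_im] at h1
      have h2 := (abs_le.1 (h1.trans hyd)).2
      linarith
    have hsp : y * ‖deriv g (y * Complex.I)‖ ≤ 2 * (1 + C1) * z0.im := by
      have := schwarz_pick hg hgm hy0
      linarith
    -- displacement
    have hdisp : ‖g (pt y θ) - g (y * Complex.I)‖ ≤ z0.im / 2 := by
      refine (arc_disp hg hgi hy0 hδ6 hθ).trans ?_
      calc 3 * δ * (y * ‖deriv g (y * Complex.I)‖) ≤ 3 * δ * (2 * (1 + C1) * z0.im) := by gcongr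
        _ = z0.im / 2 := by
          rw [hδdef]
          have : (1 + C1) ≠ 0 := by positivity
          field_simp
          ring
    have hnorm : ‖g (pt y θ) - z0‖ ≤ (C1 + 1) * z0.im := by
      calc ‖g (pt y θ) - z0‖ = ‖(g (pt y θ) - g (y * Complex.I)) + (g (y * Complex.I) - z0)‖ := by
            congr 1; ring
        _ ≤ z0.im / 2 + C1 * z0.im := (norm_add_le _ _).trans (add_le_add hdisp hyd)
        _ ≤ _ := by linarith
    have himlow : z0.im / 2 ≤ (g (pt y θ)).im := by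
      have h1 := Complex.abs_im_le_norm (g (pt y θ) - g (y * Complex.I))
      rw [Complex.sub_im] at h1
      have h2 := (abs_le.1 (h1.trans hdisp)).1
      linarith
    have hm0 : 0 < z0.im / 2 := by positivity
    have hexp : 3 / (z0.im / 2) * ‖g (pt y θ) - z0‖ ≤ 6 * (C1 + 1) := by
      calc 3 / (z0.im / 2) * ‖g (pt y θ) - z0‖ ≤ 3 / (z0.im / 2) * ((C1 + 1) * z0.im) := by gcongr
        _ = 6 * (C1 + 1) := by field_simp; ring
    have hseg := seg_cmp hf hfi hm0 (by linarith : z0.im / 2 ≤ z0.im) himlow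
    have hsegd := seg_disp hf hfi hm0 (by linarith : z0.im / 2 ≤ z0.im) himlow
    have hlow : E⁻¹ * ‖deriv f z0‖ ≤ ‖deriv f (g (pt y θ))‖ := by
      refine le_trans ?_ hseg.2
      rw [hE, ← Real.exp_neg]
      gcongr
    refine ⟨him, hnorm, himlow, ?_, ?_, ?_⟩
    · refine hsegd.trans ?_
      calc Real.exp (3 / (z0.im / 2) * ‖g (pt y θ) - z0‖) * ‖deriv f z0‖ * ‖g (pt y θ) - z0‖
          ≤ E * ‖deriv f z0‖ * ((C1 + 1) * z0.im) := by
            rw [hE]; gcongr
        _ = C6 * r := by rw [hC6, hr]; ring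
    · calc c6 * r = (z0.im / 2) * (E⁻¹ * ‖deriv f z0‖) := by rw [hc6, hr]; ring
        _ ≤ _ := by gcongr
    · have hcomp : deriv (fun ξ => f (g ξ)) (pt y θ) = deriv f (g (pt y θ)) * deriv g (pt y θ) := by
        have h1 : HasDerivAt f (deriv f (g (pt y θ))) (g (pt y θ)) :=
          (hf.differentiableAt (isOpen_HH.mem_nhds hgim)).hasDerivAt
        have h2 : HasDerivAt g (deriv g (pt y θ)) (pt y θ) :=
          (hg.differentiableAt (isOpen_HH.mem_nhds him)).hasDerivAt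
        exact (h1.comp (pt y θ) h2).deriv
      rw [hcomp, norm_mul, pt_im]
      have hs := half_le_sin hθ6
      have ha := (arc_cmp hg hgi hy0 hθ6).2
      calc c5 * r * (y * ‖deriv g (y * Complex.I)‖ / z0.im)
          = (y * (1 / 2)) * ((E⁻¹ * ‖deriv f z0‖) * (1 / 3 * ‖deriv g (y * Complex.I)‖)) := by
            rw [hc5, hr]; field_simp; ring
        _ ≤ (y * Real.sin θ) * (‖deriv f (g (pt y θ))‖ * ‖deriv g (pt y θ)‖) := by
            gcongr
  constructor
  · intro ζ hζ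
    have h := key ‖ζ‖ hζ.1 ζ.arg hζ.2
    rw [← eq_pt ζ] at h
    exact h
  · intro G hG
    set φ : ℂ → ℂ := fun ξ => f (g ξ) with hφ
    have hφd : DifferentiableOn ℂ φ HH := hf.comp hg hgm
    have hφi : InjOn φ HH := hfi.comp hgi hgm
    have hsecH : Sec A δ ⊆ HH := fun ζ hζ => Sec_im hA0 hδ6 hζ
    rw [lintegral_image hφd hφi (measurableSet_Sec hA δ) hsecH G]
    set H : ℝ → ℝ≥0∞ := fun y => ENNReal.ofReal (c5 ^ d * cs * r ^ d) *
      ENNReal.ofReal ((y * ‖deriv g (y * Complex.I)‖ / z0.im) ^ d / y) with hH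
    have hHm0 : Measurable fun y : ℝ =>
        ENNReal.ofReal ((y * ‖deriv g (y * Complex.I)‖ / z0.im) ^ d / y) := by
      have h1 : Measurable fun y : ℝ => deriv g (y * Complex.I) :=
        (measurable_deriv g).comp (by fun_prop)
      fun_prop
    have hHm : Measurable H := hHm0.const_mul _
    have hmain := lintegral_Sec hA hA0 hδ6 hHm
      (F := fun ζ => ENNReal.ofReal (‖deriv φ ζ‖ ^ 2) * G (φ ζ)) ?_
    · refine le_trans (le_of_eq ?_) hmain
      rw [hH, lintegral_const_mul _ hHm0, ← mul_assoc, ← ENNReal.ofReal_mul (by positivity)]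
      congr 2
      rw [hc]; ring
    · intro y hy θ hθ
      obtain ⟨hy0, hyim, hyd⟩ := hAp y hy
      have hθ6 : |θ - π / 2| ≤ 1 / 6 := hθ.trans hδ6
      obtain ⟨him, -, -, -, -, hlow⟩ := key y hy θ hθ
      have hmem : pt y θ ∈ Sec A δ := by
        refine ⟨by rw [norm_pt hy0.le]; exact hy, ?_⟩
        rw [arg_pt hy0 hθ6]
        exact hθ
      have hGz := hG _ hmem
      have hs := half_le_sin hθ6
      have hs1 := Real.sin_le_one θ
      have hφ0 : 0 < ‖deriv φ (pt y θ)‖ := norm_pos_iff.2 (deriv_ne hφd hφi him)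
      set u : ℝ := y * ‖deriv g (y * Complex.I)‖ / z0.im with hu
      have hu0 : 0 ≤ u := by positivity
      have hSb : cs ≤ (Real.sin θ) ^ (b - 2) := by
        rcases le_total 0 (b - 2) with hb | hb
        · refine (min_le_right _ _).trans ?_
          exact Real.rpow_le_rpow (by norm_num) hs hb
        · refine (min_le_left _ _).trans ?_
          exact Real.one_le_rpow_of_pos_of_le_one_of_nonpos (by linarith) hs1 hb
      have hreal : c5 ^ d * cs * r ^ d * (u ^ d / y) ≤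
          y * (‖deriv φ (pt y θ)‖ ^ 2 * (((pt y θ).im * ‖deriv φ (pt y θ)‖) ^ (d - 2) *
            ((pt y θ).im / ‖pt y θ‖) ^ b)) := by
        have hsin0 : 0 < Real.sin θ := by linarith
        have e1 : (pt y θ).im / ‖pt y θ‖ = Real.sin θ := by
          rw [pt_im, norm_pt hy0.le]; field_simp
        set P : ℝ := (pt y θ).im * ‖deriv φ (pt y θ)‖ with hP
        have hP0 : 0 < P := by positivity
        have e2 : ‖deriv φ (pt y θ)‖ = P / (y * Real.sin θ) := by
          rw [hP, pt_im]; field_simp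
        have e3 : y * (‖deriv φ (pt y θ)‖ ^ 2 * (P ^ (d - 2) * (Real.sin θ) ^ b)) =
            P ^ d * (Real.sin θ) ^ (b - 2) / y := by
          rw [e2, Real.rpow_sub hP0, Real.rpow_sub hsin0]
          have h2 : P ^ (2:ℝ) = P ^ 2 := Real.rpow_natCast P 2
          have h3 : Real.sin θ ^ (2:ℝ) = Real.sin θ ^ 2 := Real.rpow_natCast _ 2
          rw [h2, h3]
          field_simp
        rw [e1, e3]
        have h4 : (c5 * r * u) ^ d ≤ P ^ d := Real.rpow_le_rpow (by positivity) hlow hd.le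
        rw [Real.mul_rpow (by positivity) hu0, Real.mul_rpow hc50.le hr0.le] at h4
        calc c5 ^ d * cs * r ^ d * (u ^ d / y) = (c5 ^ d * r ^ d * u ^ d) * cs / y := by ring
          _ ≤ P ^ d * (Real.sin θ) ^ (b - 2) / y := by gcongr
      have hHy : H y = ENNReal.ofReal (c5 ^ d * cs * r ^ d * (u ^ d / y)) :=
        (ENNReal.ofReal_mul (by positivity)).symm
      calc H y = ENNReal.ofReal (c5 ^ d * cs * r ^ d * (u ^ d / y)) := hHy
        _ ≤ ENNReal.ofReal (y * (‖deriv φ (pt y θ)‖ ^ 2 *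
              (((pt y θ).im * ‖deriv φ (pt y θ)‖) ^ (d - 2) *
              ((pt y θ).im / ‖pt y θ‖) ^ b))) := ENNReal.ofReal_le_ofReal hreal
        _ = ENNReal.ofReal y * (ENNReal.ofReal (‖deriv φ (pt y θ)‖ ^ 2) *
              ENNReal.ofReal (((pt y θ).im * ‖deriv φ (pt y θ)‖) ^ (d - 2) *
              ((pt y θ).im / ‖pt y θ‖) ^ b)) := by
            rw [ENNReal.ofReal_mul hy0.le, ENNReal.ofReal_mul (by positivity)]
        _ ≤ _ := by gcongr

end Crest.Agent.R162.U5d
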