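import Mathlib
import Crest.Agent.R162.UBDefs
import Crest.Agent.R162.FLC3
import Crest.Agent.R162.U5a
import Crest.Agent.R162.U5br
import Crest.Agent.R162.U5c
import Crest.Agent.R162.U5d

/-!
Row 162 (S0243), node U5: final assembly of the geometry of the trigger (`UB.U5Stmt`).
-/

set_option autoImplicit false

open MeasureTheory Metric Set Filter Topology
open scoped ENNReal

namespace Crest.Agent.R162.U5F

open Crest.Agent.R162.FL Crest.Agent.R162.OP Crest.Agent.R162.UB Crest.Agent.R162.U5d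
open Crest.ProbabilityR.Loewner

/-- output of the node U5b (branch of the argument) -/
def U5bOut : Prop :=
  ∀ Xb : ℝ, ∃ cR CR cV CV CL N1 : ℝ, 0 < cR ∧ 0 < cV ∧ 0 < CL ∧
    ∀ (W : ℝ → ℝ) (z0 : ℂ) (N T ξ : ℝ), ContinuousOn W (Ici 0) → W 0 = 0 → z0.im = 1 →
      Alive W z0 T → |ξ| ≤ Xb → N1 ≤ N → U5a.Trig ξ N T (fun t => Zfl W t z0) →
      ∃ (ρ C0 : ℝ) (A : ℝ → ℝ), 0 < ρ ∧ ρ ≤ C0 ∧ Real.log (C0 / ρ) ≤ CL * N ∧
        ContinuousOn A (Icc ρ C0) ∧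
        (∀ y ∈ Icc ρ C0,
          ffl W T (y * Complex.I) - z0 =
            ‖ffl W T (y * Complex.I) - z0‖ * Complex.exp (A y * Complex.I) ∧
          cR ≤ ‖ffl W T (y * Complex.I) - z0‖ ∧ ‖ffl W T (y * Complex.I) - z0‖ ≤ CR) ∧
        cV * Real.sqrt N - CV ≤ |A C0 - A ρ|

/-- scaling of the inverse flow -/
theorem ffl_scl {W : ℝ → ℝ} {t : ℝ} (hW : ContinuousOn W (Ici 0)) (ht : 0 ≤ t) {l : ℝ}
    (hl : 0 < l) {ζ : ℂ} (hζ : 0 < ζ.im) :
    (l : ℂ) * ffl (scl l W) t ζ = ffl W (l ^ 2 * t) (l * ζ) := by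
  have hWs : ContinuousOn (scl l W) (Ici 0) := continuousOn_scl hW
  have ha := FLC.ffl_alive hWs ht hζ
  have ha' : Alive W (l * ffl (scl l W) t ζ) (l ^ 2 * t) := (alive_scl hl).1 ha
  have h1 := FLC.Zfl_ffl hWs ht hζ
  rw [Zfl_scl hl ha'] at h1
  have hl0 : (l : ℂ) ≠ 0 := Complex.ofReal_ne_zero.2 hl.ne'
  have h2 : Zfl W (l ^ 2 * t) (l * ffl (scl l W) t ζ) = l * ζ := by
    have h : (l : ℂ) * ((l : ℂ)⁻¹ * Zfl W (l ^ 2 * t) (l * ffl (scl l W) t ζ)) = l * ζ :=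
      congrArg (fun x => (l : ℂ) * x) h1
    rwa [← mul_assoc, mul_inv_cancel₀ hl0, one_mul] at h
  have h3 := FLC.ffl_Zfl hW ha'
  rw [h2] at h3
  exact h3.symm

theorem ofReal_integral_le {f : ℝ → ℝ} {s : Set ℝ} (hs : MeasurableSet s)
    (hf : ∀ y ∈ s, 0 ≤ f y) :
    ENNReal.ofReal (∫ y in s, f y) ≤ ∫⁻ y in s, ENNReal.ofReal (f y) := by
  by_cases h : IntegrableOn f s
  · rw [ofReal_integral_eq_lintegral_ofReal h ((ae_restrict_iff' hs).2 (Eventually.of_forall hf))]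
  · rw [integral_undef h]; simp

theorem u5 (hb : U5bOut) {κ : ℝ} (hκ : 0 < κ) : U5Stmt κ := by
  intro δ hδ
  obtain ⟨cR, CR, cV, CV, CL, N1, hcR, hcV, hCL, hmain⟩ := hb (Real.log (2 / δ))
  set d : ℝ := dimParam κ with hd
  have hdk : d = 1 + κ / 8 := rfl
  have hd1 : 1 ≤ d := by rw [hdk]; linarith
  obtain ⟨c5', hc5', c', hc', N0, hN0, hsec⟩ :=
    U5c.sector_power_mass (CV := CV) hcR hcV hCL hd1
  obtain ⟨K⟩ := U5d.exists_consts d (8 / κ - 1) (max CR 0) (by linarith) (le_max_right _ _)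
  refine ⟨max 1 K.C6, K.c5 * c5', K.c * c', max N0 N1, le_max_left _ _,
    mul_pos K.c5_pos hc5', mul_pos K.c_pos hc', hN0.trans (le_max_left _ _), ?_⟩
  intro W w r N σ T hW hW0 hN hr htr
  have hNN0 : N0 ≤ N := (le_max_left _ _).trans hN
  have hNN1 : N1 ≤ N := (le_max_right _ _).trans hN
  have hN1' : 1 ≤ N := hN0.trans hNN0
  have hσ := htr.nonneg
  have hσT := htr.le
  have hT0 : 0 ≤ T := hσ.trans hσT
  set y0 : ℝ := U5br.y0 W w σ with hy0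
  have hy0p : 0 < y0 := U5br.y0_pos htr
  set W2 : ℝ → ℝ := U5br.Wn W w σ with hW2
  set z0 : ℂ := U5br.z0 W w σ with hz0
  set T2 : ℝ := U5br.Tn W w σ T with hT2
  have hT20 : 0 ≤ T2 := U5br.Tn_nonneg htr
  have hW2c : ContinuousOn W2 (Ici 0) := U5br.Wn_cont hW htr
  have hz0im : z0.im = 1 := U5br.z0_im htr
  obtain ⟨ρ, C0, A, hρ, hρC, hlog, hA, hbr, hvar⟩ := hmain W2 z0 N T2 (xfl W σ w) hW2c
    U5br.Wn_zero hz0im (U5br.alive_n htr ⟨hT20, le_rfl⟩) (U5br.abs_xfl_le hδ htr) hNN1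
    (U5br.trig hW htr)
  set g2 : ℂ → ℂ := ffl W2 T2 with hg2
  have hg2d : DifferentiableOn ℂ g2 HH := FLC.differentiableOn_ffl hW2c hT20
  have hg2i : InjOn g2 HH := FLC.injOn_ffl hW2c hT20
  have hg2m : MapsTo g2 HH HH := fun ζ hζ => FLC.ffl_im_pos hW2c hT20 hζ
  have hyI : ∀ y ∈ Icc ρ C0, ((y : ℂ) * Complex.I) ∈ HH := fun y hy => by
    have : 0 < y := hρ.trans_le hy.1
    simpa [HH] using this
  have hp : ∀ y ∈ Icc ρ C0, HasDerivWithinAt (fun y : ℝ => g2 (y * Complex.I))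
      (deriv g2 (y * Complex.I) * Complex.I) (Icc ρ C0) y := by
    intro y hy
    have h1 : HasDerivAt g2 (deriv g2 (y * Complex.I)) (y * Complex.I) :=
      (hg2d.differentiableAt (isOpen_HH.mem_nhds (hyI y hy))).hasDerivAt
    have h2 : HasDerivAt (fun y : ℝ => (y : ℂ) * Complex.I) Complex.I y := by
      simpa using (Complex.ofRealCLM.hasDerivAt (x := y)).mul_const Complex.I
    exact (h1.comp y h2).hasDerivWithinAt
  have hp' : ContinuousOn (fun y : ℝ => deriv g2 (y * Complex.I) * Complex.I) (Icc ρ C0) := by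
    refine ContinuousOn.mul ?_ continuousOn_const
    have h1 : ContinuousOn (deriv g2) HH := (hg2d.deriv isOpen_HH).continuousOn
    exact h1.comp (by fun_prop) hyI
  obtain ⟨hAm, hAint⟩ := hsec N hNN0 ρ C0 hρ hρC hlog (fun y : ℝ => g2 (y * Complex.I))
    (fun y : ℝ => deriv g2 (y * Complex.I) * Complex.I) z0 hp hp' (fun y hy => (hbr y hy).2.1)
    A hA (fun y hy => (hbr y hy).1) hvar
  set A0 : Set ℝ := (Icc ρ C0 ∩ U5c.sector (fun y : ℝ => g2 (y * Complex.I)) z0) ∩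
    {y | c5' * N ^ (-(1:ℝ)/2) ≤ y * ‖deriv g2 (y * Complex.I) * Complex.I‖} with hA0
  have hA0sub : A0 ⊆ Icc ρ C0 := fun y hy => hy.1.1
  -- the physical map
  set f2 : ℂ → ℂ := fun z => ffl W σ (y0 * z) with hf2
  have hmulHH : MapsTo (fun z : ℂ => (y0 : ℂ) * z) HH HH := by
    intro z hz
    show 0 < ((y0 : ℂ) * z).im
    rw [Complex.im_ofReal_mul]
    exact mul_pos hy0p hz
  have hy0ne : (y0 : ℂ) ≠ 0 := Complex.ofReal_ne_zero.2 hy0p.ne'
  have hfd : DifferentiableOn ℂ (ffl W σ) HH := FLC.differentiableOn_ffl hW hσ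
  have hfi : InjOn (ffl W σ) HH := FLC.injOn_ffl hW hσ
  have hf2d : DifferentiableOn ℂ f2 HH := hfd.comp (by fun_prop) hmulHH
  have hf2i : InjOn f2 HH := hfi.comp (fun a _ b _ h => mul_left_cancel₀ hy0ne h) hmulHH
  have hmulz0 : (y0 : ℂ) * z0 = Zfl W σ w := U5br.mul_z0 htr
  have hwσ : Alive W w σ := htr.alive.mono hσ hσT
  have hf2z0 : f2 z0 = w := by
    rw [hf2]; simp only
    rw [hmulz0]
    exact FLC.ffl_Zfl hW hwσ
  have hrr : z0.im * ‖deriv f2 z0‖ = r := by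
    have h1 : deriv f2 z0 = deriv (ffl W σ) (y0 * z0) * y0 := by
      have hz : ((y0:ℂ) * z0) ∈ HH := hmulHH (by show 0 < z0.im; rw [hz0im]; exact one_pos)
      have h2 : HasDerivAt (ffl W σ) (deriv (ffl W σ) (y0 * z0)) (y0 * z0) :=
        (hfd.differentiableAt (isOpen_HH.mem_nhds hz)).hasDerivAt
      have h3 : HasDerivAt (fun z : ℂ => (y0 : ℂ) * z) y0 z0 := by
        simpa using (hasDerivAt_id z0).const_mul (y0 : ℂ)
      exact (h2.comp z0 h3).deriv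
    rw [hz0im, one_mul, h1, norm_mul, Complex.norm_real, Real.norm_eq_abs, abs_of_pos hy0p, hmulz0,
      mul_comm, ← htr.ups_eq, FLC.ups_eq hW hwσ]
    rfl
  -- the composite map
  have hshc : ContinuousOn (shift W σ) (Ici 0) := continuousOn_shift hW hσ
  have hsq : y0 ^ 2 * T2 = T - σ := U5br.sq_mul_Tn htr
  have hcomp : ∀ ζ ∈ HH, f2 (g2 ζ) = ffl W T (y0 * ζ) := by
    intro ζ hζ
    have h1 : (y0 : ℂ) * g2 ζ = ffl (shift W σ) (y0 ^ 2 * T2) (y0 * ζ) :=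
      ffl_scl hshc hT20 hy0p hζ
    rw [hf2]; simp only
    rw [h1, hsq, ← FLC.ffl_add hW hσ (by linarith) (hmulHH hζ)]
    congr 1
    ring
  have hFd : DifferentiableOn ℂ (ffl W T) HH := FLC.differentiableOn_ffl hW hT0
  have hderiv : ∀ ζ ∈ HH, deriv (fun ξ => f2 (g2 ξ)) ζ = deriv (ffl W T) (y0 * ζ) * y0 := by
    intro ζ hζ
    have h2 : HasDerivAt (ffl W T) (deriv (ffl W T) (y0 * ζ)) (y0 * ζ) :=
      (hFd.differentiableAt (isOpen_HH.mem_nhds (hmulHH hζ))).hasDerivAt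
    have h3 : HasDerivAt (fun z : ℂ => (y0 : ℂ) * z) y0 ζ := by
      simpa using (hasDerivAt_id ζ).const_mul (y0 : ℂ)
    have h4 : HasDerivAt (fun z : ℂ => ffl W T (y0 * z)) (deriv (ffl W T) (y0 * ζ) * y0) ζ :=
      h2.comp ζ h3
    have h5 : (fun ξ => f2 (g2 ξ)) =ᶠ[𝓝 ζ] fun z : ℂ => ffl W T (y0 * z) := by
      filter_upwards [isOpen_HH.mem_nhds hζ] with ξ hξ using hcomp ξ hξ
    exact (h4.congr_of_eventuallyEq h5).deriv
  have hups : ∀ ζ ∈ HH, ζ.im * ‖deriv (fun ξ => f2 (g2 ξ)) ζ‖ = ups W T (f2 (g2 ζ)) := by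
    intro ζ hζ
    rw [hderiv ζ hζ, hcomp ζ hζ, FLC.ups_ffl hW hT0 (hmulHH hζ), norm_mul, Complex.norm_real,
      Real.norm_eq_abs, abs_of_pos hy0p, Complex.im_ofReal_mul]
    ring
  have hsfl : ∀ ζ ∈ HH, ζ.im / ‖ζ‖ = sfl W T (f2 (g2 ζ)) := by
    intro ζ hζ
    rw [hcomp ζ hζ, sfl, FLC.Zfl_ffl hW hT0 (hmulHH hζ), norm_mul, Complex.norm_real,
      Real.norm_eq_abs, abs_of_pos hy0p, Complex.im_ofReal_mul]
    rw [mul_div_mul_left _ _ hy0p.ne']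
  have hsecA : ∀ y ∈ A0, 0 < y ∧ z0.im ≤ (g2 (y * Complex.I)).im ∧
      ‖g2 (y * Complex.I) - z0‖ ≤ max CR 0 * z0.im := by
    intro y hy
    have hyI' := hA0sub hy
    refine ⟨hρ.trans_le hyI'.1, ?_, ?_⟩
    · have h1 : |(g2 (y * Complex.I) - z0).re| ≤ (g2 (y * Complex.I) - z0).im := hy.1.2
      have h2 := (abs_nonneg _).trans h1
      rw [Complex.sub_im] at h2
      linarith
    · rw [hz0im, mul_one]
      exact (hbr y hyI').2.2.trans (le_max_left _ _)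
  obtain ⟨hpt, hmass⟩ := K.main f2 g2 z0 hf2d hf2i hg2d hg2i hg2m (by rw [hz0im]; exact one_pos)
    A0 hAm hsecA
  rw [hrr, hf2z0] at hpt
  have hsecH : ∀ ζ ∈ Sec A0 K.δ, ζ ∈ HH := fun ζ hζ => (hpt ζ hζ).1
  have hmass' := hmass (fun z => ENNReal.ofReal (gr κ W T z)) (by
    intro ζ hζ
    rw [hups ζ (hsecH ζ hζ), hsfl ζ (hsecH ζ hζ)]
    apply le_of_eq
    have e : d - 2 = κ / 8 - 1 := by rw [hdk]; ring
    rw [e]
    rfl)
  rw [hrr] at hmass'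
  -- the image lies in the charge set
  have himg : (fun ξ => f2 (g2 ξ)) '' Sec A0 K.δ ⊆
      chargeSet W w r N (max 1 K.C6) (K.c5 * c5') T := by
    rintro _ ⟨ζ, hζ, rfl⟩
    obtain ⟨h1, h2, h3, h4, h5, h6⟩ := hpt ζ hζ
    refine ⟨?_, ?_, ?_⟩
    · show Alive W (f2 (g2 ζ)) T
      rw [hcomp ζ h1]
      exact FLC.ffl_alive hW hT0 (hmulHH h1)
    · exact h4.trans (by gcongr; exact le_max_right _ _)
    · show K.c5 * c5' * r * N ^ (-(1 / 2 : ℝ)) ≤ ups W T (f2 (g2 ζ))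
      rw [← hups ζ h1]
      refine le_trans ?_ h6
      have h7 : c5' * N ^ (-(1:ℝ)/2) ≤ ‖ζ‖ * ‖deriv g2 (‖ζ‖ * Complex.I)‖ := by
        have := hζ.1.2
        simpa using this
      have e : (-(1:ℝ)/2) = -(1/2) := by norm_num
      rw [e] at h7
      rw [hz0im, div_one]
      have hc5 := K.c5_pos
      calc K.c5 * c5' * r * N ^ (-(1 / 2 : ℝ)) = K.c5 * r * (c5' * N ^ (-(1 / 2 : ℝ))) := by ring
        _ ≤ K.c5 * r * (‖ζ‖ * ‖deriv g2 (‖ζ‖ * Complex.I)‖) := by gcongr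
  refine le_trans ?_ (lintegral_mono_set himg)
  refine le_trans ?_ hmass'
  have hcpos := K.c_pos
  have e1 : K.c * c' * r ^ d * N ^ ((2 - d) / 2) = (K.c * r ^ d) * (c' * N ^ (1 - d / 2)) := by
    have : (2 - d) / 2 = 1 - d / 2 := by ring
    rw [this]; ring
  rw [e1, ENNReal.ofReal_mul (by positivity)]
  gcongr
  refine (ENNReal.ofReal_le_ofReal hAint).trans ?_
  refine (ofReal_integral_le hAm ?_).trans (le_of_eq ?_)
  · intro y hy
    have : 0 < y := hρ.trans_le (hA0sub hy).1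
    positivity
  · refine setLIntegral_congr_fun hAm ?_
    intro y hy
    simp only [norm_mul, Complex.norm_I, mul_one, hz0im, div_one]

end Crest.Agent.R162.U5F
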