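import Crest.Agent.R162.U5b
import Crest.Agent.R162.KB5

/-!
Row 162, node U5b: final form (trigger in the normalised setting => branch data).
-/

set_option autoImplicit false

open Set MeasureTheory Filter Topology

namespace Crest.Agent.R162.U5b

open Crest.Agent.R162.FL Crest.Agent.R162.FLC Crest.Agent.R162.U5a

/-- **U5b**, final form. -/
theorem U5b_trig (Xb : ℝ) :
    ∃ cR CR cV CV CL N1 : ℝ, 0 < cR ∧ 0 < CR ∧ 0 < cV ∧ 0 < CL ∧ 1 ≤ N1 ∧
      ∀ (W : ℝ → ℝ) (z0 : ℂ) (N T ξ : ℝ), ContinuousOn W (Ici 0) → W 0 = 0 → z0.im = 1 →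
        Alive W z0 T → |ξ| ≤ Xb → N1 ≤ N → Trig ξ N T (fun t => Zfl W t z0) →
        ∃ (ρ C0 : ℝ) (A : ℝ → ℝ), 0 < ρ ∧ ρ ≤ C0 ∧ Real.log (C0 / ρ) ≤ CL * N ∧
          ContinuousOn A (Icc ρ C0) ∧
          (∀ y ∈ Icc ρ C0,
            ffl W T (y * Complex.I) - z0 =
              ‖ffl W T (y * Complex.I) - z0‖ * Complex.exp (A y * Complex.I) ∧
            cR ≤ ‖ffl W T (y * Complex.I) - z0‖ ∧ ‖ffl W T (y * Complex.I) - z0‖ ≤ CR) ∧
          cV * Real.sqrt N - CV ≤ |A C0 - A ρ| := by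
  obtain ⟨CK, -, hKB5⟩ := Crest.Agent.R162.KB.KB5 (4 * Real.cosh 3)
  obtain ⟨C0, cR, CR, CV, CL, hC0, hcR, hCR, hmain⟩ :=
    U5b (Xb + 1) (16 * Real.exp 2 * (Xb + 6)) (2 / Real.exp 1) (4 * (8 * Real.exp 1 + 1)) Xb
      (CK := CK) hKB5
  refine ⟨cR, CR, 2 / Real.exp 1, CV, 4 + |CL|, max 1 (Real.exp (2 * (Xb + 2))), hcR, hCR,
    by positivity, by positivity, le_max_left _ _, ?_⟩
  intro W z0 N T ξ hW hW0 him hal hξ hN htr
  have hN1 : 1 ≤ N := (le_max_left _ _).trans hN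
  have hNX : Xb + 2 ≤ Real.log N / 2 := by
    have h1 : Real.exp (2 * (Xb + 2)) ≤ N := (le_max_right _ _).trans hN
    have h2 := (Real.le_log_iff_exp_le (by linarith)).2 h1
    linarith
  have hT := hal.1
  have hZ : ContinuousOn (fun t => Zfl W t z0) (Icc 0 T) := continuousOn_Zfl hW hal
  have him' : ∀ t ∈ Icc 0 T, 0 < (Zfl W t z0).im := fun t ht => FL.Zfl_im_pos (hal.mono ht.1 ht.2)
  have h := hmain W z0 T N hW hW0 hal him
    (fun t ht => H1 hZ him' hξ hN1 htr t ht)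
    (H2 hZ him' hT hξ hN1 htr)
    (by
      have := H3 hZ him' hT hξ hN1 hNX htr
      simpa [neg_mul] using this)
    (H4 (Z := fun t => Zfl W t z0) (T := T) hT hξ hN1 hNX htr)
    (H5 hξ htr)
  obtain ⟨hρ, hρC, hlog, -, -, -, hR, hA, hAp, hwind⟩ := h
  refine ⟨‖Zfl W T z0‖, C0, Ag W T z0, hρ, hρC, ?_, hA, fun y hy => ⟨hAp y hy, (hR y hy).1, (hR y hy).2⟩,
    hwind⟩
  have h1 : Real.log N ≤ N := (Real.log_le_sub_one_of_pos (by linarith)).trans (by linarith)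
  have h2 : CL ≤ |CL| * N := by
    have := le_abs_self CL
    have := abs_nonneg CL
    nlinarith
  linarith

end Crest.Agent.R162.U5b
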