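import Mathlib
import Crest.Agent.R162.U5
import Crest.Agent.R162.U5bF

/-!
Row 162 (S0243), node U5: the frozen statement `UB.U5Stmt`, unconditional.
-/

set_option autoImplicit false

open MeasureTheory Metric Set Filter Topology
open scoped ENNReal

namespace Crest.Agent.R162.U5F

open Crest.Agent.R162.UB

theorem u5bOut : U5bOut := by
  intro Xb
  obtain ⟨cR, CR, cV, CV, CL, N1, h1, -, h3, h4, -, h⟩ := U5b.U5b_trig Xb
  exact ⟨cR, CR, cV, CV, CL, N1, h1, h3, h4, h⟩

/-- **NODE U5** -/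
theorem u5Stmt {κ : ℝ} (hκ : 0 < κ) : U5Stmt κ := u5 u5bOut hκ

end Crest.Agent.R162.U5F
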