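import Crest.Agent.R162.U5b3
import Crest.Agent.R162.U5c

/-!
Row 162, node U5b: assembled statement (from H1..H5 of U5a to the hypotheses of U5c).
-/

set_option autoImplicit false

open Set MeasureTheory Filter Topology

namespace Crest.Agent.R162.U5b

open Crest.Agent.R162.FL Crest.Agent.R162.FLC Crest.Agent.R162.U5a

variable {W : ℝ → ℝ} {z0 : ℂ} {T : ℝ}

/-- the continuous logarithm -/
noncomputable def Lg (W : ℝ → ℝ) (T : ℝ) (z0 : ℂ) (y : ℝ) : ℂ :=
  Complex.log (Zfl W T z0 - y * Complex.I) + Real.pi * Complex.I + Jf W T z0 (y * Complex.I)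

/-- the continuous argument -/
noncomputable def Ag (W : ℝ → ℝ) (T : ℝ) (z0 : ℂ) (y : ℝ) : ℝ := (Lg W T z0 y).im

theorem exp_Lg (hW : ContinuousOn W (Ici 0)) (h0 : Alive W z0 T) (hre : 0 < (Zfl W T z0).re)
    {y : ℝ} (hy : 0 < y) :
    Complex.exp (Lg W T z0 y) = ffl W T (y * Complex.I) - z0 := by
  have hyI : 0 < (y * Complex.I : ℂ).im := by simpa using hy
  have hne : Zfl W T z0 - y * Complex.I ≠ 0 := by
    intro h
    have := congrArg Complex.re h
    simp at this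
    linarith
  rw [Lg, Complex.exp_add, Complex.exp_add, Complex.exp_log hne, Complex.exp_pi_mul_I,
    ffl_sub_z0 hW h0 hyI]
  ring

theorem exp_eq_norm_mul (L : ℂ) :
    Complex.exp L = ‖Complex.exp L‖ * Complex.exp (L.im * Complex.I) := by
  rw [Complex.norm_exp]
  push_cast
  rw [← Complex.exp_add]
  congr 1
  exact (Complex.re_add_im L).symm

theorem contOn_Lg (hW : ContinuousOn W (Ici 0)) (h0 : Alive W z0 T) (hre : 0 < (Zfl W T z0).re) :
    ContinuousOn (Lg W T z0) (Ioi 0) := by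
  unfold Lg
  apply ContinuousOn.add
  · apply ContinuousOn.add _ continuousOn_const
    apply ContinuousOn.clog (by fun_prop)
    intro y _
    rw [Complex.mem_slitPlane_iff]
    left
    simpa using hre
  · intro y hy
    have hyI : 0 < (y * Complex.I : ℂ).im := by simpa using hy
    have h1 : ContinuousAt (fun y : ℝ => (y * Complex.I : ℂ)) y := by fun_prop
    have h2 : ContinuousAt (Jf W T z0) ((fun y : ℝ => (y * Complex.I : ℂ)) y) := contAt_Jf hW h0 hyI
    have h3 : ContinuousAt (fun y : ℝ => Jf W T z0 (y * Complex.I)) y :=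
      ContinuousAt.comp (g := Jf W T z0) h2 h1
    exact h3.continuousWithinAt

/-- **U5b** -/
theorem U5b (X1 C2 c3 C3 C5 : ℝ) {CK : ℝ} (hKB5 : KB5Stmt (4 * Real.cosh 3) CK) :
    ∃ C0 cR CR CV CL : ℝ, 0 < C0 ∧ 0 < cR ∧ 0 < CR ∧
      ∀ (W : ℝ → ℝ) (z0 : ℂ) (T N : ℝ), ContinuousOn W (Ici 0) → W 0 = 0 → Alive W z0 T →
        z0.im = 1 →
        (∀ t ∈ Icc (0:ℝ) T, |xc (Zfl W t z0)| ≤ X1 + clk (fun s => Zfl W s z0) t) →
        (∫ s in (0:ℝ)..T, 4 * (Zfl W s z0).im ^ 2 / ‖Zfl W s z0‖ ^ 4) ≤ C2 →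
        (∫ s in (0:ℝ)..T, 2 / (Zfl W s z0) ^ 2).im ≤ -(c3 * Real.sqrt N) + C3 →
        (-3 ≤ xc (Zfl W T z0) ∧ xc (Zfl W T z0) ≤ -1) →
        clk (fun s => Zfl W s z0) T ≤ N + Real.log N + C5 →
        0 < ‖Zfl W T z0‖ ∧ ‖Zfl W T z0‖ ≤ C0 ∧
        Real.log (C0 / ‖Zfl W T z0‖) ≤ 2 * (N + Real.log N) + CL ∧
        Real.exp (-C2) ≤ KB1.ups (ffl W T) (Zfl W T z0) ∧
        (∀ y ∈ Icc ‖Zfl W T z0‖ C0, HasDerivWithinAt (fun y : ℝ => ffl W T (y * Complex.I))
          (Complex.I * deriv (ffl W T) (y * Complex.I)) (Icc ‖Zfl W T z0‖ C0) y) ∧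
        ContinuousOn (fun y : ℝ => Complex.I * deriv (ffl W T) (y * Complex.I))
          (Icc ‖Zfl W T z0‖ C0) ∧
        (∀ y ∈ Icc ‖Zfl W T z0‖ C0, cR ≤ ‖ffl W T (y * Complex.I) - z0‖ ∧
          ‖ffl W T (y * Complex.I) - z0‖ ≤ CR) ∧
        ContinuousOn (Ag W T z0) (Icc ‖Zfl W T z0‖ C0) ∧
        (∀ y ∈ Icc ‖Zfl W T z0‖ C0, ffl W T (y * Complex.I) - z0 =
          ‖ffl W T (y * Complex.I) - z0‖ * Complex.exp (Ag W T z0 y * Complex.I)) ∧
        c3 * Real.sqrt N - CV ≤ |Ag W T z0 C0 - Ag W T z0 ‖Zfl W T z0‖| := by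
  set K1 : ℝ := Real.exp X1 with hK1
  have hK1p : 0 < K1 := Real.exp_pos _
  refine ⟨2 * K1, Real.exp (-C2) / 6, 16 * K1, 4 * Real.pi + 1 + C3 + CK,
    Real.log (2 * K1) + 2 * C5, by positivity, by positivity, by positivity, ?_⟩
  intro W z0 T N hW hW0 h0 him H1 H2 H3 H4 H5
  have hT := h0.1
  have hg := h0.isFlow
  have hWc : ContinuousOn W (Icc 0 T) := hW.mono Icc_subset_Ici_self
  set ζ : ℂ := Zfl W T z0 with hζdef
  have hζ : 0 < ζ.im := FL.Zfl_im_pos h0
  have hTT : T ∈ Icc (0:ℝ) T := ⟨hT, le_rfl⟩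
  have H1' : ∀ t ∈ Icc (0:ℝ) T,
      |Real.arsinh ((gfl W t z0 - (W t : ℂ)).re / (gfl W t z0 - (W t : ℂ)).im)| ≤
        X1 + ath W (fun s => gfl W s z0) t := by
    intro t ht
    have h1 := H1 t ht
    rw [clk_eq, xc, abs_neg] at h1
    exact h1
  -- position of ζ
  have hr1 : 1 ≤ ζ.re / ζ.im := by
    have h1 : 1 ≤ Real.arsinh (ζ.re / ζ.im) := by
      have := H4.2
      unfold xc at this
      linarith
    have h2 : Real.sinh 1 ≤ ζ.re / ζ.im := by
      have := Real.sinh_le_sinh.2 h1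
      rwa [Real.sinh_arsinh] at this
    have h3 : (1:ℝ) ≤ Real.sinh 1 := Real.self_le_sinh_iff.2 zero_le_one
    linarith
  have hre1 : ζ.im ≤ ζ.re := by
    rw [le_div_iff₀ hζ] at hr1
    linarith
  have hre : 0 < ζ.re := hζ.trans_le hre1
  have hρ : 0 < ‖ζ‖ := norm_pos_iff.2 (FL.Zfl_ne_zero h0)
  have hnorm : ‖ζ‖ ≤ ζ.im * Real.cosh 3 := by
    have h1 : Real.arsinh (ζ.re / ζ.im) ≤ 3 := by
      have := H4.1
      unfold xc at this
      linarith
    have h1' : 0 ≤ Real.arsinh (ζ.re / ζ.im) := Real.arsinh_nonneg_iff.2 (by positivity)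
    have h2 : ‖ζ‖ = ζ.im * Real.cosh (Real.arsinh (ζ.re / ζ.im)) := by
      have h2 : ζ.re * ζ.re + ζ.im * ζ.im = ζ.im ^ 2 * (1 + (ζ.re / ζ.im) ^ 2) := by
        field_simp
        ring
      rw [Real.cosh_arsinh, Complex.norm_def, Complex.normSq_apply, h2,
        Real.sqrt_mul (sq_nonneg _), Real.sqrt_sq hζ.le]
    rw [h2]
    apply mul_le_mul_of_nonneg_left _ hζ.le
    rw [Real.cosh_le_cosh, abs_of_nonneg h1', abs_of_pos (by norm_num : (0:ℝ) < 3)]
    exact h1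
  have hA0 : 0 ≤ ath W (fun s => gfl W s z0) T := ath_nonneg hT
  have hρK : ‖ζ‖ ≤ K1 := by
    have h1 := norm_Z_le hg hWc him H1' hTT
    have h2 : Real.exp (-ath W (fun s => gfl W s z0) T) ≤ 1 := by
      rw [Real.exp_le_one_iff]; linarith
    calc ‖ζ‖ ≤ K1 * Real.exp (-ath W (fun s => gfl W s z0) T) := h1
      _ ≤ K1 * 1 := mul_le_mul_of_nonneg_left h2 hK1p.le
      _ = K1 := mul_one _
  have himeq : ζ.im = Real.exp (-2 * ath W (fun s => gfl W s z0) T) := by
    rw [hζdef, FL.Zfl_im]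
    have := im_eq hg hWc hTT
    rw [him, one_mul] at this
    exact this
  have hups := ups_ge hW h0 him H2
  have hdf := differentiableOn_ffl hW hT
  have hinj := injOn_ffl hW hT
  have hopen : IsOpen {z : ℂ | 0 < z.im} := isOpen_lt continuous_const Complex.continuous_im
  have hyI : ∀ y : ℝ, 0 < y → 0 < (y * Complex.I : ℂ).im := fun y hy => by simpa using hy
  have hypos : ∀ y ∈ Icc ‖ζ‖ (2 * K1), 0 < y := fun y hy => hρ.trans_le hy.1
  -- J bounds
  have hJ : ∀ y : ℝ, 0 < y → ‖Jf W T z0 (y * Complex.I)‖ ≤ 2 / y * K1 := by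
    intro y hy
    have h1 := norm_Jf_le hW h0 (hyI y hy)
    have h2 := int_inv_le hg hWc him H1' hTT
    have h3 : (y * Complex.I : ℂ).im = y := by simp
    rw [h3] at h1
    refine h1.trans (mul_le_mul_of_nonneg_left (h2.trans ?_) (by positivity))
    have : 0 < Real.exp (-ath W (fun s => gfl W s z0) T) := Real.exp_pos _
    nlinarith
  refine ⟨hρ, by linarith, ?_, hups, ?_, ?_, ?_, ?_, ?_, ?_⟩
  · -- number of scales
    rw [Real.log_div (by positivity) hρ.ne']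
    have h1 : ζ.im ≤ ‖ζ‖ := norm_ge_im
    have h2 : -2 * ath W (fun s => gfl W s z0) T ≤ Real.log ‖ζ‖ := by
      rw [Real.le_log_iff_exp_le hρ, ← himeq]
      exact h1
    rw [clk_eq] at H5
    linarith
  · intro y hy
    have h1 : HasDerivAt (ffl W T) (deriv (ffl W T) (y * Complex.I)) (y * Complex.I) :=
      (hdf.differentiableAt (hopen.mem_nhds (hyI y (hypos y hy)))).hasDerivAt
    have h2 : HasDerivAt (fun y : ℝ => (y * Complex.I : ℂ)) Complex.I y := by
      simpa using (Complex.ofRealCLM.hasDerivAt (x := y)).mul_const Complex.I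
    have h3 := h1.comp y h2
    rw [mul_comm] at h3
    exact h3.hasDerivWithinAt
  · apply continuousOn_const.mul
    have h1 : ContinuousOn (deriv (ffl W T)) {z : ℂ | 0 < z.im} := (hdf.deriv hopen).continuousOn
    exact h1.comp (by fun_prop) fun y hy => hyI y (hypos y hy)
  · intro y hy
    constructor
    · have h1 := KB1.ups_le_norm_sub hdf hinj hζ (hyI y (hypos y hy))
      rw [ffl_Zfl hW h0] at h1
      have h2 := phd_ge hζ hre1 (hypos y hy)
      have h3 : 0 < Real.exp (-C2) := Real.exp_pos _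
      have h4 : Real.exp (-C2) * (1 / 3) ≤
          KB1.ups (ffl W T) ζ * KB1.phd ζ (y * Complex.I) :=
        mul_le_mul hups h2 (by norm_num) (h3.le.trans hups)
      linarith
    · have hal := ffl_alive hW hT (hyI y (hypos y hy))
      have hWm : ∀ t ∈ Icc (0:ℝ) T, |W t| ≤ 4 * K1 := fun t ht =>
        norm_W_le hg hWc him hT hW0 H1' ht
      have hgT : ‖gfl W T (ffl W T (y * Complex.I))‖ ≤ 6 * K1 := by
        rw [gfl_ffl hW hT (hyI y (hypos y hy))]
        refine (norm_add_le _ _).trans ?_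
        rw [norm_mul, Complex.norm_I, Complex.norm_real, Complex.norm_real, Real.norm_eq_abs,
          Real.norm_eq_abs, abs_of_pos (hypos y hy)]
        have := hWm T hTT
        linarith [hy.2]
      have h1 := norm_start_le hT hal.isFlow (m := 4 * K1) (r := 6 * K1) (by positivity)
        (by positivity) hWm hgT
      have h2 : Real.sqrt ((6 * K1 + 2 * (4 * K1)) ^ 2 + 9 * T) ≤ 15 * K1 := by
        rw [Real.sqrt_le_left (by positivity)]
        have h3 := time_le hg hWc him H1' hTT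
        have h4 : 0 < K1 ^ 2 := by positivity
        nlinarith
      have h3 := norm_z0_le hg hWc him hT hW0 H1'
      have h4 := norm_sub_le (ffl W T (y * Complex.I)) z0
      linarith
  · have h1 := contOn_Lg hW h0 hre
    exact Complex.continuous_im.comp_continuousOn (h1.mono fun y hy => hypos y hy)
  · intro y hy
    have h1 := exp_Lg hW h0 hre (hypos y hy)
    rw [← h1]
    exact exp_eq_norm_mul _
  · -- winding
    have hC : ‖Jf W T z0 ((2 * K1 : ℝ) * Complex.I)‖ ≤ 1 := by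
      have := hJ (2 * K1) (by positivity)
      have e : 2 / (2 * K1) * K1 = 1 := by field_simp
      rwa [e] at this
    have hJζ : Jf W T z0 ζ = ∫ s in (0:ℝ)..T, 2 / (Zfl W s z0) ^ 2 := by
      unfold Jf
      rw [hζdef, ffl_Zfl hW h0]
      congr 1
      funext r
      rw [sq]
    have hKBρ : ‖Jf W T z0 (‖ζ‖ * Complex.I) - Jf W T z0 ζ‖ ≤ CK := by
      refine hKB5 (ffl W T) hdf hinj ζ hζ (Jf W T z0)
        (fun z hz => (contAt_Jf hW h0 hz).continuousWithinAt) ?_ (‖ζ‖ * Complex.I) (hyI _ hρ) ?_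
      · intro z hz
        rw [ffl_Zfl hW h0]
        exact ffl_sub_z0 hW h0 hz
      · have h1 : ‖(‖ζ‖ * Complex.I : ℂ) - ζ‖ ≤ 2 * ‖ζ‖ := by
          refine (norm_sub_le _ _).trans ?_
          rw [norm_mul, Complex.norm_I, Complex.norm_real, norm_norm]
          linarith
        have h2 : (‖ζ‖ * Complex.I : ℂ).im = ‖ζ‖ := by simp
        rw [h2]
        have h3 : ‖(‖ζ‖ * Complex.I : ℂ) - ζ‖ ^ 2 ≤ (2 * ‖ζ‖) ^ 2 :=
          pow_le_pow_left₀ (norm_nonneg _) h1 2
        have h4 : ‖ζ‖ * ‖ζ‖ ≤ ‖ζ‖ * (ζ.im * Real.cosh 3) := mul_le_mul_of_nonneg_left hnorm hρ.le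
        nlinarith
    have a1 : |(Jf W T z0 ((2 * K1 : ℝ) * Complex.I)).im| ≤ 1 := (Complex.abs_im_le_norm _).trans hC
    have a2 : |(Jf W T z0 (‖ζ‖ * Complex.I) - Jf W T z0 ζ).im| ≤ CK :=
      (Complex.abs_im_le_norm _).trans hKBρ
    rw [Complex.sub_im, hJζ] at a2
    have b1 := abs_le.1 (Complex.abs_arg_le_pi (ζ - ((2 * K1 : ℝ) : ℂ) * Complex.I))
    have b2 := abs_le.1 (Complex.abs_arg_le_pi (ζ - (‖ζ‖ : ℂ) * Complex.I))
    have e1 : Ag W T z0 (2 * K1) = (ζ - ((2 * K1 : ℝ) : ℂ) * Complex.I).arg + Real.pi +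
        (Jf W T z0 ((2 * K1 : ℝ) * Complex.I)).im := by
      unfold Ag Lg
      rw [Complex.add_im, Complex.add_im, Complex.log_im]
      simp [hζdef]
    have e2 : Ag W T z0 ‖ζ‖ = (ζ - (‖ζ‖ : ℂ) * Complex.I).arg + Real.pi +
        (Jf W T z0 (‖ζ‖ * Complex.I)).im := by
      unfold Ag Lg
      rw [Complex.add_im, Complex.add_im, Complex.log_im]
      simp [hζdef]
    refine le_trans ?_ (le_abs_self _)
    rw [e1, e2]
    have a1' := abs_le.1 a1
    have a2' := abs_le.1 a2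
    linarith [b1.1, b1.2, b2.1, b2.2, a1'.1, a1'.2, a2'.1, a2'.2, H3]

end Crest.Agent.R162.U5b
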