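import Mathlib

/-!
Row 162, node U5b: elementary calculus lemmas on `[0,T]`.
-/

set_option autoImplicit false

open Set MeasureTheory Filter Topology

namespace Crest.Agent.R162.U5b

/-- continuous extension from `[0,T]` -/
noncomputable def ext {E : Type*} (T : ℝ) (φ : ℝ → E) : ℝ → E := fun s => φ (max 0 (min s T))

theorem ext_eq {E : Type*} {T : ℝ} {φ : ℝ → E} {s : ℝ} (hs : s ∈ Icc (0:ℝ) T) :
    ext T φ s = φ s := by
  unfold ext
  rw [min_eq_left hs.2, max_eq_right hs.1]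

theorem continuous_ext {E : Type*} [TopologicalSpace E] {T : ℝ} (hT : 0 ≤ T) {φ : ℝ → E}
    (h : ContinuousOn φ (Icc 0 T)) : Continuous (ext T φ) := by
  unfold ext
  have h1 : Continuous fun s : ℝ => max 0 (min s T) := by fun_prop
  have h2 : ∀ s : ℝ, max 0 (min s T) ∈ Icc (0:ℝ) T := fun s =>
    ⟨le_max_left _ _, max_le hT (min_le_right _ _)⟩
  exact h.comp_continuous h1 h2

theorem integral_ext {E : Type*} [NormedAddCommGroup E] [NormedSpace ℝ E] {T : ℝ} {φ : ℝ → E}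
    {t : ℝ} (ht : t ∈ Icc (0:ℝ) T) :
    ∫ s in (0:ℝ)..t, ext T φ s = ∫ s in (0:ℝ)..t, φ s := by
  apply intervalIntegral.integral_congr
  intro s hs
  rw [uIcc_of_le ht.1] at hs
  exact ext_eq ⟨hs.1, hs.2.trans ht.2⟩

theorem hasDerivWithinAt_int {E : Type*} [NormedAddCommGroup E] [NormedSpace ℝ E] [CompleteSpace E]
    {T : ℝ} {φ : ℝ → E} (h : ContinuousOn φ (Icc 0 T)) {t : ℝ} (ht : t ∈ Icc (0:ℝ) T) :
    HasDerivWithinAt (fun u => ∫ s in (0:ℝ)..u, φ s) (φ t) (Icc 0 T) t := by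
  have hT : 0 ≤ T := ht.1.trans ht.2
  have h1 := (continuous_ext hT h).integral_hasStrictDerivAt 0 t
  have h2 : HasDerivWithinAt (fun u => ∫ s in (0:ℝ)..u, ext T φ s) (ext T φ t) (Icc 0 T) t :=
    h1.hasDerivAt.hasDerivWithinAt
  rw [ext_eq ht] at h2
  exact h2.congr (fun u hu => (integral_ext hu).symm) (integral_ext ht).symm

theorem continuousOn_int {E : Type*} [NormedAddCommGroup E] [NormedSpace ℝ E] [CompleteSpace E]
    {T : ℝ} {φ : ℝ → E} (h : ContinuousOn φ (Icc 0 T)) :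
    ContinuousOn (fun u => ∫ s in (0:ℝ)..u, φ s) (Icc 0 T) :=
  fun _ ht => (hasDerivWithinAt_int h ht).continuousWithinAt

theorem le_of_deriv_nonneg {T : ℝ} {F F' : ℝ → ℝ}
    (h : ∀ t ∈ Icc (0:ℝ) T, HasDerivWithinAt F (F' t) (Icc 0 T) t)
    (hn : ∀ t ∈ Icc (0:ℝ) T, 0 ≤ F' t) {a b : ℝ} (ha : a ∈ Icc (0:ℝ) T) (hb : b ∈ Icc (0:ℝ) T)
    (hab : a ≤ b) : F a ≤ F b := by
  have hm : MonotoneOn F (Icc 0 T) := by
    apply monotoneOn_of_deriv_nonneg (convex_Icc 0 T)
    · exact fun t ht => (h t ht).continuousWithinAt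
    · intro t ht
      rw [interior_Icc] at ht
      exact ((h t (Ioo_subset_Icc_self ht)).hasDerivAt
        (Icc_mem_nhds ht.1 ht.2)).differentiableAt.differentiableWithinAt
    · intro t ht
      rw [interior_Icc] at ht
      rw [((h t (Ioo_subset_Icc_self ht)).hasDerivAt (Icc_mem_nhds ht.1 ht.2)).deriv]
      exact hn t (Ioo_subset_Icc_self ht)
  exact hm ha hb hab

theorem eq_of_deriv_zero {T : ℝ} {F : ℝ → ℝ}
    (h : ∀ t ∈ Icc (0:ℝ) T, HasDerivWithinAt F 0 (Icc 0 T) t) {b : ℝ} (hb : b ∈ Icc (0:ℝ) T) :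
    F b = F 0 := by
  have h0 : (0:ℝ) ∈ Icc (0:ℝ) T := ⟨le_rfl, hb.1.trans hb.2⟩
  apply le_antisymm
  · have h2 : ∀ t ∈ Icc (0:ℝ) T, HasDerivWithinAt (-F) ((fun _ => 0) t) (Icc 0 T) t := by
      intro t ht
      have := (h t ht).neg
      rwa [neg_zero] at this
    have := le_of_deriv_nonneg h2 (fun _ _ => le_rfl) h0 hb hb.1
    simp only [Pi.neg_apply] at this
    linarith
  · exact le_of_deriv_nonneg h (fun _ _ => le_rfl) h0 hb hb.1

/-- a continuous logarithm of a differentiable function is differentiable -/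
theorem hasDerivAt_of_exp {L F : ℝ → ℂ} {F' : ℂ} {y : ℝ} (hL : ContinuousAt L y)
    (hF : HasDerivAt F F' y) (he : ∀ᶠ u in 𝓝 y, F u = Complex.exp (L u)) :
    HasDerivAt L (F' / F y) y := by
  have hey : F y = Complex.exp (L y) := he.self_of_nhds
  have hds : ContinuousAt (dslope Complex.exp (L y)) (L y) :=
    continuousAt_dslope_same.2 Complex.differentiable_exp.differentiableAt
  have hD : Tendsto (fun u => dslope Complex.exp (L y) (L u)) (𝓝 y) (𝓝 (F y)) := by
    have := hds.tendsto.comp hL.tendsto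
    rw [dslope_same, Complex.deriv_exp, ← hey] at this
    exact this
  have hFy : F y ≠ 0 := by rw [hey]; exact Complex.exp_ne_zero _
  rw [hasDerivAt_iff_tendsto_slope] at hF ⊢
  have h1 : Tendsto (fun u => slope F y u / dslope Complex.exp (L y) (L u)) (𝓝[≠] y)
      (𝓝 (F' / F y)) := hF.div (hD.mono_left nhdsWithin_le_nhds) hFy
  apply h1.congr'
  have hne : ∀ᶠ u in 𝓝 y, dslope Complex.exp (L y) (L u) ≠ 0 := hD.eventually_ne hFy
  filter_upwards [nhdsWithin_le_nhds he, nhdsWithin_le_nhds hne, self_mem_nhdsWithin] with u hu hu2 hu3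
  have h2 : F u - F y = (L u - L y) * dslope Complex.exp (L y) (L u) := by
    rw [hu, hey]
    have := sub_smul_dslope Complex.exp (L y) (L u)
    rw [smul_eq_mul] at this
    exact this.symm
  rw [slope_def_module, slope_def_module, h2]
  simp only [Complex.real_smul]
  field_simp

end Crest.Agent.R162.U5b
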