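import Crest.Agent.R162.FLDef
import Crest.Agent.R162.U5b0

/-!
Row 162, node U5b: bounds for the orbit of one point in the tube (input H1).
-/

set_option autoImplicit false

open Set MeasureTheory Filter Topology

namespace Crest.Agent.R162.U5b

open Crest.Agent.R162.FL

variable {W : ℝ → ℝ} {z0 : ℂ} {T : ℝ} {g : ℝ → ℂ}

theorem flow_cont (hg : IsFlow W z0 T g) : ContinuousOn g (Icc 0 T) :=
  fun s hs => (hg.deriv s hs).continuousWithinAt

theorem Z_cont (hg : IsFlow W z0 T g) (hW : ContinuousOn W (Icc 0 T)) :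
    ContinuousOn (fun s => g s - (W s : ℂ)) (Icc 0 T) :=
  (flow_cont hg).sub (Complex.continuous_ofReal.comp_continuousOn hW)

theorem Z_im (s : ℝ) : (g s - (W s : ℂ)).im = (g s).im := by simp

theorem Z_ne (hg : IsFlow W z0 T g) {s : ℝ} (hs : s ∈ Icc (0:ℝ) T) : g s - (W s : ℂ) ≠ 0 := by
  intro h
  have h1 := hg.im_pos s hs
  rw [← Z_im (W := W), h] at h1
  simp at h1

theorem Z_norm_pos (hg : IsFlow W z0 T g) {s : ℝ} (hs : s ∈ Icc (0:ℝ) T) :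
    0 < ‖g s - (W s : ℂ)‖ := norm_pos_iff.2 (Z_ne hg hs)

/-- the K-time -/
noncomputable def ath (W : ℝ → ℝ) (g : ℝ → ℂ) (t : ℝ) : ℝ :=
  ∫ s in (0:ℝ)..t, 1 / ‖g s - (W s : ℂ)‖ ^ 2

theorem inv_sq_cont (hg : IsFlow W z0 T g) (hW : ContinuousOn W (Icc 0 T)) :
    ContinuousOn (fun s => 1 / ‖g s - (W s : ℂ)‖ ^ 2) (Icc 0 T) := by
  apply continuousOn_const.div ((Z_cont hg hW).norm.pow 2)
  intro s hs
  exact (pow_pos (Z_norm_pos hg hs) 2).ne'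

theorem inv_cont (hg : IsFlow W z0 T g) (hW : ContinuousOn W (Icc 0 T)) :
    ContinuousOn (fun s => 1 / ‖g s - (W s : ℂ)‖) (Icc 0 T) := by
  apply continuousOn_const.div (Z_cont hg hW).norm
  intro s hs
  exact (Z_norm_pos hg hs).ne'

theorem hasDeriv_ath (hg : IsFlow W z0 T g) (hW : ContinuousOn W (Icc 0 T)) {t : ℝ}
    (ht : t ∈ Icc (0:ℝ) T) :
    HasDerivWithinAt (ath W g) (1 / ‖g t - (W t : ℂ)‖ ^ 2) (Icc 0 T) t :=
  hasDerivWithinAt_int (inv_sq_cont hg hW) ht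

theorem ath_zero : ath W g 0 = 0 := by simp [ath]

theorem ath_nonneg {t : ℝ} (ht : 0 ≤ t) : 0 ≤ ath W g t := by
  unfold ath
  apply intervalIntegral.integral_nonneg ht
  intro s _
  positivity

theorem im_deriv (hg : IsFlow W z0 T g) {t : ℝ} (ht : t ∈ Icc (0:ℝ) T) :
    HasDerivWithinAt (fun s => (g s).im) (-2 * (g t).im * (1 / ‖g t - (W t : ℂ)‖ ^ 2))
      (Icc 0 T) t := by
  have h1 := Complex.imCLM.hasFDerivAt.comp_hasDerivWithinAt t (hg.deriv t ht)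
  have h2 : Complex.imCLM (2 / (g t - (W t : ℂ))) = -2 * (g t).im * (1 / ‖g t - (W t : ℂ)‖ ^ 2) := by
    rw [Complex.imCLM_apply, Complex.div_im, ← Complex.normSq_eq_norm_sq]
    simp
    ring
  rw [h2] at h1
  exact h1

theorem im_eq (hg : IsFlow W z0 T g) (hW : ContinuousOn W (Icc 0 T)) {t : ℝ}
    (ht : t ∈ Icc (0:ℝ) T) : (g t).im = z0.im * Real.exp (-2 * ath W g t) := by
  have h : ∀ t ∈ Icc (0:ℝ) T,
      HasDerivWithinAt (fun s => (g s).im * Real.exp (2 * ath W g s)) 0 (Icc 0 T) t := by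
    intro t ht
    have h1 := im_deriv hg ht
    have h2 := ((hasDeriv_ath hg hW ht).const_mul 2).exp
    have h3 := h1.mul h2
    have h4 : -2 * (g t).im * (1 / ‖g t - (W t : ℂ)‖ ^ 2) * Real.exp (2 * ath W g t) +
        (g t).im * (Real.exp (2 * ath W g t) * (2 * (1 / ‖g t - (W t : ℂ)‖ ^ 2))) = 0 := by ring
    rw [h4] at h3
    exact h3
  have h5 := eq_of_deriv_zero h ht
  simp only [ath_zero, hg.init, mul_zero, Real.exp_zero, mul_one] at h5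
  rw [← h5, mul_assoc, ← Real.exp_add]
  simp

theorem norm_le_im_mul (z : ℂ) (hz : 0 < z.im) :
    ‖z‖ ≤ z.im * Real.exp |Real.arsinh (z.re / z.im)| := by
  have h1 : ‖z‖ = z.im * Real.cosh (Real.arsinh (z.re / z.im)) := by
    have h2 : z.re * z.re + z.im * z.im = z.im ^ 2 * (1 + (z.re / z.im) ^ 2) := by
      field_simp
      ring
    rw [Real.cosh_arsinh, Complex.norm_def, Complex.normSq_apply, h2, Real.sqrt_mul (sq_nonneg _),
      Real.sqrt_sq hz.le]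
  rw [h1]
  apply mul_le_mul_of_nonneg_left _ hz.le
  rw [← Real.cosh_abs, Real.cosh_eq]
  have : Real.exp (-|Real.arsinh (z.re / z.im)|) ≤ Real.exp |Real.arsinh (z.re / z.im)| :=
    Real.exp_le_exp.2 (by linarith [abs_nonneg (Real.arsinh (z.re / z.im))])
  linarith

section H1

variable {X1 : ℝ}

theorem norm_Z_le (hg : IsFlow W z0 T g) (hW : ContinuousOn W (Icc 0 T)) (h0 : z0.im = 1)
    (H1 : ∀ t ∈ Icc (0:ℝ) T,
      |Real.arsinh ((g t - (W t : ℂ)).re / (g t - (W t : ℂ)).im)| ≤ X1 + ath W g t)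
    {t : ℝ} (ht : t ∈ Icc (0:ℝ) T) :
    ‖g t - (W t : ℂ)‖ ≤ Real.exp X1 * Real.exp (-ath W g t) := by
  have h1 := norm_le_im_mul (g t - (W t : ℂ)) (by rw [Z_im]; exact hg.im_pos t ht)
  refine h1.trans ?_
  rw [Z_im, im_eq hg hW ht, h0, one_mul]
  calc Real.exp (-2 * ath W g t) * Real.exp _ ≤
      Real.exp (-2 * ath W g t) * Real.exp (X1 + ath W g t) := by
        apply mul_le_mul_of_nonneg_left _ (Real.exp_pos _).le
        have := H1 t ht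
        rw [Z_im, im_eq hg hW ht, h0, one_mul] at this
        exact Real.exp_le_exp.2 this
    _ = Real.exp X1 * Real.exp (-ath W g t) := by
        rw [← Real.exp_add, ← Real.exp_add]; congr 1; ring

theorem int_inv_le (hg : IsFlow W z0 T g) (hW : ContinuousOn W (Icc 0 T)) (h0 : z0.im = 1)
    (H1 : ∀ t ∈ Icc (0:ℝ) T,
      |Real.arsinh ((g t - (W t : ℂ)).re / (g t - (W t : ℂ)).im)| ≤ X1 + ath W g t)
    {t : ℝ} (ht : t ∈ Icc (0:ℝ) T) :
    ∫ s in (0:ℝ)..t, 1 / ‖g s - (W s : ℂ)‖ ≤ Real.exp X1 * (1 - Real.exp (-ath W g t)) := by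
  have h : ∀ t ∈ Icc (0:ℝ) T, HasDerivWithinAt
      (fun t => Real.exp X1 * (1 - Real.exp (-ath W g t)) - ∫ s in (0:ℝ)..t, 1 / ‖g s - (W s : ℂ)‖)
      (Real.exp X1 * (-(Real.exp (-ath W g t) * (-(1 / ‖g t - (W t : ℂ)‖ ^ 2)))) -
        1 / ‖g t - (W t : ℂ)‖) (Icc 0 T) t := by
    intro t ht
    exact ((((hasDeriv_ath hg hW ht).fun_neg.exp).const_sub 1).const_mul _).sub
      (hasDerivWithinAt_int (inv_cont hg hW) ht)
  have hn : ∀ t ∈ Icc (0:ℝ) T, 0 ≤ Real.exp X1 * (-(Real.exp (-ath W g t) *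
      (-(1 / ‖g t - (W t : ℂ)‖ ^ 2)))) - 1 / ‖g t - (W t : ℂ)‖ := by
    intro t ht
    have hp := Z_norm_pos hg ht
    have h1 := norm_Z_le hg hW h0 H1 ht
    have h2 : 1 / ‖g t - (W t : ℂ)‖ = ‖g t - (W t : ℂ)‖ * (1 / ‖g t - (W t : ℂ)‖ ^ 2) := by
      field_simp
    have h3 : Real.exp X1 * (-(Real.exp (-ath W g t) * (-(1 / ‖g t - (W t : ℂ)‖ ^ 2)))) =
        (Real.exp X1 * Real.exp (-ath W g t)) * (1 / ‖g t - (W t : ℂ)‖ ^ 2) := by ring
    rw [h3, h2, sub_nonneg]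
    exact mul_le_mul_of_nonneg_right h1 (by positivity)
  have h0T : (0:ℝ) ∈ Icc (0:ℝ) T := ⟨le_rfl, ht.1.trans ht.2⟩
  have h6 := le_of_deriv_nonneg h hn h0T ht ht.1
  simp only [ath_zero, intervalIntegral.integral_same] at h6
  simp at h6
  have h7 : ∫ s in (0:ℝ)..t, 1 / ‖g s - (W s : ℂ)‖ = ∫ s in (0:ℝ)..t, ‖g s - (W s : ℂ)‖⁻¹ := by
    simp
  rw [h7]
  exact h6

theorem time_le (hg : IsFlow W z0 T g) (hW : ContinuousOn W (Icc 0 T)) (h0 : z0.im = 1)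
    (H1 : ∀ t ∈ Icc (0:ℝ) T,
      |Real.arsinh ((g t - (W t : ℂ)).re / (g t - (W t : ℂ)).im)| ≤ X1 + ath W g t)
    {t : ℝ} (ht : t ∈ Icc (0:ℝ) T) :
    t ≤ Real.exp X1 ^ 2 / 2 := by
  have h : ∀ t ∈ Icc (0:ℝ) T, HasDerivWithinAt
      (fun t => Real.exp X1 ^ 2 / 2 * (1 - Real.exp (2 * (-ath W g t))) - t)
      (Real.exp X1 ^ 2 / 2 * (-(Real.exp (2 * (-ath W g t)) *
        (2 * (-(1 / ‖g t - (W t : ℂ)‖ ^ 2))))) - 1) (Icc 0 T) t := by
    intro t ht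
    exact (((((hasDeriv_ath hg hW ht).fun_neg.const_mul 2).exp).const_sub 1).const_mul _).sub
      (hasDerivWithinAt_id t _)
  have hn : ∀ t ∈ Icc (0:ℝ) T, 0 ≤ Real.exp X1 ^ 2 / 2 * (-(Real.exp (2 * (-ath W g t)) *
      (2 * (-(1 / ‖g t - (W t : ℂ)‖ ^ 2))))) - 1 := by
    intro t ht
    have hp := Z_norm_pos hg ht
    have h1 := norm_Z_le hg hW h0 H1 ht
    have h2 : (1:ℝ) = ‖g t - (W t : ℂ)‖ ^ 2 * (1 / ‖g t - (W t : ℂ)‖ ^ 2) := by
      field_simp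
    have h3 : Real.exp X1 ^ 2 / 2 * (-(Real.exp (2 * (-ath W g t)) *
        (2 * (-(1 / ‖g t - (W t : ℂ)‖ ^ 2))))) =
        (Real.exp X1 * Real.exp (-ath W g t)) ^ 2 * (1 / ‖g t - (W t : ℂ)‖ ^ 2) := by
      have : Real.exp (2 * (-ath W g t)) = Real.exp (-ath W g t) ^ 2 := by
        rw [← Real.exp_nat_mul]; norm_num
      rw [this]; ring
    rw [h3, sub_nonneg]
    nth_rewrite 1 [h2]
    exact mul_le_mul_of_nonneg_right (pow_le_pow_left₀ hp.le h1 2) (by positivity)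
  have h0T : (0:ℝ) ∈ Icc (0:ℝ) T := ⟨le_rfl, ht.1.trans ht.2⟩
  have h6 := le_of_deriv_nonneg h hn h0T ht ht.1
  simp only [ath_zero] at h6
  simp at h6
  have h8 : 0 < Real.exp (-(2 * ath W g t)) := Real.exp_pos _
  have h9 : 0 < Real.exp X1 ^ 2 / 2 := by positivity
  nlinarith

theorem norm_g_sub_le (hg : IsFlow W z0 T g) (hW : ContinuousOn W (Icc 0 T)) (h0 : z0.im = 1)
    (H1 : ∀ t ∈ Icc (0:ℝ) T,
      |Real.arsinh ((g t - (W t : ℂ)).re / (g t - (W t : ℂ)).im)| ≤ X1 + ath W g t)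
    {t : ℝ} (ht : t ∈ Icc (0:ℝ) T) :
    ‖g t - z0‖ ≤ 2 * Real.exp X1 := by
  have hsub : Icc (0:ℝ) t ⊆ Icc 0 T := Icc_subset_Icc_right ht.2
  have hc : ContinuousOn (fun s => 2 / (g s - (W s : ℂ))) (Icc 0 t) := by
    apply continuousOn_const.div ((Z_cont hg hW).mono hsub)
    intro s hs
    exact Z_ne hg (hsub hs)
  have h1 : ∫ s in (0:ℝ)..t, 2 / (g s - (W s : ℂ)) = g t - g 0 := by
    apply intervalIntegral.integral_eq_sub_of_hasDerivAt_of_le ht.1 ((flow_cont hg).mono hsub)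
    · intro s hs
      have hs' : s ∈ Icc (0:ℝ) T := hsub (Ioo_subset_Icc_self hs)
      exact (hg.deriv s hs').hasDerivAt (Icc_mem_nhds hs.1 (hs.2.trans_le ht.2))
    · exact hc.intervalIntegrable_of_Icc ht.1
  rw [hg.init] at h1
  rw [← h1]
  have h2 : ‖∫ s in (0:ℝ)..t, 2 / (g s - (W s : ℂ))‖ ≤
      ∫ s in (0:ℝ)..t, 2 * (1 / ‖g s - (W s : ℂ)‖) := by
    apply intervalIntegral.norm_integral_le_of_norm_le ht.1
    · refine ae_of_all _ fun s _ => ?_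
      rw [norm_div]; simp [div_eq_mul_inv]
    · apply ContinuousOn.intervalIntegrable_of_Icc ht.1
      exact continuousOn_const.mul ((inv_cont hg hW).mono hsub)
  refine h2.trans ?_
  rw [intervalIntegral.integral_const_mul]
  have h3 := int_inv_le hg hW h0 H1 ht
  have h4 : 0 < Real.exp (-ath W g t) := Real.exp_pos _
  have h5 : 0 < Real.exp X1 := Real.exp_pos _
  nlinarith

theorem norm_z0_le (hg : IsFlow W z0 T g) (hW : ContinuousOn W (Icc 0 T)) (h0 : z0.im = 1)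
    (hT : 0 ≤ T) (hW0 : W 0 = 0)
    (H1 : ∀ t ∈ Icc (0:ℝ) T,
      |Real.arsinh ((g t - (W t : ℂ)).re / (g t - (W t : ℂ)).im)| ≤ X1 + ath W g t) :
    ‖z0‖ ≤ Real.exp X1 := by
  have h1 := norm_Z_le hg hW h0 H1 (t := 0) ⟨le_rfl, hT⟩
  rw [hg.init, hW0, ath_zero] at h1
  simpa using h1

theorem norm_W_le (hg : IsFlow W z0 T g) (hW : ContinuousOn W (Icc 0 T)) (h0 : z0.im = 1)
    (hT : 0 ≤ T) (hW0 : W 0 = 0)
    (H1 : ∀ t ∈ Icc (0:ℝ) T,
      |Real.arsinh ((g t - (W t : ℂ)).re / (g t - (W t : ℂ)).im)| ≤ X1 + ath W g t)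
    {t : ℝ} (ht : t ∈ Icc (0:ℝ) T) :
    |W t| ≤ 4 * Real.exp X1 := by
  have h1 := norm_Z_le hg hW h0 H1 ht
  have h2 := norm_g_sub_le hg hW h0 H1 ht
  have h3 := norm_z0_le hg hW h0 hT hW0 H1
  have h4 : Real.exp (-ath W g t) ≤ 1 := by
    rw [Real.exp_le_one_iff]
    have := ath_nonneg (W := W) (g := g) ht.1
    linarith
  have h5 : (W t : ℂ) = (g t - z0) + z0 - (g t - (W t : ℂ)) := by ring
  have h6 : ‖(W t : ℂ)‖ ≤ ‖g t - z0‖ + ‖z0‖ + ‖g t - (W t : ℂ)‖ := by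
    calc ‖(W t : ℂ)‖ = ‖(g t - z0) + z0 - (g t - (W t : ℂ))‖ := by rw [← h5]
      _ ≤ ‖(g t - z0) + z0‖ + ‖g t - (W t : ℂ)‖ := norm_sub_le _ _
      _ ≤ ‖g t - z0‖ + ‖z0‖ + ‖g t - (W t : ℂ)‖ := by
          have := norm_add_le (g t - z0) z0
          linarith
  rw [Complex.norm_real, Real.norm_eq_abs] at h6
  have h7 : 0 < Real.exp X1 := Real.exp_pos _
  have h8 : Real.exp X1 * Real.exp (-ath W g t) ≤ Real.exp X1 := by nlinarith
  linarith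

end H1

end Crest.Agent.R162.U5b
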