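import Crest.Agent.R162.FLC2
import Crest.Agent.R162.FL1
import Crest.Agent.R162.FL1b
import Crest.Agent.R162.KB1
import Crest.Agent.R162.U5b1

/-!
Row 162, node U5b: the continuous branch of the logarithm of `f_T(iy) - z0`.
-/

set_option autoImplicit false

open Set MeasureTheory Filter Topology

namespace Crest.Agent.R162.U5b

open Crest.Agent.R162.FL Crest.Agent.R162.FLC

variable {W : ℝ → ℝ} {z0 : ℂ} {T : ℝ}

/-- the log-branch -/
noncomputable def Jf (W : ℝ → ℝ) (T : ℝ) (z0 ζ : ℂ) : ℂ :=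
  ∫ r in (0:ℝ)..T, 2 / (Zfl W r (ffl W T ζ) * Zfl W r z0)

theorem contAt_Zfl_ffl (hW : ContinuousOn W (Ici 0)) (hT : 0 ≤ T) {s : ℝ} (hs : s ∈ Icc (0:ℝ) T)
    {ζ : ℂ} (hζ : 0 < ζ.im) : ContinuousAt (fun z => Zfl W s (ffl W T z)) ζ := by
  have h1 : ∀ᶠ z in 𝓝 ζ, ζ.im / 2 < z.im :=
    (Complex.continuous_im.tendsto ζ).eventually (lt_mem_nhds (by linarith))
  have h2 : Tendsto (fun z : ℂ => ‖z - ζ‖ * Real.exp (2 / (ζ.im / 2 * ζ.im) * T)) (𝓝 ζ) (𝓝 0) := by
    have : Continuous fun z : ℂ => ‖z - ζ‖ * Real.exp (2 / (ζ.im / 2 * ζ.im) * T) := by fun_prop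
    have h3 := this.tendsto ζ
    simpa using h3
  unfold ContinuousAt
  rw [tendsto_iff_norm_sub_tendsto_zero]
  apply squeeze_zero' (Eventually.of_forall fun _ => norm_nonneg _) _ h2
  filter_upwards [h1] with z hz
  have hz0 : 0 < z.im := by linarith
  have h4 : Zfl W s (ffl W T z) - Zfl W s (ffl W T ζ) = gfl W s (ffl W T z) - gfl W s (ffl W T ζ) := by
    simp [Zfl]
  rw [h4]
  refine (norm_gfl_ffl_sub_gfl_ffl_le hW hT hz0 hζ hs).trans ?_
  apply mul_le_mul_of_nonneg_left _ (norm_nonneg _)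
  apply Real.exp_le_exp.2
  apply mul_le_mul_of_nonneg_right _ hT
  apply div_le_div_of_nonneg_left (by norm_num) (by positivity)
  exact mul_le_mul_of_nonneg_right hz.le hζ.le

theorem norm_ge_im {z : ℂ} : z.im ≤ ‖z‖ := (le_abs_self _).trans (Complex.abs_im_le_norm z)

theorem contAt_Jf (hW : ContinuousOn W (Ici 0)) (h0 : Alive W z0 T) {ζ : ℂ} (hζ : 0 < ζ.im) :
    ContinuousAt (Jf W T z0) ζ := by
  have hT := h0.1
  unfold Jf
  have hlow : ∀ r ∈ Icc (0:ℝ) T, (gfl W T z0).im ≤ ‖Zfl W r z0‖ := fun r hr => by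
    have h1 := im_anti h0 hr.1 hr.2
    have h2 := norm_ge_im (z := Zfl W r z0)
    rw [FL.Zfl_im] at h2
    linarith
  have hp : 0 < (gfl W T z0).im := gfl_im_pos h0
  apply intervalIntegral.continuousAt_of_dominated_interval
    (bound := fun _ => 2 / (ζ.im / 2 * (gfl W T z0).im))
  · have h1 : ∀ᶠ z in 𝓝 ζ, 0 < z.im :=
      (Complex.continuous_im.tendsto ζ).eventually (lt_mem_nhds hζ)
    filter_upwards [h1] with z hz
    have hc : ContinuousOn (fun r => 2 / (Zfl W r (ffl W T z) * Zfl W r z0)) (Icc 0 T) := by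
      apply continuousOn_const.div
      · exact (continuousOn_Zfl hW (ffl_alive hW hT hz)).mul (continuousOn_Zfl hW h0)
      · intro r hr
        exact mul_ne_zero (FL.Zfl_ne_zero ((ffl_alive hW hT hz).mono hr.1 hr.2))
          (FL.Zfl_ne_zero (h0.mono hr.1 hr.2))
    rw [uIoc_of_le hT]
    exact (hc.mono Ioc_subset_Icc_self).aestronglyMeasurable measurableSet_Ioc
  · have h1 : ∀ᶠ z in 𝓝 ζ, ζ.im / 2 < z.im :=
      (Complex.continuous_im.tendsto ζ).eventually (lt_mem_nhds (by linarith))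
    filter_upwards [h1] with z hz
    refine ae_of_all _ fun r hr => ?_
    rw [uIoc_of_le hT] at hr
    have hr' : r ∈ Icc (0:ℝ) T := Ioc_subset_Icc_self hr
    have hz0 : 0 < z.im := by linarith
    rw [norm_div, norm_mul, Complex.norm_ofNat]
    have h3 := im_le_Zfl_ffl hW hT hz0 hr'
    have h4 := norm_ge_im (z := Zfl W r (ffl W T z))
    apply div_le_div_of_nonneg_left (by norm_num) (by positivity)
    apply mul_le_mul (by linarith) (hlow r hr') hp.le (norm_nonneg _)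
  · exact intervalIntegrable_const
  · refine ae_of_all _ fun r hr => ?_
    rw [uIoc_of_le hT] at hr
    have hr' : r ∈ Icc (0:ℝ) T := Ioc_subset_Icc_self hr
    apply continuousAt_const.div
    · exact (contAt_Zfl_ffl hW hT hr' hζ).mul continuousAt_const
    · exact mul_ne_zero (FL.Zfl_ne_zero ((ffl_alive hW hT hζ).mono hr'.1 hr'.2))
        (FL.Zfl_ne_zero (h0.mono hr'.1 hr'.2))

/-- the basic identity -/
theorem ffl_sub_z0 (hW : ContinuousOn W (Ici 0)) (h0 : Alive W z0 T) {ζ : ℂ} (hζ : 0 < ζ.im) :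
    ffl W T ζ - z0 = (ζ - Zfl W T z0) * Complex.exp (Jf W T z0 ζ) := by
  have hT := h0.1
  have h1 := ffl_sub hW hT hζ (FL.Zfl_im_pos h0)
  rw [ffl_Zfl hW h0] at h1
  exact h1

/-- norm bound for `J` -/
theorem norm_Jf_le (hW : ContinuousOn W (Ici 0)) (h0 : Alive W z0 T) {ζ : ℂ} (hζ : 0 < ζ.im) :
    ‖Jf W T z0 ζ‖ ≤ 2 / ζ.im * ∫ s in (0:ℝ)..T, 1 / ‖gfl W s z0 - (W s : ℂ)‖ := by
  have hT := h0.1
  have hg := h0.isFlow
  have hWc : ContinuousOn W (Icc 0 T) := hW.mono Icc_subset_Ici_self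
  unfold Jf
  rw [← intervalIntegral.integral_const_mul]
  apply intervalIntegral.norm_integral_le_of_norm_le hT
  · refine ae_of_all _ fun r hr => ?_
    have hr' : r ∈ Icc (0:ℝ) T := Ioc_subset_Icc_self hr
    have h3 := im_le_Zfl_ffl hW hT hζ hr'
    have h4 := norm_ge_im (z := Zfl W r (ffl W T ζ))
    have h5 : 0 < ‖Zfl W r z0‖ := norm_pos_iff.2 (FL.Zfl_ne_zero (h0.mono hr'.1 hr'.2))
    have h6 : Zfl W r z0 = gfl W r z0 - (W r : ℂ) := rfl
    rw [norm_div, norm_mul, Complex.norm_ofNat, ← h6]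
    rw [div_mul_div_comm, mul_one]
    apply div_le_div_of_nonneg_left (by norm_num) (by positivity)
    exact mul_le_mul_of_nonneg_right (h3.trans h4) h5.le
  · exact (continuousOn_const.mul (inv_cont hg hWc)).intervalIntegrable_of_Icc hT

/-- a priori bound for the preimage of a point -/
theorem norm_start_le {g : ℝ → ℂ} {p : ℂ} (hT : 0 ≤ T) (hg : IsFlow W p T g) {m r : ℝ} (hm : 0 < m)
    (hr : 0 ≤ r) (hWm : ∀ t ∈ Icc (0:ℝ) T, |W t| ≤ m) (hgT : ‖g T‖ ≤ r) :
    ‖p‖ ≤ Real.sqrt ((r + 2 * m) ^ 2 + 9 * T) := by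
  set M0 : ℝ := (r + 2 * m) ^ 2 with hM0
  have hM0p : 0 < M0 := by positivity
  have key : ∀ s ∈ Icc (0:ℝ) T, ‖g (T - s)‖ ≤ Real.sqrt (M0 + 9 * s) := by
    have hder : ∀ s ∈ Icc (0:ℝ) T, HasDerivWithinAt (fun s => g (T - s))
        (-(2 / (g (T - s) - (W (T - s) : ℂ)))) (Icc 0 T) s := by
      intro s hs
      have h1 : T - s ∈ Icc (0:ℝ) T := ⟨by linarith [hs.2], by linarith [hs.1]⟩
      have h2 : HasDerivWithinAt (fun s : ℝ => T - s) (-1) (Icc 0 T) s :=
        ((hasDerivAt_id s).const_sub T).hasDerivWithinAt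
      have h3 : MapsTo (fun s : ℝ => T - s) (Icc 0 T) (Icc 0 T) := fun x hx =>
        ⟨by linarith [hx.2], by linarith [hx.1]⟩
      have h4 := (hg.deriv (T - s) h1).scomp s h2 h3
      rw [neg_one_smul] at h4
      exact h4
    intro s hs
    have hBpos : ∀ x, 0 ≤ x → 0 < M0 + 9 * x := fun x hx => by linarith
    refine image_norm_le_of_norm_deriv_right_lt_deriv_boundary'
      (f := fun s => g (T - s)) (f' := fun s => -(2 / (g (T - s) - (W (T - s) : ℂ))))
      (a := 0) (b := T) (B := fun s => Real.sqrt (M0 + 9 * s))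
      (B' := fun s => 9 / (2 * Real.sqrt (M0 + 9 * s))) ?_ ?_ ?_ ?_ ?_ ?_ hs
    · exact fun s hs => (hder s hs).continuousWithinAt
    · intro s hs
      exact hasDerivWithinAt_Ici_of_Icc hs (hder s (Ico_subset_Icc_self hs))
    · simp only [sub_zero, mul_zero, add_zero]
      rw [hM0, Real.sqrt_sq (by positivity)]
      linarith
    · fun_prop
    · intro x hx
      have h1 : HasDerivAt (fun s : ℝ => M0 + 9 * s) (9 * 1) x :=
        ((hasDerivAt_id x).const_mul 9).const_add M0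
      have h2 := h1.sqrt (hBpos x hx.1).ne'
      rw [mul_one] at h2
      exact h2.hasDerivWithinAt
    · intro x hx he
      have h1 : T - x ∈ Icc (0:ℝ) T := ⟨by linarith [hx.2.le], by linarith [hx.1]⟩
      have hS : 2 * m ≤ Real.sqrt (M0 + 9 * x) := by
        apply Real.le_sqrt_of_sq_le
        have := hx.1
        nlinarith
      have hSp : 0 < Real.sqrt (M0 + 9 * x) := by linarith
      have h2 : Real.sqrt (M0 + 9 * x) / 2 ≤ ‖g (T - x) - (W (T - x) : ℂ)‖ := by
        have h3 := norm_sub_norm_le (g (T - x)) (W (T - x) : ℂ)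
        rw [he, Complex.norm_real, Real.norm_eq_abs] at h3
        have := hWm _ h1
        linarith
      rw [norm_neg, norm_div, Complex.norm_ofNat]
      rw [div_lt_div_iff₀ (by linarith) (by positivity)]
      nlinarith
  have := key T ⟨hT, le_rfl⟩
  rw [sub_self, hg.init] at this
  exact this

end Crest.Agent.R162.U5b
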