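import Crest.Agent.R162.U5b2
import Crest.Agent.R162.U5a

/-!
Row 162, node U5b: assembled statement (from H1..H5 of U5a to the hypotheses of U5c).
-/

set_option autoImplicit false

open Set MeasureTheory Filter Topology

namespace Crest.Agent.R162.U5b

open Crest.Agent.R162.FL Crest.Agent.R162.FLC Crest.Agent.R162.U5a

/-- the statement of KB5 for a fixed `M` -/
def KB5Stmt (M C : ℝ) : Prop :=
  ∀ f : ℂ → ℂ, DifferentiableOn ℂ f {z : ℂ | 0 < z.im} → Set.InjOn f {z : ℂ | 0 < z.im} →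
    ∀ z0 : ℂ, 0 < z0.im → ∀ Φ : ℂ → ℂ, ContinuousOn Φ {z : ℂ | 0 < z.im} →
      (∀ z : ℂ, 0 < z.im → f z - f z0 = (z - z0) * Complex.exp (Φ z)) →
      ∀ z : ℂ, 0 < z.im → ‖z - z0‖ ^ 2 ≤ M * (z.im * z0.im) → ‖Φ z - Φ z0‖ ≤ C

variable {W : ℝ → ℝ} {z0 : ℂ} {T : ℝ}

theorem clk_eq (t : ℝ) : clk (fun s => Zfl W s z0) t = ath W (fun s => gfl W s z0) t := by
  unfold clk ath
  congr 1
  funext s
  rw [one_div]
  rfl

theorem im_two_div_sq (Z : ℂ) (hZ : Z ≠ 0) :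
    (2 / Z ^ 2).re - 2 * (‖Z‖ ^ 2)⁻¹ = -(4 * Z.im ^ 2 / ‖Z‖ ^ 4) := by
  have h1 : (‖Z‖ ^ 2 : ℝ) = Z.re ^ 2 + Z.im ^ 2 := by
    rw [← Complex.normSq_eq_norm_sq, Complex.normSq_apply]; ring
  have h4 : (‖Z‖ ^ 4 : ℝ) = (Z.re ^ 2 + Z.im ^ 2) ^ 2 := by rw [← h1]; ring
  have hp : 0 < Z.re ^ 2 + Z.im ^ 2 := by
    rw [← h1]; have := norm_pos_iff.2 hZ; positivity
  rw [h1, h4, Complex.div_re]
  have h5 : Complex.normSq (Z ^ 2) = (Z.re ^ 2 + Z.im ^ 2) ^ 2 := by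
    rw [map_pow, Complex.normSq_apply]; ring
  rw [h5]
  have h6 : (Z ^ 2).re = Z.re ^ 2 - Z.im ^ 2 := by rw [sq, Complex.mul_re]; ring
  have h7 : (2:ℂ).re = 2 := rfl
  have h8 : (2:ℂ).im = 0 := rfl
  rw [h6, h7, h8]
  field_simp
  ring

/-- `Υ_T(z0) ≥ e^{-C2}` -/
theorem ups_ge (hW : ContinuousOn W (Ici 0)) (h0 : Alive W z0 T) (him : z0.im = 1) {C2 : ℝ}
    (H2 : ∫ s in (0:ℝ)..T, 4 * (Zfl W s z0).im ^ 2 / ‖Zfl W s z0‖ ^ 4 ≤ C2) :
    Real.exp (-C2) ≤ Crest.Agent.R162.KB1.ups (ffl W T) (Zfl W T z0) := by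
  have hT := h0.1
  have hg := h0.isFlow
  have hWc : ContinuousOn W (Icc 0 T) := hW.mono Icc_subset_Ici_self
  have hζ := FL.Zfl_im_pos h0
  have e1 : (Zfl W T z0).im = Real.exp (-2 * ath W (fun s => gfl W s z0) T) := by
    rw [FL.Zfl_im]
    have := im_eq hg hWc (t := T) ⟨hT, le_rfl⟩
    rw [him, one_mul] at this
    exact this
  have hZc := continuousOn_Zfl hW h0
  have hne : ∀ r ∈ Icc (0:ℝ) T, Zfl W r z0 ≠ 0 := fun r hr => FL.Zfl_ne_zero (h0.mono hr.1 hr.2)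
  have hc1 : ContinuousOn (fun r => 2 / (Zfl W r z0) ^ 2) (Icc 0 T) :=
    continuousOn_const.div (hZc.pow 2) fun r hr => pow_ne_zero _ (hne r hr)
  have hc2 : ContinuousOn (fun r => 2 * (‖Zfl W r z0‖ ^ 2)⁻¹) (Icc 0 T) :=
    continuousOn_const.mul ((hZc.norm.pow 2).inv₀ fun r hr =>
      pow_ne_zero _ (norm_ne_zero_iff.2 (hne r hr)))
  have e2 : (∫ r in (0:ℝ)..T, 2 / (Zfl W r z0) ^ 2).re =
      ∫ r in (0:ℝ)..T, (2 / (Zfl W r z0) ^ 2).re := by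
    have := Complex.reCLM.intervalIntegral_comp_comm (hc1.intervalIntegrable_of_Icc (μ := volume) hT)
    simpa using this.symm
  have e3 : 2 * ath W (fun s => gfl W s z0) T = ∫ r in (0:ℝ)..T, 2 * (‖Zfl W r z0‖ ^ 2)⁻¹ := by
    rw [intervalIntegral.integral_const_mul]
    congr 1
    unfold ath
    congr 1
    funext s
    rw [one_div]
    rfl
  have hc1r : ContinuousOn (fun r => (2 / (Zfl W r z0) ^ 2).re) (Icc 0 T) :=
    Complex.continuous_re.comp_continuousOn hc1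
  have e4 : (∫ r in (0:ℝ)..T, 2 / (Zfl W r z0) ^ 2).re - 2 * ath W (fun s => gfl W s z0) T =
      -∫ s in (0:ℝ)..T, 4 * (Zfl W s z0).im ^ 2 / ‖Zfl W s z0‖ ^ 4 := by
    rw [e2, e3, ← intervalIntegral.integral_sub (hc1r.intervalIntegrable_of_Icc hT)
      (hc2.intervalIntegrable_of_Icc hT), ← intervalIntegral.integral_neg]
    apply intervalIntegral.integral_congr
    intro r hr
    rw [uIcc_of_le hT] at hr
    exact im_two_div_sq _ (hne r hr)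
  unfold Crest.Agent.R162.KB1.ups
  rw [deriv_ffl hW hT hζ, ffl_Zfl hW h0, Complex.norm_exp, e1, ← Real.exp_add]
  apply Real.exp_le_exp.2
  linarith

theorem phd_ge {ζ : ℂ} (hζ : 0 < ζ.im) (hre : ζ.im ≤ ζ.re) {y : ℝ} (hy : 0 < y) :
    1 / 3 ≤ Crest.Agent.R162.KB1.phd ζ (y * Complex.I) := by
  unfold Crest.Agent.R162.KB1.phd
  set w : ℂ := y * Complex.I with hw
  have hwre : w.re = 0 := by simp [hw]
  have hwim : w.im = y := by simp [hw]
  have hd : 0 < ‖w - (starRingEnd ℂ) ζ‖ := by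
    apply norm_pos_iff.2
    intro h
    have := congrArg Complex.im h
    rw [Complex.sub_im, Complex.conj_im, hwim] at this
    simp at this
    linarith
  rw [le_div_iff₀ hd]
  have hn : 0 ≤ ‖w - ζ‖ := norm_nonneg _
  apply le_of_sq_le_sq _ hn
  rw [mul_pow, ← Complex.normSq_eq_norm_sq, ← Complex.normSq_eq_norm_sq]
  simp only [Complex.normSq_apply, Complex.sub_re, Complex.sub_im, Complex.conj_re,
    Complex.conj_im, hwre, hwim]
  nlinarith [sq_nonneg (y - ζ.im), sq_nonneg (y - ζ.re), mul_pos hy hζ,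
    mul_le_mul_of_nonneg_left hre hζ.le, sq_nonneg (y - 2 * ζ.im), sq_nonneg (ζ.re - ζ.im)]

end Crest.Agent.R162.U5b
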