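import Mathlib
import Crest.Agent.R162.OSDefs

/-!
# Row 162, node U6: greedy selection over a finite family of random times, and charging

Stopping times / events as in `R162/OSDefs.lean` (`OS.IsST`, `OS.EvST`).
-/

set_option autoImplicit false
open MeasureTheory Set
open scoped NNReal ENNReal

namespace Crest.Agent.R162.U6

open Crest.Agent.R162.OS (IsST EvST)

section Order

variable {Ω ι : Type*} [LinearOrder ι]

/-- `j` comes before `i` (order by the time, ties by the fixed order). -/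
def before (T : ι → Ω → ℝ≥0) (ω : Ω) (j i : ι) : Prop :=
  T j ω < T i ω ∨ (T j ω = T i ω ∧ j < i)

variable {T : ι → Ω → ℝ≥0} {ω : Ω} {i j k : ι}

theorem before.le (h : before T ω j i) : T j ω ≤ T i ω := by
  rcases h with h | h
  · exact h.le
  · exact h.1.le

theorem before_irrefl : ¬ before T ω i i := by
  rintro (h | h)
  · exact lt_irrefl _ h
  · exact lt_irrefl _ h.2

theorem before.trans (h1 : before T ω i j) (h2 : before T ω j k) : before T ω i k := by
  rcases h1 with h1 | ⟨h1, h1'⟩ <;> rcases h2 with h2 | ⟨h2, h2'⟩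
  · exact Or.inl (h1.trans h2)
  · exact Or.inl (h2 ▸ h1)
  · exact Or.inl (h1 ▸ h2)
  · exact Or.inr ⟨h1.trans h2, h1'.trans h2'⟩

theorem before_or_before (h : i ≠ j) : before T ω i j ∨ before T ω j i := by
  rcases lt_trichotomy (T i ω) (T j ω) with h1 | h1 | h1
  · exact Or.inl (Or.inl h1)
  · rcases lt_or_gt_of_ne h with h2 | h2
    · exact Or.inl (Or.inr ⟨h1, h2⟩)
    · exact Or.inr (Or.inr ⟨h1.symm, h2⟩)
  · exact Or.inr (Or.inl h1)

end Order

section Selection

variable {Ω ι : Type*} [LinearOrder ι] [Fintype ι]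

/-- `n`-step approximation of the greedy selection. -/
def selN (T : ι → Ω → ℝ≥0) (A : ι → Set Ω) (Bad : ι → ι → Prop) : ℕ → Ω → ι → Prop
  | 0, _, _ => False
  | n + 1, ω, i => ω ∈ A i ∧ ∀ j, before T ω j i → selN T A Bad n ω j → ¬ Bad j i

/-- Greedy selection: `i` is selected iff its trigger `A i` occurs and no previously
(in the order `before`) selected `j` blocks it (`Bad j i`). -/
def sel (T : ι → Ω → ℝ≥0) (A : ι → Set Ω) (Bad : ι → ι → Prop) (ω : Ω) (i : ι) : Prop :=
  selN T A Bad (Fintype.card ι) ω i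

open Classical in
/-- number of indices before `i`. -/
noncomputable def rank (T : ι → Ω → ℝ≥0) (ω : Ω) (i : ι) : ℕ :=
  (Finset.univ.filter (fun j => before T ω j i)).card

variable {T : ι → Ω → ℝ≥0} {A : ι → Set Ω} {Bad : ι → ι → Prop} {ω : Ω} {i j : ι}

theorem rank_lt_rank (h : before T ω j i) : rank T ω j < rank T ω i := by
  classical
  unfold rank
  apply Finset.card_lt_card
  rw [Finset.ssubset_iff_of_subset]
  · exact ⟨j, by simpa using h, by simpa using before_irrefl⟩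
  · intro k hk
    simp only [Finset.mem_filter, Finset.mem_univ, true_and] at hk ⊢
    exact hk.trans h

theorem rank_lt_card : rank T ω i < Fintype.card ι := by
  classical
  unfold rank
  rw [← Finset.card_univ]
  apply Finset.card_lt_card
  rw [Finset.ssubset_iff_of_subset (Finset.subset_univ _)]
  exact ⟨i, Finset.mem_univ _, by simpa using before_irrefl⟩

theorem selN_stab (n : ℕ) : ∀ (m : ℕ) (i : ι), rank T ω i < n → rank T ω i < m →
    (selN T A Bad n ω i ↔ selN T A Bad m ω i) := by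
  induction n with
  | zero => intro m i h; omega
  | succ n ih =>
    intro m i h1 h2
    obtain ⟨m, rfl⟩ : ∃ m', m = m' + 1 := ⟨m - 1, by omega⟩
    simp only [selN]
    refine and_congr Iff.rfl ?_
    refine forall_congr' fun j => ?_
    refine forall_congr' fun hj => ?_
    have := rank_lt_rank hj
    rw [ih m j (by omega) (by omega)]

/-- The defining recursion of the greedy selection. -/
theorem sel_iff : sel T A Bad ω i ↔
    (ω ∈ A i ∧ ∀ j, before T ω j i → sel T A Bad ω j → ¬ Bad j i) := by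
  have h : sel T A Bad ω i ↔ selN T A Bad (Fintype.card ι + 1) ω i :=
    selN_stab _ _ _ rank_lt_card (rank_lt_card.trans (Nat.lt_succ_self _))
  rw [h]
  rfl

theorem sel.trigger (h : sel T A Bad ω i) : ω ∈ A i := (sel_iff.1 h).1

theorem sel.not_bad (hi : sel T A Bad ω i) (hj : sel T A Bad ω j) (h : before T ω j i) :
    ¬ Bad j i := (sel_iff.1 hi).2 j h hj

/-- covering: every triggered index is selected or blocked by a selected one before it. -/
theorem exists_sel (h : ω ∈ A i) :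
    sel T A Bad ω i ∨ ∃ j, before T ω j i ∧ sel T A Bad ω j ∧ Bad j i := by
  by_contra hc
  push Not at hc
  exact hc.1 (sel_iff.2 ⟨h, fun j hj hs => hc.2 j hj hs⟩)

end Selection

section Adapted

variable {Ω ι : Type*} [LinearOrder ι] [Fintype ι] {m : MeasurableSpace Ω}
  {ℱ : Filtration ℝ≥0 m} {T : ι → Ω → ℝ≥0} {A : ι → Set Ω} {Bad : ι → ι → Prop}

/-- `{S ≤ t}`-type sets: comparison of two stopping times before `t`. -/
theorem measurableSet_lt_of_stop {S U : Ω → ℝ≥0}
    (hS : ∀ t, MeasurableSet[ℱ t] {ω | S ω ≤ t}) (hU : ∀ t, MeasurableSet[ℱ t] {ω | U ω ≤ t})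
    (t : ℝ≥0) : MeasurableSet[ℱ t] {ω | S ω < U ω ∧ U ω ≤ t} := by
  -- `min S t`, `min U t` are `ℱ t`-measurable
  have key : ∀ {V : Ω → ℝ≥0}, (∀ t, MeasurableSet[ℱ t] {ω | V ω ≤ t}) →
      Measurable[ℱ t] (fun ω => min (V ω) t) := by
    intro V hV
    refine @measurable_of_Iic ℝ≥0 Ω _ _ _ (ℱ t) _ _ _ _ ?_
    intro a
    by_cases ha : t ≤ a
    · have : (fun ω => min (V ω) t) ⁻¹' Iic a = univ := by
        ext ω; simp [min_le_iff, ha]
      rw [this]; exact MeasurableSet.univ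
    · push Not at ha
      have : (fun ω => min (V ω) t) ⁻¹' Iic a = {ω | V ω ≤ a} := by
        ext ω; simp [min_le_iff, not_le.2 ha]
      rw [this]
      exact ℱ.mono ha.le _ (hV a)
  have h1 := key hS
  have h2 := key hU
  have h3 : {ω | S ω < U ω ∧ U ω ≤ t} =
      {ω | min (S ω) t < min (U ω) t} ∩ {ω | U ω ≤ t} := by
    ext ω
    simp only [mem_ofPred_eq, mem_inter_iff]
    constructor
    · rintro ⟨h, h'⟩
      refine ⟨?_, h'⟩
      rw [min_eq_left h', min_eq_left (h.le.trans h')]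
      exact h
    · rintro ⟨h, h'⟩
      refine ⟨?_, h'⟩
      rw [min_eq_left h'] at h
      by_contra hc
      push Not at hc
      rcases le_total (S ω) t with h4 | h4
      · rw [min_eq_left h4] at h
        exact absurd h (not_lt.2 hc)
      · rw [min_eq_right h4] at h
        exact absurd (h.trans_le h') (lt_irrefl _)
  rw [h3]
  exact (@measurableSet_lt ℝ≥0 Ω _ _ _ (ℱ t) _ _ _ _ _ h1 h2).inter (hU t)

theorem measurableSet_before (hT : ∀ i, IsST ℱ (T i)) (j i : ι)
    (t : ℝ≥0) : MeasurableSet[ℱ t] ({ω | before T ω j i} ∩ {ω | T i ω ≤ t}) := by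
  by_cases hji : j < i
  · have : ({ω | before T ω j i} ∩ {ω | T i ω ≤ t}) =
        ({ω | T i ω ≤ t} ∩ {ω | T j ω ≤ t}) \ {ω | T i ω < T j ω ∧ T j ω ≤ t} := by
      ext ω
      simp only [before, hji, and_true, mem_inter_iff, mem_ofPred_eq, mem_sdiff, not_and, not_le]
      constructor
      · rintro ⟨h, h'⟩
        have hle : T j ω ≤ T i ω := by rcases h with h | h <;> [exact h.le; exact h.le]
        exact ⟨⟨h', hle.trans h'⟩, fun h2 => absurd hle (not_le.2 h2)⟩
      · rintro ⟨⟨h1, h3⟩, h2⟩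
        refine ⟨?_, h1⟩
        have : T j ω ≤ T i ω := by
          by_contra hc
          push Not at hc
          exact absurd (h2 hc) (not_lt.2 h3)
        exact lt_or_eq_of_le this
    rw [this]
    exact ((hT i t).inter (hT j t)).diff (measurableSet_lt_of_stop (hT i) (hT j) t)
  · have : ({ω | before T ω j i} ∩ {ω | T i ω ≤ t}) = {ω | T j ω < T i ω ∧ T i ω ≤ t} := by
      ext ω
      simp [before, hji]
    rw [this]
    exact measurableSet_lt_of_stop (hT j) (hT i) t

theorem measurableSet_selN (hT : ∀ i, IsST ℱ (T i))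
    (hA : ∀ i, EvST ℱ (T i) (A i)) (n : ℕ) :
    ∀ (i : ι) (t : ℝ≥0), MeasurableSet[ℱ t] ({ω | selN T A Bad n ω i} ∩ {ω | T i ω ≤ t}) := by
  induction n with
  | zero =>
    intro i t
    have : ({ω | selN T A Bad 0 ω i} ∩ {ω | T i ω ≤ t}) = ∅ := by
      ext ω; simp [selN]
    rw [this]; exact @MeasurableSet.empty _ (ℱ t)
  | succ n ih =>
    intro i t
    have : ({ω | selN T A Bad (n + 1) ω i} ∩ {ω | T i ω ≤ t}) =
        (A i ∩ {ω | T i ω ≤ t}) \ ⋃ j : {j : ι // Bad j i},
          (({ω | before T ω j i} ∩ {ω | T i ω ≤ t}) ∩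
            ({ω | selN T A Bad n ω j} ∩ {ω | T j ω ≤ t})) := by
      ext ω
      simp only [selN, mem_inter_iff, mem_ofPred_eq, mem_sdiff, mem_iUnion, not_exists]
      constructor
      · rintro ⟨⟨h1, h2⟩, h3⟩
        exact ⟨⟨h1, h3⟩, fun j hj => h2 j hj.1.1 hj.2.1 j.2⟩
      · rintro ⟨⟨h1, h3⟩, h2⟩
        exact ⟨⟨h1, fun j hj hs hb => h2 ⟨j, hb⟩ ⟨⟨hj, h3⟩, hs, hj.le.trans h3⟩⟩, h3⟩
    rw [this]
    refine (hA i t).diff (MeasurableSet.iUnion fun j => ?_)
    exact (measurableSet_before hT j i t).inter (ih j t)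

/-- the event `i is selected` belongs to `F_{T i}`. -/
theorem evST_sel (hT : ∀ i, IsST ℱ (T i)) (hA : ∀ i, EvST ℱ (T i) (A i)) (i : ι) :
    EvST ℱ (T i) {ω | sel T A Bad ω i} :=
  fun t => measurableSet_selN hT hA _ i t

end Adapted

section Charging

variable {Ω ι : Type*} [LinearOrder ι] [Fintype ι] {m : MeasurableSpace Ω}
  {ℱ : Filtration ℝ≥0 m} {T : ι → Ω → ℝ≥0}

/-- Events `D i ∈ F_{T i}`, pairwise disjoint, times bounded by `Tm`: they are glued to one
bounded stopping time. -/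
theorem exists_glued_stop (Tm : ℝ≥0) (hTm : ∀ i ω, T i ω ≤ Tm) (D : ι → Set Ω)
    (hD : ∀ i, EvST ℱ (T i) (D i))
    (hdis : ∀ ω i j, ω ∈ D i → ω ∈ D j → i = j) :
    ∃ τ : Ω → ℝ≥0, IsST ℱ τ ∧ (∀ ω, τ ω ≤ Tm) ∧
      ∀ i, ∀ ω ∈ D i, τ ω = T i ω := by
  classical
  refine ⟨fun ω => if h : ∃ i, ω ∈ D i then T h.choose ω else Tm, ?_, ?_, ?_⟩
  · intro t
    by_cases ht : Tm ≤ t
    · have : {ω | (if h : ∃ i, ω ∈ D i then T h.choose ω else Tm) ≤ t} = univ := by
        ext ω
        simp only [mem_ofPred_eq, mem_univ, iff_true]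
        split_ifs with h
        · exact (hTm _ _).trans ht
        · exact ht
      rw [this]; exact MeasurableSet.univ
    · have : {ω | (if h : ∃ i, ω ∈ D i then T h.choose ω else Tm) ≤ t} =
          ⋃ i, (D i ∩ {ω | T i ω ≤ t}) := by
        ext ω
        simp only [mem_ofPred_eq, mem_iUnion, mem_inter_iff]
        split_ifs with h
        · constructor
          · intro h'
            exact ⟨h.choose, h.choose_spec, h'⟩
          · rintro ⟨i, hi, hi'⟩
            rw [hdis ω _ i h.choose_spec hi]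
            exact hi'
        · constructor
          · intro h'; exact absurd h' ht
          · rintro ⟨i, hi, _⟩; exact absurd ⟨i, hi⟩ h
      rw [this]
      exact MeasurableSet.iUnion fun i => hD i t
  · intro ω
    dsimp only
    split_ifs with h
    · exact hTm _ _
    · exact le_rfl
  · intro i ω hi
    dsimp only
    have h : ∃ i, ω ∈ D i := ⟨i, hi⟩
    rw [dif_pos h, hdis ω _ i h.choose_spec hi]

/-- **Charging inequality for one point.** If `E[G_τ] ≤ g0` for all stopping times `τ ≤ Tm`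
and the events `D i ∈ F_{T i}` are pairwise disjoint then `∑ E[G_{T i}; D i] ≤ g0`. -/
theorem sum_lintegral_le {P : Measure Ω} (Tm : ℝ≥0) (hTm : ∀ i ω, T i ω ≤ Tm) (D : ι → Set Ω)
    (hD : ∀ i, EvST ℱ (T i) (D i))
    (hdis : ∀ ω i j, ω ∈ D i → ω ∈ D j → i = j)
    (G : ℝ≥0 → Ω → ℝ≥0∞) (g0 : ℝ≥0∞)
    (hG : ∀ τ : Ω → ℝ≥0, IsST ℱ τ → (∀ ω, τ ω ≤ Tm) →
      ∫⁻ ω, G (τ ω) ω ∂P ≤ g0) :
    ∑ i, ∫⁻ ω in D i, G (T i ω) ω ∂P ≤ g0 := by
  classical
  obtain ⟨τ, h1, h2, h3⟩ := exists_glued_stop Tm hTm D hD hdis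
  refine le_trans ?_ (hG τ h1 h2)
  have hDm : ∀ i, MeasurableSet (D i) := by
    intro i
    have : D i = D i ∩ {ω | T i ω ≤ Tm} := by
      ext ω; simp [hTm i ω]
    rw [this]
    exact ℱ.le _ _ (hD i Tm)
  calc ∑ i, ∫⁻ ω in D i, G (T i ω) ω ∂P = ∑ i, ∫⁻ ω in D i, G (τ ω) ω ∂P := by
        refine Finset.sum_congr rfl fun i _ => ?_
        refine setLIntegral_congr_fun (hDm i) fun ω hω => ?_
        simp only [h3 i ω hω]
    _ = ∫⁻ ω in ⋃ i ∈ (Finset.univ : Finset ι), D i, G (τ ω) ω ∂P := by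
        rw [lintegral_biUnion_finset]
        · intro i _ j _ hij
          rw [Function.onFun, Set.disjoint_left]
          intro ω hi hj
          exact hij (hdis ω i j hi hj)
        · intro i _; exact hDm i
    _ ≤ ∫⁻ ω, G (τ ω) ω ∂P := setLIntegral_le_lintegral _ _

end Charging

section Main

variable {Ω ι E : Type*} [LinearOrder ι] [Fintype ι] {m : MeasurableSpace Ω}
  {ℱ : Filtration ℝ≥0 m} {T : ι → Ω → ℝ≥0} {A : ι → Set Ω} {Bad : ι → ι → Prop}

theorem measurableSet_of_evST {τ : Ω → ℝ≥0} {D : Set Ω} {Tm : ℝ≥0} (h : EvST ℱ τ D)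
    (hTm : ∀ ω, τ ω ≤ Tm) : MeasurableSet D := by
  have : D = D ∩ {ω | τ ω ≤ Tm} := by
    ext ω; simp [hTm ω]
  rw [this]
  exact ℱ.le _ _ (h Tm)

theorem EvST_inter {τ : Ω → ℝ≥0} {D D' : Set Ω} (h : EvST ℱ τ D) (h' : EvST ℱ τ D') :
    EvST ℱ τ (D ∩ D') := by
  intro t
  have : D ∩ D' ∩ {ω | τ ω ≤ t} = (D ∩ {ω | τ ω ≤ t}) ∩ (D' ∩ {ω | τ ω ≤ t}) := by
    ext ω; simp only [mem_inter_iff]; tauto
  rw [this]
  exact (h t).inter (h' t)

/-- **U6, main inequality.** `c i` = cost of the covering set of `i`; `Ch i x` = event that the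
point `x` is charged by `i`; `G x t ω` = the Green function process of `x`.
Expected cost of the selected covering sets `≤ C ∫ G0`. -/
theorem lintegral_cost_le {P : Measure Ω} [SFinite P] [MeasurableSpace E] {ν : Measure E}
    [SFinite ν]
    (hT : ∀ i, IsST ℱ (T i)) (hA : ∀ i, EvST ℱ (T i) (A i)) (Tm : ℝ≥0) (hTm : ∀ i ω, T i ω ≤ Tm)
    (c : ι → ℝ≥0∞) (C : ℝ≥0∞) (Ch : ι → E → Set Ω) (hCh : ∀ i x, EvST ℱ (T i) (Ch i x))
    (G : E → ℝ≥0 → Ω → ℝ≥0∞) (G0 : E → ℝ≥0∞)
    (hmeas : ∀ i, AEMeasurable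
      (fun p : Ω × E => (Ch i p.2).indicator (fun ω => G p.2 (T i ω) ω) p.1) (P.prod ν))
    (hmass : ∀ i, ∀ ω ∈ A i,
      c i ≤ C * ∫⁻ x, (Ch i x).indicator (fun ω => G x (T i ω) ω) ω ∂ν)
    (honce : ∀ x ω i j, ω ∈ A i → ω ∈ A j → before T ω j i → ω ∈ Ch j x → ω ∈ Ch i x → Bad j i)
    (hG : ∀ x (τ : Ω → ℝ≥0), IsST ℱ τ → (∀ ω, τ ω ≤ Tm) → ∫⁻ ω, G x (τ ω) ω ∂P ≤ G0 x) :
    ∫⁻ ω, ∑ i, {ω | sel T A Bad ω i}.indicator (fun _ => c i) ω ∂P ≤ C * ∫⁻ x, G0 x ∂ν := by
  classical
  have hsm : ∀ i, MeasurableSet {ω | sel T A Bad ω i} := fun i =>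
    measurableSet_of_evST (evST_sel hT hA i) (hTm i)
  -- joint measurability of the restricted charge
  have hm2 : ∀ i, AEMeasurable (fun p : Ω × E =>
      {ω | sel T A Bad ω i}.indicator (fun ω => (Ch i p.2).indicator
        (fun ω => G p.2 (T i ω) ω) ω) p.1) (P.prod ν) := by
    intro i
    have h1 : MeasurableSet {p : Ω × E | sel T A Bad p.1 i} := measurable_fst (hsm i)
    have h2 := (hmeas i).indicator h1
    refine h2.congr (Filter.Eventually.of_forall fun p => ?_)
    simp only [indicator, mem_ofPred_eq]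
  have hD : ∀ x, ∀ i, EvST ℱ (T i) ({ω | sel T A Bad ω i} ∩ Ch i x) := fun x i =>
    EvST_inter (evST_sel hT hA i) (hCh i x)
  have hdis : ∀ x ω i j, ω ∈ {ω | sel T A Bad ω i} ∩ Ch i x →
      ω ∈ {ω | sel T A Bad ω j} ∩ Ch j x → i = j := by
    intro x ω i j hi hj
    by_contra hne
    have hi1 : sel T A Bad ω i := hi.1
    have hj1 : sel T A Bad ω j := hj.1
    rcases before_or_before (T := T) (ω := ω) hne with h | h
    · exact hj1.not_bad hi1 h (honce x ω j i hj1.trigger hi1.trigger h hi.2 hj.2)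
    · exact hi1.not_bad hj1 h (honce x ω i j hi1.trigger hj1.trigger h hj.2 hi.2)
  calc ∫⁻ ω, ∑ i, {ω | sel T A Bad ω i}.indicator (fun _ => c i) ω ∂P
      = ∑ i, ∫⁻ ω, {ω | sel T A Bad ω i}.indicator (fun _ => c i) ω ∂P := by
        rw [lintegral_finsetSum]
        intro i _
        exact measurable_const.indicator (hsm i)
    _ ≤ ∑ i, ∫⁻ ω, C * ∫⁻ x, {ω | sel T A Bad ω i}.indicator (fun ω => (Ch i x).indicator
          (fun ω => G x (T i ω) ω) ω) ω ∂ν ∂P := by
        refine Finset.sum_le_sum fun i _ => lintegral_mono fun ω => ?_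
        by_cases h : sel T A Bad ω i
        · have h' : ω ∈ {ω | sel T A Bad ω i} := h
          simp only [indicator_of_mem h']
          exact hmass i ω h.trigger
        · have h' : ω ∉ {ω | sel T A Bad ω i} := h
          simp only [indicator_of_notMem h']
          exact zero_le
    _ = ∑ i, C * ∫⁻ ω, ∫⁻ x, {ω | sel T A Bad ω i}.indicator (fun ω => (Ch i x).indicator
          (fun ω => G x (T i ω) ω) ω) ω ∂ν ∂P := by
        refine Finset.sum_congr rfl fun i _ => ?_
        rw [lintegral_const_mul'']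
        exact (hm2 i).lintegral_prod_right'
    _ = ∑ i, C * ∫⁻ x, ∫⁻ ω, {ω | sel T A Bad ω i}.indicator (fun ω => (Ch i x).indicator
          (fun ω => G x (T i ω) ω) ω) ω ∂P ∂ν := by
        refine Finset.sum_congr rfl fun i _ => ?_
        rw [lintegral_lintegral_swap (hm2 i)]
    _ = C * ∫⁻ x, ∑ i, ∫⁻ ω, {ω | sel T A Bad ω i}.indicator (fun ω => (Ch i x).indicator
          (fun ω => G x (T i ω) ω) ω) ω ∂P ∂ν := by
        rw [← Finset.mul_sum, lintegral_finsetSum']
        intro i _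
        exact ((hm2 i).prod_swap).lintegral_prod_right'
    _ ≤ C * ∫⁻ x, G0 x ∂ν := by
        gcongr with x
        refine le_trans (le_of_eq ?_) (sum_lintegral_le (P := P) Tm hTm
          (fun i => {ω | sel T A Bad ω i} ∩ Ch i x) (hD x) (hdis x) (G x) (G0 x) (hG x))
        refine Finset.sum_congr rfl fun i _ => ?_
        rw [← lintegral_indicator (measurableSet_of_evST (hD x i) (hTm i))]
        refine lintegral_congr fun ω => ?_
        rw [← indicator_indicator]

end Main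

section Geometry

variable {Ω ι : Type*} [LinearOrder ι] [Fintype ι]
  {T : ι → Ω → ℝ≥0} {A : ι → Set Ω} {ω : Ω}

/-- blocking relation: the centre of `i` lies in the ball `10 C6 r_j` of `j`. -/
def BadRel (w : ι → ℂ) (r : ι → ℝ) (C6 : ℝ) (j i : ι) : Prop :=
  dist (w i) (w j) < 10 * C6 * r j

/-- Covering property: a small ball around a triggered centre is covered. -/
theorem exists_cover {w : ι → ℂ} {r : ι → ℝ} {C6 ρ : ℝ} (hC6 : 0 ≤ C6) (hr : ∀ j, 0 ≤ r j)
    (hρ : ∀ j, ρ ≤ C6 * r j) {i : ι} (hi : ω ∈ A i) :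
    ∃ j, sel T A (BadRel w r C6) ω j ∧
      Metric.closedBall (w i) ρ ⊆ Metric.closedBall (w j) (11 * C6 * r j) := by
  rcases exists_sel (T := T) (Bad := BadRel w r C6) hi with h | ⟨j, _, hs, hb⟩
  · refine ⟨i, h, Metric.closedBall_subset_closedBall ((hρ i).trans ?_)⟩
    have := mul_nonneg hC6 (hr i)
    linarith
  · refine ⟨j, hs, ?_⟩
    intro z hz
    have h1 : dist z (w i) ≤ ρ := hz
    have h2 : dist (w i) (w j) < 10 * C6 * r j := hb
    have h3 := hρ j
    have h4 : dist z (w j) ≤ dist z (w i) + dist (w i) (w j) := dist_triangle _ _ _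
    rw [Metric.mem_closedBall]
    linarith

omit [LinearOrder ι] [Fintype ι] in
/-- A point is charged at most once (deterministic part). `uj`, `ui` = `Ups` of the point at the
charging times of `j` (earlier) and `i` (later). -/
theorem badRel_of_charged {w : ι → ℂ} {r : ι → ℝ} {C6 C7 c5 Λ : ℝ} {x : ℂ} {i j : ι} {ui uj : ℝ}
    (hC6 : 0 < C6) (hc5 : 0 ≤ c5) (hr : 0 < r j)
    (hxj : dist x (w j) ≤ C6 * r j) (hxi : dist x (w i) ≤ C6 * r i)
    (hanti : ui ≤ uj) (huj : uj ≤ C7 * r j) (hui : c5 * r i ≤ ui)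
    (hlac : r j < r i → Λ * r j ≤ r i) (hΛ : C7 < c5 * Λ) :
    BadRel w r C6 j i := by
  unfold BadRel
  by_contra hc
  push Not at hc
  have h1 : dist (w i) (w j) ≤ dist x (w i) + dist x (w j) := by
    rw [dist_comm x (w i)]; exact dist_triangle _ _ _
  have h2 : 9 * r j ≤ r i := by
    have : 10 * C6 * r j ≤ C6 * r i + C6 * r j := by linarith
    have h3 : C6 * (9 * r j) ≤ C6 * r i := by linarith
    exact le_of_mul_le_mul_left h3 hC6
  have h3 : Λ * r j ≤ r i := hlac (by linarith)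
  have h4 : c5 * (Λ * r j) ≤ c5 * r i := mul_le_mul_of_nonneg_left h3 hc5
  have h5 : C7 * r j < c5 * Λ * r j := mul_lt_mul_of_pos_right hΛ hr
  nlinarith

end Geometry

end Crest.Agent.R162.U6
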