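import Mathlib

/-!
Row 162 (S0243), node U6: greedy selection (deterministic + measurability) and the charging theorem.
-/

set_option autoImplicit false

open MeasureTheory Set
open scoped NNReal ENNReal

namespace Crest.Agent.R162.U6S

section Det

variable {ι β : Type*} [Fintype ι] [LinearOrder ι] [LinearOrder β]

/-- `q` strictly precedes `p` in the (time, index) order -/
def Prec (T : ι → WithTop β) (q p : ι) : Prop := T q < T p ∨ (T q = T p ∧ q < p)

/-- `n`-step approximation of the greedy selection -/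
def SelN (T : ι → WithTop β) (N : ι → ι → Prop) : ℕ → ι → Prop
  | 0, _ => False
  | n + 1, p => T p ≠ ⊤ ∧ ∀ q, Prec T q p → SelN T N n q → ¬ N q p

/-- `p` is selected: it has triggered and it is not near a previously selected pair. -/
def Sel (T : ι → WithTop β) (N : ι → ι → Prop) (p : ι) : Prop := SelN T N (Fintype.card ι) p

omit [Fintype ι] in
theorem Prec.trans {T : ι → WithTop β} {a b c : ι} (h1 : Prec T a b) (h2 : Prec T b c) :
    Prec T a c := by
  rcases h1 with h1 | ⟨h1, h1'⟩ <;> rcases h2 with h2 | ⟨h2, h2'⟩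
  · exact Or.inl (h1.trans h2)
  · exact Or.inl (h2 ▸ h1)
  · exact Or.inl (h1 ▸ h2)
  · exact Or.inr ⟨h1.trans h2, h1'.trans h2'⟩

omit [Fintype ι] in
theorem Prec.irrefl {T : ι → WithTop β} {a : ι} : ¬ Prec T a a := by
  rintro (h | ⟨_, h⟩)
  · exact lt_irrefl _ h
  · exact lt_irrefl _ h

omit [Fintype ι] in
theorem Prec.trichotomy {T : ι → WithTop β} {a b : ι} (h : a ≠ b) : Prec T a b ∨ Prec T b a := by
  rcases lt_trichotomy (T a) (T b) with h1 | h1 | h1
  · exact Or.inl (Or.inl h1)
  · rcases lt_or_gt_of_ne h with h2 | h2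
    · exact Or.inl (Or.inr ⟨h1, h2⟩)
    · exact Or.inr (Or.inr ⟨h1.symm, h2⟩)
  · exact Or.inr (Or.inl h1)

omit [Fintype ι] in
theorem Prec.le {T : ι → WithTop β} {a b : ι} (h : Prec T a b) : T a ≤ T b := by
  rcases h with h | ⟨h, _⟩
  · exact h.le
  · exact h.le

open Classical in
/-- number of predecessors -/
noncomputable def rk (T : ι → WithTop β) (p : ι) : ℕ :=
  (Finset.univ.filter (fun q => Prec T q p)).card

theorem rk_lt {T : ι → WithTop β} {q p : ι} (h : Prec T q p) : rk T q < rk T p := by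
  classical
  unfold rk
  apply Finset.card_lt_card
  rw [Finset.ssubset_iff_of_subset]
  · exact ⟨q, by simp [h], by simp [Prec.irrefl]⟩
  · intro s hs
    simp only [Finset.mem_filter, Finset.mem_univ, true_and] at hs ⊢
    exact hs.trans h

theorem rk_lt_card (T : ι → WithTop β) (p : ι) : rk T p < Fintype.card ι := by
  classical
  unfold rk
  rw [← Finset.card_univ]
  apply Finset.card_lt_card
  rw [Finset.ssubset_iff_of_subset (Finset.subset_univ _)]
  exact ⟨p, Finset.mem_univ _, by simp [Prec.irrefl]⟩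

theorem selN_stable (T : ι → WithTop β) (N : ι → ι → Prop) :
    ∀ (k : ℕ) (p : ι), rk T p < k → ∀ n m : ℕ, k ≤ n → k ≤ m →
      (SelN T N n p ↔ SelN T N m p) := by
  intro k
  induction k with
  | zero => intro p hp; omega
  | succ k ih =>
    intro p hp n m hn hm
    obtain ⟨n', rfl⟩ : ∃ n', n = n' + 1 := ⟨n - 1, by omega⟩
    obtain ⟨m', rfl⟩ : ∃ m', m = m' + 1 := ⟨m - 1, by omega⟩
    simp only [SelN]
    refine and_congr_right fun _ => forall_congr' fun q => ?_
    refine imp_congr_right fun hq => ?_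
    have hk : rk T q < k := by have := rk_lt hq; omega
    exact imp_congr_left (ih q hk n' m' (by omega) (by omega))

/-- the defining equation of the greedy selection -/
theorem sel_iff (T : ι → WithTop β) (N : ι → ι → Prop) (p : ι) :
    Sel T N p ↔ T p ≠ ⊤ ∧ ∀ q, Prec T q p → Sel T N q → ¬ N q p := by
  have h := selN_stable T N (Fintype.card ι) p (rk_lt_card T p) (Fintype.card ι)
    (Fintype.card ι + 1) le_rfl (Nat.le_succ _)
  unfold Sel
  rw [h]
  rfl

theorem Sel.ne_top {T : ι → WithTop β} {N : ι → ι → Prop} {p : ι} (h : Sel T N p) : T p ≠ ⊤ :=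
  ((sel_iff T N p).1 h).1

/-- (A1) every triggered pair is near a selected pair (which comes at the same time or before). -/
theorem exists_sel (T : ι → WithTop β) (N : ι → ι → Prop) (hN : ∀ p, N p p) {p : ι}
    (hp : T p ≠ ⊤) : ∃ s, Sel T N s ∧ N s p ∧ T s ≤ T p := by
  by_cases h : Sel T N p
  · exact ⟨p, h, hN p, le_rfl⟩
  · rw [sel_iff] at h
    push Not at h
    obtain ⟨q, hq, hs, hn⟩ := h hp
    exact ⟨q, hs, hn, hq.le⟩

/-- two different selected pairs: the later one is not near the earlier one. -/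
theorem not_near_of_sel {T : ι → WithTop β} {N : ι → ι → Prop} {p q : ι} (hp : Sel T N p)
    (hq : Sel T N q) (h : Prec T q p) : ¬ N q p :=
  ((sel_iff T N p).1 hp).2 q h hq

/-- (A2) at most one selected pair satisfies a charging property `Ch`, if two charging pairs
`q` before `p` are always near. -/
theorem sel_unique {T : ι → WithTop β} {N : ι → ι → Prop} (Ch : ι → Prop)
    (hCh : ∀ q p, Prec T q p → Ch q → Ch p → N q p) {p q : ι} (hp : Sel T N p) (hq : Sel T N q)
    (cp : Ch p) (cq : Ch q) : p = q := by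
  by_contra hne
  rcases Prec.trichotomy (T := T) hne with h | h
  · exact not_near_of_sel hq hp h (hCh p q h cp cq)
  · exact not_near_of_sel hp hq h (hCh q p h cq cp)

omit [Fintype ι] in
/-- metric form of (A2): balls `ball (c q) (R * r q)`, charges at distance `≤ C * r`,
radii equal or separated by the factor `Λ`. -/
theorem near_of_charge {T : ι → WithTop β} (c : ι → ℂ) (r : ι → ℝ) {R C Λ : ℝ}
    (hr : ∀ p, 0 < r p) (hR : 2 * C < R)
    (hsep : ∀ p q, r p < r q → Λ * r p ≤ r q)
    (w : ℂ) (Ch : ι → Prop) (hdist : ∀ p, Ch p → dist w (c p) ≤ C * r p)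
    (hthr : ∀ q p, Prec T q p → Ch q → Ch p → r p < Λ * r q) :
    ∀ q p, Prec T q p → Ch q → Ch p → dist (c p) (c q) < R * r q := by
  intro q p hqp hq hp
  have h1 := hdist q hq
  have h2 := hdist p hp
  have h3 := hthr q p hqp hq hp
  have h4 : r p ≤ r q := by
    by_contra hlt
    push Not at hlt
    have := hsep q p hlt
    linarith
  have hC : 0 ≤ C := by
    have := dist_nonneg.trans h1
    by_contra hneg
    push Not at hneg
    have := mul_neg_of_neg_of_pos hneg (hr q)
    linarith
  calc dist (c p) (c q) ≤ dist (c p) w + dist w (c q) := dist_triangle _ _ _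
    _ ≤ C * r p + C * r q := by rw [dist_comm (c p) w]; exact add_le_add h2 h1
    _ ≤ C * r q + C * r q := by gcongr
    _ = 2 * C * r q := by ring
    _ < R * r q := by
      have := hr q
      nlinarith

end Det

section Meas

variable {ι Ω : Type*} [Fintype ι] [LinearOrder ι] {m : MeasurableSpace Ω}
  {F : Filtration ℝ≥0 m} {T : ι → Ω → WithTop ℝ≥0} {N : ι → ι → Prop}

omit [Fintype ι] in
theorem measurableSet_prec (hT : ∀ p, IsStoppingTime F (T p)) (q p : ι) (t : ℝ≥0) :
    MeasurableSet[F t] {ω | Prec (fun i => T i ω) q p ∧ T p ω ≤ t} := by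
  have h1 : MeasurableSet[F t] ({ω | T q ω ≤ T p ω} ∩ {ω | T p ω ≤ t}) :=
    (((hT p).measurableSet _).1 ((hT q).measurableSet_stopping_time_le (hT p))).2 t
  have h2 : MeasurableSet[F t] ({ω | T p ω ≤ T q ω} ∩ {ω | T p ω ≤ t}) :=
    (((hT p).measurableSet _).1 ((hT p).measurableSet_le_stopping_time (hT q))).2 t
  have h0 : MeasurableSet[F t] {ω | T p ω ≤ t} := hT p t
  by_cases hqp : q < p
  · convert! h1 using 1
    ext ω
    simp only [Set.mem_ofPred_eq, Set.mem_inter_iff, Prec]
    constructor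
    · rintro ⟨h | ⟨h, _⟩, h'⟩
      · exact ⟨h.le, h'⟩
      · exact ⟨h.le, h'⟩
    · rintro ⟨h, h'⟩
      refine ⟨?_, h'⟩
      rcases h.lt_or_eq with h | h
      · exact Or.inl h
      · exact Or.inr ⟨h, hqp⟩
  · convert! h0.diff h2 using 1
    ext ω
    simp only [Set.mem_ofPred_eq, Set.mem_inter_iff, Prec, Set.mem_sdiff, not_and, hqp, and_false,
      or_false]
    constructor
    · rintro ⟨h, h'⟩
      exact ⟨h', fun h2 => absurd h (not_lt.2 h2)⟩
    · rintro ⟨h, h'⟩
      refine ⟨?_, h⟩
      by_contra h2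
      exact h' (not_lt.1 h2) h

theorem measurableSet_selN (hT : ∀ p, IsStoppingTime F (T p)) :
    ∀ (n : ℕ) (p : ι) (t : ℝ≥0),
      MeasurableSet[F t] {ω | SelN (fun i => T i ω) N n p ∧ T p ω ≤ t} := by
  intro n
  induction n with
  | zero => intro p t; simp [SelN]
  | succ n ih =>
    intro p t
    have h0 : MeasurableSet[F t] {ω | T p ω ≤ t} := hT p t
    have h1 : MeasurableSet[F t] (⋃ q ∈ {q | N q p},
        ({ω | Prec (fun i => T i ω) q p ∧ T p ω ≤ t} ∩
          {ω | SelN (fun i => T i ω) N n q ∧ T q ω ≤ t})) := by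
      refine MeasurableSet.biUnion (Set.to_countable _) fun q _ => ?_
      exact (measurableSet_prec hT q p t).inter (ih q t)
    convert! h0.diff h1 using 1
    ext ω
    simp only [SelN, Set.mem_ofPred_eq, Set.mem_sdiff, Set.mem_iUnion, Set.mem_inter_iff,
      exists_prop, not_exists, not_and]
    constructor
    · rintro ⟨⟨_, h2⟩, h3⟩
      refine ⟨h3, fun q hq hprec hs => ?_⟩
      exact absurd hq (h2 q hprec.1 hs)
    · rintro ⟨h2, h3⟩
      refine ⟨⟨?_, fun q hprec hs hN => ?_⟩, h2⟩
      · intro htop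
        rw [htop] at h2
        exact absurd h2 (not_le.2 (WithTop.coe_lt_top _))
      · exact h3 q hN ⟨hprec, h2⟩ hs (hprec.le.trans h2)

/-- the selection event is known at the trigger time. -/
theorem measurableSet_sel (hT : ∀ p, IsStoppingTime F (T p)) (p : ι) (t : ℝ≥0) :
    MeasurableSet[F t] {ω | Sel (fun i => T i ω) N p ∧ T p ω ≤ t} :=
  measurableSet_selN hT _ p t

theorem measurableSet_sel' (hT : ∀ p, IsStoppingTime F (T p)) (p : ι) :
    MeasurableSet {ω | Sel (fun i => T i ω) N p} := by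
  have h : {ω | Sel (fun i => T i ω) N p}
      = ⋃ n : ℕ, {ω | Sel (fun i => T i ω) N p ∧ T p ω ≤ ((n : ℝ≥0) : WithTop ℝ≥0)} := by
    ext ω
    simp only [Set.mem_ofPred_eq, Set.mem_iUnion]
    constructor
    · intro h
      obtain ⟨x, hx⟩ := WithTop.ne_top_iff_exists.1 h.ne_top
      obtain ⟨n, hn⟩ := exists_nat_ge x
      refine ⟨n, h, ?_⟩
      have hx' : T p ω = (x : WithTop ℝ≥0) := hx.symm
      rw [hx']
      exact_mod_cast hn
    · rintro ⟨n, h, _⟩
      exact h
  rw [h]
  exact MeasurableSet.iUnion fun n => F.le _ _ (measurableSet_sel hT p n)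

end Meas

end Crest.Agent.R162.U6S
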