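import Crest.Agent.R162.U6A

/-!
Row 162 (S0243), node U6: the charging theorem.
-/

set_option autoImplicit false

open MeasureTheory Set
open scoped NNReal ENNReal

namespace Crest.Agent.R162.U6S

variable {ι Ω : Type*} [Fintype ι] [LinearOrder ι] {m : MeasurableSpace Ω}
  {F : Filtration ℝ≥0 m} {T : ι → Ω → WithTop ℝ≥0} {N : ι → ι → Prop}

open Classical in
/-- the charging time of a point: the trigger time of the (unique) selected pair that charges it. -/
noncomputable def chTime (T : ι → Ω → WithTop ℝ≥0) (N : ι → ι → Prop) (A : ι → Ω → Prop) (ω : Ω) :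
    WithTop ℝ≥0 :=
  Finset.univ.inf fun p => if Sel (fun i => T i ω) N p ∧ A p ω then T p ω else ⊤

theorem chTime_le_iff (A : ι → Ω → Prop) (ω : Ω) (t : ℝ≥0) :
    chTime T N A ω ≤ t ↔ ∃ p, (Sel (fun i => T i ω) N p ∧ A p ω) ∧ T p ω ≤ t := by
  classical
  unfold chTime
  rw [Finset.inf_le_iff (WithTop.coe_lt_top t)]
  simp only [Finset.mem_univ, true_and]
  refine exists_congr fun p => ?_
  by_cases h : Sel (fun i => T i ω) N p ∧ A p ω
  · rw [if_pos h]
    exact ⟨fun h' => ⟨h, h'⟩, fun h' => h'.2⟩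
  · rw [if_neg h]
    exact ⟨fun h' => absurd h' (not_le.2 (WithTop.coe_lt_top _)), fun h' => absurd h'.1 h⟩

theorem isStoppingTime_chTime (hT : ∀ p, IsStoppingTime F (T p)) (A : ι → Ω → Prop)
    (hA : ∀ p t, MeasurableSet[F t] {ω | A p ω ∧ T p ω ≤ ((t : ℝ≥0) : WithTop ℝ≥0)}) :
    IsStoppingTime F (chTime T N A) := by
  intro t
  have h : {ω | chTime T N A ω ≤ t} = ⋃ p, ({ω | Sel (fun i => T i ω) N p ∧ T p ω ≤ t} ∩
      {ω | A p ω ∧ T p ω ≤ t}) := by
    ext ω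
    simp only [Set.mem_ofPred_eq, chTime_le_iff, Set.mem_iUnion, Set.mem_inter_iff]
    refine exists_congr fun p => ?_
    tauto
  rw [h]
  exact MeasurableSet.iUnion fun p => (measurableSet_sel hT p t).inter (hA p t)

theorem chTime_eq (A : ι → Ω → Prop) (ω : Ω)
    (hN : ∀ q p, Prec (fun i => T i ω) q p → A q ω → A p ω → N q p) {p : ι}
    (hp : Sel (fun i => T i ω) N p) (hA : A p ω) : chTime T N A ω = T p ω := by
  classical
  unfold chTime
  apply le_antisymm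
  · refine (Finset.inf_le (Finset.mem_univ p)).trans ?_
    rw [if_pos ⟨hp, hA⟩]
  · refine Finset.le_inf fun q _ => ?_
    by_cases h : Sel (fun i => T i ω) N q ∧ A q ω
    · rw [if_pos h]
      have : p = q := sel_unique (T := fun i => T i ω) (fun i => A i ω) hN hp h.1 hA h.2
      rw [this]
    · rw [if_neg h]
      exact le_top

/-- one-point form of the charging theorem. -/
theorem charge_point {μ : Measure Ω} (hT : ∀ p, IsStoppingTime F (T p)) (A : ι → Ω → Prop)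
    (hA : ∀ p t, MeasurableSet[F t] {ω | A p ω ∧ T p ω ≤ ((t : ℝ≥0) : WithTop ℝ≥0)})
    (hN : ∀ ω q p, Prec (fun i => T i ω) q p → A q ω → A p ω → N q p)
    (G : ℝ≥0 → Ω → ℝ≥0∞) (G0 : ℝ≥0∞)
    (hG : ∀ (n : ℕ) (τ : Ω → WithTop ℝ≥0), IsStoppingTime F τ →
      (∀ ω, τ ω ≤ ((n : ℝ≥0) : WithTop ℝ≥0)) → ∫⁻ ω, G ((τ ω).untopD 0) ω ∂μ ≤ G0)
    (g : ι → Ω → ℝ≥0∞) (hgm : ∀ p, Measurable (g p))
    (hg0 : ∀ p ω, ¬ (Sel (fun i => T i ω) N p ∧ A p ω) → g p ω = 0)
    (hg1 : ∀ p ω, Sel (fun i => T i ω) N p → A p ω → g p ω ≤ G ((T p ω).untopD 0) ω) :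
    ∫⁻ ω, ∑ p, g p ω ∂μ ≤ G0 := by
  classical
  have hmS : ∀ (n : ℕ) (p : ι), MeasurableSet {ω | T p ω ≤ ((n : ℝ≥0) : WithTop ℝ≥0)} :=
    fun n p => F.le _ _ (hT p n)
  have hstep : ∀ n : ℕ,
      ∫⁻ ω, ∑ p, {ω | T p ω ≤ ((n : ℝ≥0) : WithTop ℝ≥0)}.indicator (g p) ω ∂μ ≤ G0 := by
    intro n
    refine le_trans ?_ (hG n (fun ω => min (chTime T N A ω) ((n : ℝ≥0) : WithTop ℝ≥0))
      ((isStoppingTime_chTime hT A hA).min_const n) (fun ω => min_le_right _ _))
    refine lintegral_mono fun ω => ?_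
    by_cases hex : ∃ p, (Sel (fun i => T i ω) N p ∧ A p ω) ∧ T p ω ≤ ((n : ℝ≥0) : WithTop ℝ≥0)
    · obtain ⟨p, ⟨hp, hAp⟩, hle⟩ := hex
      have hc : chTime T N A ω = T p ω := chTime_eq A ω (hN ω) hp hAp
      rw [Finset.sum_eq_single p]
      · rw [Set.indicator_of_mem (show ω ∈ {ω | T p ω ≤ ((n : ℝ≥0) : WithTop ℝ≥0)} from hle)]
        refine (hg1 p ω hp hAp).trans ?_
        show _ ≤ G ((min (chTime T N A ω) ((n : ℝ≥0) : WithTop ℝ≥0)).untopD 0) ω
        rw [hc, min_eq_left hle]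
      · intro q _ hqp
        have : ¬ (Sel (fun i => T i ω) N q ∧ A q ω) := by
          rintro ⟨h1, h2⟩
          exact hqp (sel_unique (T := fun i => T i ω) (fun i => A i ω) (hN ω) h1 hp h2 hAp)
        by_cases h3 : ω ∈ {ω | T q ω ≤ ((n : ℝ≥0) : WithTop ℝ≥0)}
        · rw [Set.indicator_of_mem h3, hg0 q ω this]
        · rw [Set.indicator_of_notMem h3]
      · intro h
        exact absurd (Finset.mem_univ p) h
    · have h0 : ∑ p, {ω | T p ω ≤ ((n : ℝ≥0) : WithTop ℝ≥0)}.indicator (g p) ω = 0 := by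
        refine Finset.sum_eq_zero fun p _ => ?_
        by_cases h3 : ω ∈ {ω | T p ω ≤ ((n : ℝ≥0) : WithTop ℝ≥0)}
        · rw [Set.indicator_of_mem h3]
          exact hg0 p ω fun h => hex ⟨p, h, h3⟩
        · rw [Set.indicator_of_notMem h3]
      rw [h0]
      exact zero_le
  have hmono : Monotone fun (n : ℕ) ω =>
      ∑ p, {ω | T p ω ≤ ((n : ℝ≥0) : WithTop ℝ≥0)}.indicator (g p) ω := by
    intro n k hnk ω
    refine Finset.sum_le_sum fun p _ => ?_
    refine Set.indicator_le_indicator_of_subset (fun x hx => ?_) (fun _ => zero_le) ω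
    simp only [Set.mem_ofPred_eq] at hx ⊢
    refine hx.trans ?_
    exact_mod_cast hnk
  have hsup : ∀ ω, ∑ p, g p ω
      = ⨆ n : ℕ, ∑ p, {ω | T p ω ≤ ((n : ℝ≥0) : WithTop ℝ≥0)}.indicator (g p) ω := by
    intro ω
    apply le_antisymm
    · -- choose n beyond all finite trigger times
      obtain ⟨n, hn⟩ : ∃ n : ℕ, ∀ p, T p ω ≠ ⊤ → T p ω ≤ ((n : ℝ≥0) : WithTop ℝ≥0) := by
        have h1 : ∀ p, ∃ n : ℕ, T p ω ≠ ⊤ → T p ω ≤ ((n : ℝ≥0) : WithTop ℝ≥0) := by
          intro p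
          by_cases h : T p ω = ⊤
          · exact ⟨0, fun h' => absurd h h'⟩
          · obtain ⟨x, hx⟩ := WithTop.ne_top_iff_exists.1 h
            obtain ⟨k, hk⟩ := exists_nat_ge x
            refine ⟨k, fun _ => ?_⟩
            rw [← hx]
            exact_mod_cast hk
        choose k hk using h1
        refine ⟨Finset.univ.sup k, fun p hp => (hk p hp).trans ?_⟩
        have : k p ≤ Finset.univ.sup k := Finset.le_sup (Finset.mem_univ p)
        exact_mod_cast this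
      refine le_trans (le_of_eq ?_) (le_iSup _ n)
      refine Finset.sum_congr rfl fun p _ => ?_
      by_cases h : Sel (fun i => T i ω) N p ∧ A p ω
      · rw [Set.indicator_of_mem]
        exact hn p h.1.ne_top
      · by_cases h3 : ω ∈ {ω | T p ω ≤ ((n : ℝ≥0) : WithTop ℝ≥0)}
        · rw [Set.indicator_of_mem h3]
        · rw [Set.indicator_of_notMem h3, hg0 p ω h]
    · refine iSup_le fun n => Finset.sum_le_sum fun p _ => ?_
      exact Set.indicator_le_self _ _ _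
  simp_rw [hsup]
  rw [lintegral_iSup _ hmono]
  · exact iSup_le hstep
  · intro n
    exact Finset.measurable_sum _ fun p _ => (hgm p).indicator (hmS n p)

open Classical in
/-- **Charging theorem.** `T p` trigger times (stopping times, `⊤` = no trigger), `Ch p ω` the set
of points charged by `p`, `G t ω w` a nonnegative weight with optional stopping `E G_τ(w) ≤ G0 w`.
If two pairs that charge a common point are near each other, then the total expected charge of the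
selected pairs is at most `∫_B G0`. -/
theorem charge {μ : Measure Ω} [SFinite μ] (hT : ∀ p, IsStoppingTime F (T p))
    (Ch : ι → Ω → Set ℂ)
    (hCh : ∀ p w t, MeasurableSet[F t] {ω | w ∈ Ch p ω ∧ T p ω ≤ ((t : ℝ≥0) : WithTop ℝ≥0)})
    (hN : ∀ ω w q p, Prec (fun i => T i ω) q p → w ∈ Ch q ω → w ∈ Ch p ω → N q p)
    (B : Set ℂ) (hB : ∀ p ω w, Sel (fun i => T i ω) N p → w ∈ Ch p ω → w ∈ B)
    (hBm : MeasurableSet B)
    (G : ℝ≥0 → Ω → ℂ → ℝ≥0∞) (G0 : ℂ → ℝ≥0∞)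
    (hG : ∀ w ∈ B, ∀ (n : ℕ) (τ : Ω → WithTop ℝ≥0), IsStoppingTime F τ →
      (∀ ω, τ ω ≤ ((n : ℝ≥0) : WithTop ℝ≥0)) → ∫⁻ ω, G ((τ ω).untopD 0) ω w ∂μ ≤ G0 w)
    (hmeas : ∀ p, Measurable fun x : Ω × ℂ =>
      if Sel (fun i => T i x.1) N p ∧ x.2 ∈ Ch p x.1 then G ((T p x.1).untopD 0) x.1 x.2 else 0) :
    ∑ p, ∫⁻ ω, ∫⁻ w, (if Sel (fun i => T i ω) N p ∧ w ∈ Ch p ω then
      G ((T p ω).untopD 0) ω w else 0) ∂volume ∂μ ≤ ∫⁻ w in B, G0 w := by
  have h1 : ∀ p, ∫⁻ ω, ∫⁻ w, (if Sel (fun i => T i ω) N p ∧ w ∈ Ch p ω then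
      G ((T p ω).untopD 0) ω w else 0) ∂volume ∂μ
      = ∫⁻ w, ∫⁻ ω, (if Sel (fun i => T i ω) N p ∧ w ∈ Ch p ω then
      G ((T p ω).untopD 0) ω w else 0) ∂μ ∂volume := fun p =>
    lintegral_lintegral_swap (hmeas p).aemeasurable
  simp_rw [h1]
  rw [← lintegral_finsetSum _ fun p _ => ?_]
  · rw [← lintegral_indicator hBm]
    refine lintegral_mono fun w => ?_
    by_cases hw : w ∈ B
    · rw [Set.indicator_of_mem hw]
      rw [← lintegral_finsetSum _ fun p _ => ?_]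
      · refine charge_point hT (fun p ω => w ∈ Ch p ω) (fun p t => hCh p w t)
          (fun ω q p => hN ω w q p) (fun t ω => G t ω w) (G0 w) (hG w hw) _
          (fun p => (hmeas p).comp (measurable_id.prodMk measurable_const)) ?_ ?_
        · intro p ω h
          exact if_neg h
        · intro p ω h1 h2
          exact (if_pos ⟨h1, h2⟩).le
      · exact (hmeas p).comp (measurable_id.prodMk measurable_const)
    · rw [Set.indicator_of_notMem hw]
      refine le_of_eq (Finset.sum_eq_zero fun p _ => ?_)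
      have : ∀ ω, (if Sel (fun i => T i ω) N p ∧ w ∈ Ch p ω then
          G ((T p ω).untopD 0) ω w else 0) = 0 := by
        intro ω
        rw [if_neg]
        rintro ⟨h1, h2⟩
        exact hw (hB p ω w h1 h2)
      simp_rw [this]
      exact lintegral_zero
  · exact (hmeas p).lintegral_prod_left'

open Classical in
/-- **U6, final form**: expected `φ`-cost of the selected pairs. -/
theorem cost_le {μ : Measure Ω} [SFinite μ] (hT : ∀ p, IsStoppingTime F (T p))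
    (Ch : ι → Ω → Set ℂ)
    (hCh : ∀ p w t, MeasurableSet[F t] {ω | w ∈ Ch p ω ∧ T p ω ≤ ((t : ℝ≥0) : WithTop ℝ≥0)})
    (hN : ∀ ω w q p, Prec (fun i => T i ω) q p → w ∈ Ch q ω → w ∈ Ch p ω → N q p)
    (B : Set ℂ) (hB : ∀ p ω w, Sel (fun i => T i ω) N p → w ∈ Ch p ω → w ∈ B)
    (hBm : MeasurableSet B)
    (G : ℝ≥0 → Ω → ℂ → ℝ≥0∞) (G0 : ℂ → ℝ≥0∞)
    (hG : ∀ w ∈ B, ∀ (n : ℕ) (τ : Ω → WithTop ℝ≥0), IsStoppingTime F τ →
      (∀ ω, τ ω ≤ ((n : ℝ≥0) : WithTop ℝ≥0)) → ∫⁻ ω, G ((τ ω).untopD 0) ω w ∂μ ≤ G0 w)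
    (hmeas : ∀ p, Measurable fun x : Ω × ℂ =>
      if Sel (fun i => T i x.1) N p ∧ x.2 ∈ Ch p x.1 then G ((T p x.1).untopD 0) x.1 x.2 else 0)
    (c : ℝ≥0∞) (φ : ι → ℝ≥0∞)
    (hlow : ∀ p ω, Sel (fun i => T i ω) N p →
      c * φ p ≤ ∫⁻ w in Ch p ω, G ((T p ω).untopD 0) ω w) (hChs : ∀ p ω, MeasurableSet (Ch p ω)) :
    c * ∫⁻ ω, ∑ p, (if Sel (fun i => T i ω) N p then φ p else 0) ∂μ ≤ ∫⁻ w in B, G0 w := by
  refine le_trans ?_ (charge hT Ch hCh hN B hB hBm G G0 hG hmeas)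
  have hms : ∀ p, MeasurableSet {ω | Sel (fun i => T i ω) N p} := fun p =>
    measurableSet_sel' hT p
  have hmi : ∀ p, Measurable fun ω => if Sel (fun i => T i ω) N p then φ p else 0 := fun p =>
    Measurable.ite (hms p) measurable_const measurable_const
  rw [lintegral_finsetSum _ fun p _ => hmi p, Finset.mul_sum]
  refine Finset.sum_le_sum fun p _ => ?_
  rw [← lintegral_const_mul _ (hmi p)]
  refine lintegral_mono fun ω => ?_
  by_cases h : Sel (fun i => T i ω) N p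
  · rw [if_pos h]
    refine (hlow p ω h).trans ?_
    rw [← lintegral_indicator (hChs p ω)]
    refine lintegral_mono fun w => ?_
    by_cases hw : w ∈ Ch p ω
    · rw [Set.indicator_of_mem hw, if_pos ⟨h, hw⟩]
    · rw [Set.indicator_of_notMem hw]
      exact zero_le
  · rw [if_neg h, mul_zero]
    exact zero_le

end Crest.Agent.R162.U6S
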