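import Mathlib
import Crest.Agent.R162.U6
import Crest.Agent.R162.UBDefs

/-!
Row 162, node U6, final form: `U6Stmt` of `UBDefs` from the trigger stopping times, the joint
measurability, the supermartingale bound and the comparison of conformal radii.
-/

set_option autoImplicit false
open MeasureTheory ProbabilityTheory Set Filter Topology
open scoped NNReal ENNReal

namespace Crest.Agent.R162.U6F

open Crest.Agent.R162.FL Crest.Agent.R162.OP Crest.Agent.R162.OS Crest.Agent.R162.U6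
  Crest.Agent.R162.UB
open Crest.ProbabilityR.Loewner

section Cap

variable {Ω ι : Type*} [LinearOrder ι] [Fintype ι]

open Classical in
/-- capped times -/
noncomputable def capT (T : ι → Ω → ℝ≥0) (A : ι → Set Ω) (n : ℝ≥0) (i : ι) (ω : Ω) : ℝ≥0 :=
  if ω ∈ A i ∧ T i ω ≤ n then T i ω else n

/-- triggers before the cap -/
def capA (T : ι → Ω → ℝ≥0) (A : ι → Set Ω) (n : ℝ≥0) (i : ι) : Set Ω :=
  {ω | ω ∈ A i ∧ T i ω ≤ n}

variable {T : ι → Ω → ℝ≥0} {A : ι → Set Ω} {Bad : ι → ι → Prop} {n : ℝ≥0} {ω : Ω}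

omit [LinearOrder ι] [Fintype ι] in
theorem capT_of_mem {i : ι} (h : ω ∈ capA T A n i) : capT T A n i ω = T i ω := if_pos h

omit [LinearOrder ι] [Fintype ι] in
theorem capT_of_notMem {i : ι} (h : ω ∉ capA T A n i) : capT T A n i ω = n := if_neg h

omit [LinearOrder ι] [Fintype ι] in
theorem capT_le {i : ι} : capT T A n i ω ≤ n := by
  unfold capT
  split_ifs with h
  · exact h.2
  · exact le_rfl

theorem sel_cap_aux (k : ℕ) : ∀ i, rank T ω i < k → ω ∈ capA T A n i →
    (sel (capT T A n) (capA T A n) Bad ω i ↔ sel T A Bad ω i) := by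
  induction k with
  | zero => intro i h; omega
  | succ k ih =>
    intro i hk hi
    rw [sel_iff (T := capT T A n), sel_iff (T := T)]
    constructor
    · rintro ⟨_, h⟩
      refine ⟨hi.1, fun j hj hs => ?_⟩
      have hj' : ω ∈ capA T A n j := ⟨hs.trigger, hj.le.trans hi.2⟩
      refine h j ?_ ((ih j ?_ hj').2 hs)
      · unfold before at hj ⊢
        rw [capT_of_mem hi, capT_of_mem hj']
        exact hj
      · have := rank_lt_rank hj; omega
    · rintro ⟨_, h⟩
      refine ⟨hi, fun j hj hs => ?_⟩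
      have hj' : ω ∈ capA T A n j := hs.trigger
      have hb : before T ω j i := by
        unfold before at hj ⊢
        rw [capT_of_mem hi, capT_of_mem hj'] at hj
        exact hj
      refine h j hb ((ih j ?_ hj').1 hs)
      have := rank_lt_rank hb; omega

theorem sel_cap {i : ι} (hi : ω ∈ capA T A n i) :
    sel (capT T A n) (capA T A n) Bad ω i ↔ sel T A Bad ω i :=
  sel_cap_aux _ i (Nat.lt_succ_self _) hi

end Cap

section Main

variable {Ω : Type*} {m : MeasurableSpace Ω}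

/-- The inputs of node U6. -/
structure Inputs (κ : ℝ) (P : Measure Ω) (F : Filtration ℝ≥0 m) (B : ℝ≥0 → Ω → ℝ) : Prop where
  cont : ∀ ω, ContinuousOn (driving κ B ω) (Ici 0)
  zero : ∀ ω, driving κ B ω 0 = 0
  /-- U3M, uniqueness -/
  uniq : ∀ (ω : Ω) (w : ℂ) (r N δ σ T σ' T' : ℝ), TrigAt (driving κ B ω) w r N δ σ T →
    TrigAt (driving κ B ω) w r N δ σ' T' → T = T'
  /-- U3M, measurability -/
  meas : ∀ (w : ℂ) (r N δ : ℝ), 0 < w.im → 0 < r → 0 < δ → 1 ≤ N → ∀ t : ℝ≥0,
    MeasurableSet[F t] {ω | ∃ σ T, T ≤ (t : ℝ) ∧ TrigAt (driving κ B ω) w r N δ σ T}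
  /-- FL-D, one point at a stopping time -/
  evst : ∀ z : ℂ, 0 < z.im → ∀ (c : ℝ) (τ : Ω → ℝ≥0), IsST F τ →
    EvST F τ {ω | Alive (driving κ B ω) z (τ ω) ∧ c ≤ ups (driving κ B ω) (τ ω) z}
  /-- FL-D, joint measurability, set -/
  jset : ∀ (c : ℝ) (τ : Ω → ℝ≥0), Measurable τ → MeasurableSet
    {p : Ω × ℂ | 0 < p.2.im ∧ Alive (driving κ B p.1) p.2 (τ p.1) ∧
      c ≤ ups (driving κ B p.1) (τ p.1) p.2}
  /-- FL-D, joint measurability, weight -/
  jfun : ∀ (τ : Ω → ℝ≥0), Measurable τ → Measurable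
    ({p : Ω × ℂ | 0 < p.2.im ∧ Alive (driving κ B p.1) p.2 (τ p.1)}.indicator
      (fun p => gr κ (driving κ B p.1) (τ p.1) p.2))
  /-- FL-B -/
  anti : ∀ (ω : Ω) (z : ℂ) (s t : ℝ), 0 ≤ s → s ≤ t → Alive (driving κ B ω) z t →
    ups (driving κ B ω) t z ≤ ups (driving κ B ω) s z
  /-- SUPG -/
  supg : ∀ z : ℂ, 0 < z.im → ∀ τ : Ω → ℝ≥0, IsST F τ →
    ∫⁻ ω, ENNReal.ofReal (gr κ (driving κ B ω) (τ ω) z) ∂P ≤ ENNReal.ofReal (green κ z)
  /-- UD -/
  ud : ∀ (ω : Ω) (z w : ℂ) (T : ℝ), Alive (driving κ B ω) z T → Alive (driving κ B ω) w T →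
    ups (driving κ B ω) T z ≤ 2 * ‖z - w‖ + 4 * ups (driving κ B ω) T w

theorem alive_im_pos {W : ℝ → ℝ} {z : ℂ} {t : ℝ} (h : Alive W z t) : 0 < z.im := by
  obtain ⟨h0, g, hg⟩ := h
  have := hg.im_pos 0 ⟨le_rfl, h0⟩
  rwa [hg.init] at this

/-- The time of the trigger. -/
noncomputable def trigT (κ : ℝ) (B : ℝ≥0 → Ω → ℝ) (N δ : ℝ) (p : ℂ × ℝ) (ω : Ω) : ℝ≥0 :=
  open Classical in
  if h : ∃ T σ, TrigAt (driving κ B ω) p.1 p.2 N δ σ T then Real.toNNReal h.choose else 0

/-- The event that the trigger occurs. -/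
def trigA (κ : ℝ) (B : ℝ≥0 → Ω → ℝ) (N δ : ℝ) (p : ℂ × ℝ) : Set Ω :=
  {ω | Trig (driving κ B ω) p.1 p.2 N δ}

variable {κ : ℝ} {P : Measure Ω} {F : Filtration ℝ≥0 m} {B : ℝ≥0 → Ω → ℝ}

theorem Inputs.trigT_eq (h : Inputs κ P F B) {N δ : ℝ} {p : ℂ × ℝ} {ω : Ω} {σ T : ℝ}
    (hT : TrigAt (driving κ B ω) p.1 p.2 N δ σ T) : (trigT κ B N δ p ω : ℝ) = T := by
  have hex : ∃ T σ, TrigAt (driving κ B ω) p.1 p.2 N δ σ T := ⟨T, σ, hT⟩
  unfold trigT
  rw [dif_pos hex]
  obtain ⟨σ', hσ'⟩ := hex.choose_spec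
  rw [h.uniq ω _ _ _ _ _ _ _ _ hσ' hT]
  exact Real.coe_toNNReal _ (hT.nonneg.trans hT.le)

theorem Inputs.exists_trigAt (h : Inputs κ P F B) {N δ : ℝ} {p : ℂ × ℝ} {ω : Ω}
    (hω : ω ∈ trigA κ B N δ p) :
    ∃ σ, TrigAt (driving κ B ω) p.1 p.2 N δ σ (trigT κ B N δ p ω) := by
  obtain ⟨σ, T, hT⟩ := hω
  exact ⟨σ, by rw [h.trigT_eq hT]; exact hT⟩

theorem Inputs.set_eq (h : Inputs κ P F B) (N δ : ℝ) (p : ℂ × ℝ) (t : ℝ≥0) :
    {ω | ω ∈ trigA κ B N δ p ∧ trigT κ B N δ p ω ≤ t} =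
      {ω | ∃ σ T, T ≤ (t : ℝ) ∧ TrigAt (driving κ B ω) p.1 p.2 N δ σ T} := by
  ext ω
  simp only [mem_ofPred_eq]
  constructor
  · rintro ⟨h1, h2⟩
    obtain ⟨σ, hσ⟩ := h.exists_trigAt h1
    exact ⟨σ, _, by exact_mod_cast h2, hσ⟩
  · rintro ⟨σ, T, hle, hT⟩
    refine ⟨⟨σ, T, hT⟩, ?_⟩
    have := h.trigT_eq hT
    rw [← this] at hle
    exact_mod_cast hle

theorem Inputs.isST_cap (h : Inputs κ P F B) {N δ : ℝ} (hδ : 0 < δ) (hN : 1 ≤ N) {ι : Type*}
    (pt : ι → ℂ × ℝ) (hpt : ∀ i, 0 < (pt i).1.im ∧ 0 < (pt i).2) (n : ℝ≥0) (i : ι) :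
    IsST F (capT (fun i => trigT κ B N δ (pt i)) (fun i => trigA κ B N δ (pt i)) n i) := by
  intro t
  by_cases ht : n ≤ t
  · have : {ω | capT (fun i => trigT κ B N δ (pt i)) (fun i => trigA κ B N δ (pt i)) n i ω ≤ t}
        = univ := by
      ext ω; simp only [mem_ofPred_eq, mem_univ, iff_true]; exact capT_le.trans ht
    rw [this]; exact MeasurableSet.univ
  · have : {ω | capT (fun i => trigT κ B N δ (pt i)) (fun i => trigA κ B N δ (pt i)) n i ω ≤ t}
        = {ω | ω ∈ trigA κ B N δ (pt i) ∧ trigT κ B N δ (pt i) ω ≤ t} := by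
      ext ω
      simp only [mem_ofPred_eq]
      push Not at ht
      constructor
      · intro h1
        by_cases hc : ω ∈ capA (fun i => trigT κ B N δ (pt i)) (fun i => trigA κ B N δ (pt i)) n i
        · rw [capT_of_mem hc] at h1
          exact ⟨hc.1, h1⟩
        · rw [capT_of_notMem hc] at h1
          exact absurd h1 (not_le.2 ht)
      · rintro ⟨h1, h2⟩
        have hc : ω ∈ capA (fun i => trigT κ B N δ (pt i)) (fun i => trigA κ B N δ (pt i)) n i :=
          ⟨h1, h2.trans ht.le⟩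
        rw [capT_of_mem hc]
        exact h2
    rw [this, h.set_eq]
    exact h.meas _ _ _ _ (hpt i).1 (hpt i).2 hδ hN t

theorem Inputs.evST_capA (h : Inputs κ P F B) {N δ : ℝ} (hδ : 0 < δ) (hN : 1 ≤ N) {ι : Type*}
    (pt : ι → ℂ × ℝ) (hpt : ∀ i, 0 < (pt i).1.im ∧ 0 < (pt i).2) (n : ℝ≥0) (i : ι) :
    EvST F (capT (fun i => trigT κ B N δ (pt i)) (fun i => trigA κ B N δ (pt i)) n i)
      (capA (fun i => trigT κ B N δ (pt i)) (fun i => trigA κ B N δ (pt i)) n i) := by
  intro t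
  have : (capA (fun i => trigT κ B N δ (pt i)) (fun i => trigA κ B N δ (pt i)) n i) ∩
      {ω | capT (fun i => trigT κ B N δ (pt i)) (fun i => trigA κ B N δ (pt i)) n i ω ≤ t} =
      {ω | ω ∈ trigA κ B N δ (pt i) ∧ trigT κ B N δ (pt i) ω ≤ min n t} := by
    ext ω
    simp only [mem_inter_iff, mem_ofPred_eq, le_min_iff]
    constructor
    · rintro ⟨h1, h2⟩
      rw [capT_of_mem h1] at h2
      exact ⟨h1.1, h1.2, h2⟩
    · rintro ⟨h1, h2, h3⟩
      have hc : ω ∈ capA (fun i => trigT κ B N δ (pt i)) (fun i => trigA κ B N δ (pt i)) n i :=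
        ⟨h1, h2⟩
      rw [capT_of_mem hc]
      exact ⟨hc, h3⟩
  rw [this, h.set_eq]
  exact F.mono (min_le_right _ _) _ (h.meas _ _ _ _ (hpt i).1 (hpt i).2 hδ hN _)

/-- **Node U6, final form.** -/
theorem Inputs.u6 [IsProbabilityMeasure P] (h : Inputs κ P F B) : U6Stmt κ P B := by
  classical
  intro δ C₆ c₅ c N R hδ hC₆ hc₅ hc hN J hJ hlac hmass
  -- enumeration of `J`
  set pt : Fin J.card → ℂ × ℝ := fun i => (J.equivFin.symm i : ℂ × ℝ) with hpt_def
  have hptJ : ∀ i, pt i ∈ J := fun i => (J.equivFin.symm i).2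
  have hpt : ∀ i, 0 < (pt i).1.im ∧ 0 < (pt i).2 := fun i => ⟨(hJ _ (hptJ i)).1, (hJ _ (hptJ i)).2.1⟩
  set T : Fin J.card → Ω → ℝ≥0 := fun i => trigT κ B N δ (pt i) with hT_def
  set A : Fin J.card → Set Ω := fun i => trigA κ B N δ (pt i) with hA_def
  set Bad : Fin J.card → Fin J.card → Prop :=
    fun j i => ‖(pt i).1 - (pt j).1‖ ≤ 10 * C₆ * (pt j).2 with hBad_def
  set cost : Fin J.card → ℝ≥0∞ := fun i =>
    ENNReal.ofReal (c * (pt i).2 ^ dimParam κ * N ^ ((2 - dimParam κ) / 2)) with hcost_def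
  set H : Set ℂ := {z : ℂ | 0 < z.im ∧ ‖z‖ ≤ R} with hH_def
  have hHm : MeasurableSet H := by
    refine MeasurableSet.inter ?_ ?_
    · exact measurableSet_lt measurable_const Complex.measurable_im
    · exact measurableSet_le measurable_norm measurable_const
  -- the capped inequality
  have hcap : ∀ n : ℕ, ∑ i, P {ω | sel (capT T A n) (capA T A n) Bad ω i} * cost i ≤
      ∫⁻ z in H, ENNReal.ofReal (green κ z) := by
    intro n
    have hST : ∀ i, IsST F (capT T A n i) := fun i => h.isST_cap hδ hN pt hpt n i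
    have hEA : ∀ i, EvST F (capT T A n i) (capA T A n i) := fun i => h.evST_capA hδ hN pt hpt n i
    have hSTm : ∀ i, Measurable (capT T A n i) := fun i =>
      measurable_of_Iic fun a => F.le a _ (hST i a)
    -- charge
    set Ch : Fin J.card → ℂ → Set Ω := fun i z => {ω | ω ∈ capA T A n i ∧ 0 < z.im ∧
      z ∈ chargeSet (driving κ B ω) (pt i).1 (pt i).2 N C₆ c₅ (capT T A n i ω)} with hCh_def
    set G : ℂ → ℝ≥0 → Ω → ℝ≥0∞ := fun z t ω =>
      if 0 < z.im then ENNReal.ofReal (gr κ (driving κ B ω) t z) else 0 with hG_def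
    set G0 : ℂ → ℝ≥0∞ := fun z => ENNReal.ofReal (green κ z) with hG0_def
    have hCh : ∀ i z, EvST F (capT T A n i) (Ch i z) := by
      intro i z
      by_cases hz : 0 < z.im
      · by_cases hd : ‖z - (pt i).1‖ ≤ C₆ * (pt i).2
        · have : Ch i z = capA T A n i ∩ {ω | Alive (driving κ B ω) z (capT T A n i ω) ∧
              c₅ * (pt i).2 * N ^ (-(1 / 2 : ℝ)) ≤ ups (driving κ B ω) (capT T A n i ω) z} := by
            ext ω
            simp only [hCh_def, chargeSet, mem_ofPred_eq, mem_inter_iff, hz, hd, true_and]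
          rw [this]
          exact EvST_inter (hEA i) (h.evst z hz _ _ (hST i))
        · have : Ch i z = ∅ := by
            ext ω
            simp only [hCh_def, chargeSet, mem_ofPred_eq, mem_empty_iff_false, iff_false]
            rintro ⟨_, _, _, h2, _⟩
            exact hd h2
          rw [this]
          intro t; simp
      · have : Ch i z = ∅ := by
          ext ω
          simp only [hCh_def, mem_ofPred_eq, mem_empty_iff_false, iff_false]
          rintro ⟨_, h1, _⟩
          exact hz h1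
        rw [this]
        intro t; simp
    -- joint measurability
    have hAm : ∀ i, MeasurableSet (capA T A n i) := fun i =>
      measurableSet_of_evST (hEA i) (fun _ => capT_le)
    have hjset : ∀ i, MeasurableSet {p : Ω × ℂ | p.1 ∈ Ch i p.2} := by
      intro i
      have : {p : Ω × ℂ | p.1 ∈ Ch i p.2} =
          ({p : Ω × ℂ | p.1 ∈ capA T A n i} ∩ {p : Ω × ℂ | ‖p.2 - (pt i).1‖ ≤ C₆ * (pt i).2}) ∩
          {p : Ω × ℂ | 0 < p.2.im ∧ Alive (driving κ B p.1) p.2 (capT T A n i p.1) ∧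
            c₅ * (pt i).2 * N ^ (-(1 / 2 : ℝ)) ≤
              ups (driving κ B p.1) (capT T A n i p.1) p.2} := by
        ext p
        simp only [hCh_def, chargeSet, mem_ofPred_eq, mem_inter_iff]
        tauto
      rw [this]
      refine ((measurable_fst (hAm i)).inter ?_).inter (h.jset _ _ (hSTm i))
      exact measurableSet_le ((measurable_snd.sub_const _).norm) measurable_const
    have hjmeas : ∀ i, Measurable (fun p : Ω × ℂ =>
        (Ch i p.2).indicator (fun ω => G p.2 (capT T A n i ω) ω) p.1) := by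
      intro i
      have h1 := ((h.jfun _ (hSTm i)).ennreal_ofReal).indicator (hjset i)
      have h2 : (fun p : Ω × ℂ => (Ch i p.2).indicator (fun ω => G p.2 (capT T A n i ω) ω) p.1) =
          {p : Ω × ℂ | p.1 ∈ Ch i p.2}.indicator (fun x => ENNReal.ofReal
            (({p : Ω × ℂ | 0 < p.2.im ∧ Alive (driving κ B p.1) p.2 (capT T A n i p.1)}.indicator
              (fun p => gr κ (driving κ B p.1) (capT T A n i p.1) p.2)) x)) := by
        funext p
        by_cases hp : p.1 ∈ Ch i p.2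
        · have hp' : p ∈ {p : Ω × ℂ | p.1 ∈ Ch i p.2} := hp
          have hp'' : p ∈ {p : Ω × ℂ | 0 < p.2.im ∧
              Alive (driving κ B p.1) p.2 (capT T A n i p.1)} := ⟨hp.2.1, hp.2.2.1⟩
          rw [indicator_of_mem hp, indicator_of_mem hp', indicator_of_mem hp'']
          simp only [hG_def, hp.2.1, if_true]
        · have hp' : p ∉ {p : Ω × ℂ | p.1 ∈ Ch i p.2} := hp
          rw [indicator_of_notMem hp, indicator_of_notMem hp']
      rw [h2]
      exact h1
    have hmass' : ∀ i, ∀ ω ∈ capA T A n i, cost i ≤ 1 * ∫⁻ z,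
        (Ch i z).indicator (fun ω => G z (capT T A n i ω) ω) ω ∂(volume.restrict H) := by
      intro i ω hω
      obtain ⟨σ, hσ⟩ := h.exists_trigAt hω.1
      have hcapeq : capT T A n i ω = T i ω := capT_of_mem hω
      have h1 := hmass (driving κ B ω) σ (T i ω) (h.cont ω) (h.zero ω) (pt i) (hptJ i) hσ
      have hS : {z | ω ∈ Ch i z} =
          chargeSet (driving κ B ω) (pt i).1 (pt i).2 N C₆ c₅ (T i ω) := by
        ext z
        simp only [hCh_def, mem_ofPred_eq]
        constructor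
        · rintro ⟨_, _, h3⟩; rw [← hcapeq]; exact h3
        · intro h3
          exact ⟨hω, alive_im_pos h3.1, by rw [hcapeq]; exact h3⟩
      have hSm : MeasurableSet {z | ω ∈ Ch i z} := measurable_prodMk_left (hjset i)
      have hSH : {z | ω ∈ Ch i z} ∩ H = {z | ω ∈ Ch i z} := by
        apply inter_eq_left.2
        intro z hz
        have h3 : z ∈ chargeSet (driving κ B ω) (pt i).1 (pt i).2 N C₆ c₅ (T i ω) := by
          rw [← hS]; exact hz
        refine ⟨alive_im_pos h3.1, ?_⟩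
        have h4 := (hJ _ (hptJ i)).2.2.2
        calc ‖z‖ = ‖(z - (pt i).1) + (pt i).1‖ := by rw [sub_add_cancel]
          _ ≤ ‖z - (pt i).1‖ + ‖(pt i).1‖ := norm_add_le _ _
          _ ≤ R := by linarith [h3.2.1]
      rw [one_mul]
      refine h1.trans ?_
      rw [← hS]
      have h5 : ∀ z, (Ch i z).indicator (fun ω => G z (capT T A n i ω) ω) ω =
          {z | ω ∈ Ch i z}.indicator
            (fun z => ENNReal.ofReal (gr κ (driving κ B ω) (T i ω) z)) z := by
        intro z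
        by_cases hz : ω ∈ Ch i z
        · have hz' : z ∈ {z | ω ∈ Ch i z} := hz
          rw [indicator_of_mem hz, indicator_of_mem hz']
          simp only [hG_def, hz.2.1, if_true, hcapeq]
        · have hz' : z ∉ {z | ω ∈ Ch i z} := hz
          rw [indicator_of_notMem hz, indicator_of_notMem hz']
      simp only [h5]
      rw [setLIntegral_indicator hSm, hSH]
    have honce : ∀ z ω i j, ω ∈ capA T A n i → ω ∈ capA T A n j → before (capT T A n) ω j i →
        ω ∈ Ch j z → ω ∈ Ch i z → Bad j i := by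
      intro z ω i j hi hj hb hzj hzi
      obtain ⟨σi, hσi⟩ := h.exists_trigAt hi.1
      obtain ⟨σj, hσj⟩ := h.exists_trigAt hj.1
      have hTi : capT T A n i ω = T i ω := capT_of_mem hi
      have hTj : capT T A n j ω = T j ω := capT_of_mem hj
      have hle : T j ω ≤ T i ω := by
        have := hb.le; rwa [hTi, hTj] at this
      have hle' : ((T j ω : ℝ≥0) : ℝ) ≤ (T i ω : ℝ) := by exact_mod_cast hle
      obtain ⟨_, hzim, hCi⟩ := hzi
      obtain ⟨_, _, hCj⟩ := hzj
      rw [hTi] at hCi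
      rw [hTj] at hCj
      obtain ⟨ai, di, ui⟩ := hCi
      obtain ⟨aj, dj, _⟩ := hCj
      have h1 : ups (driving κ B ω) (T i ω) z ≤ ups (driving κ B ω) (T j ω) z :=
        h.anti ω z _ _ (T j ω).2 hle' ai
      have h2 : ups (driving κ B ω) (T j ω) z ≤
          2 * ‖z - (pt j).1‖ + 4 * ups (driving κ B ω) (T j ω) (pt j).1 :=
        h.ud ω z _ _ aj hσj.alive
      have h3 : ups (driving κ B ω) (T j ω) (pt j).1 ≤ (pt j).2 := by
        rw [← hσj.ups_eq]
        exact h.anti ω _ _ _ hσj.nonneg hσj.le hσj.alive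
      have h4 : c₅ * (pt i).2 * N ^ (-(1 / 2 : ℝ)) ≤ (2 * C₆ + 4) * (pt j).2 := by
        nlinarith
      have hNpos : 0 < N := by linarith
      have hN1 : N ^ (-(1 / 2 : ℝ)) * N ^ (1 / 2 : ℝ) = 1 := by
        rw [← Real.rpow_add hNpos]; norm_num
      have hNh : 0 < N ^ (1 / 2 : ℝ) := Real.rpow_pos_of_pos hNpos _
      have h5 : c₅ * (pt i).2 ≤ (2 * C₆ + 4) * N ^ (1 / 2 : ℝ) * (pt j).2 := by
        calc c₅ * (pt i).2 = c₅ * (pt i).2 * N ^ (-(1 / 2 : ℝ)) * N ^ (1 / 2 : ℝ) := by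
              rw [mul_assoc (c₅ * (pt i).2), hN1, mul_one]
          _ ≤ (2 * C₆ + 4) * (pt j).2 * N ^ (1 / 2 : ℝ) :=
              mul_le_mul_of_nonneg_right h4 hNh.le
          _ = (2 * C₆ + 4) * N ^ (1 / 2 : ℝ) * (pt j).2 := by ring
      have h6 : (pt i).2 ≤ (pt j).2 := by
        by_contra hcon
        push Not at hcon
        have := hlac _ (hptJ j) _ (hptJ i) hcon
        linarith
      have h7 : ‖(pt i).1 - (pt j).1‖ ≤ ‖z - (pt i).1‖ + ‖z - (pt j).1‖ := by
        calc ‖(pt i).1 - (pt j).1‖ = ‖(z - (pt j).1) - (z - (pt i).1)‖ := by congr 1; ring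
          _ ≤ ‖z - (pt j).1‖ + ‖z - (pt i).1‖ := norm_sub_le _ _
          _ = _ := add_comm _ _
      show ‖(pt i).1 - (pt j).1‖ ≤ 10 * C₆ * (pt j).2
      have hrj := (hpt j).2
      nlinarith [mul_le_mul_of_nonneg_left h6 (by linarith : (0:ℝ) ≤ C₆), mul_pos (by linarith : (0:ℝ) < C₆) hrj]
    have hG' : ∀ z (τ : Ω → ℝ≥0), IsST F τ → (∀ ω, τ ω ≤ (n : ℝ≥0)) →
        ∫⁻ ω, G z (τ ω) ω ∂P ≤ G0 z := by
      intro z τ hτ _
      by_cases hz : 0 < z.im
      · simp only [hG_def, hz, if_true]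
        exact h.supg z hz τ hτ
      · simp only [hG_def, hz, if_false, lintegral_zero]
        exact bot_le
    have hfin := lintegral_cost_le (P := P) (ν := volume.restrict H) (Bad := Bad) hST hEA n
      (fun i ω => capT_le) cost 1 Ch hCh G G0 (fun i => (hjmeas i).aemeasurable) hmass' honce hG'
    rw [one_mul] at hfin
    refine le_trans (le_of_eq ?_) hfin
    rw [lintegral_finsetSum]
    · refine Finset.sum_congr rfl fun i _ => ?_
      rw [lintegral_indicator_const
        (measurableSet_of_evST (evST_sel hST hEA i) (fun _ => capT_le)), mul_comm]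
    · intro i _
      exact measurable_const.indicator
        (measurableSet_of_evST (evST_sel hST hEA i) (fun _ => capT_le))
  -- the limit
  have hmono : ∀ i, Monotone (fun n : ℕ => {ω | sel (capT T A n) (capA T A n) Bad ω i}) := by
    intro i n n' hnn ω hω
    have h1 : ω ∈ capA T A (n : ℝ≥0) i := sel.trigger hω
    have h2 : ω ∈ capA T A (n' : ℝ≥0) i := ⟨h1.1, h1.2.trans (by exact_mod_cast hnn)⟩
    exact (sel_cap h2).2 ((sel_cap h1).1 hω)
  have hunion : ∀ i, ⋃ n : ℕ, {ω | sel (capT T A n) (capA T A n) Bad ω i} =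
      {ω | sel T A Bad ω i} := by
    intro i
    ext ω
    simp only [mem_iUnion, mem_ofPred_eq]
    constructor
    · rintro ⟨n, hn⟩
      have h1 : ω ∈ capA T A (n : ℝ≥0) i := sel.trigger hn
      exact (sel_cap h1).1 hn
    · intro hs
      obtain ⟨n, hn⟩ := exists_nat_ge (T i ω)
      exact ⟨n, (sel_cap (n := (n : ℝ≥0)) ⟨hs.trigger, hn⟩).2 hs⟩
  have hlim : ∑ i, P {ω | sel T A Bad ω i} * cost i ≤
      ∫⁻ z in H, ENNReal.ofReal (green κ z) := by
    have ht : Tendsto (fun n : ℕ => ∑ i, P {ω | sel (capT T A n) (capA T A n) Bad ω i} * cost i)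
        atTop (𝓝 (∑ i, P {ω | sel T A Bad ω i} * cost i)) := by
      refine tendsto_finset_sum _ fun i _ => ?_
      refine ENNReal.Tendsto.mul_const ?_ (Or.inr ENNReal.ofReal_ne_top)
      rw [← hunion i]
      exact tendsto_measure_iUnion_atTop (hmono i)
    exact le_of_tendsto' ht hcap
  -- conclusion
  refine ⟨fun p => {ω | ∃ i, pt i = p ∧ sel T A Bad ω i}, ?_, ?_⟩
  · intro ω q hq htr
    set i : Fin J.card := J.equivFin ⟨q, hq⟩ with hi_def
    have hpi : pt i = q := by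
      simp only [hpt_def, hi_def, Equiv.symm_apply_apply]
    have hAi : ω ∈ A i := by
      show Trig (driving κ B ω) (pt i).1 (pt i).2 N δ
      rw [hpi]; exact htr
    rcases exists_sel (T := T) (Bad := Bad) hAi with hs | ⟨j, _, hs, hb⟩
    · refine ⟨pt i, hptJ i, ⟨i, rfl, hs⟩, ?_⟩
      rw [hpi, sub_self, norm_zero]
      have := (hJ q hq).2.1
      positivity
    · refine ⟨pt j, hptJ j, ⟨j, rfl, hs⟩, ?_⟩
      rw [← hpi]
      exact hb
  · refine le_trans (le_of_eq ?_) hlim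
    have hinj : Function.Injective pt := by
      intro i j hij
      exact J.equivFin.symm.injective (Subtype.ext hij)
    have himg : J = Finset.univ.image pt := by
      ext p
      simp only [Finset.mem_image, Finset.mem_univ, true_and]
      constructor
      · intro hp
        exact ⟨J.equivFin ⟨p, hp⟩, by simp only [hpt_def, Equiv.symm_apply_apply]⟩
      · rintro ⟨i, rfl⟩; exact hptJ i
    refine (Finset.sum_congr himg fun p _ => rfl).trans ?_
    rw [Finset.sum_image (fun i _ j _ hij => hinj hij)]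
    refine Finset.sum_congr rfl fun i _ => ?_
    congr 2
    ext ω
    simp only [mem_ofPred_eq]
    constructor
    · rintro ⟨j, hj, hs⟩
      rw [← hinj hj]; exact hs
    · intro hs; exact ⟨i, rfl, hs⟩

end Main

end Crest.Agent.R162.U6F
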