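import Mathlib
import Crest.Agent.R162.U6F
import Crest.Agent.R162.UD
import Crest.Agent.R162.FLB
import Crest.Agent.R162.FLE2
import Crest.Agent.R162.SUPGf

/-!
Row 162, node U6, final assembly (helper620): the inputs of `U6F` from the flow library, the
supermartingale bound SUPG, the node UD and the trigger node U3M.
-/

set_option autoImplicit false
open MeasureTheory ProbabilityTheory Set Filter Topology
open scoped NNReal ENNReal

namespace Crest.Agent.R162.U6F

open Crest.Agent.R162.FL Crest.Agent.R162.OP Crest.Agent.R162.OS Crest.Agent.R162.U6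
  Crest.Agent.R162.UB
open Crest.ProbabilityR.Loewner

universe u

/-- All inputs of U6 except the node U3M (uniqueness and measurability of the trigger). -/
theorem inputs_of {Ω : Type u} {m : MeasurableSpace Ω} {P : Measure Ω} [IsProbabilityMeasure P]
    {F : Filtration ℝ≥0 m} {B : ℝ≥0 → Ω → ℝ} {κ : ℝ}
    (hM : OPM.{u}) (hB : IsBM F B P) (hκ : 0 < κ) (hκ8 : κ < 8)
    (huniq : ∀ (ω : Ω) (w : ℂ) (r N δ σ T σ' T' : ℝ), TrigAt (driving κ B ω) w r N δ σ T →
      TrigAt (driving κ B ω) w r N δ σ' T' → T = T')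
    (hmeas : ∀ (w : ℂ) (r N δ : ℝ) (t : ℝ≥0),
      MeasurableSet[F t] {ω | ∃ σ T, T ≤ (t : ℝ) ∧ TrigAt (driving κ B ω) w r N δ σ T}) :
    Inputs κ P F B where
  cont ω := (FLD.driving_cont hB κ ω).continuousOn
  zero ω := SUPG.driving_zero hB κ ω
  uniq := huniq
  meas w r N δ _ _ _ _ t := hmeas w r N δ t
  evst z _ c τ hτ := FLD.evST_alive_ups hB κ z c hτ
  jset c τ hτ := FLD.measurableSet_alive_ups_at hB κ c hτ
  jfun τ hτ := FLD.measurable_gr_indicator_at hB κ κ hτ
  anti ω z s t hs hst hz := ups_anti (FLD.driving_cont hB κ ω).continuousOn hz hs hst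
  supg z hz τ hτ := SUPG.supg hM hB hκ hκ8 hz hτ
  ud ω z w T hz hw := UD.udStmt _ z w T (FLD.driving_cont hB κ ω).continuousOn hz hw

/-- **Node U6** from OPM and the two statements of node U3M. -/
theorem u6_of {Ω : Type u} {m : MeasurableSpace Ω} {P : Measure Ω} [IsProbabilityMeasure P]
    {F : Filtration ℝ≥0 m} {B : ℝ≥0 → Ω → ℝ} {κ : ℝ}
    (hM : OPM.{u}) (hB : IsBM F B P) (hκ : 0 < κ) (hκ8 : κ < 8)
    (huniq : ∀ (ω : Ω) (w : ℂ) (r N δ σ T σ' T' : ℝ), TrigAt (driving κ B ω) w r N δ σ T →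
      TrigAt (driving κ B ω) w r N δ σ' T' → T = T')
    (hmeas : ∀ (w : ℂ) (r N δ : ℝ) (t : ℝ≥0),
      MeasurableSet[F t] {ω | ∃ σ T, T ≤ (t : ℝ) ∧ TrigAt (driving κ B ω) w r N δ σ T}) :
    U6Stmt κ P B :=
  (inputs_of hM hB hκ hκ8 huniq hmeas).u6

end Crest.Agent.R162.U6F
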