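import Mathlib
import Crest.Agent.R162.U6G
import Crest.Agent.R162.U3M
import Crest.Agent.R162.OPM

/-!
Row 162, node U6 (helper620): the inputs of `U6F` and the node U6, unconditionally.
-/

set_option autoImplicit false
open MeasureTheory ProbabilityTheory Set Filter Topology
open scoped NNReal ENNReal

namespace Crest.Agent.R162.U6F

open Crest.Agent.R162.FL Crest.Agent.R162.OP Crest.Agent.R162.OS Crest.Agent.R162.U6
  Crest.Agent.R162.UB
open Crest.ProbabilityR.Loewner

universe u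

/-- The inputs of node U6, unconditionally. -/
theorem inputs {Ω : Type u} {m : MeasurableSpace Ω} {P : Measure Ω} [IsProbabilityMeasure P]
    {F : Filtration ℝ≥0 m} {B : ℝ≥0 → Ω → ℝ} {κ : ℝ}
    (hB : IsBM F B P) (hκ : 0 < κ) (hκ8 : κ < 8) : Inputs κ P F B :=
  inputs_of Crest.Agent.R162.OPM.opm.{u} hB hκ hκ8
    (fun ω _ _ _ _ _ _ _ _ h h' =>
      (TrigAt.unique (FLD.driving_cont hB κ ω).continuousOn h h').2)
    (fun w r N δ t => U3M.measurableSet_trig hB κ w r N δ t)

/-- **Node U6**, unconditionally. -/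
theorem u6 {Ω : Type u} {m : MeasurableSpace Ω} {P : Measure Ω} [IsProbabilityMeasure P]
    {F : Filtration ℝ≥0 m} {B : ℝ≥0 → Ω → ℝ} {κ : ℝ}
    (hB : IsBM F B P) (hκ : 0 < κ) (hκ8 : κ < 8) : U6Stmt κ P B :=
  (inputs hB hκ hκ8).u6

end Crest.Agent.R162.U6F
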