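import Crest.Agent.R162.U8

/-!
Row 162, node U7 (helper832): the grid of centres at level `K` and the expected cost of the
uncovered points.
-/

set_option autoImplicit false

namespace Crest.Agent.R162.U7

open Crest.ProbabilityR.Loewner MeasureTheory Filter Topology Crest.Agent.R162.U8

/-- mesh of the grid of level `K` -/
noncomputable def mesh (K : ℕ) : ℝ := Real.exp (-(K : ℝ)) / 4

theorem mesh_pos (K : ℕ) : 0 < mesh K := by unfold mesh; positivity

theorem mesh_le (K : ℕ) : mesh K ≤ 1 / 4 := by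
  unfold mesh
  have : Real.exp (-(K : ℝ)) ≤ 1 := Real.exp_le_one_iff.2 (by simp)
  linarith

/-- a lattice point -/
noncomputable def pt (K : ℕ) (p : ℤ × ℕ) : ℂ := ⟨(p.1 : ℝ) * mesh K, (p.2 : ℝ) * mesh K⟩

theorem pt_injective (K : ℕ) : Function.Injective (pt K) := by
  rintro ⟨a, b⟩ ⟨c, d⟩ h
  have h1 := congrArg Complex.re h
  have h2 := congrArg Complex.im h
  simp only [pt] at h1 h2
  have e1 : (a : ℝ) = c := mul_right_cancel₀ (mesh_pos K).ne' h1
  have e2 : (b : ℝ) = d := mul_right_cancel₀ (mesh_pos K).ne' h2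
  have e1' : a = c := by exact_mod_cast e1
  have e2' : b = d := by exact_mod_cast e2
  rw [e1', e2']

/-- number of lattice lines -/
noncomputable def Ng (K : ℕ) (R : ℝ) : ℕ := ⌈(R + 2) / mesh K⌉₊

/-- index set -/
noncomputable def idx (K : ℕ) (R : ℝ) : Finset (ℤ × ℕ) :=
  Finset.Icc (-(Ng K R : ℤ)) (Ng K R) ×ˢ Finset.Icc 1 (Ng K R)

open scoped Classical in
/-- the grid of centres: lattice points of mesh `e^{-K}/4` with `Im ≥ e^{-K/8}`, norm at most `R+1` -/
noncomputable def grid (K : ℕ) (R : ℝ) : Finset ℂ :=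
  ((idx K R).image (pt K)).filter (fun w => Real.exp (-((K : ℝ) / 8)) ≤ w.im ∧ ‖w‖ ≤ R + 1)

theorem mem_grid_im {K : ℕ} {R : ℝ} {w : ℂ} (hw : w ∈ grid K R) :
    Real.exp (-((K : ℝ) / 8)) ≤ w.im := (Finset.mem_filter.1 hw).2.1

theorem mem_grid_im_pos {K : ℕ} {R : ℝ} {w : ℂ} (hw : w ∈ grid K R) : 0 < w.im :=
  lt_of_lt_of_le (Real.exp_pos _) (mem_grid_im hw)

theorem mem_grid_norm {K : ℕ} {R : ℝ} {w : ℂ} (hw : w ∈ grid K R) : ‖w‖ ≤ R + 1 :=
  (Finset.mem_filter.1 hw).2.2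

theorem exp_neg_le (K : ℕ) : Real.exp (-(K : ℝ)) ≤ Real.exp (-((K : ℝ) / 8)) := by
  apply Real.exp_le_exp.2
  have : (0 : ℝ) ≤ K := Nat.cast_nonneg K
  linarith

/-- The ball of radius `e^{-K}` around a centre lies in the half-plane (`1 ≤ K`). -/
theorem ball_subset {K : ℕ} {R : ℝ} {w : ℂ} (hw : w ∈ grid K R) :
    Metric.ball w (Real.exp (-(K : ℝ))) ⊆ halfPlane := by
  intro z hz
  rw [Metric.mem_ball, Complex.dist_eq] at hz
  have h1 : |(z - w).im| ≤ ‖z - w‖ := Complex.abs_im_le_norm _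
  rw [Complex.sub_im] at h1
  have h2 := (abs_le.1 h1).1
  have h3 := mem_grid_im hw
  have h4 := exp_neg_le K
  show 0 < z.im
  linarith

theorem grid_cover {K : ℕ} {R : ℝ} {z : ℂ} (hz : 2 * Real.exp (-((K : ℝ) / 8)) ≤ z.im)
    (hR : ‖z‖ ≤ R) : ∃ w ∈ grid K R, ‖z - w‖ < Real.exp (-(K : ℝ)) / 2 := by
  have hh := mesh_pos K
  have hh4 := mesh_le K
  have hexp := Real.exp_pos (-((K : ℝ) / 8))
  have hR0 : 0 ≤ R := (norm_nonneg z).trans hR
  set m : ℤ := round (z.re / mesh K) with hm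
  set n : ℕ := (round (z.im / mesh K)).toNat with hn
  have hnim : 0 < z.im := by linarith
  have hmesh_im : 8 * mesh K ≤ z.im := by
    have h1 := exp_neg_le K
    have : 8 * mesh K = 2 * Real.exp (-(K : ℝ)) := by unfold mesh; ring
    rw [this]; linarith
  have hq : 8 ≤ z.im / mesh K := by rw [le_div_iff₀ hh]; exact hmesh_im
  have hr1 : |z.im / mesh K - round (z.im / mesh K)| ≤ 1 / 2 := abs_sub_round _
  have hr0 : |z.re / mesh K - m| ≤ 1 / 2 := abs_sub_round _
  have hroundpos : (1 : ℤ) ≤ round (z.im / mesh K) := by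
    have := (abs_le.1 hr1).2
    have h5 : (1 : ℝ) ≤ (round (z.im / mesh K) : ℝ) := by linarith
    exact_mod_cast h5
  have hncast : (n : ℝ) = (round (z.im / mesh K) : ℝ) := by
    have : (n : ℤ) = round (z.im / mesh K) := by
      rw [hn]; exact Int.toNat_of_nonneg (by linarith)
    exact_mod_cast this
  rw [← hncast] at hr1
  have hre : |z.re / mesh K| ≤ R / mesh K := by
    rw [abs_div, abs_of_pos hh]
    exact div_le_div_of_nonneg_right ((Complex.abs_re_le_norm z).trans hR) hh.le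
  have him : z.im / mesh K ≤ R / mesh K :=
    div_le_div_of_nonneg_right (((le_abs_self _).trans (Complex.abs_im_le_norm z)).trans hR) hh.le
  have hone : (1 : ℝ) ≤ 1 / mesh K := by rw [le_div_iff₀ hh]; linarith
  have hsplit : (R + 2) / mesh K = R / mesh K + 2 * (1 / mesh K) := by ring
  have hNg : (R + 2) / mesh K ≤ (Ng K R : ℝ) := Nat.le_ceil _
  have hm1 : |(m : ℝ)| ≤ Ng K R := by
    have h3 : |(m : ℝ)| ≤ |z.re / mesh K| + |z.re / mesh K - m| := by
      have := abs_sub_abs_le_abs_sub (m : ℝ) (z.re / mesh K)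
      rw [abs_sub_comm (m : ℝ)] at this
      linarith
    linarith
  have hn1 : (n : ℝ) ≤ Ng K R := by
    have := (abs_le.1 hr1).1
    linarith
  have hn0 : 1 ≤ n := by
    have : (1 : ℝ) ≤ (n : ℝ) := by rw [hncast]; exact_mod_cast hroundpos
    exact_mod_cast this
  have hidx : (m, n) ∈ idx K R := by
    unfold idx
    rw [Finset.mem_product, Finset.mem_Icc, Finset.mem_Icc]
    have := abs_le.1 hm1
    refine ⟨⟨?_, ?_⟩, hn0, ?_⟩
    · have h5 : (-(Ng K R : ℤ) : ℝ) ≤ (m : ℝ) := by push_cast; linarith [this.1]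
      exact_mod_cast h5
    · have h5 : (m : ℝ) ≤ ((Ng K R : ℤ) : ℝ) := by push_cast; linarith [this.2]
      exact_mod_cast h5
    · exact_mod_cast hn1
  have hdre : |z.re - m * mesh K| ≤ mesh K / 2 := by
    have : z.re - m * mesh K = (z.re / mesh K - m) * mesh K := by field_simp
    rw [this, abs_mul, abs_of_pos hh]
    nlinarith
  have hdim : |z.im - n * mesh K| ≤ mesh K / 2 := by
    have : z.im - n * mesh K = (z.im / mesh K - n) * mesh K := by field_simp
    rw [this, abs_mul, abs_of_pos hh]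
    nlinarith
  have hdist : ‖z - pt K (m, n)‖ ≤ mesh K := by
    refine (Complex.norm_le_abs_re_add_abs_im _).trans ?_
    have e1 : (z - pt K (m, n)).re = z.re - m * mesh K := by simp [pt]
    have e2 : (z - pt K (m, n)).im = z.im - n * mesh K := by simp [pt]
    rw [e1, e2]; linarith
  refine ⟨pt K (m, n), ?_, ?_⟩
  · unfold grid
    rw [Finset.mem_filter]
    refine ⟨Finset.mem_image_of_mem _ hidx, ?_, ?_⟩
    · have e2 : (pt K (m, n)).im = n * mesh K := by simp [pt]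
      rw [e2]
      have := (abs_le.1 hdim).2
      have h7 : mesh K / 2 ≤ Real.exp (-((K : ℝ) / 8)) := by
        have h1 := exp_neg_le K
        unfold mesh; linarith [Real.exp_pos (-(K : ℝ))]
      linarith
    · have : ‖pt K (m, n)‖ ≤ ‖z‖ + ‖z - pt K (m, n)‖ := by
        have := norm_sub_norm_le (pt K (m, n)) z
        rw [norm_sub_rev] at this
        linarith
      linarith
  · refine lt_of_le_of_lt hdist ?_
    unfold mesh; linarith [Real.exp_pos (-(K : ℝ))]

/-- `∑_{n=1}^N n^{s-1} ≤ N^s / s` for `0 < s ≤ 1`. -/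
theorem sum_rpow_le {s : ℝ} (hs : 0 < s) (hs1 : s ≤ 1) (N : ℕ) :
    ∑ n ∈ Finset.Icc 1 N, (n : ℝ) ^ (s - 1) ≤ (N : ℝ) ^ s / s := by
  induction N with
  | zero => simp [Real.zero_rpow hs.ne']
  | succ N ih =>
    rw [Finset.sum_Icc_succ_top (by omega)]
    have hN : (0 : ℝ) < (N : ℝ) + 1 := by positivity
    have hb : (1 + -(1 / ((N : ℝ) + 1))) ^ s ≤ 1 + s * -(1 / ((N : ℝ) + 1)) := by
      apply rpow_one_add_le_one_add_mul_self _ hs.le hs1
      have : 1 / ((N : ℝ) + 1) ≤ 1 := by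
        rw [div_le_one hN]
        have : (0 : ℝ) ≤ N := Nat.cast_nonneg N
        linarith
      linarith
    have e1 : (1 + -(1 / ((N : ℝ) + 1))) = (N : ℝ) / ((N : ℝ) + 1) := by
      field_simp; ring
    rw [e1, Real.div_rpow (Nat.cast_nonneg N) hN.le, div_le_iff₀ (Real.rpow_pos_of_pos hN s)] at hb
    have e2 : (1 + s * -(1 / ((N : ℝ) + 1))) * ((N : ℝ) + 1) ^ s
        = ((N : ℝ) + 1) ^ s - s * ((N : ℝ) + 1) ^ (s - 1) := by
      rw [Real.rpow_sub_one hN.ne']
      ring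
    rw [e2] at hb
    have h3 : (N : ℝ) ^ s / s + ((N : ℝ) + 1) ^ (s - 1) ≤ ((N : ℝ) + 1) ^ s / s := by
      rw [← sub_nonneg]
      have : ((N : ℝ) + 1) ^ s / s - ((N : ℝ) ^ s / s + ((N : ℝ) + 1) ^ (s - 1))
          = (((N : ℝ) + 1) ^ s - s * ((N : ℝ) + 1) ^ (s - 1) - (N : ℝ) ^ s) / s := by
        field_simp; ring
      rw [this]
      exact div_nonneg (by linarith) hs.le
    push_cast
    linarith

/-- Riemann sum of `G_0 ≤ y^{d-2}` over the grid, uniformly bounded. -/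
theorem grid_sum {κ : ℝ} (hκ : 0 < κ) (hκ8 : κ < 8) (R : ℝ) (hR : 0 ≤ R) :
    ∃ C : ℝ, 0 ≤ C ∧ ∀ K : ℕ,
      ∑ w ∈ grid K R, Real.exp (-(2 * (K : ℝ))) * w.im ^ (dimParam κ - 2) ≤ C := by
  set s : ℝ := dimParam κ - 1 with hs
  have hs0 : 0 < s := by have := one_lt_dim hκ; linarith
  have hs1 : s ≤ 1 := by have := dim_lt_two hκ8; linarith
  refine ⟨16 * (2 * R + 7) * ((R + 3) ^ s / s), by positivity, fun K => ?_⟩
  have hh := mesh_pos K
  have hh4 := mesh_le K
  have hexp : Real.exp (-(2 * (K : ℝ))) = 16 * mesh K ^ 2 := by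
    unfold mesh
    rw [div_pow, ← Real.exp_nat_mul]
    push_cast
    ring_nf
  have hds : dimParam κ - 2 = s - 1 := by rw [hs]; ring
  rw [hds]
  have hNg : (Ng K R : ℝ) ≤ (R + 3) / mesh K := by
    have h1 : (Ng K R : ℝ) < (R + 2) / mesh K + 1 := Nat.ceil_lt_add_one (by positivity)
    have hone : (1 : ℝ) ≤ 1 / mesh K := by rw [le_div_iff₀ hh]; linarith
    have : (R + 3) / mesh K = (R + 2) / mesh K + 1 / mesh K := by ring
    linarith
  have hnn : ∀ p ∈ idx K R, 0 ≤ Real.exp (-(2 * (K : ℝ))) * (pt K p).im ^ (s - 1) := by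
    intro p _
    apply mul_nonneg (Real.exp_pos _).le
    apply Real.rpow_nonneg
    simp only [pt]; positivity
  calc ∑ w ∈ grid K R, Real.exp (-(2 * (K : ℝ))) * w.im ^ (s - 1)
      ≤ ∑ w ∈ (idx K R).image (pt K), Real.exp (-(2 * (K : ℝ))) * w.im ^ (s - 1) := by
        refine Finset.sum_le_sum_of_subset_of_nonneg (Finset.filter_subset _ _) ?_
        intro w hw _
        obtain ⟨p, hp, rfl⟩ := Finset.mem_image.1 hw
        exact hnn p hp
    _ = ∑ p ∈ idx K R, Real.exp (-(2 * (K : ℝ))) * (pt K p).im ^ (s - 1) :=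
        Finset.sum_image (fun a _ b _ h => pt_injective K h)
    _ = ∑ m ∈ Finset.Icc (-(Ng K R : ℤ)) (Ng K R), ∑ n ∈ Finset.Icc 1 (Ng K R),
          Real.exp (-(2 * (K : ℝ))) * ((n : ℝ) * mesh K) ^ (s - 1) := by
        unfold idx
        rw [Finset.sum_product]
        rfl
    _ = (2 * (Ng K R : ℝ) + 1) * (Real.exp (-(2 * (K : ℝ))) * mesh K ^ (s - 1) *
          ∑ n ∈ Finset.Icc 1 (Ng K R), (n : ℝ) ^ (s - 1)) := by
        rw [Finset.sum_const, nsmul_eq_mul, Int.card_Icc]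
        have h3 : ((((Ng K R : ℤ) + 1 - -(Ng K R : ℤ)).toNat : ℕ) : ℝ) = 2 * (Ng K R : ℝ) + 1 := by
          have h4 : ((((Ng K R : ℤ) + 1 - -(Ng K R : ℤ)).toNat : ℕ) : ℤ) = 2 * (Ng K R : ℤ) + 1 := by
            have h0 : (0 : ℤ) ≤ (Ng K R : ℤ) := Int.natCast_nonneg _
            rw [Int.toNat_of_nonneg (by linarith)]; ring
          exact_mod_cast h4
        rw [h3]
        congr 1
        rw [Finset.mul_sum]
        refine Finset.sum_congr rfl fun n _ => ?_
        rw [Real.mul_rpow (Nat.cast_nonneg n) hh.le]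
        ring
    _ ≤ ((2 * R + 7) / mesh K) * (16 * mesh K ^ 2 * mesh K ^ (s - 1) *
          (((R + 3) / mesh K) ^ s / s)) := by
        rw [hexp]
        have h5 : 2 * (Ng K R : ℝ) + 1 ≤ (2 * R + 7) / mesh K := by
          have hone : (1 : ℝ) ≤ 1 / mesh K := by rw [le_div_iff₀ hh]; linarith
          have : (2 * R + 7) / mesh K = 2 * ((R + 3) / mesh K) + 1 / mesh K := by ring
          linarith
        have h6 : ∑ n ∈ Finset.Icc 1 (Ng K R), (n : ℝ) ^ (s - 1) ≤ ((R + 3) / mesh K) ^ s / s := by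
          refine (sum_rpow_le hs0 hs1 _).trans ?_
          apply div_le_div_of_nonneg_right _ hs0.le
          exact Real.rpow_le_rpow (Nat.cast_nonneg _) hNg hs0.le
        have h7 : 0 ≤ ∑ n ∈ Finset.Icc 1 (Ng K R), (n : ℝ) ^ (s - 1) :=
          Finset.sum_nonneg fun n _ => Real.rpow_nonneg (Nat.cast_nonneg n) _
        gcongr
    _ = 16 * (2 * R + 7) * ((R + 3) ^ s / s) := by
        rw [Real.div_rpow (by positivity) hh.le, Real.rpow_sub_one hh.ne']
        have : mesh K ^ s ≠ 0 := (Real.rpow_pos_of_pos hh s).ne'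
        field_simp

theorem tendsto_mul_exp_sqrt :
    Tendsto (fun K : ℕ => (K : ℝ) * Real.exp (-(Real.sqrt K))) atTop (𝓝 0) := by
  have h1 := Real.tendsto_pow_mul_exp_neg_atTop_nhds_zero 2
  have h2 : Tendsto (fun K : ℕ => Real.sqrt (K : ℝ)) atTop atTop :=
    Real.tendsto_sqrt_atTop.comp tendsto_natCast_atTop_atTop
  refine (h1.comp h2).congr fun K => ?_
  simp only [Function.comp]
  rw [Real.sq_sqrt (Nat.cast_nonneg K)]

/-- The expected cost of the balls `ball w e^{-K}` of the grid points without trigger: the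
probabilities are at most `C1 e^{-(2-d)K} G_0(w) e^{-√K}` with `G_0(w) ≤ (Im w)^{d-2}`. -/
theorem grid_cost {κ : ℝ} (hκ : 0 < κ) (hκ8 : κ < 8) (R : ℝ) (hR : 0 ≤ R) (C1 : ℝ) (hC1 : 0 ≤ C1) :
    Tendsto (fun K : ℕ => ∑ w ∈ grid K R,
      ENNReal.ofReal (C1 * Real.exp (-((2 - dimParam κ) * K)) * w.im ^ (dimParam κ - 2) *
        Real.exp (-(Real.sqrt K))) * gaugeExt κ (ENNReal.ofReal (2 * Real.exp (-(K : ℝ)))))
      atTop (𝓝 0) := by
  obtain ⟨C, hC0, hC⟩ := grid_sum hκ hκ8 R hR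
  have hlim : Tendsto (fun K : ℕ => ENNReal.ofReal (4 * C1 * C * ((K : ℝ) * Real.exp (-(Real.sqrt K)))))
      atTop (𝓝 0) := by
    have := ENNReal.tendsto_ofReal (tendsto_mul_exp_sqrt.const_mul (4 * C1 * C))
    simpa using this
  refine tendsto_of_tendsto_of_tendsto_of_le_of_le' tendsto_const_nhds hlim
    (Eventually.of_forall fun _ => bot_le) ?_
  have hsmall : ∀ᶠ K : ℕ in atTop, 2 * Real.exp (-(K : ℝ)) ≤ Real.exp (-Real.exp 1) := by
    have h1 : Tendsto (fun K : ℕ => 2 * Real.exp (-(K : ℝ))) atTop (𝓝 (2 * 0)) :=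
      ((Real.tendsto_exp_neg_atTop_nhds_zero.comp tendsto_natCast_atTop_atTop).const_mul 2)
    rw [mul_zero] at h1
    exact (h1.eventually (Iio_mem_nhds (Real.exp_pos _))).mono fun K hK => le_of_lt hK
  filter_upwards [hsmall, eventually_ge_atTop 1] with K hK hK1
  have hKpos : (0 : ℝ) ≤ K := Nat.cast_nonneg K
  have hg : gaugeReal κ (2 * Real.exp (-(K : ℝ))) ≤ 4 * (Real.exp (-(dimParam κ * K)) * K) := by
    refine (gaugeReal_le_log hκ hκ8 (by positivity) hK).trans ?_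
    have h1 : (2 * Real.exp (-(K : ℝ))) ^ dimParam κ ≤ 4 * Real.exp (-(dimParam κ * K)) := by
      rw [Real.mul_rpow (by norm_num) (Real.exp_pos _).le, ← Real.exp_mul]
      have h2 : (2 : ℝ) ^ dimParam κ ≤ 4 := by
        have := Real.rpow_le_rpow_of_exponent_le (by norm_num : (1 : ℝ) ≤ 2) (dim_lt_two hκ8).le
        rw [show (2 : ℝ) ^ (2 : ℝ) = 4 by norm_num] at this
        exact this
      have h3 : -(K : ℝ) * dimParam κ = -(dimParam κ * K) := by ring
      rw [h3]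
      exact mul_le_mul_of_nonneg_right h2 (Real.exp_pos _).le
    have h4 : Real.log (1 / (2 * Real.exp (-(K : ℝ)))) ≤ K := by
      rw [one_div, Real.log_inv, Real.log_mul (by norm_num) (Real.exp_pos _).ne', Real.log_exp]
      have := Real.log_nonneg (by norm_num : (1 : ℝ) ≤ 2)
      linarith
    have h5 : 0 ≤ Real.log (1 / (2 * Real.exp (-(K : ℝ)))) := by
      apply Real.log_nonneg
      rw [le_div_iff₀ (by positivity), one_mul]
      exact hK.trans (Real.exp_le_one_iff.2 (by have := Real.exp_pos 1; linarith))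
    calc (2 * Real.exp (-(K : ℝ))) ^ dimParam κ * Real.log (1 / (2 * Real.exp (-(K : ℝ))))
        ≤ (4 * Real.exp (-(dimParam κ * K))) * K := by gcongr
      _ = 4 * (Real.exp (-(dimParam κ * K)) * K) := by ring
  rw [gaugeExt_ofReal κ (by positivity)]
  have hterm : ∀ w ∈ grid K R,
      ENNReal.ofReal (C1 * Real.exp (-((2 - dimParam κ) * K)) * w.im ^ (dimParam κ - 2) *
        Real.exp (-(Real.sqrt K))) * ENNReal.ofReal (gaugeReal κ (2 * Real.exp (-(K : ℝ))))
      ≤ ENNReal.ofReal (4 * C1 * ((K : ℝ) * Real.exp (-(Real.sqrt K))) *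
          (Real.exp (-(2 * (K : ℝ))) * w.im ^ (dimParam κ - 2))) := by
    intro w hw
    have hw0 : 0 ≤ w.im ^ (dimParam κ - 2) := Real.rpow_nonneg (mem_grid_im_pos hw).le _
    rw [← ENNReal.ofReal_mul (by positivity)]
    apply ENNReal.ofReal_le_ofReal
    have e1 : Real.exp (-(2 * (K : ℝ))) =
        Real.exp (-((2 - dimParam κ) * K)) * Real.exp (-(dimParam κ * K)) := by
      rw [← Real.exp_add]; congr 1; ring
    rw [e1]
    calc C1 * Real.exp (-((2 - dimParam κ) * K)) * w.im ^ (dimParam κ - 2) *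
          Real.exp (-(Real.sqrt K)) * gaugeReal κ (2 * Real.exp (-(K : ℝ)))
        ≤ C1 * Real.exp (-((2 - dimParam κ) * K)) * w.im ^ (dimParam κ - 2) *
          Real.exp (-(Real.sqrt K)) * (4 * (Real.exp (-(dimParam κ * K)) * K)) := by gcongr
      _ = _ := by ring
  refine (Finset.sum_le_sum hterm).trans ?_
  rw [← ENNReal.ofReal_sum_of_nonneg]
  · apply ENNReal.ofReal_le_ofReal
    rw [← Finset.mul_sum]
    calc 4 * C1 * ((K : ℝ) * Real.exp (-(Real.sqrt K))) *
          ∑ w ∈ grid K R, Real.exp (-(2 * (K : ℝ))) * w.im ^ (dimParam κ - 2)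
        ≤ 4 * C1 * ((K : ℝ) * Real.exp (-(Real.sqrt K))) * C :=
          mul_le_mul_of_nonneg_left (hC K) (by positivity)
      _ = _ := by ring
  · intro w hw
    have hw0 : 0 ≤ w.im ^ (dimParam κ - 2) := Real.rpow_nonneg (mem_grid_im_pos hw).le _
    positivity

end Crest.Agent.R162.U7
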