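import Mathlib
import Crest.Prelude.Def_Loewner

/-!
Row 162, node U8 (helper832): the strip near the real line costs nothing, because `d > 1`.
-/

set_option autoImplicit false

namespace Crest.Agent.R162.U8

open Crest.ProbabilityR.Loewner MeasureTheory Filter Topology

theorem one_lt_dim {κ : ℝ} (hκ : 0 < κ) : 1 < dimParam κ := by
  unfold dimParam; linarith

theorem dim_lt_two {κ : ℝ} (hκ8 : κ < 8) : dimParam κ < 2 := by
  unfold dimParam; linarith

/-- `φ(x) ≤ x^d log(1/x)` at small radii. -/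
theorem gaugeReal_le_log {κ : ℝ} (hκ : 0 < κ) (_hκ8 : κ < 8) {x : ℝ} (hx : 0 < x)
    (hx1 : x ≤ Real.exp (-Real.exp 1)) :
    gaugeReal κ x ≤ x ^ dimParam κ * Real.log (1 / x) := by
  unfold gaugeReal
  rw [min_eq_left hx1]
  have hL : Real.exp 1 ≤ Real.log (1 / x) := by
    rw [one_div, Real.log_inv]
    have := Real.log_le_log hx hx1
    rw [Real.log_exp] at this
    linarith
  have hLpos : 0 < Real.log (1 / x) := lt_of_lt_of_le (Real.exp_pos 1) hL
  have hLL : 1 ≤ Real.log (Real.log (1 / x)) := by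
    have := Real.log_le_log (Real.exp_pos 1) hL
    rwa [Real.log_exp] at this
  have hc : (2 - dimParam κ) / 2 ≤ 1 := by
    have := one_lt_dim hκ; linarith
  have h1 : Real.log (Real.log (1 / x)) ^ ((2 - dimParam κ) / 2)
      ≤ Real.log (Real.log (1 / x)) ^ (1 : ℝ) :=
    Real.rpow_le_rpow_of_exponent_le hLL hc
  rw [Real.rpow_one] at h1
  have h2 : Real.log (Real.log (1 / x)) ≤ Real.log (1 / x) := by
    have := Real.log_le_sub_one_of_pos hLpos
    linarith
  have h3 : 0 ≤ x ^ dimParam κ := Real.rpow_nonneg hx.le _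
  exact mul_le_mul_of_nonneg_left (h1.trans h2) h3

theorem gaugeReal_nonneg (κ : ℝ) {x : ℝ} (hx : 0 ≤ x) : 0 ≤ gaugeReal κ x := by
  unfold gaugeReal
  set m := min x (Real.exp (-Real.exp 1)) with hm
  have hm0 : 0 ≤ m := le_min hx (Real.exp_pos _).le
  rcases hm0.eq_or_lt with h0 | hpos
  · rw [← h0]
    simp only [div_zero, Real.log_zero]
    exact mul_nonneg (Real.rpow_nonneg le_rfl _) (Real.rpow_nonneg le_rfl _)
  · have hm1 : m ≤ Real.exp (-Real.exp 1) := min_le_right _ _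
    have hL : Real.exp 1 ≤ Real.log (1 / m) := by
      rw [one_div, Real.log_inv]
      have := Real.log_le_log hpos hm1
      rw [Real.log_exp] at this
      linarith
    have hLL : 1 ≤ Real.log (Real.log (1 / m)) := by
      have := Real.log_le_log (Real.exp_pos 1) hL
      rwa [Real.log_exp] at this
    exact mul_nonneg (Real.rpow_nonneg hm0 _) (Real.rpow_nonneg (by linarith) _)

/-- `φ(x) ≤ η⁻¹ x^{d-η}` at small radii. -/
theorem gaugeReal_le_rpow {κ : ℝ} (hκ : 0 < κ) (hκ8 : κ < 8) {η : ℝ} (hη : 0 < η) {x : ℝ}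
    (hx : 0 < x) (hx1 : x ≤ Real.exp (-Real.exp 1)) :
    gaugeReal κ x ≤ η⁻¹ * x ^ (dimParam κ - η) := by
  refine (gaugeReal_le_log hκ hκ8 hx hx1).trans ?_
  have h1 : Real.log (1 / x) ≤ (1 / x) ^ η / η :=
    Real.log_le_rpow_div (by positivity) hη
  have h2 : (1 / x) ^ η = x ^ (-η) := by
    rw [one_div, Real.inv_rpow hx.le, Real.rpow_neg hx.le]
  rw [h2] at h1
  have h3 : 0 ≤ x ^ dimParam κ := Real.rpow_nonneg hx.le _
  calc x ^ dimParam κ * Real.log (1 / x) ≤ x ^ dimParam κ * (x ^ (-η) / η) :=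
        mul_le_mul_of_nonneg_left h1 h3
    _ = η⁻¹ * (x ^ dimParam κ * x ^ (-η)) := by rw [div_eq_mul_inv]; ring
    _ = η⁻¹ * x ^ (dimParam κ - η) := by
        rw [← Real.rpow_add hx, sub_eq_add_neg]

/-- The number of balls. -/
noncomputable def Nb (R δ : ℝ) : ℤ := ⌈(R + 1) / δ⌉

theorem strip_cover (R : ℝ) (δ : ℝ) (hδ : 0 < δ) (hδ1 : δ ≤ 1) :
    {z : ℂ | 0 ≤ z.im ∧ z.im ≤ 2 * δ ∧ ‖z‖ ≤ R} ⊆
      ⋃ n ∈ Finset.Icc (-Nb R δ) (Nb R δ), Metric.closedBall (((n : ℝ) * δ : ℝ) : ℂ) (3 * δ) := by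
  rintro z ⟨h0, h1, h2⟩
  have hre : |z.re| ≤ R := (Complex.abs_re_le_norm z).trans h2
  set n : ℤ := round (z.re / δ) with hn
  have hround : |z.re / δ - n| ≤ 1 / 2 := abs_sub_round _
  have hdiv : |z.re / δ| ≤ R / δ := by
    rw [abs_div, abs_of_pos hδ]
    exact div_le_div_of_nonneg_right hre hδ.le
  have hone : (1 : ℝ) ≤ 1 / δ := by
    rw [le_div_iff₀ hδ]; linarith
  have hadd : (R + 1) / δ = R / δ + 1 / δ := by rw [add_div]
  have hnabs : |(n : ℝ)| ≤ (R + 1) / δ := by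
    have h3 : |(n : ℝ)| ≤ |z.re / δ| + |z.re / δ - n| := by
      have := abs_sub_abs_le_abs_sub (n : ℝ) (z.re / δ)
      rw [abs_sub_comm (n : ℝ)] at this
      linarith
    rw [hadd]; linarith
  have hceil : (R + 1) / δ ≤ (Nb R δ : ℝ) := Int.le_ceil _
  have hmem : n ∈ Finset.Icc (-Nb R δ) (Nb R δ) := by
    rw [Finset.mem_Icc]
    have := abs_le.1 hnabs
    constructor
    · have h5 : (-(Nb R δ : ℤ) : ℝ) ≤ (n : ℝ) := by push_cast; linarith [this.1]
      exact_mod_cast h5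
    · have h5 : (n : ℝ) ≤ (Nb R δ : ℝ) := by linarith [this.2]
      exact_mod_cast h5
  refine Set.mem_iUnion₂.2 ⟨n, hmem, ?_⟩
  rw [Metric.mem_closedBall, Complex.dist_eq]
  have hz : z - (((n : ℝ) * δ : ℝ) : ℂ) = ((z.re - n * δ : ℝ) : ℂ) + (z.im : ℂ) * Complex.I := by
    apply Complex.ext <;> simp
  rw [hz]
  refine (norm_add_le _ _).trans ?_
  rw [Complex.norm_real, norm_mul, Complex.norm_real, Complex.norm_I, mul_one, Real.norm_eq_abs,
    Real.norm_eq_abs, abs_of_nonneg h0]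
  have h6 : |z.re - n * δ| ≤ δ / 2 := by
    have : z.re - n * δ = (z.re / δ - n) * δ := by field_simp
    rw [this, abs_mul, abs_of_pos hδ]
    nlinarith
  linarith

theorem gaugeExt_ofReal (κ : ℝ) {x : ℝ} (hx : 0 ≤ x) :
    gaugeExt κ (ENNReal.ofReal x) = ENNReal.ofReal (gaugeReal κ x) := by
  unfold gaugeExt
  rw [ENNReal.toReal_ofReal hx]

/-- The deterministic cost of covering the strip tends to `0`. -/
theorem strip_cost {κ : ℝ} (hκ : 0 < κ) (hκ8 : κ < 8) (R : ℝ) (hR : 0 ≤ R) :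
    Tendsto (fun δ : ℝ => ∑ _n ∈ Finset.Icc (-Nb R δ) (Nb R δ),
      gaugeExt κ (ENNReal.ofReal (6 * δ))) (𝓝[>] 0) (𝓝 0) := by
  set η : ℝ := κ / 16 with hη
  have hηpos : 0 < η := by positivity
  set C : ℝ := (2 * (R + 1) + 3) * (η⁻¹ * 6 ^ (dimParam κ - η)) with hC
  have hCnn : 0 ≤ C := by positivity
  have hexp : 0 < dimParam κ - η - 1 := by unfold dimParam; rw [hη]; linarith
  have hlim : Tendsto (fun δ : ℝ => ENNReal.ofReal (C * δ ^ (dimParam κ - η - 1))) (𝓝[>] 0) (𝓝 0) := by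
    have h1 : Tendsto (fun δ : ℝ => C * δ ^ (dimParam κ - η - 1)) (𝓝[>] 0) (𝓝 0) := by
      have h2 : Tendsto (fun δ : ℝ => δ ^ (dimParam κ - η - 1)) (𝓝 0) (𝓝 (0 ^ (dimParam κ - η - 1))) :=
        (Real.continuousAt_rpow_const 0 _ (Or.inr hexp.le)).tendsto
      rw [Real.zero_rpow hexp.ne'] at h2
      have := (h2.const_mul C).mono_left (nhdsWithin_le_nhds (s := Set.Ioi (0:ℝ)))
      simpa using this
    have := ENNReal.tendsto_ofReal h1
    simpa using this
  refine tendsto_of_tendsto_of_tendsto_of_le_of_le' tendsto_const_nhds hlim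
    (Eventually.of_forall fun _ => bot_le) ?_
  have hev : ∀ᶠ δ : ℝ in 𝓝[>] 0, δ < min 1 (Real.exp (-Real.exp 1) / 6) :=
    (nhdsWithin_le_nhds (s := Set.Ioi (0:ℝ))) (Iio_mem_nhds (by positivity))
  filter_upwards [hev, self_mem_nhdsWithin] with δ hδ hδ0
  have hδpos : 0 < δ := hδ0
  have hδ1 : δ < 1 := lt_of_lt_of_le hδ (min_le_left _ _)
  have hδ2 : 6 * δ ≤ Real.exp (-Real.exp 1) := by
    have := lt_of_lt_of_le hδ (min_le_right _ _)
    linarith
  rw [Finset.sum_const, gaugeExt_ofReal κ (by positivity), nsmul_eq_mul]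
  have hcard : ((Finset.Icc (-Nb R δ) (Nb R δ)).card : ℝ) ≤ (2 * (R + 1) + 3) / δ := by
    rw [Int.card_Icc]
    have hN : (Nb R δ : ℝ) < (R + 1) / δ + 1 := Int.ceil_lt_add_one _
    have hN0 : 0 ≤ Nb R δ := Int.ceil_nonneg (by positivity)
    have h3 : (((Nb R δ + 1 - -Nb R δ).toNat : ℕ) : ℝ) = 2 * (Nb R δ : ℝ) + 1 := by
      have h4 : (((Nb R δ + 1 - -Nb R δ).toNat : ℕ) : ℤ) = 2 * Nb R δ + 1 := by
        rw [Int.toNat_of_nonneg (by linarith)]; ring
      exact_mod_cast h4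
    rw [h3]
    have h5 : (3 : ℝ) ≤ 3 / δ := by
      rw [le_div_iff₀ hδpos]; nlinarith
    have h6 : (2 * (R + 1) + 3) / δ = 2 * ((R + 1) / δ) + 3 / δ := by ring
    rw [h6]; linarith
  have hcardE : ((Finset.Icc (-Nb R δ) (Nb R δ)).card : ENNReal)
      ≤ ENNReal.ofReal ((2 * (R + 1) + 3) / δ) := by
    rw [← ENNReal.ofReal_natCast]
    exact ENNReal.ofReal_le_ofReal hcard
  calc ((Finset.Icc (-Nb R δ) (Nb R δ)).card : ENNReal) * ENNReal.ofReal (gaugeReal κ (6 * δ))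
      ≤ ENNReal.ofReal ((2 * (R + 1) + 3) / δ) *
          ENNReal.ofReal (η⁻¹ * (6 * δ) ^ (dimParam κ - η)) := by
        gcongr
        exact gaugeReal_le_rpow hκ hκ8 hηpos (by positivity) hδ2
    _ = ENNReal.ofReal (C * δ ^ (dimParam κ - η - 1)) := by
        rw [← ENNReal.ofReal_mul (by positivity)]
        congr 1
        rw [Real.mul_rpow (by norm_num) hδpos.le, hC,
          Real.rpow_sub_one hδpos.ne']
        ring

/-- The balls of the cover have diameter at most `6 δ`. -/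
theorem ediam_closedBall_le (x : ℂ) {r : ℝ} (hr : 0 ≤ r) :
    Metric.ediam (Metric.closedBall x r) ≤ ENNReal.ofReal (2 * r) := by
  rw [← Metric.closedEBall_ofReal hr, ENNReal.ofReal_mul (by norm_num : (0:ℝ) ≤ 2)]
  simpa using Metric.ediam_closedEBall_le (x := x) (r := ENNReal.ofReal r)

end Crest.Agent.R162.U8
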