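import Crest.Agent.R162.UBFin
import Crest.Agent.R162.U3H
import Crest.Agent.R162.U1B

/-!
Row 162 (S0243): THE UPPER BOUND `Top.UBC κ`, unconditionally (helper744; nodes by many hands).
-/

set_option autoImplicit false

open MeasureTheory ProbabilityTheory
open scoped NNReal ENNReal

namespace Crest.Agent.R162.UB

open Crest.Agent.R162.OS

universe u

theorem u4Stmt {Ω : Type u} {m : MeasurableSpace Ω} {P : Measure Ω} [IsProbabilityMeasure P]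
    {F : Filtration ℝ≥0 m} {B : ℝ≥0 → Ω → ℝ} {κ : ℝ} (hκ : 0 < κ) (hκ8 : κ < 8)
    (hB : IsBM F B P) : U4Stmt κ P B :=
  U3H.u4Stmt_of_u1 hB hκ hκ8 (U1B.u1In OPM.opm.{u} hB hκ hκ8)

/-- **THE UPPER BOUND.** -/
theorem ubc {κ : ℝ} (hκ : 0 < κ) (hκ8 : κ < 8) : Top.UBC.{u} κ :=
  ubc_of_u4 hκ hκ8 (fun _ _ _ _ _ _ hB => u4Stmt hκ hκ8 hB)

end Crest.Agent.R162.UB
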