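import Mathlib
import Crest.Prelude.Def_Loewner
import Crest.Agent.R162.UBDefs
import Crest.Agent.R162.G9a
import Crest.Agent.R162.G9b
import Crest.Agent.R162.Top
import Crest.Agent.R162.U7
import Crest.Agent.R162.U8

/-!
Row 162 (S0243), UPPER BOUND glue (helper744): `U4Stmt + U5Stmt + U6Stmt + TR3Stmt` and the gauge
sums of the nodes U7, U8 give the claim (C) = `Top.UBC`.
-/

set_option autoImplicit false

open MeasureTheory ProbabilityTheory Set Metric Filter Topology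
open scoped NNReal ENNReal

namespace Crest.Agent.R162.UB

open Crest.Agent.R162.FL Crest.Agent.R162.OP Crest.Agent.R162.OS
open Crest.ProbabilityR.Loewner

/-- what the glue needs about the grids (node U7) -/
structure GridHyp (κ R : ℝ) (grid : ℕ → Finset ℂ) : Prop where
  im : ∀ K, ∀ w ∈ grid K, Real.exp (-((K : ℝ) / 8)) ≤ w.im
  norm : ∀ K, ∀ w ∈ grid K, ‖w‖ ≤ R + 1
  cover : ∀ K : ℕ, 1 ≤ K → ∀ z : ℂ, 2 * Real.exp (-((K : ℝ) / 8)) ≤ z.im → ‖z‖ ≤ R →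
    ∃ w ∈ grid K, ‖z - w‖ < Real.exp (-(K : ℝ))
  cost : ∀ C₁ : ℝ, 0 ≤ C₁ → Tendsto (fun K : ℕ => ∑ w ∈ grid K,
    ENNReal.ofReal (C₁ * Real.exp (-((2 - dimParam κ) * K)) * w.im ^ (dimParam κ - 2) *
      Real.exp (-(Real.sqrt K))) * gaugeExt κ (ENNReal.ofReal (2 * Real.exp (-(K : ℝ))))) atTop (𝓝 0)

/-- what the glue needs about the strip (node U8) -/
structure StripHyp (κ R : ℝ) (strip : ℝ → Finset ℤ) : Prop where
  cover : ∀ δ : ℝ, 0 < δ → δ ≤ 1 → {z : ℂ | 0 ≤ z.im ∧ z.im ≤ 2 * δ ∧ ‖z‖ ≤ R} ⊆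
    ⋃ n ∈ strip δ, Metric.closedBall ((n * δ : ℝ) : ℂ) (3 * δ)
  cost : Tendsto (fun δ => ∑ _n ∈ strip δ, gaugeExt κ (ENNReal.ofReal (6 * δ))) (𝓝[>] 0) (𝓝 0)

lemma gridHyp {κ : ℝ} (hκ : 0 < κ) (hκ8 : κ < 8) {R : ℝ} (hR : 0 ≤ R) :
    GridHyp κ R (fun K => U7.grid K R) where
  im := fun K w hw => U7.mem_grid_im hw
  norm := fun K w hw => U7.mem_grid_norm hw
  cover := fun K _ z hz hzR => by
    obtain ⟨w, hw, h⟩ := U7.grid_cover (K := K) hz hzR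
    refine ⟨w, hw, h.trans ?_⟩
    have := Real.exp_pos (-(K : ℝ))
    linarith
  cost := fun C₁ hC₁ => U7.grid_cost hκ hκ8 R hR C₁ hC₁

lemma stripHyp {κ : ℝ} (hκ : 0 < κ) (hκ8 : κ < 8) {R : ℝ} (hR : 0 ≤ R) :
    StripHyp κ R (fun δ => Finset.Icc (-U8.Nb R δ) (U8.Nb R δ)) where
  cover := fun δ hδ hδ1 => U8.strip_cover R δ hδ hδ1
  cost := U8.strip_cost hκ hκ8 R hR

lemma continuousOn_driving {Ω : Type*} {m : MeasurableSpace Ω} {F : Filtration ℝ≥0 m}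
    {B : ℝ≥0 → Ω → ℝ} {P : Measure Ω} (hB : IsBM F B P) (κ : ℝ) (ω : Ω) :
    Continuous (driving κ B ω) := by
  unfold driving
  exact continuous_const.mul ((hB.cont ω).comp continuous_real_toNNReal)

lemma driving_zero {Ω : Type*} {m : MeasurableSpace Ω} {F : Filtration ℝ≥0 m}
    {B : ℝ≥0 → Ω → ℝ} {P : Measure Ω} (hB : IsBM F B P) (κ : ℝ) (ω : Ω) :
    driving κ B ω 0 = 0 := by
  unfold driving
  simp [hB.zero ω]

/-- numerical facts for large `K` -/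
structure BigK (ε₀ N₀ : ℝ) (l₀ K : ℕ) : Prop where
  one : 16 ≤ K
  N1 : 1 ≤ (U4.NN ε₀ K : ℝ)
  N2 : N₀ ≤ (U4.NN ε₀ K : ℝ)
  log : Real.log K ≤ (2 / ε₀) * (U4.NN ε₀ K : ℝ)

lemma eventually_bigK {ε₀ : ℝ} (hε : 0 < ε₀) (N₀ : ℝ) (l₀ : ℕ) :
    ∀ᶠ K : ℕ in atTop, BigK ε₀ N₀ l₀ K := by
  have h1 : Tendsto (fun K : ℕ => ε₀ * Real.log K) atTop atTop :=
    (Real.tendsto_log_atTop.comp tendsto_natCast_atTop_atTop).const_mul_atTop hε
  filter_upwards [eventually_ge_atTop 16, h1.eventually_ge_atTop (max 2 (N₀ + 1))] with K hK hN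
  have h2 : ε₀ * Real.log K < (U4.NN ε₀ K : ℝ) + 1 := Nat.lt_floor_add_one _
  have h3 := le_trans (le_max_left _ _) hN
  have h4 := le_trans (le_max_right _ _) hN
  refine ⟨hK, by linarith, by linarith, ?_⟩
  rw [div_mul_eq_mul_div, le_div_iff₀ hε]
  linarith

/-- the family of pairs `(w, r)` at the level `K` -/
noncomputable def pairs (grid : ℕ → Finset ℂ) (ε₀ : ℝ) (l₀ K : ℕ) : Finset (ℂ × ℝ) :=
  ((grid K) ×ˢ (Finset.range (U4.nBlocks ε₀ 2 l₀ K))).image fun p => (p.1, rsc ε₀ l₀ K p.2)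

lemma mem_pairs {grid : ℕ → Finset ℂ} {ε₀ : ℝ} {l₀ K : ℕ} {p : ℂ × ℝ} :
    p ∈ pairs grid ε₀ l₀ K ↔
      p.1 ∈ grid K ∧ ∃ i < U4.nBlocks ε₀ 2 l₀ K, p.2 = rsc ε₀ l₀ K i := by
  unfold pairs
  simp only [Finset.mem_image, Finset.mem_product, Finset.mem_range, Prod.exists]
  constructor
  · rintro ⟨w, i, ⟨hw, hi⟩, rfl⟩
    exact ⟨hw, i, hi, rfl⟩
  · rintro ⟨hw, i, hi, h⟩
    exact ⟨p.1, i, ⟨hw, hi⟩, by rw [← h]⟩

lemma blockLen_pos {l₀ : ℕ} (hl : 1 ≤ l₀) (N : ℕ) : 1 ≤ U4.blockLen 2 l₀ N := by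
  unfold U4.blockLen; omega

lemma lev_ge (ε₀ : ℝ) (l₀ K i : ℕ) : K / 2 ≤ lev ε₀ l₀ K i := by
  unfold lev; omega

lemma lev_le {ε₀ : ℝ} {l₀ K i : ℕ} (hl : 1 ≤ l₀) (hi : i < U4.nBlocks ε₀ 2 l₀ K) :
    lev ε₀ l₀ K i ≤ K := by
  unfold lev
  set g := U4.blockLen 2 l₀ (U4.NN ε₀ K) with hg
  have hg1 : 1 ≤ g := blockLen_pos hl _
  have h1 : i ≤ K / (4 * g) := by
    have : U4.nBlocks ε₀ 2 l₀ K = K / (4 * g) := rfl
    omega
  have h2 : i * g ≤ K / 4 := by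
    have h3 : i * (4 * g) ≤ K := (Nat.le_div_iff_mul_le (by positivity)).1 h1
    have h4 : 4 * (i * g) ≤ K := by nlinarith
    omega
  omega

lemma rsc_pos (ε₀ : ℝ) (l₀ K i : ℕ) : 0 < rsc ε₀ l₀ K i := Real.exp_pos _

lemma rsc_ge {ε₀ : ℝ} {l₀ K i : ℕ} (hl : 1 ≤ l₀) (hi : i < U4.nBlocks ε₀ 2 l₀ K) :
    Real.exp (-(K : ℝ)) ≤ rsc ε₀ l₀ K i := by
  unfold rsc
  apply Real.exp_le_exp.2
  have : (lev ε₀ l₀ K i : ℝ) ≤ K := by exact_mod_cast lev_le hl hi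
  linarith

lemma rsc_le {ε₀ : ℝ} {l₀ K i : ℕ} : rsc ε₀ l₀ K i ≤ Real.exp (-(((K / 2 : ℕ)) : ℝ)) := by
  unfold rsc
  apply Real.exp_le_exp.2
  have : (((K / 2 : ℕ)) : ℝ) ≤ lev ε₀ l₀ K i := by exact_mod_cast lev_ge ε₀ l₀ K i
  linarith

lemma rsc_lt_im {ε₀ : ℝ} {l₀ K i : ℕ} (hK : 16 ≤ K) {y : ℝ}
    (hy : Real.exp (-((K : ℝ) / 8)) ≤ y) : rsc ε₀ l₀ K i < y := by
  refine lt_of_le_of_lt rsc_le (lt_of_lt_of_le ?_ hy)
  apply Real.exp_lt_exp.2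
  have h1 : K ≤ 2 * (K / 2) + 1 := by omega
  have h2 : (K : ℝ) ≤ 2 * ((K / 2 : ℕ) : ℝ) + 1 := by exact_mod_cast h1
  have h3 : (16 : ℝ) ≤ K := by exact_mod_cast hK
  linarith

lemma rsc_le_one {ε₀ : ℝ} {l₀ K i : ℕ} : rsc ε₀ l₀ K i ≤ 1 := by
  refine rsc_le.trans ?_
  rw [← Real.exp_zero]
  apply Real.exp_le_exp.2
  have : (0:ℝ) ≤ ((K / 2 : ℕ) : ℝ) := Nat.cast_nonneg _
  linarith

/-- radii are lacunary -/
lemma rsc_lacunary {ε₀ : ℝ} {l₀ K i j : ℕ} (hN : 1 ≤ (U4.NN ε₀ K : ℝ)) {L : ℝ} 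
    (hl : L < Real.exp (l₀ : ℝ)) (hlt : rsc ε₀ l₀ K i < rsc ε₀ l₀ K j) :
    L * (U4.NN ε₀ K : ℝ) ^ (1 / 2 : ℝ) * rsc ε₀ l₀ K i < rsc ε₀ l₀ K j := by
  unfold rsc at hlt ⊢
  have h1 := Real.exp_lt_exp.1 hlt
  have h2 : (lev ε₀ l₀ K j : ℝ) < lev ε₀ l₀ K i := by linarith
  have h3 : lev ε₀ l₀ K j < lev ε₀ l₀ K i := by exact_mod_cast h2
  unfold lev at h3
  set g := U4.blockLen 2 l₀ (U4.NN ε₀ K) with hg
  have h4 : j < i := by
    by_contra hcon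
    push Not at hcon
    have := Nat.mul_le_mul_right g hcon
    omega
  have h5 : j * g + g ≤ i * g := by
    have := Nat.mul_le_mul_right g (Nat.succ_le_of_lt h4)
    calc j * g + g = (j + 1) * g := by ring
      _ ≤ i * g := this
  have h6 : lev ε₀ l₀ K j + g ≤ lev ε₀ l₀ K i := by unfold lev; rw [← hg]; omega
  have h7 : (lev ε₀ l₀ K j : ℝ) + g ≤ lev ε₀ l₀ K i := by exact_mod_cast h6
  set N : ℝ := (U4.NN ε₀ K : ℝ) with hNdef
  have hNpos : 0 < N := by linarith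
  have h8 : 2 * Real.log N + l₀ ≤ (g : ℝ) := by
    have : (g : ℝ) = (⌈2 * Real.log (U4.NN ε₀ K : ℝ)⌉₊ : ℝ) + l₀ := by
      rw [hg]; unfold U4.blockLen; push_cast; ring
    rw [this]
    have := Nat.le_ceil (2 * Real.log (U4.NN ε₀ K : ℝ))
    linarith
  have h9 : N ^ (1 / 2 : ℝ) * Real.exp (l₀ : ℝ) ≤ Real.exp (g : ℝ) := by
    have hsq : N ^ (1 / 2 : ℝ) ≤ Real.exp (2 * Real.log N) := by
      rw [Real.rpow_def_of_pos hNpos]
      apply Real.exp_le_exp.2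
      have := Real.log_nonneg hN
      nlinarith
    calc N ^ (1 / 2 : ℝ) * Real.exp (l₀ : ℝ) ≤ Real.exp (2 * Real.log N) * Real.exp (l₀ : ℝ) := by
          gcongr
      _ = Real.exp (2 * Real.log N + l₀) := (Real.exp_add _ _).symm
      _ ≤ Real.exp (g : ℝ) := Real.exp_le_exp.2 h8
  have hNp : 0 < N ^ (1 / 2 : ℝ) := Real.rpow_pos_of_pos hNpos _
  have h10 : L * N ^ (1 / 2 : ℝ) < Real.exp (g : ℝ) := by
    calc L * N ^ (1 / 2 : ℝ) < Real.exp (l₀ : ℝ) * N ^ (1 / 2 : ℝ) := by gcongr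
      _ ≤ Real.exp (g : ℝ) := by rw [mul_comm]; exact h9
  calc L * N ^ (1 / 2 : ℝ) * Real.exp (-(lev ε₀ l₀ K i : ℝ))
      < Real.exp (g : ℝ) * Real.exp (-(lev ε₀ l₀ K i : ℝ)) := by gcongr
    _ = Real.exp ((g : ℝ) + -(lev ε₀ l₀ K i : ℝ)) := (Real.exp_add _ _).symm
    _ ≤ Real.exp (-(lev ε₀ l₀ K j : ℝ)) := Real.exp_le_exp.2 (by linarith)

/-- gauge of the selected balls -/
lemma gauge_rsc_le {κ : ℝ} (hκ : 0 < κ) (hκ8 : κ < 8) {ε₀ N₀ : ℝ} (hε : 0 < ε₀) {l₀ K i : ℕ}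
    (hl : 1 ≤ l₀) (hK : BigK ε₀ N₀ l₀ K) (hi : i < U4.nBlocks ε₀ 2 l₀ K) {C : ℝ} (hC : 1 ≤ C) :
    gaugeReal κ (C * rsc ε₀ l₀ K i) ≤ C ^ dimParam κ * (2 / ε₀) ^ ((2 - dimParam κ) / 2) *
      (rsc ε₀ l₀ K i ^ dimParam κ * (U4.NN ε₀ K : ℝ) ^ ((2 - dimParam κ) / 2)) := by
  have hd2 := G9.dim_lt_two hκ8
  have hr := rsc_pos ε₀ l₀ K i
  refine (G9.gaugeReal_mul_le hκ hκ8 hC hr.le).trans ?_
  have hK16 : (16 : ℝ) ≤ K := by exact_mod_cast hK.one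
  have hlev : (K : ℝ) ≤ 2 * (lev ε₀ l₀ K i : ℝ) + 1 := by
    have h1 := lev_ge ε₀ l₀ K i
    have h2 : K ≤ 2 * lev ε₀ l₀ K i + 1 := by omega
    exact_mod_cast h2
  have he : Real.exp 1 ≤ (lev ε₀ l₀ K i : ℝ) := by
    have := Real.exp_one_lt_d9
    linarith
  have h3 : gaugeReal κ (rsc ε₀ l₀ K i) = rsc ε₀ l₀ K i ^ dimParam κ *
      Real.log (lev ε₀ l₀ K i : ℝ) ^ ((2 - dimParam κ) / 2) := by
    unfold rsc
    rw [G9.gaugeReal_exp_neg he, ← Real.exp_mul]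
    congr 2
    ring
  have hlog1 : 0 ≤ Real.log (lev ε₀ l₀ K i : ℝ) :=
    Real.log_nonneg (by have := Real.add_one_le_exp (1:ℝ); linarith)
  have hlog2 : Real.log (lev ε₀ l₀ K i : ℝ) ≤ (2 / ε₀) * (U4.NN ε₀ K : ℝ) := by
    refine le_trans ?_ hK.log
    apply Real.log_le_log
    · have := Real.exp_pos 1; linarith
    · exact_mod_cast lev_le hl hi
  have hN0 : (0:ℝ) ≤ (U4.NN ε₀ K : ℝ) := Nat.cast_nonneg _
  have h4 : Real.log (lev ε₀ l₀ K i : ℝ) ^ ((2 - dimParam κ) / 2) ≤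
      (2 / ε₀) ^ ((2 - dimParam κ) / 2) * (U4.NN ε₀ K : ℝ) ^ ((2 - dimParam κ) / 2) := by
    rw [← Real.mul_rpow (by positivity) hN0]
    exact Real.rpow_le_rpow hlog1 hlog2 (by linarith)
  rw [h3]
  have hrd : 0 ≤ rsc ε₀ l₀ K i ^ dimParam κ := Real.rpow_nonneg hr.le _
  have hCd : 0 ≤ C ^ dimParam κ := Real.rpow_nonneg (by linarith) _
  calc C ^ dimParam κ * (rsc ε₀ l₀ K i ^ dimParam κ *
        Real.log (lev ε₀ l₀ K i : ℝ) ^ ((2 - dimParam κ) / 2))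
      ≤ C ^ dimParam κ * (rsc ε₀ l₀ K i ^ dimParam κ *
        ((2 / ε₀) ^ ((2 - dimParam κ) / 2) * (U4.NN ε₀ K : ℝ) ^ ((2 - dimParam κ) / 2))) := by
        gcongr
    _ = _ := by ring

/-- THE GLUE: upper bound for a fixed Brownian set-up. -/
theorem ub_glue {κ : ℝ} (hκ : 0 < κ) (hκ8 : κ < 8) {Ω : Type*} {m : MeasurableSpace Ω}
    (P : Measure Ω) [IsProbabilityMeasure P] {F : Filtration ℝ≥0 m} {B : ℝ≥0 → Ω → ℝ}
    (hB : IsBM F B P) (h4 : U4Stmt κ P B) (h5 : U5Stmt κ) (h6 : U6Stmt κ P B) (h3 : TR3Stmt)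
    {γ : Ω → ℝ → ℂ} (hγ : ∀ᵐ ω ∂P, IsChordalTrace (driving κ B ω) (γ ω)) {R : ℝ}
    {grid : ℕ → Finset ℂ} (hgrid : GridHyp κ R grid) {strip : ℝ → Finset ℤ}
    (hstrip : StripHyp κ R strip)
    (hgle : ∀ z : ℂ, 0 < z.im → green κ z ≤ z.im ^ (dimParam κ - 2))
    (hgint : ∀ R : ℝ, ∫⁻ z in {z : ℂ | 0 < z.im ∧ ‖z‖ ≤ R}, ENNReal.ofReal (green κ z) < ⊤) :
    ∃ Φ : Ω → ℝ≥0∞, Measurable Φ ∧ ∫⁻ ω, Φ ω ∂P < ⊤ ∧
      ∀ᵐ ω ∂P, gaugeMeasure κ (γ ω '' Set.Ici 0 ∩ Metric.closedBall 0 R) ≤ Φ ω := by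
  classical
  have hd1 := G9.dim_gt_one hκ
  have hd2 := G9.dim_lt_two hκ8
  obtain ⟨δ, hδ, l₁, h4⟩ := h4
  obtain ⟨C₆, c₅, c, N₀, hC₆, hc₅, hc, hN₀, h5⟩ := h5 δ hδ
  -- choice of `l₀`
  obtain ⟨l₀, hl₀1, hl₀2, hl₀3⟩ : ∃ l₀ : ℕ, l₁ ≤ l₀ ∧ 1 ≤ l₀ ∧
      (2 * C₆ + 4) / c₅ < Real.exp (l₀ : ℝ) := by
    obtain ⟨n, hn⟩ := exists_nat_gt ((2 * C₆ + 4) / c₅)
    refine ⟨max (max l₁ 1) n, (le_max_left _ _).trans (le_max_left _ _),
      (le_max_right _ _).trans (le_max_left _ _), ?_⟩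
    have h1 : (n : ℝ) ≤ ((max (max l₁ 1) n : ℕ) : ℝ) := by exact_mod_cast le_max_right _ _
    have h2 := Real.add_one_le_exp (((max (max l₁ 1) n : ℕ) : ℝ))
    linarith
  obtain ⟨ε₀, hε, hε1, C, hC, h4⟩ := h4 l₀ hl₀1
  set C₉ : ℝ := 22 * C₆ with hC₉
  have hC₉1 : 1 ≤ C₉ := by rw [hC₉]; linarith
  set A₁ : ℝ := C₉ ^ dimParam κ * (2 / ε₀) ^ ((2 - dimParam κ) / 2) with hA₁
  have hA₁0 : 0 ≤ A₁ := by positivity
  set Rm : ℝ := R + 1 + C₆ with hRm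
  set I₀ : ℝ≥0∞ := ∫⁻ z in {z : ℂ | 0 < z.im ∧ ‖z‖ ≤ Rm}, ENNReal.ofReal (green κ z) with hI₀
  have hI₀top : I₀ < ⊤ := hgint Rm
  -- selection for every large K
  have hsel : ∀ᶠ K : ℕ in atTop, ∃ sel : ℂ × ℝ → Set Ω,
      (∀ ω, ∀ q ∈ pairs grid ε₀ l₀ K, Trig (driving κ B ω) q.1 q.2 (U4.NN ε₀ K : ℝ) δ →
        ∃ p ∈ pairs grid ε₀ l₀ K, ω ∈ sel p ∧ ‖q.1 - p.1‖ ≤ 10 * C₆ * p.2) ∧
      ∑ p ∈ pairs grid ε₀ l₀ K, P (sel p) *
        ENNReal.ofReal (c * p.2 ^ dimParam κ * (U4.NN ε₀ K : ℝ) ^ ((2 - dimParam κ) / 2)) ≤ I₀ := by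
    filter_upwards [eventually_bigK hε N₀ l₀] with K hK
    refine h6 δ C₆ c₅ c (U4.NN ε₀ K : ℝ) Rm hδ hC₆ hc₅ hc hK.N1 (pairs grid ε₀ l₀ K) ?_ ?_ ?_
    · intro p hp
      obtain ⟨hw, i, hi, hr⟩ := mem_pairs.1 hp
      have him := hgrid.im K p.1 hw
      refine ⟨lt_of_lt_of_le (Real.exp_pos _) him, ?_, ?_, ?_⟩
      · rw [hr]; exact rsc_pos _ _ _ _
      · rw [hr]; exact rsc_lt_im hK.one him
      · have h1 := hgrid.norm K p.1 hw
        have h2 : p.2 ≤ 1 := by rw [hr]; exact rsc_le_one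
        have h3 : C₆ * p.2 ≤ C₆ * 1 := by gcongr
        rw [hRm]; linarith
    · intro p hp q hq hpq
      obtain ⟨-, i, hi, hr⟩ := mem_pairs.1 hp
      obtain ⟨-, j, hj, hs⟩ := mem_pairs.1 hq
      rw [hr, hs] at hpq
      have := rsc_lacunary hK.N1 hl₀3 hpq
      rw [← hr, ← hs] at this
      have h1 : c₅ * ((2 * C₆ + 4) / c₅ * (U4.NN ε₀ K : ℝ) ^ (1 / 2 : ℝ) * p.2) < c₅ * q.2 := by
        gcongr
      calc (2 * C₆ + 4) * (U4.NN ε₀ K : ℝ) ^ (1 / 2 : ℝ) * p.2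
          = c₅ * ((2 * C₆ + 4) / c₅ * (U4.NN ε₀ K : ℝ) ^ (1 / 2 : ℝ) * p.2) := by
            field_simp
        _ < c₅ * q.2 := h1
    · intro W σ T hW hW0 p hp htr
      obtain ⟨-, i, hi, hr⟩ := mem_pairs.1 hp
      exact h5 W p.1 p.2 (U4.NN ε₀ K : ℝ) σ T hW hW0 hK.N2 (by rw [hr]; exact rsc_pos _ _ _ _) htr
  obtain ⟨K₁, hK₁⟩ := eventually_atTop.1 (hsel.and ((eventually_bigK hε N₀ l₀).and h4))
  choose! sel hsel1 hsel2 using fun (K : ℕ) (hK : K₁ ≤ K) => (hK₁ K hK).1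
  have hbig : ∀ K, K₁ ≤ K → BigK ε₀ N₀ l₀ K := fun K hK => (hK₁ K hK).2.1
  have h4' := fun (K : ℕ) (hK : K₁ ≤ K) => (hK₁ K hK).2.2
  -- the bad event
  set Bad : ℕ → ℂ → Set Ω := fun K w =>
    {ω | Reach (driving κ B ω) w (Real.exp (-((K : ℝ) - 1))) ∧
      NoTrig (driving κ B ω) w ε₀ δ l₀ K} with hBad
  -- index type and candidate sets
  let ι : ℕ → Type := fun K => (↥(pairs grid ε₀ l₀ K)) ⊕ (↥(grid K)) ⊕
    (↥(strip (Real.exp (-((K : ℝ) / 8)))))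
  let S : ∀ K, ι K → Set ℂ := fun K => Sum.elim
    (fun p => Metric.closedBall p.1.1 (11 * C₆ * p.1.2))
    (Sum.elim (fun w => Metric.closedBall w.1 (Real.exp (-(K : ℝ))))
      (fun n => Metric.closedBall ((n.1 * Real.exp (-((K : ℝ) / 8)) : ℝ) : ℂ)
        (3 * Real.exp (-((K : ℝ) / 8)))))
  let E : ∀ K, ι K → Set Ω := fun K => Sum.elim
    (fun p => toMeasurable P (sel K p.1))
    (Sum.elim (fun w => toMeasurable P (Bad K w.1)) (fun _ => Set.univ))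
  let rr : ℕ → ℝ≥0∞ := fun K =>
    ENNReal.ofReal (22 * C₆ * Real.exp (-(((K / 2 : ℕ)) : ℝ)) +
      (2 * Real.exp (-(K : ℝ)) + 6 * Real.exp (-((K : ℝ) / 8))))
  have hexp8 : Tendsto (fun K : ℕ => Real.exp (-((K : ℝ) / 8))) atTop (𝓝 0) := by
    have h1 : Tendsto (fun K : ℕ => (K : ℝ) / 8) atTop atTop :=
      tendsto_natCast_atTop_atTop.atTop_div_const (by norm_num)
    exact Real.tendsto_exp_neg_atTop_nhds_zero.comp h1
  have hrr : Tendsto rr atTop (𝓝 0) := by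
    have h1 : Tendsto (fun K : ℕ => Real.exp (-(((K / 2 : ℕ)) : ℝ))) atTop (𝓝 0) := by
      refine Real.tendsto_exp_neg_atTop_nhds_zero.comp ?_
      exact tendsto_natCast_atTop_atTop.comp (Nat.tendsto_div_const_atTop (by norm_num))
    have h2 : Tendsto (fun K : ℕ => Real.exp (-(K : ℝ))) atTop (𝓝 0) :=
      Real.tendsto_exp_neg_atTop_nhds_zero.comp tendsto_natCast_atTop_atTop
    have h3 := ((h1.const_mul (22 * C₆)).add ((h2.const_mul 2).add (hexp8.const_mul 6)))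
    simp only [mul_zero, add_zero] at h3
    have h4 := ENNReal.tendsto_ofReal h3
    rwa [ENNReal.ofReal_zero] at h4
  have hS : ∀ K i, Metric.ediam (S K i) ≤ rr K := by
    intro K i
    have hC60 : 0 ≤ C₆ := by linarith
    have e1 := Real.exp_pos (-(((K / 2 : ℕ)) : ℝ))
    have e2 := Real.exp_pos (-(K : ℝ))
    have e3 := Real.exp_pos (-((K : ℝ) / 8))
    rcases i with p | w | n
    · obtain ⟨-, i, hi, hr⟩ := mem_pairs.1 p.2
      have hp0 : 0 < p.1.2 := by rw [hr]; exact rsc_pos _ _ _ _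
      refine (U8.ediam_closedBall_le p.1.1 (r := 11 * C₆ * p.1.2) (by positivity)).trans ?_
      apply ENNReal.ofReal_le_ofReal
      have h1 : p.1.2 ≤ Real.exp (-(((K / 2 : ℕ)) : ℝ)) := by rw [hr]; exact rsc_le
      have h2 : C₆ * p.1.2 ≤ C₆ * Real.exp (-(((K / 2 : ℕ)) : ℝ)) := by gcongr
      nlinarith
    · refine (U8.ediam_closedBall_le w.1 (r := Real.exp (-(K : ℝ))) e2.le).trans ?_
      apply ENNReal.ofReal_le_ofReal
      have : 0 ≤ 22 * C₆ * Real.exp (-(((K / 2 : ℕ)) : ℝ)) := by positivity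
      linarith
    · refine (U8.ediam_closedBall_le _ (r := 3 * Real.exp (-((K : ℝ) / 8))) (by positivity)).trans ?_
      apply ENNReal.ofReal_le_ofReal
      have : 0 ≤ 22 * C₆ * Real.exp (-(((K / 2 : ℕ)) : ℝ)) := by positivity
      linarith
  have hE : ∀ K i, MeasurableSet (E K i) := by
    intro K i
    rcases i with p | w | n
    · exact measurableSet_toMeasurable _ _
    · exact measurableSet_toMeasurable _ _
    · exact MeasurableSet.univ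
  -- the cost bound
  have hcost : ∀ᶠ K in atTop, ∑' i, P (E K i) * gaugeExt κ (Metric.ediam (S K i)) ≤
      ENNReal.ofReal (A₁ / c) * I₀ + (1 + 1) := by
    have hgc := hgrid.cost C hC.le
    have hsc := hstrip.cost.comp (tendsto_nhdsWithin_iff.2 ⟨hexp8, Eventually.of_forall
      fun K => (Real.exp_pos _ : (0:ℝ) < Real.exp (-((K : ℝ) / 8)))⟩)
    filter_upwards [eventually_ge_atTop K₁, hgc.eventually_le_const (show (0:ℝ≥0∞) < 1 by simp),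
      hsc.eventually_le_const (show (0:ℝ≥0∞) < 1 by simp)] with K hK hg1 hs1
    rw [tsum_fintype, Fintype.sum_sum_type, Fintype.sum_sum_type]
    refine add_le_add ?_ (add_le_add ?_ ?_)
    · -- selected balls
      have hstep : ∀ p : ↥(pairs grid ε₀ l₀ K),
          P (E K (Sum.inl p)) * gaugeExt κ (Metric.ediam (S K (Sum.inl p))) ≤
          ENNReal.ofReal (A₁ / c) * (P (sel K p.1) * ENNReal.ofReal (c * p.1.2 ^ dimParam κ *
            (U4.NN ε₀ K : ℝ) ^ ((2 - dimParam κ) / 2))) := by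
        intro p
        obtain ⟨-, i, hi, hr⟩ := mem_pairs.1 p.2
        have hp0 : 0 < p.1.2 := by rw [hr]; exact rsc_pos _ _ _ _
        have h1 : gaugeExt κ (Metric.ediam (S K (Sum.inl p))) ≤
            ENNReal.ofReal (gaugeReal κ (C₉ * p.1.2)) := by
          rw [← U8.gaugeExt_ofReal κ (by positivity)]
          refine G9.gaugeExt_mono hκ hκ8 ENNReal.ofReal_ne_top ?_
          refine (U8.ediam_closedBall_le p.1.1 (r := 11 * C₆ * p.1.2) (by positivity)).trans ?_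
          apply ENNReal.ofReal_le_ofReal
          rw [hC₉]; linarith
        have h2 : gaugeReal κ (C₉ * p.1.2) ≤ A₁ * (p.1.2 ^ dimParam κ *
            (U4.NN ε₀ K : ℝ) ^ ((2 - dimParam κ) / 2)) := by
          rw [hr]
          exact gauge_rsc_le hκ hκ8 hε hl₀2 (hbig K hK) hi hC₉1
        have h3 : P (E K (Sum.inl p)) = P (sel K p.1) := measure_toMeasurable _
        rw [h3]
        calc P (sel K p.1) * gaugeExt κ (Metric.ediam (S K (Sum.inl p)))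
            ≤ P (sel K p.1) * ENNReal.ofReal (A₁ * (p.1.2 ^ dimParam κ *
              (U4.NN ε₀ K : ℝ) ^ ((2 - dimParam κ) / 2))) := by
              gcongr
              exact h1.trans (ENNReal.ofReal_le_ofReal h2)
          _ = P (sel K p.1) * (ENNReal.ofReal (A₁ / c) * ENNReal.ofReal (c * p.1.2 ^ dimParam κ *
              (U4.NN ε₀ K : ℝ) ^ ((2 - dimParam κ) / 2))) := by
              rw [← ENNReal.ofReal_mul (by positivity)]
              congr 2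
              field_simp
          _ = _ := by ring
      refine (Finset.sum_le_sum fun p _ => hstep p).trans ?_
      rw [← Finset.mul_sum]
      gcongr
      refine le_trans (le_of_eq ?_) (hsel2 K hK)
      exact Finset.sum_coe_sort (pairs grid ε₀ l₀ K) (fun p => P (sel K p) *
        ENNReal.ofReal (c * p.2 ^ dimParam κ * (U4.NN ε₀ K : ℝ) ^ ((2 - dimParam κ) / 2)))
    · -- bad small balls
      refine le_trans ?_ hg1
      rw [← Finset.sum_coe_sort (grid K)]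
      refine Finset.sum_le_sum fun w _ => ?_
      have h3 : P (E K (Sum.inr (Sum.inl w))) = P (Bad K w.1) := measure_toMeasurable _
      rw [h3]
      have him := hgrid.im K w.1 w.2
      have him0 : 0 < w.1.im := lt_of_lt_of_le (Real.exp_pos _) him
      refine mul_le_mul' ?_ ?_
      · refine (h4' K hK w.1 him).trans ?_
        apply ENNReal.ofReal_le_ofReal
        have := hgle w.1 him0
        have hx := Real.exp_pos (-((2 - dimParam κ) * (K : ℝ)))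
        gcongr
      · refine G9.gaugeExt_mono hκ hκ8 ENNReal.ofReal_ne_top ?_
        exact U8.ediam_closedBall_le w.1 (r := Real.exp (-(K : ℝ))) (Real.exp_pos _).le
    · -- strip
      refine le_trans ?_ hs1
      simp only [Function.comp]
      rw [← Finset.sum_coe_sort (strip (Real.exp (-((K : ℝ) / 8))))]
      refine Finset.sum_le_sum fun n _ => ?_
      have h3 : P (E K (Sum.inr (Sum.inr n))) = 1 := measure_univ
      rw [h3, one_mul]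
      refine G9.gaugeExt_mono hκ hκ8 ENNReal.ofReal_ne_top ?_
      refine (U8.ediam_closedBall_le _ (r := 3 * Real.exp (-((K : ℝ) / 8))) (by positivity)).trans ?_
      apply ENNReal.ofReal_le_ofReal
      linarith
  -- the covering property
  have hcov : ∀ᵐ ω ∂P, ∀ᶠ K in atTop, ∀ z ∈ γ ω '' Set.Ici 0 ∩ Metric.closedBall 0 R,
      ∃ i, ω ∈ E K i ∧ z ∈ S K i := by
    filter_upwards [hγ] with ω hω
    filter_upwards [eventually_ge_atTop K₁] with K hK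
    rintro z ⟨⟨t, ht, rfl⟩, hzR⟩
    have ht0 : 0 ≤ t := ht
    have hzR' : ‖γ ω t‖ ≤ R := by simpa [Metric.mem_closedBall, dist_zero_right] using hzR
    have hB16 := (hbig K hK).one
    by_cases him : 2 * Real.exp (-((K : ℝ) / 8)) ≤ (γ ω t).im
    · obtain ⟨w, hw, hzw⟩ := hgrid.cover K (by omega) (γ ω t) him hzR'
      have hwim := hgrid.im K w hw
      have hexpK : Real.exp (-(K : ℝ)) ≤ Real.exp (-((K : ℝ) / 8)) := by
        apply Real.exp_le_exp.2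
        have : (0 : ℝ) ≤ K := Nat.cast_nonneg K
        linarith
      have hball : ball w (Real.exp (-(K : ℝ))) ⊆ halfPlane := by
        intro y hy
        rw [Metric.mem_ball, Complex.dist_eq] at hy
        have h1 : |(y - w).im| ≤ ‖y - w‖ := Complex.abs_im_le_norm _
        rw [Complex.sub_im] at h1
        have h2 := (abs_le.1 h1).1
        show 0 < y.im
        linarith
      have hzw' : γ ω t ∈ ball w (Real.exp (-(K : ℝ))) := by
        rw [Metric.mem_ball, Complex.dist_eq]; exact hzw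
      have hreach := h3 (driving κ B ω) (γ ω) w (Real.exp (-(K : ℝ))) t
        (continuousOn_driving hB κ ω).continuousOn hω ht0 (Real.exp_pos _) hball hzw'
      have hreach' : Reach (driving κ B ω) w (Real.exp (-((K : ℝ) - 1))) := by
        obtain ⟨s, hs0, hs1, hs2⟩ := hreach
        refine ⟨s, hs0, hs1, hs2.trans ?_⟩
        have e1 : Real.exp (-((K : ℝ) - 1)) = Real.exp 1 * Real.exp (-(K : ℝ)) := by
          rw [← Real.exp_add]; congr 1; ring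
        rw [e1]
        have e2 := Real.exp_pos (-(K : ℝ))
        have e3 := Real.add_one_le_exp (1:ℝ)
        nlinarith
      by_cases hnt : NoTrig (driving κ B ω) w ε₀ δ l₀ K
      · refine ⟨Sum.inr (Sum.inl ⟨w, hw⟩), ?_, ?_⟩
        · exact subset_toMeasurable P _ (show ω ∈ Bad K w from ⟨hreach', hnt⟩)
        · show γ ω t ∈ Metric.closedBall w (Real.exp (-(K : ℝ)))
          exact ball_subset_closedBall hzw'
      · unfold NoTrig at hnt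
        push Not at hnt
        obtain ⟨i, hi, htr⟩ := hnt
        have hq : (w, rsc ε₀ l₀ K i) ∈ pairs grid ε₀ l₀ K := mem_pairs.2 ⟨hw, i, hi, rfl⟩
        obtain ⟨p, hp, hωp, hdist⟩ := hsel1 K hK ω _ hq htr
        refine ⟨Sum.inl ⟨p, hp⟩, subset_toMeasurable P _ hωp, ?_⟩
        show γ ω t ∈ Metric.closedBall p.1 (11 * C₆ * p.2)
        obtain ⟨-, j, hj, hr⟩ := mem_pairs.1 hp
        have h1 : Real.exp (-(K : ℝ)) ≤ p.2 := by rw [hr]; exact rsc_ge hl₀2 hj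
        have h2 : p.2 ≤ C₆ * p.2 := by
          have : 0 < p.2 := lt_of_lt_of_le (Real.exp_pos _) h1
          nlinarith
        rw [Metric.mem_closedBall, Complex.dist_eq]
        calc ‖γ ω t - p.1‖ = ‖(γ ω t - w) + (w - p.1)‖ := by ring_nf
          _ ≤ ‖γ ω t - w‖ + ‖w - p.1‖ := norm_add_le _ _
          _ ≤ C₆ * p.2 + 10 * C₆ * p.2 := by
              have : ‖w - p.1‖ ≤ 10 * C₆ * p.2 := hdist
              linarith
          _ = 11 * C₆ * p.2 := by ring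
    · push Not at him
      have hmem : γ ω t ∈ {z : ℂ | 0 ≤ z.im ∧ z.im ≤ 2 * Real.exp (-((K : ℝ) / 8)) ∧ ‖z‖ ≤ R} :=
        ⟨hω.mem_closure t ht0, him.le, hzR'⟩
      have hle1 : Real.exp (-((K : ℝ) / 8)) ≤ 1 := by
        apply Real.exp_le_one_iff.2
        have : (0 : ℝ) ≤ K := Nat.cast_nonneg K
        linarith
      have := hstrip.cover _ (Real.exp_pos _) hle1 hmem
      simp only [Set.mem_iUnion] at this
      obtain ⟨n, hn, hz⟩ := this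
      exact ⟨Sum.inr (Sum.inr ⟨n, hn⟩), Set.mem_univ _, hz⟩
  obtain ⟨G, hG1, hG2, hG3⟩ := G9.exists_measurable_bound_of_events hκ hrr S E hS hE hcost hcov
  refine ⟨G, hG1, hG3.trans_lt ?_, hG2⟩
  exact ENNReal.add_lt_top.2 ⟨ENNReal.mul_lt_top ENNReal.ofReal_lt_top hI₀top, by norm_num⟩

universe u

/-- The target `Top.UBC` from the node statements. -/
theorem ubc_of {κ : ℝ} (hκ : 0 < κ) (hκ8 : κ < 8)
    (h4 : ∀ (Ω : Type u) [m : MeasurableSpace Ω] (P : Measure Ω) [IsProbabilityMeasure P]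
      (F : Filtration ℝ≥0 m) (B : ℝ≥0 → Ω → ℝ), IsBM F B P → U4Stmt κ P B)
    (h5 : U5Stmt κ)
    (h6 : ∀ (Ω : Type u) [m : MeasurableSpace Ω] (P : Measure Ω) [IsProbabilityMeasure P]
      (F : Filtration ℝ≥0 m) (B : ℝ≥0 → Ω → ℝ), IsBM F B P → U6Stmt κ P B)
    (h3 : TR3Stmt)
    (hgle : ∀ z : ℂ, 0 < z.im → green κ z ≤ z.im ^ (dimParam κ - 2))
    (hgint : ∀ R : ℝ, ∫⁻ z in {z : ℂ | 0 < z.im ∧ ‖z‖ ≤ R}, ENNReal.ofReal (green κ z) < ⊤) :
    Top.UBC.{u} κ := by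
  intro Ω m P _ F B hB γ hγ R
  rcases lt_or_ge R 0 with hR | hR
  · refine ⟨fun _ => 0, measurable_const, by simp, Eventually.of_forall fun ω => ?_⟩
    rw [Metric.closedBall_eq_empty.2 hR, Set.inter_empty, measure_empty]
  · exact ub_glue hκ hκ8 P hB (h4 Ω P F B hB) h5 (h6 Ω P F B hB) h3 hγ (gridHyp hκ hκ8 hR)
      (stripHyp hκ hκ8 hR) hgle hgint

end Crest.Agent.R162.UB
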